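import Vale.Agent.Lib.P154.PChain.BH.R5_0

set_option linter.all false

namespace Vale.Agent.Lib.P154.PChain.BH.S6

open Vale.Agent.Lib.P154.Chain

noncomputable def pc0 : PT := (PT.nd (nat_lit 3389880) (PT.nd (nat_lit 3202680) (PT.nd (nat_lit 3155724) (PT.nd (nat_lit 3062124) (PT.nd (nat_lit 3062046) (PT.nd (nat_lit 3015246) PT.nil (PT.lf (nat_lit 76) (nat_lit 3) (nat_lit 1) (nat_lit 1) (nat_lit 193) (nat_lit 64) (nat_lit 193))) (PT.lf (nat_lit 152) (nat_lit 6) (nat_lit 2) (nat_lit 3) (nat_lit 192) (nat_lit 65) (nat_lit 193))) (PT.nd (nat_lit 46800) (PT.lf (nat_lit 152) (nat_lit 6) (nat_lit 2) (nat_lit 1) (nat_lit 193) (nat_lit 65) (nat_lit 192)) (PT.lf (nat_lit 304) (nat_lit 3) (nat_lit 4) (nat_lit 1) (nat_lit 192) (nat_lit 66) (nat_lit 192)))) (PT.nd (nat_lit 46800) (PT.nd (nat_lit 78) (PT.lf (nat_lit 380) (nat_lit 6) (nat_lit 5) (nat_lit 3) (nat_lit 191) (nat_lit 67) (nat_lit 192)) (PT.lf (nat_lit 380)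 (nat_lit 6) (nat_lit 5) (nat_lit 1) (nat_lit 192) (nat_lit 67) (nat_lit 191))) (PT.nd (nat_lit 78) (PT.lf (nat_lit 456) (nat_lit 6) (nat_lit 6) (nat_lit 3) (nat_lit 190) (nat_lit 68) (nat_lit 192)) (PT.lf (nat_lit 532) (nat_lit 3) (nat_lit 7) (nat_lit 1) (nat_lit 191) (nat_lit 68) (nat_lit 191))))) (PT.nd (nat_lit 93600) (PT.nd (nat_lit 46800) (PT.nd (nat_lit 46722) (PT.lf (nat_lit 456) (nat_lit 6) (nat_lit 6) (nat_lit 1) (nat_lit 192) (nat_lit 68) (nat_lit 190)) (PT.lf (nat_lit 608) (nat_lit 6) (nat_lit 8) (nat_lit 3) (nat_lit 190) (nat_lit 69) (nat_lit 191))) (PT.nd (nat_lit 46722) (PT.lf (nat_lit 608) (nat_lit 6) (nat_lit 8) (nat_lit 1) (nat_lit 191) (nat_lit 69) (nat_lit 190)) (PT.lf (nat_lit 684) (nat_lit 6) (nat_lit 9) (nat_lit 3) (nat_lit 189) (nat_lit 70) (nat_lit 191)))) (PT.nd (nat_lit 46800) (PT.nd (nat_lit 78) (PT.lf (nat_lit 760) (nat_lit 3) (nat_lit 10) (nat_lit 1) (nat_lit 190) (nat_lit 70)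 (nat_lit 190)) (PT.lf (nat_lit 684) (nat_lit 6) (nat_lit 9) (nat_lit 1) (nat_lit 191) (nat_lit 70) (nat_lit 189))) (PT.nd (nat_lit 78) (PT.lf (nat_lit 836) (nat_lit 6) (nat_lit 11) (nat_lit 3) (nat_lit 189) (nat_lit 71) (nat_lit 190)) (PT.lf (nat_lit 836) (nat_lit 6) (nat_lit 11) (nat_lit 1) (nat_lit 190) (nat_lit 71) (nat_lit 189)))))) (PT.nd (nat_lit 140556) (PT.nd (nat_lit 46956) (PT.nd (nat_lit 156) (PT.nd (nat_lit 78) (PT.lf (nat_lit 912) (nat_lit 6) (nat_lit 12) (nat_lit 3) (nat_lit 188) (nat_lit 72) (nat_lit 190)) (PT.lf (nat_lit 988) (nat_lit 3) (nat_lit 13) (nat_lit 1) (nat_lit 189) (nat_lit 72) (nat_lit 189))) (PT.nd (nat_lit 46722) (PT.lf (nat_lit 912) (nat_lit 6) (nat_lit 12) (nat_lit 1) (nat_lit 190) (nat_lit 72) (nat_lit 188)) (PT.lf (nat_lit 1064) (nat_lit 6) (nat_lit 14) (nat_lit 3) (nat_lit 188) (nat_lit 73) (nat_lit 189)))) (PT.nd (nat_lit 46800) (PT.nd (nat_lit 46722) (PT.lf (nat_lit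 1064) (nat_lit 6) (nat_lit 14) (nat_lit 1) (nat_lit 189) (nat_lit 73) (nat_lit 188)) (PT.lf (nat_lit 1140) (nat_lit 6) (nat_lit 15) (nat_lit 3) (nat_lit 187) (nat_lit 74) (nat_lit 189))) (PT.nd (nat_lit 78) (PT.lf (nat_lit 1216) (nat_lit 3) (nat_lit 16) (nat_lit 1) (nat_lit 188) (nat_lit 74) (nat_lit 188)) (PT.lf (nat_lit 1140) (nat_lit 6) (nat_lit 15) (nat_lit 1) (nat_lit 189) (nat_lit 74) (nat_lit 187))))) (PT.nd (nat_lit 46956) (PT.nd (nat_lit 46800) (PT.nd (nat_lit 78) (PT.lf (nat_lit 1292) (nat_lit 6) (nat_lit 17) (nat_lit 3) (nat_lit 187) (nat_lit 75) (nat_lit 188)) (PT.lf (nat_lit 1292) (nat_lit 6) (nat_lit 17) (nat_lit 1) (nat_lit 188) (nat_lit 75) (nat_lit 187))) (PT.nd (nat_lit 78) (PT.lf (nat_lit 1368) (nat_lit 6) (nat_lit 18) (nat_lit 3) (nat_lit 186) (nat_lit 76) (nat_lit 188)) (PT.lf (nat_lit 1444) (nat_lit 3) (nat_lit 19) (nat_lit 1) (nat_lit 187) (nat_lit 76) (nat_lit 187)))) (PT.nd (nat_lit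 46800) (PT.nd (nat_lit 46722) (PT.lf (nat_lit 1368) (nat_lit 6) (nat_lit 18) (nat_lit 1) (nat_lit 188) (nat_lit 76) (nat_lit 186)) (PT.lf (nat_lit 1520) (nat_lit 6) (nat_lit 20) (nat_lit 3) (nat_lit 186) (nat_lit 77) (nat_lit 187))) (PT.nd (nat_lit 46722) (PT.lf (nat_lit 1520) (nat_lit 6) (nat_lit 20) (nat_lit 1) (nat_lit 187) (nat_lit 77) (nat_lit 186)) (PT.lf (nat_lit 1596) (nat_lit 6) (nat_lit 21) (nat_lit 3) (nat_lit 185) (nat_lit 78) (nat_lit 187)))))))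
noncomputable def pc1 : PT := (PT.nd (nat_lit 281112) (PT.nd (nat_lit 140556) (PT.nd (nat_lit 93600) (PT.nd (nat_lit 46800) (PT.nd (nat_lit 78) (PT.lf (nat_lit 1672) (nat_lit 3) (nat_lit 22) (nat_lit 1) (nat_lit 186) (nat_lit 78) (nat_lit 186)) (PT.lf (nat_lit 1596) (nat_lit 6) (nat_lit 21) (nat_lit 1) (nat_lit 187) (nat_lit 78) (nat_lit 185))) (PT.nd (nat_lit 78) (PT.lf (nat_lit 1748) (nat_lit 6) (nat_lit 23) (nat_lit 3) (nat_lit 185) (nat_lit 79) (nat_lit 186)) (PT.lf (nat_lit 1748) (nat_lit 6) (nat_lit 23) (nat_lit 1) (nat_lit 186) (nat_lit 79) (nat_lit 185)))) (PT.nd (nat_lit 156) (PT.nd (nat_lit 78) (PT.lf (nat_lit 1824) (nat_lit 6) (nat_lit 24) (nat_lit 3) (nat_lit 184) (nat_lit 80) (nat_lit 186)) (PT.lf (nat_lit 1900) (nat_lit 3) (nat_lit 25) (nat_lit 1) (nat_lit 185) (nat_lit 80) (nat_lit 185))) (PT.nd (nat_lit 46722) (PT.lf (nat_lit 1824) (nat_lit 6) (nat_lit 24) (nat_lit 1) (nat_lit 186) (nat_lit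 80) (nat_lit 184)) (PT.lf (nat_lit 1976) (nat_lit 6) (nat_lit 26) (nat_lit 3) (nat_lit 184) (nat_lit 81) (nat_lit 185))))) (PT.nd (nat_lit 93600) (PT.nd (nat_lit 46800) (PT.nd (nat_lit 46722) (PT.lf (nat_lit 1976) (nat_lit 6) (nat_lit 26) (nat_lit 1) (nat_lit 185) (nat_lit 81) (nat_lit 184)) (PT.lf (nat_lit 2052) (nat_lit 6) (nat_lit 27) (nat_lit 3) (nat_lit 183) (nat_lit 82) (nat_lit 185))) (PT.nd (nat_lit 78) (PT.lf (nat_lit 2128) (nat_lit 3) (nat_lit 28) (nat_lit 1) (nat_lit 184) (nat_lit 82) (nat_lit 184)) (PT.lf (nat_lit 2052) (nat_lit 6) (nat_lit 27) (nat_lit 1) (nat_lit 185) (nat_lit 82) (nat_lit 183)))) (PT.nd (nat_lit 46800) (PT.nd (nat_lit 78) (PT.lf (nat_lit 2204) (nat_lit 6) (nat_lit 29) (nat_lit 3) (nat_lit 183) (nat_lit 83) (nat_lit 184)) (PT.lf (nat_lit 2204) (nat_lit 6) (nat_lit 29) (nat_lit 1) (nat_lit 184) (nat_lit 83) (nat_lit 183))) (PT.nd (nat_lit 78) (PT.lf (nat_lit 2280) (nat_lit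 6) (nat_lit 30) (nat_lit 3) (nat_lit 182) (nat_lit 84) (nat_lit 184)) (PT.lf (nat_lit 2356) (nat_lit 3) (nat_lit 31) (nat_lit 1) (nat_lit 183) (nat_lit 84) (nat_lit 183)))))) (PT.nd (nat_lit 140322) (PT.nd (nat_lit 46878) (PT.nd (nat_lit 46722) (PT.nd (nat_lit 46644) (PT.lf (nat_lit 2280) (nat_lit 6) (nat_lit 30) (nat_lit 1) (nat_lit 184) (nat_lit 84) (nat_lit 182)) (PT.lf (nat_lit 2432) (nat_lit 6) (nat_lit 32) (nat_lit 3) (nat_lit 181) (nat_lit 85) (nat_lit 184))) (PT.nd (nat_lit 78) (PT.lf (nat_lit 2508) (nat_lit 6) (nat_lit 33) (nat_lit 3) (nat_lit 182) (nat_lit 85) (nat_lit 183)) (PT.lf (nat_lit 2508) (nat_lit 6) (nat_lit 33) (nat_lit 1) (nat_lit 183) (nat_lit 85) (nat_lit 182)))) (PT.nd (nat_lit 46722) (PT.nd (nat_lit 46644) (PT.lf (nat_lit 2432) (nat_lit 6) (nat_lit 32) (nat_lit 1) (nat_lit 184) (nat_lit 85) (nat_lit 181)) (PT.lf (nat_lit 2584) (nat_lit 6) (nat_lit 34) (nat_lit 3) (nat_lit 181) (nat_lit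 86) (nat_lit 183))) (PT.nd (nat_lit 78) (PT.lf (nat_lit 2660) (nat_lit 3) (nat_lit 35) (nat_lit 1) (nat_lit 182) (nat_lit 86) (nat_lit 182)) (PT.lf (nat_lit 2584) (nat_lit 6) (nat_lit 34) (nat_lit 1) (nat_lit 183) (nat_lit 86) (nat_lit 181))))) (PT.nd (nat_lit 46878) (PT.nd (nat_lit 156) (PT.nd (nat_lit 78) (PT.lf (nat_lit 2736) (nat_lit 6) (nat_lit 36) (nat_lit 3) (nat_lit 180) (nat_lit 87) (nat_lit 183)) (PT.lf (nat_lit 2812) (nat_lit 6) (nat_lit 37) (nat_lit 3) (nat_lit 181) (nat_lit 87) (nat_lit 182))) (PT.nd (nat_lit 78) (PT.lf (nat_lit 2812) (nat_lit 6) (nat_lit 37) (nat_lit 1) (nat_lit 182) (nat_lit 87) (nat_lit 181)) (PT.lf (nat_lit 2736) (nat_lit 6) (nat_lit 36) (nat_lit 1) (nat_lit 183) (nat_lit 87) (nat_lit 180)))) (PT.nd (nat_lit 156) (PT.nd (nat_lit 78) (PT.lf (nat_lit 2888) (nat_lit 6) (nat_lit 38) (nat_lit 3) (nat_lit 180) (nat_lit 88) (nat_lit 182)) (PT.lf (nat_lit 2964) (nat_lit 3) (nat_lit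 39) (nat_lit 1) (nat_lit 181) (nat_lit 88) (nat_lit 181))) (PT.nd (nat_lit 46644) (PT.lf (nat_lit 2888) (nat_lit 6) (nat_lit 38) (nat_lit 1) (nat_lit 182) (nat_lit 88) (nat_lit 180)) (PT.nd (nat_lit 78) (PT.lf (nat_lit 3040) (nat_lit 6) (nat_lit 40) (nat_lit 3) (nat_lit 179) (nat_lit 89) (nat_lit 182)) (PT.lf (nat_lit 3116) (nat_lit 6) (nat_lit 41) (nat_lit 3) (nat_lit 180) (nat_lit 89) (nat_lit 181))))))))
noncomputable def pc2 : PT := (PT.nd (nat_lit 234078) (PT.nd (nat_lit 93756) (PT.nd (nat_lit 46878) (PT.nd (nat_lit 46722) (PT.nd (nat_lit 78) (PT.lf (nat_lit 3116) (nat_lit 6) (nat_lit 41) (nat_lit 1) (nat_lit 181) (nat_lit 89) (nat_lit 180)) (PT.lf (nat_lit 3040) (nat_lit 6) (nat_lit 40) (nat_lit 1) (nat_lit 182) (nat_lit 89) (nat_lit 179))) (PT.nd (nat_lit 78) (PT.lf (nat_lit 3192) (nat_lit 6) (nat_lit 42) (nat_lit 3) (nat_lit 179) (nat_lit 90) (nat_lit 181)) (PT.lf (nat_lit 3268) (nat_lit 3) (nat_lit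 43) (nat_lit 1) (nat_lit 180) (nat_lit 90) (nat_lit 180)))) (PT.nd (nat_lit 46722) (PT.nd (nat_lit 46644) (PT.lf (nat_lit 3192) (nat_lit 6) (nat_lit 42) (nat_lit 1) (nat_lit 181) (nat_lit 90) (nat_lit 179)) (PT.lf (nat_lit 3344) (nat_lit 6) (nat_lit 44) (nat_lit 3) (nat_lit 178) (nat_lit 91) (nat_lit 181))) (PT.nd (nat_lit 78) (PT.lf (nat_lit 3420) (nat_lit 6) (nat_lit 45) (nat_lit 3) (nat_lit 179) (nat_lit 91) (nat_lit 180)) (PT.lf (nat_lit 3420) (nat_lit 6) (nat_lit 45) (nat_lit 1) (nat_lit 180) (nat_lit 91) (nat_lit 179))))) (PT.nd (nat_lit 93444) (PT.nd (nat_lit 46722) (PT.nd (nat_lit 46644) (PT.lf (nat_lit 3344) (nat_lit 6) (nat_lit 44) (nat_lit 1) (nat_lit 181) (nat_lit 91) (nat_lit 178)) (PT.lf (nat_lit 3496) (nat_lit 6) (nat_lit 46) (nat_lit 3) (nat_lit 178) (nat_lit 92) (nat_lit 180))) (PT.nd (nat_lit 78) (PT.lf (nat_lit 3572) (nat_lit 3) (nat_lit 47) (nat_lit 1) (nat_lit 179) (nat_lit 92) (nat_lit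 179)) (PT.lf (nat_lit 3496) (nat_lit 6) (nat_lit 46) (nat_lit 1) (nat_lit 180) (nat_lit 92) (nat_lit 178)))) (PT.nd (nat_lit 156) (PT.nd (nat_lit 78) (PT.lf (nat_lit 3648) (nat_lit 6) (nat_lit 48) (nat_lit 3) (nat_lit 177) (nat_lit 93) (nat_lit 180)) (PT.lf (nat_lit 3724) (nat_lit 6) (nat_lit 49) (nat_lit 3) (nat_lit 178) (nat_lit 93) (nat_lit 179))) (PT.nd (nat_lit 78) (PT.lf (nat_lit 3724) (nat_lit 6) (nat_lit 49) (nat_lit 1) (nat_lit 179) (nat_lit 93) (nat_lit 178)) (PT.lf (nat_lit 3648) (nat_lit 6) (nat_lit 48) (nat_lit 1) (nat_lit 180) (nat_lit 93) (nat_lit 177)))))) (PT.nd (nat_lit 93678) (PT.nd (nat_lit 46878) (PT.nd (nat_lit 156) (PT.nd (nat_lit 78) (PT.lf (nat_lit 3876) (nat_lit 6) (nat_lit 51) (nat_lit 3) (nat_lit 177) (nat_lit 94) (nat_lit 179)) (PT.lf (nat_lit 3952) (nat_lit 3) (nat_lit 52) (nat_lit 1) (nat_lit 178) (nat_lit 94) (nat_lit 178))) (PT.nd (nat_lit 46644) (PT.lf (nat_lit 3876) (nat_lit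 6) (nat_lit 51) (nat_lit 1) (nat_lit 179) (nat_lit 94) (nat_lit 177)) (PT.lf (nat_lit 4028) (nat_lit 6) (nat_lit 53) (nat_lit 3) (nat_lit 176) (nat_lit 95) (nat_lit 179)))) (PT.nd (nat_lit 156) (PT.nd (nat_lit 78) (PT.lf (nat_lit 4104) (nat_lit 6) (nat_lit 54) (nat_lit 3) (nat_lit 177) (nat_lit 95) (nat_lit 178)) (PT.lf (nat_lit 4104) (nat_lit 6) (nat_lit 54) (nat_lit 1) (nat_lit 178) (nat_lit 95) (nat_lit 177))) (PT.nd (nat_lit 46566) (PT.lf (nat_lit 4028) (nat_lit 6) (nat_lit 53) (nat_lit 1) (nat_lit 179) (nat_lit 95) (nat_lit 176)) (PT.lf (nat_lit 4180) (nat_lit 6) (nat_lit 55) (nat_lit 3) (nat_lit 175) (nat_lit 96) (nat_lit 179))))) (PT.nd (nat_lit 46800) (PT.nd (nat_lit 156) (PT.nd (nat_lit 78) (PT.lf (nat_lit 4256) (nat_lit 6) (nat_lit 56) (nat_lit 3) (nat_lit 176) (nat_lit 96) (nat_lit 178)) (PT.lf (nat_lit 4332) (nat_lit 3) (nat_lit 57) (nat_lit 1) (nat_lit 177) (nat_lit 96) (nat_lit 177))) (PT.nd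 (nat_lit 78) (PT.lf (nat_lit 4256) (nat_lit 6) (nat_lit 56) (nat_lit 1) (nat_lit 178) (nat_lit 96) (nat_lit 176)) (PT.lf (nat_lit 4180) (nat_lit 6) (nat_lit 55) (nat_lit 1) (nat_lit 179) (nat_lit 96) (nat_lit 175)))) (PT.nd (nat_lit 156) (PT.nd (nat_lit 78) (PT.lf (nat_lit 4408) (nat_lit 6) (nat_lit 58) (nat_lit 3) (nat_lit 175) (nat_lit 97) (nat_lit 178)) (PT.lf (nat_lit 4484) (nat_lit 6) (nat_lit 59) (nat_lit 3) (nat_lit 176) (nat_lit 97) (nat_lit 177))) (PT.nd (nat_lit 78) (PT.lf (nat_lit 4484) (nat_lit 6) (nat_lit 59) (nat_lit 1) (nat_lit 177) (nat_lit 97) (nat_lit 176)) (PT.nd (nat_lit 46566) (PT.lf (nat_lit 4408) (nat_lit 6) (nat_lit 58) (nat_lit 1) (nat_lit 178) (nat_lit 97) (nat_lit 175)) (PT.lf (nat_lit 4560) (nat_lit 6) (nat_lit 60) (nat_lit 3) (nat_lit 174) (nat_lit 98) (nat_lit 178))))))))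
noncomputable def pc3 : PT := (PT.nd (nat_lit 140634) (PT.nd (nat_lit 93600) (PT.nd (nat_lit 46800) (PT.nd (nat_lit 156) (PT.nd (nat_lit 78) (PT.lf (nat_lit 4636) (nat_lit 6) (nat_lit 61) (nat_lit 3) (nat_lit 175) (nat_lit 98) (nat_lit 177)) (PT.lf (nat_lit 4712) (nat_lit 3) (nat_lit 62) (nat_lit 1) (nat_lit 176) (nat_lit 98) (nat_lit 176))) (PT.nd (nat_lit 78) (PT.lf (nat_lit 4636) (nat_lit 6) (nat_lit 61) (nat_lit 1) (nat_lit 177) (nat_lit 98) (nat_lit 175)) (PT.lf (nat_lit 4560) (nat_lit 6) (nat_lit 60) (nat_lit 1) (nat_lit 178) (nat_lit 98) (nat_lit 174)))) (PT.nd (nat_lit 156) (PT.nd (nat_lit 78) (PT.lf (nat_lit 4788) (nat_lit 6) (nat_lit 63) (nat_lit 3) (nat_lit 174) (nat_lit 99) (nat_lit 177)) (PT.lf (nat_lit 4864) (nat_lit 6) (nat_lit 64) (nat_lit 3) (nat_lit 175) (nat_lit 99) (nat_lit 176))) (PT.nd (nat_lit 78) (PT.lf (nat_lit 4864) (nat_lit 6) (nat_lit 64) (nat_lit 1) (nat_lit 176) (nat_lit 99)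 (nat_lit 175)) (PT.lf (nat_lit 4788) (nat_lit 6) (nat_lit 63) (nat_lit 1) (nat_lit 177) (nat_lit 99) (nat_lit 174))))) (PT.nd (nat_lit 312) (PT.nd (nat_lit 156) (PT.nd (nat_lit 78) (PT.lf (nat_lit 4940) (nat_lit 6) (nat_lit 65) (nat_lit 3) (nat_lit 173) (nat_lit 100) (nat_lit 177)) (PT.lf (nat_lit 5016) (nat_lit 6) (nat_lit 66) (nat_lit 3) (nat_lit 174) (nat_lit 100) (nat_lit 176))) (PT.nd (nat_lit 78) (PT.lf (nat_lit 5092) (nat_lit 3) (nat_lit 67) (nat_lit 1) (nat_lit 175) (nat_lit 100) (nat_lit 175)) (PT.lf (nat_lit 5016) (nat_lit 6) (nat_lit 66) (nat_lit 1) (nat_lit 176) (nat_lit 100) (nat_lit 174)))) (PT.nd (nat_lit 46566) (PT.nd (nat_lit 46488) (PT.lf (nat_lit 4940) (nat_lit 6) (nat_lit 65) (nat_lit 1) (nat_lit 177) (nat_lit 100) (nat_lit 173)) (PT.lf (nat_lit 5168) (nat_lit 6) (nat_lit 68) (nat_lit 3) (nat_lit 172) (nat_lit 101) (nat_lit 177))) (PT.nd (nat_lit 78) (PT.lf (nat_lit 5244) (nat_lit 6)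 (nat_lit 69) (nat_lit 3) (nat_lit 173) (nat_lit 101) (nat_lit 176)) (PT.lf (nat_lit 5320) (nat_lit 6) (nat_lit 70) (nat_lit 3) (nat_lit 174) (nat_lit 101) (nat_lit 175)))))) (PT.nd (nat_lit 93444) (PT.nd (nat_lit 46722) (PT.nd (nat_lit 156) (PT.nd (nat_lit 78) (PT.lf (nat_lit 5320) (nat_lit 6) (nat_lit 70) (nat_lit 1) (nat_lit 175) (nat_lit 101) (nat_lit 174)) (PT.lf (nat_lit 5244) (nat_lit 6) (nat_lit 69) (nat_lit 1) (nat_lit 176) (nat_lit 101) (nat_lit 173))) (PT.nd (nat_lit 46488) (PT.lf (nat_lit 5168) (nat_lit 6) (nat_lit 68) (nat_lit 1) (nat_lit 177) (nat_lit 101) (nat_lit 172)) (PT.lf (nat_lit 5396) (nat_lit 6) (nat_lit 71) (nat_lit 3) (nat_lit 172) (nat_lit 102) (nat_lit 176)))) (PT.nd (nat_lit 156) (PT.nd (nat_lit 78) (PT.lf (nat_lit 5472) (nat_lit 6) (nat_lit 72) (nat_lit 3) (nat_lit 173) (nat_lit 102) (nat_lit 175)) (PT.lf (nat_lit 5548) (nat_lit 3) (nat_lit 73) (nat_lit 1) (nat_lit 174) (nat_lit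 102) (nat_lit 174))) (PT.nd (nat_lit 78) (PT.lf (nat_lit 5472) (nat_lit 6) (nat_lit 72) (nat_lit 1) (nat_lit 175) (nat_lit 102) (nat_lit 173)) (PT.lf (nat_lit 5396) (nat_lit 6) (nat_lit 71) (nat_lit 1) (nat_lit 176) (nat_lit 102) (nat_lit 172))))) (PT.nd (nat_lit 312) (PT.nd (nat_lit 156) (PT.nd (nat_lit 78) (PT.lf (nat_lit 5624) (nat_lit 6) (nat_lit 74) (nat_lit 3) (nat_lit 171) (nat_lit 103) (nat_lit 176)) (PT.lf (nat_lit 5700) (nat_lit 6) (nat_lit 75) (nat_lit 3) (nat_lit 172) (nat_lit 103) (nat_lit 175))) (PT.nd (nat_lit 78) (PT.lf (nat_lit 5776) (nat_lit 6) (nat_lit 76) (nat_lit 3) (nat_lit 173) (nat_lit 103) (nat_lit 174)) (PT.lf (nat_lit 5776) (nat_lit 6) (nat_lit 76) (nat_lit 1) (nat_lit 174) (nat_lit 103) (nat_lit 173)))) (PT.nd (nat_lit 46566) (PT.nd (nat_lit 78) (PT.lf (nat_lit 5700) (nat_lit 6) (nat_lit 75) (nat_lit 1) (nat_lit 175) (nat_lit 103) (nat_lit 172)) (PT.lf (nat_lit 5624) (nat_lit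 6) (nat_lit 74) (nat_lit 1) (nat_lit 176) (nat_lit 103) (nat_lit 171))) (PT.nd (nat_lit 78) (PT.lf (nat_lit 5852) (nat_lit 6) (nat_lit 77) (nat_lit 3) (nat_lit 171) (nat_lit 104) (nat_lit 175)) (PT.nd (nat_lit 78) (PT.lf (nat_lit 5928) (nat_lit 6) (nat_lit 78) (nat_lit 3) (nat_lit 172) (nat_lit 104) (nat_lit 174)) (PT.lf (nat_lit 6004) (nat_lit 3) (nat_lit 79) (nat_lit 1) (nat_lit 173) (nat_lit 104) (nat_lit 173))))))))
noncomputable def pc4 : PT := (PT.nd (nat_lit 140478) (PT.nd (nat_lit 93444) (PT.nd (nat_lit 46722) (PT.nd (nat_lit 46566) (PT.nd (nat_lit 78) (PT.lf (nat_lit 5928) (nat_lit 6) (nat_lit 78) (nat_lit 1) (nat_lit 174) (nat_lit 104) (nat_lit 172)) (PT.lf (nat_lit 5852) (nat_lit 6) (nat_lit 77) (nat_lit 1) (nat_lit 175) (nat_lit 104) (nat_lit 171))) (PT.nd (nat_lit 78) (PT.lf (nat_lit 6080) (nat_lit 6) (nat_lit 80) (nat_lit 3) (nat_lit 170) (nat_lit 105) (nat_lit 175)) (PT.lf (nat_lit 6156)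 (nat_lit 6) (nat_lit 81) (nat_lit 3) (nat_lit 171) (nat_lit 105) (nat_lit 174)))) (PT.nd (nat_lit 156) (PT.nd (nat_lit 78) (PT.lf (nat_lit 6232) (nat_lit 6) (nat_lit 82) (nat_lit 3) (nat_lit 172) (nat_lit 105) (nat_lit 173)) (PT.lf (nat_lit 6232) (nat_lit 6) (nat_lit 82) (nat_lit 1) (nat_lit 173) (nat_lit 105) (nat_lit 172))) (PT.nd (nat_lit 78) (PT.lf (nat_lit 6156) (nat_lit 6) (nat_lit 81) (nat_lit 1) (nat_lit 174) (nat_lit 105) (nat_lit 171)) (PT.lf (nat_lit 6080) (nat_lit 6) (nat_lit 80) (nat_lit 1) (nat_lit 175) (nat_lit 105) (nat_lit 170))))) (PT.nd (nat_lit 312) (PT.nd (nat_lit 156) (PT.nd (nat_lit 78) (PT.lf (nat_lit 6308) (nat_lit 6) (nat_lit 83) (nat_lit 3) (nat_lit 170) (nat_lit 106) (nat_lit 174)) (PT.lf (nat_lit 6384) (nat_lit 6) (nat_lit 84) (nat_lit 3) (nat_lit 171) (nat_lit 106) (nat_lit 173))) (PT.nd (nat_lit 78) (PT.lf (nat_lit 6460) (nat_lit 3) (nat_lit 85) (nat_lit 1) (nat_lit 172) (nat_lit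 106) (nat_lit 172)) (PT.lf (nat_lit 6384) (nat_lit 6) (nat_lit 84) (nat_lit 1) (nat_lit 173) (nat_lit 106) (nat_lit 171)))) (PT.nd (nat_lit 46566) (PT.nd (nat_lit 46488) (PT.lf (nat_lit 6308) (nat_lit 6) (nat_lit 83) (nat_lit 1) (nat_lit 174) (nat_lit 106) (nat_lit 170)) (PT.lf (nat_lit 6536) (nat_lit 6) (nat_lit 86) (nat_lit 3) (nat_lit 169) (nat_lit 107) (nat_lit 174))) (PT.nd (nat_lit 78) (PT.lf (nat_lit 6612) (nat_lit 6) (nat_lit 87) (nat_lit 3) (nat_lit 170) (nat_lit 107) (nat_lit 173)) (PT.lf (nat_lit 6688) (nat_lit 6) (nat_lit 88) (nat_lit 3) (nat_lit 171) (nat_lit 107) (nat_lit 172)))))) (PT.nd (nat_lit 46956) (PT.nd (nat_lit 46644) (PT.nd (nat_lit 156) (PT.nd (nat_lit 78) (PT.lf (nat_lit 6688) (nat_lit 6) (nat_lit 88) (nat_lit 1) (nat_lit 172) (nat_lit 107) (nat_lit 171)) (PT.lf (nat_lit 6612) (nat_lit 6) (nat_lit 87) (nat_lit 1) (nat_lit 173) (nat_lit 107) (nat_lit 170))) (PT.nd (nat_lit 46410)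 (PT.lf (nat_lit 6536) (nat_lit 6) (nat_lit 86) (nat_lit 1) (nat_lit 174) (nat_lit 107) (nat_lit 169)) (PT.lf (nat_lit 6764) (nat_lit 6) (nat_lit 89) (nat_lit 3) (nat_lit 168) (nat_lit 108) (nat_lit 174)))) (PT.nd (nat_lit 156) (PT.nd (nat_lit 78) (PT.lf (nat_lit 6840) (nat_lit 6) (nat_lit 90) (nat_lit 3) (nat_lit 169) (nat_lit 108) (nat_lit 173)) (PT.lf (nat_lit 6916) (nat_lit 6) (nat_lit 91) (nat_lit 3) (nat_lit 170) (nat_lit 108) (nat_lit 172))) (PT.nd (nat_lit 78) (PT.lf (nat_lit 6992) (nat_lit 3) (nat_lit 92) (nat_lit 1) (nat_lit 171) (nat_lit 108) (nat_lit 171)) (PT.lf (nat_lit 6916) (nat_lit 6) (nat_lit 91) (nat_lit 1) (nat_lit 172) (nat_lit 108) (nat_lit 170))))) (PT.nd (nat_lit 46644) (PT.nd (nat_lit 46488) (PT.nd (nat_lit 78) (PT.lf (nat_lit 6840) (nat_lit 6) (nat_lit 90) (nat_lit 1) (nat_lit 173) (nat_lit 108) (nat_lit 169)) (PT.lf (nat_lit 6764) (nat_lit 6) (nat_lit 89) (nat_lit 1) (nat_lit 174)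 (nat_lit 108) (nat_lit 168))) (PT.nd (nat_lit 78) (PT.lf (nat_lit 7068) (nat_lit 6) (nat_lit 93) (nat_lit 3) (nat_lit 168) (nat_lit 109) (nat_lit 173)) (PT.lf (nat_lit 7144) (nat_lit 6) (nat_lit 94) (nat_lit 3) (nat_lit 169) (nat_lit 109) (nat_lit 172)))) (PT.nd (nat_lit 156) (PT.nd (nat_lit 78) (PT.lf (nat_lit 7220) (nat_lit 6) (nat_lit 95) (nat_lit 3) (nat_lit 170) (nat_lit 109) (nat_lit 171)) (PT.lf (nat_lit 7220) (nat_lit 6) (nat_lit 95) (nat_lit 1) (nat_lit 171) (nat_lit 109) (nat_lit 170))) (PT.nd (nat_lit 78) (PT.lf (nat_lit 7144) (nat_lit 6) (nat_lit 94) (nat_lit 1) (nat_lit 172) (nat_lit 109) (nat_lit 169)) (PT.lf (nat_lit 7068) (nat_lit 6) (nat_lit 93) (nat_lit 1) (nat_lit 173) (nat_lit 109) (nat_lit 168)))))))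
noncomputable def pc5 : PT := (PT.nd (nat_lit 93756) (PT.nd (nat_lit 46878) (PT.nd (nat_lit 312) (PT.nd (nat_lit 156) (PT.nd (nat_lit 78) (PT.lf (nat_lit 7296) (nat_lit 6) (nat_lit 96) (nat_lit 3) (nat_lit 167) (nat_lit 110) (nat_lit 173)) (PT.lf (nat_lit 7372) (nat_lit 6) (nat_lit 97) (nat_lit 3) (nat_lit 168) (nat_lit 110) (nat_lit 172))) (PT.nd (nat_lit 78) (PT.lf (nat_lit 7448) (nat_lit 6) (nat_lit 98) (nat_lit 3) (nat_lit 169) (nat_lit 110) (nat_lit 171)) (PT.lf (nat_lit 7524) (nat_lit 3) (nat_lit 99) (nat_lit 1) (nat_lit 170) (nat_lit 110) (nat_lit 170)))) (PT.nd (nat_lit 156) (PT.nd (nat_lit 78) (PT.lf (nat_lit 7448) (nat_lit 6) (nat_lit 98) (nat_lit 1) (nat_lit 171) (nat_lit 110) (nat_lit 169)) (PT.lf (nat_lit 7372) (nat_lit 6) (nat_lit 97) (nat_lit 1) (nat_lit 172) (nat_lit 110) (nat_lit 168))) (PT.nd (nat_lit 46332) (PT.lf (nat_lit 7296) (nat_lit 6) (nat_lit 96) (nat_lit 1) (nat_lit 173) (nat_lit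 110) (nat_lit 167)) (PT.lf (nat_lit 7600) (nat_lit 6) (nat_lit 100) (nat_lit 3) (nat_lit 166) (nat_lit 111) (nat_lit 173))))) (PT.nd (nat_lit 312) (PT.nd (nat_lit 156) (PT.nd (nat_lit 78) (PT.lf (nat_lit 7676) (nat_lit 6) (nat_lit 101) (nat_lit 3) (nat_lit 167) (nat_lit 111) (nat_lit 172)) (PT.lf (nat_lit 7752) (nat_lit 6) (nat_lit 102) (nat_lit 3) (nat_lit 168) (nat_lit 111) (nat_lit 171))) (PT.nd (nat_lit 78) (PT.lf (nat_lit 7828) (nat_lit 6) (nat_lit 103) (nat_lit 3) (nat_lit 169) (nat_lit 111) (nat_lit 170)) (PT.lf (nat_lit 7828) (nat_lit 6) (nat_lit 103) (nat_lit 1) (nat_lit 170) (nat_lit 111) (nat_lit 169)))) (PT.nd (nat_lit 156) (PT.nd (nat_lit 78) (PT.lf (nat_lit 7752) (nat_lit 6) (nat_lit 102) (nat_lit 1) (nat_lit 171) (nat_lit 111) (nat_lit 168)) (PT.lf (nat_lit 7676) (nat_lit 6) (nat_lit 101) (nat_lit 1) (nat_lit 172) (nat_lit 111) (nat_lit 167))) (PT.nd (nat_lit 46332) (PT.lf (nat_lit 7600)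 (nat_lit 6) (nat_lit 100) (nat_lit 1) (nat_lit 173) (nat_lit 111) (nat_lit 166)) (PT.lf (nat_lit 7904) (nat_lit 6) (nat_lit 104) (nat_lit 3) (nat_lit 166) (nat_lit 112) (nat_lit 172)))))) (PT.nd (nat_lit 46878) (PT.nd (nat_lit 312) (PT.nd (nat_lit 156) (PT.nd (nat_lit 78) (PT.lf (nat_lit 7980) (nat_lit 6) (nat_lit 105) (nat_lit 3) (nat_lit 167) (nat_lit 112) (nat_lit 171)) (PT.lf (nat_lit 8056) (nat_lit 6) (nat_lit 106) (nat_lit 3) (nat_lit 168) (nat_lit 112) (nat_lit 170))) (PT.nd (nat_lit 78) (PT.lf (nat_lit 8132) (nat_lit 3) (nat_lit 107) (nat_lit 1) (nat_lit 169) (nat_lit 112) (nat_lit 169)) (PT.lf (nat_lit 8056) (nat_lit 6) (nat_lit 106) (nat_lit 1) (nat_lit 170) (nat_lit 112) (nat_lit 168)))) (PT.nd (nat_lit 46410) (PT.nd (nat_lit 78) (PT.lf (nat_lit 7980) (nat_lit 6) (nat_lit 105) (nat_lit 1) (nat_lit 171) (nat_lit 112) (nat_lit 167)) (PT.lf (nat_lit 7904) (nat_lit 6) (nat_lit 104) (nat_lit 1) (nat_lit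 172) (nat_lit 112) (nat_lit 166))) (PT.nd (nat_lit 78) (PT.lf (nat_lit 8208) (nat_lit 6) (nat_lit 108) (nat_lit 3) (nat_lit 165) (nat_lit 113) (nat_lit 172)) (PT.lf (nat_lit 8284) (nat_lit 6) (nat_lit 109) (nat_lit 3) (nat_lit 166) (nat_lit 113) (nat_lit 171))))) (PT.nd (nat_lit 312) (PT.nd (nat_lit 156) (PT.nd (nat_lit 78) (PT.lf (nat_lit 8360) (nat_lit 6) (nat_lit 110) (nat_lit 3) (nat_lit 167) (nat_lit 113) (nat_lit 170)) (PT.lf (nat_lit 8436) (nat_lit 6) (nat_lit 111) (nat_lit 3) (nat_lit 168) (nat_lit 113) (nat_lit 169))) (PT.nd (nat_lit 78) (PT.lf (nat_lit 8436) (nat_lit 6) (nat_lit 111) (nat_lit 1) (nat_lit 169) (nat_lit 113) (nat_lit 168)) (PT.lf (nat_lit 8360) (nat_lit 6) (nat_lit 110) (nat_lit 1) (nat_lit 170) (nat_lit 113) (nat_lit 167)))) (PT.nd (nat_lit 46410) (PT.nd (nat_lit 78) (PT.lf (nat_lit 8284) (nat_lit 6) (nat_lit 109) (nat_lit 1) (nat_lit 171) (nat_lit 113) (nat_lit 166)) (PT.lf (nat_lit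 8208) (nat_lit 6) (nat_lit 108) (nat_lit 1) (nat_lit 172) (nat_lit 113) (nat_lit 165))) (PT.nd (nat_lit 78) (PT.lf (nat_lit 8588) (nat_lit 6) (nat_lit 113) (nat_lit 3) (nat_lit 165) (nat_lit 114) (nat_lit 171)) (PT.nd (nat_lit 78) (PT.lf (nat_lit 8664) (nat_lit 6) (nat_lit 114) (nat_lit 3) (nat_lit 166) (nat_lit 114) (nat_lit 170)) (PT.lf (nat_lit 8740) (nat_lit 6) (nat_lit 115) (nat_lit 3) (nat_lit 167) (nat_lit 114) (nat_lit 169))))))))
noncomputable def pc6 : PT := (PT.nd (nat_lit 93678) (PT.nd (nat_lit 46878) (PT.nd (nat_lit 46566) (PT.nd (nat_lit 156) (PT.nd (nat_lit 78) (PT.lf (nat_lit 8816) (nat_lit 3) (nat_lit 116) (nat_lit 1) (nat_lit 168) (nat_lit 114) (nat_lit 168)) (PT.lf (nat_lit 8740) (nat_lit 6) (nat_lit 115) (nat_lit 1) (nat_lit 169) (nat_lit 114) (nat_lit 167))) (PT.nd (nat_lit 78) (PT.lf (nat_lit 8664) (nat_lit 6) (nat_lit 114) (nat_lit 1) (nat_lit 170) (nat_lit 114) (nat_lit 166)) (PT.lf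 (nat_lit 8588) (nat_lit 6) (nat_lit 113) (nat_lit 1) (nat_lit 171) (nat_lit 114) (nat_lit 165)))) (PT.nd (nat_lit 156) (PT.nd (nat_lit 78) (PT.lf (nat_lit 8892) (nat_lit 6) (nat_lit 117) (nat_lit 3) (nat_lit 164) (nat_lit 115) (nat_lit 171)) (PT.lf (nat_lit 8968) (nat_lit 6) (nat_lit 118) (nat_lit 3) (nat_lit 165) (nat_lit 115) (nat_lit 170))) (PT.nd (nat_lit 78) (PT.lf (nat_lit 9044) (nat_lit 6) (nat_lit 119) (nat_lit 3) (nat_lit 166) (nat_lit 115) (nat_lit 169)) (PT.lf (nat_lit 9120) (nat_lit 6) (nat_lit 120) (nat_lit 3) (nat_lit 167) (nat_lit 115) (nat_lit 168))))) (PT.nd (nat_lit 46488) (PT.nd (nat_lit 156) (PT.nd (nat_lit 78) (PT.lf (nat_lit 9120) (nat_lit 6) (nat_lit 120) (nat_lit 1) (nat_lit 168) (nat_lit 115) (nat_lit 167)) (PT.lf (nat_lit 9044) (nat_lit 6) (nat_lit 119) (nat_lit 1) (nat_lit 169) (nat_lit 115) (nat_lit 166))) (PT.nd (nat_lit 78) (PT.lf (nat_lit 8968) (nat_lit 6) (nat_lit 118) (nat_lit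 1) (nat_lit 170) (nat_lit 115) (nat_lit 165)) (PT.lf (nat_lit 8892) (nat_lit 6) (nat_lit 117) (nat_lit 1) (nat_lit 171) (nat_lit 115) (nat_lit 164)))) (PT.nd (nat_lit 156) (PT.nd (nat_lit 78) (PT.lf (nat_lit 9196) (nat_lit 6) (nat_lit 121) (nat_lit 3) (nat_lit 163) (nat_lit 116) (nat_lit 171)) (PT.lf (nat_lit 9272) (nat_lit 6) (nat_lit 122) (nat_lit 3) (nat_lit 164) (nat_lit 116) (nat_lit 170))) (PT.nd (nat_lit 78) (PT.lf (nat_lit 9348) (nat_lit 6) (nat_lit 123) (nat_lit 3) (nat_lit 165) (nat_lit 116) (nat_lit 169)) (PT.lf (nat_lit 9424) (nat_lit 6) (nat_lit 124) (nat_lit 3) (nat_lit 166) (nat_lit 116) (nat_lit 168)))))) (PT.nd (nat_lit 46800) (PT.nd (nat_lit 312) (PT.nd (nat_lit 156) (PT.nd (nat_lit 78) (PT.lf (nat_lit 9500) (nat_lit 3) (nat_lit 125) (nat_lit 1) (nat_lit 167) (nat_lit 116) (nat_lit 167)) (PT.lf (nat_lit 9424) (nat_lit 6) (nat_lit 124) (nat_lit 1) (nat_lit 168) (nat_lit 116) (nat_lit 166)))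 (PT.nd (nat_lit 78) (PT.lf (nat_lit 9348) (nat_lit 6) (nat_lit 123) (nat_lit 1) (nat_lit 169) (nat_lit 116) (nat_lit 165)) (PT.lf (nat_lit 9272) (nat_lit 6) (nat_lit 122) (nat_lit 1) (nat_lit 170) (nat_lit 116) (nat_lit 164)))) (PT.nd (nat_lit 46332) (PT.nd (nat_lit 46254) (PT.lf (nat_lit 9196) (nat_lit 6) (nat_lit 121) (nat_lit 1) (nat_lit 171) (nat_lit 116) (nat_lit 163)) (PT.lf (nat_lit 9576) (nat_lit 6) (nat_lit 126) (nat_lit 3) (nat_lit 163) (nat_lit 117) (nat_lit 170))) (PT.nd (nat_lit 78) (PT.lf (nat_lit 9652) (nat_lit 6) (nat_lit 127) (nat_lit 3) (nat_lit 164) (nat_lit 117) (nat_lit 169)) (PT.lf (nat_lit 9728) (nat_lit 6) (nat_lit 128) (nat_lit 3) (nat_lit 165) (nat_lit 117) (nat_lit 168))))) (PT.nd (nat_lit 312) (PT.nd (nat_lit 156) (PT.nd (nat_lit 78) (PT.lf (nat_lit 9804) (nat_lit 6) (nat_lit 129) (nat_lit 3) (nat_lit 166) (nat_lit 117) (nat_lit 167)) (PT.lf (nat_lit 9804) (nat_lit 6) (nat_lit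 129) (nat_lit 1) (nat_lit 167) (nat_lit 117) (nat_lit 166))) (PT.nd (nat_lit 78) (PT.lf (nat_lit 9728) (nat_lit 6) (nat_lit 128) (nat_lit 1) (nat_lit 168) (nat_lit 117) (nat_lit 165)) (PT.lf (nat_lit 9652) (nat_lit 6) (nat_lit 127) (nat_lit 1) (nat_lit 169) (nat_lit 117) (nat_lit 164)))) (PT.nd (nat_lit 46332) (PT.nd (nat_lit 46254) (PT.lf (nat_lit 9576) (nat_lit 6) (nat_lit 126) (nat_lit 1) (nat_lit 170) (nat_lit 117) (nat_lit 163)) (PT.lf (nat_lit 9880) (nat_lit 6) (nat_lit 130) (nat_lit 3) (nat_lit 162) (nat_lit 118) (nat_lit 170))) (PT.nd (nat_lit 78) (PT.lf (nat_lit 9956) (nat_lit 6) (nat_lit 131) (nat_lit 3) (nat_lit 163) (nat_lit 118) (nat_lit 169)) (PT.nd (nat_lit 78) (PT.lf (nat_lit 10032) (nat_lit 6) (nat_lit 132) (nat_lit 3) (nat_lit 164) (nat_lit 118) (nat_lit 168)) (PT.lf (nat_lit 10108) (nat_lit 6) (nat_lit 133) (nat_lit 3) (nat_lit 165) (nat_lit 118) (nat_lit 167))))))))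
noncomputable def pc7 : PT := (PT.nd (nat_lit 93444) (PT.nd (nat_lit 46722) (PT.nd (nat_lit 312) (PT.nd (nat_lit 156) (PT.nd (nat_lit 78) (PT.lf (nat_lit 10184) (nat_lit 3) (nat_lit 134) (nat_lit 1) (nat_lit 166) (nat_lit 118) (nat_lit 166)) (PT.lf (nat_lit 10108) (nat_lit 6) (nat_lit 133) (nat_lit 1) (nat_lit 167) (nat_lit 118) (nat_lit 165))) (PT.nd (nat_lit 78) (PT.lf (nat_lit 10032) (nat_lit 6) (nat_lit 132) (nat_lit 1) (nat_lit 168) (nat_lit 118) (nat_lit 164)) (PT.lf (nat_lit 9956) (nat_lit 6) (nat_lit 131) (nat_lit 1) (nat_lit 169) (nat_lit 118) (nat_lit 163)))) (PT.nd (nat_lit 46254) (PT.nd (nat_lit 46176) (PT.lf (nat_lit 9880) (nat_lit 6) (nat_lit 130) (nat_lit 1) (nat_lit 170) (nat_lit 118) (nat_lit 162)) (PT.lf (nat_lit 10260) (nat_lit 6) (nat_lit 135) (nat_lit 3) (nat_lit 161) (nat_lit 119) (nat_lit 170))) (PT.nd (nat_lit 78) (PT.lf (nat_lit 10336) (nat_lit 6) (nat_lit 136) (nat_lit 3) (nat_lit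 162) (nat_lit 119) (nat_lit 169)) (PT.lf (nat_lit 10412) (nat_lit 6) (nat_lit 137) (nat_lit 3) (nat_lit 163) (nat_lit 119) (nat_lit 168))))) (PT.nd (nat_lit 312) (PT.nd (nat_lit 156) (PT.nd (nat_lit 78) (PT.lf (nat_lit 10488) (nat_lit 6) (nat_lit 138) (nat_lit 3) (nat_lit 164) (nat_lit 119) (nat_lit 167)) (PT.lf (nat_lit 10564) (nat_lit 6) (nat_lit 139) (nat_lit 3) (nat_lit 165) (nat_lit 119) (nat_lit 166))) (PT.nd (nat_lit 78) (PT.lf (nat_lit 10564) (nat_lit 6) (nat_lit 139) (nat_lit 1) (nat_lit 166) (nat_lit 119) (nat_lit 165)) (PT.lf (nat_lit 10488) (nat_lit 6) (nat_lit 138) (nat_lit 1) (nat_lit 167) (nat_lit 119) (nat_lit 164)))) (PT.nd (nat_lit 156) (PT.nd (nat_lit 78) (PT.lf (nat_lit 10412) (nat_lit 6) (nat_lit 137) (nat_lit 1) (nat_lit 168) (nat_lit 119) (nat_lit 163)) (PT.lf (nat_lit 10336) (nat_lit 6) (nat_lit 136) (nat_lit 1) (nat_lit 169) (nat_lit 119) (nat_lit 162))) (PT.nd (nat_lit 46176) (PT.lf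 (nat_lit 10260) (nat_lit 6) (nat_lit 135) (nat_lit 1) (nat_lit 170) (nat_lit 119) (nat_lit 161)) (PT.lf (nat_lit 10640) (nat_lit 6) (nat_lit 140) (nat_lit 3) (nat_lit 161) (nat_lit 120) (nat_lit 169)))))) (PT.nd (nat_lit 46722) (PT.nd (nat_lit 312) (PT.nd (nat_lit 156) (PT.nd (nat_lit 78) (PT.lf (nat_lit 10716) (nat_lit 6) (nat_lit 141) (nat_lit 3) (nat_lit 162) (nat_lit 120) (nat_lit 168)) (PT.lf (nat_lit 10792) (nat_lit 6) (nat_lit 142) (nat_lit 3) (nat_lit 163) (nat_lit 120) (nat_lit 167))) (PT.nd (nat_lit 78) (PT.lf (nat_lit 10868) (nat_lit 6) (nat_lit 143) (nat_lit 3) (nat_lit 164) (nat_lit 120) (nat_lit 166)) (PT.lf (nat_lit 10944) (nat_lit 3) (nat_lit 144) (nat_lit 1) (nat_lit 165) (nat_lit 120) (nat_lit 165)))) (PT.nd (nat_lit 156) (PT.nd (nat_lit 78) (PT.lf (nat_lit 10868) (nat_lit 6) (nat_lit 143) (nat_lit 1) (nat_lit 166) (nat_lit 120) (nat_lit 164)) (PT.lf (nat_lit 10792) (nat_lit 6) (nat_lit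 142) (nat_lit 1) (nat_lit 167) (nat_lit 120) (nat_lit 163))) (PT.nd (nat_lit 78) (PT.lf (nat_lit 10716) (nat_lit 6) (nat_lit 141) (nat_lit 1) (nat_lit 168) (nat_lit 120) (nat_lit 162)) (PT.lf (nat_lit 10640) (nat_lit 6) (nat_lit 140) (nat_lit 1) (nat_lit 169) (nat_lit 120) (nat_lit 161))))) (PT.nd (nat_lit 312) (PT.nd (nat_lit 156) (PT.nd (nat_lit 78) (PT.lf (nat_lit 11020) (nat_lit 6) (nat_lit 145) (nat_lit 3) (nat_lit 160) (nat_lit 121) (nat_lit 169)) (PT.lf (nat_lit 11096) (nat_lit 6) (nat_lit 146) (nat_lit 3) (nat_lit 161) (nat_lit 121) (nat_lit 168))) (PT.nd (nat_lit 78) (PT.lf (nat_lit 11172) (nat_lit 6) (nat_lit 147) (nat_lit 3) (nat_lit 162) (nat_lit 121) (nat_lit 167)) (PT.lf (nat_lit 11248) (nat_lit 6) (nat_lit 148) (nat_lit 3) (nat_lit 163) (nat_lit 121) (nat_lit 166)))) (PT.nd (nat_lit 156) (PT.nd (nat_lit 78) (PT.lf (nat_lit 11324) (nat_lit 6) (nat_lit 149) (nat_lit 3) (nat_lit 164) (nat_lit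 121) (nat_lit 165)) (PT.lf (nat_lit 11324) (nat_lit 6) (nat_lit 149) (nat_lit 1) (nat_lit 165) (nat_lit 121) (nat_lit 164))) (PT.nd (nat_lit 78) (PT.lf (nat_lit 11248) (nat_lit 6) (nat_lit 148) (nat_lit 1) (nat_lit 166) (nat_lit 121) (nat_lit 163)) (PT.nd (nat_lit 78) (PT.lf (nat_lit 11172) (nat_lit 6) (nat_lit 147) (nat_lit 1) (nat_lit 167) (nat_lit 121) (nat_lit 162)) (PT.lf (nat_lit 11096) (nat_lit 6) (nat_lit 146) (nat_lit 1) (nat_lit 168) (nat_lit 121) (nat_lit 161))))))))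
noncomputable def pc8 : PT := (PT.nd (nat_lit 93210) (PT.nd (nat_lit 46644) (PT.nd (nat_lit 46332) (PT.nd (nat_lit 46176) (PT.nd (nat_lit 46098) (PT.lf (nat_lit 11020) (nat_lit 6) (nat_lit 145) (nat_lit 1) (nat_lit 169) (nat_lit 121) (nat_lit 160)) (PT.lf (nat_lit 11400) (nat_lit 6) (nat_lit 150) (nat_lit 3) (nat_lit 159) (nat_lit 122) (nat_lit 169))) (PT.nd (nat_lit 78) (PT.lf (nat_lit 11476) (nat_lit 6) (nat_lit 151) (nat_lit 3) (nat_lit 160) (nat_lit 122) (nat_lit 168)) (PT.lf (nat_lit 11552) (nat_lit 6) (nat_lit 152) (nat_lit 3) (nat_lit 161) (nat_lit 122) (nat_lit 167)))) (PT.nd (nat_lit 156) (PT.nd (nat_lit 78) (PT.lf (nat_lit 11628) (nat_lit 6) (nat_lit 153) (nat_lit 3) (nat_lit 162) (nat_lit 122) (nat_lit 166)) (PT.lf (nat_lit 11704) (nat_lit 6) (nat_lit 154) (nat_lit 3) (nat_lit 163) (nat_lit 122) (nat_lit 165))) (PT.nd (nat_lit 78) (PT.lf (nat_lit 11780) (nat_lit 3) (nat_lit 155) (nat_lit 1) (nat_lit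 164) (nat_lit 122) (nat_lit 164)) (PT.lf (nat_lit 11704) (nat_lit 6) (nat_lit 154) (nat_lit 1) (nat_lit 165) (nat_lit 122) (nat_lit 163))))) (PT.nd (nat_lit 46254) (PT.nd (nat_lit 156) (PT.nd (nat_lit 78) (PT.lf (nat_lit 11628) (nat_lit 6) (nat_lit 153) (nat_lit 1) (nat_lit 166) (nat_lit 122) (nat_lit 162)) (PT.lf (nat_lit 11552) (nat_lit 6) (nat_lit 152) (nat_lit 1) (nat_lit 167) (nat_lit 122) (nat_lit 161))) (PT.nd (nat_lit 78) (PT.lf (nat_lit 11476) (nat_lit 6) (nat_lit 151) (nat_lit 1) (nat_lit 168) (nat_lit 122) (nat_lit 160)) (PT.lf (nat_lit 11400) (nat_lit 6) (nat_lit 150) (nat_lit 1) (nat_lit 169) (nat_lit 122) (nat_lit 159)))) (PT.nd (nat_lit 156) (PT.nd (nat_lit 78) (PT.lf (nat_lit 11856) (nat_lit 6) (nat_lit 156) (nat_lit 3) (nat_lit 158) (nat_lit 123) (nat_lit 169)) (PT.lf (nat_lit 11932) (nat_lit 6) (nat_lit 157) (nat_lit 3) (nat_lit 159) (nat_lit 123) (nat_lit 168))) (PT.nd (nat_lit 78) (PT.lf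 (nat_lit 12008) (nat_lit 6) (nat_lit 158) (nat_lit 3) (nat_lit 160) (nat_lit 123) (nat_lit 167)) (PT.lf (nat_lit 12084) (nat_lit 6) (nat_lit 159) (nat_lit 3) (nat_lit 161) (nat_lit 123) (nat_lit 166)))))) (PT.nd (nat_lit 46566) (PT.nd (nat_lit 312) (PT.nd (nat_lit 156) (PT.nd (nat_lit 78) (PT.lf (nat_lit 12160) (nat_lit 6) (nat_lit 160) (nat_lit 3) (nat_lit 162) (nat_lit 123) (nat_lit 165)) (PT.lf (nat_lit 12236) (nat_lit 6) (nat_lit 161) (nat_lit 3) (nat_lit 163) (nat_lit 123) (nat_lit 164))) (PT.nd (nat_lit 78) (PT.lf (nat_lit 12236) (nat_lit 6) (nat_lit 161) (nat_lit 1) (nat_lit 164) (nat_lit 123) (nat_lit 163)) (PT.lf (nat_lit 12160) (nat_lit 6) (nat_lit 160) (nat_lit 1) (nat_lit 165) (nat_lit 123) (nat_lit 162)))) (PT.nd (nat_lit 156) (PT.nd (nat_lit 78) (PT.lf (nat_lit 12084) (nat_lit 6) (nat_lit 159) (nat_lit 1) (nat_lit 166) (nat_lit 123) (nat_lit 161)) (PT.lf (nat_lit 12008) (nat_lit 6) (nat_lit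 158) (nat_lit 1) (nat_lit 167) (nat_lit 123) (nat_lit 160))) (PT.nd (nat_lit 78) (PT.lf (nat_lit 11932) (nat_lit 6) (nat_lit 157) (nat_lit 1) (nat_lit 168) (nat_lit 123) (nat_lit 159)) (PT.lf (nat_lit 11856) (nat_lit 6) (nat_lit 156) (nat_lit 1) (nat_lit 169) (nat_lit 123) (nat_lit 158))))) (PT.nd (nat_lit 312) (PT.nd (nat_lit 156) (PT.nd (nat_lit 78) (PT.lf (nat_lit 12312) (nat_lit 6) (nat_lit 162) (nat_lit 3) (nat_lit 158) (nat_lit 124) (nat_lit 168)) (PT.lf (nat_lit 12388) (nat_lit 6) (nat_lit 163) (nat_lit 3) (nat_lit 159) (nat_lit 124) (nat_lit 167))) (PT.nd (nat_lit 78) (PT.lf (nat_lit 12464) (nat_lit 6) (nat_lit 164) (nat_lit 3) (nat_lit 160) (nat_lit 124) (nat_lit 166)) (PT.lf (nat_lit 12540) (nat_lit 6) (nat_lit 165) (nat_lit 3) (nat_lit 161) (nat_lit 124) (nat_lit 165)))) (PT.nd (nat_lit 156) (PT.nd (nat_lit 78) (PT.lf (nat_lit 12616) (nat_lit 6) (nat_lit 166) (nat_lit 3) (nat_lit 162) (nat_lit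 124) (nat_lit 164)) (PT.lf (nat_lit 12692) (nat_lit 3) (nat_lit 167) (nat_lit 1) (nat_lit 163) (nat_lit 124) (nat_lit 163))) (PT.nd (nat_lit 78) (PT.lf (nat_lit 12616) (nat_lit 6) (nat_lit 166) (nat_lit 1) (nat_lit 164) (nat_lit 124) (nat_lit 162)) (PT.lf (nat_lit 12540) (nat_lit 6) (nat_lit 165) (nat_lit 1) (nat_lit 165) (nat_lit 124) (nat_lit 161)))))))
noncomputable def pc9 : PT := (PT.nd (nat_lit 93054) (PT.nd (nat_lit 46566) (PT.nd (nat_lit 46254) (PT.nd (nat_lit 156) (PT.nd (nat_lit 78) (PT.lf (nat_lit 12464) (nat_lit 6) (nat_lit 164) (nat_lit 1) (nat_lit 166) (nat_lit 124) (nat_lit 160)) (PT.lf (nat_lit 12388) (nat_lit 6) (nat_lit 163) (nat_lit 1) (nat_lit 167) (nat_lit 124) (nat_lit 159))) (PT.nd (nat_lit 46020) (PT.lf (nat_lit 12312) (nat_lit 6) (nat_lit 162) (nat_lit 1) (nat_lit 168) (nat_lit 124) (nat_lit 158)) (PT.lf (nat_lit 12768) (nat_lit 6) (nat_lit 168) (nat_lit 3) (nat_lit 157) (nat_lit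 125) (nat_lit 168)))) (PT.nd (nat_lit 156) (PT.nd (nat_lit 78) (PT.lf (nat_lit 12844) (nat_lit 6) (nat_lit 169) (nat_lit 3) (nat_lit 158) (nat_lit 125) (nat_lit 167)) (PT.lf (nat_lit 12920) (nat_lit 6) (nat_lit 170) (nat_lit 3) (nat_lit 159) (nat_lit 125) (nat_lit 166))) (PT.nd (nat_lit 78) (PT.lf (nat_lit 12996) (nat_lit 6) (nat_lit 171) (nat_lit 3) (nat_lit 160) (nat_lit 125) (nat_lit 165)) (PT.lf (nat_lit 13072) (nat_lit 6) (nat_lit 172) (nat_lit 3) (nat_lit 161) (nat_lit 125) (nat_lit 164))))) (PT.nd (nat_lit 312) (PT.nd (nat_lit 156) (PT.nd (nat_lit 78) (PT.lf (nat_lit 13148) (nat_lit 6) (nat_lit 173) (nat_lit 3) (nat_lit 162) (nat_lit 125) (nat_lit 163)) (PT.lf (nat_lit 13148) (nat_lit 6) (nat_lit 173) (nat_lit 1) (nat_lit 163) (nat_lit 125) (nat_lit 162))) (PT.nd (nat_lit 78) (PT.lf (nat_lit 13072) (nat_lit 6) (nat_lit 172) (nat_lit 1) (nat_lit 164) (nat_lit 125) (nat_lit 161)) (PT.lf (nat_lit 12996)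 (nat_lit 6) (nat_lit 171) (nat_lit 1) (nat_lit 165) (nat_lit 125) (nat_lit 160)))) (PT.nd (nat_lit 156) (PT.nd (nat_lit 78) (PT.lf (nat_lit 12920) (nat_lit 6) (nat_lit 170) (nat_lit 1) (nat_lit 166) (nat_lit 125) (nat_lit 159)) (PT.lf (nat_lit 12844) (nat_lit 6) (nat_lit 169) (nat_lit 1) (nat_lit 167) (nat_lit 125) (nat_lit 158))) (PT.nd (nat_lit 45942) (PT.lf (nat_lit 12768) (nat_lit 6) (nat_lit 168) (nat_lit 1) (nat_lit 168) (nat_lit 125) (nat_lit 157)) (PT.lf (nat_lit 13224) (nat_lit 6) (nat_lit 174) (nat_lit 3) (nat_lit 156) (nat_lit 126) (nat_lit 168)))))) (PT.nd (nat_lit 624) (PT.nd (nat_lit 312) (PT.nd (nat_lit 156) (PT.nd (nat_lit 78) (PT.lf (nat_lit 13300) (nat_lit 6) (nat_lit 175) (nat_lit 3) (nat_lit 157) (nat_lit 126) (nat_lit 167)) (PT.lf (nat_lit 13376) (nat_lit 6) (nat_lit 176) (nat_lit 3) (nat_lit 158) (nat_lit 126) (nat_lit 166))) (PT.nd (nat_lit 78) (PT.lf (nat_lit 13452) (nat_lit 6) (nat_lit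 177) (nat_lit 3) (nat_lit 159) (nat_lit 126) (nat_lit 165)) (PT.lf (nat_lit 13528) (nat_lit 6) (nat_lit 178) (nat_lit 3) (nat_lit 160) (nat_lit 126) (nat_lit 164)))) (PT.nd (nat_lit 156) (PT.nd (nat_lit 78) (PT.lf (nat_lit 13604) (nat_lit 6) (nat_lit 179) (nat_lit 3) (nat_lit 161) (nat_lit 126) (nat_lit 163)) (PT.lf (nat_lit 13680) (nat_lit 3) (nat_lit 180) (nat_lit 1) (nat_lit 162) (nat_lit 126) (nat_lit 162))) (PT.nd (nat_lit 78) (PT.lf (nat_lit 13604) (nat_lit 6) (nat_lit 179) (nat_lit 1) (nat_lit 163) (nat_lit 126) (nat_lit 161)) (PT.lf (nat_lit 13528) (nat_lit 6) (nat_lit 178) (nat_lit 1) (nat_lit 164) (nat_lit 126) (nat_lit 160))))) (PT.nd (nat_lit 46098) (PT.nd (nat_lit 156) (PT.nd (nat_lit 78) (PT.lf (nat_lit 13452) (nat_lit 6) (nat_lit 177) (nat_lit 1) (nat_lit 165) (nat_lit 126) (nat_lit 159)) (PT.lf (nat_lit 13376) (nat_lit 6) (nat_lit 176) (nat_lit 1) (nat_lit 166) (nat_lit 126) (nat_lit 158)))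 (PT.nd (nat_lit 78) (PT.lf (nat_lit 13300) (nat_lit 6) (nat_lit 175) (nat_lit 1) (nat_lit 167) (nat_lit 126) (nat_lit 157)) (PT.lf (nat_lit 13224) (nat_lit 6) (nat_lit 174) (nat_lit 1) (nat_lit 168) (nat_lit 126) (nat_lit 156)))) (PT.nd (nat_lit 156) (PT.nd (nat_lit 78) (PT.lf (nat_lit 13756) (nat_lit 6) (nat_lit 181) (nat_lit 3) (nat_lit 155) (nat_lit 127) (nat_lit 168)) (PT.lf (nat_lit 13832) (nat_lit 6) (nat_lit 182) (nat_lit 3) (nat_lit 156) (nat_lit 127) (nat_lit 167))) (PT.nd (nat_lit 78) (PT.lf (nat_lit 13908) (nat_lit 6) (nat_lit 183) (nat_lit 3) (nat_lit 157) (nat_lit 127) (nat_lit 166)) (PT.nd (nat_lit 78) (PT.lf (nat_lit 13984) (nat_lit 6) (nat_lit 184) (nat_lit 3) (nat_lit 158) (nat_lit 127) (nat_lit 165)) (PT.lf (nat_lit 14060) (nat_lit 6) (nat_lit 185) (nat_lit 3) (nat_lit 159) (nat_lit 127) (nat_lit 164))))))))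
noncomputable def pc10 : PT := (PT.nd (nat_lit 47034) (PT.nd (nat_lit 624) (PT.nd (nat_lit 312) (PT.nd (nat_lit 156) (PT.nd (nat_lit 78) (PT.lf (nat_lit 14136) (nat_lit 6) (nat_lit 186) (nat_lit 3) (nat_lit 160) (nat_lit 127) (nat_lit 163)) (PT.lf (nat_lit 14212) (nat_lit 6) (nat_lit 187) (nat_lit 3) (nat_lit 161) (nat_lit 127) (nat_lit 162))) (PT.nd (nat_lit 78) (PT.lf (nat_lit 14212) (nat_lit 6) (nat_lit 187) (nat_lit 1) (nat_lit 162) (nat_lit 127) (nat_lit 161)) (PT.lf (nat_lit 14136) (nat_lit 6) (nat_lit 186) (nat_lit 1) (nat_lit 163) (nat_lit 127) (nat_lit 160)))) (PT.nd (nat_lit 156) (PT.nd (nat_lit 78) (PT.lf (nat_lit 14060) (nat_lit 6) (nat_lit 185) (nat_lit 1) (nat_lit 164) (nat_lit 127) (nat_lit 159)) (PT.lf (nat_lit 13984) (nat_lit 6) (nat_lit 184) (nat_lit 1) (nat_lit 165) (nat_lit 127) (nat_lit 158))) (PT.nd (nat_lit 78) (PT.lf (nat_lit 13908) (nat_lit 6) (nat_lit 183) (nat_lit 1) (nat_lit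 166) (nat_lit 127) (nat_lit 157)) (PT.lf (nat_lit 13832) (nat_lit 6) (nat_lit 182) (nat_lit 1) (nat_lit 167) (nat_lit 127) (nat_lit 156))))) (PT.nd (nat_lit 46098) (PT.nd (nat_lit 45942) (PT.nd (nat_lit 45864) (PT.lf (nat_lit 13756) (nat_lit 6) (nat_lit 181) (nat_lit 1) (nat_lit 168) (nat_lit 127) (nat_lit 155)) (PT.lf (nat_lit 14288) (nat_lit 6) (nat_lit 188) (nat_lit 3) (nat_lit 155) (nat_lit 128) (nat_lit 167))) (PT.nd (nat_lit 78) (PT.lf (nat_lit 14364) (nat_lit 6) (nat_lit 189) (nat_lit 3) (nat_lit 156) (nat_lit 128) (nat_lit 166)) (PT.lf (nat_lit 14440) (nat_lit 6) (nat_lit 190) (nat_lit 3) (nat_lit 157) (nat_lit 128) (nat_lit 165)))) (PT.nd (nat_lit 156) (PT.nd (nat_lit 78) (PT.lf (nat_lit 14516) (nat_lit 6) (nat_lit 191) (nat_lit 3) (nat_lit 158) (nat_lit 128) (nat_lit 164)) (PT.lf (nat_lit 14592) (nat_lit 6) (nat_lit 192) (nat_lit 3) (nat_lit 159) (nat_lit 128) (nat_lit 163))) (PT.nd (nat_lit 78)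 (PT.lf (nat_lit 14668) (nat_lit 6) (nat_lit 193) (nat_lit 3) (nat_lit 160) (nat_lit 128) (nat_lit 162)) (PT.lf (nat_lit 14744) (nat_lit 3) (nat_lit 194) (nat_lit 1) (nat_lit 161) (nat_lit 128) (nat_lit 161)))))) (PT.nd (nat_lit 46410) (PT.nd (nat_lit 312) (PT.nd (nat_lit 156) (PT.nd (nat_lit 78) (PT.lf (nat_lit 14668) (nat_lit 6) (nat_lit 193) (nat_lit 1) (nat_lit 162) (nat_lit 128) (nat_lit 160)) (PT.lf (nat_lit 14592) (nat_lit 6) (nat_lit 192) (nat_lit 1) (nat_lit 163) (nat_lit 128) (nat_lit 159))) (PT.nd (nat_lit 78) (PT.lf (nat_lit 14516) (nat_lit 6) (nat_lit 191) (nat_lit 1) (nat_lit 164) (nat_lit 128) (nat_lit 158)) (PT.lf (nat_lit 14440) (nat_lit 6) (nat_lit 190) (nat_lit 1) (nat_lit 165) (nat_lit 128) (nat_lit 157)))) (PT.nd (nat_lit 45942) (PT.nd (nat_lit 78) (PT.lf (nat_lit 14364) (nat_lit 6) (nat_lit 189) (nat_lit 1) (nat_lit 166) (nat_lit 128) (nat_lit 156)) (PT.lf (nat_lit 14288) (nat_lit 6)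 (nat_lit 188) (nat_lit 1) (nat_lit 167) (nat_lit 128) (nat_lit 155))) (PT.nd (nat_lit 78) (PT.lf (nat_lit 14820) (nat_lit 6) (nat_lit 195) (nat_lit 3) (nat_lit 154) (nat_lit 129) (nat_lit 167)) (PT.lf (nat_lit 14896) (nat_lit 6) (nat_lit 196) (nat_lit 3) (nat_lit 155) (nat_lit 129) (nat_lit 166))))) (PT.nd (nat_lit 312) (PT.nd (nat_lit 156) (PT.nd (nat_lit 78) (PT.lf (nat_lit 14972) (nat_lit 6) (nat_lit 197) (nat_lit 3) (nat_lit 156) (nat_lit 129) (nat_lit 165)) (PT.lf (nat_lit 15048) (nat_lit 6) (nat_lit 198) (nat_lit 3) (nat_lit 157) (nat_lit 129) (nat_lit 164))) (PT.nd (nat_lit 78) (PT.lf (nat_lit 15124) (nat_lit 6) (nat_lit 199) (nat_lit 3) (nat_lit 158) (nat_lit 129) (nat_lit 163)) (PT.lf (nat_lit 15200) (nat_lit 6) (nat_lit 200) (nat_lit 3) (nat_lit 159) (nat_lit 129) (nat_lit 162)))) (PT.nd (nat_lit 156) (PT.nd (nat_lit 78) (PT.lf (nat_lit 15276) (nat_lit 6) (nat_lit 201) (nat_lit 3) (nat_lit 160)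 (nat_lit 129) (nat_lit 161)) (PT.lf (nat_lit 15276) (nat_lit 6) (nat_lit 201) (nat_lit 1) (nat_lit 161) (nat_lit 129) (nat_lit 160))) (PT.nd (nat_lit 78) (PT.lf (nat_lit 15200) (nat_lit 6) (nat_lit 200) (nat_lit 1) (nat_lit 162) (nat_lit 129) (nat_lit 159)) (PT.nd (nat_lit 78) (PT.lf (nat_lit 15124) (nat_lit 6) (nat_lit 199) (nat_lit 1) (nat_lit 163) (nat_lit 129) (nat_lit 158)) (PT.lf (nat_lit 15048) (nat_lit 6) (nat_lit 198) (nat_lit 1) (nat_lit 164) (nat_lit 129) (nat_lit 157))))))))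
noncomputable def pc11 : PT := (PT.nd (nat_lit 46956) (PT.nd (nat_lit 46332) (PT.nd (nat_lit 46020) (PT.nd (nat_lit 156) (PT.nd (nat_lit 78) (PT.lf (nat_lit 14972) (nat_lit 6) (nat_lit 197) (nat_lit 1) (nat_lit 165) (nat_lit 129) (nat_lit 156)) (PT.lf (nat_lit 14896) (nat_lit 6) (nat_lit 196) (nat_lit 1) (nat_lit 166) (nat_lit 129) (nat_lit 155))) (PT.nd (nat_lit 45786) (PT.lf (nat_lit 14820) (nat_lit 6) (nat_lit 195) (nat_lit 1) (nat_lit 167) (nat_lit 129) (nat_lit 154)) (PT.lf (nat_lit 15352) (nat_lit 6) (nat_lit 202) (nat_lit 3) (nat_lit 153) (nat_lit 130) (nat_lit 167)))) (PT.nd (nat_lit 156) (PT.nd (nat_lit 78) (PT.lf (nat_lit 15428) (nat_lit 6) (nat_lit 203) (nat_lit 3) (nat_lit 154) (nat_lit 130) (nat_lit 166)) (PT.lf (nat_lit 15504) (nat_lit 6) (nat_lit 204) (nat_lit 3) (nat_lit 155) (nat_lit 130) (nat_lit 165))) (PT.nd (nat_lit 78) (PT.lf (nat_lit 15580) (nat_lit 6) (nat_lit 205) (nat_lit 3) (nat_lit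 156) (nat_lit 130) (nat_lit 164)) (PT.lf (nat_lit 15656) (nat_lit 6) (nat_lit 206) (nat_lit 3) (nat_lit 157) (nat_lit 130) (nat_lit 163))))) (PT.nd (nat_lit 312) (PT.nd (nat_lit 156) (PT.nd (nat_lit 78) (PT.lf (nat_lit 15732) (nat_lit 6) (nat_lit 207) (nat_lit 3) (nat_lit 158) (nat_lit 130) (nat_lit 162)) (PT.lf (nat_lit 15808) (nat_lit 6) (nat_lit 208) (nat_lit 3) (nat_lit 159) (nat_lit 130) (nat_lit 161))) (PT.nd (nat_lit 78) (PT.lf (nat_lit 15884) (nat_lit 3) (nat_lit 209) (nat_lit 1) (nat_lit 160) (nat_lit 130) (nat_lit 160)) (PT.lf (nat_lit 15808) (nat_lit 6) (nat_lit 208) (nat_lit 1) (nat_lit 161) (nat_lit 130) (nat_lit 159)))) (PT.nd (nat_lit 156) (PT.nd (nat_lit 78) (PT.lf (nat_lit 15732) (nat_lit 6) (nat_lit 207) (nat_lit 1) (nat_lit 162) (nat_lit 130) (nat_lit 158)) (PT.lf (nat_lit 15656) (nat_lit 6) (nat_lit 206) (nat_lit 1) (nat_lit 163) (nat_lit 130) (nat_lit 157))) (PT.nd (nat_lit 78) (PT.lf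 (nat_lit 15580) (nat_lit 6) (nat_lit 205) (nat_lit 1) (nat_lit 164) (nat_lit 130) (nat_lit 156)) (PT.lf (nat_lit 15504) (nat_lit 6) (nat_lit 204) (nat_lit 1) (nat_lit 165) (nat_lit 130) (nat_lit 155)))))) (PT.nd (nat_lit 46254) (PT.nd (nat_lit 45942) (PT.nd (nat_lit 45786) (PT.nd (nat_lit 78) (PT.lf (nat_lit 15428) (nat_lit 6) (nat_lit 203) (nat_lit 1) (nat_lit 166) (nat_lit 130) (nat_lit 154)) (PT.lf (nat_lit 15352) (nat_lit 6) (nat_lit 202) (nat_lit 1) (nat_lit 167) (nat_lit 130) (nat_lit 153))) (PT.nd (nat_lit 78) (PT.lf (nat_lit 15960) (nat_lit 6) (nat_lit 210) (nat_lit 3) (nat_lit 152) (nat_lit 131) (nat_lit 167)) (PT.lf (nat_lit 16036) (nat_lit 6) (nat_lit 211) (nat_lit 3) (nat_lit 153) (nat_lit 131) (nat_lit 166)))) (PT.nd (nat_lit 156) (PT.nd (nat_lit 78) (PT.lf (nat_lit 16112) (nat_lit 6) (nat_lit 212) (nat_lit 3) (nat_lit 154) (nat_lit 131) (nat_lit 165)) (PT.lf (nat_lit 16188) (nat_lit 6) (nat_lit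 213) (nat_lit 3) (nat_lit 155) (nat_lit 131) (nat_lit 164))) (PT.nd (nat_lit 78) (PT.lf (nat_lit 16264) (nat_lit 6) (nat_lit 214) (nat_lit 3) (nat_lit 156) (nat_lit 131) (nat_lit 163)) (PT.lf (nat_lit 16340) (nat_lit 6) (nat_lit 215) (nat_lit 3) (nat_lit 157) (nat_lit 131) (nat_lit 162))))) (PT.nd (nat_lit 312) (PT.nd (nat_lit 156) (PT.nd (nat_lit 78) (PT.lf (nat_lit 16416) (nat_lit 6) (nat_lit 216) (nat_lit 3) (nat_lit 158) (nat_lit 131) (nat_lit 161)) (PT.lf (nat_lit 16492) (nat_lit 6) (nat_lit 217) (nat_lit 3) (nat_lit 159) (nat_lit 131) (nat_lit 160))) (PT.nd (nat_lit 78) (PT.lf (nat_lit 16492) (nat_lit 6) (nat_lit 217) (nat_lit 1) (nat_lit 160) (nat_lit 131) (nat_lit 159)) (PT.lf (nat_lit 16416) (nat_lit 6) (nat_lit 216) (nat_lit 1) (nat_lit 161) (nat_lit 131) (nat_lit 158)))) (PT.nd (nat_lit 156) (PT.nd (nat_lit 78) (PT.lf (nat_lit 16340) (nat_lit 6) (nat_lit 215) (nat_lit 1) (nat_lit 162) (nat_lit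 131) (nat_lit 157)) (PT.lf (nat_lit 16264) (nat_lit 6) (nat_lit 214) (nat_lit 1) (nat_lit 163) (nat_lit 131) (nat_lit 156))) (PT.nd (nat_lit 78) (PT.lf (nat_lit 16188) (nat_lit 6) (nat_lit 213) (nat_lit 1) (nat_lit 164) (nat_lit 131) (nat_lit 155)) (PT.nd (nat_lit 78) (PT.lf (nat_lit 16112) (nat_lit 6) (nat_lit 212) (nat_lit 1) (nat_lit 165) (nat_lit 131) (nat_lit 154)) (PT.lf (nat_lit 16036) (nat_lit 6) (nat_lit 211) (nat_lit 1) (nat_lit 166) (nat_lit 131) (nat_lit 153))))))))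
noncomputable def pc12 : PT := (PT.nd (nat_lit 46800) (PT.nd (nat_lit 46176) (PT.nd (nat_lit 45864) (PT.nd (nat_lit 45708) (PT.nd (nat_lit 45630) (PT.lf (nat_lit 15960) (nat_lit 6) (nat_lit 210) (nat_lit 1) (nat_lit 167) (nat_lit 131) (nat_lit 152)) (PT.lf (nat_lit 16568) (nat_lit 6) (nat_lit 218) (nat_lit 3) (nat_lit 151) (nat_lit 132) (nat_lit 167))) (PT.nd (nat_lit 78) (PT.lf (nat_lit 16644) (nat_lit 6) (nat_lit 219) (nat_lit 3) (nat_lit 152) (nat_lit 132) (nat_lit 166)) (PT.lf (nat_lit 16720) (nat_lit 6) (nat_lit 220) (nat_lit 3) (nat_lit 153) (nat_lit 132) (nat_lit 165)))) (PT.nd (nat_lit 156) (PT.nd (nat_lit 78) (PT.lf (nat_lit 16796) (nat_lit 6) (nat_lit 221) (nat_lit 3) (nat_lit 154) (nat_lit 132) (nat_lit 164)) (PT.lf (nat_lit 16872) (nat_lit 6) (nat_lit 222) (nat_lit 3) (nat_lit 155) (nat_lit 132) (nat_lit 163))) (PT.nd (nat_lit 78) (PT.lf (nat_lit 16948) (nat_lit 6) (nat_lit 223) (nat_lit 3)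 (nat_lit 156) (nat_lit 132) (nat_lit 162)) (PT.lf (nat_lit 17024) (nat_lit 6) (nat_lit 224) (nat_lit 3) (nat_lit 157) (nat_lit 132) (nat_lit 161))))) (PT.nd (nat_lit 312) (PT.nd (nat_lit 156) (PT.nd (nat_lit 78) (PT.lf (nat_lit 17100) (nat_lit 6) (nat_lit 225) (nat_lit 3) (nat_lit 158) (nat_lit 132) (nat_lit 160)) (PT.lf (nat_lit 17176) (nat_lit 3) (nat_lit 226) (nat_lit 1) (nat_lit 159) (nat_lit 132) (nat_lit 159))) (PT.nd (nat_lit 78) (PT.lf (nat_lit 17100) (nat_lit 6) (nat_lit 225) (nat_lit 1) (nat_lit 160) (nat_lit 132) (nat_lit 158)) (PT.lf (nat_lit 17024) (nat_lit 6) (nat_lit 224) (nat_lit 1) (nat_lit 161) (nat_lit 132) (nat_lit 157)))) (PT.nd (nat_lit 156) (PT.nd (nat_lit 78) (PT.lf (nat_lit 16948) (nat_lit 6) (nat_lit 223) (nat_lit 1) (nat_lit 162) (nat_lit 132) (nat_lit 156)) (PT.lf (nat_lit 16872) (nat_lit 6) (nat_lit 222) (nat_lit 1) (nat_lit 163) (nat_lit 132) (nat_lit 155))) (PT.nd (nat_lit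 78) (PT.lf (nat_lit 16796) (nat_lit 6) (nat_lit 221) (nat_lit 1) (nat_lit 164) (nat_lit 132) (nat_lit 154)) (PT.lf (nat_lit 16720) (nat_lit 6) (nat_lit 220) (nat_lit 1) (nat_lit 165) (nat_lit 132) (nat_lit 153)))))) (PT.nd (nat_lit 46176) (PT.nd (nat_lit 45864) (PT.nd (nat_lit 45708) (PT.nd (nat_lit 78) (PT.lf (nat_lit 16644) (nat_lit 6) (nat_lit 219) (nat_lit 1) (nat_lit 166) (nat_lit 132) (nat_lit 152)) (PT.lf (nat_lit 16568) (nat_lit 6) (nat_lit 218) (nat_lit 1) (nat_lit 167) (nat_lit 132) (nat_lit 151))) (PT.nd (nat_lit 78) (PT.lf (nat_lit 17252) (nat_lit 6) (nat_lit 227) (nat_lit 3) (nat_lit 151) (nat_lit 133) (nat_lit 166)) (PT.lf (nat_lit 17328) (nat_lit 6) (nat_lit 228) (nat_lit 3) (nat_lit 152) (nat_lit 133) (nat_lit 165)))) (PT.nd (nat_lit 156) (PT.nd (nat_lit 78) (PT.lf (nat_lit 17404) (nat_lit 6) (nat_lit 229) (nat_lit 3) (nat_lit 153) (nat_lit 133) (nat_lit 164)) (PT.lf (nat_lit 17480) (nat_lit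 6) (nat_lit 230) (nat_lit 3) (nat_lit 154) (nat_lit 133) (nat_lit 163))) (PT.nd (nat_lit 78) (PT.lf (nat_lit 17556) (nat_lit 6) (nat_lit 231) (nat_lit 3) (nat_lit 155) (nat_lit 133) (nat_lit 162)) (PT.lf (nat_lit 17632) (nat_lit 6) (nat_lit 232) (nat_lit 3) (nat_lit 156) (nat_lit 133) (nat_lit 161))))) (PT.nd (nat_lit 312) (PT.nd (nat_lit 156) (PT.nd (nat_lit 78) (PT.lf (nat_lit 17708) (nat_lit 6) (nat_lit 233) (nat_lit 3) (nat_lit 157) (nat_lit 133) (nat_lit 160)) (PT.lf (nat_lit 17784) (nat_lit 6) (nat_lit 234) (nat_lit 3) (nat_lit 158) (nat_lit 133) (nat_lit 159))) (PT.nd (nat_lit 78) (PT.lf (nat_lit 17784) (nat_lit 6) (nat_lit 234) (nat_lit 1) (nat_lit 159) (nat_lit 133) (nat_lit 158)) (PT.lf (nat_lit 17708) (nat_lit 6) (nat_lit 233) (nat_lit 1) (nat_lit 160) (nat_lit 133) (nat_lit 157)))) (PT.nd (nat_lit 156) (PT.nd (nat_lit 78) (PT.lf (nat_lit 17632) (nat_lit 6) (nat_lit 232) (nat_lit 1) (nat_lit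 161) (nat_lit 133) (nat_lit 156)) (PT.lf (nat_lit 17556) (nat_lit 6) (nat_lit 231) (nat_lit 1) (nat_lit 162) (nat_lit 133) (nat_lit 155))) (PT.nd (nat_lit 78) (PT.lf (nat_lit 17480) (nat_lit 6) (nat_lit 230) (nat_lit 1) (nat_lit 163) (nat_lit 133) (nat_lit 154)) (PT.lf (nat_lit 17404) (nat_lit 6) (nat_lit 229) (nat_lit 1) (nat_lit 164) (nat_lit 133) (nat_lit 153)))))))
noncomputable def pc13 : PT := (PT.nd (nat_lit 46800) (PT.nd (nat_lit 46176) (PT.nd (nat_lit 45864) (PT.nd (nat_lit 45708) (PT.nd (nat_lit 78) (PT.lf (nat_lit 17328) (nat_lit 6) (nat_lit 228) (nat_lit 1) (nat_lit 165) (nat_lit 133) (nat_lit 152)) (PT.lf (nat_lit 17252) (nat_lit 6) (nat_lit 227) (nat_lit 1) (nat_lit 166) (nat_lit 133) (nat_lit 151))) (PT.nd (nat_lit 78) (PT.lf (nat_lit 18468) (nat_lit 6) (nat_lit 243) (nat_lit 3) (nat_lit 150) (nat_lit 134) (nat_lit 166)) (PT.lf (nat_lit 18544) (nat_lit 6) (nat_lit 244) (nat_lit 3) (nat_lit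 151) (nat_lit 134) (nat_lit 165)))) (PT.nd (nat_lit 156) (PT.nd (nat_lit 78) (PT.lf (nat_lit 18620) (nat_lit 6) (nat_lit 245) (nat_lit 3) (nat_lit 152) (nat_lit 134) (nat_lit 164)) (PT.lf (nat_lit 18696) (nat_lit 6) (nat_lit 246) (nat_lit 3) (nat_lit 153) (nat_lit 134) (nat_lit 163))) (PT.nd (nat_lit 78) (PT.lf (nat_lit 18772) (nat_lit 6) (nat_lit 247) (nat_lit 3) (nat_lit 154) (nat_lit 134) (nat_lit 162)) (PT.lf (nat_lit 18848) (nat_lit 6) (nat_lit 248) (nat_lit 3) (nat_lit 155) (nat_lit 134) (nat_lit 161))))) (PT.nd (nat_lit 312) (PT.nd (nat_lit 156) (PT.nd (nat_lit 78) (PT.lf (nat_lit 18924) (nat_lit 6) (nat_lit 249) (nat_lit 3) (nat_lit 156) (nat_lit 134) (nat_lit 160)) (PT.lf (nat_lit 19000) (nat_lit 6) (nat_lit 250) (nat_lit 3) (nat_lit 157) (nat_lit 134) (nat_lit 159))) (PT.nd (nat_lit 78) (PT.lf (nat_lit 19076) (nat_lit 3) (nat_lit 251) (nat_lit 1) (nat_lit 158) (nat_lit 134) (nat_lit 158)) (PT.lf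 (nat_lit 19000) (nat_lit 6) (nat_lit 250) (nat_lit 1) (nat_lit 159) (nat_lit 134) (nat_lit 157)))) (PT.nd (nat_lit 156) (PT.nd (nat_lit 78) (PT.lf (nat_lit 18924) (nat_lit 6) (nat_lit 249) (nat_lit 1) (nat_lit 160) (nat_lit 134) (nat_lit 156)) (PT.lf (nat_lit 18848) (nat_lit 6) (nat_lit 248) (nat_lit 1) (nat_lit 161) (nat_lit 134) (nat_lit 155))) (PT.nd (nat_lit 78) (PT.lf (nat_lit 18772) (nat_lit 6) (nat_lit 247) (nat_lit 1) (nat_lit 162) (nat_lit 134) (nat_lit 154)) (PT.lf (nat_lit 18696) (nat_lit 6) (nat_lit 246) (nat_lit 1) (nat_lit 163) (nat_lit 134) (nat_lit 153)))))) (PT.nd (nat_lit 46098) (PT.nd (nat_lit 45786) (PT.nd (nat_lit 156) (PT.nd (nat_lit 78) (PT.lf (nat_lit 18620) (nat_lit 6) (nat_lit 245) (nat_lit 1) (nat_lit 164) (nat_lit 134) (nat_lit 152)) (PT.lf (nat_lit 18544) (nat_lit 6) (nat_lit 244) (nat_lit 1) (nat_lit 165) (nat_lit 134) (nat_lit 151))) (PT.nd (nat_lit 45552) (PT.lf (nat_lit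 18468) (nat_lit 6) (nat_lit 243) (nat_lit 1) (nat_lit 166) (nat_lit 134) (nat_lit 150)) (PT.lf (nat_lit 18392) (nat_lit 6) (nat_lit 242) (nat_lit 3) (nat_lit 149) (nat_lit 135) (nat_lit 166)))) (PT.nd (nat_lit 156) (PT.nd (nat_lit 78) (PT.lf (nat_lit 19684) (nat_lit 6) (nat_lit 259) (nat_lit 3) (nat_lit 150) (nat_lit 135) (nat_lit 165)) (PT.lf (nat_lit 19760) (nat_lit 6) (nat_lit 260) (nat_lit 3) (nat_lit 151) (nat_lit 135) (nat_lit 164))) (PT.nd (nat_lit 78) (PT.lf (nat_lit 19836) (nat_lit 6) (nat_lit 261) (nat_lit 3) (nat_lit 152) (nat_lit 135) (nat_lit 163)) (PT.lf (nat_lit 19912) (nat_lit 6) (nat_lit 262) (nat_lit 3) (nat_lit 153) (nat_lit 135) (nat_lit 162))))) (PT.nd (nat_lit 312) (PT.nd (nat_lit 156) (PT.nd (nat_lit 78) (PT.lf (nat_lit 19988) (nat_lit 6) (nat_lit 263) (nat_lit 3) (nat_lit 154) (nat_lit 135) (nat_lit 161)) (PT.lf (nat_lit 20064) (nat_lit 6) (nat_lit 264) (nat_lit 3) (nat_lit 155)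 (nat_lit 135) (nat_lit 160))) (PT.nd (nat_lit 78) (PT.lf (nat_lit 20140) (nat_lit 6) (nat_lit 265) (nat_lit 3) (nat_lit 156) (nat_lit 135) (nat_lit 159)) (PT.lf (nat_lit 20216) (nat_lit 6) (nat_lit 266) (nat_lit 3) (nat_lit 157) (nat_lit 135) (nat_lit 158)))) (PT.nd (nat_lit 156) (PT.nd (nat_lit 78) (PT.lf (nat_lit 20216) (nat_lit 6) (nat_lit 266) (nat_lit 1) (nat_lit 158) (nat_lit 135) (nat_lit 157)) (PT.lf (nat_lit 20140) (nat_lit 6) (nat_lit 265) (nat_lit 1) (nat_lit 159) (nat_lit 135) (nat_lit 156))) (PT.nd (nat_lit 78) (PT.lf (nat_lit 20064) (nat_lit 6) (nat_lit 264) (nat_lit 1) (nat_lit 160) (nat_lit 135) (nat_lit 155)) (PT.nd (nat_lit 78) (PT.lf (nat_lit 19988) (nat_lit 6) (nat_lit 263) (nat_lit 1) (nat_lit 161) (nat_lit 135) (nat_lit 154)) (PT.lf (nat_lit 19912) (nat_lit 6) (nat_lit 262) (nat_lit 1) (nat_lit 162) (nat_lit 135) (nat_lit 153))))))))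
noncomputable def pc14 : PT := (PT.nd (nat_lit 46644) (PT.nd (nat_lit 46020) (PT.nd (nat_lit 45708) (PT.nd (nat_lit 156) (PT.nd (nat_lit 78) (PT.lf (nat_lit 19836) (nat_lit 6) (nat_lit 261) (nat_lit 1) (nat_lit 163) (nat_lit 135) (nat_lit 152)) (PT.lf (nat_lit 19760) (nat_lit 6) (nat_lit 260) (nat_lit 1) (nat_lit 164) (nat_lit 135) (nat_lit 151))) (PT.nd (nat_lit 78) (PT.lf (nat_lit 19684) (nat_lit 6) (nat_lit 259) (nat_lit 1) (nat_lit 165) (nat_lit 135) (nat_lit 150)) (PT.lf (nat_lit 18392) (nat_lit 6) (nat_lit 242) (nat_lit 1) (nat_lit 166) (nat_lit 135) (nat_lit 149)))) (PT.nd (nat_lit 156) (PT.nd (nat_lit 78) (PT.lf (nat_lit 18316) (nat_lit 6) (nat_lit 241) (nat_lit 3) (nat_lit 148) (nat_lit 136) (nat_lit 166)) (PT.lf (nat_lit 19608) (nat_lit 6) (nat_lit 258) (nat_lit 3) (nat_lit 149) (nat_lit 136) (nat_lit 165))) (PT.nd (nat_lit 78) (PT.lf (nat_lit 20824) (nat_lit 6) (nat_lit 274) (nat_lit 3) (nat_lit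 150) (nat_lit 136) (nat_lit 164)) (PT.lf (nat_lit 20900) (nat_lit 6) (nat_lit 275) (nat_lit 3) (nat_lit 151) (nat_lit 136) (nat_lit 163))))) (PT.nd (nat_lit 312) (PT.nd (nat_lit 156) (PT.nd (nat_lit 78) (PT.lf (nat_lit 20976) (nat_lit 6) (nat_lit 276) (nat_lit 3) (nat_lit 152) (nat_lit 136) (nat_lit 162)) (PT.lf (nat_lit 21052) (nat_lit 6) (nat_lit 277) (nat_lit 3) (nat_lit 153) (nat_lit 136) (nat_lit 161))) (PT.nd (nat_lit 78) (PT.lf (nat_lit 21128) (nat_lit 6) (nat_lit 278) (nat_lit 3) (nat_lit 154) (nat_lit 136) (nat_lit 160)) (PT.lf (nat_lit 21204) (nat_lit 6) (nat_lit 279) (nat_lit 3) (nat_lit 155) (nat_lit 136) (nat_lit 159)))) (PT.nd (nat_lit 156) (PT.nd (nat_lit 78) (PT.lf (nat_lit 21280) (nat_lit 6) (nat_lit 280) (nat_lit 3) (nat_lit 156) (nat_lit 136) (nat_lit 158)) (PT.lf (nat_lit 21356) (nat_lit 3) (nat_lit 281) (nat_lit 1) (nat_lit 157) (nat_lit 136) (nat_lit 157))) (PT.nd (nat_lit 78) (PT.lf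 (nat_lit 21280) (nat_lit 6) (nat_lit 280) (nat_lit 1) (nat_lit 158) (nat_lit 136) (nat_lit 156)) (PT.lf (nat_lit 21204) (nat_lit 6) (nat_lit 279) (nat_lit 1) (nat_lit 159) (nat_lit 136) (nat_lit 155)))))) (PT.nd (nat_lit 45942) (PT.nd (nat_lit 312) (PT.nd (nat_lit 156) (PT.nd (nat_lit 78) (PT.lf (nat_lit 21128) (nat_lit 6) (nat_lit 278) (nat_lit 1) (nat_lit 160) (nat_lit 136) (nat_lit 154)) (PT.lf (nat_lit 21052) (nat_lit 6) (nat_lit 277) (nat_lit 1) (nat_lit 161) (nat_lit 136) (nat_lit 153))) (PT.nd (nat_lit 78) (PT.lf (nat_lit 20976) (nat_lit 6) (nat_lit 276) (nat_lit 1) (nat_lit 162) (nat_lit 136) (nat_lit 152)) (PT.lf (nat_lit 20900) (nat_lit 6) (nat_lit 275) (nat_lit 1) (nat_lit 163) (nat_lit 136) (nat_lit 151)))) (PT.nd (nat_lit 156) (PT.nd (nat_lit 78) (PT.lf (nat_lit 20824) (nat_lit 6) (nat_lit 274) (nat_lit 1) (nat_lit 164) (nat_lit 136) (nat_lit 150)) (PT.lf (nat_lit 19608) (nat_lit 6) (nat_lit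 258) (nat_lit 1) (nat_lit 165) (nat_lit 136) (nat_lit 149))) (PT.nd (nat_lit 45396) (PT.lf (nat_lit 18316) (nat_lit 6) (nat_lit 241) (nat_lit 1) (nat_lit 166) (nat_lit 136) (nat_lit 148)) (PT.lf (nat_lit 18240) (nat_lit 6) (nat_lit 240) (nat_lit 3) (nat_lit 147) (nat_lit 137) (nat_lit 166))))) (PT.nd (nat_lit 312) (PT.nd (nat_lit 156) (PT.nd (nat_lit 78) (PT.lf (nat_lit 19532) (nat_lit 6) (nat_lit 257) (nat_lit 3) (nat_lit 148) (nat_lit 137) (nat_lit 165)) (PT.lf (nat_lit 20748) (nat_lit 6) (nat_lit 273) (nat_lit 3) (nat_lit 149) (nat_lit 137) (nat_lit 164))) (PT.nd (nat_lit 78) (PT.lf (nat_lit 21888) (nat_lit 6) (nat_lit 288) (nat_lit 3) (nat_lit 150) (nat_lit 137) (nat_lit 163)) (PT.lf (nat_lit 21964) (nat_lit 6) (nat_lit 289) (nat_lit 3) (nat_lit 151) (nat_lit 137) (nat_lit 162)))) (PT.nd (nat_lit 156) (PT.nd (nat_lit 78) (PT.lf (nat_lit 22040) (nat_lit 6) (nat_lit 290) (nat_lit 3) (nat_lit 152) (nat_lit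 137) (nat_lit 161)) (PT.lf (nat_lit 22116) (nat_lit 6) (nat_lit 291) (nat_lit 3) (nat_lit 153) (nat_lit 137) (nat_lit 160))) (PT.nd (nat_lit 78) (PT.lf (nat_lit 22192) (nat_lit 6) (nat_lit 292) (nat_lit 3) (nat_lit 154) (nat_lit 137) (nat_lit 159)) (PT.nd (nat_lit 78) (PT.lf (nat_lit 22268) (nat_lit 6) (nat_lit 293) (nat_lit 3) (nat_lit 155) (nat_lit 137) (nat_lit 158)) (PT.lf (nat_lit 22344) (nat_lit 6) (nat_lit 294) (nat_lit 3) (nat_lit 156) (nat_lit 137) (nat_lit 157))))))))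
noncomputable def pc15 : PT := (PT.nd (nat_lit 46488) (PT.nd (nat_lit 624) (PT.nd (nat_lit 312) (PT.nd (nat_lit 156) (PT.nd (nat_lit 78) (PT.lf (nat_lit 22344) (nat_lit 6) (nat_lit 294) (nat_lit 1) (nat_lit 157) (nat_lit 137) (nat_lit 156)) (PT.lf (nat_lit 22268) (nat_lit 6) (nat_lit 293) (nat_lit 1) (nat_lit 158) (nat_lit 137) (nat_lit 155))) (PT.nd (nat_lit 78) (PT.lf (nat_lit 22192) (nat_lit 6) (nat_lit 292) (nat_lit 1) (nat_lit 159) (nat_lit 137) (nat_lit 154)) (PT.lf (nat_lit 22116) (nat_lit 6) (nat_lit 291) (nat_lit 1) (nat_lit 160) (nat_lit 137) (nat_lit 153)))) (PT.nd (nat_lit 156) (PT.nd (nat_lit 78) (PT.lf (nat_lit 22040) (nat_lit 6) (nat_lit 290) (nat_lit 1) (nat_lit 161) (nat_lit 137) (nat_lit 152)) (PT.lf (nat_lit 21964) (nat_lit 6) (nat_lit 289) (nat_lit 1) (nat_lit 162) (nat_lit 137) (nat_lit 151))) (PT.nd (nat_lit 78) (PT.lf (nat_lit 21888) (nat_lit 6) (nat_lit 288) (nat_lit 1) (nat_lit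 163) (nat_lit 137) (nat_lit 150)) (PT.lf (nat_lit 20748) (nat_lit 6) (nat_lit 273) (nat_lit 1) (nat_lit 164) (nat_lit 137) (nat_lit 149))))) (PT.nd (nat_lit 45552) (PT.nd (nat_lit 45396) (PT.nd (nat_lit 78) (PT.lf (nat_lit 19532) (nat_lit 6) (nat_lit 257) (nat_lit 1) (nat_lit 165) (nat_lit 137) (nat_lit 148)) (PT.lf (nat_lit 18240) (nat_lit 6) (nat_lit 240) (nat_lit 1) (nat_lit 166) (nat_lit 137) (nat_lit 147))) (PT.nd (nat_lit 78) (PT.lf (nat_lit 18164) (nat_lit 6) (nat_lit 239) (nat_lit 3) (nat_lit 146) (nat_lit 138) (nat_lit 166)) (PT.lf (nat_lit 19456) (nat_lit 6) (nat_lit 256) (nat_lit 3) (nat_lit 147) (nat_lit 138) (nat_lit 165)))) (PT.nd (nat_lit 156) (PT.nd (nat_lit 78) (PT.lf (nat_lit 20672) (nat_lit 6) (nat_lit 272) (nat_lit 3) (nat_lit 148) (nat_lit 138) (nat_lit 164)) (PT.lf (nat_lit 21812) (nat_lit 6) (nat_lit 287) (nat_lit 3) (nat_lit 149) (nat_lit 138) (nat_lit 163))) (PT.nd (nat_lit 78)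 (PT.lf (nat_lit 22876) (nat_lit 6) (nat_lit 301) (nat_lit 3) (nat_lit 150) (nat_lit 138) (nat_lit 162)) (PT.lf (nat_lit 22952) (nat_lit 6) (nat_lit 302) (nat_lit 3) (nat_lit 151) (nat_lit 138) (nat_lit 161)))))) (PT.nd (nat_lit 624) (PT.nd (nat_lit 312) (PT.nd (nat_lit 156) (PT.nd (nat_lit 78) (PT.lf (nat_lit 23028) (nat_lit 6) (nat_lit 303) (nat_lit 3) (nat_lit 152) (nat_lit 138) (nat_lit 160)) (PT.lf (nat_lit 23104) (nat_lit 6) (nat_lit 304) (nat_lit 3) (nat_lit 153) (nat_lit 138) (nat_lit 159))) (PT.nd (nat_lit 78) (PT.lf (nat_lit 23180) (nat_lit 6) (nat_lit 305) (nat_lit 3) (nat_lit 154) (nat_lit 138) (nat_lit 158)) (PT.lf (nat_lit 23256) (nat_lit 6) (nat_lit 306) (nat_lit 3) (nat_lit 155) (nat_lit 138) (nat_lit 157)))) (PT.nd (nat_lit 156) (PT.nd (nat_lit 78) (PT.lf (nat_lit 23332) (nat_lit 3) (nat_lit 307) (nat_lit 1) (nat_lit 156) (nat_lit 138) (nat_lit 156)) (PT.lf (nat_lit 23256) (nat_lit 6) (nat_lit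 306) (nat_lit 1) (nat_lit 157) (nat_lit 138) (nat_lit 155))) (PT.nd (nat_lit 78) (PT.lf (nat_lit 23180) (nat_lit 6) (nat_lit 305) (nat_lit 1) (nat_lit 158) (nat_lit 138) (nat_lit 154)) (PT.lf (nat_lit 23104) (nat_lit 6) (nat_lit 304) (nat_lit 1) (nat_lit 159) (nat_lit 138) (nat_lit 153))))) (PT.nd (nat_lit 312) (PT.nd (nat_lit 156) (PT.nd (nat_lit 78) (PT.lf (nat_lit 23028) (nat_lit 6) (nat_lit 303) (nat_lit 1) (nat_lit 160) (nat_lit 138) (nat_lit 152)) (PT.lf (nat_lit 22952) (nat_lit 6) (nat_lit 302) (nat_lit 1) (nat_lit 161) (nat_lit 138) (nat_lit 151))) (PT.nd (nat_lit 78) (PT.lf (nat_lit 22876) (nat_lit 6) (nat_lit 301) (nat_lit 1) (nat_lit 162) (nat_lit 138) (nat_lit 150)) (PT.lf (nat_lit 21812) (nat_lit 6) (nat_lit 287) (nat_lit 1) (nat_lit 163) (nat_lit 138) (nat_lit 149)))) (PT.nd (nat_lit 156) (PT.nd (nat_lit 78) (PT.lf (nat_lit 20672) (nat_lit 6) (nat_lit 272) (nat_lit 1) (nat_lit 164) (nat_lit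 138) (nat_lit 148)) (PT.lf (nat_lit 19456) (nat_lit 6) (nat_lit 256) (nat_lit 1) (nat_lit 165) (nat_lit 138) (nat_lit 147))) (PT.nd (nat_lit 45240) (PT.lf (nat_lit 18164) (nat_lit 6) (nat_lit 239) (nat_lit 1) (nat_lit 166) (nat_lit 138) (nat_lit 146)) (PT.nd (nat_lit 78) (PT.lf (nat_lit 18088) (nat_lit 6) (nat_lit 238) (nat_lit 3) (nat_lit 145) (nat_lit 139) (nat_lit 166)) (PT.lf (nat_lit 19380) (nat_lit 6) (nat_lit 255) (nat_lit 3) (nat_lit 146) (nat_lit 139) (nat_lit 165))))))))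
noncomputable def pc16 : PT := (PT.nd (nat_lit 1248) (PT.nd (nat_lit 624) (PT.nd (nat_lit 312) (PT.nd (nat_lit 156) (PT.nd (nat_lit 78) (PT.lf (nat_lit 20596) (nat_lit 6) (nat_lit 271) (nat_lit 3) (nat_lit 147) (nat_lit 139) (nat_lit 164)) (PT.lf (nat_lit 21736) (nat_lit 6) (nat_lit 286) (nat_lit 3) (nat_lit 148) (nat_lit 139) (nat_lit 163))) (PT.nd (nat_lit 78) (PT.lf (nat_lit 22800) (nat_lit 6) (nat_lit 300) (nat_lit 3) (nat_lit 149) (nat_lit 139) (nat_lit 162)) (PT.lf (nat_lit 23788) (nat_lit 6) (nat_lit 313) (nat_lit 3) (nat_lit 150) (nat_lit 139) (nat_lit 161)))) (PT.nd (nat_lit 156) (PT.nd (nat_lit 78) (PT.lf (nat_lit 23864) (nat_lit 6) (nat_lit 314) (nat_lit 3) (nat_lit 151) (nat_lit 139) (nat_lit 160)) (PT.lf (nat_lit 23940) (nat_lit 6) (nat_lit 315) (nat_lit 3) (nat_lit 152) (nat_lit 139) (nat_lit 159))) (PT.nd (nat_lit 78) (PT.lf (nat_lit 24016) (nat_lit 6) (nat_lit 316) (nat_lit 3) (nat_lit 153)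 (nat_lit 139) (nat_lit 158)) (PT.lf (nat_lit 24092) (nat_lit 6) (nat_lit 317) (nat_lit 3) (nat_lit 154) (nat_lit 139) (nat_lit 157))))) (PT.nd (nat_lit 312) (PT.nd (nat_lit 156) (PT.nd (nat_lit 78) (PT.lf (nat_lit 24168) (nat_lit 6) (nat_lit 318) (nat_lit 3) (nat_lit 155) (nat_lit 139) (nat_lit 156)) (PT.lf (nat_lit 24168) (nat_lit 6) (nat_lit 318) (nat_lit 1) (nat_lit 156) (nat_lit 139) (nat_lit 155))) (PT.nd (nat_lit 78) (PT.lf (nat_lit 24092) (nat_lit 6) (nat_lit 317) (nat_lit 1) (nat_lit 157) (nat_lit 139) (nat_lit 154)) (PT.lf (nat_lit 24016) (nat_lit 6) (nat_lit 316) (nat_lit 1) (nat_lit 158) (nat_lit 139) (nat_lit 153)))) (PT.nd (nat_lit 156) (PT.nd (nat_lit 78) (PT.lf (nat_lit 23940) (nat_lit 6) (nat_lit 315) (nat_lit 1) (nat_lit 159) (nat_lit 139) (nat_lit 152)) (PT.lf (nat_lit 23864) (nat_lit 6) (nat_lit 314) (nat_lit 1) (nat_lit 160) (nat_lit 139) (nat_lit 151))) (PT.nd (nat_lit 78) (PT.lf (nat_lit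 23788) (nat_lit 6) (nat_lit 313) (nat_lit 1) (nat_lit 161) (nat_lit 139) (nat_lit 150)) (PT.lf (nat_lit 22800) (nat_lit 6) (nat_lit 300) (nat_lit 1) (nat_lit 162) (nat_lit 139) (nat_lit 149)))))) (PT.nd (nat_lit 45708) (PT.nd (nat_lit 45396) (PT.nd (nat_lit 156) (PT.nd (nat_lit 78) (PT.lf (nat_lit 21736) (nat_lit 6) (nat_lit 286) (nat_lit 1) (nat_lit 163) (nat_lit 139) (nat_lit 148)) (PT.lf (nat_lit 20596) (nat_lit 6) (nat_lit 271) (nat_lit 1) (nat_lit 164) (nat_lit 139) (nat_lit 147))) (PT.nd (nat_lit 78) (PT.lf (nat_lit 19380) (nat_lit 6) (nat_lit 255) (nat_lit 1) (nat_lit 165) (nat_lit 139) (nat_lit 146)) (PT.lf (nat_lit 18088) (nat_lit 6) (nat_lit 238) (nat_lit 1) (nat_lit 166) (nat_lit 139) (nat_lit 145)))) (PT.nd (nat_lit 156) (PT.nd (nat_lit 78) (PT.lf (nat_lit 18012) (nat_lit 6) (nat_lit 237) (nat_lit 3) (nat_lit 144) (nat_lit 140) (nat_lit 166)) (PT.lf (nat_lit 19304) (nat_lit 6) (nat_lit 254)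 (nat_lit 3) (nat_lit 145) (nat_lit 140) (nat_lit 165))) (PT.nd (nat_lit 78) (PT.lf (nat_lit 20520) (nat_lit 6) (nat_lit 270) (nat_lit 3) (nat_lit 146) (nat_lit 140) (nat_lit 164)) (PT.lf (nat_lit 21660) (nat_lit 6) (nat_lit 285) (nat_lit 3) (nat_lit 147) (nat_lit 140) (nat_lit 163))))) (PT.nd (nat_lit 312) (PT.nd (nat_lit 156) (PT.nd (nat_lit 78) (PT.lf (nat_lit 22724) (nat_lit 6) (nat_lit 299) (nat_lit 3) (nat_lit 148) (nat_lit 140) (nat_lit 162)) (PT.lf (nat_lit 23712) (nat_lit 6) (nat_lit 312) (nat_lit 3) (nat_lit 149) (nat_lit 140) (nat_lit 161))) (PT.nd (nat_lit 78) (PT.lf (nat_lit 24624) (nat_lit 6) (nat_lit 324) (nat_lit 3) (nat_lit 150) (nat_lit 140) (nat_lit 160)) (PT.lf (nat_lit 24700) (nat_lit 6) (nat_lit 325) (nat_lit 3) (nat_lit 151) (nat_lit 140) (nat_lit 159)))) (PT.nd (nat_lit 156) (PT.nd (nat_lit 78) (PT.lf (nat_lit 24776) (nat_lit 6) (nat_lit 326) (nat_lit 3) (nat_lit 152) (nat_lit 140)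 (nat_lit 158)) (PT.lf (nat_lit 24852) (nat_lit 6) (nat_lit 327) (nat_lit 3) (nat_lit 153) (nat_lit 140) (nat_lit 157))) (PT.nd (nat_lit 78) (PT.lf (nat_lit 24928) (nat_lit 6) (nat_lit 328) (nat_lit 3) (nat_lit 154) (nat_lit 140) (nat_lit 156)) (PT.lf (nat_lit 25004) (nat_lit 3) (nat_lit 329) (nat_lit 1) (nat_lit 155) (nat_lit 140) (nat_lit 155)))))))
noncomputable def pc17 : PT := (PT.nd (nat_lit 46254) (PT.nd (nat_lit 624) (PT.nd (nat_lit 312) (PT.nd (nat_lit 156) (PT.nd (nat_lit 78) (PT.lf (nat_lit 24928) (nat_lit 6) (nat_lit 328) (nat_lit 1) (nat_lit 156) (nat_lit 140) (nat_lit 154)) (PT.lf (nat_lit 24852) (nat_lit 6) (nat_lit 327) (nat_lit 1) (nat_lit 157) (nat_lit 140) (nat_lit 153))) (PT.nd (nat_lit 78) (PT.lf (nat_lit 24776) (nat_lit 6) (nat_lit 326) (nat_lit 1) (nat_lit 158) (nat_lit 140) (nat_lit 152)) (PT.lf (nat_lit 24700) (nat_lit 6) (nat_lit 325) (nat_lit 1) (nat_lit 159) (nat_lit 140) (nat_lit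 151)))) (PT.nd (nat_lit 156) (PT.nd (nat_lit 78) (PT.lf (nat_lit 24624) (nat_lit 6) (nat_lit 324) (nat_lit 1) (nat_lit 160) (nat_lit 140) (nat_lit 150)) (PT.lf (nat_lit 23712) (nat_lit 6) (nat_lit 312) (nat_lit 1) (nat_lit 161) (nat_lit 140) (nat_lit 149))) (PT.nd (nat_lit 78) (PT.lf (nat_lit 22724) (nat_lit 6) (nat_lit 299) (nat_lit 1) (nat_lit 162) (nat_lit 140) (nat_lit 148)) (PT.lf (nat_lit 21660) (nat_lit 6) (nat_lit 285) (nat_lit 1) (nat_lit 163) (nat_lit 140) (nat_lit 147))))) (PT.nd (nat_lit 45318) (PT.nd (nat_lit 156) (PT.nd (nat_lit 78) (PT.lf (nat_lit 20520) (nat_lit 6) (nat_lit 270) (nat_lit 1) (nat_lit 164) (nat_lit 140) (nat_lit 146)) (PT.lf (nat_lit 19304) (nat_lit 6) (nat_lit 254) (nat_lit 1) (nat_lit 165) (nat_lit 140) (nat_lit 145))) (PT.nd (nat_lit 45084) (PT.lf (nat_lit 18012) (nat_lit 6) (nat_lit 237) (nat_lit 1) (nat_lit 166) (nat_lit 140) (nat_lit 144)) (PT.lf (nat_lit 17936) (nat_lit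 6) (nat_lit 236) (nat_lit 3) (nat_lit 143) (nat_lit 141) (nat_lit 166)))) (PT.nd (nat_lit 156) (PT.nd (nat_lit 78) (PT.lf (nat_lit 19228) (nat_lit 6) (nat_lit 253) (nat_lit 3) (nat_lit 144) (nat_lit 141) (nat_lit 165)) (PT.lf (nat_lit 20444) (nat_lit 6) (nat_lit 269) (nat_lit 3) (nat_lit 145) (nat_lit 141) (nat_lit 164))) (PT.nd (nat_lit 78) (PT.lf (nat_lit 21584) (nat_lit 6) (nat_lit 284) (nat_lit 3) (nat_lit 146) (nat_lit 141) (nat_lit 163)) (PT.lf (nat_lit 22648) (nat_lit 6) (nat_lit 298) (nat_lit 3) (nat_lit 147) (nat_lit 141) (nat_lit 162)))))) (PT.nd (nat_lit 624) (PT.nd (nat_lit 312) (PT.nd (nat_lit 156) (PT.nd (nat_lit 78) (PT.lf (nat_lit 23636) (nat_lit 6) (nat_lit 311) (nat_lit 3) (nat_lit 148) (nat_lit 141) (nat_lit 161)) (PT.lf (nat_lit 24548) (nat_lit 6) (nat_lit 323) (nat_lit 3) (nat_lit 149) (nat_lit 141) (nat_lit 160))) (PT.nd (nat_lit 78) (PT.lf (nat_lit 25384) (nat_lit 6) (nat_lit 334)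 (nat_lit 3) (nat_lit 150) (nat_lit 141) (nat_lit 159)) (PT.lf (nat_lit 25460) (nat_lit 6) (nat_lit 335) (nat_lit 3) (nat_lit 151) (nat_lit 141) (nat_lit 158)))) (PT.nd (nat_lit 156) (PT.nd (nat_lit 78) (PT.lf (nat_lit 25536) (nat_lit 6) (nat_lit 336) (nat_lit 3) (nat_lit 152) (nat_lit 141) (nat_lit 157)) (PT.lf (nat_lit 25612) (nat_lit 6) (nat_lit 337) (nat_lit 3) (nat_lit 153) (nat_lit 141) (nat_lit 156))) (PT.nd (nat_lit 78) (PT.lf (nat_lit 25688) (nat_lit 6) (nat_lit 338) (nat_lit 3) (nat_lit 154) (nat_lit 141) (nat_lit 155)) (PT.lf (nat_lit 25688) (nat_lit 6) (nat_lit 338) (nat_lit 1) (nat_lit 155) (nat_lit 141) (nat_lit 154))))) (PT.nd (nat_lit 312) (PT.nd (nat_lit 156) (PT.nd (nat_lit 78) (PT.lf (nat_lit 25612) (nat_lit 6) (nat_lit 337) (nat_lit 1) (nat_lit 156) (nat_lit 141) (nat_lit 153)) (PT.lf (nat_lit 25536) (nat_lit 6) (nat_lit 336) (nat_lit 1) (nat_lit 157) (nat_lit 141) (nat_lit 152))) (PT.nd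 (nat_lit 78) (PT.lf (nat_lit 25460) (nat_lit 6) (nat_lit 335) (nat_lit 1) (nat_lit 158) (nat_lit 141) (nat_lit 151)) (PT.lf (nat_lit 25384) (nat_lit 6) (nat_lit 334) (nat_lit 1) (nat_lit 159) (nat_lit 141) (nat_lit 150)))) (PT.nd (nat_lit 156) (PT.nd (nat_lit 78) (PT.lf (nat_lit 24548) (nat_lit 6) (nat_lit 323) (nat_lit 1) (nat_lit 160) (nat_lit 141) (nat_lit 149)) (PT.lf (nat_lit 23636) (nat_lit 6) (nat_lit 311) (nat_lit 1) (nat_lit 161) (nat_lit 141) (nat_lit 148))) (PT.nd (nat_lit 78) (PT.lf (nat_lit 22648) (nat_lit 6) (nat_lit 298) (nat_lit 1) (nat_lit 162) (nat_lit 141) (nat_lit 147)) (PT.nd (nat_lit 78) (PT.lf (nat_lit 21584) (nat_lit 6) (nat_lit 284) (nat_lit 1) (nat_lit 163) (nat_lit 141) (nat_lit 146)) (PT.lf (nat_lit 20444) (nat_lit 6) (nat_lit 269) (nat_lit 1) (nat_lit 164) (nat_lit 141) (nat_lit 145))))))))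
noncomputable def pc18 : PT := (PT.nd (nat_lit 46176) (PT.nd (nat_lit 45552) (PT.nd (nat_lit 45240) (PT.nd (nat_lit 45084) (PT.nd (nat_lit 78) (PT.lf (nat_lit 19228) (nat_lit 6) (nat_lit 253) (nat_lit 1) (nat_lit 165) (nat_lit 141) (nat_lit 144)) (PT.lf (nat_lit 17936) (nat_lit 6) (nat_lit 236) (nat_lit 1) (nat_lit 166) (nat_lit 141) (nat_lit 143))) (PT.nd (nat_lit 78) (PT.lf (nat_lit 17860) (nat_lit 3) (nat_lit 235) (nat_lit 3) (nat_lit 142) (nat_lit 142) (nat_lit 166)) (PT.lf (nat_lit 19152) (nat_lit 6) (nat_lit 252) (nat_lit 3) (nat_lit 143) (nat_lit 142) (nat_lit 165)))) (PT.nd (nat_lit 156) (PT.nd (nat_lit 78) (PT.lf (nat_lit 20368) (nat_lit 6) (nat_lit 268) (nat_lit 3) (nat_lit 144) (nat_lit 142) (nat_lit 164)) (PT.lf (nat_lit 21508) (nat_lit 6) (nat_lit 283) (nat_lit 3) (nat_lit 145) (nat_lit 142) (nat_lit 163))) (PT.nd (nat_lit 78) (PT.lf (nat_lit 22572) (nat_lit 6) (nat_lit 297) (nat_lit 3) (nat_lit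 146) (nat_lit 142) (nat_lit 162)) (PT.lf (nat_lit 23560) (nat_lit 6) (nat_lit 310) (nat_lit 3) (nat_lit 147) (nat_lit 142) (nat_lit 161))))) (PT.nd (nat_lit 312) (PT.nd (nat_lit 156) (PT.nd (nat_lit 78) (PT.lf (nat_lit 24472) (nat_lit 6) (nat_lit 322) (nat_lit 3) (nat_lit 148) (nat_lit 142) (nat_lit 160)) (PT.lf (nat_lit 25308) (nat_lit 6) (nat_lit 333) (nat_lit 3) (nat_lit 149) (nat_lit 142) (nat_lit 159))) (PT.nd (nat_lit 78) (PT.lf (nat_lit 26068) (nat_lit 6) (nat_lit 343) (nat_lit 3) (nat_lit 150) (nat_lit 142) (nat_lit 158)) (PT.lf (nat_lit 26144) (nat_lit 6) (nat_lit 344) (nat_lit 3) (nat_lit 151) (nat_lit 142) (nat_lit 157)))) (PT.nd (nat_lit 156) (PT.nd (nat_lit 78) (PT.lf (nat_lit 26220) (nat_lit 6) (nat_lit 345) (nat_lit 3) (nat_lit 152) (nat_lit 142) (nat_lit 156)) (PT.lf (nat_lit 26296) (nat_lit 6) (nat_lit 346) (nat_lit 3) (nat_lit 153) (nat_lit 142) (nat_lit 155))) (PT.nd (nat_lit 78) (PT.lf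 (nat_lit 26372) (nat_lit 3) (nat_lit 347) (nat_lit 1) (nat_lit 154) (nat_lit 142) (nat_lit 154)) (PT.lf (nat_lit 26296) (nat_lit 6) (nat_lit 346) (nat_lit 1) (nat_lit 155) (nat_lit 142) (nat_lit 153)))))) (PT.nd (nat_lit 624) (PT.nd (nat_lit 312) (PT.nd (nat_lit 156) (PT.nd (nat_lit 78) (PT.lf (nat_lit 26220) (nat_lit 6) (nat_lit 345) (nat_lit 1) (nat_lit 156) (nat_lit 142) (nat_lit 152)) (PT.lf (nat_lit 26144) (nat_lit 6) (nat_lit 344) (nat_lit 1) (nat_lit 157) (nat_lit 142) (nat_lit 151))) (PT.nd (nat_lit 78) (PT.lf (nat_lit 26068) (nat_lit 6) (nat_lit 343) (nat_lit 1) (nat_lit 158) (nat_lit 142) (nat_lit 150)) (PT.lf (nat_lit 25308) (nat_lit 6) (nat_lit 333) (nat_lit 1) (nat_lit 159) (nat_lit 142) (nat_lit 149)))) (PT.nd (nat_lit 156) (PT.nd (nat_lit 78) (PT.lf (nat_lit 24472) (nat_lit 6) (nat_lit 322) (nat_lit 1) (nat_lit 160) (nat_lit 142) (nat_lit 148)) (PT.lf (nat_lit 23560) (nat_lit 6) (nat_lit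 310) (nat_lit 1) (nat_lit 161) (nat_lit 142) (nat_lit 147))) (PT.nd (nat_lit 78) (PT.lf (nat_lit 22572) (nat_lit 6) (nat_lit 297) (nat_lit 1) (nat_lit 162) (nat_lit 142) (nat_lit 146)) (PT.lf (nat_lit 21508) (nat_lit 6) (nat_lit 283) (nat_lit 1) (nat_lit 163) (nat_lit 142) (nat_lit 145))))) (PT.nd (nat_lit 45162) (PT.nd (nat_lit 156) (PT.nd (nat_lit 78) (PT.lf (nat_lit 20368) (nat_lit 6) (nat_lit 268) (nat_lit 1) (nat_lit 164) (nat_lit 142) (nat_lit 144)) (PT.lf (nat_lit 19152) (nat_lit 6) (nat_lit 252) (nat_lit 1) (nat_lit 165) (nat_lit 142) (nat_lit 143))) (PT.nd (nat_lit 44928) (PT.lf (nat_lit 17860) (nat_lit 3) (nat_lit 235) (nat_lit 0) (nat_lit 166) (nat_lit 142) (nat_lit 142)) (PT.lf (nat_lit 17936) (nat_lit 6) (nat_lit 236) (nat_lit 5) (nat_lit 141) (nat_lit 143) (nat_lit 166)))) (PT.nd (nat_lit 156) (PT.nd (nat_lit 78) (PT.lf (nat_lit 19152) (nat_lit 6) (nat_lit 252) (nat_lit 5) (nat_lit 142) (nat_lit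 143) (nat_lit 165)) (PT.lf (nat_lit 20292) (nat_lit 3) (nat_lit 267) (nat_lit 3) (nat_lit 143) (nat_lit 143) (nat_lit 164))) (PT.nd (nat_lit 78) (PT.lf (nat_lit 21432) (nat_lit 6) (nat_lit 282) (nat_lit 3) (nat_lit 144) (nat_lit 143) (nat_lit 163)) (PT.nd (nat_lit 78) (PT.lf (nat_lit 22496) (nat_lit 6) (nat_lit 296) (nat_lit 3) (nat_lit 145) (nat_lit 143) (nat_lit 162)) (PT.lf (nat_lit 23484) (nat_lit 6) (nat_lit 309) (nat_lit 3) (nat_lit 146) (nat_lit 143) (nat_lit 161))))))))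
noncomputable def pc19 : PT := (PT.nd (nat_lit 1248) (PT.nd (nat_lit 624) (PT.nd (nat_lit 312) (PT.nd (nat_lit 156) (PT.nd (nat_lit 78) (PT.lf (nat_lit 24396) (nat_lit 6) (nat_lit 321) (nat_lit 3) (nat_lit 147) (nat_lit 143) (nat_lit 160)) (PT.lf (nat_lit 25232) (nat_lit 6) (nat_lit 332) (nat_lit 3) (nat_lit 148) (nat_lit 143) (nat_lit 159))) (PT.nd (nat_lit 78) (PT.lf (nat_lit 25992) (nat_lit 6) (nat_lit 342) (nat_lit 3) (nat_lit 149) (nat_lit 143) (nat_lit 158)) (PT.lf (nat_lit 26676) (nat_lit 6) (nat_lit 351) (nat_lit 3) (nat_lit 150) (nat_lit 143) (nat_lit 157)))) (PT.nd (nat_lit 156) (PT.nd (nat_lit 78) (PT.lf (nat_lit 26752) (nat_lit 6) (nat_lit 352) (nat_lit 3) (nat_lit 151) (nat_lit 143) (nat_lit 156)) (PT.lf (nat_lit 26828) (nat_lit 6) (nat_lit 353) (nat_lit 3) (nat_lit 152) (nat_lit 143) (nat_lit 155))) (PT.nd (nat_lit 78) (PT.lf (nat_lit 26904) (nat_lit 6) (nat_lit 354) (nat_lit 3) (nat_lit 153)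 (nat_lit 143) (nat_lit 154)) (PT.lf (nat_lit 26904) (nat_lit 6) (nat_lit 354) (nat_lit 1) (nat_lit 154) (nat_lit 143) (nat_lit 153))))) (PT.nd (nat_lit 312) (PT.nd (nat_lit 156) (PT.nd (nat_lit 78) (PT.lf (nat_lit 26828) (nat_lit 6) (nat_lit 353) (nat_lit 1) (nat_lit 155) (nat_lit 143) (nat_lit 152)) (PT.lf (nat_lit 26752) (nat_lit 6) (nat_lit 352) (nat_lit 1) (nat_lit 156) (nat_lit 143) (nat_lit 151))) (PT.nd (nat_lit 78) (PT.lf (nat_lit 26676) (nat_lit 6) (nat_lit 351) (nat_lit 1) (nat_lit 157) (nat_lit 143) (nat_lit 150)) (PT.lf (nat_lit 25992) (nat_lit 6) (nat_lit 342) (nat_lit 1) (nat_lit 158) (nat_lit 143) (nat_lit 149)))) (PT.nd (nat_lit 156) (PT.nd (nat_lit 78) (PT.lf (nat_lit 25232) (nat_lit 6) (nat_lit 332) (nat_lit 1) (nat_lit 159) (nat_lit 143) (nat_lit 148)) (PT.lf (nat_lit 24396) (nat_lit 6) (nat_lit 321) (nat_lit 1) (nat_lit 160) (nat_lit 143) (nat_lit 147))) (PT.nd (nat_lit 78) (PT.lf (nat_lit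 23484) (nat_lit 6) (nat_lit 309) (nat_lit 1) (nat_lit 161) (nat_lit 143) (nat_lit 146)) (PT.lf (nat_lit 22496) (nat_lit 6) (nat_lit 296) (nat_lit 1) (nat_lit 162) (nat_lit 143) (nat_lit 145)))))) (PT.nd (nat_lit 45396) (PT.nd (nat_lit 45084) (PT.nd (nat_lit 156) (PT.nd (nat_lit 78) (PT.lf (nat_lit 21432) (nat_lit 6) (nat_lit 282) (nat_lit 1) (nat_lit 163) (nat_lit 143) (nat_lit 144)) (PT.lf (nat_lit 20292) (nat_lit 3) (nat_lit 267) (nat_lit 0) (nat_lit 164) (nat_lit 143) (nat_lit 143))) (PT.nd (nat_lit 78) (PT.lf (nat_lit 19152) (nat_lit 6) (nat_lit 252) (nat_lit 0) (nat_lit 165) (nat_lit 143) (nat_lit 142)) (PT.lf (nat_lit 17936) (nat_lit 6) (nat_lit 236) (nat_lit 0) (nat_lit 166) (nat_lit 143) (nat_lit 141)))) (PT.nd (nat_lit 156) (PT.nd (nat_lit 78) (PT.lf (nat_lit 18012) (nat_lit 6) (nat_lit 237) (nat_lit 5) (nat_lit 140) (nat_lit 144) (nat_lit 166)) (PT.lf (nat_lit 19228) (nat_lit 6) (nat_lit 253)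 (nat_lit 5) (nat_lit 141) (nat_lit 144) (nat_lit 165))) (PT.nd (nat_lit 78) (PT.lf (nat_lit 20368) (nat_lit 6) (nat_lit 268) (nat_lit 5) (nat_lit 142) (nat_lit 144) (nat_lit 164)) (PT.lf (nat_lit 21432) (nat_lit 6) (nat_lit 282) (nat_lit 5) (nat_lit 143) (nat_lit 144) (nat_lit 163))))) (PT.nd (nat_lit 312) (PT.nd (nat_lit 156) (PT.nd (nat_lit 78) (PT.lf (nat_lit 22420) (nat_lit 3) (nat_lit 295) (nat_lit 3) (nat_lit 144) (nat_lit 144) (nat_lit 162)) (PT.lf (nat_lit 23408) (nat_lit 6) (nat_lit 308) (nat_lit 3) (nat_lit 145) (nat_lit 144) (nat_lit 161))) (PT.nd (nat_lit 78) (PT.lf (nat_lit 24320) (nat_lit 6) (nat_lit 320) (nat_lit 3) (nat_lit 146) (nat_lit 144) (nat_lit 160)) (PT.lf (nat_lit 25156) (nat_lit 6) (nat_lit 331) (nat_lit 3) (nat_lit 147) (nat_lit 144) (nat_lit 159)))) (PT.nd (nat_lit 156) (PT.nd (nat_lit 78) (PT.lf (nat_lit 25916) (nat_lit 6) (nat_lit 341) (nat_lit 3) (nat_lit 148) (nat_lit 144)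 (nat_lit 158)) (PT.lf (nat_lit 26600) (nat_lit 6) (nat_lit 350) (nat_lit 3) (nat_lit 149) (nat_lit 144) (nat_lit 157))) (PT.nd (nat_lit 78) (PT.lf (nat_lit 27208) (nat_lit 6) (nat_lit 358) (nat_lit 3) (nat_lit 150) (nat_lit 144) (nat_lit 156)) (PT.nd (nat_lit 78) (PT.lf (nat_lit 27284) (nat_lit 6) (nat_lit 359) (nat_lit 3) (nat_lit 151) (nat_lit 144) (nat_lit 155)) (PT.lf (nat_lit 27360) (nat_lit 6) (nat_lit 360) (nat_lit 3) (nat_lit 152) (nat_lit 144) (nat_lit 154))))))))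
noncomputable def pc20 : PT := (PT.nd (nat_lit 45942) (PT.nd (nat_lit 624) (PT.nd (nat_lit 312) (PT.nd (nat_lit 156) (PT.nd (nat_lit 78) (PT.lf (nat_lit 27436) (nat_lit 3) (nat_lit 361) (nat_lit 1) (nat_lit 153) (nat_lit 144) (nat_lit 153)) (PT.lf (nat_lit 27360) (nat_lit 6) (nat_lit 360) (nat_lit 1) (nat_lit 154) (nat_lit 144) (nat_lit 152))) (PT.nd (nat_lit 78) (PT.lf (nat_lit 27284) (nat_lit 6) (nat_lit 359) (nat_lit 1) (nat_lit 155) (nat_lit 144) (nat_lit 151)) (PT.lf (nat_lit 27208) (nat_lit 6) (nat_lit 358) (nat_lit 1) (nat_lit 156) (nat_lit 144) (nat_lit 150)))) (PT.nd (nat_lit 156) (PT.nd (nat_lit 78) (PT.lf (nat_lit 26600) (nat_lit 6) (nat_lit 350) (nat_lit 1) (nat_lit 157) (nat_lit 144) (nat_lit 149)) (PT.lf (nat_lit 25916) (nat_lit 6) (nat_lit 341) (nat_lit 1) (nat_lit 158) (nat_lit 144) (nat_lit 148))) (PT.nd (nat_lit 78) (PT.lf (nat_lit 25156) (nat_lit 6) (nat_lit 331) (nat_lit 1) (nat_lit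 159) (nat_lit 144) (nat_lit 147)) (PT.lf (nat_lit 24320) (nat_lit 6) (nat_lit 320) (nat_lit 1) (nat_lit 160) (nat_lit 144) (nat_lit 146))))) (PT.nd (nat_lit 312) (PT.nd (nat_lit 156) (PT.nd (nat_lit 78) (PT.lf (nat_lit 23408) (nat_lit 6) (nat_lit 308) (nat_lit 1) (nat_lit 161) (nat_lit 144) (nat_lit 145)) (PT.lf (nat_lit 22420) (nat_lit 3) (nat_lit 295) (nat_lit 0) (nat_lit 162) (nat_lit 144) (nat_lit 144))) (PT.nd (nat_lit 78) (PT.lf (nat_lit 21432) (nat_lit 6) (nat_lit 282) (nat_lit 0) (nat_lit 163) (nat_lit 144) (nat_lit 143)) (PT.lf (nat_lit 20368) (nat_lit 6) (nat_lit 268) (nat_lit 0) (nat_lit 164) (nat_lit 144) (nat_lit 142)))) (PT.nd (nat_lit 44850) (PT.nd (nat_lit 78) (PT.lf (nat_lit 19228) (nat_lit 6) (nat_lit 253) (nat_lit 0) (nat_lit 165) (nat_lit 144) (nat_lit 141)) (PT.lf (nat_lit 18012) (nat_lit 6) (nat_lit 237) (nat_lit 0) (nat_lit 166) (nat_lit 144) (nat_lit 140))) (PT.nd (nat_lit 78) (PT.lf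 (nat_lit 18088) (nat_lit 6) (nat_lit 238) (nat_lit 5) (nat_lit 139) (nat_lit 145) (nat_lit 166)) (PT.lf (nat_lit 19304) (nat_lit 6) (nat_lit 254) (nat_lit 5) (nat_lit 140) (nat_lit 145) (nat_lit 165)))))) (PT.nd (nat_lit 624) (PT.nd (nat_lit 312) (PT.nd (nat_lit 156) (PT.nd (nat_lit 78) (PT.lf (nat_lit 20444) (nat_lit 6) (nat_lit 269) (nat_lit 5) (nat_lit 141) (nat_lit 145) (nat_lit 164)) (PT.lf (nat_lit 21508) (nat_lit 6) (nat_lit 283) (nat_lit 5) (nat_lit 142) (nat_lit 145) (nat_lit 163))) (PT.nd (nat_lit 78) (PT.lf (nat_lit 22496) (nat_lit 6) (nat_lit 296) (nat_lit 5) (nat_lit 143) (nat_lit 145) (nat_lit 162)) (PT.lf (nat_lit 23408) (nat_lit 6) (nat_lit 308) (nat_lit 5) (nat_lit 144) (nat_lit 145) (nat_lit 161)))) (PT.nd (nat_lit 156) (PT.nd (nat_lit 78) (PT.lf (nat_lit 24244) (nat_lit 3) (nat_lit 319) (nat_lit 3) (nat_lit 145) (nat_lit 145) (nat_lit 160)) (PT.lf (nat_lit 25080) (nat_lit 6) (nat_lit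 330) (nat_lit 3) (nat_lit 146) (nat_lit 145) (nat_lit 159))) (PT.nd (nat_lit 78) (PT.lf (nat_lit 25840) (nat_lit 6) (nat_lit 340) (nat_lit 3) (nat_lit 147) (nat_lit 145) (nat_lit 158)) (PT.lf (nat_lit 26524) (nat_lit 6) (nat_lit 349) (nat_lit 3) (nat_lit 148) (nat_lit 145) (nat_lit 157))))) (PT.nd (nat_lit 312) (PT.nd (nat_lit 156) (PT.nd (nat_lit 78) (PT.lf (nat_lit 27132) (nat_lit 6) (nat_lit 357) (nat_lit 3) (nat_lit 149) (nat_lit 145) (nat_lit 156)) (PT.lf (nat_lit 27664) (nat_lit 6) (nat_lit 364) (nat_lit 3) (nat_lit 150) (nat_lit 145) (nat_lit 155))) (PT.nd (nat_lit 78) (PT.lf (nat_lit 27740) (nat_lit 6) (nat_lit 365) (nat_lit 3) (nat_lit 151) (nat_lit 145) (nat_lit 154)) (PT.lf (nat_lit 27816) (nat_lit 6) (nat_lit 366) (nat_lit 3) (nat_lit 152) (nat_lit 145) (nat_lit 153)))) (PT.nd (nat_lit 156) (PT.nd (nat_lit 78) (PT.lf (nat_lit 27816) (nat_lit 6) (nat_lit 366) (nat_lit 1) (nat_lit 153) (nat_lit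 145) (nat_lit 152)) (PT.lf (nat_lit 27740) (nat_lit 6) (nat_lit 365) (nat_lit 1) (nat_lit 154) (nat_lit 145) (nat_lit 151))) (PT.nd (nat_lit 78) (PT.lf (nat_lit 27664) (nat_lit 6) (nat_lit 364) (nat_lit 1) (nat_lit 155) (nat_lit 145) (nat_lit 150)) (PT.lf (nat_lit 27132) (nat_lit 6) (nat_lit 357) (nat_lit 1) (nat_lit 156) (nat_lit 145) (nat_lit 149)))))))
noncomputable def pc21 : PT := (PT.nd (nat_lit 45864) (PT.nd (nat_lit 624) (PT.nd (nat_lit 312) (PT.nd (nat_lit 156) (PT.nd (nat_lit 78) (PT.lf (nat_lit 26524) (nat_lit 6) (nat_lit 349) (nat_lit 1) (nat_lit 157) (nat_lit 145) (nat_lit 148)) (PT.lf (nat_lit 25840) (nat_lit 6) (nat_lit 340) (nat_lit 1) (nat_lit 158) (nat_lit 145) (nat_lit 147))) (PT.nd (nat_lit 78) (PT.lf (nat_lit 25080) (nat_lit 6) (nat_lit 330) (nat_lit 1) (nat_lit 159) (nat_lit 145) (nat_lit 146)) (PT.lf (nat_lit 24244) (nat_lit 3) (nat_lit 319) (nat_lit 0) (nat_lit 160) (nat_lit 145)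 (nat_lit 145)))) (PT.nd (nat_lit 156) (PT.nd (nat_lit 78) (PT.lf (nat_lit 23408) (nat_lit 6) (nat_lit 308) (nat_lit 0) (nat_lit 161) (nat_lit 145) (nat_lit 144)) (PT.lf (nat_lit 22496) (nat_lit 6) (nat_lit 296) (nat_lit 0) (nat_lit 162) (nat_lit 145) (nat_lit 143))) (PT.nd (nat_lit 78) (PT.lf (nat_lit 21508) (nat_lit 6) (nat_lit 283) (nat_lit 0) (nat_lit 163) (nat_lit 145) (nat_lit 142)) (PT.lf (nat_lit 20444) (nat_lit 6) (nat_lit 269) (nat_lit 0) (nat_lit 164) (nat_lit 145) (nat_lit 141))))) (PT.nd (nat_lit 44928) (PT.nd (nat_lit 44772) (PT.nd (nat_lit 78) (PT.lf (nat_lit 19304) (nat_lit 6) (nat_lit 254) (nat_lit 0) (nat_lit 165) (nat_lit 145) (nat_lit 140)) (PT.lf (nat_lit 18088) (nat_lit 6) (nat_lit 238) (nat_lit 0) (nat_lit 166) (nat_lit 145) (nat_lit 139))) (PT.nd (nat_lit 78) (PT.lf (nat_lit 18164) (nat_lit 6) (nat_lit 239) (nat_lit 5) (nat_lit 138) (nat_lit 146) (nat_lit 166)) (PT.lf (nat_lit 19380)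 (nat_lit 6) (nat_lit 255) (nat_lit 5) (nat_lit 139) (nat_lit 146) (nat_lit 165)))) (PT.nd (nat_lit 156) (PT.nd (nat_lit 78) (PT.lf (nat_lit 20520) (nat_lit 6) (nat_lit 270) (nat_lit 5) (nat_lit 140) (nat_lit 146) (nat_lit 164)) (PT.lf (nat_lit 21584) (nat_lit 6) (nat_lit 284) (nat_lit 5) (nat_lit 141) (nat_lit 146) (nat_lit 163))) (PT.nd (nat_lit 78) (PT.lf (nat_lit 22572) (nat_lit 6) (nat_lit 297) (nat_lit 5) (nat_lit 142) (nat_lit 146) (nat_lit 162)) (PT.lf (nat_lit 23484) (nat_lit 6) (nat_lit 309) (nat_lit 5) (nat_lit 143) (nat_lit 146) (nat_lit 161)))))) (PT.nd (nat_lit 624) (PT.nd (nat_lit 312) (PT.nd (nat_lit 156) (PT.nd (nat_lit 78) (PT.lf (nat_lit 24320) (nat_lit 6) (nat_lit 320) (nat_lit 5) (nat_lit 144) (nat_lit 146) (nat_lit 160)) (PT.lf (nat_lit 25080) (nat_lit 6) (nat_lit 330) (nat_lit 5) (nat_lit 145) (nat_lit 146) (nat_lit 159))) (PT.nd (nat_lit 78) (PT.lf (nat_lit 25764) (nat_lit 3) (nat_lit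 339) (nat_lit 3) (nat_lit 146) (nat_lit 146) (nat_lit 158)) (PT.lf (nat_lit 26448) (nat_lit 6) (nat_lit 348) (nat_lit 3) (nat_lit 147) (nat_lit 146) (nat_lit 157)))) (PT.nd (nat_lit 156) (PT.nd (nat_lit 78) (PT.lf (nat_lit 27056) (nat_lit 6) (nat_lit 356) (nat_lit 3) (nat_lit 148) (nat_lit 146) (nat_lit 156)) (PT.lf (nat_lit 27588) (nat_lit 6) (nat_lit 363) (nat_lit 3) (nat_lit 149) (nat_lit 146) (nat_lit 155))) (PT.nd (nat_lit 78) (PT.lf (nat_lit 28044) (nat_lit 6) (nat_lit 369) (nat_lit 3) (nat_lit 150) (nat_lit 146) (nat_lit 154)) (PT.lf (nat_lit 28120) (nat_lit 6) (nat_lit 370) (nat_lit 3) (nat_lit 151) (nat_lit 146) (nat_lit 153))))) (PT.nd (nat_lit 312) (PT.nd (nat_lit 156) (PT.nd (nat_lit 78) (PT.lf (nat_lit 28196) (nat_lit 3) (nat_lit 371) (nat_lit 1) (nat_lit 152) (nat_lit 146) (nat_lit 152)) (PT.lf (nat_lit 28120) (nat_lit 6) (nat_lit 370) (nat_lit 1) (nat_lit 153) (nat_lit 146) (nat_lit 151)))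 (PT.nd (nat_lit 78) (PT.lf (nat_lit 28044) (nat_lit 6) (nat_lit 369) (nat_lit 1) (nat_lit 154) (nat_lit 146) (nat_lit 150)) (PT.lf (nat_lit 27588) (nat_lit 6) (nat_lit 363) (nat_lit 1) (nat_lit 155) (nat_lit 146) (nat_lit 149)))) (PT.nd (nat_lit 156) (PT.nd (nat_lit 78) (PT.lf (nat_lit 27056) (nat_lit 6) (nat_lit 356) (nat_lit 1) (nat_lit 156) (nat_lit 146) (nat_lit 148)) (PT.lf (nat_lit 26448) (nat_lit 6) (nat_lit 348) (nat_lit 1) (nat_lit 157) (nat_lit 146) (nat_lit 147))) (PT.nd (nat_lit 78) (PT.lf (nat_lit 25764) (nat_lit 3) (nat_lit 339) (nat_lit 0) (nat_lit 158) (nat_lit 146) (nat_lit 146)) (PT.nd (nat_lit 78) (PT.lf (nat_lit 25080) (nat_lit 6) (nat_lit 330) (nat_lit 0) (nat_lit 159) (nat_lit 146) (nat_lit 145)) (PT.lf (nat_lit 24320) (nat_lit 6) (nat_lit 320) (nat_lit 0) (nat_lit 160) (nat_lit 146) (nat_lit 144))))))))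
noncomputable def pc22 : PT := (PT.nd (nat_lit 45786) (PT.nd (nat_lit 45162) (PT.nd (nat_lit 312) (PT.nd (nat_lit 156) (PT.nd (nat_lit 78) (PT.lf (nat_lit 23484) (nat_lit 6) (nat_lit 309) (nat_lit 0) (nat_lit 161) (nat_lit 146) (nat_lit 143)) (PT.lf (nat_lit 22572) (nat_lit 6) (nat_lit 297) (nat_lit 0) (nat_lit 162) (nat_lit 146) (nat_lit 142))) (PT.nd (nat_lit 78) (PT.lf (nat_lit 21584) (nat_lit 6) (nat_lit 284) (nat_lit 0) (nat_lit 163) (nat_lit 146) (nat_lit 141)) (PT.lf (nat_lit 20520) (nat_lit 6) (nat_lit 270) (nat_lit 0) (nat_lit 164) (nat_lit 146) (nat_lit 140)))) (PT.nd (nat_lit 44694) (PT.nd (nat_lit 78) (PT.lf (nat_lit 19380) (nat_lit 6) (nat_lit 255) (nat_lit 0) (nat_lit 165) (nat_lit 146) (nat_lit 139)) (PT.lf (nat_lit 18164) (nat_lit 6) (nat_lit 239) (nat_lit 0) (nat_lit 166) (nat_lit 146) (nat_lit 138))) (PT.nd (nat_lit 78) (PT.lf (nat_lit 18240) (nat_lit 6) (nat_lit 240) (nat_lit 5) (nat_lit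 137) (nat_lit 147) (nat_lit 166)) (PT.lf (nat_lit 19456) (nat_lit 6) (nat_lit 256) (nat_lit 5) (nat_lit 138) (nat_lit 147) (nat_lit 165))))) (PT.nd (nat_lit 312) (PT.nd (nat_lit 156) (PT.nd (nat_lit 78) (PT.lf (nat_lit 20596) (nat_lit 6) (nat_lit 271) (nat_lit 5) (nat_lit 139) (nat_lit 147) (nat_lit 164)) (PT.lf (nat_lit 21660) (nat_lit 6) (nat_lit 285) (nat_lit 5) (nat_lit 140) (nat_lit 147) (nat_lit 163))) (PT.nd (nat_lit 78) (PT.lf (nat_lit 22648) (nat_lit 6) (nat_lit 298) (nat_lit 5) (nat_lit 141) (nat_lit 147) (nat_lit 162)) (PT.lf (nat_lit 23560) (nat_lit 6) (nat_lit 310) (nat_lit 5) (nat_lit 142) (nat_lit 147) (nat_lit 161)))) (PT.nd (nat_lit 156) (PT.nd (nat_lit 78) (PT.lf (nat_lit 24396) (nat_lit 6) (nat_lit 321) (nat_lit 5) (nat_lit 143) (nat_lit 147) (nat_lit 160)) (PT.lf (nat_lit 25156) (nat_lit 6) (nat_lit 331) (nat_lit 5) (nat_lit 144) (nat_lit 147) (nat_lit 159))) (PT.nd (nat_lit 78) (PT.lf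 (nat_lit 25840) (nat_lit 6) (nat_lit 340) (nat_lit 5) (nat_lit 145) (nat_lit 147) (nat_lit 158)) (PT.lf (nat_lit 26448) (nat_lit 6) (nat_lit 348) (nat_lit 5) (nat_lit 146) (nat_lit 147) (nat_lit 157)))))) (PT.nd (nat_lit 624) (PT.nd (nat_lit 312) (PT.nd (nat_lit 156) (PT.nd (nat_lit 78) (PT.lf (nat_lit 26980) (nat_lit 3) (nat_lit 355) (nat_lit 3) (nat_lit 147) (nat_lit 147) (nat_lit 156)) (PT.lf (nat_lit 27512) (nat_lit 6) (nat_lit 362) (nat_lit 3) (nat_lit 148) (nat_lit 147) (nat_lit 155))) (PT.nd (nat_lit 78) (PT.lf (nat_lit 27968) (nat_lit 6) (nat_lit 368) (nat_lit 3) (nat_lit 149) (nat_lit 147) (nat_lit 154)) (PT.lf (nat_lit 28348) (nat_lit 6) (nat_lit 373) (nat_lit 3) (nat_lit 150) (nat_lit 147) (nat_lit 153)))) (PT.nd (nat_lit 156) (PT.nd (nat_lit 78) (PT.lf (nat_lit 28424) (nat_lit 6) (nat_lit 374) (nat_lit 3) (nat_lit 151) (nat_lit 147) (nat_lit 152)) (PT.lf (nat_lit 28424) (nat_lit 6) (nat_lit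 374) (nat_lit 1) (nat_lit 152) (nat_lit 147) (nat_lit 151))) (PT.nd (nat_lit 78) (PT.lf (nat_lit 28348) (nat_lit 6) (nat_lit 373) (nat_lit 1) (nat_lit 153) (nat_lit 147) (nat_lit 150)) (PT.lf (nat_lit 27968) (nat_lit 6) (nat_lit 368) (nat_lit 1) (nat_lit 154) (nat_lit 147) (nat_lit 149))))) (PT.nd (nat_lit 312) (PT.nd (nat_lit 156) (PT.nd (nat_lit 78) (PT.lf (nat_lit 27512) (nat_lit 6) (nat_lit 362) (nat_lit 1) (nat_lit 155) (nat_lit 147) (nat_lit 148)) (PT.lf (nat_lit 26980) (nat_lit 3) (nat_lit 355) (nat_lit 0) (nat_lit 156) (nat_lit 147) (nat_lit 147))) (PT.nd (nat_lit 78) (PT.lf (nat_lit 26448) (nat_lit 6) (nat_lit 348) (nat_lit 0) (nat_lit 157) (nat_lit 147) (nat_lit 146)) (PT.lf (nat_lit 25840) (nat_lit 6) (nat_lit 340) (nat_lit 0) (nat_lit 158) (nat_lit 147) (nat_lit 145)))) (PT.nd (nat_lit 156) (PT.nd (nat_lit 78) (PT.lf (nat_lit 25156) (nat_lit 6) (nat_lit 331) (nat_lit 0) (nat_lit 159) (nat_lit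 147) (nat_lit 144)) (PT.lf (nat_lit 24396) (nat_lit 6) (nat_lit 321) (nat_lit 0) (nat_lit 160) (nat_lit 147) (nat_lit 143))) (PT.nd (nat_lit 78) (PT.lf (nat_lit 23560) (nat_lit 6) (nat_lit 310) (nat_lit 0) (nat_lit 161) (nat_lit 147) (nat_lit 142)) (PT.nd (nat_lit 78) (PT.lf (nat_lit 22648) (nat_lit 6) (nat_lit 298) (nat_lit 0) (nat_lit 162) (nat_lit 147) (nat_lit 141)) (PT.lf (nat_lit 21660) (nat_lit 6) (nat_lit 285) (nat_lit 0) (nat_lit 163) (nat_lit 147) (nat_lit 140))))))))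
noncomputable def pc23 : PT := (PT.nd (nat_lit 45708) (PT.nd (nat_lit 45084) (PT.nd (nat_lit 44772) (PT.nd (nat_lit 156) (PT.nd (nat_lit 78) (PT.lf (nat_lit 20596) (nat_lit 6) (nat_lit 271) (nat_lit 0) (nat_lit 164) (nat_lit 147) (nat_lit 139)) (PT.lf (nat_lit 19456) (nat_lit 6) (nat_lit 256) (nat_lit 0) (nat_lit 165) (nat_lit 147) (nat_lit 138))) (PT.nd (nat_lit 44538) (PT.lf (nat_lit 18240) (nat_lit 6) (nat_lit 240) (nat_lit 0) (nat_lit 166) (nat_lit 147) (nat_lit 137)) (PT.lf (nat_lit 18316) (nat_lit 6) (nat_lit 241) (nat_lit 5) (nat_lit 136) (nat_lit 148) (nat_lit 166)))) (PT.nd (nat_lit 156) (PT.nd (nat_lit 78) (PT.lf (nat_lit 19532) (nat_lit 6) (nat_lit 257) (nat_lit 5) (nat_lit 137) (nat_lit 148) (nat_lit 165)) (PT.lf (nat_lit 20672) (nat_lit 6) (nat_lit 272) (nat_lit 5) (nat_lit 138) (nat_lit 148) (nat_lit 164))) (PT.nd (nat_lit 78) (PT.lf (nat_lit 21736) (nat_lit 6) (nat_lit 286) (nat_lit 5) (nat_lit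 139) (nat_lit 148) (nat_lit 163)) (PT.lf (nat_lit 22724) (nat_lit 6) (nat_lit 299) (nat_lit 5) (nat_lit 140) (nat_lit 148) (nat_lit 162))))) (PT.nd (nat_lit 312) (PT.nd (nat_lit 156) (PT.nd (nat_lit 78) (PT.lf (nat_lit 23636) (nat_lit 6) (nat_lit 311) (nat_lit 5) (nat_lit 141) (nat_lit 148) (nat_lit 161)) (PT.lf (nat_lit 24472) (nat_lit 6) (nat_lit 322) (nat_lit 5) (nat_lit 142) (nat_lit 148) (nat_lit 160))) (PT.nd (nat_lit 78) (PT.lf (nat_lit 25232) (nat_lit 6) (nat_lit 332) (nat_lit 5) (nat_lit 143) (nat_lit 148) (nat_lit 159)) (PT.lf (nat_lit 25916) (nat_lit 6) (nat_lit 341) (nat_lit 5) (nat_lit 144) (nat_lit 148) (nat_lit 158)))) (PT.nd (nat_lit 156) (PT.nd (nat_lit 78) (PT.lf (nat_lit 26524) (nat_lit 6) (nat_lit 349) (nat_lit 5) (nat_lit 145) (nat_lit 148) (nat_lit 157)) (PT.lf (nat_lit 27056) (nat_lit 6) (nat_lit 356) (nat_lit 5) (nat_lit 146) (nat_lit 148) (nat_lit 156))) (PT.nd (nat_lit 78) (PT.lf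 (nat_lit 27512) (nat_lit 6) (nat_lit 362) (nat_lit 5) (nat_lit 147) (nat_lit 148) (nat_lit 155)) (PT.lf (nat_lit 27892) (nat_lit 3) (nat_lit 367) (nat_lit 3) (nat_lit 148) (nat_lit 148) (nat_lit 154)))))) (PT.nd (nat_lit 624) (PT.nd (nat_lit 312) (PT.nd (nat_lit 156) (PT.nd (nat_lit 78) (PT.lf (nat_lit 28272) (nat_lit 6) (nat_lit 372) (nat_lit 3) (nat_lit 149) (nat_lit 148) (nat_lit 153)) (PT.lf (nat_lit 28576) (nat_lit 6) (nat_lit 376) (nat_lit 3) (nat_lit 150) (nat_lit 148) (nat_lit 152))) (PT.nd (nat_lit 78) (PT.lf (nat_lit 28652) (nat_lit 3) (nat_lit 377) (nat_lit 1) (nat_lit 151) (nat_lit 148) (nat_lit 151)) (PT.lf (nat_lit 28576) (nat_lit 6) (nat_lit 376) (nat_lit 1) (nat_lit 152) (nat_lit 148) (nat_lit 150)))) (PT.nd (nat_lit 156) (PT.nd (nat_lit 78) (PT.lf (nat_lit 28272) (nat_lit 6) (nat_lit 372) (nat_lit 1) (nat_lit 153) (nat_lit 148) (nat_lit 149)) (PT.lf (nat_lit 27892) (nat_lit 3) (nat_lit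 367) (nat_lit 0) (nat_lit 154) (nat_lit 148) (nat_lit 148))) (PT.nd (nat_lit 78) (PT.lf (nat_lit 27512) (nat_lit 6) (nat_lit 362) (nat_lit 0) (nat_lit 155) (nat_lit 148) (nat_lit 147)) (PT.lf (nat_lit 27056) (nat_lit 6) (nat_lit 356) (nat_lit 0) (nat_lit 156) (nat_lit 148) (nat_lit 146))))) (PT.nd (nat_lit 312) (PT.nd (nat_lit 156) (PT.nd (nat_lit 78) (PT.lf (nat_lit 26524) (nat_lit 6) (nat_lit 349) (nat_lit 0) (nat_lit 157) (nat_lit 148) (nat_lit 145)) (PT.lf (nat_lit 25916) (nat_lit 6) (nat_lit 341) (nat_lit 0) (nat_lit 158) (nat_lit 148) (nat_lit 144))) (PT.nd (nat_lit 78) (PT.lf (nat_lit 25232) (nat_lit 6) (nat_lit 332) (nat_lit 0) (nat_lit 159) (nat_lit 148) (nat_lit 143)) (PT.lf (nat_lit 24472) (nat_lit 6) (nat_lit 322) (nat_lit 0) (nat_lit 160) (nat_lit 148) (nat_lit 142)))) (PT.nd (nat_lit 156) (PT.nd (nat_lit 78) (PT.lf (nat_lit 23636) (nat_lit 6) (nat_lit 311) (nat_lit 0) (nat_lit 161) (nat_lit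 148) (nat_lit 141)) (PT.lf (nat_lit 22724) (nat_lit 6) (nat_lit 299) (nat_lit 0) (nat_lit 162) (nat_lit 148) (nat_lit 140))) (PT.nd (nat_lit 78) (PT.lf (nat_lit 21736) (nat_lit 6) (nat_lit 286) (nat_lit 0) (nat_lit 163) (nat_lit 148) (nat_lit 139)) (PT.nd (nat_lit 78) (PT.lf (nat_lit 20672) (nat_lit 6) (nat_lit 272) (nat_lit 0) (nat_lit 164) (nat_lit 148) (nat_lit 138)) (PT.lf (nat_lit 19532) (nat_lit 6) (nat_lit 257) (nat_lit 0) (nat_lit 165) (nat_lit 148) (nat_lit 137))))))))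
noncomputable def pc24 : PT := (PT.nd (nat_lit 45630) (PT.nd (nat_lit 45006) (PT.nd (nat_lit 44694) (PT.nd (nat_lit 44538) (PT.nd (nat_lit 44460) (PT.lf (nat_lit 18316) (nat_lit 6) (nat_lit 241) (nat_lit 0) (nat_lit 166) (nat_lit 148) (nat_lit 136)) (PT.lf (nat_lit 18392) (nat_lit 6) (nat_lit 242) (nat_lit 5) (nat_lit 135) (nat_lit 149) (nat_lit 166))) (PT.nd (nat_lit 78) (PT.lf (nat_lit 19608) (nat_lit 6) (nat_lit 258) (nat_lit 5) (nat_lit 136) (nat_lit 149) (nat_lit 165)) (PT.lf (nat_lit 20748) (nat_lit 6) (nat_lit 273) (nat_lit 5) (nat_lit 137) (nat_lit 149) (nat_lit 164)))) (PT.nd (nat_lit 156) (PT.nd (nat_lit 78) (PT.lf (nat_lit 21812) (nat_lit 6) (nat_lit 287) (nat_lit 5) (nat_lit 138) (nat_lit 149) (nat_lit 163)) (PT.lf (nat_lit 22800) (nat_lit 6) (nat_lit 300) (nat_lit 5) (nat_lit 139) (nat_lit 149) (nat_lit 162))) (PT.nd (nat_lit 78) (PT.lf (nat_lit 23712) (nat_lit 6) (nat_lit 312) (nat_lit 5)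 (nat_lit 140) (nat_lit 149) (nat_lit 161)) (PT.lf (nat_lit 24548) (nat_lit 6) (nat_lit 323) (nat_lit 5) (nat_lit 141) (nat_lit 149) (nat_lit 160))))) (PT.nd (nat_lit 312) (PT.nd (nat_lit 156) (PT.nd (nat_lit 78) (PT.lf (nat_lit 25308) (nat_lit 6) (nat_lit 333) (nat_lit 5) (nat_lit 142) (nat_lit 149) (nat_lit 159)) (PT.lf (nat_lit 25992) (nat_lit 6) (nat_lit 342) (nat_lit 5) (nat_lit 143) (nat_lit 149) (nat_lit 158))) (PT.nd (nat_lit 78) (PT.lf (nat_lit 26600) (nat_lit 6) (nat_lit 350) (nat_lit 5) (nat_lit 144) (nat_lit 149) (nat_lit 157)) (PT.lf (nat_lit 27132) (nat_lit 6) (nat_lit 357) (nat_lit 5) (nat_lit 145) (nat_lit 149) (nat_lit 156)))) (PT.nd (nat_lit 156) (PT.nd (nat_lit 78) (PT.lf (nat_lit 27588) (nat_lit 6) (nat_lit 363) (nat_lit 5) (nat_lit 146) (nat_lit 149) (nat_lit 155)) (PT.lf (nat_lit 27968) (nat_lit 6) (nat_lit 368) (nat_lit 5) (nat_lit 147) (nat_lit 149) (nat_lit 154))) (PT.nd (nat_lit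 78) (PT.lf (nat_lit 28272) (nat_lit 6) (nat_lit 372) (nat_lit 5) (nat_lit 148) (nat_lit 149) (nat_lit 153)) (PT.lf (nat_lit 28500) (nat_lit 3) (nat_lit 375) (nat_lit 3) (nat_lit 149) (nat_lit 149) (nat_lit 152)))))) (PT.nd (nat_lit 624) (PT.nd (nat_lit 312) (PT.nd (nat_lit 156) (PT.nd (nat_lit 78) (PT.lf (nat_lit 28728) (nat_lit 6) (nat_lit 378) (nat_lit 3) (nat_lit 150) (nat_lit 149) (nat_lit 151)) (PT.lf (nat_lit 28728) (nat_lit 6) (nat_lit 378) (nat_lit 1) (nat_lit 151) (nat_lit 149) (nat_lit 150))) (PT.nd (nat_lit 78) (PT.lf (nat_lit 28500) (nat_lit 3) (nat_lit 375) (nat_lit 0) (nat_lit 152) (nat_lit 149) (nat_lit 149)) (PT.lf (nat_lit 28272) (nat_lit 6) (nat_lit 372) (nat_lit 0) (nat_lit 153) (nat_lit 149) (nat_lit 148)))) (PT.nd (nat_lit 156) (PT.nd (nat_lit 78) (PT.lf (nat_lit 27968) (nat_lit 6) (nat_lit 368) (nat_lit 0) (nat_lit 154) (nat_lit 149) (nat_lit 147)) (PT.lf (nat_lit 27588) (nat_lit 6)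 (nat_lit 363) (nat_lit 0) (nat_lit 155) (nat_lit 149) (nat_lit 146))) (PT.nd (nat_lit 78) (PT.lf (nat_lit 27132) (nat_lit 6) (nat_lit 357) (nat_lit 0) (nat_lit 156) (nat_lit 149) (nat_lit 145)) (PT.lf (nat_lit 26600) (nat_lit 6) (nat_lit 350) (nat_lit 0) (nat_lit 157) (nat_lit 149) (nat_lit 144))))) (PT.nd (nat_lit 312) (PT.nd (nat_lit 156) (PT.nd (nat_lit 78) (PT.lf (nat_lit 25992) (nat_lit 6) (nat_lit 342) (nat_lit 0) (nat_lit 158) (nat_lit 149) (nat_lit 143)) (PT.lf (nat_lit 25308) (nat_lit 6) (nat_lit 333) (nat_lit 0) (nat_lit 159) (nat_lit 149) (nat_lit 142))) (PT.nd (nat_lit 78) (PT.lf (nat_lit 24548) (nat_lit 6) (nat_lit 323) (nat_lit 0) (nat_lit 160) (nat_lit 149) (nat_lit 141)) (PT.lf (nat_lit 23712) (nat_lit 6) (nat_lit 312) (nat_lit 0) (nat_lit 161) (nat_lit 149) (nat_lit 140)))) (PT.nd (nat_lit 156) (PT.nd (nat_lit 78) (PT.lf (nat_lit 22800) (nat_lit 6) (nat_lit 300) (nat_lit 0) (nat_lit 162)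 (nat_lit 149) (nat_lit 139)) (PT.lf (nat_lit 21812) (nat_lit 6) (nat_lit 287) (nat_lit 0) (nat_lit 163) (nat_lit 149) (nat_lit 138))) (PT.nd (nat_lit 78) (PT.lf (nat_lit 20748) (nat_lit 6) (nat_lit 273) (nat_lit 0) (nat_lit 164) (nat_lit 149) (nat_lit 137)) (PT.lf (nat_lit 19608) (nat_lit 6) (nat_lit 258) (nat_lit 0) (nat_lit 165) (nat_lit 149) (nat_lit 136)))))))
noncomputable def pc25 : PT := (PT.nd (nat_lit 45552) (PT.nd (nat_lit 44928) (PT.nd (nat_lit 44616) (PT.nd (nat_lit 44460) (PT.nd (nat_lit 44382) (PT.lf (nat_lit 18392) (nat_lit 6) (nat_lit 242) (nat_lit 0) (nat_lit 166) (nat_lit 149) (nat_lit 135)) (PT.lf (nat_lit 18468) (nat_lit 6) (nat_lit 243) (nat_lit 5) (nat_lit 134) (nat_lit 150) (nat_lit 166))) (PT.nd (nat_lit 78) (PT.lf (nat_lit 19684) (nat_lit 6) (nat_lit 259) (nat_lit 5) (nat_lit 135) (nat_lit 150) (nat_lit 165)) (PT.lf (nat_lit 20824) (nat_lit 6) (nat_lit 274) (nat_lit 5) (nat_lit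 136) (nat_lit 150) (nat_lit 164)))) (PT.nd (nat_lit 156) (PT.nd (nat_lit 78) (PT.lf (nat_lit 21888) (nat_lit 6) (nat_lit 288) (nat_lit 5) (nat_lit 137) (nat_lit 150) (nat_lit 163)) (PT.lf (nat_lit 22876) (nat_lit 6) (nat_lit 301) (nat_lit 5) (nat_lit 138) (nat_lit 150) (nat_lit 162))) (PT.nd (nat_lit 78) (PT.lf (nat_lit 23788) (nat_lit 6) (nat_lit 313) (nat_lit 5) (nat_lit 139) (nat_lit 150) (nat_lit 161)) (PT.lf (nat_lit 24624) (nat_lit 6) (nat_lit 324) (nat_lit 5) (nat_lit 140) (nat_lit 150) (nat_lit 160))))) (PT.nd (nat_lit 312) (PT.nd (nat_lit 156) (PT.nd (nat_lit 78) (PT.lf (nat_lit 25384) (nat_lit 6) (nat_lit 334) (nat_lit 5) (nat_lit 141) (nat_lit 150) (nat_lit 159)) (PT.lf (nat_lit 26068) (nat_lit 6) (nat_lit 343) (nat_lit 5) (nat_lit 142) (nat_lit 150) (nat_lit 158))) (PT.nd (nat_lit 78) (PT.lf (nat_lit 26676) (nat_lit 6) (nat_lit 351) (nat_lit 5) (nat_lit 143) (nat_lit 150) (nat_lit 157)) (PT.lf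 (nat_lit 27208) (nat_lit 6) (nat_lit 358) (nat_lit 5) (nat_lit 144) (nat_lit 150) (nat_lit 156)))) (PT.nd (nat_lit 156) (PT.nd (nat_lit 78) (PT.lf (nat_lit 27664) (nat_lit 6) (nat_lit 364) (nat_lit 5) (nat_lit 145) (nat_lit 150) (nat_lit 155)) (PT.lf (nat_lit 28044) (nat_lit 6) (nat_lit 369) (nat_lit 5) (nat_lit 146) (nat_lit 150) (nat_lit 154))) (PT.nd (nat_lit 78) (PT.lf (nat_lit 28348) (nat_lit 6) (nat_lit 373) (nat_lit 5) (nat_lit 147) (nat_lit 150) (nat_lit 153)) (PT.lf (nat_lit 28576) (nat_lit 6) (nat_lit 376) (nat_lit 5) (nat_lit 148) (nat_lit 150) (nat_lit 152)))))) (PT.nd (nat_lit 624) (PT.nd (nat_lit 312) (PT.nd (nat_lit 156) (PT.nd (nat_lit 78) (PT.lf (nat_lit 28728) (nat_lit 6) (nat_lit 378) (nat_lit 5) (nat_lit 149) (nat_lit 150) (nat_lit 151)) (PT.lf (nat_lit 28804) (nat_lit 1) (nat_lit 379) (nat_lit 0) (nat_lit 150) (nat_lit 150) (nat_lit 150))) (PT.nd (nat_lit 78) (PT.lf (nat_lit 28728)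 (nat_lit 6) (nat_lit 378) (nat_lit 0) (nat_lit 151) (nat_lit 150) (nat_lit 149)) (PT.lf (nat_lit 28576) (nat_lit 6) (nat_lit 376) (nat_lit 0) (nat_lit 152) (nat_lit 150) (nat_lit 148)))) (PT.nd (nat_lit 156) (PT.nd (nat_lit 78) (PT.lf (nat_lit 28348) (nat_lit 6) (nat_lit 373) (nat_lit 0) (nat_lit 153) (nat_lit 150) (nat_lit 147)) (PT.lf (nat_lit 28044) (nat_lit 6) (nat_lit 369) (nat_lit 0) (nat_lit 154) (nat_lit 150) (nat_lit 146))) (PT.nd (nat_lit 78) (PT.lf (nat_lit 27664) (nat_lit 6) (nat_lit 364) (nat_lit 0) (nat_lit 155) (nat_lit 150) (nat_lit 145)) (PT.lf (nat_lit 27208) (nat_lit 6) (nat_lit 358) (nat_lit 0) (nat_lit 156) (nat_lit 150) (nat_lit 144))))) (PT.nd (nat_lit 312) (PT.nd (nat_lit 156) (PT.nd (nat_lit 78) (PT.lf (nat_lit 26676) (nat_lit 6) (nat_lit 351) (nat_lit 0) (nat_lit 157) (nat_lit 150) (nat_lit 143)) (PT.lf (nat_lit 26068) (nat_lit 6) (nat_lit 343) (nat_lit 0) (nat_lit 158) (nat_lit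 150) (nat_lit 142))) (PT.nd (nat_lit 78) (PT.lf (nat_lit 25384) (nat_lit 6) (nat_lit 334) (nat_lit 0) (nat_lit 159) (nat_lit 150) (nat_lit 141)) (PT.lf (nat_lit 24624) (nat_lit 6) (nat_lit 324) (nat_lit 0) (nat_lit 160) (nat_lit 150) (nat_lit 140)))) (PT.nd (nat_lit 156) (PT.nd (nat_lit 78) (PT.lf (nat_lit 23788) (nat_lit 6) (nat_lit 313) (nat_lit 0) (nat_lit 161) (nat_lit 150) (nat_lit 139)) (PT.lf (nat_lit 22876) (nat_lit 6) (nat_lit 301) (nat_lit 0) (nat_lit 162) (nat_lit 150) (nat_lit 138))) (PT.nd (nat_lit 78) (PT.lf (nat_lit 21888) (nat_lit 6) (nat_lit 288) (nat_lit 0) (nat_lit 163) (nat_lit 150) (nat_lit 137)) (PT.nd (nat_lit 78) (PT.lf (nat_lit 20824) (nat_lit 6) (nat_lit 274) (nat_lit 0) (nat_lit 164) (nat_lit 150) (nat_lit 136)) (PT.lf (nat_lit 19684) (nat_lit 6) (nat_lit 259) (nat_lit 0) (nat_lit 165) (nat_lit 150) (nat_lit 135))))))))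
noncomputable def pc26 : PT := (PT.nd (nat_lit 45396) (PT.nd (nat_lit 44772) (PT.nd (nat_lit 44460) (PT.nd (nat_lit 44304) (PT.nd (nat_lit 44226) (PT.lf (nat_lit 18468) (nat_lit 6) (nat_lit 243) (nat_lit 0) (nat_lit 166) (nat_lit 150) (nat_lit 134)) (PT.lf (nat_lit 16568) (nat_lit 6) (nat_lit 218) (nat_lit 5) (nat_lit 132) (nat_lit 151) (nat_lit 167))) (PT.nd (nat_lit 78) (PT.lf (nat_lit 17252) (nat_lit 6) (nat_lit 227) (nat_lit 5) (nat_lit 133) (nat_lit 151) (nat_lit 166)) (PT.lf (nat_lit 18544) (nat_lit 6) (nat_lit 244) (nat_lit 5) (nat_lit 134) (nat_lit 151) (nat_lit 165)))) (PT.nd (nat_lit 156) (PT.nd (nat_lit 78) (PT.lf (nat_lit 19760) (nat_lit 6) (nat_lit 260) (nat_lit 5) (nat_lit 135) (nat_lit 151) (nat_lit 164)) (PT.lf (nat_lit 20900) (nat_lit 6) (nat_lit 275) (nat_lit 5) (nat_lit 136) (nat_lit 151) (nat_lit 163))) (PT.nd (nat_lit 78) (PT.lf (nat_lit 21964) (nat_lit 6) (nat_lit 289) (nat_lit 5)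 (nat_lit 137) (nat_lit 151) (nat_lit 162)) (PT.lf (nat_lit 22952) (nat_lit 6) (nat_lit 302) (nat_lit 5) (nat_lit 138) (nat_lit 151) (nat_lit 161))))) (PT.nd (nat_lit 312) (PT.nd (nat_lit 156) (PT.nd (nat_lit 78) (PT.lf (nat_lit 23864) (nat_lit 6) (nat_lit 314) (nat_lit 5) (nat_lit 139) (nat_lit 151) (nat_lit 160)) (PT.lf (nat_lit 24700) (nat_lit 6) (nat_lit 325) (nat_lit 5) (nat_lit 140) (nat_lit 151) (nat_lit 159))) (PT.nd (nat_lit 78) (PT.lf (nat_lit 25460) (nat_lit 6) (nat_lit 335) (nat_lit 5) (nat_lit 141) (nat_lit 151) (nat_lit 158)) (PT.lf (nat_lit 26144) (nat_lit 6) (nat_lit 344) (nat_lit 5) (nat_lit 142) (nat_lit 151) (nat_lit 157)))) (PT.nd (nat_lit 156) (PT.nd (nat_lit 78) (PT.lf (nat_lit 26752) (nat_lit 6) (nat_lit 352) (nat_lit 5) (nat_lit 143) (nat_lit 151) (nat_lit 156)) (PT.lf (nat_lit 27284) (nat_lit 6) (nat_lit 359) (nat_lit 5) (nat_lit 144) (nat_lit 151) (nat_lit 155))) (PT.nd (nat_lit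 78) (PT.lf (nat_lit 27740) (nat_lit 6) (nat_lit 365) (nat_lit 5) (nat_lit 145) (nat_lit 151) (nat_lit 154)) (PT.lf (nat_lit 28120) (nat_lit 6) (nat_lit 370) (nat_lit 5) (nat_lit 146) (nat_lit 151) (nat_lit 153)))))) (PT.nd (nat_lit 624) (PT.nd (nat_lit 312) (PT.nd (nat_lit 156) (PT.nd (nat_lit 78) (PT.lf (nat_lit 28424) (nat_lit 6) (nat_lit 374) (nat_lit 5) (nat_lit 147) (nat_lit 151) (nat_lit 152)) (PT.lf (nat_lit 28652) (nat_lit 3) (nat_lit 377) (nat_lit 4) (nat_lit 148) (nat_lit 151) (nat_lit 151))) (PT.nd (nat_lit 78) (PT.lf (nat_lit 28728) (nat_lit 6) (nat_lit 378) (nat_lit 4) (nat_lit 149) (nat_lit 151) (nat_lit 150)) (PT.lf (nat_lit 28728) (nat_lit 6) (nat_lit 378) (nat_lit 2) (nat_lit 150) (nat_lit 151) (nat_lit 149)))) (PT.nd (nat_lit 156) (PT.nd (nat_lit 78) (PT.lf (nat_lit 28652) (nat_lit 3) (nat_lit 377) (nat_lit 0) (nat_lit 151) (nat_lit 151) (nat_lit 148)) (PT.lf (nat_lit 28424) (nat_lit 6)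 (nat_lit 374) (nat_lit 0) (nat_lit 152) (nat_lit 151) (nat_lit 147))) (PT.nd (nat_lit 78) (PT.lf (nat_lit 28120) (nat_lit 6) (nat_lit 370) (nat_lit 0) (nat_lit 153) (nat_lit 151) (nat_lit 146)) (PT.lf (nat_lit 27740) (nat_lit 6) (nat_lit 365) (nat_lit 0) (nat_lit 154) (nat_lit 151) (nat_lit 145))))) (PT.nd (nat_lit 312) (PT.nd (nat_lit 156) (PT.nd (nat_lit 78) (PT.lf (nat_lit 27284) (nat_lit 6) (nat_lit 359) (nat_lit 0) (nat_lit 155) (nat_lit 151) (nat_lit 144)) (PT.lf (nat_lit 26752) (nat_lit 6) (nat_lit 352) (nat_lit 0) (nat_lit 156) (nat_lit 151) (nat_lit 143))) (PT.nd (nat_lit 78) (PT.lf (nat_lit 26144) (nat_lit 6) (nat_lit 344) (nat_lit 0) (nat_lit 157) (nat_lit 151) (nat_lit 142)) (PT.lf (nat_lit 25460) (nat_lit 6) (nat_lit 335) (nat_lit 0) (nat_lit 158) (nat_lit 151) (nat_lit 141)))) (PT.nd (nat_lit 156) (PT.nd (nat_lit 78) (PT.lf (nat_lit 24700) (nat_lit 6) (nat_lit 325) (nat_lit 0) (nat_lit 159)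 (nat_lit 151) (nat_lit 140)) (PT.lf (nat_lit 23864) (nat_lit 6) (nat_lit 314) (nat_lit 0) (nat_lit 160) (nat_lit 151) (nat_lit 139))) (PT.nd (nat_lit 78) (PT.lf (nat_lit 22952) (nat_lit 6) (nat_lit 302) (nat_lit 0) (nat_lit 161) (nat_lit 151) (nat_lit 138)) (PT.nd (nat_lit 78) (PT.lf (nat_lit 21964) (nat_lit 6) (nat_lit 289) (nat_lit 0) (nat_lit 162) (nat_lit 151) (nat_lit 137)) (PT.lf (nat_lit 20900) (nat_lit 6) (nat_lit 275) (nat_lit 0) (nat_lit 163) (nat_lit 151) (nat_lit 136))))))))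
noncomputable def pc27 : PT := (PT.nd (nat_lit 45240) (PT.nd (nat_lit 44616) (PT.nd (nat_lit 44304) (PT.nd (nat_lit 156) (PT.nd (nat_lit 78) (PT.lf (nat_lit 19760) (nat_lit 6) (nat_lit 260) (nat_lit 0) (nat_lit 164) (nat_lit 151) (nat_lit 135)) (PT.lf (nat_lit 18544) (nat_lit 6) (nat_lit 244) (nat_lit 0) (nat_lit 165) (nat_lit 151) (nat_lit 134))) (PT.nd (nat_lit 78) (PT.lf (nat_lit 17252) (nat_lit 6) (nat_lit 227) (nat_lit 0) (nat_lit 166) (nat_lit 151) (nat_lit 133)) (PT.lf (nat_lit 16568) (nat_lit 6) (nat_lit 218) (nat_lit 0) (nat_lit 167) (nat_lit 151) (nat_lit 132)))) (PT.nd (nat_lit 156) (PT.nd (nat_lit 78) (PT.lf (nat_lit 15960) (nat_lit 6) (nat_lit 210) (nat_lit 5) (nat_lit 131) (nat_lit 152) (nat_lit 167)) (PT.lf (nat_lit 16644) (nat_lit 6) (nat_lit 219) (nat_lit 5) (nat_lit 132) (nat_lit 152) (nat_lit 166))) (PT.nd (nat_lit 78) (PT.lf (nat_lit 17328) (nat_lit 6) (nat_lit 228) (nat_lit 5) (nat_lit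 133) (nat_lit 152) (nat_lit 165)) (PT.lf (nat_lit 18620) (nat_lit 6) (nat_lit 245) (nat_lit 5) (nat_lit 134) (nat_lit 152) (nat_lit 164))))) (PT.nd (nat_lit 312) (PT.nd (nat_lit 156) (PT.nd (nat_lit 78) (PT.lf (nat_lit 19836) (nat_lit 6) (nat_lit 261) (nat_lit 5) (nat_lit 135) (nat_lit 152) (nat_lit 163)) (PT.lf (nat_lit 20976) (nat_lit 6) (nat_lit 276) (nat_lit 5) (nat_lit 136) (nat_lit 152) (nat_lit 162))) (PT.nd (nat_lit 78) (PT.lf (nat_lit 22040) (nat_lit 6) (nat_lit 290) (nat_lit 5) (nat_lit 137) (nat_lit 152) (nat_lit 161)) (PT.lf (nat_lit 23028) (nat_lit 6) (nat_lit 303) (nat_lit 5) (nat_lit 138) (nat_lit 152) (nat_lit 160)))) (PT.nd (nat_lit 156) (PT.nd (nat_lit 78) (PT.lf (nat_lit 23940) (nat_lit 6) (nat_lit 315) (nat_lit 5) (nat_lit 139) (nat_lit 152) (nat_lit 159)) (PT.lf (nat_lit 24776) (nat_lit 6) (nat_lit 326) (nat_lit 5) (nat_lit 140) (nat_lit 152) (nat_lit 158))) (PT.nd (nat_lit 78) (PT.lf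 (nat_lit 25536) (nat_lit 6) (nat_lit 336) (nat_lit 5) (nat_lit 141) (nat_lit 152) (nat_lit 157)) (PT.lf (nat_lit 26220) (nat_lit 6) (nat_lit 345) (nat_lit 5) (nat_lit 142) (nat_lit 152) (nat_lit 156)))))) (PT.nd (nat_lit 624) (PT.nd (nat_lit 312) (PT.nd (nat_lit 156) (PT.nd (nat_lit 78) (PT.lf (nat_lit 26828) (nat_lit 6) (nat_lit 353) (nat_lit 5) (nat_lit 143) (nat_lit 152) (nat_lit 155)) (PT.lf (nat_lit 27360) (nat_lit 6) (nat_lit 360) (nat_lit 5) (nat_lit 144) (nat_lit 152) (nat_lit 154))) (PT.nd (nat_lit 78) (PT.lf (nat_lit 27816) (nat_lit 6) (nat_lit 366) (nat_lit 5) (nat_lit 145) (nat_lit 152) (nat_lit 153)) (PT.lf (nat_lit 28196) (nat_lit 3) (nat_lit 371) (nat_lit 4) (nat_lit 146) (nat_lit 152) (nat_lit 152)))) (PT.nd (nat_lit 156) (PT.nd (nat_lit 78) (PT.lf (nat_lit 28424) (nat_lit 6) (nat_lit 374) (nat_lit 4) (nat_lit 147) (nat_lit 152) (nat_lit 151)) (PT.lf (nat_lit 28576) (nat_lit 6) (nat_lit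 376) (nat_lit 4) (nat_lit 148) (nat_lit 152) (nat_lit 150))) (PT.nd (nat_lit 78) (PT.lf (nat_lit 28500) (nat_lit 3) (nat_lit 375) (nat_lit 2) (nat_lit 149) (nat_lit 152) (nat_lit 149)) (PT.lf (nat_lit 28576) (nat_lit 6) (nat_lit 376) (nat_lit 2) (nat_lit 150) (nat_lit 152) (nat_lit 148))))) (PT.nd (nat_lit 312) (PT.nd (nat_lit 156) (PT.nd (nat_lit 78) (PT.lf (nat_lit 28424) (nat_lit 6) (nat_lit 374) (nat_lit 2) (nat_lit 151) (nat_lit 152) (nat_lit 147)) (PT.lf (nat_lit 28196) (nat_lit 3) (nat_lit 371) (nat_lit 0) (nat_lit 152) (nat_lit 152) (nat_lit 146))) (PT.nd (nat_lit 78) (PT.lf (nat_lit 27816) (nat_lit 6) (nat_lit 366) (nat_lit 0) (nat_lit 153) (nat_lit 152) (nat_lit 145)) (PT.lf (nat_lit 27360) (nat_lit 6) (nat_lit 360) (nat_lit 0) (nat_lit 154) (nat_lit 152) (nat_lit 144)))) (PT.nd (nat_lit 156) (PT.nd (nat_lit 78) (PT.lf (nat_lit 26828) (nat_lit 6) (nat_lit 353) (nat_lit 0) (nat_lit 155) (nat_lit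 152) (nat_lit 143)) (PT.lf (nat_lit 26220) (nat_lit 6) (nat_lit 345) (nat_lit 0) (nat_lit 156) (nat_lit 152) (nat_lit 142))) (PT.nd (nat_lit 78) (PT.lf (nat_lit 25536) (nat_lit 6) (nat_lit 336) (nat_lit 0) (nat_lit 157) (nat_lit 152) (nat_lit 141)) (PT.nd (nat_lit 78) (PT.lf (nat_lit 24776) (nat_lit 6) (nat_lit 326) (nat_lit 0) (nat_lit 158) (nat_lit 152) (nat_lit 140)) (PT.lf (nat_lit 23940) (nat_lit 6) (nat_lit 315) (nat_lit 0) (nat_lit 159) (nat_lit 152) (nat_lit 139))))))))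
noncomputable def pc28 : PT := (PT.nd (nat_lit 45162) (PT.nd (nat_lit 44538) (PT.nd (nat_lit 312) (PT.nd (nat_lit 156) (PT.nd (nat_lit 78) (PT.lf (nat_lit 23028) (nat_lit 6) (nat_lit 303) (nat_lit 0) (nat_lit 160) (nat_lit 152) (nat_lit 138)) (PT.lf (nat_lit 22040) (nat_lit 6) (nat_lit 290) (nat_lit 0) (nat_lit 161) (nat_lit 152) (nat_lit 137))) (PT.nd (nat_lit 78) (PT.lf (nat_lit 20976) (nat_lit 6) (nat_lit 276) (nat_lit 0) (nat_lit 162) (nat_lit 152) (nat_lit 136)) (PT.lf (nat_lit 19836) (nat_lit 6) (nat_lit 261) (nat_lit 0) (nat_lit 163) (nat_lit 152) (nat_lit 135)))) (PT.nd (nat_lit 156) (PT.nd (nat_lit 78) (PT.lf (nat_lit 18620) (nat_lit 6) (nat_lit 245) (nat_lit 0) (nat_lit 164) (nat_lit 152) (nat_lit 134)) (PT.lf (nat_lit 17328) (nat_lit 6) (nat_lit 228) (nat_lit 0) (nat_lit 165) (nat_lit 152) (nat_lit 133))) (PT.nd (nat_lit 78) (PT.lf (nat_lit 16644) (nat_lit 6) (nat_lit 219) (nat_lit 0) (nat_lit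 166) (nat_lit 152) (nat_lit 132)) (PT.lf (nat_lit 15960) (nat_lit 6) (nat_lit 210) (nat_lit 0) (nat_lit 167) (nat_lit 152) (nat_lit 131))))) (PT.nd (nat_lit 312) (PT.nd (nat_lit 156) (PT.nd (nat_lit 78) (PT.lf (nat_lit 15352) (nat_lit 6) (nat_lit 202) (nat_lit 5) (nat_lit 130) (nat_lit 153) (nat_lit 167)) (PT.lf (nat_lit 16036) (nat_lit 6) (nat_lit 211) (nat_lit 5) (nat_lit 131) (nat_lit 153) (nat_lit 166))) (PT.nd (nat_lit 78) (PT.lf (nat_lit 16720) (nat_lit 6) (nat_lit 220) (nat_lit 5) (nat_lit 132) (nat_lit 153) (nat_lit 165)) (PT.lf (nat_lit 17404) (nat_lit 6) (nat_lit 229) (nat_lit 5) (nat_lit 133) (nat_lit 153) (nat_lit 164)))) (PT.nd (nat_lit 156) (PT.nd (nat_lit 78) (PT.lf (nat_lit 18696) (nat_lit 6) (nat_lit 246) (nat_lit 5) (nat_lit 134) (nat_lit 153) (nat_lit 163)) (PT.lf (nat_lit 19912) (nat_lit 6) (nat_lit 262) (nat_lit 5) (nat_lit 135) (nat_lit 153) (nat_lit 162))) (PT.nd (nat_lit 78) (PT.lf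 (nat_lit 21052) (nat_lit 6) (nat_lit 277) (nat_lit 5) (nat_lit 136) (nat_lit 153) (nat_lit 161)) (PT.lf (nat_lit 22116) (nat_lit 6) (nat_lit 291) (nat_lit 5) (nat_lit 137) (nat_lit 153) (nat_lit 160)))))) (PT.nd (nat_lit 624) (PT.nd (nat_lit 312) (PT.nd (nat_lit 156) (PT.nd (nat_lit 78) (PT.lf (nat_lit 23104) (nat_lit 6) (nat_lit 304) (nat_lit 5) (nat_lit 138) (nat_lit 153) (nat_lit 159)) (PT.lf (nat_lit 24016) (nat_lit 6) (nat_lit 316) (nat_lit 5) (nat_lit 139) (nat_lit 153) (nat_lit 158))) (PT.nd (nat_lit 78) (PT.lf (nat_lit 24852) (nat_lit 6) (nat_lit 327) (nat_lit 5) (nat_lit 140) (nat_lit 153) (nat_lit 157)) (PT.lf (nat_lit 25612) (nat_lit 6) (nat_lit 337) (nat_lit 5) (nat_lit 141) (nat_lit 153) (nat_lit 156)))) (PT.nd (nat_lit 156) (PT.nd (nat_lit 78) (PT.lf (nat_lit 26296) (nat_lit 6) (nat_lit 346) (nat_lit 5) (nat_lit 142) (nat_lit 153) (nat_lit 155)) (PT.lf (nat_lit 26904) (nat_lit 6) (nat_lit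 354) (nat_lit 5) (nat_lit 143) (nat_lit 153) (nat_lit 154))) (PT.nd (nat_lit 78) (PT.lf (nat_lit 27436) (nat_lit 3) (nat_lit 361) (nat_lit 4) (nat_lit 144) (nat_lit 153) (nat_lit 153)) (PT.lf (nat_lit 27816) (nat_lit 6) (nat_lit 366) (nat_lit 4) (nat_lit 145) (nat_lit 153) (nat_lit 152))))) (PT.nd (nat_lit 312) (PT.nd (nat_lit 156) (PT.nd (nat_lit 78) (PT.lf (nat_lit 28120) (nat_lit 6) (nat_lit 370) (nat_lit 4) (nat_lit 146) (nat_lit 153) (nat_lit 151)) (PT.lf (nat_lit 28348) (nat_lit 6) (nat_lit 373) (nat_lit 4) (nat_lit 147) (nat_lit 153) (nat_lit 150))) (PT.nd (nat_lit 78) (PT.lf (nat_lit 28272) (nat_lit 6) (nat_lit 372) (nat_lit 4) (nat_lit 148) (nat_lit 153) (nat_lit 149)) (PT.lf (nat_lit 28272) (nat_lit 6) (nat_lit 372) (nat_lit 2) (nat_lit 149) (nat_lit 153) (nat_lit 148)))) (PT.nd (nat_lit 156) (PT.nd (nat_lit 78) (PT.lf (nat_lit 28348) (nat_lit 6) (nat_lit 373) (nat_lit 2) (nat_lit 150) (nat_lit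 153) (nat_lit 147)) (PT.lf (nat_lit 28120) (nat_lit 6) (nat_lit 370) (nat_lit 2) (nat_lit 151) (nat_lit 153) (nat_lit 146))) (PT.nd (nat_lit 78) (PT.lf (nat_lit 27816) (nat_lit 6) (nat_lit 366) (nat_lit 2) (nat_lit 152) (nat_lit 153) (nat_lit 145)) (PT.nd (nat_lit 78) (PT.lf (nat_lit 27436) (nat_lit 3) (nat_lit 361) (nat_lit 0) (nat_lit 153) (nat_lit 153) (nat_lit 144)) (PT.lf (nat_lit 26904) (nat_lit 6) (nat_lit 354) (nat_lit 0) (nat_lit 154) (nat_lit 153) (nat_lit 143))))))))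
noncomputable def pc29 : PT := (PT.nd (nat_lit 45084) (PT.nd (nat_lit 624) (PT.nd (nat_lit 312) (PT.nd (nat_lit 156) (PT.nd (nat_lit 78) (PT.lf (nat_lit 26296) (nat_lit 6) (nat_lit 346) (nat_lit 0) (nat_lit 155) (nat_lit 153) (nat_lit 142)) (PT.lf (nat_lit 25612) (nat_lit 6) (nat_lit 337) (nat_lit 0) (nat_lit 156) (nat_lit 153) (nat_lit 141))) (PT.nd (nat_lit 78) (PT.lf (nat_lit 24852) (nat_lit 6) (nat_lit 327) (nat_lit 0) (nat_lit 157) (nat_lit 153) (nat_lit 140)) (PT.lf (nat_lit 24016) (nat_lit 6) (nat_lit 316) (nat_lit 0) (nat_lit 158) (nat_lit 153) (nat_lit 139)))) (PT.nd (nat_lit 156) (PT.nd (nat_lit 78) (PT.lf (nat_lit 23104) (nat_lit 6) (nat_lit 304) (nat_lit 0) (nat_lit 159) (nat_lit 153) (nat_lit 138)) (PT.lf (nat_lit 22116) (nat_lit 6) (nat_lit 291) (nat_lit 0) (nat_lit 160) (nat_lit 153) (nat_lit 137))) (PT.nd (nat_lit 78) (PT.lf (nat_lit 21052) (nat_lit 6) (nat_lit 277) (nat_lit 0) (nat_lit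 161) (nat_lit 153) (nat_lit 136)) (PT.lf (nat_lit 19912) (nat_lit 6) (nat_lit 262) (nat_lit 0) (nat_lit 162) (nat_lit 153) (nat_lit 135))))) (PT.nd (nat_lit 312) (PT.nd (nat_lit 156) (PT.nd (nat_lit 78) (PT.lf (nat_lit 18696) (nat_lit 6) (nat_lit 246) (nat_lit 0) (nat_lit 163) (nat_lit 153) (nat_lit 134)) (PT.lf (nat_lit 17404) (nat_lit 6) (nat_lit 229) (nat_lit 0) (nat_lit 164) (nat_lit 153) (nat_lit 133))) (PT.nd (nat_lit 78) (PT.lf (nat_lit 16720) (nat_lit 6) (nat_lit 220) (nat_lit 0) (nat_lit 165) (nat_lit 153) (nat_lit 132)) (PT.lf (nat_lit 16036) (nat_lit 6) (nat_lit 211) (nat_lit 0) (nat_lit 166) (nat_lit 153) (nat_lit 131)))) (PT.nd (nat_lit 43992) (PT.nd (nat_lit 43914) (PT.lf (nat_lit 15352) (nat_lit 6) (nat_lit 202) (nat_lit 0) (nat_lit 167) (nat_lit 153) (nat_lit 130)) (PT.lf (nat_lit 14820) (nat_lit 6) (nat_lit 195) (nat_lit 5) (nat_lit 129) (nat_lit 154) (nat_lit 167))) (PT.nd (nat_lit 78)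 (PT.lf (nat_lit 15428) (nat_lit 6) (nat_lit 203) (nat_lit 5) (nat_lit 130) (nat_lit 154) (nat_lit 166)) (PT.lf (nat_lit 16112) (nat_lit 6) (nat_lit 212) (nat_lit 5) (nat_lit 131) (nat_lit 154) (nat_lit 165)))))) (PT.nd (nat_lit 624) (PT.nd (nat_lit 312) (PT.nd (nat_lit 156) (PT.nd (nat_lit 78) (PT.lf (nat_lit 16796) (nat_lit 6) (nat_lit 221) (nat_lit 5) (nat_lit 132) (nat_lit 154) (nat_lit 164)) (PT.lf (nat_lit 17480) (nat_lit 6) (nat_lit 230) (nat_lit 5) (nat_lit 133) (nat_lit 154) (nat_lit 163))) (PT.nd (nat_lit 78) (PT.lf (nat_lit 18772) (nat_lit 6) (nat_lit 247) (nat_lit 5) (nat_lit 134) (nat_lit 154) (nat_lit 162)) (PT.lf (nat_lit 19988) (nat_lit 6) (nat_lit 263) (nat_lit 5) (nat_lit 135) (nat_lit 154) (nat_lit 161)))) (PT.nd (nat_lit 156) (PT.nd (nat_lit 78) (PT.lf (nat_lit 21128) (nat_lit 6) (nat_lit 278) (nat_lit 5) (nat_lit 136) (nat_lit 154) (nat_lit 160)) (PT.lf (nat_lit 22192) (nat_lit 6) (nat_lit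 292) (nat_lit 5) (nat_lit 137) (nat_lit 154) (nat_lit 159))) (PT.nd (nat_lit 78) (PT.lf (nat_lit 23180) (nat_lit 6) (nat_lit 305) (nat_lit 5) (nat_lit 138) (nat_lit 154) (nat_lit 158)) (PT.lf (nat_lit 24092) (nat_lit 6) (nat_lit 317) (nat_lit 5) (nat_lit 139) (nat_lit 154) (nat_lit 157))))) (PT.nd (nat_lit 312) (PT.nd (nat_lit 156) (PT.nd (nat_lit 78) (PT.lf (nat_lit 24928) (nat_lit 6) (nat_lit 328) (nat_lit 5) (nat_lit 140) (nat_lit 154) (nat_lit 156)) (PT.lf (nat_lit 25688) (nat_lit 6) (nat_lit 338) (nat_lit 5) (nat_lit 141) (nat_lit 154) (nat_lit 155))) (PT.nd (nat_lit 78) (PT.lf (nat_lit 26372) (nat_lit 3) (nat_lit 347) (nat_lit 4) (nat_lit 142) (nat_lit 154) (nat_lit 154)) (PT.lf (nat_lit 26904) (nat_lit 6) (nat_lit 354) (nat_lit 4) (nat_lit 143) (nat_lit 154) (nat_lit 153)))) (PT.nd (nat_lit 156) (PT.nd (nat_lit 78) (PT.lf (nat_lit 27360) (nat_lit 6) (nat_lit 360) (nat_lit 4) (nat_lit 144) (nat_lit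 154) (nat_lit 152)) (PT.lf (nat_lit 27740) (nat_lit 6) (nat_lit 365) (nat_lit 4) (nat_lit 145) (nat_lit 154) (nat_lit 151))) (PT.nd (nat_lit 78) (PT.lf (nat_lit 28044) (nat_lit 6) (nat_lit 369) (nat_lit 4) (nat_lit 146) (nat_lit 154) (nat_lit 150)) (PT.nd (nat_lit 78) (PT.lf (nat_lit 27968) (nat_lit 6) (nat_lit 368) (nat_lit 4) (nat_lit 147) (nat_lit 154) (nat_lit 149)) (PT.lf (nat_lit 27892) (nat_lit 3) (nat_lit 367) (nat_lit 2) (nat_lit 148) (nat_lit 154) (nat_lit 148))))))))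
noncomputable def pc30 : PT := (PT.nd (nat_lit 1248) (PT.nd (nat_lit 624) (PT.nd (nat_lit 312) (PT.nd (nat_lit 156) (PT.nd (nat_lit 78) (PT.lf (nat_lit 27968) (nat_lit 6) (nat_lit 368) (nat_lit 2) (nat_lit 149) (nat_lit 154) (nat_lit 147)) (PT.lf (nat_lit 28044) (nat_lit 6) (nat_lit 369) (nat_lit 2) (nat_lit 150) (nat_lit 154) (nat_lit 146))) (PT.nd (nat_lit 78) (PT.lf (nat_lit 27740) (nat_lit 6) (nat_lit 365) (nat_lit 2) (nat_lit 151) (nat_lit 154) (nat_lit 145)) (PT.lf (nat_lit 27360) (nat_lit 6) (nat_lit 360) (nat_lit 2) (nat_lit 152) (nat_lit 154) (nat_lit 144)))) (PT.nd (nat_lit 156) (PT.nd (nat_lit 78) (PT.lf (nat_lit 26904) (nat_lit 6) (nat_lit 354) (nat_lit 2) (nat_lit 153) (nat_lit 154) (nat_lit 143)) (PT.lf (nat_lit 26372) (nat_lit 3) (nat_lit 347) (nat_lit 0) (nat_lit 154) (nat_lit 154) (nat_lit 142))) (PT.nd (nat_lit 78) (PT.lf (nat_lit 25688) (nat_lit 6) (nat_lit 338) (nat_lit 0) (nat_lit 155)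 (nat_lit 154) (nat_lit 141)) (PT.lf (nat_lit 24928) (nat_lit 6) (nat_lit 328) (nat_lit 0) (nat_lit 156) (nat_lit 154) (nat_lit 140))))) (PT.nd (nat_lit 312) (PT.nd (nat_lit 156) (PT.nd (nat_lit 78) (PT.lf (nat_lit 24092) (nat_lit 6) (nat_lit 317) (nat_lit 0) (nat_lit 157) (nat_lit 154) (nat_lit 139)) (PT.lf (nat_lit 23180) (nat_lit 6) (nat_lit 305) (nat_lit 0) (nat_lit 158) (nat_lit 154) (nat_lit 138))) (PT.nd (nat_lit 78) (PT.lf (nat_lit 22192) (nat_lit 6) (nat_lit 292) (nat_lit 0) (nat_lit 159) (nat_lit 154) (nat_lit 137)) (PT.lf (nat_lit 21128) (nat_lit 6) (nat_lit 278) (nat_lit 0) (nat_lit 160) (nat_lit 154) (nat_lit 136)))) (PT.nd (nat_lit 156) (PT.nd (nat_lit 78) (PT.lf (nat_lit 19988) (nat_lit 6) (nat_lit 263) (nat_lit 0) (nat_lit 161) (nat_lit 154) (nat_lit 135)) (PT.lf (nat_lit 18772) (nat_lit 6) (nat_lit 247) (nat_lit 0) (nat_lit 162) (nat_lit 154) (nat_lit 134))) (PT.nd (nat_lit 78) (PT.lf (nat_lit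 17480) (nat_lit 6) (nat_lit 230) (nat_lit 0) (nat_lit 163) (nat_lit 154) (nat_lit 133)) (PT.lf (nat_lit 16796) (nat_lit 6) (nat_lit 221) (nat_lit 0) (nat_lit 164) (nat_lit 154) (nat_lit 132)))))) (PT.nd (nat_lit 44304) (PT.nd (nat_lit 43992) (PT.nd (nat_lit 156) (PT.nd (nat_lit 78) (PT.lf (nat_lit 16112) (nat_lit 6) (nat_lit 212) (nat_lit 0) (nat_lit 165) (nat_lit 154) (nat_lit 131)) (PT.lf (nat_lit 15428) (nat_lit 6) (nat_lit 203) (nat_lit 0) (nat_lit 166) (nat_lit 154) (nat_lit 130))) (PT.nd (nat_lit 43758) (PT.lf (nat_lit 14820) (nat_lit 6) (nat_lit 195) (nat_lit 0) (nat_lit 167) (nat_lit 154) (nat_lit 129)) (PT.lf (nat_lit 13756) (nat_lit 6) (nat_lit 181) (nat_lit 5) (nat_lit 127) (nat_lit 155) (nat_lit 168)))) (PT.nd (nat_lit 156) (PT.nd (nat_lit 78) (PT.lf (nat_lit 14288) (nat_lit 6) (nat_lit 188) (nat_lit 5) (nat_lit 128) (nat_lit 155) (nat_lit 167)) (PT.lf (nat_lit 14896) (nat_lit 6) (nat_lit 196)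 (nat_lit 5) (nat_lit 129) (nat_lit 155) (nat_lit 166))) (PT.nd (nat_lit 78) (PT.lf (nat_lit 15504) (nat_lit 6) (nat_lit 204) (nat_lit 5) (nat_lit 130) (nat_lit 155) (nat_lit 165)) (PT.lf (nat_lit 16188) (nat_lit 6) (nat_lit 213) (nat_lit 5) (nat_lit 131) (nat_lit 155) (nat_lit 164))))) (PT.nd (nat_lit 312) (PT.nd (nat_lit 156) (PT.nd (nat_lit 78) (PT.lf (nat_lit 16872) (nat_lit 6) (nat_lit 222) (nat_lit 5) (nat_lit 132) (nat_lit 155) (nat_lit 163)) (PT.lf (nat_lit 17556) (nat_lit 6) (nat_lit 231) (nat_lit 5) (nat_lit 133) (nat_lit 155) (nat_lit 162))) (PT.nd (nat_lit 78) (PT.lf (nat_lit 18848) (nat_lit 6) (nat_lit 248) (nat_lit 5) (nat_lit 134) (nat_lit 155) (nat_lit 161)) (PT.lf (nat_lit 20064) (nat_lit 6) (nat_lit 264) (nat_lit 5) (nat_lit 135) (nat_lit 155) (nat_lit 160)))) (PT.nd (nat_lit 156) (PT.nd (nat_lit 78) (PT.lf (nat_lit 21204) (nat_lit 6) (nat_lit 279) (nat_lit 5) (nat_lit 136) (nat_lit 155)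 (nat_lit 159)) (PT.lf (nat_lit 22268) (nat_lit 6) (nat_lit 293) (nat_lit 5) (nat_lit 137) (nat_lit 155) (nat_lit 158))) (PT.nd (nat_lit 78) (PT.lf (nat_lit 23256) (nat_lit 6) (nat_lit 306) (nat_lit 5) (nat_lit 138) (nat_lit 155) (nat_lit 157)) (PT.nd (nat_lit 78) (PT.lf (nat_lit 24168) (nat_lit 6) (nat_lit 318) (nat_lit 5) (nat_lit 139) (nat_lit 155) (nat_lit 156)) (PT.lf (nat_lit 25004) (nat_lit 3) (nat_lit 329) (nat_lit 4) (nat_lit 140) (nat_lit 155) (nat_lit 155))))))))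
noncomputable def pc31 : PT := (PT.nd (nat_lit 1248) (PT.nd (nat_lit 624) (PT.nd (nat_lit 312) (PT.nd (nat_lit 156) (PT.nd (nat_lit 78) (PT.lf (nat_lit 25688) (nat_lit 6) (nat_lit 338) (nat_lit 4) (nat_lit 141) (nat_lit 155) (nat_lit 154)) (PT.lf (nat_lit 26296) (nat_lit 6) (nat_lit 346) (nat_lit 4) (nat_lit 142) (nat_lit 155) (nat_lit 153))) (PT.nd (nat_lit 78) (PT.lf (nat_lit 26828) (nat_lit 6) (nat_lit 353) (nat_lit 4) (nat_lit 143) (nat_lit 155) (nat_lit 152)) (PT.lf (nat_lit 27284) (nat_lit 6) (nat_lit 359) (nat_lit 4) (nat_lit 144) (nat_lit 155) (nat_lit 151)))) (PT.nd (nat_lit 156) (PT.nd (nat_lit 78) (PT.lf (nat_lit 27664) (nat_lit 6) (nat_lit 364) (nat_lit 4) (nat_lit 145) (nat_lit 155) (nat_lit 150)) (PT.lf (nat_lit 27588) (nat_lit 6) (nat_lit 363) (nat_lit 4) (nat_lit 146) (nat_lit 155) (nat_lit 149))) (PT.nd (nat_lit 78) (PT.lf (nat_lit 27512) (nat_lit 6) (nat_lit 362) (nat_lit 4) (nat_lit 147)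 (nat_lit 155) (nat_lit 148)) (PT.lf (nat_lit 27512) (nat_lit 6) (nat_lit 362) (nat_lit 2) (nat_lit 148) (nat_lit 155) (nat_lit 147))))) (PT.nd (nat_lit 312) (PT.nd (nat_lit 156) (PT.nd (nat_lit 78) (PT.lf (nat_lit 27588) (nat_lit 6) (nat_lit 363) (nat_lit 2) (nat_lit 149) (nat_lit 155) (nat_lit 146)) (PT.lf (nat_lit 27664) (nat_lit 6) (nat_lit 364) (nat_lit 2) (nat_lit 150) (nat_lit 155) (nat_lit 145))) (PT.nd (nat_lit 78) (PT.lf (nat_lit 27284) (nat_lit 6) (nat_lit 359) (nat_lit 2) (nat_lit 151) (nat_lit 155) (nat_lit 144)) (PT.lf (nat_lit 26828) (nat_lit 6) (nat_lit 353) (nat_lit 2) (nat_lit 152) (nat_lit 155) (nat_lit 143)))) (PT.nd (nat_lit 156) (PT.nd (nat_lit 78) (PT.lf (nat_lit 26296) (nat_lit 6) (nat_lit 346) (nat_lit 2) (nat_lit 153) (nat_lit 155) (nat_lit 142)) (PT.lf (nat_lit 25688) (nat_lit 6) (nat_lit 338) (nat_lit 2) (nat_lit 154) (nat_lit 155) (nat_lit 141))) (PT.nd (nat_lit 78) (PT.lf (nat_lit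 25004) (nat_lit 3) (nat_lit 329) (nat_lit 0) (nat_lit 155) (nat_lit 155) (nat_lit 140)) (PT.lf (nat_lit 24168) (nat_lit 6) (nat_lit 318) (nat_lit 0) (nat_lit 156) (nat_lit 155) (nat_lit 139)))))) (PT.nd (nat_lit 624) (PT.nd (nat_lit 312) (PT.nd (nat_lit 156) (PT.nd (nat_lit 78) (PT.lf (nat_lit 23256) (nat_lit 6) (nat_lit 306) (nat_lit 0) (nat_lit 157) (nat_lit 155) (nat_lit 138)) (PT.lf (nat_lit 22268) (nat_lit 6) (nat_lit 293) (nat_lit 0) (nat_lit 158) (nat_lit 155) (nat_lit 137))) (PT.nd (nat_lit 78) (PT.lf (nat_lit 21204) (nat_lit 6) (nat_lit 279) (nat_lit 0) (nat_lit 159) (nat_lit 155) (nat_lit 136)) (PT.lf (nat_lit 20064) (nat_lit 6) (nat_lit 264) (nat_lit 0) (nat_lit 160) (nat_lit 155) (nat_lit 135)))) (PT.nd (nat_lit 156) (PT.nd (nat_lit 78) (PT.lf (nat_lit 18848) (nat_lit 6) (nat_lit 248) (nat_lit 0) (nat_lit 161) (nat_lit 155) (nat_lit 134)) (PT.lf (nat_lit 17556) (nat_lit 6) (nat_lit 231) (nat_lit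 0) (nat_lit 162) (nat_lit 155) (nat_lit 133))) (PT.nd (nat_lit 78) (PT.lf (nat_lit 16872) (nat_lit 6) (nat_lit 222) (nat_lit 0) (nat_lit 163) (nat_lit 155) (nat_lit 132)) (PT.lf (nat_lit 16188) (nat_lit 6) (nat_lit 213) (nat_lit 0) (nat_lit 164) (nat_lit 155) (nat_lit 131))))) (PT.nd (nat_lit 43836) (PT.nd (nat_lit 156) (PT.nd (nat_lit 78) (PT.lf (nat_lit 15504) (nat_lit 6) (nat_lit 204) (nat_lit 0) (nat_lit 165) (nat_lit 155) (nat_lit 130)) (PT.lf (nat_lit 14896) (nat_lit 6) (nat_lit 196) (nat_lit 0) (nat_lit 166) (nat_lit 155) (nat_lit 129))) (PT.nd (nat_lit 78) (PT.lf (nat_lit 14288) (nat_lit 6) (nat_lit 188) (nat_lit 0) (nat_lit 167) (nat_lit 155) (nat_lit 128)) (PT.lf (nat_lit 13756) (nat_lit 6) (nat_lit 181) (nat_lit 0) (nat_lit 168) (nat_lit 155) (nat_lit 127)))) (PT.nd (nat_lit 156) (PT.nd (nat_lit 78) (PT.lf (nat_lit 13224) (nat_lit 6) (nat_lit 174) (nat_lit 5) (nat_lit 126) (nat_lit 156) (nat_lit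 168)) (PT.lf (nat_lit 13832) (nat_lit 6) (nat_lit 182) (nat_lit 5) (nat_lit 127) (nat_lit 156) (nat_lit 167))) (PT.nd (nat_lit 78) (PT.lf (nat_lit 14364) (nat_lit 6) (nat_lit 189) (nat_lit 5) (nat_lit 128) (nat_lit 156) (nat_lit 166)) (PT.nd (nat_lit 78) (PT.lf (nat_lit 14972) (nat_lit 6) (nat_lit 197) (nat_lit 5) (nat_lit 129) (nat_lit 156) (nat_lit 165)) (PT.lf (nat_lit 15580) (nat_lit 6) (nat_lit 205) (nat_lit 5) (nat_lit 130) (nat_lit 156) (nat_lit 164))))))))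
noncomputable def pc32 : PT := (PT.nd (nat_lit 1248) (PT.nd (nat_lit 624) (PT.nd (nat_lit 312) (PT.nd (nat_lit 156) (PT.nd (nat_lit 78) (PT.lf (nat_lit 16264) (nat_lit 6) (nat_lit 214) (nat_lit 5) (nat_lit 131) (nat_lit 156) (nat_lit 163)) (PT.lf (nat_lit 16948) (nat_lit 6) (nat_lit 223) (nat_lit 5) (nat_lit 132) (nat_lit 156) (nat_lit 162))) (PT.nd (nat_lit 78) (PT.lf (nat_lit 17632) (nat_lit 6) (nat_lit 232) (nat_lit 5) (nat_lit 133) (nat_lit 156) (nat_lit 161)) (PT.lf (nat_lit 18924) (nat_lit 6) (nat_lit 249) (nat_lit 5) (nat_lit 134) (nat_lit 156) (nat_lit 160)))) (PT.nd (nat_lit 156) (PT.nd (nat_lit 78) (PT.lf (nat_lit 20140) (nat_lit 6) (nat_lit 265) (nat_lit 5) (nat_lit 135) (nat_lit 156) (nat_lit 159)) (PT.lf (nat_lit 21280) (nat_lit 6) (nat_lit 280) (nat_lit 5) (nat_lit 136) (nat_lit 156) (nat_lit 158))) (PT.nd (nat_lit 78) (PT.lf (nat_lit 22344) (nat_lit 6) (nat_lit 294) (nat_lit 5) (nat_lit 137)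 (nat_lit 156) (nat_lit 157)) (PT.lf (nat_lit 23332) (nat_lit 3) (nat_lit 307) (nat_lit 4) (nat_lit 138) (nat_lit 156) (nat_lit 156))))) (PT.nd (nat_lit 312) (PT.nd (nat_lit 156) (PT.nd (nat_lit 78) (PT.lf (nat_lit 24168) (nat_lit 6) (nat_lit 318) (nat_lit 4) (nat_lit 139) (nat_lit 156) (nat_lit 155)) (PT.lf (nat_lit 24928) (nat_lit 6) (nat_lit 328) (nat_lit 4) (nat_lit 140) (nat_lit 156) (nat_lit 154))) (PT.nd (nat_lit 78) (PT.lf (nat_lit 25612) (nat_lit 6) (nat_lit 337) (nat_lit 4) (nat_lit 141) (nat_lit 156) (nat_lit 153)) (PT.lf (nat_lit 26220) (nat_lit 6) (nat_lit 345) (nat_lit 4) (nat_lit 142) (nat_lit 156) (nat_lit 152)))) (PT.nd (nat_lit 156) (PT.nd (nat_lit 78) (PT.lf (nat_lit 26752) (nat_lit 6) (nat_lit 352) (nat_lit 4) (nat_lit 143) (nat_lit 156) (nat_lit 151)) (PT.lf (nat_lit 27208) (nat_lit 6) (nat_lit 358) (nat_lit 4) (nat_lit 144) (nat_lit 156) (nat_lit 150))) (PT.nd (nat_lit 78) (PT.lf (nat_lit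 27132) (nat_lit 6) (nat_lit 357) (nat_lit 4) (nat_lit 145) (nat_lit 156) (nat_lit 149)) (PT.lf (nat_lit 27056) (nat_lit 6) (nat_lit 356) (nat_lit 4) (nat_lit 146) (nat_lit 156) (nat_lit 148)))))) (PT.nd (nat_lit 624) (PT.nd (nat_lit 312) (PT.nd (nat_lit 156) (PT.nd (nat_lit 78) (PT.lf (nat_lit 26980) (nat_lit 3) (nat_lit 355) (nat_lit 2) (nat_lit 147) (nat_lit 156) (nat_lit 147)) (PT.lf (nat_lit 27056) (nat_lit 6) (nat_lit 356) (nat_lit 2) (nat_lit 148) (nat_lit 156) (nat_lit 146))) (PT.nd (nat_lit 78) (PT.lf (nat_lit 27132) (nat_lit 6) (nat_lit 357) (nat_lit 2) (nat_lit 149) (nat_lit 156) (nat_lit 145)) (PT.lf (nat_lit 27208) (nat_lit 6) (nat_lit 358) (nat_lit 2) (nat_lit 150) (nat_lit 156) (nat_lit 144)))) (PT.nd (nat_lit 156) (PT.nd (nat_lit 78) (PT.lf (nat_lit 26752) (nat_lit 6) (nat_lit 352) (nat_lit 2) (nat_lit 151) (nat_lit 156) (nat_lit 143)) (PT.lf (nat_lit 26220) (nat_lit 6) (nat_lit 345) (nat_lit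 2) (nat_lit 152) (nat_lit 156) (nat_lit 142))) (PT.nd (nat_lit 78) (PT.lf (nat_lit 25612) (nat_lit 6) (nat_lit 337) (nat_lit 2) (nat_lit 153) (nat_lit 156) (nat_lit 141)) (PT.lf (nat_lit 24928) (nat_lit 6) (nat_lit 328) (nat_lit 2) (nat_lit 154) (nat_lit 156) (nat_lit 140))))) (PT.nd (nat_lit 312) (PT.nd (nat_lit 156) (PT.nd (nat_lit 78) (PT.lf (nat_lit 24168) (nat_lit 6) (nat_lit 318) (nat_lit 2) (nat_lit 155) (nat_lit 156) (nat_lit 139)) (PT.lf (nat_lit 23332) (nat_lit 3) (nat_lit 307) (nat_lit 0) (nat_lit 156) (nat_lit 156) (nat_lit 138))) (PT.nd (nat_lit 78) (PT.lf (nat_lit 22344) (nat_lit 6) (nat_lit 294) (nat_lit 0) (nat_lit 157) (nat_lit 156) (nat_lit 137)) (PT.lf (nat_lit 21280) (nat_lit 6) (nat_lit 280) (nat_lit 0) (nat_lit 158) (nat_lit 156) (nat_lit 136)))) (PT.nd (nat_lit 156) (PT.nd (nat_lit 78) (PT.lf (nat_lit 20140) (nat_lit 6) (nat_lit 265) (nat_lit 0) (nat_lit 159) (nat_lit 156) (nat_lit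 135)) (PT.lf (nat_lit 18924) (nat_lit 6) (nat_lit 249) (nat_lit 0) (nat_lit 160) (nat_lit 156) (nat_lit 134))) (PT.nd (nat_lit 78) (PT.lf (nat_lit 17632) (nat_lit 6) (nat_lit 232) (nat_lit 0) (nat_lit 161) (nat_lit 156) (nat_lit 133)) (PT.lf (nat_lit 16948) (nat_lit 6) (nat_lit 223) (nat_lit 0) (nat_lit 162) (nat_lit 156) (nat_lit 132)))))))
noncomputable def pc33 : PT := (PT.nd (nat_lit 44694) (PT.nd (nat_lit 44070) (PT.nd (nat_lit 312) (PT.nd (nat_lit 156) (PT.nd (nat_lit 78) (PT.lf (nat_lit 16264) (nat_lit 6) (nat_lit 214) (nat_lit 0) (nat_lit 163) (nat_lit 156) (nat_lit 131)) (PT.lf (nat_lit 15580) (nat_lit 6) (nat_lit 205) (nat_lit 0) (nat_lit 164) (nat_lit 156) (nat_lit 130))) (PT.nd (nat_lit 78) (PT.lf (nat_lit 14972) (nat_lit 6) (nat_lit 197) (nat_lit 0) (nat_lit 165) (nat_lit 156) (nat_lit 129)) (PT.lf (nat_lit 14364) (nat_lit 6) (nat_lit 189) (nat_lit 0) (nat_lit 166) (nat_lit 156) (nat_lit 128))))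 (PT.nd (nat_lit 43602) (PT.nd (nat_lit 78) (PT.lf (nat_lit 13832) (nat_lit 6) (nat_lit 182) (nat_lit 0) (nat_lit 167) (nat_lit 156) (nat_lit 127)) (PT.lf (nat_lit 13224) (nat_lit 6) (nat_lit 174) (nat_lit 0) (nat_lit 168) (nat_lit 156) (nat_lit 126))) (PT.nd (nat_lit 78) (PT.lf (nat_lit 12768) (nat_lit 6) (nat_lit 168) (nat_lit 5) (nat_lit 125) (nat_lit 157) (nat_lit 168)) (PT.lf (nat_lit 13300) (nat_lit 6) (nat_lit 175) (nat_lit 5) (nat_lit 126) (nat_lit 157) (nat_lit 167))))) (PT.nd (nat_lit 312) (PT.nd (nat_lit 156) (PT.nd (nat_lit 78) (PT.lf (nat_lit 13908) (nat_lit 6) (nat_lit 183) (nat_lit 5) (nat_lit 127) (nat_lit 157) (nat_lit 166)) (PT.lf (nat_lit 14440) (nat_lit 6) (nat_lit 190) (nat_lit 5) (nat_lit 128) (nat_lit 157) (nat_lit 165))) (PT.nd (nat_lit 78) (PT.lf (nat_lit 15048) (nat_lit 6) (nat_lit 198) (nat_lit 5) (nat_lit 129) (nat_lit 157) (nat_lit 164)) (PT.lf (nat_lit 15656) (nat_lit 6) (nat_lit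 206) (nat_lit 5) (nat_lit 130) (nat_lit 157) (nat_lit 163)))) (PT.nd (nat_lit 156) (PT.nd (nat_lit 78) (PT.lf (nat_lit 16340) (nat_lit 6) (nat_lit 215) (nat_lit 5) (nat_lit 131) (nat_lit 157) (nat_lit 162)) (PT.lf (nat_lit 17024) (nat_lit 6) (nat_lit 224) (nat_lit 5) (nat_lit 132) (nat_lit 157) (nat_lit 161))) (PT.nd (nat_lit 78) (PT.lf (nat_lit 17708) (nat_lit 6) (nat_lit 233) (nat_lit 5) (nat_lit 133) (nat_lit 157) (nat_lit 160)) (PT.lf (nat_lit 19000) (nat_lit 6) (nat_lit 250) (nat_lit 5) (nat_lit 134) (nat_lit 157) (nat_lit 159)))))) (PT.nd (nat_lit 624) (PT.nd (nat_lit 312) (PT.nd (nat_lit 156) (PT.nd (nat_lit 78) (PT.lf (nat_lit 20216) (nat_lit 6) (nat_lit 266) (nat_lit 5) (nat_lit 135) (nat_lit 157) (nat_lit 158)) (PT.lf (nat_lit 21356) (nat_lit 3) (nat_lit 281) (nat_lit 4) (nat_lit 136) (nat_lit 157) (nat_lit 157))) (PT.nd (nat_lit 78) (PT.lf (nat_lit 22344) (nat_lit 6) (nat_lit 294) (nat_lit 4)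 (nat_lit 137) (nat_lit 157) (nat_lit 156)) (PT.lf (nat_lit 23256) (nat_lit 6) (nat_lit 306) (nat_lit 4) (nat_lit 138) (nat_lit 157) (nat_lit 155)))) (PT.nd (nat_lit 156) (PT.nd (nat_lit 78) (PT.lf (nat_lit 24092) (nat_lit 6) (nat_lit 317) (nat_lit 4) (nat_lit 139) (nat_lit 157) (nat_lit 154)) (PT.lf (nat_lit 24852) (nat_lit 6) (nat_lit 327) (nat_lit 4) (nat_lit 140) (nat_lit 157) (nat_lit 153))) (PT.nd (nat_lit 78) (PT.lf (nat_lit 25536) (nat_lit 6) (nat_lit 336) (nat_lit 4) (nat_lit 141) (nat_lit 157) (nat_lit 152)) (PT.lf (nat_lit 26144) (nat_lit 6) (nat_lit 344) (nat_lit 4) (nat_lit 142) (nat_lit 157) (nat_lit 151))))) (PT.nd (nat_lit 312) (PT.nd (nat_lit 156) (PT.nd (nat_lit 78) (PT.lf (nat_lit 26676) (nat_lit 6) (nat_lit 351) (nat_lit 4) (nat_lit 143) (nat_lit 157) (nat_lit 150)) (PT.lf (nat_lit 26600) (nat_lit 6) (nat_lit 350) (nat_lit 4) (nat_lit 144) (nat_lit 157) (nat_lit 149))) (PT.nd (nat_lit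 78) (PT.lf (nat_lit 26524) (nat_lit 6) (nat_lit 349) (nat_lit 4) (nat_lit 145) (nat_lit 157) (nat_lit 148)) (PT.lf (nat_lit 26448) (nat_lit 6) (nat_lit 348) (nat_lit 4) (nat_lit 146) (nat_lit 157) (nat_lit 147)))) (PT.nd (nat_lit 156) (PT.nd (nat_lit 78) (PT.lf (nat_lit 26448) (nat_lit 6) (nat_lit 348) (nat_lit 2) (nat_lit 147) (nat_lit 157) (nat_lit 146)) (PT.lf (nat_lit 26524) (nat_lit 6) (nat_lit 349) (nat_lit 2) (nat_lit 148) (nat_lit 157) (nat_lit 145))) (PT.nd (nat_lit 78) (PT.lf (nat_lit 26600) (nat_lit 6) (nat_lit 350) (nat_lit 2) (nat_lit 149) (nat_lit 157) (nat_lit 144)) (PT.nd (nat_lit 78) (PT.lf (nat_lit 26676) (nat_lit 6) (nat_lit 351) (nat_lit 2) (nat_lit 150) (nat_lit 157) (nat_lit 143)) (PT.lf (nat_lit 26144) (nat_lit 6) (nat_lit 344) (nat_lit 2) (nat_lit 151) (nat_lit 157) (nat_lit 142))))))))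
noncomputable def pc34 : PT := (PT.nd (nat_lit 1248) (PT.nd (nat_lit 624) (PT.nd (nat_lit 312) (PT.nd (nat_lit 156) (PT.nd (nat_lit 78) (PT.lf (nat_lit 25536) (nat_lit 6) (nat_lit 336) (nat_lit 2) (nat_lit 152) (nat_lit 157) (nat_lit 141)) (PT.lf (nat_lit 24852) (nat_lit 6) (nat_lit 327) (nat_lit 2) (nat_lit 153) (nat_lit 157) (nat_lit 140))) (PT.nd (nat_lit 78) (PT.lf (nat_lit 24092) (nat_lit 6) (nat_lit 317) (nat_lit 2) (nat_lit 154) (nat_lit 157) (nat_lit 139)) (PT.lf (nat_lit 23256) (nat_lit 6) (nat_lit 306) (nat_lit 2) (nat_lit 155) (nat_lit 157) (nat_lit 138)))) (PT.nd (nat_lit 156) (PT.nd (nat_lit 78) (PT.lf (nat_lit 22344) (nat_lit 6) (nat_lit 294) (nat_lit 2) (nat_lit 156) (nat_lit 157) (nat_lit 137)) (PT.lf (nat_lit 21356) (nat_lit 3) (nat_lit 281) (nat_lit 0) (nat_lit 157) (nat_lit 157) (nat_lit 136))) (PT.nd (nat_lit 78) (PT.lf (nat_lit 20216) (nat_lit 6) (nat_lit 266) (nat_lit 0) (nat_lit 158)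 (nat_lit 157) (nat_lit 135)) (PT.lf (nat_lit 19000) (nat_lit 6) (nat_lit 250) (nat_lit 0) (nat_lit 159) (nat_lit 157) (nat_lit 134))))) (PT.nd (nat_lit 312) (PT.nd (nat_lit 156) (PT.nd (nat_lit 78) (PT.lf (nat_lit 17708) (nat_lit 6) (nat_lit 233) (nat_lit 0) (nat_lit 160) (nat_lit 157) (nat_lit 133)) (PT.lf (nat_lit 17024) (nat_lit 6) (nat_lit 224) (nat_lit 0) (nat_lit 161) (nat_lit 157) (nat_lit 132))) (PT.nd (nat_lit 78) (PT.lf (nat_lit 16340) (nat_lit 6) (nat_lit 215) (nat_lit 0) (nat_lit 162) (nat_lit 157) (nat_lit 131)) (PT.lf (nat_lit 15656) (nat_lit 6) (nat_lit 206) (nat_lit 0) (nat_lit 163) (nat_lit 157) (nat_lit 130)))) (PT.nd (nat_lit 156) (PT.nd (nat_lit 78) (PT.lf (nat_lit 15048) (nat_lit 6) (nat_lit 198) (nat_lit 0) (nat_lit 164) (nat_lit 157) (nat_lit 129)) (PT.lf (nat_lit 14440) (nat_lit 6) (nat_lit 190) (nat_lit 0) (nat_lit 165) (nat_lit 157) (nat_lit 128))) (PT.nd (nat_lit 78) (PT.lf (nat_lit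 13908) (nat_lit 6) (nat_lit 183) (nat_lit 0) (nat_lit 166) (nat_lit 157) (nat_lit 127)) (PT.lf (nat_lit 13300) (nat_lit 6) (nat_lit 175) (nat_lit 0) (nat_lit 167) (nat_lit 157) (nat_lit 126)))))) (PT.nd (nat_lit 43914) (PT.nd (nat_lit 43602) (PT.nd (nat_lit 43446) (PT.nd (nat_lit 43368) (PT.lf (nat_lit 12768) (nat_lit 6) (nat_lit 168) (nat_lit 0) (nat_lit 168) (nat_lit 157) (nat_lit 125)) (PT.lf (nat_lit 11856) (nat_lit 6) (nat_lit 156) (nat_lit 5) (nat_lit 123) (nat_lit 158) (nat_lit 169))) (PT.nd (nat_lit 78) (PT.lf (nat_lit 12312) (nat_lit 6) (nat_lit 162) (nat_lit 5) (nat_lit 124) (nat_lit 158) (nat_lit 168)) (PT.lf (nat_lit 12844) (nat_lit 6) (nat_lit 169) (nat_lit 5) (nat_lit 125) (nat_lit 158) (nat_lit 167)))) (PT.nd (nat_lit 156) (PT.nd (nat_lit 78) (PT.lf (nat_lit 13376) (nat_lit 6) (nat_lit 176) (nat_lit 5) (nat_lit 126) (nat_lit 158) (nat_lit 166)) (PT.lf (nat_lit 13984) (nat_lit 6) (nat_lit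 184) (nat_lit 5) (nat_lit 127) (nat_lit 158) (nat_lit 165))) (PT.nd (nat_lit 78) (PT.lf (nat_lit 14516) (nat_lit 6) (nat_lit 191) (nat_lit 5) (nat_lit 128) (nat_lit 158) (nat_lit 164)) (PT.lf (nat_lit 15124) (nat_lit 6) (nat_lit 199) (nat_lit 5) (nat_lit 129) (nat_lit 158) (nat_lit 163))))) (PT.nd (nat_lit 312) (PT.nd (nat_lit 156) (PT.nd (nat_lit 78) (PT.lf (nat_lit 15732) (nat_lit 6) (nat_lit 207) (nat_lit 5) (nat_lit 130) (nat_lit 158) (nat_lit 162)) (PT.lf (nat_lit 16416) (nat_lit 6) (nat_lit 216) (nat_lit 5) (nat_lit 131) (nat_lit 158) (nat_lit 161))) (PT.nd (nat_lit 78) (PT.lf (nat_lit 17100) (nat_lit 6) (nat_lit 225) (nat_lit 5) (nat_lit 132) (nat_lit 158) (nat_lit 160)) (PT.lf (nat_lit 17784) (nat_lit 6) (nat_lit 234) (nat_lit 5) (nat_lit 133) (nat_lit 158) (nat_lit 159)))) (PT.nd (nat_lit 156) (PT.nd (nat_lit 78) (PT.lf (nat_lit 19076) (nat_lit 3) (nat_lit 251) (nat_lit 4) (nat_lit 134) (nat_lit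 158) (nat_lit 158)) (PT.lf (nat_lit 20216) (nat_lit 6) (nat_lit 266) (nat_lit 4) (nat_lit 135) (nat_lit 158) (nat_lit 157))) (PT.nd (nat_lit 78) (PT.lf (nat_lit 21280) (nat_lit 6) (nat_lit 280) (nat_lit 4) (nat_lit 136) (nat_lit 158) (nat_lit 156)) (PT.nd (nat_lit 78) (PT.lf (nat_lit 22268) (nat_lit 6) (nat_lit 293) (nat_lit 4) (nat_lit 137) (nat_lit 158) (nat_lit 155)) (PT.lf (nat_lit 23180) (nat_lit 6) (nat_lit 305) (nat_lit 4) (nat_lit 138) (nat_lit 158) (nat_lit 154))))))))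
noncomputable def pc35 : PT := (PT.nd (nat_lit 1248) (PT.nd (nat_lit 624) (PT.nd (nat_lit 312) (PT.nd (nat_lit 156) (PT.nd (nat_lit 78) (PT.lf (nat_lit 24016) (nat_lit 6) (nat_lit 316) (nat_lit 4) (nat_lit 139) (nat_lit 158) (nat_lit 153)) (PT.lf (nat_lit 24776) (nat_lit 6) (nat_lit 326) (nat_lit 4) (nat_lit 140) (nat_lit 158) (nat_lit 152))) (PT.nd (nat_lit 78) (PT.lf (nat_lit 25460) (nat_lit 6) (nat_lit 335) (nat_lit 4) (nat_lit 141) (nat_lit 158) (nat_lit 151)) (PT.lf (nat_lit 26068) (nat_lit 6) (nat_lit 343) (nat_lit 4) (nat_lit 142) (nat_lit 158) (nat_lit 150)))) (PT.nd (nat_lit 156) (PT.nd (nat_lit 78) (PT.lf (nat_lit 25992) (nat_lit 6) (nat_lit 342) (nat_lit 4) (nat_lit 143) (nat_lit 158) (nat_lit 149)) (PT.lf (nat_lit 25916) (nat_lit 6) (nat_lit 341) (nat_lit 4) (nat_lit 144) (nat_lit 158) (nat_lit 148))) (PT.nd (nat_lit 78) (PT.lf (nat_lit 25840) (nat_lit 6) (nat_lit 340) (nat_lit 4) (nat_lit 145)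 (nat_lit 158) (nat_lit 147)) (PT.lf (nat_lit 25764) (nat_lit 3) (nat_lit 339) (nat_lit 2) (nat_lit 146) (nat_lit 158) (nat_lit 146))))) (PT.nd (nat_lit 312) (PT.nd (nat_lit 156) (PT.nd (nat_lit 78) (PT.lf (nat_lit 25840) (nat_lit 6) (nat_lit 340) (nat_lit 2) (nat_lit 147) (nat_lit 158) (nat_lit 145)) (PT.lf (nat_lit 25916) (nat_lit 6) (nat_lit 341) (nat_lit 2) (nat_lit 148) (nat_lit 158) (nat_lit 144))) (PT.nd (nat_lit 78) (PT.lf (nat_lit 25992) (nat_lit 6) (nat_lit 342) (nat_lit 2) (nat_lit 149) (nat_lit 158) (nat_lit 143)) (PT.lf (nat_lit 26068) (nat_lit 6) (nat_lit 343) (nat_lit 2) (nat_lit 150) (nat_lit 158) (nat_lit 142)))) (PT.nd (nat_lit 156) (PT.nd (nat_lit 78) (PT.lf (nat_lit 25460) (nat_lit 6) (nat_lit 335) (nat_lit 2) (nat_lit 151) (nat_lit 158) (nat_lit 141)) (PT.lf (nat_lit 24776) (nat_lit 6) (nat_lit 326) (nat_lit 2) (nat_lit 152) (nat_lit 158) (nat_lit 140))) (PT.nd (nat_lit 78) (PT.lf (nat_lit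 24016) (nat_lit 6) (nat_lit 316) (nat_lit 2) (nat_lit 153) (nat_lit 158) (nat_lit 139)) (PT.lf (nat_lit 23180) (nat_lit 6) (nat_lit 305) (nat_lit 2) (nat_lit 154) (nat_lit 158) (nat_lit 138)))))) (PT.nd (nat_lit 624) (PT.nd (nat_lit 312) (PT.nd (nat_lit 156) (PT.nd (nat_lit 78) (PT.lf (nat_lit 22268) (nat_lit 6) (nat_lit 293) (nat_lit 2) (nat_lit 155) (nat_lit 158) (nat_lit 137)) (PT.lf (nat_lit 21280) (nat_lit 6) (nat_lit 280) (nat_lit 2) (nat_lit 156) (nat_lit 158) (nat_lit 136))) (PT.nd (nat_lit 78) (PT.lf (nat_lit 20216) (nat_lit 6) (nat_lit 266) (nat_lit 2) (nat_lit 157) (nat_lit 158) (nat_lit 135)) (PT.lf (nat_lit 19076) (nat_lit 3) (nat_lit 251) (nat_lit 0) (nat_lit 158) (nat_lit 158) (nat_lit 134)))) (PT.nd (nat_lit 156) (PT.nd (nat_lit 78) (PT.lf (nat_lit 17784) (nat_lit 6) (nat_lit 234) (nat_lit 0) (nat_lit 159) (nat_lit 158) (nat_lit 133)) (PT.lf (nat_lit 17100) (nat_lit 6) (nat_lit 225) (nat_lit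 0) (nat_lit 160) (nat_lit 158) (nat_lit 132))) (PT.nd (nat_lit 78) (PT.lf (nat_lit 16416) (nat_lit 6) (nat_lit 216) (nat_lit 0) (nat_lit 161) (nat_lit 158) (nat_lit 131)) (PT.lf (nat_lit 15732) (nat_lit 6) (nat_lit 207) (nat_lit 0) (nat_lit 162) (nat_lit 158) (nat_lit 130))))) (PT.nd (nat_lit 312) (PT.nd (nat_lit 156) (PT.nd (nat_lit 78) (PT.lf (nat_lit 15124) (nat_lit 6) (nat_lit 199) (nat_lit 0) (nat_lit 163) (nat_lit 158) (nat_lit 129)) (PT.lf (nat_lit 14516) (nat_lit 6) (nat_lit 191) (nat_lit 0) (nat_lit 164) (nat_lit 158) (nat_lit 128))) (PT.nd (nat_lit 78) (PT.lf (nat_lit 13984) (nat_lit 6) (nat_lit 184) (nat_lit 0) (nat_lit 165) (nat_lit 158) (nat_lit 127)) (PT.lf (nat_lit 13376) (nat_lit 6) (nat_lit 176) (nat_lit 0) (nat_lit 166) (nat_lit 158) (nat_lit 126)))) (PT.nd (nat_lit 156) (PT.nd (nat_lit 78) (PT.lf (nat_lit 12844) (nat_lit 6) (nat_lit 169) (nat_lit 0) (nat_lit 167) (nat_lit 158) (nat_lit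 125)) (PT.lf (nat_lit 12312) (nat_lit 6) (nat_lit 162) (nat_lit 0) (nat_lit 168) (nat_lit 158) (nat_lit 124))) (PT.nd (nat_lit 43212) (PT.lf (nat_lit 11856) (nat_lit 6) (nat_lit 156) (nat_lit 0) (nat_lit 169) (nat_lit 158) (nat_lit 123)) (PT.nd (nat_lit 78) (PT.lf (nat_lit 11400) (nat_lit 6) (nat_lit 150) (nat_lit 5) (nat_lit 122) (nat_lit 159) (nat_lit 169)) (PT.lf (nat_lit 11932) (nat_lit 6) (nat_lit 157) (nat_lit 5) (nat_lit 123) (nat_lit 159) (nat_lit 168))))))))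
noncomputable def pc36 : PT := (PT.nd (nat_lit 1248) (PT.nd (nat_lit 624) (PT.nd (nat_lit 312) (PT.nd (nat_lit 156) (PT.nd (nat_lit 78) (PT.lf (nat_lit 12388) (nat_lit 6) (nat_lit 163) (nat_lit 5) (nat_lit 124) (nat_lit 159) (nat_lit 167)) (PT.lf (nat_lit 12920) (nat_lit 6) (nat_lit 170) (nat_lit 5) (nat_lit 125) (nat_lit 159) (nat_lit 166))) (PT.nd (nat_lit 78) (PT.lf (nat_lit 13452) (nat_lit 6) (nat_lit 177) (nat_lit 5) (nat_lit 126) (nat_lit 159) (nat_lit 165)) (PT.lf (nat_lit 14060) (nat_lit 6) (nat_lit 185) (nat_lit 5) (nat_lit 127) (nat_lit 159) (nat_lit 164)))) (PT.nd (nat_lit 156) (PT.nd (nat_lit 78) (PT.lf (nat_lit 14592) (nat_lit 6) (nat_lit 192) (nat_lit 5) (nat_lit 128) (nat_lit 159) (nat_lit 163)) (PT.lf (nat_lit 15200) (nat_lit 6) (nat_lit 200) (nat_lit 5) (nat_lit 129) (nat_lit 159) (nat_lit 162))) (PT.nd (nat_lit 78) (PT.lf (nat_lit 15808) (nat_lit 6) (nat_lit 208) (nat_lit 5) (nat_lit 130)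 (nat_lit 159) (nat_lit 161)) (PT.lf (nat_lit 16492) (nat_lit 6) (nat_lit 217) (nat_lit 5) (nat_lit 131) (nat_lit 159) (nat_lit 160))))) (PT.nd (nat_lit 312) (PT.nd (nat_lit 156) (PT.nd (nat_lit 78) (PT.lf (nat_lit 17176) (nat_lit 3) (nat_lit 226) (nat_lit 4) (nat_lit 132) (nat_lit 159) (nat_lit 159)) (PT.lf (nat_lit 17784) (nat_lit 6) (nat_lit 234) (nat_lit 4) (nat_lit 133) (nat_lit 159) (nat_lit 158))) (PT.nd (nat_lit 78) (PT.lf (nat_lit 19000) (nat_lit 6) (nat_lit 250) (nat_lit 4) (nat_lit 134) (nat_lit 159) (nat_lit 157)) (PT.lf (nat_lit 20140) (nat_lit 6) (nat_lit 265) (nat_lit 4) (nat_lit 135) (nat_lit 159) (nat_lit 156)))) (PT.nd (nat_lit 156) (PT.nd (nat_lit 78) (PT.lf (nat_lit 21204) (nat_lit 6) (nat_lit 279) (nat_lit 4) (nat_lit 136) (nat_lit 159) (nat_lit 155)) (PT.lf (nat_lit 22192) (nat_lit 6) (nat_lit 292) (nat_lit 4) (nat_lit 137) (nat_lit 159) (nat_lit 154))) (PT.nd (nat_lit 78) (PT.lf (nat_lit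 23104) (nat_lit 6) (nat_lit 304) (nat_lit 4) (nat_lit 138) (nat_lit 159) (nat_lit 153)) (PT.lf (nat_lit 23940) (nat_lit 6) (nat_lit 315) (nat_lit 4) (nat_lit 139) (nat_lit 159) (nat_lit 152)))))) (PT.nd (nat_lit 624) (PT.nd (nat_lit 312) (PT.nd (nat_lit 156) (PT.nd (nat_lit 78) (PT.lf (nat_lit 24700) (nat_lit 6) (nat_lit 325) (nat_lit 4) (nat_lit 140) (nat_lit 159) (nat_lit 151)) (PT.lf (nat_lit 25384) (nat_lit 6) (nat_lit 334) (nat_lit 4) (nat_lit 141) (nat_lit 159) (nat_lit 150))) (PT.nd (nat_lit 78) (PT.lf (nat_lit 25308) (nat_lit 6) (nat_lit 333) (nat_lit 4) (nat_lit 142) (nat_lit 159) (nat_lit 149)) (PT.lf (nat_lit 25232) (nat_lit 6) (nat_lit 332) (nat_lit 4) (nat_lit 143) (nat_lit 159) (nat_lit 148)))) (PT.nd (nat_lit 156) (PT.nd (nat_lit 78) (PT.lf (nat_lit 25156) (nat_lit 6) (nat_lit 331) (nat_lit 4) (nat_lit 144) (nat_lit 159) (nat_lit 147)) (PT.lf (nat_lit 25080) (nat_lit 6) (nat_lit 330) (nat_lit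 4) (nat_lit 145) (nat_lit 159) (nat_lit 146))) (PT.nd (nat_lit 78) (PT.lf (nat_lit 25080) (nat_lit 6) (nat_lit 330) (nat_lit 2) (nat_lit 146) (nat_lit 159) (nat_lit 145)) (PT.lf (nat_lit 25156) (nat_lit 6) (nat_lit 331) (nat_lit 2) (nat_lit 147) (nat_lit 159) (nat_lit 144))))) (PT.nd (nat_lit 312) (PT.nd (nat_lit 156) (PT.nd (nat_lit 78) (PT.lf (nat_lit 25232) (nat_lit 6) (nat_lit 332) (nat_lit 2) (nat_lit 148) (nat_lit 159) (nat_lit 143)) (PT.lf (nat_lit 25308) (nat_lit 6) (nat_lit 333) (nat_lit 2) (nat_lit 149) (nat_lit 159) (nat_lit 142))) (PT.nd (nat_lit 78) (PT.lf (nat_lit 25384) (nat_lit 6) (nat_lit 334) (nat_lit 2) (nat_lit 150) (nat_lit 159) (nat_lit 141)) (PT.lf (nat_lit 24700) (nat_lit 6) (nat_lit 325) (nat_lit 2) (nat_lit 151) (nat_lit 159) (nat_lit 140)))) (PT.nd (nat_lit 156) (PT.nd (nat_lit 78) (PT.lf (nat_lit 23940) (nat_lit 6) (nat_lit 315) (nat_lit 2) (nat_lit 152) (nat_lit 159) (nat_lit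 139)) (PT.lf (nat_lit 23104) (nat_lit 6) (nat_lit 304) (nat_lit 2) (nat_lit 153) (nat_lit 159) (nat_lit 138))) (PT.nd (nat_lit 78) (PT.lf (nat_lit 22192) (nat_lit 6) (nat_lit 292) (nat_lit 2) (nat_lit 154) (nat_lit 159) (nat_lit 137)) (PT.lf (nat_lit 21204) (nat_lit 6) (nat_lit 279) (nat_lit 2) (nat_lit 155) (nat_lit 159) (nat_lit 136)))))))
noncomputable def pc37 : PT := (PT.nd (nat_lit 44304) (PT.nd (nat_lit 624) (PT.nd (nat_lit 312) (PT.nd (nat_lit 156) (PT.nd (nat_lit 78) (PT.lf (nat_lit 20140) (nat_lit 6) (nat_lit 265) (nat_lit 2) (nat_lit 156) (nat_lit 159) (nat_lit 135)) (PT.lf (nat_lit 19000) (nat_lit 6) (nat_lit 250) (nat_lit 2) (nat_lit 157) (nat_lit 159) (nat_lit 134))) (PT.nd (nat_lit 78) (PT.lf (nat_lit 17784) (nat_lit 6) (nat_lit 234) (nat_lit 2) (nat_lit 158) (nat_lit 159) (nat_lit 133)) (PT.lf (nat_lit 17176) (nat_lit 3) (nat_lit 226) (nat_lit 0) (nat_lit 159) (nat_lit 159) (nat_lit 132))))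 (PT.nd (nat_lit 156) (PT.nd (nat_lit 78) (PT.lf (nat_lit 16492) (nat_lit 6) (nat_lit 217) (nat_lit 0) (nat_lit 160) (nat_lit 159) (nat_lit 131)) (PT.lf (nat_lit 15808) (nat_lit 6) (nat_lit 208) (nat_lit 0) (nat_lit 161) (nat_lit 159) (nat_lit 130))) (PT.nd (nat_lit 78) (PT.lf (nat_lit 15200) (nat_lit 6) (nat_lit 200) (nat_lit 0) (nat_lit 162) (nat_lit 159) (nat_lit 129)) (PT.lf (nat_lit 14592) (nat_lit 6) (nat_lit 192) (nat_lit 0) (nat_lit 163) (nat_lit 159) (nat_lit 128))))) (PT.nd (nat_lit 312) (PT.nd (nat_lit 156) (PT.nd (nat_lit 78) (PT.lf (nat_lit 14060) (nat_lit 6) (nat_lit 185) (nat_lit 0) (nat_lit 164) (nat_lit 159) (nat_lit 127)) (PT.lf (nat_lit 13452) (nat_lit 6) (nat_lit 177) (nat_lit 0) (nat_lit 165) (nat_lit 159) (nat_lit 126))) (PT.nd (nat_lit 78) (PT.lf (nat_lit 12920) (nat_lit 6) (nat_lit 170) (nat_lit 0) (nat_lit 166) (nat_lit 159) (nat_lit 125)) (PT.lf (nat_lit 12388) (nat_lit 6) (nat_lit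 163) (nat_lit 0) (nat_lit 167) (nat_lit 159) (nat_lit 124)))) (PT.nd (nat_lit 43212) (PT.nd (nat_lit 78) (PT.lf (nat_lit 11932) (nat_lit 6) (nat_lit 157) (nat_lit 0) (nat_lit 168) (nat_lit 159) (nat_lit 123)) (PT.lf (nat_lit 11400) (nat_lit 6) (nat_lit 150) (nat_lit 0) (nat_lit 169) (nat_lit 159) (nat_lit 122))) (PT.nd (nat_lit 78) (PT.lf (nat_lit 11020) (nat_lit 6) (nat_lit 145) (nat_lit 5) (nat_lit 121) (nat_lit 160) (nat_lit 169)) (PT.lf (nat_lit 11476) (nat_lit 6) (nat_lit 151) (nat_lit 5) (nat_lit 122) (nat_lit 160) (nat_lit 168)))))) (PT.nd (nat_lit 624) (PT.nd (nat_lit 312) (PT.nd (nat_lit 156) (PT.nd (nat_lit 78) (PT.lf (nat_lit 12008) (nat_lit 6) (nat_lit 158) (nat_lit 5) (nat_lit 123) (nat_lit 160) (nat_lit 167)) (PT.lf (nat_lit 12464) (nat_lit 6) (nat_lit 164) (nat_lit 5) (nat_lit 124) (nat_lit 160) (nat_lit 166))) (PT.nd (nat_lit 78) (PT.lf (nat_lit 12996) (nat_lit 6) (nat_lit 171) (nat_lit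 5) (nat_lit 125) (nat_lit 160) (nat_lit 165)) (PT.lf (nat_lit 13528) (nat_lit 6) (nat_lit 178) (nat_lit 5) (nat_lit 126) (nat_lit 160) (nat_lit 164)))) (PT.nd (nat_lit 156) (PT.nd (nat_lit 78) (PT.lf (nat_lit 14136) (nat_lit 6) (nat_lit 186) (nat_lit 5) (nat_lit 127) (nat_lit 160) (nat_lit 163)) (PT.lf (nat_lit 14668) (nat_lit 6) (nat_lit 193) (nat_lit 5) (nat_lit 128) (nat_lit 160) (nat_lit 162))) (PT.nd (nat_lit 78) (PT.lf (nat_lit 15276) (nat_lit 6) (nat_lit 201) (nat_lit 5) (nat_lit 129) (nat_lit 160) (nat_lit 161)) (PT.lf (nat_lit 15884) (nat_lit 3) (nat_lit 209) (nat_lit 4) (nat_lit 130) (nat_lit 160) (nat_lit 160))))) (PT.nd (nat_lit 312) (PT.nd (nat_lit 156) (PT.nd (nat_lit 78) (PT.lf (nat_lit 16492) (nat_lit 6) (nat_lit 217) (nat_lit 4) (nat_lit 131) (nat_lit 160) (nat_lit 159)) (PT.lf (nat_lit 17100) (nat_lit 6) (nat_lit 225) (nat_lit 4) (nat_lit 132) (nat_lit 160) (nat_lit 158))) (PT.nd (nat_lit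 78) (PT.lf (nat_lit 17708) (nat_lit 6) (nat_lit 233) (nat_lit 4) (nat_lit 133) (nat_lit 160) (nat_lit 157)) (PT.lf (nat_lit 18924) (nat_lit 6) (nat_lit 249) (nat_lit 4) (nat_lit 134) (nat_lit 160) (nat_lit 156)))) (PT.nd (nat_lit 156) (PT.nd (nat_lit 78) (PT.lf (nat_lit 20064) (nat_lit 6) (nat_lit 264) (nat_lit 4) (nat_lit 135) (nat_lit 160) (nat_lit 155)) (PT.lf (nat_lit 21128) (nat_lit 6) (nat_lit 278) (nat_lit 4) (nat_lit 136) (nat_lit 160) (nat_lit 154))) (PT.nd (nat_lit 78) (PT.lf (nat_lit 22116) (nat_lit 6) (nat_lit 291) (nat_lit 4) (nat_lit 137) (nat_lit 160) (nat_lit 153)) (PT.nd (nat_lit 78) (PT.lf (nat_lit 23028) (nat_lit 6) (nat_lit 303) (nat_lit 4) (nat_lit 138) (nat_lit 160) (nat_lit 152)) (PT.lf (nat_lit 23864) (nat_lit 6) (nat_lit 314) (nat_lit 4) (nat_lit 139) (nat_lit 160) (nat_lit 151))))))))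
noncomputable def pc38 : PT := (PT.nd (nat_lit 1248) (PT.nd (nat_lit 624) (PT.nd (nat_lit 312) (PT.nd (nat_lit 156) (PT.nd (nat_lit 78) (PT.lf (nat_lit 24624) (nat_lit 6) (nat_lit 324) (nat_lit 4) (nat_lit 140) (nat_lit 160) (nat_lit 150)) (PT.lf (nat_lit 24548) (nat_lit 6) (nat_lit 323) (nat_lit 4) (nat_lit 141) (nat_lit 160) (nat_lit 149))) (PT.nd (nat_lit 78) (PT.lf (nat_lit 24472) (nat_lit 6) (nat_lit 322) (nat_lit 4) (nat_lit 142) (nat_lit 160) (nat_lit 148)) (PT.lf (nat_lit 24396) (nat_lit 6) (nat_lit 321) (nat_lit 4) (nat_lit 143) (nat_lit 160) (nat_lit 147)))) (PT.nd (nat_lit 156) (PT.nd (nat_lit 78) (PT.lf (nat_lit 24320) (nat_lit 6) (nat_lit 320) (nat_lit 4) (nat_lit 144) (nat_lit 160) (nat_lit 146)) (PT.lf (nat_lit 24244) (nat_lit 3) (nat_lit 319) (nat_lit 2) (nat_lit 145) (nat_lit 160) (nat_lit 145))) (PT.nd (nat_lit 78) (PT.lf (nat_lit 24320) (nat_lit 6) (nat_lit 320) (nat_lit 2) (nat_lit 146)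 (nat_lit 160) (nat_lit 144)) (PT.lf (nat_lit 24396) (nat_lit 6) (nat_lit 321) (nat_lit 2) (nat_lit 147) (nat_lit 160) (nat_lit 143))))) (PT.nd (nat_lit 312) (PT.nd (nat_lit 156) (PT.nd (nat_lit 78) (PT.lf (nat_lit 24472) (nat_lit 6) (nat_lit 322) (nat_lit 2) (nat_lit 148) (nat_lit 160) (nat_lit 142)) (PT.lf (nat_lit 24548) (nat_lit 6) (nat_lit 323) (nat_lit 2) (nat_lit 149) (nat_lit 160) (nat_lit 141))) (PT.nd (nat_lit 78) (PT.lf (nat_lit 24624) (nat_lit 6) (nat_lit 324) (nat_lit 2) (nat_lit 150) (nat_lit 160) (nat_lit 140)) (PT.lf (nat_lit 23864) (nat_lit 6) (nat_lit 314) (nat_lit 2) (nat_lit 151) (nat_lit 160) (nat_lit 139)))) (PT.nd (nat_lit 156) (PT.nd (nat_lit 78) (PT.lf (nat_lit 23028) (nat_lit 6) (nat_lit 303) (nat_lit 2) (nat_lit 152) (nat_lit 160) (nat_lit 138)) (PT.lf (nat_lit 22116) (nat_lit 6) (nat_lit 291) (nat_lit 2) (nat_lit 153) (nat_lit 160) (nat_lit 137))) (PT.nd (nat_lit 78) (PT.lf (nat_lit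 21128) (nat_lit 6) (nat_lit 278) (nat_lit 2) (nat_lit 154) (nat_lit 160) (nat_lit 136)) (PT.lf (nat_lit 20064) (nat_lit 6) (nat_lit 264) (nat_lit 2) (nat_lit 155) (nat_lit 160) (nat_lit 135)))))) (PT.nd (nat_lit 624) (PT.nd (nat_lit 312) (PT.nd (nat_lit 156) (PT.nd (nat_lit 78) (PT.lf (nat_lit 18924) (nat_lit 6) (nat_lit 249) (nat_lit 2) (nat_lit 156) (nat_lit 160) (nat_lit 134)) (PT.lf (nat_lit 17708) (nat_lit 6) (nat_lit 233) (nat_lit 2) (nat_lit 157) (nat_lit 160) (nat_lit 133))) (PT.nd (nat_lit 78) (PT.lf (nat_lit 17100) (nat_lit 6) (nat_lit 225) (nat_lit 2) (nat_lit 158) (nat_lit 160) (nat_lit 132)) (PT.lf (nat_lit 16492) (nat_lit 6) (nat_lit 217) (nat_lit 2) (nat_lit 159) (nat_lit 160) (nat_lit 131)))) (PT.nd (nat_lit 156) (PT.nd (nat_lit 78) (PT.lf (nat_lit 15884) (nat_lit 3) (nat_lit 209) (nat_lit 0) (nat_lit 160) (nat_lit 160) (nat_lit 130)) (PT.lf (nat_lit 15276) (nat_lit 6) (nat_lit 201) (nat_lit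 0) (nat_lit 161) (nat_lit 160) (nat_lit 129))) (PT.nd (nat_lit 78) (PT.lf (nat_lit 14668) (nat_lit 6) (nat_lit 193) (nat_lit 0) (nat_lit 162) (nat_lit 160) (nat_lit 128)) (PT.lf (nat_lit 14136) (nat_lit 6) (nat_lit 186) (nat_lit 0) (nat_lit 163) (nat_lit 160) (nat_lit 127))))) (PT.nd (nat_lit 312) (PT.nd (nat_lit 156) (PT.nd (nat_lit 78) (PT.lf (nat_lit 13528) (nat_lit 6) (nat_lit 178) (nat_lit 0) (nat_lit 164) (nat_lit 160) (nat_lit 126)) (PT.lf (nat_lit 12996) (nat_lit 6) (nat_lit 171) (nat_lit 0) (nat_lit 165) (nat_lit 160) (nat_lit 125))) (PT.nd (nat_lit 78) (PT.lf (nat_lit 12464) (nat_lit 6) (nat_lit 164) (nat_lit 0) (nat_lit 166) (nat_lit 160) (nat_lit 124)) (PT.lf (nat_lit 12008) (nat_lit 6) (nat_lit 158) (nat_lit 0) (nat_lit 167) (nat_lit 160) (nat_lit 123)))) (PT.nd (nat_lit 43056) (PT.nd (nat_lit 78) (PT.lf (nat_lit 11476) (nat_lit 6) (nat_lit 151) (nat_lit 0) (nat_lit 168) (nat_lit 160) (nat_lit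 122)) (PT.lf (nat_lit 11020) (nat_lit 6) (nat_lit 145) (nat_lit 0) (nat_lit 169) (nat_lit 160) (nat_lit 121))) (PT.nd (nat_lit 78) (PT.lf (nat_lit 10260) (nat_lit 6) (nat_lit 135) (nat_lit 5) (nat_lit 119) (nat_lit 161) (nat_lit 170)) (PT.nd (nat_lit 78) (PT.lf (nat_lit 10640) (nat_lit 6) (nat_lit 140) (nat_lit 5) (nat_lit 120) (nat_lit 161) (nat_lit 169)) (PT.lf (nat_lit 11096) (nat_lit 6) (nat_lit 146) (nat_lit 5) (nat_lit 121) (nat_lit 161) (nat_lit 168))))))))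
noncomputable def pc39 : PT := (PT.nd (nat_lit 1248) (PT.nd (nat_lit 624) (PT.nd (nat_lit 312) (PT.nd (nat_lit 156) (PT.nd (nat_lit 78) (PT.lf (nat_lit 11552) (nat_lit 6) (nat_lit 152) (nat_lit 5) (nat_lit 122) (nat_lit 161) (nat_lit 167)) (PT.lf (nat_lit 12084) (nat_lit 6) (nat_lit 159) (nat_lit 5) (nat_lit 123) (nat_lit 161) (nat_lit 166))) (PT.nd (nat_lit 78) (PT.lf (nat_lit 12540) (nat_lit 6) (nat_lit 165) (nat_lit 5) (nat_lit 124) (nat_lit 161) (nat_lit 165)) (PT.lf (nat_lit 13072) (nat_lit 6) (nat_lit 172) (nat_lit 5) (nat_lit 125) (nat_lit 161) (nat_lit 164)))) (PT.nd (nat_lit 156) (PT.nd (nat_lit 78) (PT.lf (nat_lit 13604) (nat_lit 6) (nat_lit 179) (nat_lit 5) (nat_lit 126) (nat_lit 161) (nat_lit 163)) (PT.lf (nat_lit 14212) (nat_lit 6) (nat_lit 187) (nat_lit 5) (nat_lit 127) (nat_lit 161) (nat_lit 162))) (PT.nd (nat_lit 78) (PT.lf (nat_lit 14744) (nat_lit 3) (nat_lit 194) (nat_lit 4) (nat_lit 128)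 (nat_lit 161) (nat_lit 161)) (PT.lf (nat_lit 15276) (nat_lit 6) (nat_lit 201) (nat_lit 4) (nat_lit 129) (nat_lit 161) (nat_lit 160))))) (PT.nd (nat_lit 312) (PT.nd (nat_lit 156) (PT.nd (nat_lit 78) (PT.lf (nat_lit 15808) (nat_lit 6) (nat_lit 208) (nat_lit 4) (nat_lit 130) (nat_lit 161) (nat_lit 159)) (PT.lf (nat_lit 16416) (nat_lit 6) (nat_lit 216) (nat_lit 4) (nat_lit 131) (nat_lit 161) (nat_lit 158))) (PT.nd (nat_lit 78) (PT.lf (nat_lit 17024) (nat_lit 6) (nat_lit 224) (nat_lit 4) (nat_lit 132) (nat_lit 161) (nat_lit 157)) (PT.lf (nat_lit 17632) (nat_lit 6) (nat_lit 232) (nat_lit 4) (nat_lit 133) (nat_lit 161) (nat_lit 156)))) (PT.nd (nat_lit 156) (PT.nd (nat_lit 78) (PT.lf (nat_lit 18848) (nat_lit 6) (nat_lit 248) (nat_lit 4) (nat_lit 134) (nat_lit 161) (nat_lit 155)) (PT.lf (nat_lit 19988) (nat_lit 6) (nat_lit 263) (nat_lit 4) (nat_lit 135) (nat_lit 161) (nat_lit 154))) (PT.nd (nat_lit 78) (PT.lf (nat_lit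 21052) (nat_lit 6) (nat_lit 277) (nat_lit 4) (nat_lit 136) (nat_lit 161) (nat_lit 153)) (PT.lf (nat_lit 22040) (nat_lit 6) (nat_lit 290) (nat_lit 4) (nat_lit 137) (nat_lit 161) (nat_lit 152)))))) (PT.nd (nat_lit 624) (PT.nd (nat_lit 312) (PT.nd (nat_lit 156) (PT.nd (nat_lit 78) (PT.lf (nat_lit 22952) (nat_lit 6) (nat_lit 302) (nat_lit 4) (nat_lit 138) (nat_lit 161) (nat_lit 151)) (PT.lf (nat_lit 23788) (nat_lit 6) (nat_lit 313) (nat_lit 4) (nat_lit 139) (nat_lit 161) (nat_lit 150))) (PT.nd (nat_lit 78) (PT.lf (nat_lit 23712) (nat_lit 6) (nat_lit 312) (nat_lit 4) (nat_lit 140) (nat_lit 161) (nat_lit 149)) (PT.lf (nat_lit 23636) (nat_lit 6) (nat_lit 311) (nat_lit 4) (nat_lit 141) (nat_lit 161) (nat_lit 148)))) (PT.nd (nat_lit 156) (PT.nd (nat_lit 78) (PT.lf (nat_lit 23560) (nat_lit 6) (nat_lit 310) (nat_lit 4) (nat_lit 142) (nat_lit 161) (nat_lit 147)) (PT.lf (nat_lit 23484) (nat_lit 6) (nat_lit 309) (nat_lit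 4) (nat_lit 143) (nat_lit 161) (nat_lit 146))) (PT.nd (nat_lit 78) (PT.lf (nat_lit 23408) (nat_lit 6) (nat_lit 308) (nat_lit 4) (nat_lit 144) (nat_lit 161) (nat_lit 145)) (PT.lf (nat_lit 23408) (nat_lit 6) (nat_lit 308) (nat_lit 2) (nat_lit 145) (nat_lit 161) (nat_lit 144))))) (PT.nd (nat_lit 312) (PT.nd (nat_lit 156) (PT.nd (nat_lit 78) (PT.lf (nat_lit 23484) (nat_lit 6) (nat_lit 309) (nat_lit 2) (nat_lit 146) (nat_lit 161) (nat_lit 143)) (PT.lf (nat_lit 23560) (nat_lit 6) (nat_lit 310) (nat_lit 2) (nat_lit 147) (nat_lit 161) (nat_lit 142))) (PT.nd (nat_lit 78) (PT.lf (nat_lit 23636) (nat_lit 6) (nat_lit 311) (nat_lit 2) (nat_lit 148) (nat_lit 161) (nat_lit 141)) (PT.lf (nat_lit 23712) (nat_lit 6) (nat_lit 312) (nat_lit 2) (nat_lit 149) (nat_lit 161) (nat_lit 140)))) (PT.nd (nat_lit 156) (PT.nd (nat_lit 78) (PT.lf (nat_lit 23788) (nat_lit 6) (nat_lit 313) (nat_lit 2) (nat_lit 150) (nat_lit 161) (nat_lit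 139)) (PT.lf (nat_lit 22952) (nat_lit 6) (nat_lit 302) (nat_lit 2) (nat_lit 151) (nat_lit 161) (nat_lit 138))) (PT.nd (nat_lit 78) (PT.lf (nat_lit 22040) (nat_lit 6) (nat_lit 290) (nat_lit 2) (nat_lit 152) (nat_lit 161) (nat_lit 137)) (PT.nd (nat_lit 78) (PT.lf (nat_lit 21052) (nat_lit 6) (nat_lit 277) (nat_lit 2) (nat_lit 153) (nat_lit 161) (nat_lit 136)) (PT.lf (nat_lit 19988) (nat_lit 6) (nat_lit 263) (nat_lit 2) (nat_lit 154) (nat_lit 161) (nat_lit 135))))))))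
noncomputable def pc40 : PT := (PT.nd (nat_lit 43992) (PT.nd (nat_lit 624) (PT.nd (nat_lit 312) (PT.nd (nat_lit 156) (PT.nd (nat_lit 78) (PT.lf (nat_lit 18848) (nat_lit 6) (nat_lit 248) (nat_lit 2) (nat_lit 155) (nat_lit 161) (nat_lit 134)) (PT.lf (nat_lit 17632) (nat_lit 6) (nat_lit 232) (nat_lit 2) (nat_lit 156) (nat_lit 161) (nat_lit 133))) (PT.nd (nat_lit 78) (PT.lf (nat_lit 17024) (nat_lit 6) (nat_lit 224) (nat_lit 2) (nat_lit 157) (nat_lit 161) (nat_lit 132)) (PT.lf (nat_lit 16416) (nat_lit 6) (nat_lit 216) (nat_lit 2) (nat_lit 158) (nat_lit 161) (nat_lit 131)))) (PT.nd (nat_lit 156) (PT.nd (nat_lit 78) (PT.lf (nat_lit 15808) (nat_lit 6) (nat_lit 208) (nat_lit 2) (nat_lit 159) (nat_lit 161) (nat_lit 130)) (PT.lf (nat_lit 15276) (nat_lit 6) (nat_lit 201) (nat_lit 2) (nat_lit 160) (nat_lit 161) (nat_lit 129))) (PT.nd (nat_lit 78) (PT.lf (nat_lit 14744) (nat_lit 3) (nat_lit 194) (nat_lit 0) (nat_lit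 161) (nat_lit 161) (nat_lit 128)) (PT.lf (nat_lit 14212) (nat_lit 6) (nat_lit 187) (nat_lit 0) (nat_lit 162) (nat_lit 161) (nat_lit 127))))) (PT.nd (nat_lit 312) (PT.nd (nat_lit 156) (PT.nd (nat_lit 78) (PT.lf (nat_lit 13604) (nat_lit 6) (nat_lit 179) (nat_lit 0) (nat_lit 163) (nat_lit 161) (nat_lit 126)) (PT.lf (nat_lit 13072) (nat_lit 6) (nat_lit 172) (nat_lit 0) (nat_lit 164) (nat_lit 161) (nat_lit 125))) (PT.nd (nat_lit 78) (PT.lf (nat_lit 12540) (nat_lit 6) (nat_lit 165) (nat_lit 0) (nat_lit 165) (nat_lit 161) (nat_lit 124)) (PT.lf (nat_lit 12084) (nat_lit 6) (nat_lit 159) (nat_lit 0) (nat_lit 166) (nat_lit 161) (nat_lit 123)))) (PT.nd (nat_lit 156) (PT.nd (nat_lit 78) (PT.lf (nat_lit 11552) (nat_lit 6) (nat_lit 152) (nat_lit 0) (nat_lit 167) (nat_lit 161) (nat_lit 122)) (PT.lf (nat_lit 11096) (nat_lit 6) (nat_lit 146) (nat_lit 0) (nat_lit 168) (nat_lit 161) (nat_lit 121))) (PT.nd (nat_lit 78) (PT.lf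 (nat_lit 10640) (nat_lit 6) (nat_lit 140) (nat_lit 0) (nat_lit 169) (nat_lit 161) (nat_lit 120)) (PT.lf (nat_lit 10260) (nat_lit 6) (nat_lit 135) (nat_lit 0) (nat_lit 170) (nat_lit 161) (nat_lit 119)))))) (PT.nd (nat_lit 624) (PT.nd (nat_lit 312) (PT.nd (nat_lit 156) (PT.nd (nat_lit 78) (PT.lf (nat_lit 9880) (nat_lit 6) (nat_lit 130) (nat_lit 5) (nat_lit 118) (nat_lit 162) (nat_lit 170)) (PT.lf (nat_lit 10336) (nat_lit 6) (nat_lit 136) (nat_lit 5) (nat_lit 119) (nat_lit 162) (nat_lit 169))) (PT.nd (nat_lit 78) (PT.lf (nat_lit 10716) (nat_lit 6) (nat_lit 141) (nat_lit 5) (nat_lit 120) (nat_lit 162) (nat_lit 168)) (PT.lf (nat_lit 11172) (nat_lit 6) (nat_lit 147) (nat_lit 5) (nat_lit 121) (nat_lit 162) (nat_lit 167)))) (PT.nd (nat_lit 156) (PT.nd (nat_lit 78) (PT.lf (nat_lit 11628) (nat_lit 6) (nat_lit 153) (nat_lit 5) (nat_lit 122) (nat_lit 162) (nat_lit 166)) (PT.lf (nat_lit 12160) (nat_lit 6) (nat_lit 160)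 (nat_lit 5) (nat_lit 123) (nat_lit 162) (nat_lit 165))) (PT.nd (nat_lit 78) (PT.lf (nat_lit 12616) (nat_lit 6) (nat_lit 166) (nat_lit 5) (nat_lit 124) (nat_lit 162) (nat_lit 164)) (PT.lf (nat_lit 13148) (nat_lit 6) (nat_lit 173) (nat_lit 5) (nat_lit 125) (nat_lit 162) (nat_lit 163))))) (PT.nd (nat_lit 312) (PT.nd (nat_lit 156) (PT.nd (nat_lit 78) (PT.lf (nat_lit 13680) (nat_lit 3) (nat_lit 180) (nat_lit 4) (nat_lit 126) (nat_lit 162) (nat_lit 162)) (PT.lf (nat_lit 14212) (nat_lit 6) (nat_lit 187) (nat_lit 4) (nat_lit 127) (nat_lit 162) (nat_lit 161))) (PT.nd (nat_lit 78) (PT.lf (nat_lit 14668) (nat_lit 6) (nat_lit 193) (nat_lit 4) (nat_lit 128) (nat_lit 162) (nat_lit 160)) (PT.lf (nat_lit 15200) (nat_lit 6) (nat_lit 200) (nat_lit 4) (nat_lit 129) (nat_lit 162) (nat_lit 159)))) (PT.nd (nat_lit 156) (PT.nd (nat_lit 78) (PT.lf (nat_lit 15732) (nat_lit 6) (nat_lit 207) (nat_lit 4) (nat_lit 130) (nat_lit 162)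 (nat_lit 158)) (PT.lf (nat_lit 16340) (nat_lit 6) (nat_lit 215) (nat_lit 4) (nat_lit 131) (nat_lit 162) (nat_lit 157))) (PT.nd (nat_lit 78) (PT.lf (nat_lit 16948) (nat_lit 6) (nat_lit 223) (nat_lit 4) (nat_lit 132) (nat_lit 162) (nat_lit 156)) (PT.lf (nat_lit 17556) (nat_lit 6) (nat_lit 231) (nat_lit 4) (nat_lit 133) (nat_lit 162) (nat_lit 155)))))))
noncomputable def pc41 : PT := (PT.nd (nat_lit 1248) (PT.nd (nat_lit 624) (PT.nd (nat_lit 312) (PT.nd (nat_lit 156) (PT.nd (nat_lit 78) (PT.lf (nat_lit 18772) (nat_lit 6) (nat_lit 247) (nat_lit 4) (nat_lit 134) (nat_lit 162) (nat_lit 154)) (PT.lf (nat_lit 19912) (nat_lit 6) (nat_lit 262) (nat_lit 4) (nat_lit 135) (nat_lit 162) (nat_lit 153))) (PT.nd (nat_lit 78) (PT.lf (nat_lit 20976) (nat_lit 6) (nat_lit 276) (nat_lit 4) (nat_lit 136) (nat_lit 162) (nat_lit 152)) (PT.lf (nat_lit 21964) (nat_lit 6) (nat_lit 289) (nat_lit 4) (nat_lit 137) (nat_lit 162) (nat_lit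 151)))) (PT.nd (nat_lit 156) (PT.nd (nat_lit 78) (PT.lf (nat_lit 22876) (nat_lit 6) (nat_lit 301) (nat_lit 4) (nat_lit 138) (nat_lit 162) (nat_lit 150)) (PT.lf (nat_lit 22800) (nat_lit 6) (nat_lit 300) (nat_lit 4) (nat_lit 139) (nat_lit 162) (nat_lit 149))) (PT.nd (nat_lit 78) (PT.lf (nat_lit 22724) (nat_lit 6) (nat_lit 299) (nat_lit 4) (nat_lit 140) (nat_lit 162) (nat_lit 148)) (PT.lf (nat_lit 22648) (nat_lit 6) (nat_lit 298) (nat_lit 4) (nat_lit 141) (nat_lit 162) (nat_lit 147))))) (PT.nd (nat_lit 312) (PT.nd (nat_lit 156) (PT.nd (nat_lit 78) (PT.lf (nat_lit 22572) (nat_lit 6) (nat_lit 297) (nat_lit 4) (nat_lit 142) (nat_lit 162) (nat_lit 146)) (PT.lf (nat_lit 22496) (nat_lit 6) (nat_lit 296) (nat_lit 4) (nat_lit 143) (nat_lit 162) (nat_lit 145))) (PT.nd (nat_lit 78) (PT.lf (nat_lit 22420) (nat_lit 3) (nat_lit 295) (nat_lit 2) (nat_lit 144) (nat_lit 162) (nat_lit 144)) (PT.lf (nat_lit 22496) (nat_lit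 6) (nat_lit 296) (nat_lit 2) (nat_lit 145) (nat_lit 162) (nat_lit 143)))) (PT.nd (nat_lit 156) (PT.nd (nat_lit 78) (PT.lf (nat_lit 22572) (nat_lit 6) (nat_lit 297) (nat_lit 2) (nat_lit 146) (nat_lit 162) (nat_lit 142)) (PT.lf (nat_lit 22648) (nat_lit 6) (nat_lit 298) (nat_lit 2) (nat_lit 147) (nat_lit 162) (nat_lit 141))) (PT.nd (nat_lit 78) (PT.lf (nat_lit 22724) (nat_lit 6) (nat_lit 299) (nat_lit 2) (nat_lit 148) (nat_lit 162) (nat_lit 140)) (PT.lf (nat_lit 22800) (nat_lit 6) (nat_lit 300) (nat_lit 2) (nat_lit 149) (nat_lit 162) (nat_lit 139)))))) (PT.nd (nat_lit 624) (PT.nd (nat_lit 312) (PT.nd (nat_lit 156) (PT.nd (nat_lit 78) (PT.lf (nat_lit 22876) (nat_lit 6) (nat_lit 301) (nat_lit 2) (nat_lit 150) (nat_lit 162) (nat_lit 138)) (PT.lf (nat_lit 21964) (nat_lit 6) (nat_lit 289) (nat_lit 2) (nat_lit 151) (nat_lit 162) (nat_lit 137))) (PT.nd (nat_lit 78) (PT.lf (nat_lit 20976) (nat_lit 6) (nat_lit 276)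 (nat_lit 2) (nat_lit 152) (nat_lit 162) (nat_lit 136)) (PT.lf (nat_lit 19912) (nat_lit 6) (nat_lit 262) (nat_lit 2) (nat_lit 153) (nat_lit 162) (nat_lit 135)))) (PT.nd (nat_lit 156) (PT.nd (nat_lit 78) (PT.lf (nat_lit 18772) (nat_lit 6) (nat_lit 247) (nat_lit 2) (nat_lit 154) (nat_lit 162) (nat_lit 134)) (PT.lf (nat_lit 17556) (nat_lit 6) (nat_lit 231) (nat_lit 2) (nat_lit 155) (nat_lit 162) (nat_lit 133))) (PT.nd (nat_lit 78) (PT.lf (nat_lit 16948) (nat_lit 6) (nat_lit 223) (nat_lit 2) (nat_lit 156) (nat_lit 162) (nat_lit 132)) (PT.lf (nat_lit 16340) (nat_lit 6) (nat_lit 215) (nat_lit 2) (nat_lit 157) (nat_lit 162) (nat_lit 131))))) (PT.nd (nat_lit 312) (PT.nd (nat_lit 156) (PT.nd (nat_lit 78) (PT.lf (nat_lit 15732) (nat_lit 6) (nat_lit 207) (nat_lit 2) (nat_lit 158) (nat_lit 162) (nat_lit 130)) (PT.lf (nat_lit 15200) (nat_lit 6) (nat_lit 200) (nat_lit 2) (nat_lit 159) (nat_lit 162) (nat_lit 129))) (PT.nd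 (nat_lit 78) (PT.lf (nat_lit 14668) (nat_lit 6) (nat_lit 193) (nat_lit 2) (nat_lit 160) (nat_lit 162) (nat_lit 128)) (PT.lf (nat_lit 14212) (nat_lit 6) (nat_lit 187) (nat_lit 2) (nat_lit 161) (nat_lit 162) (nat_lit 127)))) (PT.nd (nat_lit 156) (PT.nd (nat_lit 78) (PT.lf (nat_lit 13680) (nat_lit 3) (nat_lit 180) (nat_lit 0) (nat_lit 162) (nat_lit 162) (nat_lit 126)) (PT.lf (nat_lit 13148) (nat_lit 6) (nat_lit 173) (nat_lit 0) (nat_lit 163) (nat_lit 162) (nat_lit 125))) (PT.nd (nat_lit 78) (PT.lf (nat_lit 12616) (nat_lit 6) (nat_lit 166) (nat_lit 0) (nat_lit 164) (nat_lit 162) (nat_lit 124)) (PT.nd (nat_lit 78) (PT.lf (nat_lit 12160) (nat_lit 6) (nat_lit 160) (nat_lit 0) (nat_lit 165) (nat_lit 162) (nat_lit 123)) (PT.lf (nat_lit 11628) (nat_lit 6) (nat_lit 153) (nat_lit 0) (nat_lit 166) (nat_lit 162) (nat_lit 122))))))))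
noncomputable def pc42 : PT := (PT.nd (nat_lit 43836) (PT.nd (nat_lit 43212) (PT.nd (nat_lit 42900) (PT.nd (nat_lit 156) (PT.nd (nat_lit 78) (PT.lf (nat_lit 11172) (nat_lit 6) (nat_lit 147) (nat_lit 0) (nat_lit 167) (nat_lit 162) (nat_lit 121)) (PT.lf (nat_lit 10716) (nat_lit 6) (nat_lit 141) (nat_lit 0) (nat_lit 168) (nat_lit 162) (nat_lit 120))) (PT.nd (nat_lit 78) (PT.lf (nat_lit 10336) (nat_lit 6) (nat_lit 136) (nat_lit 0) (nat_lit 169) (nat_lit 162) (nat_lit 119)) (PT.lf (nat_lit 9880) (nat_lit 6) (nat_lit 130) (nat_lit 0) (nat_lit 170) (nat_lit 162) (nat_lit 118)))) (PT.nd (nat_lit 156) (PT.nd (nat_lit 78) (PT.lf (nat_lit 9196) (nat_lit 6) (nat_lit 121) (nat_lit 5) (nat_lit 116) (nat_lit 163) (nat_lit 171)) (PT.lf (nat_lit 9576) (nat_lit 6) (nat_lit 126) (nat_lit 5) (nat_lit 117) (nat_lit 163) (nat_lit 170))) (PT.nd (nat_lit 78) (PT.lf (nat_lit 9956) (nat_lit 6) (nat_lit 131) (nat_lit 5) (nat_lit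 118) (nat_lit 163) (nat_lit 169)) (PT.lf (nat_lit 10412) (nat_lit 6) (nat_lit 137) (nat_lit 5) (nat_lit 119) (nat_lit 163) (nat_lit 168))))) (PT.nd (nat_lit 312) (PT.nd (nat_lit 156) (PT.nd (nat_lit 78) (PT.lf (nat_lit 10792) (nat_lit 6) (nat_lit 142) (nat_lit 5) (nat_lit 120) (nat_lit 163) (nat_lit 167)) (PT.lf (nat_lit 11248) (nat_lit 6) (nat_lit 148) (nat_lit 5) (nat_lit 121) (nat_lit 163) (nat_lit 166))) (PT.nd (nat_lit 78) (PT.lf (nat_lit 11704) (nat_lit 6) (nat_lit 154) (nat_lit 5) (nat_lit 122) (nat_lit 163) (nat_lit 165)) (PT.lf (nat_lit 12236) (nat_lit 6) (nat_lit 161) (nat_lit 5) (nat_lit 123) (nat_lit 163) (nat_lit 164)))) (PT.nd (nat_lit 156) (PT.nd (nat_lit 78) (PT.lf (nat_lit 12692) (nat_lit 3) (nat_lit 167) (nat_lit 4) (nat_lit 124) (nat_lit 163) (nat_lit 163)) (PT.lf (nat_lit 13148) (nat_lit 6) (nat_lit 173) (nat_lit 4) (nat_lit 125) (nat_lit 163) (nat_lit 162))) (PT.nd (nat_lit 78) (PT.lf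 (nat_lit 13604) (nat_lit 6) (nat_lit 179) (nat_lit 4) (nat_lit 126) (nat_lit 163) (nat_lit 161)) (PT.lf (nat_lit 14136) (nat_lit 6) (nat_lit 186) (nat_lit 4) (nat_lit 127) (nat_lit 163) (nat_lit 160)))))) (PT.nd (nat_lit 624) (PT.nd (nat_lit 312) (PT.nd (nat_lit 156) (PT.nd (nat_lit 78) (PT.lf (nat_lit 14592) (nat_lit 6) (nat_lit 192) (nat_lit 4) (nat_lit 128) (nat_lit 163) (nat_lit 159)) (PT.lf (nat_lit 15124) (nat_lit 6) (nat_lit 199) (nat_lit 4) (nat_lit 129) (nat_lit 163) (nat_lit 158))) (PT.nd (nat_lit 78) (PT.lf (nat_lit 15656) (nat_lit 6) (nat_lit 206) (nat_lit 4) (nat_lit 130) (nat_lit 163) (nat_lit 157)) (PT.lf (nat_lit 16264) (nat_lit 6) (nat_lit 214) (nat_lit 4) (nat_lit 131) (nat_lit 163) (nat_lit 156)))) (PT.nd (nat_lit 156) (PT.nd (nat_lit 78) (PT.lf (nat_lit 16872) (nat_lit 6) (nat_lit 222) (nat_lit 4) (nat_lit 132) (nat_lit 163) (nat_lit 155)) (PT.lf (nat_lit 17480) (nat_lit 6) (nat_lit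 230) (nat_lit 4) (nat_lit 133) (nat_lit 163) (nat_lit 154))) (PT.nd (nat_lit 78) (PT.lf (nat_lit 18696) (nat_lit 6) (nat_lit 246) (nat_lit 4) (nat_lit 134) (nat_lit 163) (nat_lit 153)) (PT.lf (nat_lit 19836) (nat_lit 6) (nat_lit 261) (nat_lit 4) (nat_lit 135) (nat_lit 163) (nat_lit 152))))) (PT.nd (nat_lit 312) (PT.nd (nat_lit 156) (PT.nd (nat_lit 78) (PT.lf (nat_lit 20900) (nat_lit 6) (nat_lit 275) (nat_lit 4) (nat_lit 136) (nat_lit 163) (nat_lit 151)) (PT.lf (nat_lit 21888) (nat_lit 6) (nat_lit 288) (nat_lit 4) (nat_lit 137) (nat_lit 163) (nat_lit 150))) (PT.nd (nat_lit 78) (PT.lf (nat_lit 21812) (nat_lit 6) (nat_lit 287) (nat_lit 4) (nat_lit 138) (nat_lit 163) (nat_lit 149)) (PT.lf (nat_lit 21736) (nat_lit 6) (nat_lit 286) (nat_lit 4) (nat_lit 139) (nat_lit 163) (nat_lit 148)))) (PT.nd (nat_lit 156) (PT.nd (nat_lit 78) (PT.lf (nat_lit 21660) (nat_lit 6) (nat_lit 285) (nat_lit 4) (nat_lit 140) (nat_lit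 163) (nat_lit 147)) (PT.lf (nat_lit 21584) (nat_lit 6) (nat_lit 284) (nat_lit 4) (nat_lit 141) (nat_lit 163) (nat_lit 146))) (PT.nd (nat_lit 78) (PT.lf (nat_lit 21508) (nat_lit 6) (nat_lit 283) (nat_lit 4) (nat_lit 142) (nat_lit 163) (nat_lit 145)) (PT.nd (nat_lit 78) (PT.lf (nat_lit 21432) (nat_lit 6) (nat_lit 282) (nat_lit 4) (nat_lit 143) (nat_lit 163) (nat_lit 144)) (PT.lf (nat_lit 21432) (nat_lit 6) (nat_lit 282) (nat_lit 2) (nat_lit 144) (nat_lit 163) (nat_lit 143))))))))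
noncomputable def pc43 : PT := (PT.nd (nat_lit 1248) (PT.nd (nat_lit 624) (PT.nd (nat_lit 312) (PT.nd (nat_lit 156) (PT.nd (nat_lit 78) (PT.lf (nat_lit 21508) (nat_lit 6) (nat_lit 283) (nat_lit 2) (nat_lit 145) (nat_lit 163) (nat_lit 142)) (PT.lf (nat_lit 21584) (nat_lit 6) (nat_lit 284) (nat_lit 2) (nat_lit 146) (nat_lit 163) (nat_lit 141))) (PT.nd (nat_lit 78) (PT.lf (nat_lit 21660) (nat_lit 6) (nat_lit 285) (nat_lit 2) (nat_lit 147) (nat_lit 163) (nat_lit 140)) (PT.lf (nat_lit 21736) (nat_lit 6) (nat_lit 286) (nat_lit 2) (nat_lit 148) (nat_lit 163) (nat_lit 139)))) (PT.nd (nat_lit 156) (PT.nd (nat_lit 78) (PT.lf (nat_lit 21812) (nat_lit 6) (nat_lit 287) (nat_lit 2) (nat_lit 149) (nat_lit 163) (nat_lit 138)) (PT.lf (nat_lit 21888) (nat_lit 6) (nat_lit 288) (nat_lit 2) (nat_lit 150) (nat_lit 163) (nat_lit 137))) (PT.nd (nat_lit 78) (PT.lf (nat_lit 20900) (nat_lit 6) (nat_lit 275) (nat_lit 2) (nat_lit 151)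 (nat_lit 163) (nat_lit 136)) (PT.lf (nat_lit 19836) (nat_lit 6) (nat_lit 261) (nat_lit 2) (nat_lit 152) (nat_lit 163) (nat_lit 135))))) (PT.nd (nat_lit 312) (PT.nd (nat_lit 156) (PT.nd (nat_lit 78) (PT.lf (nat_lit 18696) (nat_lit 6) (nat_lit 246) (nat_lit 2) (nat_lit 153) (nat_lit 163) (nat_lit 134)) (PT.lf (nat_lit 17480) (nat_lit 6) (nat_lit 230) (nat_lit 2) (nat_lit 154) (nat_lit 163) (nat_lit 133))) (PT.nd (nat_lit 78) (PT.lf (nat_lit 16872) (nat_lit 6) (nat_lit 222) (nat_lit 2) (nat_lit 155) (nat_lit 163) (nat_lit 132)) (PT.lf (nat_lit 16264) (nat_lit 6) (nat_lit 214) (nat_lit 2) (nat_lit 156) (nat_lit 163) (nat_lit 131)))) (PT.nd (nat_lit 156) (PT.nd (nat_lit 78) (PT.lf (nat_lit 15656) (nat_lit 6) (nat_lit 206) (nat_lit 2) (nat_lit 157) (nat_lit 163) (nat_lit 130)) (PT.lf (nat_lit 15124) (nat_lit 6) (nat_lit 199) (nat_lit 2) (nat_lit 158) (nat_lit 163) (nat_lit 129))) (PT.nd (nat_lit 78) (PT.lf (nat_lit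 14592) (nat_lit 6) (nat_lit 192) (nat_lit 2) (nat_lit 159) (nat_lit 163) (nat_lit 128)) (PT.lf (nat_lit 14136) (nat_lit 6) (nat_lit 186) (nat_lit 2) (nat_lit 160) (nat_lit 163) (nat_lit 127)))))) (PT.nd (nat_lit 624) (PT.nd (nat_lit 312) (PT.nd (nat_lit 156) (PT.nd (nat_lit 78) (PT.lf (nat_lit 13604) (nat_lit 6) (nat_lit 179) (nat_lit 2) (nat_lit 161) (nat_lit 163) (nat_lit 126)) (PT.lf (nat_lit 13148) (nat_lit 6) (nat_lit 173) (nat_lit 2) (nat_lit 162) (nat_lit 163) (nat_lit 125))) (PT.nd (nat_lit 78) (PT.lf (nat_lit 12692) (nat_lit 3) (nat_lit 167) (nat_lit 0) (nat_lit 163) (nat_lit 163) (nat_lit 124)) (PT.lf (nat_lit 12236) (nat_lit 6) (nat_lit 161) (nat_lit 0) (nat_lit 164) (nat_lit 163) (nat_lit 123)))) (PT.nd (nat_lit 156) (PT.nd (nat_lit 78) (PT.lf (nat_lit 11704) (nat_lit 6) (nat_lit 154) (nat_lit 0) (nat_lit 165) (nat_lit 163) (nat_lit 122)) (PT.lf (nat_lit 11248) (nat_lit 6) (nat_lit 148) (nat_lit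 0) (nat_lit 166) (nat_lit 163) (nat_lit 121))) (PT.nd (nat_lit 78) (PT.lf (nat_lit 10792) (nat_lit 6) (nat_lit 142) (nat_lit 0) (nat_lit 167) (nat_lit 163) (nat_lit 120)) (PT.lf (nat_lit 10412) (nat_lit 6) (nat_lit 137) (nat_lit 0) (nat_lit 168) (nat_lit 163) (nat_lit 119))))) (PT.nd (nat_lit 42744) (PT.nd (nat_lit 156) (PT.nd (nat_lit 78) (PT.lf (nat_lit 9956) (nat_lit 6) (nat_lit 131) (nat_lit 0) (nat_lit 169) (nat_lit 163) (nat_lit 118)) (PT.lf (nat_lit 9576) (nat_lit 6) (nat_lit 126) (nat_lit 0) (nat_lit 170) (nat_lit 163) (nat_lit 117))) (PT.nd (nat_lit 42510) (PT.lf (nat_lit 9196) (nat_lit 6) (nat_lit 121) (nat_lit 0) (nat_lit 171) (nat_lit 163) (nat_lit 116)) (PT.lf (nat_lit 8892) (nat_lit 6) (nat_lit 117) (nat_lit 5) (nat_lit 115) (nat_lit 164) (nat_lit 171)))) (PT.nd (nat_lit 156) (PT.nd (nat_lit 78) (PT.lf (nat_lit 9272) (nat_lit 6) (nat_lit 122) (nat_lit 5) (nat_lit 116) (nat_lit 164) (nat_lit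 170)) (PT.lf (nat_lit 9652) (nat_lit 6) (nat_lit 127) (nat_lit 5) (nat_lit 117) (nat_lit 164) (nat_lit 169))) (PT.nd (nat_lit 78) (PT.lf (nat_lit 10032) (nat_lit 6) (nat_lit 132) (nat_lit 5) (nat_lit 118) (nat_lit 164) (nat_lit 168)) (PT.nd (nat_lit 78) (PT.lf (nat_lit 10488) (nat_lit 6) (nat_lit 138) (nat_lit 5) (nat_lit 119) (nat_lit 164) (nat_lit 167)) (PT.lf (nat_lit 10868) (nat_lit 6) (nat_lit 143) (nat_lit 5) (nat_lit 120) (nat_lit 164) (nat_lit 166))))))))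
noncomputable def pc44 : PT := (PT.nd (nat_lit 1248) (PT.nd (nat_lit 624) (PT.nd (nat_lit 312) (PT.nd (nat_lit 156) (PT.nd (nat_lit 78) (PT.lf (nat_lit 11324) (nat_lit 6) (nat_lit 149) (nat_lit 5) (nat_lit 121) (nat_lit 164) (nat_lit 165)) (PT.lf (nat_lit 11780) (nat_lit 3) (nat_lit 155) (nat_lit 4) (nat_lit 122) (nat_lit 164) (nat_lit 164))) (PT.nd (nat_lit 78) (PT.lf (nat_lit 12236) (nat_lit 6) (nat_lit 161) (nat_lit 4) (nat_lit 123) (nat_lit 164) (nat_lit 163)) (PT.lf (nat_lit 12616) (nat_lit 6) (nat_lit 166) (nat_lit 4) (nat_lit 124) (nat_lit 164) (nat_lit 162)))) (PT.nd (nat_lit 156) (PT.nd (nat_lit 78) (PT.lf (nat_lit 13072) (nat_lit 6) (nat_lit 172) (nat_lit 4) (nat_lit 125) (nat_lit 164) (nat_lit 161)) (PT.lf (nat_lit 13528) (nat_lit 6) (nat_lit 178) (nat_lit 4) (nat_lit 126) (nat_lit 164) (nat_lit 160))) (PT.nd (nat_lit 78) (PT.lf (nat_lit 14060) (nat_lit 6) (nat_lit 185) (nat_lit 4) (nat_lit 127)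 (nat_lit 164) (nat_lit 159)) (PT.lf (nat_lit 14516) (nat_lit 6) (nat_lit 191) (nat_lit 4) (nat_lit 128) (nat_lit 164) (nat_lit 158))))) (PT.nd (nat_lit 312) (PT.nd (nat_lit 156) (PT.nd (nat_lit 78) (PT.lf (nat_lit 15048) (nat_lit 6) (nat_lit 198) (nat_lit 4) (nat_lit 129) (nat_lit 164) (nat_lit 157)) (PT.lf (nat_lit 15580) (nat_lit 6) (nat_lit 205) (nat_lit 4) (nat_lit 130) (nat_lit 164) (nat_lit 156))) (PT.nd (nat_lit 78) (PT.lf (nat_lit 16188) (nat_lit 6) (nat_lit 213) (nat_lit 4) (nat_lit 131) (nat_lit 164) (nat_lit 155)) (PT.lf (nat_lit 16796) (nat_lit 6) (nat_lit 221) (nat_lit 4) (nat_lit 132) (nat_lit 164) (nat_lit 154)))) (PT.nd (nat_lit 156) (PT.nd (nat_lit 78) (PT.lf (nat_lit 17404) (nat_lit 6) (nat_lit 229) (nat_lit 4) (nat_lit 133) (nat_lit 164) (nat_lit 153)) (PT.lf (nat_lit 18620) (nat_lit 6) (nat_lit 245) (nat_lit 4) (nat_lit 134) (nat_lit 164) (nat_lit 152))) (PT.nd (nat_lit 78) (PT.lf (nat_lit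 19760) (nat_lit 6) (nat_lit 260) (nat_lit 4) (nat_lit 135) (nat_lit 164) (nat_lit 151)) (PT.lf (nat_lit 20824) (nat_lit 6) (nat_lit 274) (nat_lit 4) (nat_lit 136) (nat_lit 164) (nat_lit 150)))))) (PT.nd (nat_lit 624) (PT.nd (nat_lit 312) (PT.nd (nat_lit 156) (PT.nd (nat_lit 78) (PT.lf (nat_lit 20748) (nat_lit 6) (nat_lit 273) (nat_lit 4) (nat_lit 137) (nat_lit 164) (nat_lit 149)) (PT.lf (nat_lit 20672) (nat_lit 6) (nat_lit 272) (nat_lit 4) (nat_lit 138) (nat_lit 164) (nat_lit 148))) (PT.nd (nat_lit 78) (PT.lf (nat_lit 20596) (nat_lit 6) (nat_lit 271) (nat_lit 4) (nat_lit 139) (nat_lit 164) (nat_lit 147)) (PT.lf (nat_lit 20520) (nat_lit 6) (nat_lit 270) (nat_lit 4) (nat_lit 140) (nat_lit 164) (nat_lit 146)))) (PT.nd (nat_lit 156) (PT.nd (nat_lit 78) (PT.lf (nat_lit 20444) (nat_lit 6) (nat_lit 269) (nat_lit 4) (nat_lit 141) (nat_lit 164) (nat_lit 145)) (PT.lf (nat_lit 20368) (nat_lit 6) (nat_lit 268) (nat_lit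 4) (nat_lit 142) (nat_lit 164) (nat_lit 144))) (PT.nd (nat_lit 78) (PT.lf (nat_lit 20292) (nat_lit 3) (nat_lit 267) (nat_lit 2) (nat_lit 143) (nat_lit 164) (nat_lit 143)) (PT.lf (nat_lit 20368) (nat_lit 6) (nat_lit 268) (nat_lit 2) (nat_lit 144) (nat_lit 164) (nat_lit 142))))) (PT.nd (nat_lit 312) (PT.nd (nat_lit 156) (PT.nd (nat_lit 78) (PT.lf (nat_lit 20444) (nat_lit 6) (nat_lit 269) (nat_lit 2) (nat_lit 145) (nat_lit 164) (nat_lit 141)) (PT.lf (nat_lit 20520) (nat_lit 6) (nat_lit 270) (nat_lit 2) (nat_lit 146) (nat_lit 164) (nat_lit 140))) (PT.nd (nat_lit 78) (PT.lf (nat_lit 20596) (nat_lit 6) (nat_lit 271) (nat_lit 2) (nat_lit 147) (nat_lit 164) (nat_lit 139)) (PT.lf (nat_lit 20672) (nat_lit 6) (nat_lit 272) (nat_lit 2) (nat_lit 148) (nat_lit 164) (nat_lit 138)))) (PT.nd (nat_lit 156) (PT.nd (nat_lit 78) (PT.lf (nat_lit 20748) (nat_lit 6) (nat_lit 273) (nat_lit 2) (nat_lit 149) (nat_lit 164) (nat_lit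 137)) (PT.lf (nat_lit 20824) (nat_lit 6) (nat_lit 274) (nat_lit 2) (nat_lit 150) (nat_lit 164) (nat_lit 136))) (PT.nd (nat_lit 78) (PT.lf (nat_lit 19760) (nat_lit 6) (nat_lit 260) (nat_lit 2) (nat_lit 151) (nat_lit 164) (nat_lit 135)) (PT.lf (nat_lit 18620) (nat_lit 6) (nat_lit 245) (nat_lit 2) (nat_lit 152) (nat_lit 164) (nat_lit 134)))))))
noncomputable def pc45 : PT := (PT.nd (nat_lit 1248) (PT.nd (nat_lit 624) (PT.nd (nat_lit 312) (PT.nd (nat_lit 156) (PT.nd (nat_lit 78) (PT.lf (nat_lit 17404) (nat_lit 6) (nat_lit 229) (nat_lit 2) (nat_lit 153) (nat_lit 164) (nat_lit 133)) (PT.lf (nat_lit 16796) (nat_lit 6) (nat_lit 221) (nat_lit 2) (nat_lit 154) (nat_lit 164) (nat_lit 132))) (PT.nd (nat_lit 78) (PT.lf (nat_lit 16188) (nat_lit 6) (nat_lit 213) (nat_lit 2) (nat_lit 155) (nat_lit 164) (nat_lit 131)) (PT.lf (nat_lit 15580) (nat_lit 6) (nat_lit 205) (nat_lit 2) (nat_lit 156) (nat_lit 164) (nat_lit 130))))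 (PT.nd (nat_lit 156) (PT.nd (nat_lit 78) (PT.lf (nat_lit 15048) (nat_lit 6) (nat_lit 198) (nat_lit 2) (nat_lit 157) (nat_lit 164) (nat_lit 129)) (PT.lf (nat_lit 14516) (nat_lit 6) (nat_lit 191) (nat_lit 2) (nat_lit 158) (nat_lit 164) (nat_lit 128))) (PT.nd (nat_lit 78) (PT.lf (nat_lit 14060) (nat_lit 6) (nat_lit 185) (nat_lit 2) (nat_lit 159) (nat_lit 164) (nat_lit 127)) (PT.lf (nat_lit 13528) (nat_lit 6) (nat_lit 178) (nat_lit 2) (nat_lit 160) (nat_lit 164) (nat_lit 126))))) (PT.nd (nat_lit 312) (PT.nd (nat_lit 156) (PT.nd (nat_lit 78) (PT.lf (nat_lit 13072) (nat_lit 6) (nat_lit 172) (nat_lit 2) (nat_lit 161) (nat_lit 164) (nat_lit 125)) (PT.lf (nat_lit 12616) (nat_lit 6) (nat_lit 166) (nat_lit 2) (nat_lit 162) (nat_lit 164) (nat_lit 124))) (PT.nd (nat_lit 78) (PT.lf (nat_lit 12236) (nat_lit 6) (nat_lit 161) (nat_lit 2) (nat_lit 163) (nat_lit 164) (nat_lit 123)) (PT.lf (nat_lit 11780) (nat_lit 3) (nat_lit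 155) (nat_lit 0) (nat_lit 164) (nat_lit 164) (nat_lit 122)))) (PT.nd (nat_lit 156) (PT.nd (nat_lit 78) (PT.lf (nat_lit 11324) (nat_lit 6) (nat_lit 149) (nat_lit 0) (nat_lit 165) (nat_lit 164) (nat_lit 121)) (PT.lf (nat_lit 10868) (nat_lit 6) (nat_lit 143) (nat_lit 0) (nat_lit 166) (nat_lit 164) (nat_lit 120))) (PT.nd (nat_lit 78) (PT.lf (nat_lit 10488) (nat_lit 6) (nat_lit 138) (nat_lit 0) (nat_lit 167) (nat_lit 164) (nat_lit 119)) (PT.lf (nat_lit 10032) (nat_lit 6) (nat_lit 132) (nat_lit 0) (nat_lit 168) (nat_lit 164) (nat_lit 118)))))) (PT.nd (nat_lit 42900) (PT.nd (nat_lit 42588) (PT.nd (nat_lit 156) (PT.nd (nat_lit 78) (PT.lf (nat_lit 9652) (nat_lit 6) (nat_lit 127) (nat_lit 0) (nat_lit 169) (nat_lit 164) (nat_lit 117)) (PT.lf (nat_lit 9272) (nat_lit 6) (nat_lit 122) (nat_lit 0) (nat_lit 170) (nat_lit 164) (nat_lit 116))) (PT.nd (nat_lit 42354) (PT.lf (nat_lit 8892) (nat_lit 6) (nat_lit 117) (nat_lit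 0) (nat_lit 171) (nat_lit 164) (nat_lit 115)) (PT.lf (nat_lit 8208) (nat_lit 6) (nat_lit 108) (nat_lit 5) (nat_lit 113) (nat_lit 165) (nat_lit 172)))) (PT.nd (nat_lit 156) (PT.nd (nat_lit 78) (PT.lf (nat_lit 8588) (nat_lit 6) (nat_lit 113) (nat_lit 5) (nat_lit 114) (nat_lit 165) (nat_lit 171)) (PT.lf (nat_lit 8968) (nat_lit 6) (nat_lit 118) (nat_lit 5) (nat_lit 115) (nat_lit 165) (nat_lit 170))) (PT.nd (nat_lit 78) (PT.lf (nat_lit 9348) (nat_lit 6) (nat_lit 123) (nat_lit 5) (nat_lit 116) (nat_lit 165) (nat_lit 169)) (PT.lf (nat_lit 9728) (nat_lit 6) (nat_lit 128) (nat_lit 5) (nat_lit 117) (nat_lit 165) (nat_lit 168))))) (PT.nd (nat_lit 312) (PT.nd (nat_lit 156) (PT.nd (nat_lit 78) (PT.lf (nat_lit 10108) (nat_lit 6) (nat_lit 133) (nat_lit 5) (nat_lit 118) (nat_lit 165) (nat_lit 167)) (PT.lf (nat_lit 10564) (nat_lit 6) (nat_lit 139) (nat_lit 5) (nat_lit 119) (nat_lit 165) (nat_lit 166))) (PT.nd (nat_lit 78)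 (PT.lf (nat_lit 10944) (nat_lit 3) (nat_lit 144) (nat_lit 4) (nat_lit 120) (nat_lit 165) (nat_lit 165)) (PT.lf (nat_lit 11324) (nat_lit 6) (nat_lit 149) (nat_lit 4) (nat_lit 121) (nat_lit 165) (nat_lit 164)))) (PT.nd (nat_lit 156) (PT.nd (nat_lit 78) (PT.lf (nat_lit 11704) (nat_lit 6) (nat_lit 154) (nat_lit 4) (nat_lit 122) (nat_lit 165) (nat_lit 163)) (PT.lf (nat_lit 12160) (nat_lit 6) (nat_lit 160) (nat_lit 4) (nat_lit 123) (nat_lit 165) (nat_lit 162))) (PT.nd (nat_lit 78) (PT.lf (nat_lit 12540) (nat_lit 6) (nat_lit 165) (nat_lit 4) (nat_lit 124) (nat_lit 165) (nat_lit 161)) (PT.nd (nat_lit 78) (PT.lf (nat_lit 12996) (nat_lit 6) (nat_lit 171) (nat_lit 4) (nat_lit 125) (nat_lit 165) (nat_lit 160)) (PT.lf (nat_lit 13452) (nat_lit 6) (nat_lit 177) (nat_lit 4) (nat_lit 126) (nat_lit 165) (nat_lit 159))))))))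
noncomputable def pc46 : PT := (PT.nd (nat_lit 1248) (PT.nd (nat_lit 624) (PT.nd (nat_lit 312) (PT.nd (nat_lit 156) (PT.nd (nat_lit 78) (PT.lf (nat_lit 13984) (nat_lit 6) (nat_lit 184) (nat_lit 4) (nat_lit 127) (nat_lit 165) (nat_lit 158)) (PT.lf (nat_lit 14440) (nat_lit 6) (nat_lit 190) (nat_lit 4) (nat_lit 128) (nat_lit 165) (nat_lit 157))) (PT.nd (nat_lit 78) (PT.lf (nat_lit 14972) (nat_lit 6) (nat_lit 197) (nat_lit 4) (nat_lit 129) (nat_lit 165) (nat_lit 156)) (PT.lf (nat_lit 15504) (nat_lit 6) (nat_lit 204) (nat_lit 4) (nat_lit 130) (nat_lit 165) (nat_lit 155)))) (PT.nd (nat_lit 156) (PT.nd (nat_lit 78) (PT.lf (nat_lit 16112) (nat_lit 6) (nat_lit 212) (nat_lit 4) (nat_lit 131) (nat_lit 165) (nat_lit 154)) (PT.lf (nat_lit 16720) (nat_lit 6) (nat_lit 220) (nat_lit 4) (nat_lit 132) (nat_lit 165) (nat_lit 153))) (PT.nd (nat_lit 78) (PT.lf (nat_lit 17328) (nat_lit 6) (nat_lit 228) (nat_lit 4) (nat_lit 133)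 (nat_lit 165) (nat_lit 152)) (PT.lf (nat_lit 18544) (nat_lit 6) (nat_lit 244) (nat_lit 4) (nat_lit 134) (nat_lit 165) (nat_lit 151))))) (PT.nd (nat_lit 312) (PT.nd (nat_lit 156) (PT.nd (nat_lit 78) (PT.lf (nat_lit 19684) (nat_lit 6) (nat_lit 259) (nat_lit 4) (nat_lit 135) (nat_lit 165) (nat_lit 150)) (PT.lf (nat_lit 19608) (nat_lit 6) (nat_lit 258) (nat_lit 4) (nat_lit 136) (nat_lit 165) (nat_lit 149))) (PT.nd (nat_lit 78) (PT.lf (nat_lit 19532) (nat_lit 6) (nat_lit 257) (nat_lit 4) (nat_lit 137) (nat_lit 165) (nat_lit 148)) (PT.lf (nat_lit 19456) (nat_lit 6) (nat_lit 256) (nat_lit 4) (nat_lit 138) (nat_lit 165) (nat_lit 147)))) (PT.nd (nat_lit 156) (PT.nd (nat_lit 78) (PT.lf (nat_lit 19380) (nat_lit 6) (nat_lit 255) (nat_lit 4) (nat_lit 139) (nat_lit 165) (nat_lit 146)) (PT.lf (nat_lit 19304) (nat_lit 6) (nat_lit 254) (nat_lit 4) (nat_lit 140) (nat_lit 165) (nat_lit 145))) (PT.nd (nat_lit 78) (PT.lf (nat_lit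 19228) (nat_lit 6) (nat_lit 253) (nat_lit 4) (nat_lit 141) (nat_lit 165) (nat_lit 144)) (PT.lf (nat_lit 19152) (nat_lit 6) (nat_lit 252) (nat_lit 4) (nat_lit 142) (nat_lit 165) (nat_lit 143)))))) (PT.nd (nat_lit 624) (PT.nd (nat_lit 312) (PT.nd (nat_lit 156) (PT.nd (nat_lit 78) (PT.lf (nat_lit 19152) (nat_lit 6) (nat_lit 252) (nat_lit 2) (nat_lit 143) (nat_lit 165) (nat_lit 142)) (PT.lf (nat_lit 19228) (nat_lit 6) (nat_lit 253) (nat_lit 2) (nat_lit 144) (nat_lit 165) (nat_lit 141))) (PT.nd (nat_lit 78) (PT.lf (nat_lit 19304) (nat_lit 6) (nat_lit 254) (nat_lit 2) (nat_lit 145) (nat_lit 165) (nat_lit 140)) (PT.lf (nat_lit 19380) (nat_lit 6) (nat_lit 255) (nat_lit 2) (nat_lit 146) (nat_lit 165) (nat_lit 139)))) (PT.nd (nat_lit 156) (PT.nd (nat_lit 78) (PT.lf (nat_lit 19456) (nat_lit 6) (nat_lit 256) (nat_lit 2) (nat_lit 147) (nat_lit 165) (nat_lit 138)) (PT.lf (nat_lit 19532) (nat_lit 6) (nat_lit 257) (nat_lit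 2) (nat_lit 148) (nat_lit 165) (nat_lit 137))) (PT.nd (nat_lit 78) (PT.lf (nat_lit 19608) (nat_lit 6) (nat_lit 258) (nat_lit 2) (nat_lit 149) (nat_lit 165) (nat_lit 136)) (PT.lf (nat_lit 19684) (nat_lit 6) (nat_lit 259) (nat_lit 2) (nat_lit 150) (nat_lit 165) (nat_lit 135))))) (PT.nd (nat_lit 312) (PT.nd (nat_lit 156) (PT.nd (nat_lit 78) (PT.lf (nat_lit 18544) (nat_lit 6) (nat_lit 244) (nat_lit 2) (nat_lit 151) (nat_lit 165) (nat_lit 134)) (PT.lf (nat_lit 17328) (nat_lit 6) (nat_lit 228) (nat_lit 2) (nat_lit 152) (nat_lit 165) (nat_lit 133))) (PT.nd (nat_lit 78) (PT.lf (nat_lit 16720) (nat_lit 6) (nat_lit 220) (nat_lit 2) (nat_lit 153) (nat_lit 165) (nat_lit 132)) (PT.lf (nat_lit 16112) (nat_lit 6) (nat_lit 212) (nat_lit 2) (nat_lit 154) (nat_lit 165) (nat_lit 131)))) (PT.nd (nat_lit 156) (PT.nd (nat_lit 78) (PT.lf (nat_lit 15504) (nat_lit 6) (nat_lit 204) (nat_lit 2) (nat_lit 155) (nat_lit 165) (nat_lit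 130)) (PT.lf (nat_lit 14972) (nat_lit 6) (nat_lit 197) (nat_lit 2) (nat_lit 156) (nat_lit 165) (nat_lit 129))) (PT.nd (nat_lit 78) (PT.lf (nat_lit 14440) (nat_lit 6) (nat_lit 190) (nat_lit 2) (nat_lit 157) (nat_lit 165) (nat_lit 128)) (PT.nd (nat_lit 78) (PT.lf (nat_lit 13984) (nat_lit 6) (nat_lit 184) (nat_lit 2) (nat_lit 158) (nat_lit 165) (nat_lit 127)) (PT.lf (nat_lit 13452) (nat_lit 6) (nat_lit 177) (nat_lit 2) (nat_lit 159) (nat_lit 165) (nat_lit 126))))))))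
noncomputable def pc47 : PT := (PT.nd (nat_lit 43290) (PT.nd (nat_lit 624) (PT.nd (nat_lit 312) (PT.nd (nat_lit 156) (PT.nd (nat_lit 78) (PT.lf (nat_lit 12996) (nat_lit 6) (nat_lit 171) (nat_lit 2) (nat_lit 160) (nat_lit 165) (nat_lit 125)) (PT.lf (nat_lit 12540) (nat_lit 6) (nat_lit 165) (nat_lit 2) (nat_lit 161) (nat_lit 165) (nat_lit 124))) (PT.nd (nat_lit 78) (PT.lf (nat_lit 12160) (nat_lit 6) (nat_lit 160) (nat_lit 2) (nat_lit 162) (nat_lit 165) (nat_lit 123)) (PT.lf (nat_lit 11704) (nat_lit 6) (nat_lit 154) (nat_lit 2) (nat_lit 163) (nat_lit 165) (nat_lit 122)))) (PT.nd (nat_lit 156) (PT.nd (nat_lit 78) (PT.lf (nat_lit 11324) (nat_lit 6) (nat_lit 149) (nat_lit 2) (nat_lit 164) (nat_lit 165) (nat_lit 121)) (PT.lf (nat_lit 10944) (nat_lit 3) (nat_lit 144) (nat_lit 0) (nat_lit 165) (nat_lit 165) (nat_lit 120))) (PT.nd (nat_lit 78) (PT.lf (nat_lit 10564) (nat_lit 6) (nat_lit 139) (nat_lit 0) (nat_lit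 166) (nat_lit 165) (nat_lit 119)) (PT.lf (nat_lit 10108) (nat_lit 6) (nat_lit 133) (nat_lit 0) (nat_lit 167) (nat_lit 165) (nat_lit 118))))) (PT.nd (nat_lit 312) (PT.nd (nat_lit 156) (PT.nd (nat_lit 78) (PT.lf (nat_lit 9728) (nat_lit 6) (nat_lit 128) (nat_lit 0) (nat_lit 168) (nat_lit 165) (nat_lit 117)) (PT.lf (nat_lit 9348) (nat_lit 6) (nat_lit 123) (nat_lit 0) (nat_lit 169) (nat_lit 165) (nat_lit 116))) (PT.nd (nat_lit 78) (PT.lf (nat_lit 8968) (nat_lit 6) (nat_lit 118) (nat_lit 0) (nat_lit 170) (nat_lit 165) (nat_lit 115)) (PT.lf (nat_lit 8588) (nat_lit 6) (nat_lit 113) (nat_lit 0) (nat_lit 171) (nat_lit 165) (nat_lit 114)))) (PT.nd (nat_lit 42198) (PT.nd (nat_lit 42120) (PT.lf (nat_lit 8208) (nat_lit 6) (nat_lit 108) (nat_lit 0) (nat_lit 172) (nat_lit 165) (nat_lit 113)) (PT.lf (nat_lit 7600) (nat_lit 6) (nat_lit 100) (nat_lit 5) (nat_lit 111) (nat_lit 166) (nat_lit 173))) (PT.nd (nat_lit 78) (PT.lf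 (nat_lit 7904) (nat_lit 6) (nat_lit 104) (nat_lit 5) (nat_lit 112) (nat_lit 166) (nat_lit 172)) (PT.lf (nat_lit 8284) (nat_lit 6) (nat_lit 109) (nat_lit 5) (nat_lit 113) (nat_lit 166) (nat_lit 171)))))) (PT.nd (nat_lit 624) (PT.nd (nat_lit 312) (PT.nd (nat_lit 156) (PT.nd (nat_lit 78) (PT.lf (nat_lit 8664) (nat_lit 6) (nat_lit 114) (nat_lit 5) (nat_lit 114) (nat_lit 166) (nat_lit 170)) (PT.lf (nat_lit 9044) (nat_lit 6) (nat_lit 119) (nat_lit 5) (nat_lit 115) (nat_lit 166) (nat_lit 169))) (PT.nd (nat_lit 78) (PT.lf (nat_lit 9424) (nat_lit 6) (nat_lit 124) (nat_lit 5) (nat_lit 116) (nat_lit 166) (nat_lit 168)) (PT.lf (nat_lit 9804) (nat_lit 6) (nat_lit 129) (nat_lit 5) (nat_lit 117) (nat_lit 166) (nat_lit 167)))) (PT.nd (nat_lit 156) (PT.nd (nat_lit 78) (PT.lf (nat_lit 10184) (nat_lit 3) (nat_lit 134) (nat_lit 4) (nat_lit 118) (nat_lit 166) (nat_lit 166)) (PT.lf (nat_lit 10564) (nat_lit 6) (nat_lit 139) (nat_lit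 4) (nat_lit 119) (nat_lit 166) (nat_lit 165))) (PT.nd (nat_lit 78) (PT.lf (nat_lit 10868) (nat_lit 6) (nat_lit 143) (nat_lit 4) (nat_lit 120) (nat_lit 166) (nat_lit 164)) (PT.lf (nat_lit 11248) (nat_lit 6) (nat_lit 148) (nat_lit 4) (nat_lit 121) (nat_lit 166) (nat_lit 163))))) (PT.nd (nat_lit 312) (PT.nd (nat_lit 156) (PT.nd (nat_lit 78) (PT.lf (nat_lit 11628) (nat_lit 6) (nat_lit 153) (nat_lit 4) (nat_lit 122) (nat_lit 166) (nat_lit 162)) (PT.lf (nat_lit 12084) (nat_lit 6) (nat_lit 159) (nat_lit 4) (nat_lit 123) (nat_lit 166) (nat_lit 161))) (PT.nd (nat_lit 78) (PT.lf (nat_lit 12464) (nat_lit 6) (nat_lit 164) (nat_lit 4) (nat_lit 124) (nat_lit 166) (nat_lit 160)) (PT.lf (nat_lit 12920) (nat_lit 6) (nat_lit 170) (nat_lit 4) (nat_lit 125) (nat_lit 166) (nat_lit 159)))) (PT.nd (nat_lit 156) (PT.nd (nat_lit 78) (PT.lf (nat_lit 13376) (nat_lit 6) (nat_lit 176) (nat_lit 4) (nat_lit 126) (nat_lit 166) (nat_lit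 158)) (PT.lf (nat_lit 13908) (nat_lit 6) (nat_lit 183) (nat_lit 4) (nat_lit 127) (nat_lit 166) (nat_lit 157))) (PT.nd (nat_lit 78) (PT.lf (nat_lit 14364) (nat_lit 6) (nat_lit 189) (nat_lit 4) (nat_lit 128) (nat_lit 166) (nat_lit 156)) (PT.nd (nat_lit 78) (PT.lf (nat_lit 14896) (nat_lit 6) (nat_lit 196) (nat_lit 4) (nat_lit 129) (nat_lit 166) (nat_lit 155)) (PT.lf (nat_lit 15428) (nat_lit 6) (nat_lit 203) (nat_lit 4) (nat_lit 130) (nat_lit 166) (nat_lit 154))))))))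
noncomputable def pc48 : PT := (PT.nd (nat_lit 1248) (PT.nd (nat_lit 624) (PT.nd (nat_lit 312) (PT.nd (nat_lit 156) (PT.nd (nat_lit 78) (PT.lf (nat_lit 16036) (nat_lit 6) (nat_lit 211) (nat_lit 4) (nat_lit 131) (nat_lit 166) (nat_lit 153)) (PT.lf (nat_lit 16644) (nat_lit 6) (nat_lit 219) (nat_lit 4) (nat_lit 132) (nat_lit 166) (nat_lit 152))) (PT.nd (nat_lit 78) (PT.lf (nat_lit 17252) (nat_lit 6) (nat_lit 227) (nat_lit 4) (nat_lit 133) (nat_lit 166) (nat_lit 151)) (PT.lf (nat_lit 18468) (nat_lit 6) (nat_lit 243) (nat_lit 4) (nat_lit 134) (nat_lit 166) (nat_lit 150)))) (PT.nd (nat_lit 156) (PT.nd (nat_lit 78) (PT.lf (nat_lit 18392) (nat_lit 6) (nat_lit 242) (nat_lit 4) (nat_lit 135) (nat_lit 166) (nat_lit 149)) (PT.lf (nat_lit 18316) (nat_lit 6) (nat_lit 241) (nat_lit 4) (nat_lit 136) (nat_lit 166) (nat_lit 148))) (PT.nd (nat_lit 78) (PT.lf (nat_lit 18240) (nat_lit 6) (nat_lit 240) (nat_lit 4) (nat_lit 137)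 (nat_lit 166) (nat_lit 147)) (PT.lf (nat_lit 18164) (nat_lit 6) (nat_lit 239) (nat_lit 4) (nat_lit 138) (nat_lit 166) (nat_lit 146))))) (PT.nd (nat_lit 312) (PT.nd (nat_lit 156) (PT.nd (nat_lit 78) (PT.lf (nat_lit 18088) (nat_lit 6) (nat_lit 238) (nat_lit 4) (nat_lit 139) (nat_lit 166) (nat_lit 145)) (PT.lf (nat_lit 18012) (nat_lit 6) (nat_lit 237) (nat_lit 4) (nat_lit 140) (nat_lit 166) (nat_lit 144))) (PT.nd (nat_lit 78) (PT.lf (nat_lit 17936) (nat_lit 6) (nat_lit 236) (nat_lit 4) (nat_lit 141) (nat_lit 166) (nat_lit 143)) (PT.lf (nat_lit 17860) (nat_lit 3) (nat_lit 235) (nat_lit 2) (nat_lit 142) (nat_lit 166) (nat_lit 142)))) (PT.nd (nat_lit 156) (PT.nd (nat_lit 78) (PT.lf (nat_lit 17936) (nat_lit 6) (nat_lit 236) (nat_lit 2) (nat_lit 143) (nat_lit 166) (nat_lit 141)) (PT.lf (nat_lit 18012) (nat_lit 6) (nat_lit 237) (nat_lit 2) (nat_lit 144) (nat_lit 166) (nat_lit 140))) (PT.nd (nat_lit 78) (PT.lf (nat_lit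 18088) (nat_lit 6) (nat_lit 238) (nat_lit 2) (nat_lit 145) (nat_lit 166) (nat_lit 139)) (PT.lf (nat_lit 18164) (nat_lit 6) (nat_lit 239) (nat_lit 2) (nat_lit 146) (nat_lit 166) (nat_lit 138)))))) (PT.nd (nat_lit 624) (PT.nd (nat_lit 312) (PT.nd (nat_lit 156) (PT.nd (nat_lit 78) (PT.lf (nat_lit 18240) (nat_lit 6) (nat_lit 240) (nat_lit 2) (nat_lit 147) (nat_lit 166) (nat_lit 137)) (PT.lf (nat_lit 18316) (nat_lit 6) (nat_lit 241) (nat_lit 2) (nat_lit 148) (nat_lit 166) (nat_lit 136))) (PT.nd (nat_lit 78) (PT.lf (nat_lit 18392) (nat_lit 6) (nat_lit 242) (nat_lit 2) (nat_lit 149) (nat_lit 166) (nat_lit 135)) (PT.lf (nat_lit 18468) (nat_lit 6) (nat_lit 243) (nat_lit 2) (nat_lit 150) (nat_lit 166) (nat_lit 134)))) (PT.nd (nat_lit 156) (PT.nd (nat_lit 78) (PT.lf (nat_lit 17252) (nat_lit 6) (nat_lit 227) (nat_lit 2) (nat_lit 151) (nat_lit 166) (nat_lit 133)) (PT.lf (nat_lit 16644) (nat_lit 6) (nat_lit 219) (nat_lit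 2) (nat_lit 152) (nat_lit 166) (nat_lit 132))) (PT.nd (nat_lit 78) (PT.lf (nat_lit 16036) (nat_lit 6) (nat_lit 211) (nat_lit 2) (nat_lit 153) (nat_lit 166) (nat_lit 131)) (PT.lf (nat_lit 15428) (nat_lit 6) (nat_lit 203) (nat_lit 2) (nat_lit 154) (nat_lit 166) (nat_lit 130))))) (PT.nd (nat_lit 312) (PT.nd (nat_lit 156) (PT.nd (nat_lit 78) (PT.lf (nat_lit 14896) (nat_lit 6) (nat_lit 196) (nat_lit 2) (nat_lit 155) (nat_lit 166) (nat_lit 129)) (PT.lf (nat_lit 14364) (nat_lit 6) (nat_lit 189) (nat_lit 2) (nat_lit 156) (nat_lit 166) (nat_lit 128))) (PT.nd (nat_lit 78) (PT.lf (nat_lit 13908) (nat_lit 6) (nat_lit 183) (nat_lit 2) (nat_lit 157) (nat_lit 166) (nat_lit 127)) (PT.lf (nat_lit 13376) (nat_lit 6) (nat_lit 176) (nat_lit 2) (nat_lit 158) (nat_lit 166) (nat_lit 126)))) (PT.nd (nat_lit 156) (PT.nd (nat_lit 78) (PT.lf (nat_lit 12920) (nat_lit 6) (nat_lit 170) (nat_lit 2) (nat_lit 159) (nat_lit 166) (nat_lit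 125)) (PT.lf (nat_lit 12464) (nat_lit 6) (nat_lit 164) (nat_lit 2) (nat_lit 160) (nat_lit 166) (nat_lit 124))) (PT.nd (nat_lit 78) (PT.lf (nat_lit 12084) (nat_lit 6) (nat_lit 159) (nat_lit 2) (nat_lit 161) (nat_lit 166) (nat_lit 123)) (PT.lf (nat_lit 11628) (nat_lit 6) (nat_lit 153) (nat_lit 2) (nat_lit 162) (nat_lit 166) (nat_lit 122)))))))
noncomputable def pc49 : PT := (PT.nd (nat_lit 43134) (PT.nd (nat_lit 624) (PT.nd (nat_lit 312) (PT.nd (nat_lit 156) (PT.nd (nat_lit 78) (PT.lf (nat_lit 11248) (nat_lit 6) (nat_lit 148) (nat_lit 2) (nat_lit 163) (nat_lit 166) (nat_lit 121)) (PT.lf (nat_lit 10868) (nat_lit 6) (nat_lit 143) (nat_lit 2) (nat_lit 164) (nat_lit 166) (nat_lit 120))) (PT.nd (nat_lit 78) (PT.lf (nat_lit 10564) (nat_lit 6) (nat_lit 139) (nat_lit 2) (nat_lit 165) (nat_lit 166) (nat_lit 119)) (PT.lf (nat_lit 10184) (nat_lit 3) (nat_lit 134) (nat_lit 0) (nat_lit 166) (nat_lit 166) (nat_lit 118))))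 (PT.nd (nat_lit 156) (PT.nd (nat_lit 78) (PT.lf (nat_lit 9804) (nat_lit 6) (nat_lit 129) (nat_lit 0) (nat_lit 167) (nat_lit 166) (nat_lit 117)) (PT.lf (nat_lit 9424) (nat_lit 6) (nat_lit 124) (nat_lit 0) (nat_lit 168) (nat_lit 166) (nat_lit 116))) (PT.nd (nat_lit 78) (PT.lf (nat_lit 9044) (nat_lit 6) (nat_lit 119) (nat_lit 0) (nat_lit 169) (nat_lit 166) (nat_lit 115)) (PT.lf (nat_lit 8664) (nat_lit 6) (nat_lit 114) (nat_lit 0) (nat_lit 170) (nat_lit 166) (nat_lit 114))))) (PT.nd (nat_lit 42198) (PT.nd (nat_lit 156) (PT.nd (nat_lit 78) (PT.lf (nat_lit 8284) (nat_lit 6) (nat_lit 109) (nat_lit 0) (nat_lit 171) (nat_lit 166) (nat_lit 113)) (PT.lf (nat_lit 7904) (nat_lit 6) (nat_lit 104) (nat_lit 0) (nat_lit 172) (nat_lit 166) (nat_lit 112))) (PT.nd (nat_lit 41964) (PT.lf (nat_lit 7600) (nat_lit 6) (nat_lit 100) (nat_lit 0) (nat_lit 173) (nat_lit 166) (nat_lit 111)) (PT.lf (nat_lit 7296) (nat_lit 6) (nat_lit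 96) (nat_lit 5) (nat_lit 110) (nat_lit 167) (nat_lit 173)))) (PT.nd (nat_lit 156) (PT.nd (nat_lit 78) (PT.lf (nat_lit 7676) (nat_lit 6) (nat_lit 101) (nat_lit 5) (nat_lit 111) (nat_lit 167) (nat_lit 172)) (PT.lf (nat_lit 7980) (nat_lit 6) (nat_lit 105) (nat_lit 5) (nat_lit 112) (nat_lit 167) (nat_lit 171))) (PT.nd (nat_lit 78) (PT.lf (nat_lit 8360) (nat_lit 6) (nat_lit 110) (nat_lit 5) (nat_lit 113) (nat_lit 167) (nat_lit 170)) (PT.lf (nat_lit 8740) (nat_lit 6) (nat_lit 115) (nat_lit 5) (nat_lit 114) (nat_lit 167) (nat_lit 169)))))) (PT.nd (nat_lit 624) (PT.nd (nat_lit 312) (PT.nd (nat_lit 156) (PT.nd (nat_lit 78) (PT.lf (nat_lit 9120) (nat_lit 6) (nat_lit 120) (nat_lit 5) (nat_lit 115) (nat_lit 167) (nat_lit 168)) (PT.lf (nat_lit 9500) (nat_lit 3) (nat_lit 125) (nat_lit 4) (nat_lit 116) (nat_lit 167) (nat_lit 167))) (PT.nd (nat_lit 78) (PT.lf (nat_lit 9804) (nat_lit 6) (nat_lit 129) (nat_lit 4) (nat_lit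 117) (nat_lit 167) (nat_lit 166)) (PT.lf (nat_lit 10108) (nat_lit 6) (nat_lit 133) (nat_lit 4) (nat_lit 118) (nat_lit 167) (nat_lit 165)))) (PT.nd (nat_lit 156) (PT.nd (nat_lit 78) (PT.lf (nat_lit 10488) (nat_lit 6) (nat_lit 138) (nat_lit 4) (nat_lit 119) (nat_lit 167) (nat_lit 164)) (PT.lf (nat_lit 10792) (nat_lit 6) (nat_lit 142) (nat_lit 4) (nat_lit 120) (nat_lit 167) (nat_lit 163))) (PT.nd (nat_lit 78) (PT.lf (nat_lit 11172) (nat_lit 6) (nat_lit 147) (nat_lit 4) (nat_lit 121) (nat_lit 167) (nat_lit 162)) (PT.lf (nat_lit 11552) (nat_lit 6) (nat_lit 152) (nat_lit 4) (nat_lit 122) (nat_lit 167) (nat_lit 161))))) (PT.nd (nat_lit 312) (PT.nd (nat_lit 156) (PT.nd (nat_lit 78) (PT.lf (nat_lit 12008) (nat_lit 6) (nat_lit 158) (nat_lit 4) (nat_lit 123) (nat_lit 167) (nat_lit 160)) (PT.lf (nat_lit 12388) (nat_lit 6) (nat_lit 163) (nat_lit 4) (nat_lit 124) (nat_lit 167) (nat_lit 159))) (PT.nd (nat_lit 78) (PT.lf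 (nat_lit 12844) (nat_lit 6) (nat_lit 169) (nat_lit 4) (nat_lit 125) (nat_lit 167) (nat_lit 158)) (PT.lf (nat_lit 13300) (nat_lit 6) (nat_lit 175) (nat_lit 4) (nat_lit 126) (nat_lit 167) (nat_lit 157)))) (PT.nd (nat_lit 156) (PT.nd (nat_lit 78) (PT.lf (nat_lit 13832) (nat_lit 6) (nat_lit 182) (nat_lit 4) (nat_lit 127) (nat_lit 167) (nat_lit 156)) (PT.lf (nat_lit 14288) (nat_lit 6) (nat_lit 188) (nat_lit 4) (nat_lit 128) (nat_lit 167) (nat_lit 155))) (PT.nd (nat_lit 78) (PT.lf (nat_lit 14820) (nat_lit 6) (nat_lit 195) (nat_lit 4) (nat_lit 129) (nat_lit 167) (nat_lit 154)) (PT.nd (nat_lit 78) (PT.lf (nat_lit 15352) (nat_lit 6) (nat_lit 202) (nat_lit 4) (nat_lit 130) (nat_lit 167) (nat_lit 153)) (PT.lf (nat_lit 15960) (nat_lit 6) (nat_lit 210) (nat_lit 4) (nat_lit 131) (nat_lit 167) (nat_lit 152))))))))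
noncomputable def pc50 : PT := (PT.nd (nat_lit 2652) (PT.nd (nat_lit 2028) (PT.nd (nat_lit 1716) (PT.nd (nat_lit 1560) (PT.nd (nat_lit 1482) (PT.lf (nat_lit 16568) (nat_lit 6) (nat_lit 218) (nat_lit 4) (nat_lit 132) (nat_lit 167) (nat_lit 151)) (PT.lf (nat_lit 16568) (nat_lit 6) (nat_lit 218) (nat_lit 2) (nat_lit 151) (nat_lit 167) (nat_lit 132))) (PT.nd (nat_lit 78) (PT.lf (nat_lit 15960) (nat_lit 6) (nat_lit 210) (nat_lit 2) (nat_lit 152) (nat_lit 167) (nat_lit 131)) (PT.lf (nat_lit 15352) (nat_lit 6) (nat_lit 202) (nat_lit 2) (nat_lit 153) (nat_lit 167) (nat_lit 130)))) (PT.nd (nat_lit 156) (PT.nd (nat_lit 78) (PT.lf (nat_lit 14820) (nat_lit 6) (nat_lit 195) (nat_lit 2) (nat_lit 154) (nat_lit 167) (nat_lit 129)) (PT.lf (nat_lit 14288) (nat_lit 6) (nat_lit 188) (nat_lit 2) (nat_lit 155) (nat_lit 167) (nat_lit 128))) (PT.nd (nat_lit 78) (PT.lf (nat_lit 13832) (nat_lit 6) (nat_lit 182) (nat_lit 2) (nat_lit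 156) (nat_lit 167) (nat_lit 127)) (PT.lf (nat_lit 13300) (nat_lit 6) (nat_lit 175) (nat_lit 2) (nat_lit 157) (nat_lit 167) (nat_lit 126))))) (PT.nd (nat_lit 312) (PT.nd (nat_lit 156) (PT.nd (nat_lit 78) (PT.lf (nat_lit 12844) (nat_lit 6) (nat_lit 169) (nat_lit 2) (nat_lit 158) (nat_lit 167) (nat_lit 125)) (PT.lf (nat_lit 12388) (nat_lit 6) (nat_lit 163) (nat_lit 2) (nat_lit 159) (nat_lit 167) (nat_lit 124))) (PT.nd (nat_lit 78) (PT.lf (nat_lit 12008) (nat_lit 6) (nat_lit 158) (nat_lit 2) (nat_lit 160) (nat_lit 167) (nat_lit 123)) (PT.lf (nat_lit 11552) (nat_lit 6) (nat_lit 152) (nat_lit 2) (nat_lit 161) (nat_lit 167) (nat_lit 122)))) (PT.nd (nat_lit 156) (PT.nd (nat_lit 78) (PT.lf (nat_lit 11172) (nat_lit 6) (nat_lit 147) (nat_lit 2) (nat_lit 162) (nat_lit 167) (nat_lit 121)) (PT.lf (nat_lit 10792) (nat_lit 6) (nat_lit 142) (nat_lit 2) (nat_lit 163) (nat_lit 167) (nat_lit 120))) (PT.nd (nat_lit 78) (PT.lf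 (nat_lit 10488) (nat_lit 6) (nat_lit 138) (nat_lit 2) (nat_lit 164) (nat_lit 167) (nat_lit 119)) (PT.lf (nat_lit 10108) (nat_lit 6) (nat_lit 133) (nat_lit 2) (nat_lit 165) (nat_lit 167) (nat_lit 118)))))) (PT.nd (nat_lit 42354) (PT.nd (nat_lit 312) (PT.nd (nat_lit 156) (PT.nd (nat_lit 78) (PT.lf (nat_lit 9804) (nat_lit 6) (nat_lit 129) (nat_lit 2) (nat_lit 166) (nat_lit 167) (nat_lit 117)) (PT.lf (nat_lit 9500) (nat_lit 3) (nat_lit 125) (nat_lit 0) (nat_lit 167) (nat_lit 167) (nat_lit 116))) (PT.nd (nat_lit 78) (PT.lf (nat_lit 9120) (nat_lit 6) (nat_lit 120) (nat_lit 0) (nat_lit 168) (nat_lit 167) (nat_lit 115)) (PT.lf (nat_lit 8740) (nat_lit 6) (nat_lit 115) (nat_lit 0) (nat_lit 169) (nat_lit 167) (nat_lit 114)))) (PT.nd (nat_lit 156) (PT.nd (nat_lit 78) (PT.lf (nat_lit 8360) (nat_lit 6) (nat_lit 110) (nat_lit 0) (nat_lit 170) (nat_lit 167) (nat_lit 113)) (PT.lf (nat_lit 7980) (nat_lit 6) (nat_lit 105)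 (nat_lit 0) (nat_lit 171) (nat_lit 167) (nat_lit 112))) (PT.nd (nat_lit 78) (PT.lf (nat_lit 7676) (nat_lit 6) (nat_lit 101) (nat_lit 0) (nat_lit 172) (nat_lit 167) (nat_lit 111)) (PT.lf (nat_lit 7296) (nat_lit 6) (nat_lit 96) (nat_lit 0) (nat_lit 173) (nat_lit 167) (nat_lit 110))))) (PT.nd (nat_lit 312) (PT.nd (nat_lit 156) (PT.nd (nat_lit 78) (PT.lf (nat_lit 6764) (nat_lit 6) (nat_lit 89) (nat_lit 5) (nat_lit 108) (nat_lit 168) (nat_lit 174)) (PT.lf (nat_lit 7068) (nat_lit 6) (nat_lit 93) (nat_lit 5) (nat_lit 109) (nat_lit 168) (nat_lit 173))) (PT.nd (nat_lit 78) (PT.lf (nat_lit 7372) (nat_lit 6) (nat_lit 97) (nat_lit 5) (nat_lit 110) (nat_lit 168) (nat_lit 172)) (PT.lf (nat_lit 7752) (nat_lit 6) (nat_lit 102) (nat_lit 5) (nat_lit 111) (nat_lit 168) (nat_lit 171)))) (PT.nd (nat_lit 156) (PT.nd (nat_lit 78) (PT.lf (nat_lit 8056) (nat_lit 6) (nat_lit 106) (nat_lit 5) (nat_lit 112) (nat_lit 168) (nat_lit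 170)) (PT.lf (nat_lit 8436) (nat_lit 6) (nat_lit 111) (nat_lit 5) (nat_lit 113) (nat_lit 168) (nat_lit 169))) (PT.nd (nat_lit 78) (PT.lf (nat_lit 8816) (nat_lit 3) (nat_lit 116) (nat_lit 4) (nat_lit 114) (nat_lit 168) (nat_lit 168)) (PT.nd (nat_lit 78) (PT.lf (nat_lit 9120) (nat_lit 6) (nat_lit 120) (nat_lit 4) (nat_lit 115) (nat_lit 168) (nat_lit 167)) (PT.lf (nat_lit 9424) (nat_lit 6) (nat_lit 124) (nat_lit 4) (nat_lit 116) (nat_lit 168) (nat_lit 166))))))))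
noncomputable def pc51 : PT := (PT.nd (nat_lit 3354) (PT.nd (nat_lit 624) (PT.nd (nat_lit 312) (PT.nd (nat_lit 156) (PT.nd (nat_lit 78) (PT.lf (nat_lit 9728) (nat_lit 6) (nat_lit 128) (nat_lit 4) (nat_lit 117) (nat_lit 168) (nat_lit 165)) (PT.lf (nat_lit 10032) (nat_lit 6) (nat_lit 132) (nat_lit 4) (nat_lit 118) (nat_lit 168) (nat_lit 164))) (PT.nd (nat_lit 78) (PT.lf (nat_lit 10412) (nat_lit 6) (nat_lit 137) (nat_lit 4) (nat_lit 119) (nat_lit 168) (nat_lit 163)) (PT.lf (nat_lit 10716) (nat_lit 6) (nat_lit 141) (nat_lit 4) (nat_lit 120) (nat_lit 168) (nat_lit 162)))) (PT.nd (nat_lit 156) (PT.nd (nat_lit 78) (PT.lf (nat_lit 11096) (nat_lit 6) (nat_lit 146) (nat_lit 4) (nat_lit 121) (nat_lit 168) (nat_lit 161)) (PT.lf (nat_lit 11476) (nat_lit 6) (nat_lit 151) (nat_lit 4) (nat_lit 122) (nat_lit 168) (nat_lit 160))) (PT.nd (nat_lit 78) (PT.lf (nat_lit 11932) (nat_lit 6) (nat_lit 157) (nat_lit 4) (nat_lit 123)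 (nat_lit 168) (nat_lit 159)) (PT.lf (nat_lit 12312) (nat_lit 6) (nat_lit 162) (nat_lit 4) (nat_lit 124) (nat_lit 168) (nat_lit 158))))) (PT.nd (nat_lit 2418) (PT.nd (nat_lit 156) (PT.nd (nat_lit 78) (PT.lf (nat_lit 12768) (nat_lit 6) (nat_lit 168) (nat_lit 4) (nat_lit 125) (nat_lit 168) (nat_lit 157)) (PT.lf (nat_lit 13224) (nat_lit 6) (nat_lit 174) (nat_lit 4) (nat_lit 126) (nat_lit 168) (nat_lit 156))) (PT.nd (nat_lit 2184) (PT.lf (nat_lit 13756) (nat_lit 6) (nat_lit 181) (nat_lit 4) (nat_lit 127) (nat_lit 168) (nat_lit 155)) (PT.lf (nat_lit 13756) (nat_lit 6) (nat_lit 181) (nat_lit 2) (nat_lit 155) (nat_lit 168) (nat_lit 127)))) (PT.nd (nat_lit 156) (PT.nd (nat_lit 78) (PT.lf (nat_lit 13224) (nat_lit 6) (nat_lit 174) (nat_lit 2) (nat_lit 156) (nat_lit 168) (nat_lit 126)) (PT.lf (nat_lit 12768) (nat_lit 6) (nat_lit 168) (nat_lit 2) (nat_lit 157) (nat_lit 168) (nat_lit 125))) (PT.nd (nat_lit 78) (PT.lf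 (nat_lit 12312) (nat_lit 6) (nat_lit 162) (nat_lit 2) (nat_lit 158) (nat_lit 168) (nat_lit 124)) (PT.lf (nat_lit 11932) (nat_lit 6) (nat_lit 157) (nat_lit 2) (nat_lit 159) (nat_lit 168) (nat_lit 123)))))) (PT.nd (nat_lit 624) (PT.nd (nat_lit 312) (PT.nd (nat_lit 156) (PT.nd (nat_lit 78) (PT.lf (nat_lit 11476) (nat_lit 6) (nat_lit 151) (nat_lit 2) (nat_lit 160) (nat_lit 168) (nat_lit 122)) (PT.lf (nat_lit 11096) (nat_lit 6) (nat_lit 146) (nat_lit 2) (nat_lit 161) (nat_lit 168) (nat_lit 121))) (PT.nd (nat_lit 78) (PT.lf (nat_lit 10716) (nat_lit 6) (nat_lit 141) (nat_lit 2) (nat_lit 162) (nat_lit 168) (nat_lit 120)) (PT.lf (nat_lit 10412) (nat_lit 6) (nat_lit 137) (nat_lit 2) (nat_lit 163) (nat_lit 168) (nat_lit 119)))) (PT.nd (nat_lit 156) (PT.nd (nat_lit 78) (PT.lf (nat_lit 10032) (nat_lit 6) (nat_lit 132) (nat_lit 2) (nat_lit 164) (nat_lit 168) (nat_lit 118)) (PT.lf (nat_lit 9728) (nat_lit 6) (nat_lit 128)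 (nat_lit 2) (nat_lit 165) (nat_lit 168) (nat_lit 117))) (PT.nd (nat_lit 78) (PT.lf (nat_lit 9424) (nat_lit 6) (nat_lit 124) (nat_lit 2) (nat_lit 166) (nat_lit 168) (nat_lit 116)) (PT.lf (nat_lit 9120) (nat_lit 6) (nat_lit 120) (nat_lit 2) (nat_lit 167) (nat_lit 168) (nat_lit 115))))) (PT.nd (nat_lit 312) (PT.nd (nat_lit 156) (PT.nd (nat_lit 78) (PT.lf (nat_lit 8816) (nat_lit 3) (nat_lit 116) (nat_lit 0) (nat_lit 168) (nat_lit 168) (nat_lit 114)) (PT.lf (nat_lit 8436) (nat_lit 6) (nat_lit 111) (nat_lit 0) (nat_lit 169) (nat_lit 168) (nat_lit 113))) (PT.nd (nat_lit 78) (PT.lf (nat_lit 8056) (nat_lit 6) (nat_lit 106) (nat_lit 0) (nat_lit 170) (nat_lit 168) (nat_lit 112)) (PT.lf (nat_lit 7752) (nat_lit 6) (nat_lit 102) (nat_lit 0) (nat_lit 171) (nat_lit 168) (nat_lit 111)))) (PT.nd (nat_lit 156) (PT.nd (nat_lit 78) (PT.lf (nat_lit 7372) (nat_lit 6) (nat_lit 97) (nat_lit 0) (nat_lit 172) (nat_lit 168) (nat_lit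 110)) (PT.lf (nat_lit 7068) (nat_lit 6) (nat_lit 93) (nat_lit 0) (nat_lit 173) (nat_lit 168) (nat_lit 109))) (PT.nd (nat_lit 41652) (PT.lf (nat_lit 6764) (nat_lit 6) (nat_lit 89) (nat_lit 0) (nat_lit 174) (nat_lit 168) (nat_lit 108)) (PT.nd (nat_lit 78) (PT.lf (nat_lit 6536) (nat_lit 6) (nat_lit 86) (nat_lit 5) (nat_lit 107) (nat_lit 169) (nat_lit 174)) (PT.lf (nat_lit 6840) (nat_lit 6) (nat_lit 90) (nat_lit 5) (nat_lit 108) (nat_lit 169) (nat_lit 173))))))))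
noncomputable def pc52 : PT := (PT.nd (nat_lit 3900) (PT.nd (nat_lit 624) (PT.nd (nat_lit 312) (PT.nd (nat_lit 156) (PT.nd (nat_lit 78) (PT.lf (nat_lit 7144) (nat_lit 6) (nat_lit 94) (nat_lit 5) (nat_lit 109) (nat_lit 169) (nat_lit 172)) (PT.lf (nat_lit 7448) (nat_lit 6) (nat_lit 98) (nat_lit 5) (nat_lit 110) (nat_lit 169) (nat_lit 171))) (PT.nd (nat_lit 78) (PT.lf (nat_lit 7828) (nat_lit 6) (nat_lit 103) (nat_lit 5) (nat_lit 111) (nat_lit 169) (nat_lit 170)) (PT.lf (nat_lit 8132) (nat_lit 3) (nat_lit 107) (nat_lit 4) (nat_lit 112) (nat_lit 169) (nat_lit 169)))) (PT.nd (nat_lit 156) (PT.nd (nat_lit 78) (PT.lf (nat_lit 8436) (nat_lit 6) (nat_lit 111) (nat_lit 4) (nat_lit 113) (nat_lit 169) (nat_lit 168)) (PT.lf (nat_lit 8740) (nat_lit 6) (nat_lit 115) (nat_lit 4) (nat_lit 114) (nat_lit 169) (nat_lit 167))) (PT.nd (nat_lit 78) (PT.lf (nat_lit 9044) (nat_lit 6) (nat_lit 119) (nat_lit 4) (nat_lit 115) (nat_lit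 169) (nat_lit 166)) (PT.lf (nat_lit 9348) (nat_lit 6) (nat_lit 123) (nat_lit 4) (nat_lit 116) (nat_lit 169) (nat_lit 165))))) (PT.nd (nat_lit 312) (PT.nd (nat_lit 156) (PT.nd (nat_lit 78) (PT.lf (nat_lit 9652) (nat_lit 6) (nat_lit 127) (nat_lit 4) (nat_lit 117) (nat_lit 169) (nat_lit 164)) (PT.lf (nat_lit 9956) (nat_lit 6) (nat_lit 131) (nat_lit 4) (nat_lit 118) (nat_lit 169) (nat_lit 163))) (PT.nd (nat_lit 78) (PT.lf (nat_lit 10336) (nat_lit 6) (nat_lit 136) (nat_lit 4) (nat_lit 119) (nat_lit 169) (nat_lit 162)) (PT.lf (nat_lit 10640) (nat_lit 6) (nat_lit 140) (nat_lit 4) (nat_lit 120) (nat_lit 169) (nat_lit 161)))) (PT.nd (nat_lit 156) (PT.nd (nat_lit 78) (PT.lf (nat_lit 11020) (nat_lit 6) (nat_lit 145) (nat_lit 4) (nat_lit 121) (nat_lit 169) (nat_lit 160)) (PT.lf (nat_lit 11400) (nat_lit 6) (nat_lit 150) (nat_lit 4) (nat_lit 122) (nat_lit 169) (nat_lit 159))) (PT.nd (nat_lit 2730) (PT.lf (nat_lit 11856)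 (nat_lit 6) (nat_lit 156) (nat_lit 4) (nat_lit 123) (nat_lit 169) (nat_lit 158)) (PT.lf (nat_lit 11856) (nat_lit 6) (nat_lit 156) (nat_lit 2) (nat_lit 158) (nat_lit 169) (nat_lit 123)))))) (PT.nd (nat_lit 624) (PT.nd (nat_lit 312) (PT.nd (nat_lit 156) (PT.nd (nat_lit 78) (PT.lf (nat_lit 11400) (nat_lit 6) (nat_lit 150) (nat_lit 2) (nat_lit 159) (nat_lit 169) (nat_lit 122)) (PT.lf (nat_lit 11020) (nat_lit 6) (nat_lit 145) (nat_lit 2) (nat_lit 160) (nat_lit 169) (nat_lit 121))) (PT.nd (nat_lit 78) (PT.lf (nat_lit 10640) (nat_lit 6) (nat_lit 140) (nat_lit 2) (nat_lit 161) (nat_lit 169) (nat_lit 120)) (PT.lf (nat_lit 10336) (nat_lit 6) (nat_lit 136) (nat_lit 2) (nat_lit 162) (nat_lit 169) (nat_lit 119)))) (PT.nd (nat_lit 156) (PT.nd (nat_lit 78) (PT.lf (nat_lit 9956) (nat_lit 6) (nat_lit 131) (nat_lit 2) (nat_lit 163) (nat_lit 169) (nat_lit 118)) (PT.lf (nat_lit 9652) (nat_lit 6) (nat_lit 127) (nat_lit 2) (nat_lit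 164) (nat_lit 169) (nat_lit 117))) (PT.nd (nat_lit 78) (PT.lf (nat_lit 9348) (nat_lit 6) (nat_lit 123) (nat_lit 2) (nat_lit 165) (nat_lit 169) (nat_lit 116)) (PT.lf (nat_lit 9044) (nat_lit 6) (nat_lit 119) (nat_lit 2) (nat_lit 166) (nat_lit 169) (nat_lit 115))))) (PT.nd (nat_lit 312) (PT.nd (nat_lit 156) (PT.nd (nat_lit 78) (PT.lf (nat_lit 8740) (nat_lit 6) (nat_lit 115) (nat_lit 2) (nat_lit 167) (nat_lit 169) (nat_lit 114)) (PT.lf (nat_lit 8436) (nat_lit 6) (nat_lit 111) (nat_lit 2) (nat_lit 168) (nat_lit 169) (nat_lit 113))) (PT.nd (nat_lit 78) (PT.lf (nat_lit 8132) (nat_lit 3) (nat_lit 107) (nat_lit 0) (nat_lit 169) (nat_lit 169) (nat_lit 112)) (PT.lf (nat_lit 7828) (nat_lit 6) (nat_lit 103) (nat_lit 0) (nat_lit 170) (nat_lit 169) (nat_lit 111)))) (PT.nd (nat_lit 156) (PT.nd (nat_lit 78) (PT.lf (nat_lit 7448) (nat_lit 6) (nat_lit 98) (nat_lit 0) (nat_lit 171) (nat_lit 169) (nat_lit 110)) (PT.lf (nat_lit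 7144) (nat_lit 6) (nat_lit 94) (nat_lit 0) (nat_lit 172) (nat_lit 169) (nat_lit 109))) (PT.nd (nat_lit 78) (PT.lf (nat_lit 6840) (nat_lit 6) (nat_lit 90) (nat_lit 0) (nat_lit 173) (nat_lit 169) (nat_lit 108)) (PT.lf (nat_lit 6536) (nat_lit 6) (nat_lit 86) (nat_lit 0) (nat_lit 174) (nat_lit 169) (nat_lit 107)))))))
noncomputable def pc53 : PT := (PT.nd (nat_lit 4446) (PT.nd (nat_lit 624) (PT.nd (nat_lit 312) (PT.nd (nat_lit 156) (PT.nd (nat_lit 78) (PT.lf (nat_lit 6080) (nat_lit 6) (nat_lit 80) (nat_lit 5) (nat_lit 105) (nat_lit 170) (nat_lit 175)) (PT.lf (nat_lit 6308) (nat_lit 6) (nat_lit 83) (nat_lit 5) (nat_lit 106) (nat_lit 170) (nat_lit 174))) (PT.nd (nat_lit 78) (PT.lf (nat_lit 6612) (nat_lit 6) (nat_lit 87) (nat_lit 5) (nat_lit 107) (nat_lit 170) (nat_lit 173)) (PT.lf (nat_lit 6916) (nat_lit 6) (nat_lit 91) (nat_lit 5) (nat_lit 108) (nat_lit 170) (nat_lit 172)))) (PT.nd (nat_lit 156) (PT.nd (nat_lit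 78) (PT.lf (nat_lit 7220) (nat_lit 6) (nat_lit 95) (nat_lit 5) (nat_lit 109) (nat_lit 170) (nat_lit 171)) (PT.lf (nat_lit 7524) (nat_lit 3) (nat_lit 99) (nat_lit 4) (nat_lit 110) (nat_lit 170) (nat_lit 170))) (PT.nd (nat_lit 78) (PT.lf (nat_lit 7828) (nat_lit 6) (nat_lit 103) (nat_lit 4) (nat_lit 111) (nat_lit 170) (nat_lit 169)) (PT.lf (nat_lit 8056) (nat_lit 6) (nat_lit 106) (nat_lit 4) (nat_lit 112) (nat_lit 170) (nat_lit 168))))) (PT.nd (nat_lit 312) (PT.nd (nat_lit 156) (PT.nd (nat_lit 78) (PT.lf (nat_lit 8360) (nat_lit 6) (nat_lit 110) (nat_lit 4) (nat_lit 113) (nat_lit 170) (nat_lit 167)) (PT.lf (nat_lit 8664) (nat_lit 6) (nat_lit 114) (nat_lit 4) (nat_lit 114) (nat_lit 170) (nat_lit 166))) (PT.nd (nat_lit 78) (PT.lf (nat_lit 8968) (nat_lit 6) (nat_lit 118) (nat_lit 4) (nat_lit 115) (nat_lit 170) (nat_lit 165)) (PT.lf (nat_lit 9272) (nat_lit 6) (nat_lit 122) (nat_lit 4) (nat_lit 116) (nat_lit 170)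 (nat_lit 164)))) (PT.nd (nat_lit 156) (PT.nd (nat_lit 78) (PT.lf (nat_lit 9576) (nat_lit 6) (nat_lit 126) (nat_lit 4) (nat_lit 117) (nat_lit 170) (nat_lit 163)) (PT.lf (nat_lit 9880) (nat_lit 6) (nat_lit 130) (nat_lit 4) (nat_lit 118) (nat_lit 170) (nat_lit 162))) (PT.nd (nat_lit 3276) (PT.lf (nat_lit 10260) (nat_lit 6) (nat_lit 135) (nat_lit 4) (nat_lit 119) (nat_lit 170) (nat_lit 161)) (PT.lf (nat_lit 10260) (nat_lit 6) (nat_lit 135) (nat_lit 2) (nat_lit 161) (nat_lit 170) (nat_lit 119)))))) (PT.nd (nat_lit 624) (PT.nd (nat_lit 312) (PT.nd (nat_lit 156) (PT.nd (nat_lit 78) (PT.lf (nat_lit 9880) (nat_lit 6) (nat_lit 130) (nat_lit 2) (nat_lit 162) (nat_lit 170) (nat_lit 118)) (PT.lf (nat_lit 9576) (nat_lit 6) (nat_lit 126) (nat_lit 2) (nat_lit 163) (nat_lit 170) (nat_lit 117))) (PT.nd (nat_lit 78) (PT.lf (nat_lit 9272) (nat_lit 6) (nat_lit 122) (nat_lit 2) (nat_lit 164) (nat_lit 170) (nat_lit 116)) (PT.lf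 (nat_lit 8968) (nat_lit 6) (nat_lit 118) (nat_lit 2) (nat_lit 165) (nat_lit 170) (nat_lit 115)))) (PT.nd (nat_lit 156) (PT.nd (nat_lit 78) (PT.lf (nat_lit 8664) (nat_lit 6) (nat_lit 114) (nat_lit 2) (nat_lit 166) (nat_lit 170) (nat_lit 114)) (PT.lf (nat_lit 8360) (nat_lit 6) (nat_lit 110) (nat_lit 2) (nat_lit 167) (nat_lit 170) (nat_lit 113))) (PT.nd (nat_lit 78) (PT.lf (nat_lit 8056) (nat_lit 6) (nat_lit 106) (nat_lit 2) (nat_lit 168) (nat_lit 170) (nat_lit 112)) (PT.lf (nat_lit 7828) (nat_lit 6) (nat_lit 103) (nat_lit 2) (nat_lit 169) (nat_lit 170) (nat_lit 111))))) (PT.nd (nat_lit 312) (PT.nd (nat_lit 156) (PT.nd (nat_lit 78) (PT.lf (nat_lit 7524) (nat_lit 3) (nat_lit 99) (nat_lit 0) (nat_lit 170) (nat_lit 170) (nat_lit 110)) (PT.lf (nat_lit 7220) (nat_lit 6) (nat_lit 95) (nat_lit 0) (nat_lit 171) (nat_lit 170) (nat_lit 109))) (PT.nd (nat_lit 78) (PT.lf (nat_lit 6916) (nat_lit 6) (nat_lit 91) (nat_lit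 0) (nat_lit 172) (nat_lit 170) (nat_lit 108)) (PT.lf (nat_lit 6612) (nat_lit 6) (nat_lit 87) (nat_lit 0) (nat_lit 173) (nat_lit 170) (nat_lit 107)))) (PT.nd (nat_lit 41340) (PT.nd (nat_lit 78) (PT.lf (nat_lit 6308) (nat_lit 6) (nat_lit 83) (nat_lit 0) (nat_lit 174) (nat_lit 170) (nat_lit 106)) (PT.lf (nat_lit 6080) (nat_lit 6) (nat_lit 80) (nat_lit 0) (nat_lit 175) (nat_lit 170) (nat_lit 105))) (PT.nd (nat_lit 78) (PT.lf (nat_lit 5624) (nat_lit 6) (nat_lit 74) (nat_lit 5) (nat_lit 103) (nat_lit 171) (nat_lit 176)) (PT.nd (nat_lit 78) (PT.lf (nat_lit 5852) (nat_lit 6) (nat_lit 77) (nat_lit 5) (nat_lit 104) (nat_lit 171) (nat_lit 175)) (PT.lf (nat_lit 6156) (nat_lit 6) (nat_lit 81) (nat_lit 5) (nat_lit 105) (nat_lit 171) (nat_lit 174))))))))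
noncomputable def pc54 : PT := (PT.nd (nat_lit 4836) (PT.nd (nat_lit 624) (PT.nd (nat_lit 312) (PT.nd (nat_lit 156) (PT.nd (nat_lit 78) (PT.lf (nat_lit 6384) (nat_lit 6) (nat_lit 84) (nat_lit 5) (nat_lit 106) (nat_lit 171) (nat_lit 173)) (PT.lf (nat_lit 6688) (nat_lit 6) (nat_lit 88) (nat_lit 5) (nat_lit 107) (nat_lit 171) (nat_lit 172))) (PT.nd (nat_lit 78) (PT.lf (nat_lit 6992) (nat_lit 3) (nat_lit 92) (nat_lit 4) (nat_lit 108) (nat_lit 171) (nat_lit 171)) (PT.lf (nat_lit 7220) (nat_lit 6) (nat_lit 95) (nat_lit 4) (nat_lit 109) (nat_lit 171) (nat_lit 170)))) (PT.nd (nat_lit 156) (PT.nd (nat_lit 78) (PT.lf (nat_lit 7448) (nat_lit 6) (nat_lit 98) (nat_lit 4) (nat_lit 110) (nat_lit 171) (nat_lit 169)) (PT.lf (nat_lit 7752) (nat_lit 6) (nat_lit 102) (nat_lit 4) (nat_lit 111) (nat_lit 171) (nat_lit 168))) (PT.nd (nat_lit 78) (PT.lf (nat_lit 7980) (nat_lit 6) (nat_lit 105) (nat_lit 4) (nat_lit 112) (nat_lit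 171) (nat_lit 167)) (PT.lf (nat_lit 8284) (nat_lit 6) (nat_lit 109) (nat_lit 4) (nat_lit 113) (nat_lit 171) (nat_lit 166))))) (PT.nd (nat_lit 3900) (PT.nd (nat_lit 156) (PT.nd (nat_lit 78) (PT.lf (nat_lit 8588) (nat_lit 6) (nat_lit 113) (nat_lit 4) (nat_lit 114) (nat_lit 171) (nat_lit 165)) (PT.lf (nat_lit 8892) (nat_lit 6) (nat_lit 117) (nat_lit 4) (nat_lit 115) (nat_lit 171) (nat_lit 164))) (PT.nd (nat_lit 3666) (PT.lf (nat_lit 9196) (nat_lit 6) (nat_lit 121) (nat_lit 4) (nat_lit 116) (nat_lit 171) (nat_lit 163)) (PT.lf (nat_lit 9196) (nat_lit 6) (nat_lit 121) (nat_lit 2) (nat_lit 163) (nat_lit 171) (nat_lit 116)))) (PT.nd (nat_lit 156) (PT.nd (nat_lit 78) (PT.lf (nat_lit 8892) (nat_lit 6) (nat_lit 117) (nat_lit 2) (nat_lit 164) (nat_lit 171) (nat_lit 115)) (PT.lf (nat_lit 8588) (nat_lit 6) (nat_lit 113) (nat_lit 2) (nat_lit 165) (nat_lit 171) (nat_lit 114))) (PT.nd (nat_lit 78) (PT.lf (nat_lit 8284)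 (nat_lit 6) (nat_lit 109) (nat_lit 2) (nat_lit 166) (nat_lit 171) (nat_lit 113)) (PT.lf (nat_lit 7980) (nat_lit 6) (nat_lit 105) (nat_lit 2) (nat_lit 167) (nat_lit 171) (nat_lit 112)))))) (PT.nd (nat_lit 624) (PT.nd (nat_lit 312) (PT.nd (nat_lit 156) (PT.nd (nat_lit 78) (PT.lf (nat_lit 7752) (nat_lit 6) (nat_lit 102) (nat_lit 2) (nat_lit 168) (nat_lit 171) (nat_lit 111)) (PT.lf (nat_lit 7448) (nat_lit 6) (nat_lit 98) (nat_lit 2) (nat_lit 169) (nat_lit 171) (nat_lit 110))) (PT.nd (nat_lit 78) (PT.lf (nat_lit 7220) (nat_lit 6) (nat_lit 95) (nat_lit 2) (nat_lit 170) (nat_lit 171) (nat_lit 109)) (PT.lf (nat_lit 6992) (nat_lit 3) (nat_lit 92) (nat_lit 0) (nat_lit 171) (nat_lit 171) (nat_lit 108)))) (PT.nd (nat_lit 156) (PT.nd (nat_lit 78) (PT.lf (nat_lit 6688) (nat_lit 6) (nat_lit 88) (nat_lit 0) (nat_lit 172) (nat_lit 171) (nat_lit 107)) (PT.lf (nat_lit 6384) (nat_lit 6) (nat_lit 84) (nat_lit 0) (nat_lit 173)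 (nat_lit 171) (nat_lit 106))) (PT.nd (nat_lit 78) (PT.lf (nat_lit 6156) (nat_lit 6) (nat_lit 81) (nat_lit 0) (nat_lit 174) (nat_lit 171) (nat_lit 105)) (PT.lf (nat_lit 5852) (nat_lit 6) (nat_lit 77) (nat_lit 0) (nat_lit 175) (nat_lit 171) (nat_lit 104))))) (PT.nd (nat_lit 41262) (PT.nd (nat_lit 41106) (PT.nd (nat_lit 41028) (PT.lf (nat_lit 5624) (nat_lit 6) (nat_lit 74) (nat_lit 0) (nat_lit 176) (nat_lit 171) (nat_lit 103)) (PT.lf (nat_lit 5168) (nat_lit 6) (nat_lit 68) (nat_lit 5) (nat_lit 101) (nat_lit 172) (nat_lit 177))) (PT.nd (nat_lit 78) (PT.lf (nat_lit 5396) (nat_lit 6) (nat_lit 71) (nat_lit 5) (nat_lit 102) (nat_lit 172) (nat_lit 176)) (PT.lf (nat_lit 5700) (nat_lit 6) (nat_lit 75) (nat_lit 5) (nat_lit 103) (nat_lit 172) (nat_lit 175)))) (PT.nd (nat_lit 156) (PT.nd (nat_lit 78) (PT.lf (nat_lit 5928) (nat_lit 6) (nat_lit 78) (nat_lit 5) (nat_lit 104) (nat_lit 172) (nat_lit 174)) (PT.lf (nat_lit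 6232) (nat_lit 6) (nat_lit 82) (nat_lit 5) (nat_lit 105) (nat_lit 172) (nat_lit 173))) (PT.nd (nat_lit 78) (PT.lf (nat_lit 6460) (nat_lit 3) (nat_lit 85) (nat_lit 4) (nat_lit 106) (nat_lit 172) (nat_lit 172)) (PT.nd (nat_lit 78) (PT.lf (nat_lit 6688) (nat_lit 6) (nat_lit 88) (nat_lit 4) (nat_lit 107) (nat_lit 172) (nat_lit 171)) (PT.lf (nat_lit 6916) (nat_lit 6) (nat_lit 91) (nat_lit 4) (nat_lit 108) (nat_lit 172) (nat_lit 170))))))))
noncomputable def pc55 : PT := (PT.nd (nat_lit 5226) (PT.nd (nat_lit 4602) (PT.nd (nat_lit 312) (PT.nd (nat_lit 156) (PT.nd (nat_lit 78) (PT.lf (nat_lit 7144) (nat_lit 6) (nat_lit 94) (nat_lit 4) (nat_lit 109) (nat_lit 172) (nat_lit 169)) (PT.lf (nat_lit 7372) (nat_lit 6) (nat_lit 97) (nat_lit 4) (nat_lit 110) (nat_lit 172) (nat_lit 168))) (PT.nd (nat_lit 78) (PT.lf (nat_lit 7676) (nat_lit 6) (nat_lit 101) (nat_lit 4) (nat_lit 111) (nat_lit 172) (nat_lit 167)) (PT.lf (nat_lit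 7904) (nat_lit 6) (nat_lit 104) (nat_lit 4) (nat_lit 112) (nat_lit 172) (nat_lit 166)))) (PT.nd (nat_lit 4134) (PT.nd (nat_lit 4056) (PT.lf (nat_lit 8208) (nat_lit 6) (nat_lit 108) (nat_lit 4) (nat_lit 113) (nat_lit 172) (nat_lit 165)) (PT.lf (nat_lit 8208) (nat_lit 6) (nat_lit 108) (nat_lit 2) (nat_lit 165) (nat_lit 172) (nat_lit 113))) (PT.nd (nat_lit 78) (PT.lf (nat_lit 7904) (nat_lit 6) (nat_lit 104) (nat_lit 2) (nat_lit 166) (nat_lit 172) (nat_lit 112)) (PT.lf (nat_lit 7676) (nat_lit 6) (nat_lit 101) (nat_lit 2) (nat_lit 167) (nat_lit 172) (nat_lit 111))))) (PT.nd (nat_lit 312) (PT.nd (nat_lit 156) (PT.nd (nat_lit 78) (PT.lf (nat_lit 7372) (nat_lit 6) (nat_lit 97) (nat_lit 2) (nat_lit 168) (nat_lit 172) (nat_lit 110)) (PT.lf (nat_lit 7144) (nat_lit 6) (nat_lit 94) (nat_lit 2) (nat_lit 169) (nat_lit 172) (nat_lit 109))) (PT.nd (nat_lit 78) (PT.lf (nat_lit 6916) (nat_lit 6) (nat_lit 91) (nat_lit 2) (nat_lit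 170) (nat_lit 172) (nat_lit 108)) (PT.lf (nat_lit 6688) (nat_lit 6) (nat_lit 88) (nat_lit 2) (nat_lit 171) (nat_lit 172) (nat_lit 107)))) (PT.nd (nat_lit 156) (PT.nd (nat_lit 78) (PT.lf (nat_lit 6460) (nat_lit 3) (nat_lit 85) (nat_lit 0) (nat_lit 172) (nat_lit 172) (nat_lit 106)) (PT.lf (nat_lit 6232) (nat_lit 6) (nat_lit 82) (nat_lit 0) (nat_lit 173) (nat_lit 172) (nat_lit 105))) (PT.nd (nat_lit 78) (PT.lf (nat_lit 5928) (nat_lit 6) (nat_lit 78) (nat_lit 0) (nat_lit 174) (nat_lit 172) (nat_lit 104)) (PT.lf (nat_lit 5700) (nat_lit 6) (nat_lit 75) (nat_lit 0) (nat_lit 175) (nat_lit 172) (nat_lit 103)))))) (PT.nd (nat_lit 41418) (PT.nd (nat_lit 41106) (PT.nd (nat_lit 40950) (PT.nd (nat_lit 78) (PT.lf (nat_lit 5396) (nat_lit 6) (nat_lit 71) (nat_lit 0) (nat_lit 176) (nat_lit 172) (nat_lit 102)) (PT.lf (nat_lit 5168) (nat_lit 6) (nat_lit 68) (nat_lit 0) (nat_lit 177) (nat_lit 172) (nat_lit 101))) (PT.nd (nat_lit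 78) (PT.lf (nat_lit 4940) (nat_lit 6) (nat_lit 65) (nat_lit 5) (nat_lit 100) (nat_lit 173) (nat_lit 177)) (PT.lf (nat_lit 5244) (nat_lit 6) (nat_lit 69) (nat_lit 5) (nat_lit 101) (nat_lit 173) (nat_lit 176)))) (PT.nd (nat_lit 156) (PT.nd (nat_lit 78) (PT.lf (nat_lit 5472) (nat_lit 6) (nat_lit 72) (nat_lit 5) (nat_lit 102) (nat_lit 173) (nat_lit 175)) (PT.lf (nat_lit 5776) (nat_lit 6) (nat_lit 76) (nat_lit 5) (nat_lit 103) (nat_lit 173) (nat_lit 174))) (PT.nd (nat_lit 78) (PT.lf (nat_lit 6004) (nat_lit 3) (nat_lit 79) (nat_lit 4) (nat_lit 104) (nat_lit 173) (nat_lit 173)) (PT.lf (nat_lit 6232) (nat_lit 6) (nat_lit 82) (nat_lit 4) (nat_lit 105) (nat_lit 173) (nat_lit 172))))) (PT.nd (nat_lit 312) (PT.nd (nat_lit 156) (PT.nd (nat_lit 78) (PT.lf (nat_lit 6384) (nat_lit 6) (nat_lit 84) (nat_lit 4) (nat_lit 106) (nat_lit 173) (nat_lit 171)) (PT.lf (nat_lit 6612) (nat_lit 6) (nat_lit 87) (nat_lit 4) (nat_lit 107)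 (nat_lit 173) (nat_lit 170))) (PT.nd (nat_lit 78) (PT.lf (nat_lit 6840) (nat_lit 6) (nat_lit 90) (nat_lit 4) (nat_lit 108) (nat_lit 173) (nat_lit 169)) (PT.lf (nat_lit 7068) (nat_lit 6) (nat_lit 93) (nat_lit 4) (nat_lit 109) (nat_lit 173) (nat_lit 168)))) (PT.nd (nat_lit 4368) (PT.nd (nat_lit 78) (PT.lf (nat_lit 7296) (nat_lit 6) (nat_lit 96) (nat_lit 4) (nat_lit 110) (nat_lit 173) (nat_lit 167)) (PT.lf (nat_lit 7600) (nat_lit 6) (nat_lit 100) (nat_lit 4) (nat_lit 111) (nat_lit 173) (nat_lit 166))) (PT.nd (nat_lit 78) (PT.lf (nat_lit 7600) (nat_lit 6) (nat_lit 100) (nat_lit 2) (nat_lit 166) (nat_lit 173) (nat_lit 111)) (PT.nd (nat_lit 78) (PT.lf (nat_lit 7296) (nat_lit 6) (nat_lit 96) (nat_lit 2) (nat_lit 167) (nat_lit 173) (nat_lit 110)) (PT.lf (nat_lit 7068) (nat_lit 6) (nat_lit 93) (nat_lit 2) (nat_lit 168) (nat_lit 173) (nat_lit 109))))))))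
noncomputable def pc56 : PT := (PT.nd (nat_lit 41886) (PT.nd (nat_lit 624) (PT.nd (nat_lit 312) (PT.nd (nat_lit 156) (PT.nd (nat_lit 78) (PT.lf (nat_lit 6840) (nat_lit 6) (nat_lit 90) (nat_lit 2) (nat_lit 169) (nat_lit 173) (nat_lit 108)) (PT.lf (nat_lit 6612) (nat_lit 6) (nat_lit 87) (nat_lit 2) (nat_lit 170) (nat_lit 173) (nat_lit 107))) (PT.nd (nat_lit 78) (PT.lf (nat_lit 6384) (nat_lit 6) (nat_lit 84) (nat_lit 2) (nat_lit 171) (nat_lit 173) (nat_lit 106)) (PT.lf (nat_lit 6232) (nat_lit 6) (nat_lit 82) (nat_lit 2) (nat_lit 172) (nat_lit 173) (nat_lit 105)))) (PT.nd (nat_lit 156) (PT.nd (nat_lit 78) (PT.lf (nat_lit 6004) (nat_lit 3) (nat_lit 79) (nat_lit 0) (nat_lit 173) (nat_lit 173) (nat_lit 104)) (PT.lf (nat_lit 5776) (nat_lit 6) (nat_lit 76) (nat_lit 0) (nat_lit 174) (nat_lit 173) (nat_lit 103))) (PT.nd (nat_lit 78) (PT.lf (nat_lit 5472) (nat_lit 6) (nat_lit 72) (nat_lit 0) (nat_lit 175) (nat_lit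 173) (nat_lit 102)) (PT.lf (nat_lit 5244) (nat_lit 6) (nat_lit 69) (nat_lit 0) (nat_lit 176) (nat_lit 173) (nat_lit 101))))) (PT.nd (nat_lit 40950) (PT.nd (nat_lit 40794) (PT.nd (nat_lit 40716) (PT.lf (nat_lit 4940) (nat_lit 6) (nat_lit 65) (nat_lit 0) (nat_lit 177) (nat_lit 173) (nat_lit 100)) (PT.lf (nat_lit 4560) (nat_lit 6) (nat_lit 60) (nat_lit 5) (nat_lit 98) (nat_lit 174) (nat_lit 178))) (PT.nd (nat_lit 78) (PT.lf (nat_lit 4788) (nat_lit 6) (nat_lit 63) (nat_lit 5) (nat_lit 99) (nat_lit 174) (nat_lit 177)) (PT.lf (nat_lit 5016) (nat_lit 6) (nat_lit 66) (nat_lit 5) (nat_lit 100) (nat_lit 174) (nat_lit 176)))) (PT.nd (nat_lit 156) (PT.nd (nat_lit 78) (PT.lf (nat_lit 5320) (nat_lit 6) (nat_lit 70) (nat_lit 5) (nat_lit 101) (nat_lit 174) (nat_lit 175)) (PT.lf (nat_lit 5548) (nat_lit 3) (nat_lit 73) (nat_lit 4) (nat_lit 102) (nat_lit 174) (nat_lit 174))) (PT.nd (nat_lit 78) (PT.lf (nat_lit 5776) (nat_lit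 6) (nat_lit 76) (nat_lit 4) (nat_lit 103) (nat_lit 174) (nat_lit 173)) (PT.lf (nat_lit 5928) (nat_lit 6) (nat_lit 78) (nat_lit 4) (nat_lit 104) (nat_lit 174) (nat_lit 172)))))) (PT.nd (nat_lit 5226) (PT.nd (nat_lit 4914) (PT.nd (nat_lit 156) (PT.nd (nat_lit 78) (PT.lf (nat_lit 6156) (nat_lit 6) (nat_lit 81) (nat_lit 4) (nat_lit 105) (nat_lit 174) (nat_lit 171)) (PT.lf (nat_lit 6308) (nat_lit 6) (nat_lit 83) (nat_lit 4) (nat_lit 106) (nat_lit 174) (nat_lit 170))) (PT.nd (nat_lit 78) (PT.lf (nat_lit 6536) (nat_lit 6) (nat_lit 86) (nat_lit 4) (nat_lit 107) (nat_lit 174) (nat_lit 169)) (PT.lf (nat_lit 6764) (nat_lit 6) (nat_lit 89) (nat_lit 4) (nat_lit 108) (nat_lit 174) (nat_lit 168)))) (PT.nd (nat_lit 156) (PT.nd (nat_lit 78) (PT.lf (nat_lit 6764) (nat_lit 6) (nat_lit 89) (nat_lit 2) (nat_lit 168) (nat_lit 174) (nat_lit 108)) (PT.lf (nat_lit 6536) (nat_lit 6) (nat_lit 86) (nat_lit 2) (nat_lit 169) (nat_lit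 174) (nat_lit 107))) (PT.nd (nat_lit 78) (PT.lf (nat_lit 6308) (nat_lit 6) (nat_lit 83) (nat_lit 2) (nat_lit 170) (nat_lit 174) (nat_lit 106)) (PT.lf (nat_lit 6156) (nat_lit 6) (nat_lit 81) (nat_lit 2) (nat_lit 171) (nat_lit 174) (nat_lit 105))))) (PT.nd (nat_lit 312) (PT.nd (nat_lit 156) (PT.nd (nat_lit 78) (PT.lf (nat_lit 5928) (nat_lit 6) (nat_lit 78) (nat_lit 2) (nat_lit 172) (nat_lit 174) (nat_lit 104)) (PT.lf (nat_lit 5776) (nat_lit 6) (nat_lit 76) (nat_lit 2) (nat_lit 173) (nat_lit 174) (nat_lit 103))) (PT.nd (nat_lit 78) (PT.lf (nat_lit 5548) (nat_lit 3) (nat_lit 73) (nat_lit 0) (nat_lit 174) (nat_lit 174) (nat_lit 102)) (PT.lf (nat_lit 5320) (nat_lit 6) (nat_lit 70) (nat_lit 0) (nat_lit 175) (nat_lit 174) (nat_lit 101)))) (PT.nd (nat_lit 156) (PT.nd (nat_lit 78) (PT.lf (nat_lit 5016) (nat_lit 6) (nat_lit 66) (nat_lit 0) (nat_lit 176) (nat_lit 174) (nat_lit 100)) (PT.lf (nat_lit 4788) (nat_lit 6)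 (nat_lit 63) (nat_lit 0) (nat_lit 177) (nat_lit 174) (nat_lit 99))) (PT.nd (nat_lit 40482) (PT.lf (nat_lit 4560) (nat_lit 6) (nat_lit 60) (nat_lit 0) (nat_lit 178) (nat_lit 174) (nat_lit 98)) (PT.lf (nat_lit 4180) (nat_lit 6) (nat_lit 55) (nat_lit 5) (nat_lit 96) (nat_lit 175) (nat_lit 179)))))))
noncomputable def pc57 : PT := (PT.nd (nat_lit 6240) (PT.nd (nat_lit 624) (PT.nd (nat_lit 312) (PT.nd (nat_lit 156) (PT.nd (nat_lit 78) (PT.lf (nat_lit 4408) (nat_lit 6) (nat_lit 58) (nat_lit 5) (nat_lit 97) (nat_lit 175) (nat_lit 178)) (PT.lf (nat_lit 4636) (nat_lit 6) (nat_lit 61) (nat_lit 5) (nat_lit 98) (nat_lit 175) (nat_lit 177))) (PT.nd (nat_lit 78) (PT.lf (nat_lit 4864) (nat_lit 6) (nat_lit 64) (nat_lit 5) (nat_lit 99) (nat_lit 175) (nat_lit 176)) (PT.lf (nat_lit 5092) (nat_lit 3) (nat_lit 67) (nat_lit 4) (nat_lit 100) (nat_lit 175) (nat_lit 175)))) (PT.nd (nat_lit 156) (PT.nd (nat_lit 78) (PT.lf (nat_lit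 5320) (nat_lit 6) (nat_lit 70) (nat_lit 4) (nat_lit 101) (nat_lit 175) (nat_lit 174)) (PT.lf (nat_lit 5472) (nat_lit 6) (nat_lit 72) (nat_lit 4) (nat_lit 102) (nat_lit 175) (nat_lit 173))) (PT.nd (nat_lit 78) (PT.lf (nat_lit 5700) (nat_lit 6) (nat_lit 75) (nat_lit 4) (nat_lit 103) (nat_lit 175) (nat_lit 172)) (PT.lf (nat_lit 5852) (nat_lit 6) (nat_lit 77) (nat_lit 4) (nat_lit 104) (nat_lit 175) (nat_lit 171))))) (PT.nd (nat_lit 5304) (PT.nd (nat_lit 5148) (PT.nd (nat_lit 5070) (PT.lf (nat_lit 6080) (nat_lit 6) (nat_lit 80) (nat_lit 4) (nat_lit 105) (nat_lit 175) (nat_lit 170)) (PT.lf (nat_lit 6080) (nat_lit 6) (nat_lit 80) (nat_lit 2) (nat_lit 170) (nat_lit 175) (nat_lit 105))) (PT.nd (nat_lit 78) (PT.lf (nat_lit 5852) (nat_lit 6) (nat_lit 77) (nat_lit 2) (nat_lit 171) (nat_lit 175) (nat_lit 104)) (PT.lf (nat_lit 5700) (nat_lit 6) (nat_lit 75) (nat_lit 2) (nat_lit 172) (nat_lit 175) (nat_lit 103)))) (PT.nd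 (nat_lit 156) (PT.nd (nat_lit 78) (PT.lf (nat_lit 5472) (nat_lit 6) (nat_lit 72) (nat_lit 2) (nat_lit 173) (nat_lit 175) (nat_lit 102)) (PT.lf (nat_lit 5320) (nat_lit 6) (nat_lit 70) (nat_lit 2) (nat_lit 174) (nat_lit 175) (nat_lit 101))) (PT.nd (nat_lit 78) (PT.lf (nat_lit 5092) (nat_lit 3) (nat_lit 67) (nat_lit 0) (nat_lit 175) (nat_lit 175) (nat_lit 100)) (PT.lf (nat_lit 4864) (nat_lit 6) (nat_lit 64) (nat_lit 0) (nat_lit 176) (nat_lit 175) (nat_lit 99)))))) (PT.nd (nat_lit 40872) (PT.nd (nat_lit 40560) (PT.nd (nat_lit 156) (PT.nd (nat_lit 78) (PT.lf (nat_lit 4636) (nat_lit 6) (nat_lit 61) (nat_lit 0) (nat_lit 177) (nat_lit 175) (nat_lit 98)) (PT.lf (nat_lit 4408) (nat_lit 6) (nat_lit 58) (nat_lit 0) (nat_lit 178) (nat_lit 175) (nat_lit 97))) (PT.nd (nat_lit 40326) (PT.lf (nat_lit 4180) (nat_lit 6) (nat_lit 55) (nat_lit 0) (nat_lit 179) (nat_lit 175) (nat_lit 96)) (PT.lf (nat_lit 4028) (nat_lit 6) (nat_lit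 53) (nat_lit 5) (nat_lit 95) (nat_lit 176) (nat_lit 179)))) (PT.nd (nat_lit 156) (PT.nd (nat_lit 78) (PT.lf (nat_lit 4256) (nat_lit 6) (nat_lit 56) (nat_lit 5) (nat_lit 96) (nat_lit 176) (nat_lit 178)) (PT.lf (nat_lit 4484) (nat_lit 6) (nat_lit 59) (nat_lit 5) (nat_lit 97) (nat_lit 176) (nat_lit 177))) (PT.nd (nat_lit 78) (PT.lf (nat_lit 4712) (nat_lit 3) (nat_lit 62) (nat_lit 4) (nat_lit 98) (nat_lit 176) (nat_lit 176)) (PT.lf (nat_lit 4864) (nat_lit 6) (nat_lit 64) (nat_lit 4) (nat_lit 99) (nat_lit 176) (nat_lit 175))))) (PT.nd (nat_lit 5538) (PT.nd (nat_lit 156) (PT.nd (nat_lit 78) (PT.lf (nat_lit 5016) (nat_lit 6) (nat_lit 66) (nat_lit 4) (nat_lit 100) (nat_lit 176) (nat_lit 174)) (PT.lf (nat_lit 5244) (nat_lit 6) (nat_lit 69) (nat_lit 4) (nat_lit 101) (nat_lit 176) (nat_lit 173))) (PT.nd (nat_lit 78) (PT.lf (nat_lit 5396) (nat_lit 6) (nat_lit 71) (nat_lit 4) (nat_lit 102) (nat_lit 176) (nat_lit 172))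 (PT.lf (nat_lit 5624) (nat_lit 6) (nat_lit 74) (nat_lit 4) (nat_lit 103) (nat_lit 176) (nat_lit 171)))) (PT.nd (nat_lit 156) (PT.nd (nat_lit 78) (PT.lf (nat_lit 5624) (nat_lit 6) (nat_lit 74) (nat_lit 2) (nat_lit 171) (nat_lit 176) (nat_lit 103)) (PT.lf (nat_lit 5396) (nat_lit 6) (nat_lit 71) (nat_lit 2) (nat_lit 172) (nat_lit 176) (nat_lit 102))) (PT.nd (nat_lit 78) (PT.lf (nat_lit 5244) (nat_lit 6) (nat_lit 69) (nat_lit 2) (nat_lit 173) (nat_lit 176) (nat_lit 101)) (PT.nd (nat_lit 78) (PT.lf (nat_lit 5016) (nat_lit 6) (nat_lit 66) (nat_lit 2) (nat_lit 174) (nat_lit 176) (nat_lit 100)) (PT.lf (nat_lit 4864) (nat_lit 6) (nat_lit 64) (nat_lit 2) (nat_lit 175) (nat_lit 176) (nat_lit 99))))))))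
noncomputable def pc58 : PT := (PT.nd (nat_lit 46800) (PT.nd (nat_lit 40716) (PT.nd (nat_lit 40404) (PT.nd (nat_lit 156) (PT.nd (nat_lit 78) (PT.lf (nat_lit 4712) (nat_lit 3) (nat_lit 62) (nat_lit 0) (nat_lit 176) (nat_lit 176) (nat_lit 98)) (PT.lf (nat_lit 4484) (nat_lit 6) (nat_lit 59) (nat_lit 0) (nat_lit 177) (nat_lit 176) (nat_lit 97))) (PT.nd (nat_lit 78) (PT.lf (nat_lit 4256) (nat_lit 6) (nat_lit 56) (nat_lit 0) (nat_lit 178) (nat_lit 176) (nat_lit 96)) (PT.lf (nat_lit 4028) (nat_lit 6) (nat_lit 53) (nat_lit 0) (nat_lit 179) (nat_lit 176) (nat_lit 95)))) (PT.nd (nat_lit 156) (PT.nd (nat_lit 78) (PT.lf (nat_lit 3648) (nat_lit 6) (nat_lit 48) (nat_lit 5) (nat_lit 93) (nat_lit 177) (nat_lit 180)) (PT.lf (nat_lit 3876) (nat_lit 6) (nat_lit 51) (nat_lit 5) (nat_lit 94) (nat_lit 177) (nat_lit 179))) (PT.nd (nat_lit 78) (PT.lf (nat_lit 4104) (nat_lit 6) (nat_lit 54) (nat_lit 5) (nat_lit 95) (nat_lit 177)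 (nat_lit 178)) (PT.lf (nat_lit 4332) (nat_lit 3) (nat_lit 57) (nat_lit 4) (nat_lit 96) (nat_lit 177) (nat_lit 177))))) (PT.nd (nat_lit 312) (PT.nd (nat_lit 156) (PT.nd (nat_lit 78) (PT.lf (nat_lit 4484) (nat_lit 6) (nat_lit 59) (nat_lit 4) (nat_lit 97) (nat_lit 177) (nat_lit 176)) (PT.lf (nat_lit 4636) (nat_lit 6) (nat_lit 61) (nat_lit 4) (nat_lit 98) (nat_lit 177) (nat_lit 175))) (PT.nd (nat_lit 78) (PT.lf (nat_lit 4788) (nat_lit 6) (nat_lit 63) (nat_lit 4) (nat_lit 99) (nat_lit 177) (nat_lit 174)) (PT.lf (nat_lit 4940) (nat_lit 6) (nat_lit 65) (nat_lit 4) (nat_lit 100) (nat_lit 177) (nat_lit 173)))) (PT.nd (nat_lit 5616) (PT.nd (nat_lit 5538) (PT.lf (nat_lit 5168) (nat_lit 6) (nat_lit 68) (nat_lit 4) (nat_lit 101) (nat_lit 177) (nat_lit 172)) (PT.lf (nat_lit 5168) (nat_lit 6) (nat_lit 68) (nat_lit 2) (nat_lit 172) (nat_lit 177) (nat_lit 101))) (PT.nd (nat_lit 78) (PT.lf (nat_lit 4940) (nat_lit 6) (nat_lit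 65) (nat_lit 2) (nat_lit 173) (nat_lit 177) (nat_lit 100)) (PT.lf (nat_lit 4788) (nat_lit 6) (nat_lit 63) (nat_lit 2) (nat_lit 174) (nat_lit 177) (nat_lit 99)))))) (PT.nd (nat_lit 40482) (PT.nd (nat_lit 312) (PT.nd (nat_lit 156) (PT.nd (nat_lit 78) (PT.lf (nat_lit 4636) (nat_lit 6) (nat_lit 61) (nat_lit 2) (nat_lit 175) (nat_lit 177) (nat_lit 98)) (PT.lf (nat_lit 4484) (nat_lit 6) (nat_lit 59) (nat_lit 2) (nat_lit 176) (nat_lit 177) (nat_lit 97))) (PT.nd (nat_lit 78) (PT.lf (nat_lit 4332) (nat_lit 3) (nat_lit 57) (nat_lit 0) (nat_lit 177) (nat_lit 177) (nat_lit 96)) (PT.lf (nat_lit 4104) (nat_lit 6) (nat_lit 54) (nat_lit 0) (nat_lit 178) (nat_lit 177) (nat_lit 95)))) (PT.nd (nat_lit 40014) (PT.nd (nat_lit 78) (PT.lf (nat_lit 3876) (nat_lit 6) (nat_lit 51) (nat_lit 0) (nat_lit 179) (nat_lit 177) (nat_lit 94)) (PT.lf (nat_lit 3648) (nat_lit 6) (nat_lit 48) (nat_lit 0) (nat_lit 180) (nat_lit 177) (nat_lit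 93))) (PT.nd (nat_lit 78) (PT.lf (nat_lit 3344) (nat_lit 6) (nat_lit 44) (nat_lit 5) (nat_lit 91) (nat_lit 178) (nat_lit 181)) (PT.lf (nat_lit 3496) (nat_lit 6) (nat_lit 46) (nat_lit 5) (nat_lit 92) (nat_lit 178) (nat_lit 180))))) (PT.nd (nat_lit 312) (PT.nd (nat_lit 156) (PT.nd (nat_lit 78) (PT.lf (nat_lit 3724) (nat_lit 6) (nat_lit 49) (nat_lit 5) (nat_lit 93) (nat_lit 178) (nat_lit 179)) (PT.lf (nat_lit 3952) (nat_lit 3) (nat_lit 52) (nat_lit 4) (nat_lit 94) (nat_lit 178) (nat_lit 178))) (PT.nd (nat_lit 78) (PT.lf (nat_lit 4104) (nat_lit 6) (nat_lit 54) (nat_lit 4) (nat_lit 95) (nat_lit 178) (nat_lit 177)) (PT.lf (nat_lit 4256) (nat_lit 6) (nat_lit 56) (nat_lit 4) (nat_lit 96) (nat_lit 178) (nat_lit 176)))) (PT.nd (nat_lit 6006) (PT.nd (nat_lit 78) (PT.lf (nat_lit 4408) (nat_lit 6) (nat_lit 58) (nat_lit 4) (nat_lit 97) (nat_lit 178) (nat_lit 175)) (PT.lf (nat_lit 4560) (nat_lit 6) (nat_lit 60) (nat_lit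 4) (nat_lit 98) (nat_lit 178) (nat_lit 174))) (PT.nd (nat_lit 78) (PT.lf (nat_lit 4560) (nat_lit 6) (nat_lit 60) (nat_lit 2) (nat_lit 174) (nat_lit 178) (nat_lit 98)) (PT.nd (nat_lit 78) (PT.lf (nat_lit 4408) (nat_lit 6) (nat_lit 58) (nat_lit 2) (nat_lit 175) (nat_lit 178) (nat_lit 97)) (PT.lf (nat_lit 4256) (nat_lit 6) (nat_lit 56) (nat_lit 2) (nat_lit 176) (nat_lit 178) (nat_lit 96))))))))
noncomputable def pc59 : PT := (PT.nd (nat_lit 46956) (PT.nd (nat_lit 40248) (PT.nd (nat_lit 312) (PT.nd (nat_lit 156) (PT.nd (nat_lit 78) (PT.lf (nat_lit 4104) (nat_lit 6) (nat_lit 54) (nat_lit 2) (nat_lit 177) (nat_lit 178) (nat_lit 95)) (PT.lf (nat_lit 3952) (nat_lit 3) (nat_lit 52) (nat_lit 0) (nat_lit 178) (nat_lit 178) (nat_lit 94))) (PT.nd (nat_lit 78) (PT.lf (nat_lit 3724) (nat_lit 6) (nat_lit 49) (nat_lit 0) (nat_lit 179) (nat_lit 178) (nat_lit 93)) (PT.lf (nat_lit 3496) (nat_lit 6) (nat_lit 46) (nat_lit 0)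 (nat_lit 180) (nat_lit 178) (nat_lit 92)))) (PT.nd (nat_lit 39780) (PT.nd (nat_lit 39702) (PT.lf (nat_lit 3344) (nat_lit 6) (nat_lit 44) (nat_lit 0) (nat_lit 181) (nat_lit 178) (nat_lit 91)) (PT.lf (nat_lit 3040) (nat_lit 6) (nat_lit 40) (nat_lit 5) (nat_lit 89) (nat_lit 179) (nat_lit 182))) (PT.nd (nat_lit 78) (PT.lf (nat_lit 3192) (nat_lit 6) (nat_lit 42) (nat_lit 5) (nat_lit 90) (nat_lit 179) (nat_lit 181)) (PT.lf (nat_lit 3420) (nat_lit 6) (nat_lit 45) (nat_lit 5) (nat_lit 91) (nat_lit 179) (nat_lit 180))))) (PT.nd (nat_lit 312) (PT.nd (nat_lit 156) (PT.nd (nat_lit 78) (PT.lf (nat_lit 3572) (nat_lit 3) (nat_lit 47) (nat_lit 4) (nat_lit 92) (nat_lit 179) (nat_lit 179)) (PT.lf (nat_lit 3724) (nat_lit 6) (nat_lit 49) (nat_lit 4) (nat_lit 93) (nat_lit 179) (nat_lit 178))) (PT.nd (nat_lit 78) (PT.lf (nat_lit 3876) (nat_lit 6) (nat_lit 51) (nat_lit 4) (nat_lit 94) (nat_lit 179) (nat_lit 177)) (PT.lf (nat_lit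 4028) (nat_lit 6) (nat_lit 53) (nat_lit 4) (nat_lit 95) (nat_lit 179) (nat_lit 176)))) (PT.nd (nat_lit 6240) (PT.nd (nat_lit 6162) (PT.lf (nat_lit 4180) (nat_lit 6) (nat_lit 55) (nat_lit 4) (nat_lit 96) (nat_lit 179) (nat_lit 175)) (PT.lf (nat_lit 4180) (nat_lit 6) (nat_lit 55) (nat_lit 2) (nat_lit 175) (nat_lit 179) (nat_lit 96))) (PT.nd (nat_lit 78) (PT.lf (nat_lit 4028) (nat_lit 6) (nat_lit 53) (nat_lit 2) (nat_lit 176) (nat_lit 179) (nat_lit 95)) (PT.lf (nat_lit 3876) (nat_lit 6) (nat_lit 51) (nat_lit 2) (nat_lit 177) (nat_lit 179) (nat_lit 94)))))) (PT.nd (nat_lit 40014) (PT.nd (nat_lit 312) (PT.nd (nat_lit 156) (PT.nd (nat_lit 78) (PT.lf (nat_lit 3724) (nat_lit 6) (nat_lit 49) (nat_lit 2) (nat_lit 178) (nat_lit 179) (nat_lit 93)) (PT.lf (nat_lit 3572) (nat_lit 3) (nat_lit 47) (nat_lit 0) (nat_lit 179) (nat_lit 179) (nat_lit 92))) (PT.nd (nat_lit 78) (PT.lf (nat_lit 3420) (nat_lit 6) (nat_lit 45) (nat_lit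 0) (nat_lit 180) (nat_lit 179) (nat_lit 91)) (PT.lf (nat_lit 3192) (nat_lit 6) (nat_lit 42) (nat_lit 0) (nat_lit 181) (nat_lit 179) (nat_lit 90)))) (PT.nd (nat_lit 39546) (PT.nd (nat_lit 39468) (PT.lf (nat_lit 3040) (nat_lit 6) (nat_lit 40) (nat_lit 0) (nat_lit 182) (nat_lit 179) (nat_lit 89)) (PT.lf (nat_lit 2736) (nat_lit 6) (nat_lit 36) (nat_lit 5) (nat_lit 87) (nat_lit 180) (nat_lit 183))) (PT.nd (nat_lit 78) (PT.lf (nat_lit 2888) (nat_lit 6) (nat_lit 38) (nat_lit 5) (nat_lit 88) (nat_lit 180) (nat_lit 182)) (PT.lf (nat_lit 3116) (nat_lit 6) (nat_lit 41) (nat_lit 5) (nat_lit 89) (nat_lit 180) (nat_lit 181))))) (PT.nd (nat_lit 6786) (PT.nd (nat_lit 156) (PT.nd (nat_lit 78) (PT.lf (nat_lit 3268) (nat_lit 3) (nat_lit 43) (nat_lit 4) (nat_lit 90) (nat_lit 180) (nat_lit 180)) (PT.lf (nat_lit 3420) (nat_lit 6) (nat_lit 45) (nat_lit 4) (nat_lit 91) (nat_lit 180) (nat_lit 179))) (PT.nd (nat_lit 78) (PT.lf (nat_lit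 3496) (nat_lit 6) (nat_lit 46) (nat_lit 4) (nat_lit 92) (nat_lit 180) (nat_lit 178)) (PT.lf (nat_lit 3648) (nat_lit 6) (nat_lit 48) (nat_lit 4) (nat_lit 93) (nat_lit 180) (nat_lit 177)))) (PT.nd (nat_lit 156) (PT.nd (nat_lit 78) (PT.lf (nat_lit 3648) (nat_lit 6) (nat_lit 48) (nat_lit 2) (nat_lit 177) (nat_lit 180) (nat_lit 93)) (PT.lf (nat_lit 3496) (nat_lit 6) (nat_lit 46) (nat_lit 2) (nat_lit 178) (nat_lit 180) (nat_lit 92))) (PT.nd (nat_lit 78) (PT.lf (nat_lit 3420) (nat_lit 6) (nat_lit 45) (nat_lit 2) (nat_lit 179) (nat_lit 180) (nat_lit 91)) (PT.nd (nat_lit 78) (PT.lf (nat_lit 3268) (nat_lit 3) (nat_lit 43) (nat_lit 0) (nat_lit 180) (nat_lit 180) (nat_lit 90)) (PT.lf (nat_lit 3116) (nat_lit 6) (nat_lit 41) (nat_lit 0) (nat_lit 181) (nat_lit 180) (nat_lit 89))))))))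
noncomputable def pc60 : PT := (PT.nd (nat_lit 86112) (PT.nd (nat_lit 39780) (PT.nd (nat_lit 39468) (PT.nd (nat_lit 39312) (PT.nd (nat_lit 78) (PT.lf (nat_lit 2888) (nat_lit 6) (nat_lit 38) (nat_lit 0) (nat_lit 182) (nat_lit 180) (nat_lit 88)) (PT.lf (nat_lit 2736) (nat_lit 6) (nat_lit 36) (nat_lit 0) (nat_lit 183) (nat_lit 180) (nat_lit 87))) (PT.nd (nat_lit 78) (PT.lf (nat_lit 2432) (nat_lit 6) (nat_lit 32) (nat_lit 5) (nat_lit 85) (nat_lit 181) (nat_lit 184)) (PT.lf (nat_lit 2584) (nat_lit 6) (nat_lit 34) (nat_lit 5) (nat_lit 86) (nat_lit 181) (nat_lit 183)))) (PT.nd (nat_lit 156) (PT.nd (nat_lit 78) (PT.lf (nat_lit 2812) (nat_lit 6) (nat_lit 37) (nat_lit 5) (nat_lit 87) (nat_lit 181) (nat_lit 182)) (PT.lf (nat_lit 2964) (nat_lit 3) (nat_lit 39) (nat_lit 4) (nat_lit 88) (nat_lit 181) (nat_lit 181))) (PT.nd (nat_lit 78) (PT.lf (nat_lit 3116) (nat_lit 6) (nat_lit 41) (nat_lit 4) (nat_lit 89) (nat_lit 181)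 (nat_lit 180)) (PT.lf (nat_lit 3192) (nat_lit 6) (nat_lit 42) (nat_lit 4) (nat_lit 90) (nat_lit 181) (nat_lit 179))))) (PT.nd (nat_lit 7020) (PT.nd (nat_lit 6864) (PT.nd (nat_lit 6786) (PT.lf (nat_lit 3344) (nat_lit 6) (nat_lit 44) (nat_lit 4) (nat_lit 91) (nat_lit 181) (nat_lit 178)) (PT.lf (nat_lit 3344) (nat_lit 6) (nat_lit 44) (nat_lit 2) (nat_lit 178) (nat_lit 181) (nat_lit 91))) (PT.nd (nat_lit 78) (PT.lf (nat_lit 3192) (nat_lit 6) (nat_lit 42) (nat_lit 2) (nat_lit 179) (nat_lit 181) (nat_lit 90)) (PT.lf (nat_lit 3116) (nat_lit 6) (nat_lit 41) (nat_lit 2) (nat_lit 180) (nat_lit 181) (nat_lit 89)))) (PT.nd (nat_lit 156) (PT.nd (nat_lit 78) (PT.lf (nat_lit 2964) (nat_lit 3) (nat_lit 39) (nat_lit 0) (nat_lit 181) (nat_lit 181) (nat_lit 88)) (PT.lf (nat_lit 2812) (nat_lit 6) (nat_lit 37) (nat_lit 0) (nat_lit 182) (nat_lit 181) (nat_lit 87))) (PT.nd (nat_lit 78) (PT.lf (nat_lit 2584) (nat_lit 6) (nat_lit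 34) (nat_lit 0) (nat_lit 183) (nat_lit 181) (nat_lit 86)) (PT.lf (nat_lit 2432) (nat_lit 6) (nat_lit 32) (nat_lit 0) (nat_lit 184) (nat_lit 181) (nat_lit 85)))))) (PT.nd (nat_lit 7566) (PT.nd (nat_lit 312) (PT.nd (nat_lit 156) (PT.nd (nat_lit 78) (PT.lf (nat_lit 2280) (nat_lit 6) (nat_lit 30) (nat_lit 5) (nat_lit 84) (nat_lit 182) (nat_lit 184)) (PT.lf (nat_lit 2508) (nat_lit 6) (nat_lit 33) (nat_lit 5) (nat_lit 85) (nat_lit 182) (nat_lit 183))) (PT.nd (nat_lit 78) (PT.lf (nat_lit 2660) (nat_lit 3) (nat_lit 35) (nat_lit 4) (nat_lit 86) (nat_lit 182) (nat_lit 182)) (PT.lf (nat_lit 2812) (nat_lit 6) (nat_lit 37) (nat_lit 4) (nat_lit 87) (nat_lit 182) (nat_lit 181)))) (PT.nd (nat_lit 7098) (PT.nd (nat_lit 78) (PT.lf (nat_lit 2888) (nat_lit 6) (nat_lit 38) (nat_lit 4) (nat_lit 88) (nat_lit 182) (nat_lit 180)) (PT.lf (nat_lit 3040) (nat_lit 6) (nat_lit 40) (nat_lit 4) (nat_lit 89) (nat_lit 182) (nat_lit 179)))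 (PT.nd (nat_lit 78) (PT.lf (nat_lit 3040) (nat_lit 6) (nat_lit 40) (nat_lit 2) (nat_lit 179) (nat_lit 182) (nat_lit 89)) (PT.lf (nat_lit 2888) (nat_lit 6) (nat_lit 38) (nat_lit 2) (nat_lit 180) (nat_lit 182) (nat_lit 88))))) (PT.nd (nat_lit 39156) (PT.nd (nat_lit 156) (PT.nd (nat_lit 78) (PT.lf (nat_lit 2812) (nat_lit 6) (nat_lit 37) (nat_lit 2) (nat_lit 181) (nat_lit 182) (nat_lit 87)) (PT.lf (nat_lit 2660) (nat_lit 3) (nat_lit 35) (nat_lit 0) (nat_lit 182) (nat_lit 182) (nat_lit 86))) (PT.nd (nat_lit 78) (PT.lf (nat_lit 2508) (nat_lit 6) (nat_lit 33) (nat_lit 0) (nat_lit 183) (nat_lit 182) (nat_lit 85)) (PT.lf (nat_lit 2280) (nat_lit 6) (nat_lit 30) (nat_lit 0) (nat_lit 184) (nat_lit 182) (nat_lit 84)))) (PT.nd (nat_lit 156) (PT.nd (nat_lit 78) (PT.lf (nat_lit 2052) (nat_lit 6) (nat_lit 27) (nat_lit 5) (nat_lit 82) (nat_lit 183) (nat_lit 185)) (PT.lf (nat_lit 2204) (nat_lit 6) (nat_lit 29) (nat_lit 5)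 (nat_lit 83) (nat_lit 183) (nat_lit 184))) (PT.nd (nat_lit 78) (PT.lf (nat_lit 2356) (nat_lit 3) (nat_lit 31) (nat_lit 4) (nat_lit 84) (nat_lit 183) (nat_lit 183)) (PT.nd (nat_lit 78) (PT.lf (nat_lit 2508) (nat_lit 6) (nat_lit 33) (nat_lit 4) (nat_lit 85) (nat_lit 183) (nat_lit 182)) (PT.lf (nat_lit 2584) (nat_lit 6) (nat_lit 34) (nat_lit 4) (nat_lit 86) (nat_lit 183) (nat_lit 181))))))))
noncomputable def pc61 : PT := (PT.nd (nat_lit 54444) (PT.nd (nat_lit 46410) (PT.nd (nat_lit 7488) (PT.nd (nat_lit 7332) (PT.nd (nat_lit 7254) (PT.lf (nat_lit 2736) (nat_lit 6) (nat_lit 36) (nat_lit 4) (nat_lit 87) (nat_lit 183) (nat_lit 180)) (PT.lf (nat_lit 2736) (nat_lit 6) (nat_lit 36) (nat_lit 2) (nat_lit 180) (nat_lit 183) (nat_lit 87))) (PT.nd (nat_lit 78) (PT.lf (nat_lit 2584) (nat_lit 6) (nat_lit 34) (nat_lit 2) (nat_lit 181) (nat_lit 183) (nat_lit 86)) (PT.lf (nat_lit 2508) (nat_lit 6) (nat_lit 33) (nat_lit 2)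 (nat_lit 182) (nat_lit 183) (nat_lit 85)))) (PT.nd (nat_lit 156) (PT.nd (nat_lit 78) (PT.lf (nat_lit 2356) (nat_lit 3) (nat_lit 31) (nat_lit 0) (nat_lit 183) (nat_lit 183) (nat_lit 84)) (PT.lf (nat_lit 2204) (nat_lit 6) (nat_lit 29) (nat_lit 0) (nat_lit 184) (nat_lit 183) (nat_lit 83))) (PT.nd (nat_lit 38688) (PT.lf (nat_lit 2052) (nat_lit 6) (nat_lit 27) (nat_lit 0) (nat_lit 185) (nat_lit 183) (nat_lit 82)) (PT.lf (nat_lit 1824) (nat_lit 6) (nat_lit 24) (nat_lit 5) (nat_lit 80) (nat_lit 184) (nat_lit 186))))) (PT.nd (nat_lit 312) (PT.nd (nat_lit 156) (PT.nd (nat_lit 78) (PT.lf (nat_lit 1976) (nat_lit 6) (nat_lit 26) (nat_lit 5) (nat_lit 81) (nat_lit 184) (nat_lit 185)) (PT.lf (nat_lit 2128) (nat_lit 3) (nat_lit 28) (nat_lit 4) (nat_lit 82) (nat_lit 184) (nat_lit 184))) (PT.nd (nat_lit 78) (PT.lf (nat_lit 2204) (nat_lit 6) (nat_lit 29) (nat_lit 4) (nat_lit 83) (nat_lit 184) (nat_lit 183)) (PT.lf (nat_lit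 2280) (nat_lit 6) (nat_lit 30) (nat_lit 4) (nat_lit 84) (nat_lit 184) (nat_lit 182)))) (PT.nd (nat_lit 7566) (PT.nd (nat_lit 7488) (PT.lf (nat_lit 2432) (nat_lit 6) (nat_lit 32) (nat_lit 4) (nat_lit 85) (nat_lit 184) (nat_lit 181)) (PT.lf (nat_lit 2432) (nat_lit 6) (nat_lit 32) (nat_lit 2) (nat_lit 181) (nat_lit 184) (nat_lit 85))) (PT.nd (nat_lit 78) (PT.lf (nat_lit 2280) (nat_lit 6) (nat_lit 30) (nat_lit 2) (nat_lit 182) (nat_lit 184) (nat_lit 84)) (PT.lf (nat_lit 2204) (nat_lit 6) (nat_lit 29) (nat_lit 2) (nat_lit 183) (nat_lit 184) (nat_lit 83)))))) (PT.nd (nat_lit 46800) (PT.nd (nat_lit 38688) (PT.nd (nat_lit 156) (PT.nd (nat_lit 78) (PT.lf (nat_lit 2128) (nat_lit 3) (nat_lit 28) (nat_lit 0) (nat_lit 184) (nat_lit 184) (nat_lit 82)) (PT.lf (nat_lit 1976) (nat_lit 6) (nat_lit 26) (nat_lit 0) (nat_lit 185) (nat_lit 184) (nat_lit 81))) (PT.nd (nat_lit 38454) (PT.lf (nat_lit 1824) (nat_lit 6) (nat_lit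 24) (nat_lit 0) (nat_lit 186) (nat_lit 184) (nat_lit 80)) (PT.lf (nat_lit 1596) (nat_lit 6) (nat_lit 21) (nat_lit 5) (nat_lit 78) (nat_lit 185) (nat_lit 187)))) (PT.nd (nat_lit 156) (PT.nd (nat_lit 78) (PT.lf (nat_lit 1748) (nat_lit 6) (nat_lit 23) (nat_lit 5) (nat_lit 79) (nat_lit 185) (nat_lit 186)) (PT.lf (nat_lit 1900) (nat_lit 3) (nat_lit 25) (nat_lit 4) (nat_lit 80) (nat_lit 185) (nat_lit 185))) (PT.nd (nat_lit 78) (PT.lf (nat_lit 1976) (nat_lit 6) (nat_lit 26) (nat_lit 4) (nat_lit 81) (nat_lit 185) (nat_lit 184)) (PT.lf (nat_lit 2052) (nat_lit 6) (nat_lit 27) (nat_lit 4) (nat_lit 82) (nat_lit 185) (nat_lit 183))))) (PT.nd (nat_lit 312) (PT.nd (nat_lit 156) (PT.nd (nat_lit 78) (PT.lf (nat_lit 2052) (nat_lit 6) (nat_lit 27) (nat_lit 2) (nat_lit 183) (nat_lit 185) (nat_lit 82)) (PT.lf (nat_lit 1976) (nat_lit 6) (nat_lit 26) (nat_lit 2) (nat_lit 184) (nat_lit 185) (nat_lit 81))) (PT.nd (nat_lit 78) (PT.lf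 (nat_lit 1900) (nat_lit 3) (nat_lit 25) (nat_lit 0) (nat_lit 185) (nat_lit 185) (nat_lit 80)) (PT.lf (nat_lit 1748) (nat_lit 6) (nat_lit 23) (nat_lit 0) (nat_lit 186) (nat_lit 185) (nat_lit 79)))) (PT.nd (nat_lit 38298) (PT.nd (nat_lit 38220) (PT.lf (nat_lit 1596) (nat_lit 6) (nat_lit 21) (nat_lit 0) (nat_lit 187) (nat_lit 185) (nat_lit 78)) (PT.lf (nat_lit 1368) (nat_lit 6) (nat_lit 18) (nat_lit 5) (nat_lit 76) (nat_lit 186) (nat_lit 188))) (PT.nd (nat_lit 78) (PT.lf (nat_lit 1520) (nat_lit 6) (nat_lit 20) (nat_lit 5) (nat_lit 77) (nat_lit 186) (nat_lit 187)) (PT.nd (nat_lit 78) (PT.lf (nat_lit 1672) (nat_lit 3) (nat_lit 22) (nat_lit 4) (nat_lit 78) (nat_lit 186) (nat_lit 186)) (PT.lf (nat_lit 1748) (nat_lit 6) (nat_lit 23) (nat_lit 4) (nat_lit 79) (nat_lit 186) (nat_lit 185))))))))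
noncomputable def pc62 : PT := (PT.nd (nat_lit 93132) (PT.nd (nat_lit 46566) (PT.nd (nat_lit 8346) (PT.nd (nat_lit 8190) (PT.nd (nat_lit 8112) (PT.lf (nat_lit 1824) (nat_lit 6) (nat_lit 24) (nat_lit 4) (nat_lit 80) (nat_lit 186) (nat_lit 184)) (PT.lf (nat_lit 1824) (nat_lit 6) (nat_lit 24) (nat_lit 2) (nat_lit 184) (nat_lit 186) (nat_lit 80))) (PT.nd (nat_lit 78) (PT.lf (nat_lit 1748) (nat_lit 6) (nat_lit 23) (nat_lit 2) (nat_lit 185) (nat_lit 186) (nat_lit 79)) (PT.lf (nat_lit 1672) (nat_lit 3) (nat_lit 22) (nat_lit 0) (nat_lit 186) (nat_lit 186) (nat_lit 78)))) (PT.nd (nat_lit 38064) (PT.nd (nat_lit 78) (PT.lf (nat_lit 1520) (nat_lit 6) (nat_lit 20) (nat_lit 0) (nat_lit 187) (nat_lit 186) (nat_lit 77)) (PT.lf (nat_lit 1368) (nat_lit 6) (nat_lit 18) (nat_lit 0) (nat_lit 188) (nat_lit 186) (nat_lit 76))) (PT.nd (nat_lit 78) (PT.lf (nat_lit 1140) (nat_lit 6) (nat_lit 15) (nat_lit 5) (nat_lit 74) (nat_lit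 187) (nat_lit 189)) (PT.lf (nat_lit 1292) (nat_lit 6) (nat_lit 17) (nat_lit 5) (nat_lit 75) (nat_lit 187) (nat_lit 188))))) (PT.nd (nat_lit 8580) (PT.nd (nat_lit 156) (PT.nd (nat_lit 78) (PT.lf (nat_lit 1444) (nat_lit 3) (nat_lit 19) (nat_lit 4) (nat_lit 76) (nat_lit 187) (nat_lit 187)) (PT.lf (nat_lit 1520) (nat_lit 6) (nat_lit 20) (nat_lit 4) (nat_lit 77) (nat_lit 187) (nat_lit 186))) (PT.nd (nat_lit 8346) (PT.lf (nat_lit 1596) (nat_lit 6) (nat_lit 21) (nat_lit 4) (nat_lit 78) (nat_lit 187) (nat_lit 185)) (PT.lf (nat_lit 1596) (nat_lit 6) (nat_lit 21) (nat_lit 2) (nat_lit 185) (nat_lit 187) (nat_lit 78)))) (PT.nd (nat_lit 156) (PT.nd (nat_lit 78) (PT.lf (nat_lit 1520) (nat_lit 6) (nat_lit 20) (nat_lit 2) (nat_lit 186) (nat_lit 187) (nat_lit 77)) (PT.lf (nat_lit 1444) (nat_lit 3) (nat_lit 19) (nat_lit 0) (nat_lit 187) (nat_lit 187) (nat_lit 76))) (PT.nd (nat_lit 78) (PT.lf (nat_lit 1292) (nat_lit 6) (nat_lit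 17) (nat_lit 0) (nat_lit 188) (nat_lit 187) (nat_lit 75)) (PT.lf (nat_lit 1140) (nat_lit 6) (nat_lit 15) (nat_lit 0) (nat_lit 189) (nat_lit 187) (nat_lit 74)))))) (PT.nd (nat_lit 9126) (PT.nd (nat_lit 312) (PT.nd (nat_lit 156) (PT.nd (nat_lit 78) (PT.lf (nat_lit 912) (nat_lit 6) (nat_lit 12) (nat_lit 5) (nat_lit 72) (nat_lit 188) (nat_lit 190)) (PT.lf (nat_lit 1064) (nat_lit 6) (nat_lit 14) (nat_lit 5) (nat_lit 73) (nat_lit 188) (nat_lit 189))) (PT.nd (nat_lit 78) (PT.lf (nat_lit 1216) (nat_lit 3) (nat_lit 16) (nat_lit 4) (nat_lit 74) (nat_lit 188) (nat_lit 188)) (PT.lf (nat_lit 1292) (nat_lit 6) (nat_lit 17) (nat_lit 4) (nat_lit 75) (nat_lit 188) (nat_lit 187)))) (PT.nd (nat_lit 8658) (PT.nd (nat_lit 8580) (PT.lf (nat_lit 1368) (nat_lit 6) (nat_lit 18) (nat_lit 4) (nat_lit 76) (nat_lit 188) (nat_lit 186)) (PT.lf (nat_lit 1368) (nat_lit 6) (nat_lit 18) (nat_lit 2) (nat_lit 186) (nat_lit 188) (nat_lit 76)))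 (PT.nd (nat_lit 78) (PT.lf (nat_lit 1292) (nat_lit 6) (nat_lit 17) (nat_lit 2) (nat_lit 187) (nat_lit 188) (nat_lit 75)) (PT.lf (nat_lit 1216) (nat_lit 3) (nat_lit 16) (nat_lit 0) (nat_lit 188) (nat_lit 188) (nat_lit 74))))) (PT.nd (nat_lit 37752) (PT.nd (nat_lit 37596) (PT.nd (nat_lit 78) (PT.lf (nat_lit 1064) (nat_lit 6) (nat_lit 14) (nat_lit 0) (nat_lit 189) (nat_lit 188) (nat_lit 73)) (PT.lf (nat_lit 912) (nat_lit 6) (nat_lit 12) (nat_lit 0) (nat_lit 190) (nat_lit 188) (nat_lit 72))) (PT.nd (nat_lit 78) (PT.lf (nat_lit 684) (nat_lit 6) (nat_lit 9) (nat_lit 5) (nat_lit 70) (nat_lit 189) (nat_lit 191)) (PT.lf (nat_lit 836) (nat_lit 6) (nat_lit 11) (nat_lit 5) (nat_lit 71) (nat_lit 189) (nat_lit 190)))) (PT.nd (nat_lit 156) (PT.nd (nat_lit 78) (PT.lf (nat_lit 988) (nat_lit 3) (nat_lit 13) (nat_lit 4) (nat_lit 72) (nat_lit 189) (nat_lit 189)) (PT.lf (nat_lit 1064) (nat_lit 6) (nat_lit 14) (nat_lit 4) (nat_lit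 73) (nat_lit 189) (nat_lit 188))) (PT.nd (nat_lit 8814) (PT.lf (nat_lit 1140) (nat_lit 6) (nat_lit 15) (nat_lit 4) (nat_lit 74) (nat_lit 189) (nat_lit 187)) (PT.nd (nat_lit 78) (PT.lf (nat_lit 1140) (nat_lit 6) (nat_lit 15) (nat_lit 2) (nat_lit 187) (nat_lit 189) (nat_lit 74)) (PT.lf (nat_lit 1064) (nat_lit 6) (nat_lit 14) (nat_lit 2) (nat_lit 188) (nat_lit 189) (nat_lit 73))))))))
noncomputable def pc63 : PT := (PT.nd (nat_lit 84474) (PT.nd (nat_lit 46800) (PT.nd (nat_lit 37518) (PT.nd (nat_lit 156) (PT.nd (nat_lit 78) (PT.lf (nat_lit 988) (nat_lit 3) (nat_lit 13) (nat_lit 0) (nat_lit 189) (nat_lit 189) (nat_lit 72)) (PT.lf (nat_lit 836) (nat_lit 6) (nat_lit 11) (nat_lit 0) (nat_lit 190) (nat_lit 189) (nat_lit 71))) (PT.nd (nat_lit 37284) (PT.lf (nat_lit 684) (nat_lit 6) (nat_lit 9) (nat_lit 0) (nat_lit 191) (nat_lit 189) (nat_lit 70)) (PT.lf (nat_lit 456) (nat_lit 6) (nat_lit 6) (nat_lit 5) (nat_lit 68)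 (nat_lit 190) (nat_lit 192)))) (PT.nd (nat_lit 156) (PT.nd (nat_lit 78) (PT.lf (nat_lit 608) (nat_lit 6) (nat_lit 8) (nat_lit 5) (nat_lit 69) (nat_lit 190) (nat_lit 191)) (PT.lf (nat_lit 760) (nat_lit 3) (nat_lit 10) (nat_lit 4) (nat_lit 70) (nat_lit 190) (nat_lit 190))) (PT.nd (nat_lit 78) (PT.lf (nat_lit 836) (nat_lit 6) (nat_lit 11) (nat_lit 4) (nat_lit 71) (nat_lit 190) (nat_lit 189)) (PT.lf (nat_lit 912) (nat_lit 6) (nat_lit 12) (nat_lit 4) (nat_lit 72) (nat_lit 190) (nat_lit 188))))) (PT.nd (nat_lit 312) (PT.nd (nat_lit 156) (PT.nd (nat_lit 78) (PT.lf (nat_lit 912) (nat_lit 6) (nat_lit 12) (nat_lit 2) (nat_lit 188) (nat_lit 190) (nat_lit 72)) (PT.lf (nat_lit 836) (nat_lit 6) (nat_lit 11) (nat_lit 2) (nat_lit 189) (nat_lit 190) (nat_lit 71))) (PT.nd (nat_lit 78) (PT.lf (nat_lit 760) (nat_lit 3) (nat_lit 10) (nat_lit 0) (nat_lit 190) (nat_lit 190) (nat_lit 70)) (PT.lf (nat_lit 608) (nat_lit 6) (nat_lit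 8) (nat_lit 0) (nat_lit 191) (nat_lit 190) (nat_lit 69)))) (PT.nd (nat_lit 37206) (PT.nd (nat_lit 37128) (PT.lf (nat_lit 456) (nat_lit 6) (nat_lit 6) (nat_lit 0) (nat_lit 192) (nat_lit 190) (nat_lit 68)) (PT.lf (nat_lit 380) (nat_lit 6) (nat_lit 5) (nat_lit 5) (nat_lit 67) (nat_lit 191) (nat_lit 192))) (PT.nd (nat_lit 78) (PT.lf (nat_lit 532) (nat_lit 3) (nat_lit 7) (nat_lit 4) (nat_lit 68) (nat_lit 191) (nat_lit 191)) (PT.lf (nat_lit 608) (nat_lit 6) (nat_lit 8) (nat_lit 4) (nat_lit 69) (nat_lit 191) (nat_lit 190)))))) (PT.nd (nat_lit 46722) (PT.nd (nat_lit 9516) (PT.nd (nat_lit 9360) (PT.nd (nat_lit 9282) (PT.lf (nat_lit 684) (nat_lit 6) (nat_lit 9) (nat_lit 4) (nat_lit 70) (nat_lit 191) (nat_lit 189)) (PT.lf (nat_lit 684) (nat_lit 6) (nat_lit 9) (nat_lit 2) (nat_lit 189) (nat_lit 191) (nat_lit 70))) (PT.nd (nat_lit 78) (PT.lf (nat_lit 608) (nat_lit 6) (nat_lit 8) (nat_lit 2) (nat_lit 190) (nat_lit 191)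 (nat_lit 69)) (PT.lf (nat_lit 532) (nat_lit 3) (nat_lit 7) (nat_lit 0) (nat_lit 191) (nat_lit 191) (nat_lit 68)))) (PT.nd (nat_lit 37050) (PT.nd (nat_lit 36972) (PT.lf (nat_lit 380) (nat_lit 6) (nat_lit 5) (nat_lit 0) (nat_lit 192) (nat_lit 191) (nat_lit 67)) (PT.lf (nat_lit 152) (nat_lit 6) (nat_lit 2) (nat_lit 5) (nat_lit 65) (nat_lit 192) (nat_lit 193))) (PT.nd (nat_lit 78) (PT.lf (nat_lit 304) (nat_lit 3) (nat_lit 4) (nat_lit 4) (nat_lit 66) (nat_lit 192) (nat_lit 192)) (PT.lf (nat_lit 380) (nat_lit 6) (nat_lit 5) (nat_lit 4) (nat_lit 67) (nat_lit 192) (nat_lit 191))))) (PT.nd (nat_lit 9750) (PT.nd (nat_lit 9594) (PT.nd (nat_lit 9516) (PT.lf (nat_lit 456) (nat_lit 6) (nat_lit 6) (nat_lit 4) (nat_lit 68) (nat_lit 192) (nat_lit 190)) (PT.lf (nat_lit 456) (nat_lit 6) (nat_lit 6) (nat_lit 2) (nat_lit 190) (nat_lit 192) (nat_lit 68))) (PT.nd (nat_lit 78) (PT.lf (nat_lit 380) (nat_lit 6) (nat_lit 5) (nat_lit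 2) (nat_lit 191) (nat_lit 192) (nat_lit 67)) (PT.lf (nat_lit 304) (nat_lit 3) (nat_lit 4) (nat_lit 0) (nat_lit 192) (nat_lit 192) (nat_lit 66)))) (PT.nd (nat_lit 36894) (PT.nd (nat_lit 36816) (PT.lf (nat_lit 152) (nat_lit 6) (nat_lit 2) (nat_lit 0) (nat_lit 193) (nat_lit 192) (nat_lit 65)) (PT.lf (nat_lit 76) (nat_lit 3) (nat_lit 1) (nat_lit 4) (nat_lit 64) (nat_lit 193) (nat_lit 193))) (PT.nd (nat_lit 9906) (PT.lf (nat_lit 152) (nat_lit 6) (nat_lit 2) (nat_lit 4) (nat_lit 65) (nat_lit 193) (nat_lit 192)) (PT.nd (nat_lit 78) (PT.lf (nat_lit 152) (nat_lit 6) (nat_lit 2) (nat_lit 2) (nat_lit 192) (nat_lit 193) (nat_lit 65)) (PT.lf (nat_lit 76) (nat_lit 3) (nat_lit 1) (nat_lit 0) (nat_lit 193) (nat_lit 193) (nat_lit 64))))))))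
noncomputable def xc0 : XT := (XT.nd (nat_lit 187356) (nat_lit 0) (nat_lit 0) (XT.nd (nat_lit 140244) (nat_lit 0) (nat_lit 0) (XT.nd (nat_lit 93444) (nat_lit 0) (nat_lit 0) (XT.nd (nat_lit 46800) (nat_lit 0) (nat_lit 0) (XT.nd (nat_lit 46644) (nat_lit 0) (nat_lit 0) (XT.lf (nat_lit 0) (nat_lit 38905897368) (nat_lit 76) (nat_lit 20893546077) (nat_lit 76) (nat_lit 20795485982) (nat_lit 4) (nat_lit 4) (nat_lit 5) (nat_lit 5) (nat_lit 5) (nat_lit 4) (nat_lit 451) (nat_lit 225) (nat_lit 224)) (XT.nd (nat_lit 78) (nat_lit 0) (nat_lit 0) (XT.lf (nat_lit 0) (nat_lit 6171369278) (nat_lit 76) (nat_lit 15442535865) (nat_lit 76) (nat_lit 15442535865) (nat_lit 4) (nat_lit 4) (nat_lit 5) (nat_lit 5) (nat_lit 5) (nat_lit 4) (nat_lit 448) (nat_lit 226) (nat_lit 226)) (XT.lf (nat_lit 0) (nat_lit 21042429143) (nat_lit 76) (nat_lit 27633485612) (nat_lit 76) (nat_lit 27532483715) (nat_lit 4) (nat_lit 4) (nat_lit 5) (nat_lit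 5) (nat_lit 5) (nat_lit 4) (nat_lit 449) (nat_lit 226) (nat_lit 225)))) (XT.nd (nat_lit 78) (nat_lit 0) (nat_lit 0) (XT.lf (nat_lit 0) (nat_lit 29842167185) (nat_lit 76) (nat_lit 24363072983) (nat_lit 76) (nat_lit 24164010991) (nat_lit 4) (nat_lit 4) (nat_lit 5) (nat_lit 5) (nat_lit 5) (nat_lit 4) (nat_lit 450) (nat_lit 226) (nat_lit 224)) (XT.nd (nat_lit 46488) (nat_lit 0) (nat_lit 76) (XT.lf (nat_lit 0) (nat_lit 38749641773) (nat_lit 76) (nat_lit 21070976199) (nat_lit 76) (nat_lit 20776710232) (nat_lit 4) (nat_lit 4) (nat_lit 5) (nat_lit 5) (nat_lit 5) (nat_lit 4) (nat_lit 451) (nat_lit 226) (nat_lit 223)) (XT.lf (nat_lit 0) (nat_lit 16374248307) (nat_lit 152) (nat_lit 2305474272) (nat_lit 0) (nat_lit 16374248307) (nat_lit 5) (nat_lit 5) (nat_lit 7) (nat_lit 4) (nat_lit 5) (nat_lit 4) (nat_lit 446) (nat_lit 227) (nat_lit 227))))) (XT.nd (nat_lit 234) (nat_lit 0) (nat_lit 0) (XT.nd (nat_lit 78) (nat_lit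 0) (nat_lit 0) (XT.lf (nat_lit 0) (nat_lit 3735493755) (nat_lit 76) (nat_lit 34224704483) (nat_lit 76) (nat_lit 34120672528) (nat_lit 4) (nat_lit 4) (nat_lit 5) (nat_lit 5) (nat_lit 5) (nat_lit 4) (nat_lit 447) (nat_lit 227) (nat_lit 226)) (XT.nd (nat_lit 78) (nat_lit 0) (nat_lit 0) (XT.lf (nat_lit 0) (nat_lit 12261077690) (nat_lit 76) (nat_lit 31029045903) (nat_lit 76) (nat_lit 30824012052) (nat_lit 4) (nat_lit 4) (nat_lit 5) (nat_lit 5) (nat_lit 5) (nat_lit 4) (nat_lit 448) (nat_lit 227) (nat_lit 225)) (XT.lf (nat_lit 0) (nat_lit 20881485881) (nat_lit 76) (nat_lit 27816238639) (nat_lit 76) (nat_lit 27513144692) (nat_lit 4) (nat_lit 4) (nat_lit 5) (nat_lit 5) (nat_lit 5) (nat_lit 4) (nat_lit 449) (nat_lit 227) (nat_lit 224)))) (XT.nd (nat_lit 46410) (nat_lit 0) (nat_lit 76) (XT.nd (nat_lit 78) (nat_lit 0) (nat_lit 0) (XT.lf (nat_lit 0) (nat_lit 29604250724) (nat_lit 76) (nat_lit 24583475381) (nat_lit 76)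 (nat_lit 24185177459) (nat_lit 4) (nat_lit 4) (nat_lit 5) (nat_lit 5) (nat_lit 5) (nat_lit 4) (nat_lit 450) (nat_lit 227) (nat_lit 223)) (XT.lf (nat_lit 0) (nat_lit 38436994051) (nat_lit 76) (nat_lit 21327931386) (nat_lit 76) (nat_lit 20837202420) (nat_lit 4) (nat_lit 4) (nat_lit 5) (nat_lit 5) (nat_lit 5) (nat_lit 4) (nat_lit 451) (nat_lit 227) (nat_lit 222))) (XT.nd (nat_lit 78) (nat_lit 0) (nat_lit 0) (XT.lf (nat_lit 0) (nat_lit 11372996423) (nat_lit 152) (nat_lit 10422471678) (nat_lit 0) (nat_lit 11372996423) (nat_lit 5) (nat_lit 5) (nat_lit 7) (nat_lit 4) (nat_lit 5) (nat_lit 4) (nat_lit 444) (nat_lit 228) (nat_lit 228)) (XT.lf (nat_lit 0) (nat_lit 27747511673) (nat_lit 152) (nat_lit 12806057502) (nat_lit 0) (nat_lit 27640358760) (nat_lit 5) (nat_lit 5) (nat_lit 7) (nat_lit 4) (nat_lit 5) (nat_lit 4) (nat_lit 445) (nat_lit 228) (nat_lit 227)))))) (XT.nd (nat_lit 46566) (nat_lit 0) (nat_lit 0) (XT.nd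 (nat_lit 234) (nat_lit 0) (nat_lit 0) (XT.nd (nat_lit 78) (nat_lit 76) (nat_lit 0) (XT.lf (nat_lit 0) (nat_lit 32813487844) (nat_lit 152) (nat_lit 4693417935) (nat_lit 0) (nat_lit 32602302977) (nat_lit 5) (nat_lit 5) (nat_lit 7) (nat_lit 4) (nat_lit 5) (nat_lit 4) (nat_lit 446) (nat_lit 228) (nat_lit 226)) (XT.nd (nat_lit 78) (nat_lit 0) (nat_lit 0) (XT.lf (nat_lit 0) (nat_lit 3569722195) (nat_lit 76) (nat_lit 34412940100) (nat_lit 76) (nat_lit 34100753335) (nat_lit 4) (nat_lit 4) (nat_lit 5) (nat_lit 5) (nat_lit 5) (nat_lit 4) (nat_lit 447) (nat_lit 228) (nat_lit 225)) (XT.lf (nat_lit 0) (nat_lit 12016023735) (nat_lit 76) (nat_lit 31256060374) (nat_lit 76) (nat_lit 30845813514) (nat_lit 4) (nat_lit 4) (nat_lit 5) (nat_lit 5) (nat_lit 5) (nat_lit 4) (nat_lit 448) (nat_lit 228) (nat_lit 224)))) (XT.nd (nat_lit 78) (nat_lit 0) (nat_lit 0) (XT.lf (nat_lit 0) (nat_lit 20559458727) (nat_lit 76) (nat_lit 28080902481)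 (nat_lit 76) (nat_lit 27575451646) (nat_lit 4) (nat_lit 4) (nat_lit 5) (nat_lit 5) (nat_lit 5) (nat_lit 4) (nat_lit 449) (nat_lit 228) (nat_lit 223)) (XT.nd (nat_lit 78) (nat_lit 0) (nat_lit 0) (XT.lf (nat_lit 0) (nat_lit 29207492308) (nat_lit 76) (nat_lit 24884692012) (nat_lit 76) (nat_lit 24286810133) (nat_lit 4) (nat_lit 4) (nat_lit 5) (nat_lit 5) (nat_lit 5) (nat_lit 4) (nat_lit 450) (nat_lit 228) (nat_lit 222)) (XT.lf (nat_lit 0) (nat_lit 37967681013) (nat_lit 76) (nat_lit 21664636161) (nat_lit 76) (nat_lit 20977015404) (nat_lit 4) (nat_lit 4) (nat_lit 5) (nat_lit 5) (nat_lit 5) (nat_lit 4) (nat_lit 451) (nat_lit 228) (nat_lit 221))))) (XT.nd (nat_lit 234) (nat_lit 76) (nat_lit 0) (XT.nd (nat_lit 78) (nat_lit 0) (nat_lit 0) (XT.lf (nat_lit 0) (nat_lit 6536997766) (nat_lit 152) (nat_lit 18321000458) (nat_lit 0) (nat_lit 6536997766) (nat_lit 5) (nat_lit 5) (nat_lit 7) (nat_lit 4) (nat_lit 5) (nat_lit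 4) (nat_lit 442) (nat_lit 229) (nat_lit 229)) (XT.nd (nat_lit 78) (nat_lit 0) (nat_lit 0) (XT.lf (nat_lit 0) (nat_lit 17914928609) (nat_lit 152) (nat_lit 28817099765) (nat_lit 0) (nat_lit 17804561109) (nat_lit 5) (nat_lit 5) (nat_lit 7) (nat_lit 4) (nat_lit 5) (nat_lit 4) (nat_lit 443) (nat_lit 229) (nat_lit 228)) (XT.lf (nat_lit 0) (nat_lit 22812933813) (nat_lit 152) (nat_lit 20929886828) (nat_lit 0) (nat_lit 22595413400) (nat_lit 5) (nat_lit 5) (nat_lit 7) (nat_lit 4) (nat_lit 5) (nat_lit 4) (nat_lit 444) (nat_lit 229) (nat_lit 227)))) (XT.nd (nat_lit 156) (nat_lit 76) (nat_lit 0) (XT.nd (nat_lit 78) (nat_lit 0) (nat_lit 0) (XT.lf (nat_lit 0) (nat_lit 27772290954) (nat_lit 152) (nat_lit 12973470365) (nat_lit 0) (nat_lit 27450738586) (nat_lit 5) (nat_lit 5) (nat_lit 7) (nat_lit 4) (nat_lit 5) (nat_lit 4) (nat_lit 445) (nat_lit 229) (nat_lit 226)) (XT.lf (nat_lit 0) (nat_lit 32797333452) (nat_lit 152) (nat_lit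 4940898167) (nat_lit 0) (nat_lit 32374779186) (nat_lit 5) (nat_lit 5) (nat_lit 7) (nat_lit 4) (nat_lit 5) (nat_lit 4) (nat_lit 446) (nat_lit 229) (nat_lit 225))) (XT.nd (nat_lit 78) (nat_lit 0) (nat_lit 0) (XT.lf (nat_lit 0) (nat_lit 3238034227) (nat_lit 76) (nat_lit 34685543858) (nat_lit 76) (nat_lit 34164929498) (nat_lit 4) (nat_lit 4) (nat_lit 5) (nat_lit 5) (nat_lit 5) (nat_lit 4) (nat_lit 447) (nat_lit 229) (nat_lit 224)) (XT.lf (nat_lit 0) (nat_lit 11607362567) (nat_lit 76) (nat_lit 31566313504) (nat_lit 76) (nat_lit 30950495168) (nat_lit 4) (nat_lit 4) (nat_lit 5) (nat_lit 5) (nat_lit 5) (nat_lit 4) (nat_lit 448) (nat_lit 229) (nat_lit 223))))))) (XT.nd (nat_lit 46956) (nat_lit 0) (nat_lit 0) (XT.nd (nat_lit 46410) (nat_lit 0) (nat_lit 0) (XT.nd (nat_lit 46176) (nat_lit 0) (nat_lit 76) (XT.nd (nat_lit 78) (nat_lit 0) (nat_lit 0) (XT.lf (nat_lit 0) (nat_lit 20076066298) (nat_lit 76) (nat_lit 28427708399)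 (nat_lit 76) (nat_lit 27719459019) (nat_lit 4) (nat_lit 4) (nat_lit 5) (nat_lit 5) (nat_lit 5) (nat_lit 4) (nat_lit 449) (nat_lit 229) (nat_lit 222)) (XT.nd (nat_lit 78) (nat_lit 0) (nat_lit 0) (XT.lf (nat_lit 0) (nat_lit 28651545256) (nat_lit 76) (nat_lit 25266986074) (nat_lit 76) (nat_lit 24468997817) (nat_lit 4) (nat_lit 4) (nat_lit 5) (nat_lit 5) (nat_lit 5) (nat_lit 4) (nat_lit 450) (nat_lit 229) (nat_lit 221)) (XT.lf (nat_lit 0) (nat_lit 37341292580) (nat_lit 76) (nat_lit 22081384732) (nat_lit 76) (nat_lit 21196271351) (nat_lit 4) (nat_lit 4) (nat_lit 5) (nat_lit 5) (nat_lit 5) (nat_lit 4) (nat_lit 451) (nat_lit 229) (nat_lit 220)))) (XT.nd (nat_lit 78) (nat_lit 0) (nat_lit 0) (XT.lf (nat_lit 0) (nat_lit 1853110950) (nat_lit 152) (nat_lit 26021026014) (nat_lit 0) (nat_lit 1853110950) (nat_lit 5) (nat_lit 5) (nat_lit 7) (nat_lit 4) (nat_lit 5) (nat_lit 4) (nat_lit 440) (nat_lit 230) (nat_lit 230))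 (XT.nd (nat_lit 78) (nat_lit 0) (nat_lit 0) (XT.lf (nat_lit 0) (nat_lit 8399583165) (nat_lit 152) (nat_lit 44411427574) (nat_lit 0) (nat_lit 8285904640) (nat_lit 5) (nat_lit 5) (nat_lit 7) (nat_lit 4) (nat_lit 5) (nat_lit 4) (nat_lit 441) (nat_lit 230) (nat_lit 229)) (XT.lf (nat_lit 0) (nat_lit 13142944727) (nat_lit 152) (nat_lit 36729492693) (nat_lit 0) (nat_lit 12918898701) (nat_lit 5) (nat_lit 5) (nat_lit 7) (nat_lit 4) (nat_lit 5) (nat_lit 4) (nat_lit 442) (nat_lit 230) (nat_lit 228))))) (XT.nd (nat_lit 234) (nat_lit 76) (nat_lit 0) (XT.nd (nat_lit 78) (nat_lit 0) (nat_lit 0) (XT.lf (nat_lit 0) (nat_lit 17940451269) (nat_lit 152) (nat_lit 28989535014) (nat_lit 0) (nat_lit 17609252330) (nat_lit 5) (nat_lit 5) (nat_lit 7) (nat_lit 4) (nat_lit 5) (nat_lit 4) (nat_lit 443) (nat_lit 230) (nat_lit 227)) (XT.nd (nat_lit 78) (nat_lit 0) (nat_lit 0) (XT.lf (nat_lit 0) (nat_lit 22796294789) (nat_lit 152) (nat_lit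 21184791467) (nat_lit 0) (nat_lit 22361063895) (nat_lit 5) (nat_lit 5) (nat_lit 7) (nat_lit 4) (nat_lit 5) (nat_lit 4) (nat_lit 444) (nat_lit 230) (nat_lit 226)) (XT.lf (nat_lit 0) (nat_lit 27714718256) (nat_lit 152) (nat_lit 13308442373) (nat_lit 0) (nat_lit 27178485465) (nat_lit 5) (nat_lit 5) (nat_lit 7) (nat_lit 4) (nat_lit 5) (nat_lit 4) (nat_lit 445) (nat_lit 230) (nat_lit 225)))) (XT.nd (nat_lit 156) (nat_lit 0) (nat_lit 0) (XT.nd (nat_lit 78) (nat_lit 76) (nat_lit 0) (XT.lf (nat_lit 0) (nat_lit 32700019323) (nat_lit 152) (nat_lit 5353605485) (nat_lit 0) (nat_lit 32065726437) (nat_lit 5) (nat_lit 5) (nat_lit 7) (nat_lit 4) (nat_lit 5) (nat_lit 4) (nat_lit 446) (nat_lit 230) (nat_lit 224)) (XT.lf (nat_lit 0) (nat_lit 2740140024) (nat_lit 76) (nat_lit 35042753953) (nat_lit 76) (nat_lit 34313257092) (nat_lit 4) (nat_lit 4) (nat_lit 5) (nat_lit 5) (nat_lit 5) (nat_lit 4) (nat_lit 447) (nat_lit 230) (nat_lit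 223))) (XT.nd (nat_lit 78) (nat_lit 0) (nat_lit 0) (XT.lf (nat_lit 0) (nat_lit 11034737104) (nat_lit 76) (nat_lit 31960076388) (nat_lit 76) (nat_lit 31138148482) (nat_lit 4) (nat_lit 4) (nat_lit 5) (nat_lit 5) (nat_lit 5) (nat_lit 4) (nat_lit 448) (nat_lit 230) (nat_lit 222)) (XT.lf (nat_lit 0) (nat_lit 19430886212) (nat_lit 76) (nat_lit 28856959427) (nat_lit 76) (nat_lit 27945292644) (nat_lit 4) (nat_lit 4) (nat_lit 5) (nat_lit 5) (nat_lit 5) (nat_lit 4) (nat_lit 449) (nat_lit 230) (nat_lit 221)))))) (XT.nd (nat_lit 46332) (nat_lit 0) (nat_lit 0) (XT.nd (nat_lit 46020) (nat_lit 0) (nat_lit 76) (XT.nd (nat_lit 78) (nat_lit 0) (nat_lit 0) (XT.lf (nat_lit 0) (nat_lit 27935923789) (nat_lit 76) (nat_lit 25730691611) (nat_lit 76) (nat_lit 24731899704) (nat_lit 4) (nat_lit 4) (nat_lit 5) (nat_lit 5) (nat_lit 5) (nat_lit 4) (nat_lit 450) (nat_lit 230) (nat_lit 220)) (XT.nd (nat_lit 45864) (nat_lit 0) (nat_lit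 228) (XT.lf (nat_lit 0) (nat_lit 36557281422) (nat_lit 76) (nat_lit 22578541248) (nat_lit 76) (nat_lit 21495161842) (nat_lit 4) (nat_lit 4) (nat_lit 5) (nat_lit 5) (nat_lit 5) (nat_lit 4) (nat_lit 451) (nat_lit 230) (nat_lit 219)) (XT.lf (nat_lit 0) (nat_lit 22826595504) (nat_lit 76) (nat_lit 2664776764) (nat_lit 76) (nat_lit 2664776764) (nat_lit 7) (nat_lit 4) (nat_lit 8) (nat_lit 5) (nat_lit 8) (nat_lit 4) (nat_lit 438) (nat_lit 231) (nat_lit 231)))) (XT.nd (nat_lit 156) (nat_lit 0) (nat_lit 0) (XT.nd (nat_lit 78) (nat_lit 152) (nat_lit 0) (XT.lf (nat_lit 0) (nat_lit 56113535519) (nat_lit 76) (nat_lit 934342516) (nat_lit 76) (nat_lit 813740968) (nat_lit 7) (nat_lit 4) (nat_lit 8) (nat_lit 5) (nat_lit 8) (nat_lit 4) (nat_lit 439) (nat_lit 231) (nat_lit 230)) (XT.lf (nat_lit 0) (nat_lit 3777239571) (nat_lit 152) (nat_lit 52132168557) (nat_lit 0) (nat_lit 3546472165) (nat_lit 5) (nat_lit 5) (nat_lit 7) (nat_lit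 4) (nat_lit 5) (nat_lit 4) (nat_lit 440) (nat_lit 231) (nat_lit 229))) (XT.nd (nat_lit 78) (nat_lit 0) (nat_lit 0) (XT.lf (nat_lit 0) (nat_lit 8425871505) (nat_lit 152) (nat_lit 44589035880) (nat_lit 0) (nat_lit 8084736598) (nat_lit 5) (nat_lit 5) (nat_lit 7) (nat_lit 4) (nat_lit 5) (nat_lit 4) (nat_lit 441) (nat_lit 231) (nat_lit 228)) (XT.lf (nat_lit 0) (nat_lit 13125806532) (nat_lit 152) (nat_lit 36992044471) (nat_lit 0) (nat_lit 12677518711) (nat_lit 5) (nat_lit 5) (nat_lit 7) (nat_lit 4) (nat_lit 5) (nat_lit 4) (nat_lit 442) (nat_lit 231) (nat_lit 227))))) (XT.nd (nat_lit 234) (nat_lit 76) (nat_lit 0) (XT.nd (nat_lit 78) (nat_lit 0) (nat_lit 0) (XT.lf (nat_lit 0) (nat_lit 17881151390) (nat_lit 152) (nat_lit 29334556182) (nat_lit 0) (nat_lit 17328831615) (nat_lit 5) (nat_lit 5) (nat_lit 7) (nat_lit 4) (nat_lit 5) (nat_lit 4) (nat_lit 443) (nat_lit 231) (nat_lit 226)) (XT.nd (nat_lit 78) (nat_lit 0)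 (nat_lit 0) (XT.lf (nat_lit 0) (nat_lit 22696061236) (nat_lit 152) (nat_lit 21609880004) (nat_lit 0) (nat_lit 22042739564) (nat_lit 5) (nat_lit 5) (nat_lit 7) (nat_lit 4) (nat_lit 5) (nat_lit 4) (nat_lit 444) (nat_lit 231) (nat_lit 225)) (XT.lf (nat_lit 0) (nat_lit 27574743272) (nat_lit 152) (nat_lit 13811266220) (nat_lit 0) (nat_lit 26823361505) (nat_lit 5) (nat_lit 5) (nat_lit 7) (nat_lit 4) (nat_lit 5) (nat_lit 4) (nat_lit 445) (nat_lit 231) (nat_lit 224)))) (XT.nd (nat_lit 156) (nat_lit 0) (nat_lit 0) (XT.nd (nat_lit 78) (nat_lit 76) (nat_lit 0) (XT.lf (nat_lit 0) (nat_lit 32521460425) (nat_lit 152) (nat_lit 5931900508) (nat_lit 0) (nat_lit 31674874683) (nat_lit 5) (nat_lit 5) (nat_lit 7) (nat_lit 4) (nat_lit 5) (nat_lit 4) (nat_lit 446) (nat_lit 231) (nat_lit 223)) (XT.lf (nat_lit 0) (nat_lit 2075604536) (nat_lit 76) (nat_lit 35484882512) (nat_lit 76) (nat_lit 34545865726) (nat_lit 4) (nat_lit 4) (nat_lit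 5) (nat_lit 5) (nat_lit 5) (nat_lit 4) (nat_lit 447) (nat_lit 231) (nat_lit 222))) (XT.nd (nat_lit 78) (nat_lit 0) (nat_lit 0) (XT.lf (nat_lit 0) (nat_lit 10297646993) (nat_lit 76) (nat_lit 32437693090) (nat_lit 76) (nat_lit 31408937426) (nat_lit 4) (nat_lit 4) (nat_lit 5) (nat_lit 5) (nat_lit 5) (nat_lit 4) (nat_lit 448) (nat_lit 231) (nat_lit 221)) (XT.lf (nat_lit 0) (nat_lit 18623354720) (nat_lit 76) (nat_lit 29369030639) (nat_lit 76) (nat_lit 28253149851) (nat_lit 4) (nat_lit 4) (nat_lit 5) (nat_lit 5) (nat_lit 5) (nat_lit 4) (nat_lit 449) (nat_lit 231) (nat_lit 220))))))))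
noncomputable def xc1 : XT := (XT.nd (nat_lit 93210) (nat_lit 0) (nat_lit 0) (XT.nd (nat_lit 46644) (nat_lit 0) (nat_lit 0) (XT.nd (nat_lit 46098) (nat_lit 0) (nat_lit 76) (XT.nd (nat_lit 45864) (nat_lit 0) (nat_lit 228) (XT.nd (nat_lit 78) (nat_lit 0) (nat_lit 0) (XT.lf (nat_lit 0) (nat_lit 27060002606) (nat_lit 76) (nat_lit 26276213802) (nat_lit 76) (nat_lit 25075745515) (nat_lit 4) (nat_lit 4) (nat_lit 5) (nat_lit 5) (nat_lit 5) (nat_lit 4) (nat_lit 450) (nat_lit 231) (nat_lit 219)) (XT.nd (nat_lit 45708) (nat_lit 0) (nat_lit 228) (XT.lf (nat_lit 0) (nat_lit 35614962482) (nat_lit 76) (nat_lit 23156540118) (nat_lit 76) (nat_lit 21873948046) (nat_lit 4) (nat_lit 4) (nat_lit 5) (nat_lit 5) (nat_lit 5) (nat_lit 4) (nat_lit 451) (nat_lit 231) (nat_lit 218)) (XT.lf (nat_lit 0) (nat_lit 12601160863) (nat_lit 76) (nat_lit 7038025992) (nat_lit 76) (nat_lit 7038025992) (nat_lit 7) (nat_lit 4) (nat_lit 8) (nat_lit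 5) (nat_lit 8) (nat_lit 4) (nat_lit 436) (nat_lit 232) (nat_lit 232)))) (XT.nd (nat_lit 78) (nat_lit 0) (nat_lit 0) (XT.lf (nat_lit 0) (nat_lit 35321862622) (nat_lit 76) (nat_lit 9806582998) (nat_lit 76) (nat_lit 9682363404) (nat_lit 7) (nat_lit 4) (nat_lit 8) (nat_lit 5) (nat_lit 8) (nat_lit 4) (nat_lit 437) (nat_lit 232) (nat_lit 231)) (XT.nd (nat_lit 78) (nat_lit 0) (nat_lit 0) (XT.lf (nat_lit 0) (nat_lit 45564066020) (nat_lit 76) (nat_lit 5497213102) (nat_lit 76) (nat_lit 5252391961) (nat_lit 7) (nat_lit 4) (nat_lit 8) (nat_lit 5) (nat_lit 8) (nat_lit 4) (nat_lit 438) (nat_lit 232) (nat_lit 230)) (XT.lf (nat_lit 0) (nat_lit 55937881416) (nat_lit 76) (nat_lit 1144176829) (nat_lit 76) (nat_lit 782266806) (nat_lit 7) (nat_lit 4) (nat_lit 8) (nat_lit 5) (nat_lit 8) (nat_lit 4) (nat_lit 439) (nat_lit 232) (nat_lit 229))))) (XT.nd (nat_lit 234) (nat_lit 0) (nat_lit 0) (XT.nd (nat_lit 78) (nat_lit 0) (nat_lit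 0) (XT.lf (nat_lit 0) (nat_lit 3759587231) (nat_lit 152) (nat_lit 52402596889) (nat_lit 0) (nat_lit 3297850776) (nat_lit 5) (nat_lit 5) (nat_lit 7) (nat_lit 4) (nat_lit 5) (nat_lit 4) (nat_lit 440) (nat_lit 232) (nat_lit 228)) (XT.nd (nat_lit 78) (nat_lit 0) (nat_lit 0) (XT.lf (nat_lit 0) (nat_lit 8364792630) (nat_lit 152) (nat_lit 44944407683) (nat_lit 0) (nat_lit 7795903262) (nat_lit 5) (nat_lit 5) (nat_lit 7) (nat_lit 4) (nat_lit 5) (nat_lit 4) (nat_lit 441) (nat_lit 232) (nat_lit 227)) (XT.lf (nat_lit 0) (nat_lit 13022565972) (nat_lit 152) (nat_lit 37429885665) (nat_lit 0) (nat_lit 12349644650) (nat_lit 5) (nat_lit 5) (nat_lit 7) (nat_lit 4) (nat_lit 5) (nat_lit 4) (nat_lit 442) (nat_lit 232) (nat_lit 226)))) (XT.nd (nat_lit 156) (nat_lit 0) (nat_lit 0) (XT.nd (nat_lit 78) (nat_lit 0) (nat_lit 0) (XT.lf (nat_lit 0) (nat_lit 17736977156) (nat_lit 152) (nat_lit 29852464745) (nat_lit 0) (nat_lit 16963053936)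 (nat_lit 5) (nat_lit 5) (nat_lit 7) (nat_lit 4) (nat_lit 5) (nat_lit 4) (nat_lit 443) (nat_lit 232) (nat_lit 225)) (XT.lf (nat_lit 0) (nat_lit 22512145571) (nat_lit 152) (nat_lit 22205523877) (nat_lit 0) (nat_lit 21640162257) (nat_lit 5) (nat_lit 5) (nat_lit 7) (nat_lit 4) (nat_lit 5) (nat_lit 4) (nat_lit 444) (nat_lit 232) (nat_lit 224))) (XT.nd (nat_lit 78) (nat_lit 0) (nat_lit 0) (XT.lf (nat_lit 0) (nat_lit 27352243694) (nat_lit 152) (nat_lit 14482381268) (nat_lit 0) (nat_lit 26385056404) (nat_lit 5) (nat_lit 5) (nat_lit 7) (nat_lit 4) (nat_lit 5) (nat_lit 4) (nat_lit 445) (nat_lit 232) (nat_lit 223)) (XT.lf (nat_lit 0) (nat_lit 32261500736) (nat_lit 152) (nat_lit 6676288541) (nat_lit 0) (nat_lit 31201882402) (nat_lit 5) (nat_lit 5) (nat_lit 7) (nat_lit 4) (nat_lit 5) (nat_lit 4) (nat_lit 446) (nat_lit 232) (nat_lit 222)))))) (XT.nd (nat_lit 46020) (nat_lit 0) (nat_lit 76) (XT.nd (nat_lit 234) (nat_lit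 0) (nat_lit 0) (XT.nd (nat_lit 78) (nat_lit 0) (nat_lit 0) (XT.lf (nat_lit 0) (nat_lit 1243847099) (nat_lit 76) (nat_lit 36012315860) (nat_lit 76) (nat_lit 34862958648) (nat_lit 4) (nat_lit 4) (nat_lit 5) (nat_lit 5) (nat_lit 5) (nat_lit 4) (nat_lit 447) (nat_lit 232) (nat_lit 221)) (XT.nd (nat_lit 78) (nat_lit 0) (nat_lit 0) (XT.lf (nat_lit 0) (nat_lit 9395448175) (nat_lit 76) (nat_lit 32999580947) (nat_lit 76) (nat_lit 31763098611) (nat_lit 4) (nat_lit 4) (nat_lit 5) (nat_lit 5) (nat_lit 5) (nat_lit 4) (nat_lit 448) (nat_lit 232) (nat_lit 220)) (XT.lf (nat_lit 0) (nat_lit 17652766211) (nat_lit 76) (nat_lit 29964369475) (nat_lit 76) (nat_lit 28643299640) (nat_lit 4) (nat_lit 4) (nat_lit 5) (nat_lit 5) (nat_lit 5) (nat_lit 4) (nat_lit 449) (nat_lit 232) (nat_lit 219)))) (XT.nd (nat_lit 45630) (nat_lit 0) (nat_lit 228) (XT.nd (nat_lit 78) (nat_lit 0) (nat_lit 0) (XT.lf (nat_lit 0) (nat_lit 26023016340) (nat_lit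 76) (nat_lit 26904029317) (nat_lit 76) (nat_lit 25500835697) (nat_lit 4) (nat_lit 4) (nat_lit 5) (nat_lit 5) (nat_lit 5) (nat_lit 4) (nat_lit 450) (nat_lit 232) (nat_lit 218)) (XT.lf (nat_lit 0) (nat_lit 34513512373) (nat_lit 76) (nat_lit 23815886390) (nat_lit 76) (nat_lit 22332960939) (nat_lit 4) (nat_lit 4) (nat_lit 5) (nat_lit 5) (nat_lit 5) (nat_lit 4) (nat_lit 451) (nat_lit 232) (nat_lit 217))) (XT.nd (nat_lit 78) (nat_lit 0) (nat_lit 0) (XT.lf (nat_lit 0) (nat_lit 2695255161) (nat_lit 76) (nat_lit 11296019374) (nat_lit 76) (nat_lit 11296019374) (nat_lit 7) (nat_lit 4) (nat_lit 8) (nat_lit 5) (nat_lit 8) (nat_lit 4) (nat_lit 434) (nat_lit 233) (nat_lit 233)) (XT.lf (nat_lit 0) (nat_lit 15196601013) (nat_lit 76) (nat_lit 18437296848) (nat_lit 76) (nat_lit 18309350666) (nat_lit 7) (nat_lit 4) (nat_lit 8) (nat_lit 5) (nat_lit 8) (nat_lit 4) (nat_lit 435) (nat_lit 233) (nat_lit 232))))) (XT.nd (nat_lit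 234) (nat_lit 152) (nat_lit 0) (XT.nd (nat_lit 78) (nat_lit 0) (nat_lit 0) (XT.lf (nat_lit 0) (nat_lit 25110522988) (nat_lit 76) (nat_lit 14248741346) (nat_lit 76) (nat_lit 13996575570) (nat_lit 7) (nat_lit 4) (nat_lit 8) (nat_lit 5) (nat_lit 8) (nat_lit 4) (nat_lit 436) (nat_lit 233) (nat_lit 231)) (XT.nd (nat_lit 78) (nat_lit 0) (nat_lit 0) (XT.lf (nat_lit 0) (nat_lit 35140938896) (nat_lit 76) (nat_lit 10022712341) (nat_lit 76) (nat_lit 9649945017) (nat_lit 7) (nat_lit 4) (nat_lit 8) (nat_lit 5) (nat_lit 8) (nat_lit 4) (nat_lit 437) (nat_lit 233) (nat_lit 230)) (XT.lf (nat_lit 0) (nat_lit 45296613179) (nat_lit 76) (nat_lit 5755517184) (nat_lit 76) (nat_lit 5265660979) (nat_lit 7) (nat_lit 4) (nat_lit 8) (nat_lit 5) (nat_lit 8) (nat_lit 4) (nat_lit 438) (nat_lit 233) (nat_lit 229)))) (XT.nd (nat_lit 156) (nat_lit 0) (nat_lit 0) (XT.nd (nat_lit 78) (nat_lit 152) (nat_lit 0) (XT.lf (nat_lit 0) (nat_lit 55586419727)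 (nat_lit 76) (nat_lit 1443427258) (nat_lit 76) (nat_lit 839892528) (nat_lit 7) (nat_lit 4) (nat_lit 8) (nat_lit 5) (nat_lit 8) (nat_lit 4) (nat_lit 439) (nat_lit 233) (nat_lit 228)) (XT.lf (nat_lit 0) (nat_lit 3653249454) (nat_lit 152) (nat_lit 52853573318) (nat_lit 0) (nat_lit 2960140492) (nat_lit 5) (nat_lit 5) (nat_lit 7) (nat_lit 4) (nat_lit 5) (nat_lit 4) (nat_lit 440) (nat_lit 233) (nat_lit 227))) (XT.nd (nat_lit 78) (nat_lit 0) (nat_lit 0) (XT.lf (nat_lit 0) (nat_lit 8216293169) (nat_lit 152) (nat_lit 45477853503) (nat_lit 0) (nat_lit 7419152253) (nat_lit 5) (nat_lit 5) (nat_lit 7) (nat_lit 4) (nat_lit 5) (nat_lit 4) (nat_lit 441) (nat_lit 233) (nat_lit 226)) (XT.lf (nat_lit 0) (nat_lit 12833132837) (nat_lit 152) (nat_lit 38043398854) (nat_lit 0) (nat_lit 11934990023) (nat_lit 5) (nat_lit 5) (nat_lit 7) (nat_lit 4) (nat_lit 5) (nat_lit 4) (nat_lit 442) (nat_lit 233) (nat_lit 225))))))) (XT.nd (nat_lit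 46332) (nat_lit 0) (nat_lit 0) (XT.nd (nat_lit 468) (nat_lit 0) (nat_lit 0) (XT.nd (nat_lit 234) (nat_lit 76) (nat_lit 0) (XT.nd (nat_lit 78) (nat_lit 0) (nat_lit 0) (XT.lf (nat_lit 0) (nat_lit 17507802591) (nat_lit 152) (nat_lit 30543713244) (nat_lit 0) (nat_lit 16511599682) (nat_lit 5) (nat_lit 5) (nat_lit 7) (nat_lit 4) (nat_lit 5) (nat_lit 4) (nat_lit 443) (nat_lit 233) (nat_lit 224)) (XT.nd (nat_lit 78) (nat_lit 0) (nat_lit 0) (XT.lf (nat_lit 0) (nat_lit 22244387092) (nat_lit 152) (nat_lit 22972243551) (nat_lit 0) (nat_lit 21152980208) (nat_lit 5) (nat_lit 5) (nat_lit 7) (nat_lit 4) (nat_lit 5) (nat_lit 4) (nat_lit 444) (nat_lit 233) (nat_lit 223)) (XT.lf (nat_lit 0) (nat_lit 27047025104) (nat_lit 152) (nat_lit 15322373927) (nat_lit 0) (nat_lit 25863187176) (nat_lit 5) (nat_lit 5) (nat_lit 7) (nat_lit 4) (nat_lit 5) (nat_lit 4) (nat_lit 445) (nat_lit 233) (nat_lit 222)))) (XT.nd (nat_lit 78) (nat_lit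 76) (nat_lit 0) (XT.lf (nat_lit 0) (nat_lit 31919913108) (nat_lit 152) (nat_lit 7587420020) (nat_lit 0) (nat_lit 30646336302) (nat_lit 5) (nat_lit 5) (nat_lit 7) (nat_lit 4) (nat_lit 5) (nat_lit 4) (nat_lit 446) (nat_lit 233) (nat_lit 221)) (XT.nd (nat_lit 78) (nat_lit 0) (nat_lit 0) (XT.lf (nat_lit 0) (nat_lit 244140935) (nat_lit 76) (nat_lit 36625514862) (nat_lit 76) (nat_lit 35264812932) (nat_lit 4) (nat_lit 4) (nat_lit 5) (nat_lit 5) (nat_lit 5) (nat_lit 4) (nat_lit 447) (nat_lit 233) (nat_lit 220)) (XT.lf (nat_lit 0) (nat_lit 8327352320) (nat_lit 76) (nat_lit 33646230928) (nat_lit 76) (nat_lit 32200941499) (nat_lit 4) (nat_lit 4) (nat_lit 5) (nat_lit 5) (nat_lit 5) (nat_lit 4) (nat_lit 448) (nat_lit 233) (nat_lit 219))))) (XT.nd (nat_lit 45552) (nat_lit 0) (nat_lit 228) (XT.nd (nat_lit 78) (nat_lit 0) (nat_lit 0) (XT.lf (nat_lit 0) (nat_lit 16518272599) (nat_lit 76) (nat_lit 30643496135) (nat_lit 76)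 (nat_lit 29116082920) (nat_lit 4) (nat_lit 4) (nat_lit 5) (nat_lit 5) (nat_lit 5) (nat_lit 4) (nat_lit 449) (nat_lit 233) (nat_lit 218)) (XT.nd (nat_lit 78) (nat_lit 0) (nat_lit 0) (XT.lf (nat_lit 0) (nat_lit 24824058885) (nat_lit 76) (nat_lit 27614686733) (nat_lit 76) (nat_lit 26007541688) (nat_lit 4) (nat_lit 4) (nat_lit 5) (nat_lit 5) (nat_lit 5) (nat_lit 4) (nat_lit 450) (nat_lit 233) (nat_lit 217)) (XT.lf (nat_lit 0) (nat_lit 33251968663) (nat_lit 76) (nat_lit 24557156191) (nat_lit 76) (nat_lit 22872601602) (nat_lit 4) (nat_lit 4) (nat_lit 5) (nat_lit 5) (nat_lit 5) (nat_lit 4) (nat_lit 451) (nat_lit 233) (nat_lit 216)))) (XT.nd (nat_lit 156) (nat_lit 76) (nat_lit 0) (XT.nd (nat_lit 78) (nat_lit 0) (nat_lit 0) (XT.lf (nat_lit 0) (nat_lit 8598454328) (nat_lit 152) (nat_lit 6782502359) (nat_lit 0) (nat_lit 8598454328) (nat_lit 8) (nat_lit 5) (nat_lit 10) (nat_lit 4) (nat_lit 8) (nat_lit 4) (nat_lit 432)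 (nat_lit 234) (nat_lit 234)) (XT.lf (nat_lit 0) (nat_lit 22573555540) (nat_lit 152) (nat_lit 4232090613) (nat_lit 0) (nat_lit 22441770973) (nat_lit 8) (nat_lit 5) (nat_lit 10) (nat_lit 4) (nat_lit 8) (nat_lit 4) (nat_lit 433) (nat_lit 234) (nat_lit 233))) (XT.nd (nat_lit 78) (nat_lit 0) (nat_lit 0) (XT.lf (nat_lit 0) (nat_lit 5295957622) (nat_lit 76) (nat_lit 22769908791) (nat_lit 76) (nat_lit 22510178041) (nat_lit 7) (nat_lit 4) (nat_lit 8) (nat_lit 5) (nat_lit 8) (nat_lit 4) (nat_lit 434) (nat_lit 234) (nat_lit 232)) (XT.lf (nat_lit 0) (nat_lit 15010249576) (nat_lit 76) (nat_lit 18659910071) (nat_lit 76) (nat_lit 18275959727) (nat_lit 7) (nat_lit 4) (nat_lit 8) (nat_lit 5) (nat_lit 8) (nat_lit 4) (nat_lit 435) (nat_lit 234) (nat_lit 231)))))) (XT.nd (nat_lit 546) (nat_lit 76) (nat_lit 0) (XT.nd (nat_lit 234) (nat_lit 152) (nat_lit 0) (XT.nd (nat_lit 78) (nat_lit 0) (nat_lit 0) (XT.lf (nat_lit 0) (nat_lit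 24835046562) (nat_lit 76) (nat_lit 14514794550) (nat_lit 76) (nat_lit 14010242659) (nat_lit 7) (nat_lit 4) (nat_lit 8) (nat_lit 5) (nat_lit 8) (nat_lit 4) (nat_lit 436) (nat_lit 234) (nat_lit 230)) (XT.nd (nat_lit 78) (nat_lit 0) (nat_lit 0) (XT.lf (nat_lit 0) (nat_lit 34778933356) (nat_lit 76) (nat_lit 10330940282) (nat_lit 76) (nat_lit 9709299510) (nat_lit 7) (nat_lit 4) (nat_lit 8) (nat_lit 5) (nat_lit 8) (nat_lit 4) (nat_lit 437) (nat_lit 234) (nat_lit 229)) (XT.lf (nat_lit 0) (nat_lit 44850598790) (nat_lit 76) (nat_lit 6104691474) (nat_lit 76) (nat_lit 5369372176) (nat_lit 7) (nat_lit 4) (nat_lit 8) (nat_lit 5) (nat_lit 8) (nat_lit 4) (nat_lit 438) (nat_lit 234) (nat_lit 228)))) (XT.nd (nat_lit 156) (nat_lit 0) (nat_lit 0) (XT.nd (nat_lit 78) (nat_lit 152) (nat_lit 0) (XT.lf (nat_lit 0) (nat_lit 55058843348) (nat_lit 76) (nat_lit 1832355284) (nat_lit 76) (nat_lit 986668486) (nat_lit 7) (nat_lit 4)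 (nat_lit 8) (nat_lit 5) (nat_lit 8) (nat_lit 4) (nat_lit 439) (nat_lit 234) (nat_lit 227)) (XT.lf (nat_lit 0) (nat_lit 3458133326) (nat_lit 152) (nat_lit 53485491903) (nat_lit 0) (nat_lit 2533046227) (nat_lit 5) (nat_lit 5) (nat_lit 7) (nat_lit 4) (nat_lit 5) (nat_lit 4) (nat_lit 440) (nat_lit 234) (nat_lit 226))) (XT.nd (nat_lit 78) (nat_lit 0) (nat_lit 0) (XT.lf (nat_lit 0) (nat_lit 7980243367) (nat_lit 152) (nat_lit 46189839458) (nat_lit 0) (nat_lit 6954154371) (nat_lit 5) (nat_lit 5) (nat_lit 7) (nat_lit 4) (nat_lit 5) (nat_lit 4) (nat_lit 441) (nat_lit 234) (nat_lit 225)) (XT.lf (nat_lit 0) (nat_lit 12557341604) (nat_lit 152) (nat_lit 38833120118) (nat_lit 0) (nat_lit 11433192513) (nat_lit 5) (nat_lit 5) (nat_lit 7) (nat_lit 4) (nat_lit 5) (nat_lit 4) (nat_lit 442) (nat_lit 234) (nat_lit 224))))) (XT.nd (nat_lit 234) (nat_lit 76) (nat_lit 0) (XT.nd (nat_lit 78) (nat_lit 0) (nat_lit 0) (XT.lf (nat_lit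 0) (nat_lit 17193427444) (nat_lit 152) (nat_lit 31408905683) (nat_lit 0) (nat_lit 15974074377) (nat_lit 5) (nat_lit 5) (nat_lit 7) (nat_lit 4) (nat_lit 5) (nat_lit 4) (nat_lit 443) (nat_lit 234) (nat_lit 223)) (XT.nd (nat_lit 78) (nat_lit 0) (nat_lit 0) (XT.lf (nat_lit 0) (nat_lit 21892551834) (nat_lit 152) (nat_lit 23910708975) (nat_lit 0) (nat_lit 20580767724) (nat_lit 5) (nat_lit 5) (nat_lit 7) (nat_lit 4) (nat_lit 5) (nat_lit 4) (nat_lit 444) (nat_lit 234) (nat_lit 222)) (XT.lf (nat_lit 0) (nat_lit 26658820808) (nat_lit 152) (nat_lit 16331978172) (nat_lit 0) (nat_lit 25257297820) (nat_lit 5) (nat_lit 5) (nat_lit 7) (nat_lit 4) (nat_lit 5) (nat_lit 4) (nat_lit 445) (nat_lit 234) (nat_lit 221)))) (XT.nd (nat_lit 156) (nat_lit 76) (nat_lit 0) (XT.nd (nat_lit 78) (nat_lit 0) (nat_lit 0) (XT.lf (nat_lit 0) (nat_lit 31496399064) (nat_lit 152) (nat_lit 8666091081) (nat_lit 0) (nat_lit 30007750952) (nat_lit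 5) (nat_lit 5) (nat_lit 7) (nat_lit 4) (nat_lit 5) (nat_lit 4) (nat_lit 446) (nat_lit 234) (nat_lit 220)) (XT.lf (nat_lit 0) (nat_lit 36409513614) (nat_lit 152) (nat_lit 906349355) (nat_lit 0) (nat_lit 34836278003) (nat_lit 5) (nat_lit 5) (nat_lit 7) (nat_lit 4) (nat_lit 5) (nat_lit 4) (nat_lit 447) (nat_lit 234) (nat_lit 219))) (XT.nd (nat_lit 78) (nat_lit 0) (nat_lit 0) (XT.lf (nat_lit 0) (nat_lit 7092426142) (nat_lit 76) (nat_lit 34378208067) (nat_lit 76) (nat_lit 32722848670) (nat_lit 4) (nat_lit 4) (nat_lit 5) (nat_lit 5) (nat_lit 5) (nat_lit 4) (nat_lit 448) (nat_lit 234) (nat_lit 218)) (XT.lf (nat_lit 0) (nat_lit 15218882578) (nat_lit 76) (nat_lit 31407004030) (nat_lit 76) (nat_lit 29671912803) (nat_lit 4) (nat_lit 4) (nat_lit 5) (nat_lit 5) (nat_lit 5) (nat_lit 4) (nat_lit 449) (nat_lit 234) (nat_lit 217))))))))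
noncomputable def xc2 : XT := (XT.nd (nat_lit 92274) (nat_lit 0) (nat_lit 0) (XT.nd (nat_lit 46176) (nat_lit 0) (nat_lit 0) (XT.nd (nat_lit 45630) (nat_lit 0) (nat_lit 76) (XT.nd (nat_lit 45396) (nat_lit 0) (nat_lit 304) (XT.nd (nat_lit 78) (nat_lit 0) (nat_lit 0) (XT.lf (nat_lit 0) (nat_lit 23462082610) (nat_lit 76) (nat_lit 28408807013) (nat_lit 76) (nat_lit 26596306242) (nat_lit 4) (nat_lit 4) (nat_lit 5) (nat_lit 5) (nat_lit 5) (nat_lit 4) (nat_lit 450) (nat_lit 234) (nat_lit 216)) (XT.nd (nat_lit 45240) (nat_lit 0) (nat_lit 304) (XT.lf (nat_lit 0) (nat_lit 31829229034) (nat_lit 76) (nat_lit 25380997233) (nat_lit 76) (nat_lit 23493341564) (nat_lit 4) (nat_lit 4) (nat_lit 5) (nat_lit 5) (nat_lit 5) (nat_lit 4) (nat_lit 451) (nat_lit 234) (nat_lit 215)) (XT.lf (nat_lit 0) (nat_lit 3402667975) (nat_lit 152) (nat_lit 15944826723) (nat_lit 0) (nat_lit 3402667975) (nat_lit 8) (nat_lit 5) (nat_lit 10) (nat_lit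 4) (nat_lit 8) (nat_lit 4) (nat_lit 430) (nat_lit 235) (nat_lit 235)))) (XT.nd (nat_lit 78) (nat_lit 0) (nat_lit 0) (XT.lf (nat_lit 0) (nat_lit 12016057841) (nat_lit 152) (nat_lit 22814282876) (nat_lit 0) (nat_lit 11880319737) (nat_lit 8) (nat_lit 5) (nat_lit 10) (nat_lit 4) (nat_lit 8) (nat_lit 4) (nat_lit 431) (nat_lit 235) (nat_lit 234)) (XT.nd (nat_lit 78) (nat_lit 0) (nat_lit 0) (XT.lf (nat_lit 0) (nat_lit 17283661685) (nat_lit 152) (nat_lit 13660493584) (nat_lit 0) (nat_lit 17016139014) (nat_lit 8) (nat_lit 5) (nat_lit 10) (nat_lit 4) (nat_lit 8) (nat_lit 4) (nat_lit 432) (nat_lit 235) (nat_lit 233)) (XT.lf (nat_lit 0) (nat_lit 22612750243) (nat_lit 152) (nat_lit 4420287114) (nat_lit 0) (nat_lit 22217281389) (nat_lit 8) (nat_lit 5) (nat_lit 10) (nat_lit 4) (nat_lit 8) (nat_lit 4) (nat_lit 433) (nat_lit 235) (nat_lit 232))))) (XT.nd (nat_lit 234) (nat_lit 152) (nat_lit 0) (XT.nd (nat_lit 78) (nat_lit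 0) (nat_lit 0) (XT.lf (nat_lit 0) (nat_lit 5012216904) (nat_lit 76) (nat_lit 23043943590) (nat_lit 76) (nat_lit 22524255142) (nat_lit 7) (nat_lit 4) (nat_lit 8) (nat_lit 5) (nat_lit 8) (nat_lit 4) (nat_lit 434) (nat_lit 235) (nat_lit 231)) (XT.nd (nat_lit 78) (nat_lit 0) (nat_lit 0) (XT.lf (nat_lit 0) (nat_lit 14637383869) (nat_lit 76) (nat_lit 18977384851) (nat_lit 76) (nat_lit 18337094855) (nat_lit 7) (nat_lit 4) (nat_lit 8) (nat_lit 5) (nat_lit 8) (nat_lit 4) (nat_lit 435) (nat_lit 235) (nat_lit 230)) (XT.lf (nat_lit 0) (nat_lit 24375651741) (nat_lit 76) (nat_lit 14874444069) (nat_lit 76) (nat_lit 14117065192) (nat_lit 7) (nat_lit 4) (nat_lit 8) (nat_lit 5) (nat_lit 8) (nat_lit 4) (nat_lit 436) (nat_lit 235) (nat_lit 229)))) (XT.nd (nat_lit 156) (nat_lit 152) (nat_lit 0) (XT.nd (nat_lit 78) (nat_lit 0) (nat_lit 0) (XT.lf (nat_lit 0) (nat_lit 34235529686) (nat_lit 76) (nat_lit 10731536149) (nat_lit 76)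 (nat_lit 9860478747) (nat_lit 7) (nat_lit 4) (nat_lit 8) (nat_lit 5) (nat_lit 8) (nat_lit 4) (nat_lit 437) (nat_lit 235) (nat_lit 228)) (XT.lf (nat_lit 0) (nat_lit 44225633130) (nat_lit 76) (nat_lit 6545041076) (nat_lit 76) (nat_lit 5563616173) (nat_lit 7) (nat_lit 4) (nat_lit 8) (nat_lit 5) (nat_lit 8) (nat_lit 4) (nat_lit 438) (nat_lit 235) (nat_lit 227))) (XT.nd (nat_lit 78) (nat_lit 152) (nat_lit 0) (XT.lf (nat_lit 0) (nat_lit 54354691291) (nat_lit 76) (nat_lit 2311300747) (nat_lit 76) (nat_lit 1222722931) (nat_lit 7) (nat_lit 4) (nat_lit 8) (nat_lit 5) (nat_lit 8) (nat_lit 4) (nat_lit 439) (nat_lit 235) (nat_lit 226)) (XT.lf (nat_lit 0) (nat_lit 3174068355) (nat_lit 152) (nat_lit 54298904805) (nat_lit 0) (nat_lit 2016194792) (nat_lit 5) (nat_lit 5) (nat_lit 7) (nat_lit 4) (nat_lit 5) (nat_lit 4) (nat_lit 440) (nat_lit 235) (nat_lit 225)))))) (XT.nd (nat_lit 546) (nat_lit 76) (nat_lit 0) (XT.nd (nat_lit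 234) (nat_lit 0) (nat_lit 0) (XT.nd (nat_lit 78) (nat_lit 0) (nat_lit 0) (XT.lf (nat_lit 0) (nat_lit 7656436965) (nat_lit 152) (nat_lit 47080987670) (nat_lit 0) (nat_lit 6400503307) (nat_lit 5) (nat_lit 5) (nat_lit 7) (nat_lit 4) (nat_lit 5) (nat_lit 4) (nat_lit 441) (nat_lit 235) (nat_lit 224)) (XT.nd (nat_lit 78) (nat_lit 0) (nat_lit 0) (XT.lf (nat_lit 0) (nat_lit 12194951289) (nat_lit 152) (nat_lit 39799739505) (nat_lit 0) (nat_lit 10843813655) (nat_lit 5) (nat_lit 5) (nat_lit 7) (nat_lit 4) (nat_lit 5) (nat_lit 4) (nat_lit 442) (nat_lit 235) (nat_lit 223)) (XT.lf (nat_lit 0) (nat_lit 16793577018) (nat_lit 152) (nat_lit 32448798056) (nat_lit 0) (nat_lit 15350008340) (nat_lit 5) (nat_lit 5) (nat_lit 7) (nat_lit 4) (nat_lit 5) (nat_lit 4) (nat_lit 443) (nat_lit 235) (nat_lit 222)))) (XT.nd (nat_lit 156) (nat_lit 0) (nat_lit 0) (XT.nd (nat_lit 78) (nat_lit 0) (nat_lit 0) (XT.lf (nat_lit 0) (nat_lit 21456332370)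 (nat_lit 152) (nat_lit 25021740168) (nat_lit 0) (nat_lit 19923024814) (nat_lit 5) (nat_lit 5) (nat_lit 7) (nat_lit 4) (nat_lit 5) (nat_lit 4) (nat_lit 444) (nat_lit 235) (nat_lit 221)) (XT.lf (nat_lit 0) (nat_lit 26187291596) (nat_lit 152) (nat_lit 17512076181) (nat_lit 0) (nat_lit 24566858917) (nat_lit 5) (nat_lit 5) (nat_lit 7) (nat_lit 4) (nat_lit 5) (nat_lit 4) (nat_lit 445) (nat_lit 235) (nat_lit 220))) (XT.nd (nat_lit 78) (nat_lit 0) (nat_lit 0) (XT.lf (nat_lit 0) (nat_lit 30990588545) (nat_lit 152) (nat_lit 9913244252) (nat_lit 0) (nat_lit 29285568367) (nat_lit 5) (nat_lit 5) (nat_lit 7) (nat_lit 4) (nat_lit 5) (nat_lit 4) (nat_lit 446) (nat_lit 235) (nat_lit 219)) (XT.lf (nat_lit 0) (nat_lit 35870420272) (nat_lit 152) (nat_lit 2218604624) (nat_lit 0) (nat_lit 34083276308) (nat_lit 5) (nat_lit 5) (nat_lit 7) (nat_lit 4) (nat_lit 5) (nat_lit 4) (nat_lit 447) (nat_lit 235) (nat_lit 218))))) (XT.nd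 (nat_lit 234) (nat_lit 0) (nat_lit 0) (XT.nd (nat_lit 78) (nat_lit 0) (nat_lit 0) (XT.lf (nat_lit 0) (nat_lit 5689590578) (nat_lit 76) (nat_lit 35196151955) (nat_lit 76) (nat_lit 33329276160) (nat_lit 4) (nat_lit 4) (nat_lit 5) (nat_lit 5) (nat_lit 5) (nat_lit 4) (nat_lit 448) (nat_lit 235) (nat_lit 217)) (XT.nd (nat_lit 78) (nat_lit 0) (nat_lit 0) (XT.lf (nat_lit 0) (nat_lit 13753460759) (nat_lit 76) (nat_lit 32255560303) (nat_lit 76) (nat_lit 30311274964) (nat_lit 4) (nat_lit 4) (nat_lit 5) (nat_lit 5) (nat_lit 5) (nat_lit 4) (nat_lit 449) (nat_lit 235) (nat_lit 216)) (XT.lf (nat_lit 0) (nat_lit 21935897437) (nat_lit 76) (nat_lit 29287084048) (nat_lit 76) (nat_lit 27267643812) (nat_lit 4) (nat_lit 4) (nat_lit 5) (nat_lit 5) (nat_lit 5) (nat_lit 4) (nat_lit 450) (nat_lit 235) (nat_lit 215)))) (XT.nd (nat_lit 45162) (nat_lit 0) (nat_lit 304) (XT.nd (nat_lit 45084) (nat_lit 0) (nat_lit 456) (XT.lf (nat_lit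 0) (nat_lit 30244050313) (nat_lit 76) (nat_lit 26288129376) (nat_lit 76) (nat_lit 24195723220) (nat_lit 4) (nat_lit 4) (nat_lit 5) (nat_lit 5) (nat_lit 5) (nat_lit 4) (nat_lit 451) (nat_lit 235) (nat_lit 214)) (XT.lf (nat_lit 0) (nat_lit 18354226659) (nat_lit 76) (nat_lit 1619886502) (nat_lit 76) (nat_lit 1619886502) (nat_lit 10) (nat_lit 4) (nat_lit 11) (nat_lit 5) (nat_lit 11) (nat_lit 4) (nat_lit 428) (nat_lit 236) (nat_lit 236))) (XT.nd (nat_lit 78) (nat_lit 0) (nat_lit 0) (XT.lf (nat_lit 0) (nat_lit 1786753202) (nat_lit 152) (nat_lit 40894535232) (nat_lit 0) (nat_lit 1646942954) (nat_lit 8) (nat_lit 5) (nat_lit 10) (nat_lit 4) (nat_lit 8) (nat_lit 4) (nat_lit 429) (nat_lit 236) (nat_lit 235)) (XT.lf (nat_lit 0) (nat_lit 6894691570) (nat_lit 152) (nat_lit 31988006978) (nat_lit 0) (nat_lit 6619143218) (nat_lit 8) (nat_lit 5) (nat_lit 10) (nat_lit 4) (nat_lit 8) (nat_lit 4) (nat_lit 430) (nat_lit 236)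 (nat_lit 234))))))) (XT.nd (nat_lit 1014) (nat_lit 76) (nat_lit 0) (XT.nd (nat_lit 468) (nat_lit 152) (nat_lit 0) (XT.nd (nat_lit 234) (nat_lit 76) (nat_lit 0) (XT.nd (nat_lit 78) (nat_lit 0) (nat_lit 0) (XT.lf (nat_lit 0) (nat_lit 12056428385) (nat_lit 152) (nat_lit 23008125272) (nat_lit 0) (nat_lit 11649095466) (nat_lit 8) (nat_lit 5) (nat_lit 10) (nat_lit 4) (nat_lit 8) (nat_lit 4) (nat_lit 431) (nat_lit 236) (nat_lit 233)) (XT.nd (nat_lit 78) (nat_lit 0) (nat_lit 0) (XT.lf (nat_lit 0) (nat_lit 17276473903) (nat_lit 152) (nat_lit 13947043616) (nat_lit 0) (nat_lit 16741194802) (nat_lit 8) (nat_lit 5) (nat_lit 10) (nat_lit 4) (nat_lit 8) (nat_lit 4) (nat_lit 432) (nat_lit 236) (nat_lit 232)) (XT.lf (nat_lit 0) (nat_lit 22559389329) (nat_lit 152) (nat_lit 4796844560) (nat_lit 0) (nat_lit 21899890633) (nat_lit 8) (nat_lit 5) (nat_lit 10) (nat_lit 4) (nat_lit 8) (nat_lit 4) (nat_lit 433) (nat_lit 236) (nat_lit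 231)))) (XT.nd (nat_lit 78) (nat_lit 0) (nat_lit 0) (XT.lf (nat_lit 0) (nat_lit 4539040238) (nat_lit 76) (nat_lit 23414382595) (nat_lit 76) (nat_lit 22634282352) (nat_lit 7) (nat_lit 4) (nat_lit 8) (nat_lit 5) (nat_lit 8) (nat_lit 4) (nat_lit 434) (nat_lit 236) (nat_lit 230)) (XT.nd (nat_lit 78) (nat_lit 0) (nat_lit 0) (XT.lf (nat_lit 0) (nat_lit 14077678089) (nat_lit 76) (nat_lit 19389998594) (nat_lit 76) (nat_lit 18492809469) (nat_lit 7) (nat_lit 4) (nat_lit 8) (nat_lit 5) (nat_lit 8) (nat_lit 4) (nat_lit 435) (nat_lit 236) (nat_lit 229)) (XT.lf (nat_lit 0) (nat_lit 23731937112) (nat_lit 76) (nat_lit 15328004159) (nat_lit 76) (nat_lit 14317136510) (nat_lit 7) (nat_lit 4) (nat_lit 8) (nat_lit 5) (nat_lit 8) (nat_lit 4) (nat_lit 436) (nat_lit 236) (nat_lit 228))))) (XT.nd (nat_lit 234) (nat_lit 152) (nat_lit 0) (XT.nd (nat_lit 78) (nat_lit 0) (nat_lit 0) (XT.lf (nat_lit 0) (nat_lit 33510253067) (nat_lit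 76) (nat_lit 11224849976) (nat_lit 76) (nat_lit 10103614826) (nat_lit 7) (nat_lit 4) (nat_lit 8) (nat_lit 5) (nat_lit 8) (nat_lit 4) (nat_lit 437) (nat_lit 236) (nat_lit 227)) (XT.nd (nat_lit 78) (nat_lit 0) (nat_lit 0) (XT.lf (nat_lit 0) (nat_lit 43421170114) (nat_lit 76) (nat_lit 7076950763) (nat_lit 76) (nat_lit 5848562700) (nat_lit 7) (nat_lit 4) (nat_lit 8) (nat_lit 5) (nat_lit 8) (nat_lit 4) (nat_lit 438) (nat_lit 236) (nat_lit 226)) (XT.lf (nat_lit 0) (nat_lit 53473348277) (nat_lit 76) (nat_lit 2880682143) (nat_lit 76) (nat_lit 1548262125) (nat_lit 7) (nat_lit 4) (nat_lit 8) (nat_lit 5) (nat_lit 8) (nat_lit 4) (nat_lit 439) (nat_lit 236) (nat_lit 225)))) (XT.nd (nat_lit 156) (nat_lit 0) (nat_lit 0) (XT.nd (nat_lit 78) (nat_lit 0) (nat_lit 0) (XT.lf (nat_lit 0) (nat_lit 2800806330) (nat_lit 152) (nat_lit 55294522774) (nat_lit 0) (nat_lit 1409134568) (nat_lit 5) (nat_lit 5) (nat_lit 7) (nat_lit 4)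 (nat_lit 5) (nat_lit 4) (nat_lit 440) (nat_lit 236) (nat_lit 224)) (XT.lf (nat_lit 0) (nat_lit 7244591027) (nat_lit 152) (nat_lit 48152076813) (nat_lit 0) (nat_lit 5757715289) (nat_lit 5) (nat_lit 5) (nat_lit 7) (nat_lit 4) (nat_lit 5) (nat_lit 4) (nat_lit 441) (nat_lit 236) (nat_lit 223))) (XT.nd (nat_lit 78) (nat_lit 0) (nat_lit 0) (XT.lf (nat_lit 0) (nat_lit 11745645240) (nat_lit 152) (nat_lit 40944101634) (nat_lit 0) (nat_lit 10166338458) (nat_lit 5) (nat_lit 5) (nat_lit 7) (nat_lit 4) (nat_lit 5) (nat_lit 4) (nat_lit 442) (nat_lit 236) (nat_lit 222)) (XT.lf (nat_lit 0) (nat_lit 16307901930) (nat_lit 152) (nat_lit 33664299005) (nat_lit 0) (nat_lit 14638856270) (nat_lit 5) (nat_lit 5) (nat_lit 7) (nat_lit 4) (nat_lit 5) (nat_lit 4) (nat_lit 443) (nat_lit 236) (nat_lit 221)))))) (XT.nd (nat_lit 546) (nat_lit 0) (nat_lit 0) (XT.nd (nat_lit 234) (nat_lit 76) (nat_lit 0) (XT.nd (nat_lit 78) (nat_lit 0) (nat_lit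 0) (XT.lf (nat_lit 0) (nat_lit 20935347535) (nat_lit 152) (nat_lit 26306307933) (nat_lit 0) (nat_lit 19179176751) (nat_lit 5) (nat_lit 5) (nat_lit 7) (nat_lit 4) (nat_lit 5) (nat_lit 4) (nat_lit 444) (nat_lit 236) (nat_lit 220)) (XT.nd (nat_lit 78) (nat_lit 0) (nat_lit 0) (XT.lf (nat_lit 0) (nat_lit 25632025454) (nat_lit 152) (nat_lit 18863699108) (nat_lit 0) (nat_lit 23791267171) (nat_lit 5) (nat_lit 5) (nat_lit 7) (nat_lit 4) (nat_lit 5) (nat_lit 4) (nat_lit 445) (nat_lit 236) (nat_lit 219)) (XT.lf (nat_lit 0) (nat_lit 30402039580) (nat_lit 152) (nat_lit 11329969276) (nat_lit 0) (nat_lit 28479157512) (nat_lit 5) (nat_lit 5) (nat_lit 7) (nat_lit 4) (nat_lit 5) (nat_lit 4) (nat_lit 446) (nat_lit 236) (nat_lit 218)))) (XT.nd (nat_lit 156) (nat_lit 0) (nat_lit 0) (XT.nd (nat_lit 78) (nat_lit 76) (nat_lit 0) (XT.lf (nat_lit 0) (nat_lit 35249557887) (nat_lit 152) (nat_lit 3698535569) (nat_lit 0) (nat_lit 33246943988)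 (nat_lit 5) (nat_lit 5) (nat_lit 7) (nat_lit 4) (nat_lit 5) (nat_lit 4) (nat_lit 447) (nat_lit 236) (nat_lit 217)) (XT.lf (nat_lit 0) (nat_lit 4117619850) (nat_lit 76) (nat_lit 36100777301) (nat_lit 76) (nat_lit 34020753858) (nat_lit 4) (nat_lit 4) (nat_lit 5) (nat_lit 5) (nat_lit 5) (nat_lit 4) (nat_lit 448) (nat_lit 236) (nat_lit 216))) (XT.nd (nat_lit 78) (nat_lit 0) (nat_lit 0) (XT.lf (nat_lit 0) (nat_lit 12120726677) (nat_lit 76) (nat_lit 33189906411) (nat_lit 76) (nat_lit 31034728070) (nat_lit 4) (nat_lit 4) (nat_lit 5) (nat_lit 5) (nat_lit 5) (nat_lit 4) (nat_lit 449) (nat_lit 236) (nat_lit 215)) (XT.lf (nat_lit 0) (nat_lit 20244169807) (nat_lit 76) (nat_lit 30250285265) (nat_lit 76) (nat_lit 28022141004) (nat_lit 4) (nat_lit 4) (nat_lit 5) (nat_lit 5) (nat_lit 5) (nat_lit 4) (nat_lit 450) (nat_lit 236) (nat_lit 214))))) (XT.nd (nat_lit 45084) (nat_lit 0) (nat_lit 304) (XT.nd (nat_lit 44928) (nat_lit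 0) (nat_lit 456) (XT.lf (nat_lit 0) (nat_lit 28495047394) (nat_lit 76) (nat_lit 27279345261) (nat_lit 76) (nat_lit 24980360302) (nat_lit 4) (nat_lit 4) (nat_lit 5) (nat_lit 5) (nat_lit 5) (nat_lit 4) (nat_lit 451) (nat_lit 236) (nat_lit 213)) (XT.nd (nat_lit 78) (nat_lit 0) (nat_lit 0) (XT.lf (nat_lit 0) (nat_lit 7571759330) (nat_lit 76) (nat_lit 6466554775) (nat_lit 76) (nat_lit 6466554775) (nat_lit 10) (nat_lit 4) (nat_lit 11) (nat_lit 5) (nat_lit 11) (nat_lit 4) (nat_lit 426) (nat_lit 237) (nat_lit 237)) (XT.lf (nat_lit 0) (nat_lit 25815987987) (nat_lit 76) (nat_lit 8207173280) (nat_lit 76) (nat_lit 8058848588) (nat_lit 10) (nat_lit 4) (nat_lit 11) (nat_lit 5) (nat_lit 11) (nat_lit 4) (nat_lit 427) (nat_lit 237) (nat_lit 236)))) (XT.nd (nat_lit 156) (nat_lit 0) (nat_lit 0) (XT.nd (nat_lit 78) (nat_lit 152) (nat_lit 0) (XT.lf (nat_lit 0) (nat_lit 36611193050) (nat_lit 76) (nat_lit 3435319809) (nat_lit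 76) (nat_lit 3142990562) (nat_lit 10) (nat_lit 4) (nat_lit 11) (nat_lit 5) (nat_lit 11) (nat_lit 4) (nat_lit 428) (nat_lit 237) (nat_lit 235)) (XT.lf (nat_lit 0) (nat_lit 1828334862) (nat_lit 152) (nat_lit 41094192901) (nat_lit 0) (nat_lit 1408781955) (nat_lit 8) (nat_lit 5) (nat_lit 10) (nat_lit 4) (nat_lit 8) (nat_lit 4) (nat_lit 429) (nat_lit 237) (nat_lit 234))) (XT.nd (nat_lit 78) (nat_lit 0) (nat_lit 0) (XT.lf (nat_lit 0) (nat_lit 6887288154) (nat_lit 152) (nat_lit 32283153511) (nat_lit 0) (nat_lit 6335950680) (nat_lit 8) (nat_lit 5) (nat_lit 10) (nat_lit 4) (nat_lit 8) (nat_lit 4) (nat_lit 430) (nat_lit 237) (nat_lit 233)) (XT.lf (nat_lit 0) (nat_lit 12001466643) (nat_lit 152) (nat_lit 23395979441) (nat_lit 0) (nat_lit 11322182987) (nat_lit 8) (nat_lit 5) (nat_lit 10) (nat_lit 4) (nat_lit 8) (nat_lit 4) (nat_lit 431) (nat_lit 237) (nat_lit 232))))))))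
noncomputable def xc3 : XT := (XT.nd (nat_lit 46800) (nat_lit 0) (nat_lit 0) (XT.nd (nat_lit 1014) (nat_lit 76) (nat_lit 0) (XT.nd (nat_lit 468) (nat_lit 152) (nat_lit 0) (XT.nd (nat_lit 234) (nat_lit 0) (nat_lit 0) (XT.nd (nat_lit 78) (nat_lit 76) (nat_lit 0) (XT.lf (nat_lit 0) (nat_lit 17175339029) (nat_lit 152) (nat_lit 14424905199) (nat_lit 0) (nat_lit 16371835779) (nat_lit 8) (nat_lit 5) (nat_lit 10) (nat_lit 4) (nat_lit 8) (nat_lit 4) (nat_lit 432) (nat_lit 237) (nat_lit 231)) (XT.nd (nat_lit 78) (nat_lit 76) (nat_lit 0) (XT.lf (nat_lit 0) (nat_lit 22413426171) (nat_lit 152) (nat_lit 5362091982) (nat_lit 0) (nat_lit 21489321373) (nat_lit 8) (nat_lit 5) (nat_lit 10) (nat_lit 4) (nat_lit 8) (nat_lit 4) (nat_lit 433) (nat_lit 237) (nat_lit 230)) (XT.lf (nat_lit 0) (nat_lit 3876014170) (nat_lit 76) (nat_lit 23881549488) (nat_lit 76) (nat_lit 22840355809) (nat_lit 7) (nat_lit 4) (nat_lit 8) (nat_lit 5)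 (nat_lit 8) (nat_lit 4) (nat_lit 434) (nat_lit 237) (nat_lit 229)))) (XT.nd (nat_lit 78) (nat_lit 0) (nat_lit 0) (XT.lf (nat_lit 0) (nat_lit 13330643172) (nat_lit 76) (nat_lit 19898111835) (nat_lit 76) (nat_lit 18743239630) (nat_lit 7) (nat_lit 4) (nat_lit 8) (nat_lit 5) (nat_lit 8) (nat_lit 4) (nat_lit 435) (nat_lit 237) (nat_lit 228)) (XT.nd (nat_lit 78) (nat_lit 0) (nat_lit 0) (XT.lf (nat_lit 0) (nat_lit 22903340205) (nat_lit 76) (nat_lit 15875871137) (nat_lit 76) (nat_lit 14610631432) (nat_lit 7) (nat_lit 4) (nat_lit 8) (nat_lit 5) (nat_lit 8) (nat_lit 4) (nat_lit 436) (nat_lit 237) (nat_lit 227)) (XT.lf (nat_lit 0) (nat_lit 32602469763) (nat_lit 76) (nat_lit 11811312813) (nat_lit 76) (nat_lit 10438920195) (nat_lit 7) (nat_lit 4) (nat_lit 8) (nat_lit 5) (nat_lit 8) (nat_lit 4) (nat_lit 437) (nat_lit 237) (nat_lit 226))))) (XT.nd (nat_lit 234) (nat_lit 0) (nat_lit 0) (XT.nd (nat_lit 78) (nat_lit 152)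 (nat_lit 0) (XT.lf (nat_lit 0) (nat_lit 42436506812) (nat_lit 76) (nat_lit 7700885310) (nat_lit 76) (nat_lit 6224460737) (nat_lit 7) (nat_lit 4) (nat_lit 8) (nat_lit 5) (nat_lit 8) (nat_lit 4) (nat_lit 438) (nat_lit 237) (nat_lit 225)) (XT.nd (nat_lit 78) (nat_lit 152) (nat_lit 0) (XT.lf (nat_lit 0) (nat_lit 52414044201) (nat_lit 76) (nat_lit 3540996989) (nat_lit 76) (nat_lit 1963570519) (nat_lit 7) (nat_lit 4) (nat_lit 8) (nat_lit 5) (nat_lit 8) (nat_lit 4) (nat_lit 439) (nat_lit 237) (nat_lit 224)) (XT.lf (nat_lit 0) (nat_lit 2338021100) (nat_lit 152) (nat_lit 56473215766) (nat_lit 0) (nat_lit 711335115) (nat_lit 5) (nat_lit 5) (nat_lit 7) (nat_lit 4) (nat_lit 5) (nat_lit 4) (nat_lit 440) (nat_lit 237) (nat_lit 223)))) (XT.nd (nat_lit 156) (nat_lit 0) (nat_lit 0) (XT.nd (nat_lit 78) (nat_lit 0) (nat_lit 0) (XT.lf (nat_lit 0) (nat_lit 6744345686) (nat_lit 152) (nat_lit 49404042791) (nat_lit 0) (nat_lit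 5025228657) (nat_lit 5) (nat_lit 5) (nat_lit 7) (nat_lit 4) (nat_lit 5) (nat_lit 4) (nat_lit 441) (nat_lit 237) (nat_lit 222)) (XT.lf (nat_lit 0) (nat_lit 11209030860) (nat_lit 152) (nat_lit 42267206432) (nat_lit 0) (nat_lit 9400174953) (nat_lit 5) (nat_lit 5) (nat_lit 7) (nat_lit 4) (nat_lit 5) (nat_lit 4) (nat_lit 442) (nat_lit 237) (nat_lit 221))) (XT.nd (nat_lit 78) (nat_lit 0) (nat_lit 0) (XT.lf (nat_lit 0) (nat_lit 15735977804) (nat_lit 152) (nat_lit 35056470619) (nat_lit 0) (nat_lit 13839996772) (nat_lit 5) (nat_lit 5) (nat_lit 7) (nat_lit 4) (nat_lit 5) (nat_lit 4) (nat_lit 443) (nat_lit 237) (nat_lit 220)) (XT.lf (nat_lit 0) (nat_lit 20329142101) (nat_lit 152) (nat_lit 27765534709) (nat_lit 0) (nat_lit 18348573571) (nat_lit 5) (nat_lit 5) (nat_lit 7) (nat_lit 4) (nat_lit 5) (nat_lit 4) (nat_lit 444) (nat_lit 237) (nat_lit 219)))))) (XT.nd (nat_lit 45240) (nat_lit 0) (nat_lit 304) (XT.nd (nat_lit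 234) (nat_lit 76) (nat_lit 0) (XT.nd (nat_lit 78) (nat_lit 0) (nat_lit 0) (XT.lf (nat_lit 0) (nat_lit 24992537197) (nat_lit 152) (nat_lit 20388027981) (nat_lit 0) (nat_lit 22929844882) (nat_lit 5) (nat_lit 5) (nat_lit 7) (nat_lit 4) (nat_lit 5) (nat_lit 4) (nat_lit 445) (nat_lit 237) (nat_lit 218)) (XT.nd (nat_lit 78) (nat_lit 0) (nat_lit 0) (XT.lf (nat_lit 0) (nat_lit 29730237903) (nat_lit 152) (nat_lit 12917504071) (nat_lit 0) (nat_lit 27587813757) (nat_lit 5) (nat_lit 5) (nat_lit 7) (nat_lit 4) (nat_lit 5) (nat_lit 4) (nat_lit 446) (nat_lit 237) (nat_lit 217)) (XT.lf (nat_lit 0) (nat_lit 34546383958) (nat_lit 152) (nat_lit 5347435335) (nat_lit 0) (nat_lit 32326550267) (nat_lit 5) (nat_lit 5) (nat_lit 7) (nat_lit 4) (nat_lit 5) (nat_lit 4) (nat_lit 447) (nat_lit 237) (nat_lit 216)))) (XT.nd (nat_lit 156) (nat_lit 0) (nat_lit 0) (XT.nd (nat_lit 78) (nat_lit 0) (nat_lit 0) (XT.lf (nat_lit 0) (nat_lit 2375140391)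 (nat_lit 76) (nat_lit 37092874554) (nat_lit 76) (nat_lit 34797885966) (nat_lit 4) (nat_lit 4) (nat_lit 5) (nat_lit 5) (nat_lit 5) (nat_lit 4) (nat_lit 448) (nat_lit 237) (nat_lit 215)) (XT.lf (nat_lit 0) (nat_lit 10319253671) (nat_lit 76) (nat_lit 34210858772) (nat_lit 76) (nat_lit 31842904265) (nat_lit 4) (nat_lit 4) (nat_lit 5) (nat_lit 5) (nat_lit 5) (nat_lit 4) (nat_lit 449) (nat_lit 237) (nat_lit 214))) (XT.nd (nat_lit 78) (nat_lit 0) (nat_lit 0) (XT.lf (nat_lit 0) (nat_lit 18385421511) (nat_lit 76) (nat_lit 31299252295) (nat_lit 76) (nat_lit 28860457088) (nat_lit 4) (nat_lit 4) (nat_lit 5) (nat_lit 5) (nat_lit 5) (nat_lit 4) (nat_lit 450) (nat_lit 237) (nat_lit 213)) (XT.lf (nat_lit 0) (nat_lit 26580692022) (nat_lit 76) (nat_lit 28355510999) (nat_lit 76) (nat_lit 25847938415) (nat_lit 4) (nat_lit 4) (nat_lit 5) (nat_lit 5) (nat_lit 5) (nat_lit 4) (nat_lit 451) (nat_lit 237) (nat_lit 212))))) (XT.nd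 (nat_lit 234) (nat_lit 152) (nat_lit 0) (XT.nd (nat_lit 78) (nat_lit 76) (nat_lit 0) (XT.lf (nat_lit 0) (nat_lit 8327297181) (nat_lit 152) (nat_lit 2827346317) (nat_lit 0) (nat_lit 8327297181) (nat_lit 11) (nat_lit 5) (nat_lit 13) (nat_lit 4) (nat_lit 11) (nat_lit 4) (nat_lit 424) (nat_lit 238) (nat_lit 238)) (XT.nd (nat_lit 78) (nat_lit 0) (nat_lit 0) (XT.lf (nat_lit 0) (nat_lit 4584459610) (nat_lit 76) (nat_lit 17770032512) (nat_lit 76) (nat_lit 17617258080) (nat_lit 10) (nat_lit 4) (nat_lit 11) (nat_lit 5) (nat_lit 11) (nat_lit 4) (nat_lit 425) (nat_lit 238) (nat_lit 237)) (XT.lf (nat_lit 0) (nat_lit 15043340584) (nat_lit 76) (nat_lit 13134522758) (nat_lit 76) (nat_lit 12833423634) (nat_lit 10) (nat_lit 4) (nat_lit 11) (nat_lit 5) (nat_lit 11) (nat_lit 4) (nat_lit 426) (nat_lit 238) (nat_lit 236)))) (XT.nd (nat_lit 156) (nat_lit 152) (nat_lit 0) (XT.nd (nat_lit 78) (nat_lit 0) (nat_lit 0) (XT.lf (nat_lit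 0) (nat_lit 25618549643) (nat_lit 76) (nat_lit 8455808600) (nat_lit 76) (nat_lit 8010704921) (nat_lit 10) (nat_lit 4) (nat_lit 11) (nat_lit 5) (nat_lit 11) (nat_lit 4) (nat_lit 427) (nat_lit 238) (nat_lit 235)) (XT.lf (nat_lit 0) (nat_lit 36319327261) (nat_lit 76) (nat_lit 3729801840) (nat_lit 76) (nat_lit 3144887914) (nat_lit 10) (nat_lit 4) (nat_lit 11) (nat_lit 5) (nat_lit 11) (nat_lit 4) (nat_lit 428) (nat_lit 238) (nat_lit 234))) (XT.nd (nat_lit 78) (nat_lit 0) (nat_lit 0) (XT.lf (nat_lit 0) (nat_lit 1771724268) (nat_lit 152) (nat_lit 41493682695) (nat_lit 0) (nat_lit 1072062102) (nat_lit 8) (nat_lit 5) (nat_lit 10) (nat_lit 4) (nat_lit 8) (nat_lit 4) (nat_lit 429) (nat_lit 238) (nat_lit 233)) (XT.lf (nat_lit 0) (nat_lit 6783119234) (nat_lit 152) (nat_lit 32775350942) (nat_lit 0) (nat_lit 5955510886) (nat_lit 8) (nat_lit 5) (nat_lit 10) (nat_lit 4) (nat_lit 8) (nat_lit 4) (nat_lit 430) (nat_lit 238)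 (nat_lit 232))))))) (XT.nd (nat_lit 1014) (nat_lit 76) (nat_lit 0) (XT.nd (nat_lit 468) (nat_lit 152) (nat_lit 0) (XT.nd (nat_lit 234) (nat_lit 76) (nat_lit 0) (XT.nd (nat_lit 78) (nat_lit 0) (nat_lit 0) (XT.lf (nat_lit 0) (nat_lit 11851124591) (nat_lit 152) (nat_lit 23978184286) (nat_lit 0) (nat_lit 10899296649) (nat_lit 8) (nat_lit 5) (nat_lit 10) (nat_lit 4) (nat_lit 8) (nat_lit 4) (nat_lit 431) (nat_lit 238) (nat_lit 231)) (XT.nd (nat_lit 78) (nat_lit 0) (nat_lit 0) (XT.lf (nat_lit 0) (nat_lit 16980168694) (nat_lit 152) (nat_lit 15094495882) (nat_lit 0) (nat_lit 15907739204) (nat_lit 8) (nat_lit 5) (nat_lit 10) (nat_lit 4) (nat_lit 8) (nat_lit 4) (nat_lit 432) (nat_lit 238) (nat_lit 230)) (XT.lf (nat_lit 0) (nat_lit 22174733231) (nat_lit 152) (nat_lit 6116523285) (nat_lit 0) (nat_lit 20985214860) (nat_lit 8) (nat_lit 5) (nat_lit 10) (nat_lit 4) (nat_lit 8) (nat_lit 4) (nat_lit 433) (nat_lit 238) (nat_lit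 229)))) (XT.nd (nat_lit 78) (nat_lit 0) (nat_lit 0) (XT.lf (nat_lit 0) (nat_lit 3022559356) (nat_lit 76) (nat_lit 24445852475) (nat_lit 76) (nat_lit 23142655578) (nat_lit 7) (nat_lit 4) (nat_lit 8) (nat_lit 5) (nat_lit 8) (nat_lit 4) (nat_lit 434) (nat_lit 238) (nat_lit 228)) (XT.nd (nat_lit 78) (nat_lit 0) (nat_lit 0) (XT.lf (nat_lit 0) (nat_lit 12395626368) (nat_lit 76) (nat_lit 20502168558) (nat_lit 76) (nat_lit 19088604161) (nat_lit 7) (nat_lit 4) (nat_lit 8) (nat_lit 5) (nat_lit 8) (nat_lit 4) (nat_lit 435) (nat_lit 238) (nat_lit 227)) (XT.lf (nat_lit 0) (nat_lit 21889137004) (nat_lit 76) (nat_lit 16518523720) (nat_lit 76) (nat_lit 14997806410) (nat_lit 7) (nat_lit 4) (nat_lit 8) (nat_lit 5) (nat_lit 8) (nat_lit 4) (nat_lit 436) (nat_lit 238) (nat_lit 226))))) (XT.nd (nat_lit 234) (nat_lit 152) (nat_lit 0) (XT.nd (nat_lit 78) (nat_lit 0) (nat_lit 0) (XT.lf (nat_lit 0) (nat_lit 31511386564) (nat_lit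 76) (nat_lit 12491437105) (nat_lit 76) (nat_lit 10866687841) (nat_lit 7) (nat_lit 4) (nat_lit 8) (nat_lit 5) (nat_lit 8) (nat_lit 4) (nat_lit 437) (nat_lit 238) (nat_lit 225)) (XT.nd (nat_lit 78) (nat_lit 0) (nat_lit 0) (XT.lf (nat_lit 0) (nat_lit 41270782839) (nat_lit 76) (nat_lit 8417389901) (nat_lit 76) (nat_lit 6691638739) (nat_lit 7) (nat_lit 4) (nat_lit 8) (nat_lit 5) (nat_lit 8) (nat_lit 4) (nat_lit 438) (nat_lit 238) (nat_lit 224)) (XT.lf (nat_lit 0) (nat_lit 51175853456) (nat_lit 76) (nat_lit 4292822260) (nat_lit 76) (nat_lit 2469011004) (nat_lit 7) (nat_lit 4) (nat_lit 8) (nat_lit 5) (nat_lit 8) (nat_lit 4) (nat_lit 439) (nat_lit 238) (nat_lit 223)))) (XT.nd (nat_lit 156) (nat_lit 0) (nat_lit 0) (XT.nd (nat_lit 78) (nat_lit 0) (nat_lit 0) (XT.lf (nat_lit 0) (nat_lit 1706709233) (nat_lit 76) (nat_lit 79361931) (nat_lit 152) (nat_lit 57757414652) (nat_lit 5) (nat_lit 5) (nat_lit 6) (nat_lit 5) (nat_lit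 7) (nat_lit 4) (nat_lit 440) (nat_lit 238) (nat_lit 222)) (XT.lf (nat_lit 0) (nat_lit 6155263836) (nat_lit 152) (nat_lit 50837979554) (nat_lit 0) (nat_lit 4202403374) (nat_lit 5) (nat_lit 5) (nat_lit 7) (nat_lit 4) (nat_lit 5) (nat_lit 4) (nat_lit 441) (nat_lit 238) (nat_lit 221))) (XT.nd (nat_lit 78) (nat_lit 0) (nat_lit 0) (XT.lf (nat_lit 0) (nat_lit 10584639263) (nat_lit 152) (nat_lit 43770210011) (nat_lit 0) (nat_lit 8544653677) (nat_lit 5) (nat_lit 5) (nat_lit 7) (nat_lit 4) (nat_lit 5) (nat_lit 4) (nat_lit 442) (nat_lit 238) (nat_lit 220)) (XT.lf (nat_lit 0) (nat_lit 15077304899) (nat_lit 152) (nat_lit 36626529359) (nat_lit 0) (nat_lit 12952731814) (nat_lit 5) (nat_lit 5) (nat_lit 7) (nat_lit 4) (nat_lit 5) (nat_lit 4) (nat_lit 443) (nat_lit 238) (nat_lit 219)))))) (XT.nd (nat_lit 546) (nat_lit 0) (nat_lit 0) (XT.nd (nat_lit 234) (nat_lit 76) (nat_lit 0) (XT.nd (nat_lit 78) (nat_lit 0) (nat_lit 0)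 (XT.lf (nat_lit 0) (nat_lit 19637186374) (nat_lit 152) (nat_lit 29400695548) (nat_lit 0) (nat_lit 17430489503) (nat_lit 5) (nat_lit 5) (nat_lit 7) (nat_lit 4) (nat_lit 5) (nat_lit 4) (nat_lit 444) (nat_lit 238) (nat_lit 218)) (XT.nd (nat_lit 78) (nat_lit 0) (nat_lit 0) (XT.lf (nat_lit 0) (nat_lit 24268268050) (nat_lit 152) (nat_lit 22086394741) (nat_lit 0) (nat_lit 21981839349) (nat_lit 5) (nat_lit 5) (nat_lit 7) (nat_lit 4) (nat_lit 5) (nat_lit 4) (nat_lit 445) (nat_lit 238) (nat_lit 217)) (XT.lf (nat_lit 0) (nat_lit 28974596503) (nat_lit 152) (nat_lit 14677235802) (nat_lit 0) (nat_lit 26610758258) (nat_lit 5) (nat_lit 5) (nat_lit 7) (nat_lit 4) (nat_lit 5) (nat_lit 4) (nat_lit 446) (nat_lit 238) (nat_lit 216)))) (XT.nd (nat_lit 156) (nat_lit 0) (nat_lit 0) (XT.nd (nat_lit 78) (nat_lit 76) (nat_lit 0) (XT.lf (nat_lit 0) (nat_lit 33760284060) (nat_lit 152) (nat_lit 7166744708) (nat_lit 0) (nat_lit 31321290917)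 (nat_lit 5) (nat_lit 5) (nat_lit 7) (nat_lit 4) (nat_lit 5) (nat_lit 4) (nat_lit 447) (nat_lit 238) (nat_lit 215)) (XT.lf (nat_lit 0) (nat_lit 460629647) (nat_lit 76) (nat_lit 38173310595) (nat_lit 76) (nat_lit 35661351532) (nat_lit 4) (nat_lit 4) (nat_lit 5) (nat_lit 5) (nat_lit 5) (nat_lit 4) (nat_lit 448) (nat_lit 238) (nat_lit 214))) (XT.nd (nat_lit 78) (nat_lit 0) (nat_lit 0) (XT.lf (nat_lit 0) (nat_lit 8347467637) (nat_lit 76) (nat_lit 35319309482) (nat_lit 76) (nat_lit 32736509721) (nat_lit 4) (nat_lit 4) (nat_lit 5) (nat_lit 5) (nat_lit 5) (nat_lit 4) (nat_lit 449) (nat_lit 238) (nat_lit 213)) (XT.lf (nat_lit 0) (nat_lit 16358028401) (nat_lit 76) (nat_lit 32434901712) (nat_lit 76) (nat_lit 29783324573) (nat_lit 4) (nat_lit 4) (nat_lit 5) (nat_lit 5) (nat_lit 5) (nat_lit 4) (nat_lit 450) (nat_lit 238) (nat_lit 212))))) (XT.nd (nat_lit 44772) (nat_lit 0) (nat_lit 456) (XT.nd (nat_lit 44616) (nat_lit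 0) (nat_lit 532) (XT.lf (nat_lit 0) (nat_lit 24499311458) (nat_lit 76) (nat_lit 29517566928) (nat_lit 76) (nat_lit 26799215637) (nat_lit 4) (nat_lit 4) (nat_lit 5) (nat_lit 5) (nat_lit 5) (nat_lit 4) (nat_lit 451) (nat_lit 238) (nat_lit 211)) (XT.nd (nat_lit 78) (nat_lit 0) (nat_lit 0) (XT.lf (nat_lit 0) (nat_lit 2867625633) (nat_lit 152) (nat_lit 12784985599) (nat_lit 0) (nat_lit 2867625633) (nat_lit 11) (nat_lit 5) (nat_lit 13) (nat_lit 4) (nat_lit 11) (nat_lit 4) (nat_lit 422) (nat_lit 239) (nat_lit 239)) (XT.lf (nat_lit 0) (nat_lit 11218185841) (nat_lit 152) (nat_lit 15708156617) (nat_lit 0) (nat_lit 11060828176) (nat_lit 11) (nat_lit 5) (nat_lit 13) (nat_lit 4) (nat_lit 11) (nat_lit 4) (nat_lit 423) (nat_lit 239) (nat_lit 238)))) (XT.nd (nat_lit 156) (nat_lit 0) (nat_lit 0) (XT.nd (nat_lit 78) (nat_lit 76) (nat_lit 0) (XT.lf (nat_lit 0) (nat_lit 16759858411) (nat_lit 152) (nat_lit 5755862574) (nat_lit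 0) (nat_lit 16449726313) (nat_lit 11) (nat_lit 5) (nat_lit 13) (nat_lit 4) (nat_lit 11) (nat_lit 4) (nat_lit 424) (nat_lit 239) (nat_lit 237)) (XT.lf (nat_lit 0) (nat_lit 4381098115) (nat_lit 76) (nat_lit 18026126892) (nat_lit 76) (nat_lit 17567670103) (nat_lit 10) (nat_lit 4) (nat_lit 11) (nat_lit 5) (nat_lit 11) (nat_lit 4) (nat_lit 425) (nat_lit 239) (nat_lit 236))) (XT.nd (nat_lit 78) (nat_lit 0) (nat_lit 0) (XT.lf (nat_lit 0) (nat_lit 14742718821) (nat_lit 76) (nat_lit 13437839251) (nat_lit 76) (nat_lit 12835377906) (nat_lit 10) (nat_lit 4) (nat_lit 11) (nat_lit 5) (nat_lit 11) (nat_lit 4) (nat_lit 426) (nat_lit 239) (nat_lit 235)) (XT.lf (nat_lit 0) (nat_lit 25223500435) (nat_lit 76) (nat_lit 8804971803) (nat_lit 76) (nat_lit 8062700212) (nat_lit 10) (nat_lit 4) (nat_lit 11) (nat_lit 5) (nat_lit 11) (nat_lit 4) (nat_lit 427) (nat_lit 239) (nat_lit 234))))))))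
noncomputable def xc4 : XT := (XT.nd (nat_lit 46410) (nat_lit 0) (nat_lit 76) (XT.nd (nat_lit 1014) (nat_lit 76) (nat_lit 0) (XT.nd (nat_lit 468) (nat_lit 228) (nat_lit 0) (XT.nd (nat_lit 234) (nat_lit 0) (nat_lit 0) (XT.nd (nat_lit 78) (nat_lit 152) (nat_lit 0) (XT.lf (nat_lit 0) (nat_lit 35832600922) (nat_lit 76) (nat_lit 4123476414) (nat_lit 76) (nat_lit 3245466718) (nat_lit 10) (nat_lit 4) (nat_lit 11) (nat_lit 5) (nat_lit 11) (nat_lit 4) (nat_lit 428) (nat_lit 239) (nat_lit 233)) (XT.nd (nat_lit 78) (nat_lit 0) (nat_lit 0) (XT.lf (nat_lit 0) (nat_lit 1616871954) (nat_lit 152) (nat_lit 42093353685) (nat_lit 0) (nat_lit 636489174) (nat_lit 8) (nat_lit 5) (nat_lit 10) (nat_lit 4) (nat_lit 8) (nat_lit 4) (nat_lit 429) (nat_lit 239) (nat_lit 232)) (XT.lf (nat_lit 0) (nat_lit 6582093788) (nat_lit 152) (nat_lit 33465029345) (nat_lit 0) (nat_lit 5477491414) (nat_lit 8) (nat_lit 5) (nat_lit 10) (nat_lit 4)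 (nat_lit 8) (nat_lit 4) (nat_lit 430) (nat_lit 239) (nat_lit 231)))) (XT.nd (nat_lit 78) (nat_lit 0) (nat_lit 0) (XT.lf (nat_lit 0) (nat_lit 11605270862) (nat_lit 152) (nat_lit 24755248527) (nat_lit 0) (nat_lit 10380066940) (nat_lit 8) (nat_lit 5) (nat_lit 10) (nat_lit 4) (nat_lit 8) (nat_lit 4) (nat_lit 431) (nat_lit 239) (nat_lit 230)) (XT.nd (nat_lit 78) (nat_lit 0) (nat_lit 0) (XT.lf (nat_lit 0) (nat_lit 16690792359) (nat_lit 152) (nat_lit 15956400744) (nat_lit 0) (nat_lit 15348499556) (nat_lit 8) (nat_lit 5) (nat_lit 10) (nat_lit 4) (nat_lit 8) (nat_lit 4) (nat_lit 432) (nat_lit 239) (nat_lit 229)) (XT.lf (nat_lit 0) (nat_lit 21843101939) (nat_lit 152) (nat_lit 7060797680) (nat_lit 0) (nat_lit 20387130611) (nat_lit 8) (nat_lit 5) (nat_lit 10) (nat_lit 4) (nat_lit 8) (nat_lit 4) (nat_lit 433) (nat_lit 239) (nat_lit 228))))) (XT.nd (nat_lit 234) (nat_lit 152) (nat_lit 0) (XT.nd (nat_lit 78) (nat_lit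 0) (nat_lit 0) (XT.lf (nat_lit 0) (nat_lit 1977930059) (nat_lit 76) (nat_lit 25107784635) (nat_lit 76) (nat_lit 23541445806) (nat_lit 7) (nat_lit 4) (nat_lit 8) (nat_lit 5) (nat_lit 8) (nat_lit 4) (nat_lit 434) (nat_lit 239) (nat_lit 227)) (XT.nd (nat_lit 78) (nat_lit 0) (nat_lit 0) (XT.lf (nat_lit 0) (nat_lit 11271810674) (nat_lit 76) (nat_lit 21202696578) (nat_lit 76) (nat_lit 19529204836) (nat_lit 7) (nat_lit 4) (nat_lit 8) (nat_lit 5) (nat_lit 8) (nat_lit 4) (nat_lit 435) (nat_lit 239) (nat_lit 226)) (XT.lf (nat_lit 0) (nat_lit 20688441312) (nat_lit 76) (nat_lit 17256523449) (nat_lit 76) (nat_lit 15478999752) (nat_lit 7) (nat_lit 4) (nat_lit 8) (nat_lit 5) (nat_lit 8) (nat_lit 4) (nat_lit 436) (nat_lit 239) (nat_lit 225)))) (XT.nd (nat_lit 156) (nat_lit 152) (nat_lit 0) (XT.nd (nat_lit 78) (nat_lit 0) (nat_lit 0) (XT.lf (nat_lit 0) (nat_lit 30236050098) (nat_lit 76) (nat_lit 13265817134) (nat_lit 76)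 (nat_lit 11387291540) (nat_lit 7) (nat_lit 4) (nat_lit 8) (nat_lit 5) (nat_lit 8) (nat_lit 4) (nat_lit 437) (nat_lit 239) (nat_lit 224)) (XT.lf (nat_lit 0) (nat_lit 39922979601) (nat_lit 76) (nat_lit 9227090610) (nat_lit 76) (nat_lit 7250504921) (nat_lit 7) (nat_lit 4) (nat_lit 8) (nat_lit 5) (nat_lit 8) (nat_lit 4) (nat_lit 438) (nat_lit 239) (nat_lit 223))) (XT.nd (nat_lit 78) (nat_lit 152) (nat_lit 0) (XT.lf (nat_lit 0) (nat_lit 49757694130) (nat_lit 76) (nat_lit 5136814891) (nat_lit 76) (nat_lit 3065025227) (nat_lit 7) (nat_lit 4) (nat_lit 8) (nat_lit 5) (nat_lit 8) (nat_lit 4) (nat_lit 439) (nat_lit 239) (nat_lit 222)) (XT.lf (nat_lit 0) (nat_lit 173500714) (nat_lit 76) (nat_lit 978086193) (nat_lit 152) (nat_lit 58415423164) (nat_lit 5) (nat_lit 5) (nat_lit 6) (nat_lit 5) (nat_lit 7) (nat_lit 4) (nat_lit 440) (nat_lit 239) (nat_lit 221)))))) (XT.nd (nat_lit 468) (nat_lit 76) (nat_lit 0) (XT.nd (nat_lit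 234) (nat_lit 0) (nat_lit 0) (XT.nd (nat_lit 78) (nat_lit 0) (nat_lit 0) (XT.lf (nat_lit 0) (nat_lit 5476830745) (nat_lit 152) (nat_lit 52455140056) (nat_lit 0) (nat_lit 3288520467) (nat_lit 5) (nat_lit 5) (nat_lit 7) (nat_lit 4) (nat_lit 5) (nat_lit 4) (nat_lit 441) (nat_lit 239) (nat_lit 220)) (XT.nd (nat_lit 78) (nat_lit 0) (nat_lit 0) (XT.lf (nat_lit 0) (nat_lit 9871924864) (nat_lit 152) (nat_lit 45454425674) (nat_lit 0) (nat_lit 7599027087) (nat_lit 5) (nat_lit 5) (nat_lit 7) (nat_lit 4) (nat_lit 5) (nat_lit 4) (nat_lit 442) (nat_lit 239) (nat_lit 219)) (XT.lf (nat_lit 0) (nat_lit 14331307678) (nat_lit 152) (nat_lit 38375847121) (nat_lit 0) (nat_lit 11976286115) (nat_lit 5) (nat_lit 5) (nat_lit 7) (nat_lit 4) (nat_lit 5) (nat_lit 4) (nat_lit 443) (nat_lit 239) (nat_lit 218)))) (XT.nd (nat_lit 78) (nat_lit 0) (nat_lit 0) (XT.lf (nat_lit 0) (nat_lit 18858875732) (nat_lit 152) (nat_lit 31213219230) (nat_lit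 0) (nat_lit 16424122339) (nat_lit 5) (nat_lit 5) (nat_lit 7) (nat_lit 4) (nat_lit 5) (nat_lit 4) (nat_lit 444) (nat_lit 239) (nat_lit 217)) (XT.nd (nat_lit 78) (nat_lit 0) (nat_lit 0) (XT.lf (nat_lit 0) (nat_lit 23458585155) (nat_lit 152) (nat_lit 23960283395) (nat_lit 0) (nat_lit 20946422218) (nat_lit 5) (nat_lit 5) (nat_lit 7) (nat_lit 4) (nat_lit 5) (nat_lit 4) (nat_lit 445) (nat_lit 239) (nat_lit 216)) (XT.lf (nat_lit 0) (nat_lit 28134455111) (nat_lit 152) (nat_lit 16610702098) (nat_lit 0) (nat_lit 25547137276) (nat_lit 5) (nat_lit 5) (nat_lit 7) (nat_lit 4) (nat_lit 5) (nat_lit 4) (nat_lit 446) (nat_lit 239) (nat_lit 215))))) (XT.nd (nat_lit 234) (nat_lit 0) (nat_lit 0) (XT.nd (nat_lit 78) (nat_lit 76) (nat_lit 0) (XT.lf (nat_lit 0) (nat_lit 32890571310) (nat_lit 152) (nat_lit 9158053376) (nat_lit 0) (nat_lit 30230287556) (nat_lit 5) (nat_lit 5) (nat_lit 7) (nat_lit 4) (nat_lit 5) (nat_lit 4) (nat_lit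 447) (nat_lit 239) (nat_lit 214)) (XT.nd (nat_lit 78) (nat_lit 76) (nat_lit 0) (XT.lf (nat_lit 0) (nat_lit 37731089583) (nat_lit 152) (nat_lit 1595825205) (nat_lit 0) (nat_lit 34999965130) (nat_lit 5) (nat_lit 5) (nat_lit 7) (nat_lit 4) (nat_lit 5) (nat_lit 4) (nat_lit 448) (nat_lit 239) (nat_lit 213)) (XT.lf (nat_lit 0) (nat_lit 6203645656) (nat_lit 76) (nat_lit 36516227089) (nat_lit 76) (nat_lit 33716325259) (nat_lit 4) (nat_lit 4) (nat_lit 5) (nat_lit 5) (nat_lit 5) (nat_lit 4) (nat_lit 449) (nat_lit 239) (nat_lit 212)))) (XT.nd (nat_lit 44538) (nat_lit 0) (nat_lit 532) (XT.nd (nat_lit 78) (nat_lit 0) (nat_lit 0) (XT.lf (nat_lit 0) (nat_lit 14160218967) (nat_lit 76) (nat_lit 33658225831) (nat_lit 76) (nat_lit 30791549848) (nat_lit 4) (nat_lit 4) (nat_lit 5) (nat_lit 5) (nat_lit 5) (nat_lit 4) (nat_lit 450) (nat_lit 239) (nat_lit 211)) (XT.lf (nat_lit 0) (nat_lit 22249087021) (nat_lit 76) (nat_lit 30766528438)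 (nat_lit 76) (nat_lit 27835023180) (nat_lit 4) (nat_lit 4) (nat_lit 5) (nat_lit 5) (nat_lit 5) (nat_lit 4) (nat_lit 451) (nat_lit 239) (nat_lit 210))) (XT.nd (nat_lit 78) (nat_lit 152) (nat_lit 0) (XT.lf (nat_lit 0) (nat_lit 12807056652) (nat_lit 76) (nat_lit 2404283168) (nat_lit 76) (nat_lit 2404283168) (nat_lit 13) (nat_lit 4) (nat_lit 14) (nat_lit 5) (nat_lit 14) (nat_lit 4) (nat_lit 420) (nat_lit 240) (nat_lit 240)) (XT.lf (nat_lit 0) (nat_lit 468342167) (nat_lit 152) (nat_lit 35349923436) (nat_lit 0) (nat_lit 306263772) (nat_lit 11) (nat_lit 5) (nat_lit 13) (nat_lit 4) (nat_lit 11) (nat_lit 4) (nat_lit 421) (nat_lit 240) (nat_lit 239))))))) (XT.nd (nat_lit 1014) (nat_lit 152) (nat_lit 0) (XT.nd (nat_lit 468) (nat_lit 228) (nat_lit 0) (XT.nd (nat_lit 234) (nat_lit 76) (nat_lit 0) (XT.nd (nat_lit 78) (nat_lit 0) (nat_lit 0) (XT.lf (nat_lit 0) (nat_lit 5843673236) (nat_lit 152) (nat_lit 25674176235) (nat_lit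 0) (nat_lit 5524237175) (nat_lit 11) (nat_lit 5) (nat_lit 13) (nat_lit 4) (nat_lit 11) (nat_lit 4) (nat_lit 422) (nat_lit 240) (nat_lit 238)) (XT.nd (nat_lit 78) (nat_lit 0) (nat_lit 0) (XT.lf (nat_lit 0) (nat_lit 11274514194) (nat_lit 152) (nat_lit 15913531592) (nat_lit 0) (nat_lit 10802303701) (nat_lit 11) (nat_lit 5) (nat_lit 13) (nat_lit 4) (nat_lit 11) (nat_lit 4) (nat_lit 423) (nat_lit 240) (nat_lit 237)) (XT.lf (nat_lit 0) (nat_lit 16765610435) (nat_lit 152) (nat_lit 6059460790) (nat_lit 0) (nat_lit 16145075251) (nat_lit 11) (nat_lit 5) (nat_lit 13) (nat_lit 4) (nat_lit 11) (nat_lit 4) (nat_lit 424) (nat_lit 240) (nat_lit 236)))) (XT.nd (nat_lit 78) (nat_lit 0) (nat_lit 0) (XT.lf (nat_lit 0) (nat_lit 3974197431) (nat_lit 76) (nat_lit 18385764992) (nat_lit 76) (nat_lit 17621225252) (nat_lit 10) (nat_lit 4) (nat_lit 11) (nat_lit 5) (nat_lit 11) (nat_lit 4) (nat_lit 425) (nat_lit 240) (nat_lit 235))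 (XT.nd (nat_lit 78) (nat_lit 0) (nat_lit 0) (XT.lf (nat_lit 0) (nat_lit 14241390693) (nat_lit 76) (nat_lit 13843324061) (nat_lit 76) (nat_lit 12938974074) (nat_lit 10) (nat_lit 4) (nat_lit 11) (nat_lit 5) (nat_lit 11) (nat_lit 4) (nat_lit 426) (nat_lit 240) (nat_lit 234)) (XT.lf (nat_lit 0) (nat_lit 24630495176) (nat_lit 76) (nat_lit 9254967984) (nat_lit 76) (nat_lit 8214879892) (nat_lit 10) (nat_lit 4) (nat_lit 11) (nat_lit 5) (nat_lit 11) (nat_lit 4) (nat_lit 427) (nat_lit 240) (nat_lit 233))))) (XT.nd (nat_lit 234) (nat_lit 76) (nat_lit 0) (XT.nd (nat_lit 78) (nat_lit 152) (nat_lit 0) (XT.lf (nat_lit 0) (nat_lit 35150588740) (nat_lit 76) (nat_lit 4616687517) (nat_lit 76) (nat_lit 3444814858) (nat_lit 10) (nat_lit 4) (nat_lit 11) (nat_lit 5) (nat_lit 11) (nat_lit 4) (nat_lit 428) (nat_lit 240) (nat_lit 232)) (XT.nd (nat_lit 78) (nat_lit 0) (nat_lit 0) (XT.lf (nat_lit 0) (nat_lit 1363642613) (nat_lit 152)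 (nat_lit 42893729854) (nat_lit 0) (nat_lit 101682573) (nat_lit 8) (nat_lit 5) (nat_lit 10) (nat_lit 4) (nat_lit 8) (nat_lit 4) (nat_lit 429) (nat_lit 240) (nat_lit 231)) (XT.lf (nat_lit 0) (nat_lit 6284036164) (nat_lit 152) (nat_lit 34352791353) (nat_lit 0) (nat_lit 4901474577) (nat_lit 8) (nat_lit 5) (nat_lit 10) (nat_lit 4) (nat_lit 8) (nat_lit 4) (nat_lit 430) (nat_lit 240) (nat_lit 230)))) (XT.nd (nat_lit 156) (nat_lit 76) (nat_lit 0) (XT.nd (nat_lit 78) (nat_lit 0) (nat_lit 0) (XT.lf (nat_lit 0) (nat_lit 11263690632) (nat_lit 152) (nat_lit 25727851155) (nat_lit 0) (nat_lit 9764040164) (nat_lit 8) (nat_lit 5) (nat_lit 10) (nat_lit 4) (nat_lit 8) (nat_lit 4) (nat_lit 431) (nat_lit 240) (nat_lit 229)) (XT.lf (nat_lit 0) (nat_lit 16306957173) (nat_lit 152) (nat_lit 17011372905) (nat_lit 0) (nat_lit 14693628179) (nat_lit 8) (nat_lit 5) (nat_lit 10) (nat_lit 4) (nat_lit 8) (nat_lit 4) (nat_lit 432) (nat_lit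 240) (nat_lit 228))) (XT.nd (nat_lit 78) (nat_lit 76) (nat_lit 0) (XT.lf (nat_lit 0) (nat_lit 21418242523) (nat_lit 152) (nat_lit 8195740263) (nat_lit 0) (nat_lit 19694546029) (nat_lit 8) (nat_lit 5) (nat_lit 10) (nat_lit 4) (nat_lit 8) (nat_lit 4) (nat_lit 433) (nat_lit 240) (nat_lit 227)) (XT.lf (nat_lit 0) (nat_lit 741213496) (nat_lit 76) (nat_lit 25867924356) (nat_lit 76) (nat_lit 24037074949) (nat_lit 7) (nat_lit 4) (nat_lit 8) (nat_lit 5) (nat_lit 8) (nat_lit 4) (nat_lit 434) (nat_lit 240) (nat_lit 226)))))) (XT.nd (nat_lit 546) (nat_lit 0) (nat_lit 0) (XT.nd (nat_lit 234) (nat_lit 152) (nat_lit 0) (XT.nd (nat_lit 78) (nat_lit 0) (nat_lit 0) (XT.lf (nat_lit 0) (nat_lit 9958214113) (nat_lit 76) (nat_lit 22000308009) (nat_lit 76) (nat_lit 20065426646) (nat_lit 7) (nat_lit 4) (nat_lit 8) (nat_lit 5) (nat_lit 8) (nat_lit 4) (nat_lit 435) (nat_lit 240) (nat_lit 225)) (XT.nd (nat_lit 78) (nat_lit 0) (nat_lit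 0) (XT.lf (nat_lit 0) (nat_lit 19300203977) (nat_lit 76) (nat_lit 18090515179) (nat_lit 76) (nat_lit 16054631919) (nat_lit 7) (nat_lit 4) (nat_lit 8) (nat_lit 5) (nat_lit 8) (nat_lit 4) (nat_lit 436) (nat_lit 240) (nat_lit 224)) (XT.lf (nat_lit 0) (nat_lit 28775345991) (nat_lit 76) (nat_lit 14135129544) (nat_lit 76) (nat_lit 12001186190) (nat_lit 7) (nat_lit 4) (nat_lit 8) (nat_lit 5) (nat_lit 8) (nat_lit 4) (nat_lit 437) (nat_lit 240) (nat_lit 223)))) (XT.nd (nat_lit 156) (nat_lit 152) (nat_lit 0) (XT.nd (nat_lit 78) (nat_lit 0) (nat_lit 0) (XT.lf (nat_lit 0) (nat_lit 38391919406) (nat_lit 76) (nat_lit 10130694941) (nat_lit 76) (nat_lit 7901547612) (nat_lit 7) (nat_lit 4) (nat_lit 8) (nat_lit 5) (nat_lit 8) (nat_lit 4) (nat_lit 438) (nat_lit 240) (nat_lit 222)) (XT.lf (nat_lit 0) (nat_lit 48158327053) (nat_lit 76) (nat_lit 6073712350) (nat_lit 76) (nat_lit 3752133976) (nat_lit 7) (nat_lit 4) (nat_lit 8)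 (nat_lit 5) (nat_lit 8) (nat_lit 4) (nat_lit 439) (nat_lit 240) (nat_lit 221))) (XT.nd (nat_lit 78) (nat_lit 76) (nat_lit 0) (XT.lf (nat_lit 0) (nat_lit 441886018) (nat_lit 152) (nat_lit 1514288634) (nat_lit 76) (nat_lit 57636754486) (nat_lit 6) (nat_lit 5) (nat_lit 8) (nat_lit 5) (nat_lit 7) (nat_lit 4) (nat_lit 440) (nat_lit 240) (nat_lit 220)) (XT.lf (nat_lit 0) (nat_lit 4708453606) (nat_lit 152) (nat_lit 54256937351) (nat_lit 0) (nat_lit 2282781397) (nat_lit 5) (nat_lit 5) (nat_lit 7) (nat_lit 4) (nat_lit 5) (nat_lit 4) (nat_lit 441) (nat_lit 240) (nat_lit 219))))) (XT.nd (nat_lit 234) (nat_lit 0) (nat_lit 0) (XT.nd (nat_lit 78) (nat_lit 0) (nat_lit 0) (XT.lf (nat_lit 0) (nat_lit 9070264903) (nat_lit 152) (nat_lit 47321325067) (nat_lit 0) (nat_lit 6562468908) (nat_lit 5) (nat_lit 5) (nat_lit 7) (nat_lit 4) (nat_lit 5) (nat_lit 4) (nat_lit 442) (nat_lit 240) (nat_lit 218)) (XT.nd (nat_lit 78) (nat_lit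 0) (nat_lit 0) (XT.lf (nat_lit 0) (nat_lit 13497334296) (nat_lit 152) (nat_lit 40305952435) (nat_lit 0) (nat_lit 10909806471) (nat_lit 5) (nat_lit 5) (nat_lit 7) (nat_lit 4) (nat_lit 5) (nat_lit 4) (nat_lit 443) (nat_lit 240) (nat_lit 217)) (XT.lf (nat_lit 0) (nat_lit 17993530098) (nat_lit 152) (nat_lit 33204689515) (nat_lit 0) (nat_lit 15328592728) (nat_lit 5) (nat_lit 5) (nat_lit 7) (nat_lit 4) (nat_lit 5) (nat_lit 4) (nat_lit 444) (nat_lit 240) (nat_lit 216)))) (XT.nd (nat_lit 156) (nat_lit 0) (nat_lit 0) (XT.nd (nat_lit 78) (nat_lit 0) (nat_lit 0) (XT.lf (nat_lit 0) (nat_lit 22562781023) (nat_lit 152) (nat_lit 26011331322) (nat_lit 0) (nat_lit 19822688756) (nat_lit 5) (nat_lit 5) (nat_lit 7) (nat_lit 4) (nat_lit 5) (nat_lit 4) (nat_lit 445) (nat_lit 240) (nat_lit 215)) (XT.lf (nat_lit 0) (nat_lit 27209079622) (nat_lit 152) (nat_lit 18719592397) (nat_lit 0) (nat_lit 24396021435) (nat_lit 5) (nat_lit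 5) (nat_lit 7) (nat_lit 4) (nat_lit 5) (nat_lit 4) (nat_lit 446) (nat_lit 240) (nat_lit 214))) (XT.nd (nat_lit 78) (nat_lit 0) (nat_lit 0) (XT.lf (nat_lit 0) (nat_lit 31936485766) (nat_lit 152) (nat_lit 11323101317) (nat_lit 0) (nat_lit 29052586880) (nat_lit 5) (nat_lit 5) (nat_lit 7) (nat_lit 4) (nat_lit 5) (nat_lit 4) (nat_lit 447) (nat_lit 240) (nat_lit 213)) (XT.lf (nat_lit 0) (nat_lit 36749130199) (nat_lit 152) (nat_lit 3815395129) (nat_lit 0) (nat_lit 33796453936) (nat_lit 5) (nat_lit 5) (nat_lit 7) (nat_lit 4) (nat_lit 5) (nat_lit 4) (nat_lit 448) (nat_lit 240) (nat_lit 212))))))))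
noncomputable def xc5 : XT := (XT.nd (nat_lit 46332) (nat_lit 0) (nat_lit 0) (XT.nd (nat_lit 45240) (nat_lit 0) (nat_lit 76) (XT.nd (nat_lit 44694) (nat_lit 0) (nat_lit 456) (XT.nd (nat_lit 44460) (nat_lit 0) (nat_lit 684) (XT.nd (nat_lit 78) (nat_lit 0) (nat_lit 0) (XT.lf (nat_lit 0) (nat_lit 3885914487) (nat_lit 76) (nat_lit 37802657444) (nat_lit 76) (nat_lit 34783207029) (nat_lit 4) (nat_lit 4) (nat_lit 5) (nat_lit 5) (nat_lit 5) (nat_lit 4) (nat_lit 449) (nat_lit 240) (nat_lit 211)) (XT.nd (nat_lit 78) (nat_lit 0) (nat_lit 0) (XT.lf (nat_lit 0) (nat_lit 11790072794) (nat_lit 76) (nat_lit 34970293577) (nat_lit 76) (nat_lit 31886013886) (nat_lit 4) (nat_lit 4) (nat_lit 5) (nat_lit 5) (nat_lit 5) (nat_lit 4) (nat_lit 450) (nat_lit 240) (nat_lit 210)) (XT.lf (nat_lit 0) (nat_lit 19828052496) (nat_lit 76) (nat_lit 32103486853) (nat_lit 76) (nat_lit 28956266120) (nat_lit 4) (nat_lit 4) (nat_lit 5) (nat_lit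 5) (nat_lit 5) (nat_lit 4) (nat_lit 451) (nat_lit 240) (nat_lit 209)))) (XT.nd (nat_lit 78) (nat_lit 0) (nat_lit 0) (XT.lf (nat_lit 0) (nat_lit 1765492488) (nat_lit 76) (nat_lit 7499486575) (nat_lit 76) (nat_lit 7499486575) (nat_lit 13) (nat_lit 4) (nat_lit 14) (nat_lit 5) (nat_lit 14) (nat_lit 4) (nat_lit 418) (nat_lit 241) (nat_lit 241)) (XT.nd (nat_lit 78) (nat_lit 0) (nat_lit 0) (XT.lf (nat_lit 0) (nat_lit 14461651578) (nat_lit 76) (nat_lit 10038497745) (nat_lit 76) (nat_lit 9866548776) (nat_lit 13) (nat_lit 4) (nat_lit 14) (nat_lit 5) (nat_lit 14) (nat_lit 4) (nat_lit 419) (nat_lit 241) (nat_lit 240)) (XT.lf (nat_lit 0) (nat_lit 25511079448) (nat_lit 76) (nat_lit 5030328147) (nat_lit 76) (nat_lit 4691438430) (nat_lit 13) (nat_lit 4) (nat_lit 14) (nat_lit 5) (nat_lit 14) (nat_lit 4) (nat_lit 420) (nat_lit 241) (nat_lit 239))))) (XT.nd (nat_lit 234) (nat_lit 76) (nat_lit 0) (XT.nd (nat_lit 78) (nat_lit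 0) (nat_lit 0) (XT.lf (nat_lit 0) (nat_lit 526360370) (nat_lit 152) (nat_lit 35561459660) (nat_lit 0) (nat_lit 39983562) (nat_lit 11) (nat_lit 5) (nat_lit 13) (nat_lit 4) (nat_lit 11) (nat_lit 4) (nat_lit 421) (nat_lit 241) (nat_lit 238)) (XT.nd (nat_lit 78) (nat_lit 0) (nat_lit 0) (XT.lf (nat_lit 0) (nat_lit 5849597821) (nat_lit 152) (nat_lit 25986882397) (nat_lit 0) (nat_lit 5210446581) (nat_lit 11) (nat_lit 5) (nat_lit 13) (nat_lit 4) (nat_lit 11) (nat_lit 4) (nat_lit 422) (nat_lit 241) (nat_lit 237)) (XT.lf (nat_lit 0) (nat_lit 11229862452) (nat_lit 152) (nat_lit 16324460995) (nat_lit 0) (nat_lit 10442386520) (nat_lit 11) (nat_lit 5) (nat_lit 13) (nat_lit 4) (nat_lit 11) (nat_lit 4) (nat_lit 423) (nat_lit 241) (nat_lit 236)))) (XT.nd (nat_lit 156) (nat_lit 0) (nat_lit 0) (XT.nd (nat_lit 78) (nat_lit 76) (nat_lit 0) (XT.lf (nat_lit 0) (nat_lit 16671855463) (nat_lit 152) (nat_lit 6565752563) (nat_lit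 0) (nat_lit 15740374976) (nat_lit 11) (nat_lit 5) (nat_lit 13) (nat_lit 4) (nat_lit 11) (nat_lit 4) (nat_lit 424) (nat_lit 241) (nat_lit 235)) (XT.lf (nat_lit 0) (nat_lit 3363402014) (nat_lit 76) (nat_lit 18849261058) (nat_lit 76) (nat_lit 17777970323) (nat_lit 10) (nat_lit 4) (nat_lit 11) (nat_lit 5) (nat_lit 11) (nat_lit 4) (nat_lit 425) (nat_lit 241) (nat_lit 234))) (XT.nd (nat_lit 78) (nat_lit 0) (nat_lit 0) (XT.lf (nat_lit 0) (nat_lit 13538918145) (nat_lit 76) (nat_lit 14351331497) (nat_lit 76) (nat_lit 13144302658) (nat_lit 10) (nat_lit 4) (nat_lit 11) (nat_lit 5) (nat_lit 11) (nat_lit 4) (nat_lit 426) (nat_lit 241) (nat_lit 233)) (XT.lf (nat_lit 0) (nat_lit 23839015705) (nat_lit 76) (nat_lit 9806190342) (nat_lit 76) (nat_lit 8467376936) (nat_lit 10) (nat_lit 4) (nat_lit 11) (nat_lit 5) (nat_lit 11) (nat_lit 4) (nat_lit 427) (nat_lit 241) (nat_lit 232)))))) (XT.nd (nat_lit 546) (nat_lit 228) (nat_lit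 0) (XT.nd (nat_lit 234) (nat_lit 0) (nat_lit 0) (XT.nd (nat_lit 78) (nat_lit 152) (nat_lit 0) (XT.lf (nat_lit 0) (nat_lit 34272694780) (nat_lit 76) (nat_lit 5209866110) (nat_lit 76) (nat_lit 3743106522) (nat_lit 10) (nat_lit 4) (nat_lit 11) (nat_lit 5) (nat_lit 11) (nat_lit 4) (nat_lit 428) (nat_lit 241) (nat_lit 231)) (XT.nd (nat_lit 78) (nat_lit 0) (nat_lit 0) (XT.lf (nat_lit 0) (nat_lit 473609483) (nat_lit 76) (nat_lit 543429268) (nat_lit 152) (nat_lit 43357305066) (nat_lit 8) (nat_lit 5) (nat_lit 9) (nat_lit 5) (nat_lit 10) (nat_lit 4) (nat_lit 429) (nat_lit 241) (nat_lit 230)) (XT.lf (nat_lit 0) (nat_lit 5888685922) (nat_lit 152) (nat_lit 35439412679) (nat_lit 0) (nat_lit 4226957058) (nat_lit 8) (nat_lit 5) (nat_lit 10) (nat_lit 4) (nat_lit 8) (nat_lit 4) (nat_lit 430) (nat_lit 241) (nat_lit 229)))) (XT.nd (nat_lit 156) (nat_lit 0) (nat_lit 0) (XT.nd (nat_lit 78) (nat_lit 0) (nat_lit 0) (XT.lf (nat_lit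 0) (nat_lit 10826085434) (nat_lit 152) (nat_lit 26896842015) (nat_lit 0) (nat_lit 9050678044) (nat_lit 8) (nat_lit 5) (nat_lit 10) (nat_lit 4) (nat_lit 8) (nat_lit 4) (nat_lit 431) (nat_lit 241) (nat_lit 228)) (XT.lf (nat_lit 0) (nat_lit 15828327744) (nat_lit 152) (nat_lit 18260334186) (nat_lit 0) (nat_lit 13942552855) (nat_lit 8) (nat_lit 5) (nat_lit 10) (nat_lit 4) (nat_lit 8) (nat_lit 4) (nat_lit 432) (nat_lit 241) (nat_lit 227))) (XT.nd (nat_lit 78) (nat_lit 0) (nat_lit 0) (XT.lf (nat_lit 0) (nat_lit 20899783745) (nat_lit 152) (nat_lit 9522342730) (nat_lit 0) (nat_lit 18906855942) (nat_lit 8) (nat_lit 5) (nat_lit 10) (nat_lit 4) (nat_lit 8) (nat_lit 4) (nat_lit 433) (nat_lit 241) (nat_lit 226)) (XT.lf (nat_lit 0) (nat_lit 26044884806) (nat_lit 152) (nat_lit 675232508) (nat_lit 0) (nat_lit 23947925049) (nat_lit 8) (nat_lit 5) (nat_lit 10) (nat_lit 4) (nat_lit 8) (nat_lit 4) (nat_lit 434) (nat_lit 241)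 (nat_lit 225))))) (XT.nd (nat_lit 234) (nat_lit 152) (nat_lit 0) (XT.nd (nat_lit 78) (nat_lit 0) (nat_lit 0) (XT.lf (nat_lit 0) (nat_lit 8453688884) (nat_lit 76) (nat_lit 22895699790) (nat_lit 76) (nat_lit 20697738135) (nat_lit 7) (nat_lit 4) (nat_lit 8) (nat_lit 5) (nat_lit 8) (nat_lit 4) (nat_lit 435) (nat_lit 241) (nat_lit 224)) (XT.nd (nat_lit 78) (nat_lit 0) (nat_lit 0) (XT.lf (nat_lit 0) (nat_lit 17723211977) (nat_lit 76) (nat_lit 19021227640) (nat_lit 76) (nat_lit 16725205891) (nat_lit 7) (nat_lit 4) (nat_lit 8) (nat_lit 5) (nat_lit 8) (nat_lit 4) (nat_lit 436) (nat_lit 241) (nat_lit 223)) (XT.lf (nat_lit 0) (nat_lit 27127997902) (nat_lit 76) (nat_lit 15100133927) (nat_lit 76) (nat_lit 12708908202) (nat_lit 7) (nat_lit 4) (nat_lit 8) (nat_lit 5) (nat_lit 8) (nat_lit 4) (nat_lit 437) (nat_lit 241) (nat_lit 222)))) (XT.nd (nat_lit 156) (nat_lit 152) (nat_lit 0) (XT.nd (nat_lit 78) (nat_lit 0) (nat_lit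 0) (XT.lf (nat_lit 0) (nat_lit 36676264435) (nat_lit 76) (nat_lit 11128992452) (nat_lit 76) (nat_lit 8645335683) (nat_lit 7) (nat_lit 4) (nat_lit 8) (nat_lit 5) (nat_lit 8) (nat_lit 4) (nat_lit 438) (nat_lit 241) (nat_lit 221)) (XT.lf (nat_lit 0) (nat_lit 46376354721) (nat_lit 76) (nat_lit 7104333287) (nat_lit 76) (nat_lit 4530937640) (nat_lit 7) (nat_lit 4) (nat_lit 8) (nat_lit 5) (nat_lit 8) (nat_lit 4) (nat_lit 439) (nat_lit 241) (nat_lit 220))) (XT.nd (nat_lit 78) (nat_lit 152) (nat_lit 0) (XT.lf (nat_lit 0) (nat_lit 56236744566) (nat_lit 76) (nat_lit 3022639737) (nat_lit 76) (nat_lit 362118966) (nat_lit 7) (nat_lit 4) (nat_lit 8) (nat_lit 5) (nat_lit 8) (nat_lit 4) (nat_lit 440) (nat_lit 241) (nat_lit 219)) (XT.lf (nat_lit 0) (nat_lit 3849461023) (nat_lit 152) (nat_lit 56244945824) (nat_lit 0) (nat_lit 1184307363) (nat_lit 5) (nat_lit 5) (nat_lit 7) (nat_lit 4) (nat_lit 5) (nat_lit 4) (nat_lit 441)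 (nat_lit 241) (nat_lit 218))))))) (XT.nd (nat_lit 45084) (nat_lit 0) (nat_lit 304) (XT.nd (nat_lit 468) (nat_lit 76) (nat_lit 0) (XT.nd (nat_lit 234) (nat_lit 0) (nat_lit 0) (XT.nd (nat_lit 78) (nat_lit 0) (nat_lit 0) (XT.lf (nat_lit 0) (nat_lit 8178958900) (nat_lit 152) (nat_lit 49372539461) (nat_lit 0) (nat_lit 5434073409) (nat_lit 5) (nat_lit 5) (nat_lit 7) (nat_lit 4) (nat_lit 5) (nat_lit 4) (nat_lit 442) (nat_lit 241) (nat_lit 217)) (XT.nd (nat_lit 78) (nat_lit 0) (nat_lit 0) (XT.lf (nat_lit 0) (nat_lit 12574656040) (nat_lit 152) (nat_lit 42418531800) (nat_lit 0) (nat_lit 9752361005) (nat_lit 5) (nat_lit 5) (nat_lit 7) (nat_lit 4) (nat_lit 5) (nat_lit 4) (nat_lit 443) (nat_lit 241) (nat_lit 216)) (XT.lf (nat_lit 0) (nat_lit 17040393344) (nat_lit 152) (nat_lit 35376846523) (nat_lit 0) (nat_lit 14142943412) (nat_lit 5) (nat_lit 5) (nat_lit 7) (nat_lit 4) (nat_lit 5) (nat_lit 4) (nat_lit 444) (nat_lit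 241) (nat_lit 215)))) (XT.nd (nat_lit 78) (nat_lit 0) (nat_lit 0) (XT.lf (nat_lit 0) (nat_lit 21580072913) (nat_lit 152) (nat_lit 28241330701) (nat_lit 0) (nat_lit 18609657061) (nat_lit 5) (nat_lit 5) (nat_lit 7) (nat_lit 4) (nat_lit 5) (nat_lit 4) (nat_lit 445) (nat_lit 241) (nat_lit 214)) (XT.nd (nat_lit 78) (nat_lit 0) (nat_lit 0) (XT.lf (nat_lit 0) (nat_lit 26197661456) (nat_lit 152) (nat_lit 21005749418) (nat_lit 0) (nat_lit 23156404905) (nat_lit 5) (nat_lit 5) (nat_lit 7) (nat_lit 4) (nat_lit 5) (nat_lit 4) (nat_lit 446) (nat_lit 241) (nat_lit 213)) (XT.lf (nat_lit 0) (nat_lit 30897193760) (nat_lit 152) (nat_lit 13663780320) (nat_lit 0) (nat_lit 27787159832) (nat_lit 5) (nat_lit 5) (nat_lit 7) (nat_lit 4) (nat_lit 5) (nat_lit 4) (nat_lit 447) (nat_lit 241) (nat_lit 212))))) (XT.nd (nat_lit 234) (nat_lit 0) (nat_lit 0) (XT.nd (nat_lit 78) (nat_lit 76) (nat_lit 0) (XT.lf (nat_lit 0) (nat_lit 35682776212)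 (nat_lit 152) (nat_lit 6209008095) (nat_lit 0) (nat_lit 32505968131) (nat_lit 5) (nat_lit 5) (nat_lit 7) (nat_lit 4) (nat_lit 5) (nat_lit 4) (nat_lit 448) (nat_lit 241) (nat_lit 211)) (XT.nd (nat_lit 78) (nat_lit 0) (nat_lit 0) (XT.lf (nat_lit 0) (nat_lit 1392248925) (nat_lit 76) (nat_lit 39179724612) (nat_lit 76) (nat_lit 35938087256) (nat_lit 4) (nat_lit 4) (nat_lit 5) (nat_lit 5) (nat_lit 5) (nat_lit 4) (nat_lit 449) (nat_lit 241) (nat_lit 210)) (XT.lf (nat_lit 0) (nat_lit 9245518881) (nat_lit 76) (nat_lit 36372251415) (nat_lit 76) (nat_lit 33067673016) (nat_lit 4) (nat_lit 4) (nat_lit 5) (nat_lit 5) (nat_lit 5) (nat_lit 4) (nat_lit 450) (nat_lit 241) (nat_lit 209)))) (XT.nd (nat_lit 44226) (nat_lit 0) (nat_lit 684) (XT.nd (nat_lit 44148) (nat_lit 0) (nat_lit 760) (XT.lf (nat_lit 0) (nat_lit 17234092415) (nat_lit 76) (nat_lit 33529610391) (nat_lit 76) (nat_lit 30163924183) (nat_lit 4) (nat_lit 4) (nat_lit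 5) (nat_lit 5) (nat_lit 5) (nat_lit 4) (nat_lit 451) (nat_lit 241) (nat_lit 208)) (XT.lf (nat_lit 0) (nat_lit 3593815354) (nat_lit 152) (nat_lit 8776757638) (nat_lit 0) (nat_lit 3593815354) (nat_lit 14) (nat_lit 5) (nat_lit 16) (nat_lit 4) (nat_lit 14) (nat_lit 4) (nat_lit 416) (nat_lit 242) (nat_lit 242))) (XT.nd (nat_lit 78) (nat_lit 76) (nat_lit 0) (XT.lf (nat_lit 0) (nat_lit 12872805242) (nat_lit 152) (nat_lit 7148208068) (nat_lit 0) (nat_lit 12695697804) (nat_lit 14) (nat_lit 5) (nat_lit 16) (nat_lit 4) (nat_lit 14) (nat_lit 4) (nat_lit 417) (nat_lit 242) (nat_lit 241)) (XT.lf (nat_lit 0) (nat_lit 3424860103) (nat_lit 76) (nat_lit 15227387816) (nat_lit 76) (nat_lit 14878331408) (nat_lit 13) (nat_lit 4) (nat_lit 14) (nat_lit 5) (nat_lit 14) (nat_lit 4) (nat_lit 418) (nat_lit 242) (nat_lit 240)))))) (XT.nd (nat_lit 546) (nat_lit 152) (nat_lit 0) (XT.nd (nat_lit 234) (nat_lit 76) (nat_lit 0) (XT.nd (nat_lit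 78) (nat_lit 152) (nat_lit 0) (XT.lf (nat_lit 0) (nat_lit 14252492848) (nat_lit 76) (nat_lit 10316725253) (nat_lit 76) (nat_lit 9800728097) (nat_lit 13) (nat_lit 4) (nat_lit 14) (nat_lit 5) (nat_lit 14) (nat_lit 4) (nat_lit 419) (nat_lit 242) (nat_lit 239)) (XT.nd (nat_lit 78) (nat_lit 152) (nat_lit 0) (XT.lf (nat_lit 0) (nat_lit 25201887846) (nat_lit 76) (nat_lit 5356917637) (nat_lit 76) (nat_lit 4678842086) (nat_lit 13) (nat_lit 4) (nat_lit 14) (nat_lit 5) (nat_lit 14) (nat_lit 4) (nat_lit 420) (nat_lit 242) (nat_lit 238)) (XT.lf (nat_lit 0) (nat_lit 146298206) (nat_lit 76) (nat_lit 337313331) (nat_lit 152) (nat_lit 35650646075) (nat_lit 11) (nat_lit 5) (nat_lit 12) (nat_lit 5) (nat_lit 13) (nat_lit 4) (nat_lit 421) (nat_lit 242) (nat_lit 237)))) (XT.nd (nat_lit 156) (nat_lit 76) (nat_lit 0) (XT.nd (nat_lit 78) (nat_lit 0) (nat_lit 0) (XT.lf (nat_lit 0) (nat_lit 5753030200) (nat_lit 152) (nat_lit 26508362923)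 (nat_lit 0) (nat_lit 4793605298) (nat_lit 11) (nat_lit 5) (nat_lit 13) (nat_lit 4) (nat_lit 11) (nat_lit 4) (nat_lit 422) (nat_lit 242) (nat_lit 236)) (XT.lf (nat_lit 0) (nat_lit 11084191599) (nat_lit 152) (nat_lit 16941303892) (nat_lit 0) (nat_lit 9980762143) (nat_lit 11) (nat_lit 5) (nat_lit 13) (nat_lit 4) (nat_lit 11) (nat_lit 4) (nat_lit 423) (nat_lit 242) (nat_lit 235))) (XT.nd (nat_lit 78) (nat_lit 76) (nat_lit 0) (XT.lf (nat_lit 0) (nat_lit 16478511571) (nat_lit 152) (nat_lit 7275180284) (nat_lit 0) (nat_lit 15235271867) (nat_lit 11) (nat_lit 5) (nat_lit 13) (nat_lit 4) (nat_lit 11) (nat_lit 4) (nat_lit 424) (nat_lit 242) (nat_lit 234)) (XT.lf (nat_lit 0) (nat_lit 2548178159) (nat_lit 76) (nat_lit 19417020087) (nat_lit 76) (nat_lit 18038042278) (nat_lit 10) (nat_lit 4) (nat_lit 11) (nat_lit 5) (nat_lit 11) (nat_lit 4) (nat_lit 425) (nat_lit 242) (nat_lit 233))))) (XT.nd (nat_lit 234) (nat_lit 152)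 (nat_lit 0) (XT.nd (nat_lit 78) (nat_lit 0) (nat_lit 0) (XT.lf (nat_lit 0) (nat_lit 12634687366) (nat_lit 76) (nat_lit 14962305448) (nat_lit 76) (nat_lit 13451543073) (nat_lit 10) (nat_lit 4) (nat_lit 11) (nat_lit 5) (nat_lit 11) (nat_lit 4) (nat_lit 426) (nat_lit 242) (nat_lit 232)) (XT.nd (nat_lit 78) (nat_lit 0) (nat_lit 0) (XT.lf (nat_lit 0) (nat_lit 22848370438) (nat_lit 76) (nat_lit 10459120529) (nat_lit 76) (nat_lit 8820411971) (nat_lit 10) (nat_lit 4) (nat_lit 11) (nat_lit 5) (nat_lit 11) (nat_lit 4) (nat_lit 427) (nat_lit 242) (nat_lit 231)) (XT.lf (nat_lit 0) (nat_lit 33198151952) (nat_lit 76) (nat_lit 5903530505) (nat_lit 76) (nat_lit 4140602354) (nat_lit 10) (nat_lit 4) (nat_lit 11) (nat_lit 5) (nat_lit 11) (nat_lit 4) (nat_lit 428) (nat_lit 242) (nat_lit 230)))) (XT.nd (nat_lit 156) (nat_lit 0) (nat_lit 0) (XT.nd (nat_lit 78) (nat_lit 76) (nat_lit 0) (XT.lf (nat_lit 0) (nat_lit 580423369) (nat_lit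 152) (nat_lit 705270258) (nat_lit 76) (nat_lit 43106790898) (nat_lit 9) (nat_lit 5) (nat_lit 11) (nat_lit 5) (nat_lit 10) (nat_lit 4) (nat_lit 429) (nat_lit 242) (nat_lit 229)) (XT.lf (nat_lit 0) (nat_lit 5395697611) (nat_lit 152) (nat_lit 36725842799) (nat_lit 0) (nat_lit 3453349474) (nat_lit 8) (nat_lit 5) (nat_lit 10) (nat_lit 4) (nat_lit 8) (nat_lit 4) (nat_lit 430) (nat_lit 242) (nat_lit 228))) (XT.nd (nat_lit 78) (nat_lit 0) (nat_lit 0) (XT.lf (nat_lit 0) (nat_lit 10292072893) (nat_lit 152) (nat_lit 28263242556) (nat_lit 0) (nat_lit 8239357256) (nat_lit 8) (nat_lit 5) (nat_lit 10) (nat_lit 4) (nat_lit 8) (nat_lit 4) (nat_lit 431) (nat_lit 242) (nat_lit 227)) (XT.lf (nat_lit 0) (nat_lit 15254485854) (nat_lit 152) (nat_lit 19704375913) (nat_lit 0) (nat_lit 13094617304) (nat_lit 8) (nat_lit 5) (nat_lit 10) (nat_lit 4) (nat_lit 8) (nat_lit 4) (nat_lit 432) (nat_lit 242) (nat_lit 226))))))))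
noncomputable def xc6 : XT := (XT.nd (nat_lit 46020) (nat_lit 0) (nat_lit 76) (XT.nd (nat_lit 1014) (nat_lit 76) (nat_lit 0) (XT.nd (nat_lit 468) (nat_lit 152) (nat_lit 0) (XT.nd (nat_lit 234) (nat_lit 0) (nat_lit 0) (XT.nd (nat_lit 78) (nat_lit 76) (nat_lit 0) (XT.lf (nat_lit 0) (nat_lit 20287272584) (nat_lit 152) (nat_lit 11041764249) (nat_lit 0) (nat_lit 18023372079) (nat_lit 8) (nat_lit 5) (nat_lit 10) (nat_lit 4) (nat_lit 8) (nat_lit 4) (nat_lit 433) (nat_lit 242) (nat_lit 225)) (XT.nd (nat_lit 78) (nat_lit 76) (nat_lit 0) (XT.lf (nat_lit 0) (nat_lit 25394830663) (nat_lit 152) (nat_lit 2267838290) (nat_lit 0) (nat_lit 23029928261) (nat_lit 8) (nat_lit 5) (nat_lit 10) (nat_lit 4) (nat_lit 8) (nat_lit 4) (nat_lit 434) (nat_lit 242) (nat_lit 224)) (XT.lf (nat_lit 0) (nat_lit 6756920352) (nat_lit 76) (nat_lit 23889654305) (nat_lit 76) (nat_lit 21426691808) (nat_lit 7) (nat_lit 4) (nat_lit 8) (nat_lit 5)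 (nat_lit 8) (nat_lit 4) (nat_lit 435) (nat_lit 242) (nat_lit 223)))) (XT.nd (nat_lit 78) (nat_lit 0) (nat_lit 0) (XT.lf (nat_lit 0) (nat_lit 15956087356) (nat_lit 76) (nat_lit 20049474077) (nat_lit 76) (nat_lit 17491307605) (nat_lit 7) (nat_lit 4) (nat_lit 8) (nat_lit 5) (nat_lit 8) (nat_lit 4) (nat_lit 436) (nat_lit 242) (nat_lit 222)) (XT.nd (nat_lit 78) (nat_lit 0) (nat_lit 0) (XT.lf (nat_lit 0) (nat_lit 25292566400) (nat_lit 76) (nat_lit 16161673492) (nat_lit 76) (nat_lit 13511075975) (nat_lit 7) (nat_lit 4) (nat_lit 8) (nat_lit 5) (nat_lit 8) (nat_lit 4) (nat_lit 437) (nat_lit 242) (nat_lit 221)) (XT.lf (nat_lit 0) (nat_lit 34774515571) (nat_lit 76) (nat_lit 12222855442) (nat_lit 76) (nat_lit 9482519048) (nat_lit 7) (nat_lit 4) (nat_lit 8) (nat_lit 5) (nat_lit 8) (nat_lit 4) (nat_lit 438) (nat_lit 242) (nat_lit 220))))) (XT.nd (nat_lit 234) (nat_lit 0) (nat_lit 0) (XT.nd (nat_lit 78) (nat_lit 152)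 (nat_lit 0) (XT.lf (nat_lit 0) (nat_lit 44410220069) (nat_lit 76) (nat_lit 8229578243) (nat_lit 76) (nat_lit 5402116725) (nat_lit 7) (nat_lit 4) (nat_lit 8) (nat_lit 5) (nat_lit 8) (nat_lit 4) (nat_lit 439) (nat_lit 242) (nat_lit 219)) (XT.nd (nat_lit 78) (nat_lit 152) (nat_lit 0) (XT.lf (nat_lit 0) (nat_lit 54208099441) (nat_lit 76) (nat_lit 4178352622) (nat_lit 76) (nat_lit 1266303605) (nat_lit 7) (nat_lit 4) (nat_lit 8) (nat_lit 5) (nat_lit 8) (nat_lit 4) (nat_lit 440) (nat_lit 242) (nat_lit 218)) (XT.lf (nat_lit 0) (nat_lit 2891161568) (nat_lit 76) (nat_lit 8017924) (nat_lit 152) (nat_lit 58412961719) (nat_lit 5) (nat_lit 5) (nat_lit 6) (nat_lit 5) (nat_lit 7) (nat_lit 4) (nat_lit 441) (nat_lit 242) (nat_lit 217)))) (XT.nd (nat_lit 156) (nat_lit 0) (nat_lit 0) (XT.nd (nat_lit 78) (nat_lit 0) (nat_lit 0) (XT.lf (nat_lit 0) (nat_lit 7197228044) (nat_lit 152) (nat_lit 51609861179) (nat_lit 0) (nat_lit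 4212854613) (nat_lit 5) (nat_lit 5) (nat_lit 7) (nat_lit 4) (nat_lit 5) (nat_lit 4) (nat_lit 442) (nat_lit 242) (nat_lit 216)) (XT.lf (nat_lit 0) (nat_lit 11562466686) (nat_lit 152) (nat_lit 44715431161) (nat_lit 0) (nat_lit 8502938358) (nat_lit 5) (nat_lit 5) (nat_lit 7) (nat_lit 4) (nat_lit 5) (nat_lit 4) (nat_lit 443) (nat_lit 242) (nat_lit 215))) (XT.nd (nat_lit 78) (nat_lit 0) (nat_lit 0) (XT.lf (nat_lit 0) (nat_lit 15998632633) (nat_lit 152) (nat_lit 37731588255) (nat_lit 0) (nat_lit 12866138386) (nat_lit 5) (nat_lit 5) (nat_lit 7) (nat_lit 4) (nat_lit 5) (nat_lit 4) (nat_lit 444) (nat_lit 242) (nat_lit 214)) (XT.lf (nat_lit 0) (nat_lit 20509602146) (nat_lit 152) (nat_lit 30652230075) (nat_lit 0) (nat_lit 17306267200) (nat_lit 5) (nat_lit 5) (nat_lit 7) (nat_lit 4) (nat_lit 5) (nat_lit 4) (nat_lit 445) (nat_lit 242) (nat_lit 213)))))) (XT.nd (nat_lit 44460) (nat_lit 0) (nat_lit 608) (XT.nd (nat_lit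 234) (nat_lit 76) (nat_lit 0) (XT.nd (nat_lit 78) (nat_lit 0) (nat_lit 0) (XT.lf (nat_lit 0) (nat_lit 25099316849) (nat_lit 152) (nat_lit 23471170773) (nat_lit 0) (nat_lit 21827204526) (nat_lit 5) (nat_lit 5) (nat_lit 7) (nat_lit 4) (nat_lit 5) (nat_lit 4) (nat_lit 446) (nat_lit 242) (nat_lit 212)) (XT.nd (nat_lit 78) (nat_lit 0) (nat_lit 0) (XT.lf (nat_lit 0) (nat_lit 29771787173) (nat_lit 152) (nat_lit 16182135639) (nat_lit 0) (nat_lit 26432900696) (nat_lit 5) (nat_lit 5) (nat_lit 7) (nat_lit 4) (nat_lit 5) (nat_lit 4) (nat_lit 447) (nat_lit 242) (nat_lit 211)) (XT.lf (nat_lit 0) (nat_lit 34531095857) (nat_lit 152) (nat_lit 8778755612) (nat_lit 0) (nat_lit 31127380106) (nat_lit 5) (nat_lit 5) (nat_lit 7) (nat_lit 4) (nat_lit 5) (nat_lit 4) (nat_lit 448) (nat_lit 242) (nat_lit 210)))) (XT.nd (nat_lit 156) (nat_lit 0) (nat_lit 0) (XT.nd (nat_lit 78) (nat_lit 76) (nat_lit 0) (XT.lf (nat_lit 0) (nat_lit 39381401523)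 (nat_lit 152) (nat_lit 1254561719) (nat_lit 0) (nat_lit 35914744728) (nat_lit 5) (nat_lit 5) (nat_lit 7) (nat_lit 4) (nat_lit 5) (nat_lit 4) (nat_lit 449) (nat_lit 242) (nat_lit 209)) (XT.lf (nat_lit 0) (nat_lit 6524333830) (nat_lit 76) (nat_lit 37865324357) (nat_lit 76) (nat_lit 34337559754) (nat_lit 4) (nat_lit 4) (nat_lit 5) (nat_lit 5) (nat_lit 5) (nat_lit 4) (nat_lit 450) (nat_lit 242) (nat_lit 208))) (XT.nd (nat_lit 43992) (nat_lit 0) (nat_lit 912) (XT.lf (nat_lit 0) (nat_lit 14464940211) (nat_lit 76) (nat_lit 35046145177) (nat_lit 76) (nat_lit 31459052604) (nat_lit 4) (nat_lit 4) (nat_lit 5) (nat_lit 5) (nat_lit 5) (nat_lit 4) (nat_lit 451) (nat_lit 242) (nat_lit 207)) (XT.lf (nat_lit 0) (nat_lit 11470464833) (nat_lit 76) (nat_lit 1870978604) (nat_lit 76) (nat_lit 1870978604) (nat_lit 16) (nat_lit 4) (nat_lit 17) (nat_lit 5) (nat_lit 17) (nat_lit 4) (nat_lit 414) (nat_lit 243) (nat_lit 243))))) (XT.nd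 (nat_lit 234) (nat_lit 152) (nat_lit 0) (XT.nd (nat_lit 78) (nat_lit 0) (nat_lit 0) (XT.lf (nat_lit 0) (nat_lit 1741255502) (nat_lit 152) (nat_lit 27866984894) (nat_lit 0) (nat_lit 1558834840) (nat_lit 14) (nat_lit 5) (nat_lit 16) (nat_lit 4) (nat_lit 14) (nat_lit 4) (nat_lit 415) (nat_lit 243) (nat_lit 242)) (XT.nd (nat_lit 78) (nat_lit 0) (nat_lit 0) (XT.lf (nat_lit 0) (nat_lit 7314639936) (nat_lit 152) (nat_lit 17660690891) (nat_lit 0) (nat_lit 6955111836) (nat_lit 14) (nat_lit 5) (nat_lit 16) (nat_lit 4) (nat_lit 14) (nat_lit 4) (nat_lit 416) (nat_lit 243) (nat_lit 241)) (XT.lf (nat_lit 0) (nat_lit 12946016961) (nat_lit 152) (nat_lit 7359437677) (nat_lit 0) (nat_lit 12414539891) (nat_lit 14) (nat_lit 5) (nat_lit 16) (nat_lit 4) (nat_lit 14) (nat_lit 4) (nat_lit 417) (nat_lit 243) (nat_lit 240)))) (XT.nd (nat_lit 156) (nat_lit 76) (nat_lit 0) (XT.nd (nat_lit 78) (nat_lit 0) (nat_lit 0) (XT.lf (nat_lit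 0) (nat_lit 3106392754) (nat_lit 76) (nat_lit 15563774990) (nat_lit 76) (nat_lit 14865357173) (nat_lit 13) (nat_lit 4) (nat_lit 14) (nat_lit 5) (nat_lit 14) (nat_lit 4) (nat_lit 418) (nat_lit 243) (nat_lit 239)) (XT.lf (nat_lit 0) (nat_lit 13833992627) (nat_lit 76) (nat_lit 10701474410) (nat_lit 76) (nat_lit 9840978197) (nat_lit 13) (nat_lit 4) (nat_lit 14) (nat_lit 5) (nat_lit 14) (nat_lit 4) (nat_lit 419) (nat_lit 243) (nat_lit 238))) (XT.nd (nat_lit 78) (nat_lit 76) (nat_lit 0) (XT.lf (nat_lit 0) (nat_lit 24686268333) (nat_lit 76) (nat_lit 5788620175) (nat_lit 76) (nat_lit 4770766297) (nat_lit 13) (nat_lit 4) (nat_lit 14) (nat_lit 5) (nat_lit 14) (nat_lit 4) (nat_lit 420) (nat_lit 243) (nat_lit 237)) (XT.lf (nat_lit 0) (nat_lit 342884730) (nat_lit 152) (nat_lit 474572306) (nat_lit 76) (nat_lit 35326355248) (nat_lit 12) (nat_lit 5) (nat_lit 14) (nat_lit 5) (nat_lit 13) (nat_lit 4) (nat_lit 421) (nat_lit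 243) (nat_lit 236))))))) (XT.nd (nat_lit 1014) (nat_lit 228) (nat_lit 0) (XT.nd (nat_lit 468) (nat_lit 152) (nat_lit 0) (XT.nd (nat_lit 234) (nat_lit 76) (nat_lit 0) (XT.nd (nat_lit 78) (nat_lit 0) (nat_lit 0) (XT.lf (nat_lit 0) (nat_lit 5553885991) (nat_lit 152) (nat_lit 27239073477) (nat_lit 0) (nat_lit 4273349096) (nat_lit 11) (nat_lit 5) (nat_lit 13) (nat_lit 4) (nat_lit 11) (nat_lit 4) (nat_lit 422) (nat_lit 243) (nat_lit 235)) (XT.nd (nat_lit 78) (nat_lit 0) (nat_lit 0) (XT.lf (nat_lit 0) (nat_lit 10837374352) (nat_lit 152) (nat_lit 17764599270) (nat_lit 0) (nat_lit 9417027209) (nat_lit 11) (nat_lit 5) (nat_lit 13) (nat_lit 4) (nat_lit 11) (nat_lit 4) (nat_lit 423) (nat_lit 243) (nat_lit 234)) (XT.lf (nat_lit 0) (nat_lit 16185409819) (nat_lit 152) (nat_lit 8188363843) (nat_lit 0) (nat_lit 14629324572) (nat_lit 11) (nat_lit 5) (nat_lit 13) (nat_lit 4) (nat_lit 11) (nat_lit 4) (nat_lit 424) (nat_lit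 243) (nat_lit 233)))) (XT.nd (nat_lit 78) (nat_lit 0) (nat_lit 0) (XT.lf (nat_lit 0) (nat_lit 1527813534) (nat_lit 76) (nat_lit 20089538178) (nat_lit 76) (nat_lit 18401668364) (nat_lit 10) (nat_lit 4) (nat_lit 11) (nat_lit 5) (nat_lit 11) (nat_lit 4) (nat_lit 425) (nat_lit 243) (nat_lit 232)) (XT.nd (nat_lit 78) (nat_lit 0) (nat_lit 0) (XT.lf (nat_lit 0) (nat_lit 11527908253) (nat_lit 76) (nat_lit 15676779776) (nat_lit 76) (nat_lit 13860963779) (nat_lit 10) (nat_lit 4) (nat_lit 11) (nat_lit 5) (nat_lit 11) (nat_lit 4) (nat_lit 426) (nat_lit 243) (nat_lit 231)) (XT.lf (nat_lit 0) (nat_lit 21657693763) (nat_lit 76) (nat_lit 11214329065) (nat_lit 76) (nat_lit 9274293474) (nat_lit 10) (nat_lit 4) (nat_lit 11) (nat_lit 5) (nat_lit 11) (nat_lit 4) (nat_lit 427) (nat_lit 243) (nat_lit 230))))) (XT.nd (nat_lit 234) (nat_lit 0) (nat_lit 0) (XT.nd (nat_lit 78) (nat_lit 152) (nat_lit 0) (XT.lf (nat_lit 0) (nat_lit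 31926021334) (nat_lit 76) (nat_lit 6698286817) (nat_lit 76) (nat_lit 4637649679) (nat_lit 10) (nat_lit 4) (nat_lit 11) (nat_lit 5) (nat_lit 11) (nat_lit 4) (nat_lit 428) (nat_lit 243) (nat_lit 229)) (XT.nd (nat_lit 78) (nat_lit 76) (nat_lit 0) (XT.lf (nat_lit 0) (nat_lit 51984449) (nat_lit 152) (nat_lit 2072197586) (nat_lit 76) (nat_lit 42289353899) (nat_lit 9) (nat_lit 5) (nat_lit 11) (nat_lit 5) (nat_lit 10) (nat_lit 4) (nat_lit 429) (nat_lit 243) (nat_lit 228)) (XT.lf (nat_lit 0) (nat_lit 4804640463) (nat_lit 152) (nat_lit 38213205777) (nat_lit 0) (nat_lit 2579975857) (nat_lit 8) (nat_lit 5) (nat_lit 10) (nat_lit 4) (nat_lit 8) (nat_lit 4) (nat_lit 430) (nat_lit 243) (nat_lit 227)))) (XT.nd (nat_lit 156) (nat_lit 0) (nat_lit 0) (XT.nd (nat_lit 78) (nat_lit 0) (nat_lit 0) (XT.lf (nat_lit 0) (nat_lit 9661186396) (nat_lit 152) (nat_lit 29828246720) (nat_lit 0) (nat_lit 7329368876) (nat_lit 8) (nat_lit 5)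 (nat_lit 10) (nat_lit 4) (nat_lit 8) (nat_lit 4) (nat_lit 431) (nat_lit 243) (nat_lit 226)) (XT.lf (nat_lit 0) (nat_lit 14584930086) (nat_lit 152) (nat_lit 21344759870) (nat_lit 0) (nat_lit 12149080612) (nat_lit 8) (nat_lit 5) (nat_lit 10) (nat_lit 4) (nat_lit 8) (nat_lit 4) (nat_lit 432) (nat_lit 243) (nat_lit 225))) (XT.nd (nat_lit 78) (nat_lit 0) (nat_lit 0) (XT.lf (nat_lit 0) (nat_lit 19580173835) (nat_lit 152) (nat_lit 12755332469) (nat_lit 0) (nat_lit 17043322463) (nat_lit 8) (nat_lit 5) (nat_lit 10) (nat_lit 4) (nat_lit 8) (nat_lit 4) (nat_lit 433) (nat_lit 243) (nat_lit 224)) (XT.lf (nat_lit 0) (nat_lit 24651282417) (nat_lit 152) (nat_lit 4052459194) (nat_lit 0) (nat_lit 22016370950) (nat_lit 8) (nat_lit 5) (nat_lit 10) (nat_lit 4) (nat_lit 8) (nat_lit 4) (nat_lit 434) (nat_lit 243) (nat_lit 223)))))) (XT.nd (nat_lit 546) (nat_lit 0) (nat_lit 0) (XT.nd (nat_lit 234) (nat_lit 152) (nat_lit 0) (XT.nd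 (nat_lit 78) (nat_lit 0) (nat_lit 0) (XT.lf (nat_lit 0) (nat_lit 4866425904) (nat_lit 76) (nat_lit 24983040056) (nat_lit 76) (nat_lit 22252924615) (nat_lit 7) (nat_lit 4) (nat_lit 8) (nat_lit 5) (nat_lit 8) (nat_lit 4) (nat_lit 435) (nat_lit 243) (nat_lit 222)) (XT.nd (nat_lit 78) (nat_lit 0) (nat_lit 0) (XT.lf (nat_lit 0) (nat_lit 13997286026) (nat_lit 76) (nat_lit 21176152956) (nat_lit 76) (nat_lit 18353606470) (nat_lit 7) (nat_lit 4) (nat_lit 8) (nat_lit 5) (nat_lit 8) (nat_lit 4) (nat_lit 436) (nat_lit 243) (nat_lit 221)) (XT.lf (nat_lit 0) (nat_lit 23267447709) (nat_lit 76) (nat_lit 17320675796) (nat_lit 76) (nat_lit 14408390433) (nat_lit 7) (nat_lit 4) (nat_lit 8) (nat_lit 5) (nat_lit 8) (nat_lit 4) (nat_lit 437) (nat_lit 243) (nat_lit 220)))) (XT.nd (nat_lit 156) (nat_lit 152) (nat_lit 0) (XT.nd (nat_lit 78) (nat_lit 0) (nat_lit 0) (XT.lf (nat_lit 0) (nat_lit 32685011093) (nat_lit 76) (nat_lit 13413239713)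 (nat_lit 76) (nat_lit 10413829225) (nat_lit 7) (nat_lit 4) (nat_lit 8) (nat_lit 5) (nat_lit 8) (nat_lit 4) (nat_lit 438) (nat_lit 243) (nat_lit 219)) (XT.lf (nat_lit 0) (nat_lit 42258205117) (nat_lit 76) (nat_lit 9450430442) (nat_lit 76) (nat_lit 6366432455) (nat_lit 7) (nat_lit 4) (nat_lit 8) (nat_lit 5) (nat_lit 8) (nat_lit 4) (nat_lit 439) (nat_lit 243) (nat_lit 218))) (XT.nd (nat_lit 78) (nat_lit 152) (nat_lit 0) (XT.lf (nat_lit 0) (nat_lit 51995394709) (nat_lit 76) (nat_lit 5428785334) (nat_lit 76) (nat_lit 2262663562) (nat_lit 7) (nat_lit 4) (nat_lit 8) (nat_lit 5) (nat_lit 8) (nat_lit 4) (nat_lit 440) (nat_lit 243) (nat_lit 217)) (XT.lf (nat_lit 0) (nat_lit 548705987) (nat_lit 76) (nat_lit 1320535190) (nat_lit 152) (nat_lit 59478867513) (nat_lit 5) (nat_lit 5) (nat_lit 6) (nat_lit 5) (nat_lit 7) (nat_lit 4) (nat_lit 441) (nat_lit 243) (nat_lit 216))))) (XT.nd (nat_lit 234) (nat_lit 0) (nat_lit 0)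 (XT.nd (nat_lit 78) (nat_lit 0) (nat_lit 0) (XT.lf (nat_lit 0) (nat_lit 6124214511) (nat_lit 152) (nat_lit 54035245163) (nat_lit 0) (nat_lit 2897745437) (nat_lit 5) (nat_lit 5) (nat_lit 7) (nat_lit 4) (nat_lit 5) (nat_lit 4) (nat_lit 442) (nat_lit 243) (nat_lit 215)) (XT.nd (nat_lit 78) (nat_lit 0) (nat_lit 0) (XT.lf (nat_lit 0) (nat_lit 10459881797) (nat_lit 152) (nat_lit 47198657515) (nat_lit 0) (nat_lit 7160446802) (nat_lit 5) (nat_lit 5) (nat_lit 7) (nat_lit 4) (nat_lit 5) (nat_lit 4) (nat_lit 443) (nat_lit 243) (nat_lit 214)) (XT.lf (nat_lit 0) (nat_lit 14867337689) (nat_lit 152) (nat_lit 40270972251) (nat_lit 0) (nat_lit 11497061995) (nat_lit 5) (nat_lit 5) (nat_lit 7) (nat_lit 4) (nat_lit 5) (nat_lit 4) (nat_lit 444) (nat_lit 243) (nat_lit 213)))) (XT.nd (nat_lit 156) (nat_lit 0) (nat_lit 0) (XT.nd (nat_lit 78) (nat_lit 0) (nat_lit 0) (XT.lf (nat_lit 0) (nat_lit 19350433362) (nat_lit 152) (nat_lit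 33246136053) (nat_lit 0) (nat_lit 15911380291) (nat_lit 5) (nat_lit 5) (nat_lit 7) (nat_lit 4) (nat_lit 5) (nat_lit 4) (nat_lit 445) (nat_lit 243) (nat_lit 212)) (XT.lf (nat_lit 0) (nat_lit 23913086084) (nat_lit 152) (nat_lit 26118010716) (nat_lit 0) (nat_lit 20407258860) (nat_lit 5) (nat_lit 5) (nat_lit 7) (nat_lit 4) (nat_lit 5) (nat_lit 4) (nat_lit 446) (nat_lit 243) (nat_lit 211))) (XT.nd (nat_lit 78) (nat_lit 0) (nat_lit 0) (XT.lf (nat_lit 0) (nat_lit 28559282640) (nat_lit 152) (nat_lit 18880367779) (nat_lit 0) (nat_lit 24988626141) (nat_lit 5) (nat_lit 5) (nat_lit 7) (nat_lit 4) (nat_lit 5) (nat_lit 4) (nat_lit 447) (nat_lit 243) (nat_lit 210)) (XT.lf (nat_lit 0) (nat_lit 33293082812) (nat_lit 152) (nat_lit 11526883089) (nat_lit 0) (nat_lit 29659485270) (nat_lit 5) (nat_lit 5) (nat_lit 7) (nat_lit 4) (nat_lit 5) (nat_lit 4) (nat_lit 448) (nat_lit 243) (nat_lit 209))))))))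
noncomputable def xc7 : XT := (XT.nd (nat_lit 45864) (nat_lit 0) (nat_lit 0) (XT.nd (nat_lit 44772) (nat_lit 0) (nat_lit 228) (XT.nd (nat_lit 44226) (nat_lit 0) (nat_lit 608) (XT.nd (nat_lit 43992) (nat_lit 0) (nat_lit 912) (XT.nd (nat_lit 78) (nat_lit 76) (nat_lit 0) (XT.lf (nat_lit 0) (nat_lit 38118622931) (nat_lit 152) (nat_lit 4051131272) (nat_lit 0) (nat_lit 34423917581) (nat_lit 5) (nat_lit 5) (nat_lit 7) (nat_lit 4) (nat_lit 5) (nat_lit 4) (nat_lit 449) (nat_lit 243) (nat_lit 208)) (XT.nd (nat_lit 78) (nat_lit 0) (nat_lit 0) (XT.lf (nat_lit 0) (nat_lit 3624139906) (nat_lit 76) (nat_lit 39450817032) (nat_lit 76) (nat_lit 35696783711) (nat_lit 4) (nat_lit 4) (nat_lit 5) (nat_lit 5) (nat_lit 5) (nat_lit 4) (nat_lit 450) (nat_lit 243) (nat_lit 207)) (XT.lf (nat_lit 0) (nat_lit 11518176236) (nat_lit 76) (nat_lit 36654416341) (nat_lit 76) (nat_lit 32842783049) (nat_lit 4) (nat_lit 4) (nat_lit 5) (nat_lit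 5) (nat_lit 5) (nat_lit 4) (nat_lit 451) (nat_lit 243) (nat_lit 206)))) (XT.nd (nat_lit 78) (nat_lit 0) (nat_lit 0) (XT.lf (nat_lit 0) (nat_lit 213273041) (nat_lit 76) (nat_lit 7145618595) (nat_lit 76) (nat_lit 7145618595) (nat_lit 16) (nat_lit 4) (nat_lit 17) (nat_lit 5) (nat_lit 17) (nat_lit 4) (nat_lit 412) (nat_lit 244) (nat_lit 244)) (XT.nd (nat_lit 78) (nat_lit 0) (nat_lit 0) (XT.lf (nat_lit 0) (nat_lit 11571136634) (nat_lit 76) (nat_lit 9164012639) (nat_lit 76) (nat_lit 8970482559) (nat_lit 16) (nat_lit 4) (nat_lit 17) (nat_lit 5) (nat_lit 17) (nat_lit 4) (nat_lit 413) (nat_lit 244) (nat_lit 243)) (XT.lf (nat_lit 0) (nat_lit 22834973126) (nat_lit 76) (nat_lit 3986473636) (nat_lit 76) (nat_lit 3605050274) (nat_lit 16) (nat_lit 4) (nat_lit 17) (nat_lit 5) (nat_lit 17) (nat_lit 4) (nat_lit 414) (nat_lit 244) (nat_lit 242))))) (XT.nd (nat_lit 234) (nat_lit 152) (nat_lit 0) (XT.nd (nat_lit 78) (nat_lit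 0) (nat_lit 0) (XT.lf (nat_lit 0) (nat_lit 1816663572) (nat_lit 152) (nat_lit 28084551391) (nat_lit 0) (nat_lit 1269242190) (nat_lit 14) (nat_lit 5) (nat_lit 16) (nat_lit 4) (nat_lit 14) (nat_lit 4) (nat_lit 415) (nat_lit 244) (nat_lit 241)) (XT.nd (nat_lit 78) (nat_lit 0) (nat_lit 0) (XT.lf (nat_lit 0) (nat_lit 7336250498) (nat_lit 152) (nat_lit 17982311383) (nat_lit 0) (nat_lit 6616880146) (nat_lit 14) (nat_lit 5) (nat_lit 16) (nat_lit 4) (nat_lit 14) (nat_lit 4) (nat_lit 416) (nat_lit 244) (nat_lit 240)) (XT.lf (nat_lit 0) (nat_lit 12915396932) (nat_lit 152) (nat_lit 7782081465) (nat_lit 0) (nat_lit 12029085833) (nat_lit 14) (nat_lit 5) (nat_lit 16) (nat_lit 4) (nat_lit 14) (nat_lit 4) (nat_lit 417) (nat_lit 244) (nat_lit 239)))) (XT.nd (nat_lit 156) (nat_lit 76) (nat_lit 0) (XT.nd (nat_lit 78) (nat_lit 0) (nat_lit 0) (XT.lf (nat_lit 0) (nat_lit 2575304655) (nat_lit 76) (nat_lit 16008428604) (nat_lit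 76) (nat_lit 14960039110) (nat_lit 13) (nat_lit 4) (nat_lit 14) (nat_lit 5) (nat_lit 14) (nat_lit 4) (nat_lit 418) (nat_lit 244) (nat_lit 238)) (XT.lf (nat_lit 0) (nat_lit 13205785236) (nat_lit 76) (nat_lit 11193081405) (nat_lit 76) (nat_lit 9987334245) (nat_lit 13) (nat_lit 4) (nat_lit 14) (nat_lit 5) (nat_lit 14) (nat_lit 4) (nat_lit 419) (nat_lit 244) (nat_lit 237))) (XT.nd (nat_lit 78) (nat_lit 76) (nat_lit 0) (XT.lf (nat_lit 0) (nat_lit 23963770367) (nat_lit 76) (nat_lit 6325812976) (nat_lit 76) (nat_lit 4967291384) (nat_lit 13) (nat_lit 4) (nat_lit 14) (nat_lit 5) (nat_lit 14) (nat_lit 4) (nat_lit 420) (nat_lit 244) (nat_lit 236)) (XT.lf (nat_lit 0) (nat_lit 102437214) (nat_lit 152) (nat_lit 1298898737) (nat_lit 76) (nat_lit 34755188598) (nat_lit 12) (nat_lit 5) (nat_lit 14) (nat_lit 5) (nat_lit 13) (nat_lit 4) (nat_lit 421) (nat_lit 244) (nat_lit 235)))))) (XT.nd (nat_lit 546) (nat_lit 228) (nat_lit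 0) (XT.nd (nat_lit 234) (nat_lit 76) (nat_lit 0) (XT.nd (nat_lit 78) (nat_lit 0) (nat_lit 0) (XT.lf (nat_lit 0) (nat_lit 5251991187) (nat_lit 152) (nat_lit 28179652542) (nat_lit 0) (nat_lit 3649223382) (nat_lit 11) (nat_lit 5) (nat_lit 13) (nat_lit 4) (nat_lit 11) (nat_lit 4) (nat_lit 422) (nat_lit 244) (nat_lit 234)) (XT.nd (nat_lit 78) (nat_lit 0) (nat_lit 0) (XT.lf (nat_lit 0) (nat_lit 10489195043) (nat_lit 152) (nat_lit 18795066515) (nat_lit 0) (nat_lit 8750689134) (nat_lit 11) (nat_lit 5) (nat_lit 13) (nat_lit 4) (nat_lit 11) (nat_lit 4) (nat_lit 423) (nat_lit 244) (nat_lit 233)) (XT.lf (nat_lit 0) (nat_lit 15792294099) (nat_lit 152) (nat_lit 9306101165) (nat_lit 0) (nat_lit 13922003622) (nat_lit 11) (nat_lit 5) (nat_lit 13) (nat_lit 4) (nat_lit 11) (nat_lit 4) (nat_lit 424) (nat_lit 244) (nat_lit 232)))) (XT.nd (nat_lit 156) (nat_lit 0) (nat_lit 0) (XT.nd (nat_lit 78) (nat_lit 0) (nat_lit 0) (XT.lf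 (nat_lit 0) (nat_lit 301416559) (nat_lit 76) (nat_lit 20867402971) (nat_lit 76) (nat_lit 18869166313) (nat_lit 10) (nat_lit 4) (nat_lit 11) (nat_lit 5) (nat_lit 11) (nat_lit 4) (nat_lit 425) (nat_lit 244) (nat_lit 231)) (XT.lf (nat_lit 0) (nat_lit 10217613716) (nat_lit 76) (nat_lit 16495378777) (nat_lit 76) (nat_lit 14372922524) (nat_lit 10) (nat_lit 4) (nat_lit 11) (nat_lit 5) (nat_lit 11) (nat_lit 4) (nat_lit 426) (nat_lit 244) (nat_lit 230))) (XT.nd (nat_lit 78) (nat_lit 0) (nat_lit 0) (XT.lf (nat_lit 0) (nat_lit 20265945283) (nat_lit 76) (nat_lit 12072475842) (nat_lit 76) (nat_lit 9829418042) (nat_lit 10) (nat_lit 4) (nat_lit 11) (nat_lit 5) (nat_lit 11) (nat_lit 4) (nat_lit 427) (nat_lit 244) (nat_lit 229)) (XT.lf (nat_lit 0) (nat_lit 30455191355) (nat_lit 76) (nat_lit 7594829493) (nat_lit 76) (nat_lit 5234682811) (nat_lit 10) (nat_lit 4) (nat_lit 11) (nat_lit 5) (nat_lit 11) (nat_lit 4) (nat_lit 428)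 (nat_lit 244) (nat_lit 228))))) (XT.nd (nat_lit 234) (nat_lit 76) (nat_lit 0) (XT.nd (nat_lit 78) (nat_lit 152) (nat_lit 0) (XT.lf (nat_lit 0) (nat_lit 40794255157) (nat_lit 76) (nat_lit 3058527224) (nat_lit 76) (nat_lit 584702017) (nat_lit 10) (nat_lit 4) (nat_lit 11) (nat_lit 5) (nat_lit 11) (nat_lit 4) (nat_lit 429) (nat_lit 244) (nat_lit 227)) (XT.nd (nat_lit 78) (nat_lit 0) (nat_lit 0) (XT.lf (nat_lit 0) (nat_lit 4114998023) (nat_lit 152) (nat_lit 39902801252) (nat_lit 0) (nat_lit 1606073064) (nat_lit 8) (nat_lit 5) (nat_lit 10) (nat_lit 4) (nat_lit 8) (nat_lit 4) (nat_lit 430) (nat_lit 244) (nat_lit 226)) (XT.lf (nat_lit 0) (nat_lit 8932874684) (nat_lit 152) (nat_lit 31593221987) (nat_lit 0) (nat_lit 6319917772) (nat_lit 8) (nat_lit 5) (nat_lit 10) (nat_lit 4) (nat_lit 8) (nat_lit 4) (nat_lit 431) (nat_lit 244) (nat_lit 225)))) (XT.nd (nat_lit 156) (nat_lit 76) (nat_lit 0) (XT.nd (nat_lit 78) (nat_lit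 0) (nat_lit 0) (XT.lf (nat_lit 0) (nat_lit 13819075393) (nat_lit 152) (nat_lit 23182919400) (nat_lit 0) (nat_lit 11105116583) (nat_lit 8) (nat_lit 5) (nat_lit 10) (nat_lit 4) (nat_lit 8) (nat_lit 4) (nat_lit 432) (nat_lit 244) (nat_lit 224)) (XT.lf (nat_lit 0) (nat_lit 18777869644) (nat_lit 152) (nat_lit 14664544683) (nat_lit 0) (nat_lit 15965850739) (nat_lit 8) (nat_lit 5) (nat_lit 10) (nat_lit 4) (nat_lit 8) (nat_lit 4) (nat_lit 433) (nat_lit 244) (nat_lit 223))) (XT.nd (nat_lit 78) (nat_lit 76) (nat_lit 0) (XT.lf (nat_lit 0) (nat_lit 23813590365) (nat_lit 152) (nat_lit 6030654596) (nat_lit 0) (nat_lit 20906367485) (nat_lit 8) (nat_lit 5) (nat_lit 10) (nat_lit 4) (nat_lit 8) (nat_lit 4) (nat_lit 434) (nat_lit 244) (nat_lit 222)) (XT.lf (nat_lit 0) (nat_lit 2780553653) (nat_lit 76) (nat_lit 26176812430) (nat_lit 76) (nat_lit 23177158506) (nat_lit 7) (nat_lit 4) (nat_lit 8) (nat_lit 5) (nat_lit 8) (nat_lit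 4) (nat_lit 435) (nat_lit 244) (nat_lit 221))))))) (XT.nd (nat_lit 1014) (nat_lit 76) (nat_lit 0) (XT.nd (nat_lit 468) (nat_lit 76) (nat_lit 0) (XT.nd (nat_lit 234) (nat_lit 76) (nat_lit 0) (XT.nd (nat_lit 78) (nat_lit 0) (nat_lit 0) (XT.lf (nat_lit 0) (nat_lit 11845096413) (nat_lit 76) (nat_lit 22402248755) (nat_lit 76) (nat_lit 19312855953) (nat_lit 7) (nat_lit 4) (nat_lit 8) (nat_lit 5) (nat_lit 8) (nat_lit 4) (nat_lit 436) (nat_lit 244) (nat_lit 220)) (XT.nd (nat_lit 78) (nat_lit 0) (nat_lit 0) (XT.lf (nat_lit 0) (nat_lit 21050872308) (nat_lit 76) (nat_lit 18578153562) (nat_lit 76) (nat_lit 15401635635) (nat_lit 7) (nat_lit 4) (nat_lit 8) (nat_lit 5) (nat_lit 8) (nat_lit 4) (nat_lit 437) (nat_lit 244) (nat_lit 219)) (XT.lf (nat_lit 0) (nat_lit 30405925219) (nat_lit 76) (nat_lit 14701185407) (nat_lit 76) (nat_lit 11440079981) (nat_lit 7) (nat_lit 4) (nat_lit 8) (nat_lit 5) (nat_lit 8) (nat_lit 4) (nat_lit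 438) (nat_lit 244) (nat_lit 218)))) (XT.nd (nat_lit 78) (nat_lit 76) (nat_lit 0) (XT.lf (nat_lit 0) (nat_lit 39918429463) (nat_lit 76) (nat_lit 10767956649) (nat_lit 76) (nat_lit 7424727438) (nat_lit 7) (nat_lit 4) (nat_lit 8) (nat_lit 5) (nat_lit 8) (nat_lit 4) (nat_lit 439) (nat_lit 244) (nat_lit 217)) (XT.nd (nat_lit 78) (nat_lit 76) (nat_lit 0) (XT.lf (nat_lit 0) (nat_lit 49596696938) (nat_lit 76) (nat_lit 6775030485) (nat_lit 76) (nat_lit 3352069444) (nat_lit 7) (nat_lit 4) (nat_lit 8) (nat_lit 5) (nat_lit 8) (nat_lit 4) (nat_lit 440) (nat_lit 244) (nat_lit 216)) (XT.lf (nat_lit 0) (nat_lit 766203677) (nat_lit 152) (nat_lit 1944977121) (nat_lit 76) (nat_lit 58675243551) (nat_lit 6) (nat_lit 5) (nat_lit 8) (nat_lit 5) (nat_lit 7) (nat_lit 4) (nat_lit 441) (nat_lit 244) (nat_lit 215))))) (XT.nd (nat_lit 234) (nat_lit 0) (nat_lit 0) (XT.nd (nat_lit 78) (nat_lit 0) (nat_lit 0) (XT.lf (nat_lit 0) (nat_lit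 4958980718) (nat_lit 152) (nat_lit 56650810679) (nat_lit 0) (nat_lit 1487596754) (nat_lit 5) (nat_lit 5) (nat_lit 7) (nat_lit 4) (nat_lit 5) (nat_lit 4) (nat_lit 442) (nat_lit 244) (nat_lit 214)) (XT.nd (nat_lit 78) (nat_lit 0) (nat_lit 0) (XT.lf (nat_lit 0) (nat_lit 9265937949) (nat_lit 152) (nat_lit 49870380673) (nat_lit 0) (nat_lit 5723713286) (nat_lit 5) (nat_lit 5) (nat_lit 7) (nat_lit 4) (nat_lit 5) (nat_lit 4) (nat_lit 443) (nat_lit 244) (nat_lit 213)) (XT.lf (nat_lit 0) (nat_lit 13645520000) (nat_lit 152) (nat_lit 42997217392) (nat_lit 0) (nat_lit 10034517960) (nat_lit 5) (nat_lit 5) (nat_lit 7) (nat_lit 4) (nat_lit 5) (nat_lit 4) (nat_lit 444) (nat_lit 244) (nat_lit 212)))) (XT.nd (nat_lit 156) (nat_lit 0) (nat_lit 0) (XT.nd (nat_lit 78) (nat_lit 0) (nat_lit 0) (XT.lf (nat_lit 0) (nat_lit 18101553693) (nat_lit 152) (nat_lit 36025315158) (nat_lit 0) (nat_lit 14423777499) (nat_lit 5) (nat_lit 5)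 (nat_lit 7) (nat_lit 4) (nat_lit 5) (nat_lit 4) (nat_lit 445) (nat_lit 244) (nat_lit 211)) (XT.lf (nat_lit 0) (nat_lit 22637932647) (nat_lit 152) (nat_lit 28948582018) (nat_lit 0) (nat_lit 18895327179) (nat_lit 5) (nat_lit 5) (nat_lit 7) (nat_lit 4) (nat_lit 5) (nat_lit 4) (nat_lit 446) (nat_lit 244) (nat_lit 210))) (XT.nd (nat_lit 78) (nat_lit 0) (nat_lit 0) (XT.lf (nat_lit 0) (nat_lit 27258620691) (nat_lit 152) (nat_lit 21760834418) (nat_lit 0) (nat_lit 23453074179) (nat_lit 5) (nat_lit 5) (nat_lit 7) (nat_lit 4) (nat_lit 5) (nat_lit 4) (nat_lit 447) (nat_lit 244) (nat_lit 209)) (XT.lf (nat_lit 0) (nat_lit 31967655317) (nat_lit 152) (nat_lit 14455791804) (nat_lit 0) (nat_lit 28101000997) (nat_lit 5) (nat_lit 5) (nat_lit 7) (nat_lit 4) (nat_lit 5) (nat_lit 4) (nat_lit 448) (nat_lit 244) (nat_lit 208)))))) (XT.nd (nat_lit 44148) (nat_lit 0) (nat_lit 684) (XT.nd (nat_lit 43836) (nat_lit 0) (nat_lit 912)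 (XT.nd (nat_lit 78) (nat_lit 76) (nat_lit 0) (XT.lf (nat_lit 0) (nat_lit 36769151217) (nat_lit 152) (nat_lit 7027071127) (nat_lit 0) (nat_lit 32843168927) (nat_lit 5) (nat_lit 5) (nat_lit 7) (nat_lit 4) (nat_lit 5) (nat_lit 4) (nat_lit 449) (nat_lit 244) (nat_lit 207)) (XT.nd (nat_lit 78) (nat_lit 0) (nat_lit 0) (XT.lf (nat_lit 0) (nat_lit 542402961) (nat_lit 76) (nat_lit 41130114819) (nat_lit 76) (nat_lit 37146532558) (nat_lit 4) (nat_lit 4) (nat_lit 5) (nat_lit 5) (nat_lit 5) (nat_lit 4) (nat_lit 450) (nat_lit 244) (nat_lit 206)) (XT.lf (nat_lit 0) (nat_lit 8391225649) (nat_lit 76) (nat_lit 38355829166) (nat_lit 76) (nat_lit 34316324604) (nat_lit 4) (nat_lit 4) (nat_lit 5) (nat_lit 5) (nat_lit 5) (nat_lit 4) (nat_lit 451) (nat_lit 244) (nat_lit 205)))) (XT.nd (nat_lit 156) (nat_lit 76) (nat_lit 0) (XT.nd (nat_lit 78) (nat_lit 0) (nat_lit 0) (XT.lf (nat_lit 0) (nat_lit 1666267427) (nat_lit 152) (nat_lit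 10506570737) (nat_lit 0) (nat_lit 1666267427) (nat_lit 17) (nat_lit 5) (nat_lit 19) (nat_lit 4) (nat_lit 17) (nat_lit 4) (nat_lit 410) (nat_lit 245) (nat_lit 245)) (XT.lf (nat_lit 0) (nat_lit 9065402594) (nat_lit 152) (nat_lit 10401525765) (nat_lit 0) (nat_lit 8866066611) (nat_lit 17) (nat_lit 5) (nat_lit 19) (nat_lit 4) (nat_lit 17) (nat_lit 4) (nat_lit 411) (nat_lit 245) (nat_lit 244))) (XT.nd (nat_lit 78) (nat_lit 0) (nat_lit 0) (XT.lf (nat_lit 0) (nat_lit 317410845) (nat_lit 76) (nat_lit 14543089112) (nat_lit 76) (nat_lit 14150223049) (nat_lit 16) (nat_lit 4) (nat_lit 17) (nat_lit 5) (nat_lit 17) (nat_lit 4) (nat_lit 412) (nat_lit 245) (nat_lit 243)) (XT.lf (nat_lit 0) (nat_lit 11356044856) (nat_lit 76) (nat_lit 9466850907) (nat_lit 76) (nat_lit 8886091563) (nat_lit 16) (nat_lit 4) (nat_lit 17) (nat_lit 5) (nat_lit 17) (nat_lit 4) (nat_lit 413) (nat_lit 245) (nat_lit 242))))) (XT.nd (nat_lit 234) (nat_lit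 76) (nat_lit 0) (XT.nd (nat_lit 78) (nat_lit 152) (nat_lit 0) (XT.lf (nat_lit 0) (nat_lit 22517010920) (nat_lit 76) (nat_lit 4338813213) (nat_lit 76) (nat_lit 3575633206) (nat_lit 16) (nat_lit 4) (nat_lit 17) (nat_lit 5) (nat_lit 17) (nat_lit 4) (nat_lit 414) (nat_lit 245) (nat_lit 241)) (XT.nd (nat_lit 78) (nat_lit 0) (nat_lit 0) (XT.lf (nat_lit 0) (nat_lit 1785124942) (nat_lit 152) (nat_lit 28519874492) (nat_lit 0) (nat_lit 872224510) (nat_lit 14) (nat_lit 5) (nat_lit 16) (nat_lit 4) (nat_lit 14) (nat_lit 4) (nat_lit 415) (nat_lit 245) (nat_lit 240)) (XT.lf (nat_lit 0) (nat_lit 7252481277) (nat_lit 152) (nat_lit 18518657780) (nat_lit 0) (nat_lit 6172640098) (nat_lit 14) (nat_lit 5) (nat_lit 16) (nat_lit 4) (nat_lit 14) (nat_lit 4) (nat_lit 416) (nat_lit 245) (nat_lit 239)))) (XT.nd (nat_lit 156) (nat_lit 0) (nat_lit 0) (XT.nd (nat_lit 78) (nat_lit 76) (nat_lit 0) (XT.lf (nat_lit 0) (nat_lit 12780918399)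 (nat_lit 152) (nat_lit 8416508731) (nat_lit 0) (nat_lit 11538998825) (nat_lit 14) (nat_lit 5) (nat_lit 16) (nat_lit 4) (nat_lit 14) (nat_lit 4) (nat_lit 417) (nat_lit 245) (nat_lit 238)) (XT.lf (nat_lit 0) (nat_lit 1831131750) (nat_lit 76) (nat_lit 16561737190) (nat_lit 76) (nat_lit 15162459950) (nat_lit 13) (nat_lit 4) (nat_lit 14) (nat_lit 5) (nat_lit 14) (nat_lit 4) (nat_lit 418) (nat_lit 245) (nat_lit 237))) (XT.nd (nat_lit 78) (nat_lit 0) (nat_lit 0) (XT.lf (nat_lit 0) (nat_lit 12367321755) (nat_lit 76) (nat_lit 11791975797) (nat_lit 76) (nat_lit 10239924125) (nat_lit 13) (nat_lit 4) (nat_lit 14) (nat_lit 5) (nat_lit 14) (nat_lit 4) (nat_lit 419) (nat_lit 245) (nat_lit 236)) (XT.lf (nat_lit 0) (nat_lit 23033762638) (nat_lit 76) (nat_lit 6968965433) (nat_lit 76) (nat_lit 5268589070) (nat_lit 13) (nat_lit 4) (nat_lit 14) (nat_lit 5) (nat_lit 14) (nat_lit 4) (nat_lit 420) (nat_lit 245) (nat_lit 235))))))))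
noncomputable def xc8 : XT := (XT.nd (nat_lit 2028) (nat_lit 76) (nat_lit 0) (XT.nd (nat_lit 1014) (nat_lit 228) (nat_lit 0) (XT.nd (nat_lit 468) (nat_lit 152) (nat_lit 0) (XT.nd (nat_lit 234) (nat_lit 76) (nat_lit 0) (XT.nd (nat_lit 78) (nat_lit 152) (nat_lit 0) (XT.lf (nat_lit 0) (nat_lit 33839774590) (nat_lit 76) (nat_lit 2088491819) (nat_lit 76) (nat_lit 244110900) (nat_lit 13) (nat_lit 4) (nat_lit 14) (nat_lit 5) (nat_lit 14) (nat_lit 4) (nat_lit 421) (nat_lit 245) (nat_lit 234)) (XT.nd (nat_lit 78) (nat_lit 0) (nat_lit 0) (XT.lf (nat_lit 0) (nat_lit 4847081994) (nat_lit 152) (nat_lit 29330921984) (nat_lit 0) (nat_lit 2920682804) (nat_lit 11) (nat_lit 5) (nat_lit 13) (nat_lit 4) (nat_lit 11) (nat_lit 4) (nat_lit 422) (nat_lit 245) (nat_lit 233)) (XT.lf (nat_lit 0) (nat_lit 10039349439) (nat_lit 152) (nat_lit 20033606035) (nat_lit 0) (nat_lit 7981165681) (nat_lit 11) (nat_lit 5) (nat_lit 13) (nat_lit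 4) (nat_lit 11) (nat_lit 4) (nat_lit 423) (nat_lit 245) (nat_lit 232)))) (XT.nd (nat_lit 78) (nat_lit 76) (nat_lit 0) (XT.lf (nat_lit 0) (nat_lit 15298820910) (nat_lit 152) (nat_lit 10629368915) (nat_lit 0) (nat_lit 13112690970) (nat_lit 11) (nat_lit 5) (nat_lit 13) (nat_lit 4) (nat_lit 11) (nat_lit 4) (nat_lit 424) (nat_lit 245) (nat_lit 231)) (XT.nd (nat_lit 78) (nat_lit 76) (nat_lit 0) (XT.lf (nat_lit 0) (nat_lit 20630092063) (nat_lit 152) (nat_lit 1109993331) (nat_lit 0) (nat_lit 18319742529) (nat_lit 11) (nat_lit 5) (nat_lit 13) (nat_lit 4) (nat_lit 11) (nat_lit 4) (nat_lit 425) (nat_lit 245) (nat_lit 230)) (XT.lf (nat_lit 0) (nat_lit 8702658838) (nat_lit 76) (nat_lit 17418817732) (nat_lit 76) (nat_lit 14987866651) (nat_lit 10) (nat_lit 4) (nat_lit 11) (nat_lit 5) (nat_lit 11) (nat_lit 4) (nat_lit 426) (nat_lit 245) (nat_lit 229))))) (XT.nd (nat_lit 234) (nat_lit 152) (nat_lit 0) (XT.nd (nat_lit 78)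 (nat_lit 0) (nat_lit 0) (XT.lf (nat_lit 0) (nat_lit 18671908907) (nat_lit 76) (nat_lit 13034310696) (nat_lit 76) (nat_lit 10486270733) (nat_lit 10) (nat_lit 4) (nat_lit 11) (nat_lit 5) (nat_lit 11) (nat_lit 4) (nat_lit 427) (nat_lit 245) (nat_lit 228)) (XT.nd (nat_lit 78) (nat_lit 0) (nat_lit 0) (XT.lf (nat_lit 0) (nat_lit 28784376825) (nat_lit 76) (nat_lit 8593941919) (nat_lit 76) (nat_lit 5932223430) (nat_lit 10) (nat_lit 4) (nat_lit 11) (nat_lit 5) (nat_lit 11) (nat_lit 4) (nat_lit 428) (nat_lit 245) (nat_lit 227)) (XT.lf (nat_lit 0) (nat_lit 39048898730) (nat_lit 76) (nat_lit 4093831467) (nat_lit 76) (nat_lit 1321745478) (nat_lit 10) (nat_lit 4) (nat_lit 11) (nat_lit 5) (nat_lit 11) (nat_lit 4) (nat_lit 429) (nat_lit 245) (nat_lit 226)))) (XT.nd (nat_lit 156) (nat_lit 0) (nat_lit 0) (XT.nd (nat_lit 78) (nat_lit 0) (nat_lit 0) (XT.lf (nat_lit 0) (nat_lit 3326167689) (nat_lit 152) (nat_lit 41796105569)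 (nat_lit 0) (nat_lit 530790114) (nat_lit 8) (nat_lit 5) (nat_lit 10) (nat_lit 4) (nat_lit 8) (nat_lit 4) (nat_lit 430) (nat_lit 245) (nat_lit 225)) (XT.lf (nat_lit 0) (nat_lit 8106501368) (nat_lit 152) (nat_lit 33559710568) (nat_lit 0) (nat_lit 5210121896) (nat_lit 8) (nat_lit 5) (nat_lit 10) (nat_lit 4) (nat_lit 8) (nat_lit 4) (nat_lit 431) (nat_lit 245) (nat_lit 224))) (XT.nd (nat_lit 78) (nat_lit 0) (nat_lit 0) (XT.lf (nat_lit 0) (nat_lit 12956252580) (nat_lit 152) (nat_lit 25220460665) (nat_lit 0) (nat_lit 9961813013) (nat_lit 8) (nat_lit 5) (nat_lit 10) (nat_lit 4) (nat_lit 8) (nat_lit 4) (nat_lit 432) (nat_lit 245) (nat_lit 223)) (XT.lf (nat_lit 0) (nat_lit 17879658971) (nat_lit 152) (nat_lit 16771069136) (nat_lit 0) (nat_lit 14790015428) (nat_lit 8) (nat_lit 5) (nat_lit 10) (nat_lit 4) (nat_lit 8) (nat_lit 4) (nat_lit 433) (nat_lit 245) (nat_lit 222)))))) (XT.nd (nat_lit 468) (nat_lit 152) (nat_lit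 0) (XT.nd (nat_lit 234) (nat_lit 0) (nat_lit 0) (XT.nd (nat_lit 78) (nat_lit 76) (nat_lit 0) (XT.lf (nat_lit 0) (nat_lit 22881022545) (nat_lit 152) (nat_lit 8204153017) (nat_lit 0) (nat_lit 19698947959) (nat_lit 8) (nat_lit 5) (nat_lit 10) (nat_lit 4) (nat_lit 8) (nat_lit 4) (nat_lit 434) (nat_lit 245) (nat_lit 221)) (XT.nd (nat_lit 78) (nat_lit 0) (nat_lit 0) (XT.lf (nat_lit 0) (nat_lit 497480990) (nat_lit 76) (nat_lit 27472014528) (nat_lit 76) (nat_lit 24200201064) (nat_lit 7) (nat_lit 4) (nat_lit 8) (nat_lit 5) (nat_lit 8) (nat_lit 4) (nat_lit 435) (nat_lit 245) (nat_lit 220)) (XT.lf (nat_lit 0) (nat_lit 9497637963) (nat_lit 76) (nat_lit 23728832820) (nat_lit 76) (nat_lit 20369894232) (nat_lit 7) (nat_lit 4) (nat_lit 8) (nat_lit 5) (nat_lit 8) (nat_lit 4) (nat_lit 436) (nat_lit 245) (nat_lit 219)))) (XT.nd (nat_lit 78) (nat_lit 0) (nat_lit 0) (XT.lf (nat_lit 0) (nat_lit 18640903384) (nat_lit 76) (nat_lit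 19935205554) (nat_lit 76) (nat_lit 16491679467) (nat_lit 7) (nat_lit 4) (nat_lit 8) (nat_lit 5) (nat_lit 8) (nat_lit 4) (nat_lit 437) (nat_lit 245) (nat_lit 218)) (XT.nd (nat_lit 78) (nat_lit 0) (nat_lit 0) (XT.lf (nat_lit 0) (nat_lit 27935266515) (nat_lit 76) (nat_lit 16087817913) (nat_lit 76) (nat_lit 12562168040) (nat_lit 7) (nat_lit 4) (nat_lit 8) (nat_lit 5) (nat_lit 8) (nat_lit 4) (nat_lit 438) (nat_lit 245) (nat_lit 217)) (XT.lf (nat_lit 0) (nat_lit 37388848643) (nat_lit 76) (nat_lit 12183308099) (nat_lit 76) (nat_lit 8577926396) (nat_lit 7) (nat_lit 4) (nat_lit 8) (nat_lit 5) (nat_lit 8) (nat_lit 4) (nat_lit 439) (nat_lit 245) (nat_lit 216))))) (XT.nd (nat_lit 234) (nat_lit 0) (nat_lit 0) (XT.nd (nat_lit 78) (nat_lit 152) (nat_lit 0) (XT.lf (nat_lit 0) (nat_lit 47009910180) (nat_lit 76) (nat_lit 8218264407) (nat_lit 76) (nat_lit 4535473159) (nat_lit 7) (nat_lit 4) (nat_lit 8) (nat_lit 5) (nat_lit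 8) (nat_lit 4) (nat_lit 440) (nat_lit 245) (nat_lit 215)) (XT.nd (nat_lit 78) (nat_lit 152) (nat_lit 0) (XT.lf (nat_lit 0) (nat_lit 56806857878) (nat_lit 76) (nat_lit 4189222234) (nat_lit 76) (nat_lit 431276089) (nat_lit 7) (nat_lit 4) (nat_lit 8) (nat_lit 5) (nat_lit 8) (nat_lit 4) (nat_lit 441) (nat_lit 245) (nat_lit 214)) (XT.lf (nat_lit 0) (nat_lit 3681494816) (nat_lit 76) (nat_lit 19198228) (nat_lit 152) (nat_lit 59439829491) (nat_lit 5) (nat_lit 5) (nat_lit 6) (nat_lit 5) (nat_lit 7) (nat_lit 4) (nat_lit 442) (nat_lit 245) (nat_lit 213)))) (XT.nd (nat_lit 156) (nat_lit 0) (nat_lit 0) (XT.nd (nat_lit 78) (nat_lit 0) (nat_lit 0) (XT.lf (nat_lit 0) (nat_lit 7979591889) (nat_lit 152) (nat_lit 52732935151) (nat_lit 0) (nat_lit 4191482410) (nat_lit 5) (nat_lit 5) (nat_lit 7) (nat_lit 4) (nat_lit 5) (nat_lit 4) (nat_lit 443) (nat_lit 245) (nat_lit 212)) (XT.lf (nat_lit 0) (nat_lit 12332111960) (nat_lit 152)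 (nat_lit 45912705832) (nat_lit 0) (nat_lit 8477228328) (nat_lit 5) (nat_lit 5) (nat_lit 7) (nat_lit 4) (nat_lit 5) (nat_lit 4) (nat_lit 444) (nat_lit 245) (nat_lit 211))) (XT.nd (nat_lit 78) (nat_lit 0) (nat_lit 0) (XT.lf (nat_lit 0) (nat_lit 16761871885) (nat_lit 152) (nat_lit 38992195796) (nat_lit 0) (nat_lit 12842158978) (nat_lit 5) (nat_lit 5) (nat_lit 7) (nat_lit 4) (nat_lit 5) (nat_lit 4) (nat_lit 445) (nat_lit 245) (nat_lit 210)) (XT.lf (nat_lit 0) (nat_lit 21272742327) (nat_lit 152) (nat_lit 31965357993) (nat_lit 0) (nat_lit 17290088377) (nat_lit 5) (nat_lit 5) (nat_lit 7) (nat_lit 4) (nat_lit 5) (nat_lit 4) (nat_lit 446) (nat_lit 245) (nat_lit 209))))))) (XT.nd (nat_lit 44460) (nat_lit 0) (nat_lit 456) (XT.nd (nat_lit 43914) (nat_lit 0) (nat_lit 760) (XT.nd (nat_lit 234) (nat_lit 76) (nat_lit 0) (XT.nd (nat_lit 78) (nat_lit 0) (nat_lit 0) (XT.lf (nat_lit 0) (nat_lit 25868664825) (nat_lit 152) (nat_lit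 24826052469) (nat_lit 0) (nat_lit 21824903066) (nat_lit 5) (nat_lit 5) (nat_lit 7) (nat_lit 4) (nat_lit 5) (nat_lit 4) (nat_lit 447) (nat_lit 245) (nat_lit 208)) (XT.nd (nat_lit 78) (nat_lit 0) (nat_lit 0) (XT.lf (nat_lit 0) (nat_lit 30553655232) (nat_lit 152) (nat_lit 17568040996) (nat_lit 0) (nat_lit 26450565503) (nat_lit 5) (nat_lit 5) (nat_lit 7) (nat_lit 4) (nat_lit 5) (nat_lit 4) (nat_lit 448) (nat_lit 245) (nat_lit 207)) (XT.lf (nat_lit 0) (nat_lit 35331807229) (nat_lit 152) (nat_lit 10184981621) (nat_lit 0) (nat_lit 31171117530) (nat_lit 5) (nat_lit 5) (nat_lit 7) (nat_lit 4) (nat_lit 5) (nat_lit 4) (nat_lit 449) (nat_lit 245) (nat_lit 206)))) (XT.nd (nat_lit 78) (nat_lit 76) (nat_lit 0) (XT.lf (nat_lit 0) (nat_lit 40207295902) (nat_lit 152) (nat_lit 2670423128) (nat_lit 0) (nat_lit 35990683900) (nat_lit 5) (nat_lit 5) (nat_lit 7) (nat_lit 4) (nat_lit 5) (nat_lit 4) (nat_lit 450) (nat_lit 245) (nat_lit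 205)) (XT.nd (nat_lit 43524) (nat_lit 0) (nat_lit 1140) (XT.lf (nat_lit 0) (nat_lit 5081356162) (nat_lit 76) (nat_lit 40151870326) (nat_lit 76) (nat_lit 35880964827) (nat_lit 4) (nat_lit 4) (nat_lit 5) (nat_lit 5) (nat_lit 5) (nat_lit 4) (nat_lit 451) (nat_lit 245) (nat_lit 204)) (XT.lf (nat_lit 0) (nat_lit 5576601804) (nat_lit 76) (nat_lit 3817891372) (nat_lit 76) (nat_lit 3817891372) (nat_lit 19) (nat_lit 4) (nat_lit 20) (nat_lit 5) (nat_lit 20) (nat_lit 4) (nat_lit 408) (nat_lit 246) (nat_lit 246))))) (XT.nd (nat_lit 234) (nat_lit 228) (nat_lit 0) (XT.nd (nat_lit 78) (nat_lit 152) (nat_lit 0) (XT.lf (nat_lit 0) (nat_lit 22600269016) (nat_lit 76) (nat_lit 2327248295) (nat_lit 76) (nat_lit 2115772751) (nat_lit 19) (nat_lit 4) (nat_lit 20) (nat_lit 5) (nat_lit 20) (nat_lit 4) (nat_lit 409) (nat_lit 246) (nat_lit 245)) (XT.nd (nat_lit 78) (nat_lit 0) (nat_lit 0) (XT.lf (nat_lit 0) (nat_lit 3480613586) (nat_lit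 152) (nat_lit 21123357259) (nat_lit 0) (nat_lit 3075961542) (nat_lit 17) (nat_lit 5) (nat_lit 19) (nat_lit 4) (nat_lit 17) (nat_lit 4) (nat_lit 410) (nat_lit 246) (nat_lit 244)) (XT.lf (nat_lit 0) (nat_lit 9157911101) (nat_lit 152) (nat_lit 10618747164) (nat_lit 0) (nat_lit 8559728976) (nat_lit 17) (nat_lit 5) (nat_lit 19) (nat_lit 4) (nat_lit 17) (nat_lit 4) (nat_lit 411) (nat_lit 246) (nat_lit 243)))) (XT.nd (nat_lit 156) (nat_lit 152) (nat_lit 0) (XT.nd (nat_lit 78) (nat_lit 76) (nat_lit 0) (XT.lf (nat_lit 0) (nat_lit 14896005643) (nat_lit 152) (nat_lit 9893329) (nat_lit 0) (nat_lit 14109930236) (nat_lit 17) (nat_lit 5) (nat_lit 19) (nat_lit 4) (nat_lit 17) (nat_lit 4) (nat_lit 412) (nat_lit 246) (nat_lit 242)) (XT.lf (nat_lit 0) (nat_lit 10925673357) (nat_lit 76) (nat_lit 9879261980) (nat_lit 76) (nat_lit 8910765912) (nat_lit 16) (nat_lit 4) (nat_lit 17) (nat_lit 5) (nat_lit 17) (nat_lit 4) (nat_lit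 413) (nat_lit 246) (nat_lit 241))) (XT.nd (nat_lit 78) (nat_lit 152) (nat_lit 0) (XT.lf (nat_lit 0) (nat_lit 21986765219) (nat_lit 76) (nat_lit 4799283808) (nat_lit 76) (nat_lit 3653680301) (nat_lit 16) (nat_lit 4) (nat_lit 17) (nat_lit 5) (nat_lit 17) (nat_lit 4) (nat_lit 414) (nat_lit 246) (nat_lit 240)) (XT.lf (nat_lit 0) (nat_lit 1646612053) (nat_lit 152) (nat_lit 29173334577) (nat_lit 0) (nat_lit 367434892) (nat_lit 14) (nat_lit 5) (nat_lit 16) (nat_lit 4) (nat_lit 14) (nat_lit 4) (nat_lit 415) (nat_lit 246) (nat_lit 239)))))) (XT.nd (nat_lit 546) (nat_lit 76) (nat_lit 0) (XT.nd (nat_lit 234) (nat_lit 152) (nat_lit 0) (XT.nd (nat_lit 78) (nat_lit 76) (nat_lit 0) (XT.lf (nat_lit 0) (nat_lit 7063259076) (nat_lit 152) (nat_lit 19270198734) (nat_lit 0) (nat_lit 5622003519) (nat_lit 14) (nat_lit 5) (nat_lit 16) (nat_lit 4) (nat_lit 14) (nat_lit 4) (nat_lit 416) (nat_lit 246) (nat_lit 238)) (XT.nd (nat_lit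 78) (nat_lit 76) (nat_lit 0) (XT.lf (nat_lit 0) (nat_lit 12542463857) (nat_lit 152) (nat_lit 9263273830) (nat_lit 0) (nat_lit 10943850635) (nat_lit 14) (nat_lit 5) (nat_lit 16) (nat_lit 4) (nat_lit 14) (nat_lit 4) (nat_lit 417) (nat_lit 246) (nat_lit 237)) (XT.lf (nat_lit 0) (nat_lit 873223789) (nat_lit 76) (nat_lit 17224184221) (nat_lit 76) (nat_lit 15472796566) (nat_lit 13) (nat_lit 4) (nat_lit 14) (nat_lit 5) (nat_lit 14) (nat_lit 4) (nat_lit 418) (nat_lit 246) (nat_lit 236)))) (XT.nd (nat_lit 156) (nat_lit 152) (nat_lit 0) (XT.nd (nat_lit 78) (nat_lit 0) (nat_lit 0) (XT.lf (nat_lit 0) (nat_lit 11317869547) (nat_lit 76) (nat_lit 12498680893) (nat_lit 76) (nat_lit 10598968546) (nat_lit 13) (nat_lit 4) (nat_lit 14) (nat_lit 5) (nat_lit 14) (nat_lit 4) (nat_lit 419) (nat_lit 246) (nat_lit 235)) (XT.lf (nat_lit 0) (nat_lit 21895432520) (nat_lit 76) (nat_lit 7718639524) (nat_lit 76) (nat_lit 5674922623) (nat_lit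 13) (nat_lit 4) (nat_lit 14) (nat_lit 5) (nat_lit 14) (nat_lit 4) (nat_lit 420) (nat_lit 246) (nat_lit 234))) (XT.nd (nat_lit 78) (nat_lit 152) (nat_lit 0) (XT.lf (nat_lit 0) (nat_lit 32615155238) (nat_lit 76) (nat_lit 2879883380) (nat_lit 76) (nat_lit 696356231) (nat_lit 13) (nat_lit 4) (nat_lit 14) (nat_lit 5) (nat_lit 14) (nat_lit 4) (nat_lit 421) (nat_lit 246) (nat_lit 233)) (XT.lf (nat_lit 0) (nat_lit 4338804610) (nat_lit 152) (nat_lit 30693887766) (nat_lit 0) (nat_lit 2087090772) (nat_lit 11) (nat_lit 5) (nat_lit 13) (nat_lit 4) (nat_lit 11) (nat_lit 4) (nat_lit 422) (nat_lit 246) (nat_lit 232))))) (XT.nd (nat_lit 234) (nat_lit 76) (nat_lit 0) (XT.nd (nat_lit 78) (nat_lit 0) (nat_lit 0) (XT.lf (nat_lit 0) (nat_lit 9487444470) (nat_lit 152) (nat_lit 21481300048) (nat_lit 0) (nat_lit 7107784450) (nat_lit 11) (nat_lit 5) (nat_lit 13) (nat_lit 4) (nat_lit 11) (nat_lit 4) (nat_lit 423) (nat_lit 246) (nat_lit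 231)) (XT.nd (nat_lit 78) (nat_lit 0) (nat_lit 0) (XT.lf (nat_lit 0) (nat_lit 14704559064) (nat_lit 152) (nat_lit 12159323346) (nat_lit 0) (nat_lit 12200679450) (nat_lit 11) (nat_lit 5) (nat_lit 13) (nat_lit 4) (nat_lit 11) (nat_lit 4) (nat_lit 424) (nat_lit 246) (nat_lit 230)) (XT.lf (nat_lit 0) (nat_lit 19994707034) (nat_lit 152) (nat_lit 2719812245) (nat_lit 0) (nat_lit 17370225873) (nat_lit 11) (nat_lit 5) (nat_lit 13) (nat_lit 4) (nat_lit 11) (nat_lit 4) (nat_lit 425) (nat_lit 246) (nat_lit 229)))) (XT.nd (nat_lit 156) (nat_lit 0) (nat_lit 0) (XT.nd (nat_lit 78) (nat_lit 0) (nat_lit 0) (XT.lf (nat_lit 0) (nat_lit 6981719872) (nat_lit 76) (nat_lit 18447903531) (nat_lit 76) (nat_lit 15706333488) (nat_lit 10) (nat_lit 4) (nat_lit 11) (nat_lit 5) (nat_lit 11) (nat_lit 4) (nat_lit 426) (nat_lit 246) (nat_lit 228)) (XT.lf (nat_lit 0) (nat_lit 16874191787) (nat_lit 76) (nat_lit 14100674066) (nat_lit 76) (nat_lit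 11245425498) (nat_lit 10) (nat_lit 4) (nat_lit 11) (nat_lit 5) (nat_lit 11) (nat_lit 4) (nat_lit 427) (nat_lit 246) (nat_lit 227))) (XT.nd (nat_lit 78) (nat_lit 0) (nat_lit 0) (XT.lf (nat_lit 0) (nat_lit 26912117808) (nat_lit 76) (nat_lit 9696497106) (nat_lit 76) (nat_lit 6730881037) (nat_lit 10) (nat_lit 4) (nat_lit 11) (nat_lit 5) (nat_lit 11) (nat_lit 4) (nat_lit 428) (nat_lit 246) (nat_lit 226)) (XT.lf (nat_lit 0) (nat_lit 37104268940) (nat_lit 76) (nat_lit 5231524341) (nat_lit 76) (nat_lit 2158755359) (nat_lit 10) (nat_lit 4) (nat_lit 11) (nat_lit 5) (nat_lit 11) (nat_lit 4) (nat_lit 429) (nat_lit 246) (nat_lit 225))))))))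
noncomputable def xc9 : XT := (XT.nd (nat_lit 45396) (nat_lit 0) (nat_lit 228) (XT.nd (nat_lit 1014) (nat_lit 76) (nat_lit 0) (XT.nd (nat_lit 468) (nat_lit 228) (nat_lit 0) (XT.nd (nat_lit 234) (nat_lit 0) (nat_lit 0) (XT.nd (nat_lit 78) (nat_lit 0) (nat_lit 0) (XT.lf (nat_lit 0) (nat_lit 1784116091) (nat_lit 76) (nat_lit 659685400) (nat_lit 152) (nat_lit 43241428971) (nat_lit 8) (nat_lit 5) (nat_lit 9) (nat_lit 5) (nat_lit 10) (nat_lit 4) (nat_lit 430) (nat_lit 246) (nat_lit 224)) (XT.nd (nat_lit 78) (nat_lit 0) (nat_lit 0) (XT.lf (nat_lit 0) (nat_lit 7181344374) (nat_lit 152) (nat_lit 35729430754) (nat_lit 0) (nat_lit 3999011526) (nat_lit 8) (nat_lit 5) (nat_lit 10) (nat_lit 4) (nat_lit 8) (nat_lit 4) (nat_lit 431) (nat_lit 246) (nat_lit 223)) (XT.lf (nat_lit 0) (nat_lit 11995707725) (nat_lit 152) (nat_lit 27459164038) (nat_lit 0) (nat_lit 8718170901) (nat_lit 8) (nat_lit 5) (nat_lit 10) (nat_lit 4) (nat_lit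 8) (nat_lit 4) (nat_lit 432) (nat_lit 246) (nat_lit 222)))) (XT.nd (nat_lit 78) (nat_lit 0) (nat_lit 0) (XT.lf (nat_lit 0) (nat_lit 16884756969) (nat_lit 152) (nat_lit 19076746478) (nat_lit 0) (nat_lit 13514789101) (nat_lit 8) (nat_lit 5) (nat_lit 10) (nat_lit 4) (nat_lit 8) (nat_lit 4) (nat_lit 433) (nat_lit 246) (nat_lit 221)) (XT.nd (nat_lit 78) (nat_lit 0) (nat_lit 0) (XT.lf (nat_lit 0) (nat_lit 21852764091) (nat_lit 152) (nat_lit 10574853631) (nat_lit 0) (nat_lit 18393057345) (nat_lit 8) (nat_lit 5) (nat_lit 10) (nat_lit 4) (nat_lit 8) (nat_lit 4) (nat_lit 434) (nat_lit 246) (nat_lit 220)) (XT.lf (nat_lit 0) (nat_lit 26904070067) (nat_lit 152) (nat_lit 1946056657) (nat_lit 0) (nat_lit 23357238197) (nat_lit 8) (nat_lit 5) (nat_lit 10) (nat_lit 4) (nat_lit 8) (nat_lit 4) (nat_lit 435) (nat_lit 246) (nat_lit 219))))) (XT.nd (nat_lit 234) (nat_lit 152) (nat_lit 0) (XT.nd (nat_lit 78) (nat_lit 0) (nat_lit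 0) (XT.lf (nat_lit 0) (nat_lit 6952859498) (nat_lit 76) (nat_lit 25157064301) (nat_lit 76) (nat_lit 21525644932) (nat_lit 7) (nat_lit 4) (nat_lit 8) (nat_lit 5) (nat_lit 8) (nat_lit 4) (nat_lit 436) (nat_lit 246) (nat_lit 218)) (XT.nd (nat_lit 78) (nat_lit 0) (nat_lit 0) (XT.lf (nat_lit 0) (nat_lit 16035435140) (nat_lit 76) (nat_lit 21393017549) (nat_lit 76) (nat_lit 17679474394) (nat_lit 7) (nat_lit 4) (nat_lit 8) (nat_lit 5) (nat_lit 8) (nat_lit 4) (nat_lit 437) (nat_lit 246) (nat_lit 217)) (XT.lf (nat_lit 0) (nat_lit 25270876154) (nat_lit 76) (nat_lit 17574348851) (nat_lit 76) (nat_lit 13781073866) (nat_lit 7) (nat_lit 4) (nat_lit 8) (nat_lit 5) (nat_lit 8) (nat_lit 4) (nat_lit 438) (nat_lit 246) (nat_lit 216)))) (XT.nd (nat_lit 156) (nat_lit 152) (nat_lit 0) (XT.nd (nat_lit 78) (nat_lit 0) (nat_lit 0) (XT.lf (nat_lit 0) (nat_lit 34667252343) (nat_lit 76) (nat_lit 13697721508) (nat_lit 76) (nat_lit 9827036979)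 (nat_lit 7) (nat_lit 4) (nat_lit 8) (nat_lit 5) (nat_lit 8) (nat_lit 4) (nat_lit 439) (nat_lit 246) (nat_lit 215)) (XT.lf (nat_lit 0) (nat_lit 44232774134) (nat_lit 76) (nat_lit 9759748176) (nat_lit 76) (nat_lit 5813908749) (nat_lit 7) (nat_lit 4) (nat_lit 8) (nat_lit 5) (nat_lit 8) (nat_lit 4) (nat_lit 440) (nat_lit 246) (nat_lit 214))) (XT.nd (nat_lit 78) (nat_lit 152) (nat_lit 0) (XT.lf (nat_lit 0) (nat_lit 53975799749) (nat_lit 76) (nat_lit 5756987905) (nat_lit 76) (nat_lit 1738182559) (nat_lit 7) (nat_lit 4) (nat_lit 8) (nat_lit 5) (nat_lit 8) (nat_lit 4) (nat_lit 441) (nat_lit 246) (nat_lit 213)) (XT.lf (nat_lit 0) (nat_lit 708478876) (nat_lit 76) (nat_lit 1655129459) (nat_lit 152) (nat_lit 60822576925) (nat_lit 5) (nat_lit 5) (nat_lit 6) (nat_lit 5) (nat_lit 7) (nat_lit 4) (nat_lit 442) (nat_lit 246) (nat_lit 212)))))) (XT.nd (nat_lit 546) (nat_lit 76) (nat_lit 0) (XT.nd (nat_lit 234) (nat_lit 0)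 (nat_lit 0) (XT.nd (nat_lit 78) (nat_lit 0) (nat_lit 0) (XT.lf (nat_lit 0) (nat_lit 6599719628) (nat_lit 152) (nat_lit 55788822208) (nat_lit 0) (nat_lit 2562415334) (nat_lit 5) (nat_lit 5) (nat_lit 7) (nat_lit 4) (nat_lit 5) (nat_lit 4) (nat_lit 443) (nat_lit 246) (nat_lit 211)) (XT.nd (nat_lit 78) (nat_lit 0) (nat_lit 0) (XT.lf (nat_lit 0) (nat_lit 10925965931) (nat_lit 152) (nat_lit 49019985088) (nat_lit 0) (nat_lit 6823832362) (nat_lit 5) (nat_lit 5) (nat_lit 7) (nat_lit 4) (nat_lit 5) (nat_lit 4) (nat_lit 444) (nat_lit 246) (nat_lit 210)) (XT.lf (nat_lit 0) (nat_lit 15330217343) (nat_lit 152) (nat_lit 42149370388) (nat_lit 0) (nat_lit 11165142731) (nat_lit 5) (nat_lit 5) (nat_lit 7) (nat_lit 4) (nat_lit 5) (nat_lit 4) (nat_lit 445) (nat_lit 246) (nat_lit 209)))) (XT.nd (nat_lit 156) (nat_lit 0) (nat_lit 0) (XT.nd (nat_lit 78) (nat_lit 0) (nat_lit 0) (XT.lf (nat_lit 0) (nat_lit 19816322239) (nat_lit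 152) (nat_lit 35170974661) (nat_lit 0) (nat_lit 15590139819) (nat_lit 5) (nat_lit 5) (nat_lit 7) (nat_lit 4) (nat_lit 5) (nat_lit 4) (nat_lit 446) (nat_lit 246) (nat_lit 208)) (XT.lf (nat_lit 0) (nat_lit 24388200518) (nat_lit 152) (nat_lit 28078700278) (nat_lit 0) (nat_lit 20102690127) (nat_lit 5) (nat_lit 5) (nat_lit 7) (nat_lit 4) (nat_lit 5) (nat_lit 4) (nat_lit 447) (nat_lit 246) (nat_lit 207))) (XT.nd (nat_lit 78) (nat_lit 0) (nat_lit 0) (XT.lf (nat_lit 0) (nat_lit 29049847022) (nat_lit 152) (nat_lit 20866350107) (nat_lit 0) (nat_lit 24706736661) (nat_lit 5) (nat_lit 5) (nat_lit 7) (nat_lit 4) (nat_lit 5) (nat_lit 4) (nat_lit 448) (nat_lit 246) (nat_lit 206)) (XT.lf (nat_lit 0) (nat_lit 33805335037) (nat_lit 152) (nat_lit 13527622093) (nat_lit 0) (nat_lit 29406302374) (nat_lit 5) (nat_lit 5) (nat_lit 7) (nat_lit 4) (nat_lit 5) (nat_lit 4) (nat_lit 449) (nat_lit 246) (nat_lit 205))))) (XT.nd (nat_lit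 43524) (nat_lit 0) (nat_lit 988) (XT.nd (nat_lit 78) (nat_lit 76) (nat_lit 0) (XT.lf (nat_lit 0) (nat_lit 38658819843) (nat_lit 152) (nat_lit 6056103756) (nat_lit 0) (nat_lit 34205493682) (nat_lit 5) (nat_lit 5) (nat_lit 7) (nat_lit 4) (nat_lit 5) (nat_lit 4) (nat_lit 450) (nat_lit 246) (nat_lit 204)) (XT.nd (nat_lit 43368) (nat_lit 0) (nat_lit 1216) (XT.lf (nat_lit 0) (nat_lit 1585675657) (nat_lit 76) (nat_lit 42044109175) (nat_lit 76) (nat_lit 37538070882) (nat_lit 4) (nat_lit 4) (nat_lit 5) (nat_lit 5) (nat_lit 5) (nat_lit 4) (nat_lit 451) (nat_lit 246) (nat_lit 203)) (XT.lf (nat_lit 0) (nat_lit 3545990570) (nat_lit 152) (nat_lit 5531187400) (nat_lit 0) (nat_lit 3545990570) (nat_lit 20) (nat_lit 5) (nat_lit 22) (nat_lit 4) (nat_lit 20) (nat_lit 4) (nat_lit 406) (nat_lit 247) (nat_lit 247)))) (XT.nd (nat_lit 156) (nat_lit 152) (nat_lit 0) (XT.nd (nat_lit 78) (nat_lit 76) (nat_lit 0) (XT.lf (nat_lit 0)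 (nat_lit 12936823336) (nat_lit 152) (nat_lit 171752296) (nat_lit 0) (nat_lit 12719003526) (nat_lit 20) (nat_lit 5) (nat_lit 22) (nat_lit 4) (nat_lit 20) (nat_lit 4) (nat_lit 407) (nat_lit 247) (nat_lit 246)) (XT.lf (nat_lit 0) (nat_lit 11044257831) (nat_lit 76) (nat_lit 7905757339) (nat_lit 76) (nat_lit 7476461985) (nat_lit 19) (nat_lit 4) (nat_lit 20) (nat_lit 5) (nat_lit 20) (nat_lit 4) (nat_lit 408) (nat_lit 247) (nat_lit 245))) (XT.nd (nat_lit 78) (nat_lit 152) (nat_lit 0) (XT.lf (nat_lit 0) (nat_lit 22385550639) (nat_lit 76) (nat_lit 2647858605) (nat_lit 76) (nat_lit 2013247189) (nat_lit 19) (nat_lit 4) (nat_lit 20) (nat_lit 5) (nat_lit 20) (nat_lit 4) (nat_lit 409) (nat_lit 247) (nat_lit 244)) (XT.lf (nat_lit 0) (nat_lit 3520327124) (nat_lit 152) (nat_lit 21454100915) (nat_lit 0) (nat_lit 2710669455) (nat_lit 17) (nat_lit 5) (nat_lit 19) (nat_lit 4) (nat_lit 17) (nat_lit 4) (nat_lit 410) (nat_lit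 247) (nat_lit 243))))))) (XT.nd (nat_lit 1014) (nat_lit 304) (nat_lit 0) (XT.nd (nat_lit 468) (nat_lit 228) (nat_lit 0) (XT.nd (nat_lit 234) (nat_lit 152) (nat_lit 0) (XT.nd (nat_lit 78) (nat_lit 76) (nat_lit 0) (XT.lf (nat_lit 0) (nat_lit 9143672965) (nat_lit 152) (nat_lit 11053379768) (nat_lit 0) (nat_lit 8146122015) (nat_lit 17) (nat_lit 5) (nat_lit 19) (nat_lit 4) (nat_lit 17) (nat_lit 4) (nat_lit 411) (nat_lit 247) (nat_lit 242)) (XT.nd (nat_lit 78) (nat_lit 76) (nat_lit 0) (XT.lf (nat_lit 0) (nat_lit 14829387241) (nat_lit 152) (nat_lit 545388988) (nat_lit 0) (nat_lit 13649415629) (nat_lit 17) (nat_lit 5) (nat_lit 19) (nat_lit 4) (nat_lit 17) (nat_lit 4) (nat_lit 412) (nat_lit 247) (nat_lit 241)) (XT.lf (nat_lit 0) (nat_lit 10279646082) (nat_lit 76) (nat_lit 10401606215) (nat_lit 76) (nat_lit 9044527165) (nat_lit 16) (nat_lit 4) (nat_lit 17) (nat_lit 5) (nat_lit 17) (nat_lit 4) (nat_lit 413) (nat_lit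 247) (nat_lit 240)))) (XT.nd (nat_lit 78) (nat_lit 152) (nat_lit 0) (XT.lf (nat_lit 0) (nat_lit 21243772700) (nat_lit 76) (nat_lit 5368287774) (nat_lit 76) (nat_lit 3839259754) (nat_lit 16) (nat_lit 4) (nat_lit 17) (nat_lit 5) (nat_lit 17) (nat_lit 4) (nat_lit 414) (nat_lit 247) (nat_lit 239)) (XT.nd (nat_lit 78) (nat_lit 0) (nat_lit 0) (XT.lf (nat_lit 0) (nat_lit 1152956378) (nat_lit 76) (nat_lit 250455023) (nat_lit 152) (nat_lit 29797455132) (nat_lit 14) (nat_lit 5) (nat_lit 15) (nat_lit 5) (nat_lit 16) (nat_lit 4) (nat_lit 415) (nat_lit 247) (nat_lit 238)) (XT.lf (nat_lit 0) (nat_lit 6768418556) (nat_lit 152) (nat_lit 20237590931) (nat_lit 0) (nat_lit 4964489272) (nat_lit 14) (nat_lit 5) (nat_lit 16) (nat_lit 4) (nat_lit 14) (nat_lit 4) (nat_lit 416) (nat_lit 247) (nat_lit 237))))) (XT.nd (nat_lit 234) (nat_lit 152) (nat_lit 0) (XT.nd (nat_lit 78) (nat_lit 76) (nat_lit 0) (XT.lf (nat_lit 0) (nat_lit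 12199824947) (nat_lit 152) (nat_lit 10323116654) (nat_lit 0) (nat_lit 10243121231) (nat_lit 14) (nat_lit 5) (nat_lit 16) (nat_lit 4) (nat_lit 14) (nat_lit 4) (nat_lit 417) (nat_lit 247) (nat_lit 236)) (XT.nd (nat_lit 78) (nat_lit 76) (nat_lit 0) (XT.lf (nat_lit 0) (nat_lit 17699968936) (nat_lit 152) (nat_lit 293416664) (nat_lit 0) (nat_lit 15594940528) (nat_lit 14) (nat_lit 5) (nat_lit 16) (nat_lit 4) (nat_lit 14) (nat_lit 4) (nat_lit 418) (nat_lit 247) (nat_lit 235)) (XT.lf (nat_lit 0) (nat_lit 10056511615) (nat_lit 76) (nat_lit 13313814201) (nat_lit 76) (nat_lit 11064781238) (nat_lit 13) (nat_lit 4) (nat_lit 14) (nat_lit 5) (nat_lit 14) (nat_lit 4) (nat_lit 419) (nat_lit 247) (nat_lit 234)))) (XT.nd (nat_lit 156) (nat_lit 152) (nat_lit 0) (XT.nd (nat_lit 78) (nat_lit 0) (nat_lit 0) (XT.lf (nat_lit 0) (nat_lit 20547785354) (nat_lit 76) (nat_lit 8575490303) (nat_lit 76) (nat_lit 6186647092) (nat_lit 13)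 (nat_lit 4) (nat_lit 14) (nat_lit 5) (nat_lit 14) (nat_lit 4) (nat_lit 420) (nat_lit 247) (nat_lit 233)) (XT.lf (nat_lit 0) (nat_lit 31183732117) (nat_lit 76) (nat_lit 3777236558) (nat_lit 76) (nat_lit 1252655243) (nat_lit 13) (nat_lit 4) (nat_lit 14) (nat_lit 5) (nat_lit 14) (nat_lit 4) (nat_lit 421) (nat_lit 247) (nat_lit 232))) (XT.nd (nat_lit 78) (nat_lit 0) (nat_lit 0) (XT.lf (nat_lit 0) (nat_lit 3726714908) (nat_lit 152) (nat_lit 32269740830) (nat_lit 0) (nat_lit 1147718906) (nat_lit 11) (nat_lit 5) (nat_lit 13) (nat_lit 4) (nat_lit 11) (nat_lit 4) (nat_lit 422) (nat_lit 247) (nat_lit 231)) (XT.lf (nat_lit 0) (nat_lit 8832997890) (nat_lit 152) (nat_lit 23139413530) (nat_lit 0) (nat_lit 6129782294) (nat_lit 11) (nat_lit 5) (nat_lit 13) (nat_lit 4) (nat_lit 11) (nat_lit 4) (nat_lit 423) (nat_lit 247) (nat_lit 230)))))) (XT.nd (nat_lit 546) (nat_lit 152) (nat_lit 0) (XT.nd (nat_lit 234) (nat_lit 76)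 (nat_lit 0) (XT.nd (nat_lit 78) (nat_lit 76) (nat_lit 0) (XT.lf (nat_lit 0) (nat_lit 14008989301) (nat_lit 152) (nat_lit 13897301312) (nat_lit 0) (nat_lit 11185172157) (nat_lit 11) (nat_lit 5) (nat_lit 13) (nat_lit 4) (nat_lit 11) (nat_lit 4) (nat_lit 424) (nat_lit 247) (nat_lit 229)) (XT.nd (nat_lit 78) (nat_lit 76) (nat_lit 0) (XT.lf (nat_lit 0) (nat_lit 19259211852) (nat_lit 152) (nat_lit 4535328545) (nat_lit 0) (nat_lit 16318305826) (nat_lit 11) (nat_lit 5) (nat_lit 13) (nat_lit 4) (nat_lit 11) (nat_lit 4) (nat_lit 425) (nat_lit 247) (nat_lit 228)) (XT.lf (nat_lit 0) (nat_lit 5053293085) (nat_lit 76) (nat_lit 19583535374) (nat_lit 76) (nat_lit 16528950823) (nat_lit 10) (nat_lit 4) (nat_lit 11) (nat_lit 5) (nat_lit 11) (nat_lit 4) (nat_lit 426) (nat_lit 247) (nat_lit 227)))) (XT.nd (nat_lit 156) (nat_lit 76) (nat_lit 0) (XT.nd (nat_lit 78) (nat_lit 0) (nat_lit 0) (XT.lf (nat_lit 0) (nat_lit 14871223103)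 (nat_lit 76) (nat_lit 15272497727) (nat_lit 76) (nat_lit 12107545675) (nat_lit 10) (nat_lit 4) (nat_lit 11) (nat_lit 5) (nat_lit 11) (nat_lit 4) (nat_lit 427) (nat_lit 247) (nat_lit 226)) (XT.lf (nat_lit 0) (nat_lit 24836778351) (nat_lit 76) (nat_lit 10903458453) (nat_lit 76) (nat_lit 7631353488) (nat_lit 10) (nat_lit 4) (nat_lit 11) (nat_lit 5) (nat_lit 11) (nat_lit 4) (nat_lit 428) (nat_lit 247) (nat_lit 225))) (XT.nd (nat_lit 78) (nat_lit 76) (nat_lit 0) (XT.lf (nat_lit 0) (nat_lit 34958666595) (nat_lit 76) (nat_lit 6472599946) (nat_lit 76) (nat_lit 3096463027) (nat_lit 10) (nat_lit 4) (nat_lit 11) (nat_lit 5) (nat_lit 11) (nat_lit 4) (nat_lit 429) (nat_lit 247) (nat_lit 224)) (XT.lf (nat_lit 0) (nat_lit 1471796595) (nat_lit 152) (nat_lit 489391726) (nat_lit 76) (nat_lit 43759073349) (nat_lit 9) (nat_lit 5) (nat_lit 11) (nat_lit 5) (nat_lit 10) (nat_lit 4) (nat_lit 430) (nat_lit 247) (nat_lit 223)))))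 (XT.nd (nat_lit 234) (nat_lit 76) (nat_lit 0) (XT.nd (nat_lit 78) (nat_lit 0) (nat_lit 0) (XT.lf (nat_lit 0) (nat_lit 6156595313) (nat_lit 152) (nat_lit 38104278417) (nat_lit 0) (nat_lit 2685528409) (nat_lit 8) (nat_lit 5) (nat_lit 10) (nat_lit 4) (nat_lit 8) (nat_lit 4) (nat_lit 431) (nat_lit 247) (nat_lit 222)) (XT.nd (nat_lit 78) (nat_lit 0) (nat_lit 0) (XT.lf (nat_lit 0) (nat_lit 10936601517) (nat_lit 152) (nat_lit 29900985670) (nat_lit 0) (nat_lit 7373103569) (nat_lit 8) (nat_lit 5) (nat_lit 10) (nat_lit 4) (nat_lit 8) (nat_lit 4) (nat_lit 432) (nat_lit 247) (nat_lit 221)) (XT.lf (nat_lit 0) (nat_lit 15792294308) (nat_lit 152) (nat_lit 21583591380) (nat_lit 0) (nat_lit 12139057482) (nat_lit 8) (nat_lit 5) (nat_lit 10) (nat_lit 4) (nat_lit 8) (nat_lit 4) (nat_lit 433) (nat_lit 247) (nat_lit 220)))) (XT.nd (nat_lit 156) (nat_lit 76) (nat_lit 0) (XT.nd (nat_lit 78) (nat_lit 0) (nat_lit 0) (XT.lf (nat_lit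 0) (nat_lit 20727916524) (nat_lit 152) (nat_lit 13144827922) (nat_lit 0) (nat_lit 16987554574) (nat_lit 8) (nat_lit 5) (nat_lit 10) (nat_lit 4) (nat_lit 8) (nat_lit 4) (nat_lit 434) (nat_lit 247) (nat_lit 219)) (XT.lf (nat_lit 0) (nat_lit 25747780844) (nat_lit 152) (nat_lit 4577321617) (nat_lit 0) (nat_lit 21922831395) (nat_lit 8) (nat_lit 5) (nat_lit 10) (nat_lit 4) (nat_lit 8) (nat_lit 4) (nat_lit 435) (nat_lit 247) (nat_lit 218))) (XT.nd (nat_lit 78) (nat_lit 0) (nat_lit 0) (XT.lf (nat_lit 0) (nat_lit 4208537426) (nat_lit 76) (nat_lit 26688191168) (nat_lit 76) (nat_lit 22781117933) (nat_lit 7) (nat_lit 4) (nat_lit 8) (nat_lit 5) (nat_lit 8) (nat_lit 4) (nat_lit 436) (nat_lit 247) (nat_lit 217)) (XT.lf (nat_lit 0) (nat_lit 13232190951) (nat_lit 76) (nat_lit 22952863360) (nat_lit 76) (nat_lit 18966058295) (nat_lit 7) (nat_lit 4) (nat_lit 8) (nat_lit 5) (nat_lit 8) (nat_lit 4) (nat_lit 437) (nat_lit 247)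 (nat_lit 216))))))))
noncomputable def xc10 : XT := (XT.nd (nat_lit 45240) (nat_lit 0) (nat_lit 0) (XT.nd (nat_lit 1014) (nat_lit 0) (nat_lit 0) (XT.nd (nat_lit 468) (nat_lit 0) (nat_lit 0) (XT.nd (nat_lit 234) (nat_lit 152) (nat_lit 0) (XT.nd (nat_lit 78) (nat_lit 0) (nat_lit 0) (XT.lf (nat_lit 0) (nat_lit 22410426026) (nat_lit 76) (nat_lit 19162077134) (nat_lit 76) (nat_lit 15097862524) (nat_lit 7) (nat_lit 4) (nat_lit 8) (nat_lit 5) (nat_lit 8) (nat_lit 4) (nat_lit 438) (nat_lit 247) (nat_lit 215)) (XT.nd (nat_lit 78) (nat_lit 0) (nat_lit 0) (XT.lf (nat_lit 0) (nat_lit 31751262470) (nat_lit 76) (nat_lit 15312520150) (nat_lit 76) (nat_lit 11173150644) (nat_lit 7) (nat_lit 4) (nat_lit 8) (nat_lit 5) (nat_lit 8) (nat_lit 4) (nat_lit 439) (nat_lit 247) (nat_lit 214)) (XT.lf (nat_lit 0) (nat_lit 41262862177) (nat_lit 76) (nat_lit 11400828720) (nat_lit 76) (nat_lit 7188493294) (nat_lit 7) (nat_lit 4) (nat_lit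 8) (nat_lit 5) (nat_lit 8) (nat_lit 4) (nat_lit 440) (nat_lit 247) (nat_lit 213)))) (XT.nd (nat_lit 78) (nat_lit 152) (nat_lit 0) (XT.lf (nat_lit 0) (nat_lit 50953536254) (nat_lit 76) (nat_lit 7423584860) (nat_lit 76) (nat_lit 3140408735) (nat_lit 7) (nat_lit 4) (nat_lit 8) (nat_lit 5) (nat_lit 8) (nat_lit 4) (nat_lit 441) (nat_lit 247) (nat_lit 212)) (XT.nd (nat_lit 78) (nat_lit 76) (nat_lit 0) (XT.lf (nat_lit 0) (nat_lit 955621452) (nat_lit 152) (nat_lit 2412041953) (nat_lit 76) (nat_lit 59866480926) (nat_lit 6) (nat_lit 5) (nat_lit 8) (nat_lit 5) (nat_lit 7) (nat_lit 4) (nat_lit 442) (nat_lit 247) (nat_lit 211)) (XT.lf (nat_lit 0) (nat_lit 5125115449) (nat_lit 152) (nat_lit 59040712038) (nat_lit 0) (nat_lit 835088599) (nat_lit 5) (nat_lit 5) (nat_lit 7) (nat_lit 4) (nat_lit 5) (nat_lit 4) (nat_lit 443) (nat_lit 247) (nat_lit 210))))) (XT.nd (nat_lit 234) (nat_lit 0) (nat_lit 0) (XT.nd (nat_lit 78) (nat_lit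 0) (nat_lit 0) (XT.lf (nat_lit 0) (nat_lit 9425853240) (nat_lit 152) (nat_lit 52321770255) (nat_lit 0) (nat_lit 5072885347) (nat_lit 5) (nat_lit 5) (nat_lit 7) (nat_lit 4) (nat_lit 5) (nat_lit 4) (nat_lit 444) (nat_lit 247) (nat_lit 209)) (XT.nd (nat_lit 78) (nat_lit 0) (nat_lit 0) (XT.lf (nat_lit 0) (nat_lit 13805339107) (nat_lit 152) (nat_lit 45499597631) (nat_lit 0) (nat_lit 9391263404) (nat_lit 5) (nat_lit 5) (nat_lit 7) (nat_lit 4) (nat_lit 5) (nat_lit 4) (nat_lit 445) (nat_lit 247) (nat_lit 208)) (XT.lf (nat_lit 0) (nat_lit 18267399784) (nat_lit 152) (nat_lit 38568233045) (nat_lit 0) (nat_lit 13793996111) (nat_lit 5) (nat_lit 5) (nat_lit 7) (nat_lit 4) (nat_lit 5) (nat_lit 4) (nat_lit 446) (nat_lit 247) (nat_lit 207)))) (XT.nd (nat_lit 156) (nat_lit 0) (nat_lit 0) (XT.nd (nat_lit 78) (nat_lit 0) (nat_lit 0) (XT.lf (nat_lit 0) (nat_lit 22815934160) (nat_lit 152) (nat_lit 31521619964) (nat_lit 0) (nat_lit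 18284930516) (nat_lit 5) (nat_lit 5) (nat_lit 7) (nat_lit 4) (nat_lit 5) (nat_lit 4) (nat_lit 447) (nat_lit 247) (nat_lit 206)) (XT.lf (nat_lit 0) (nat_lit 27454916681) (nat_lit 152) (nat_lit 24353601154) (nat_lit 0) (nat_lit 22867990736) (nat_lit 5) (nat_lit 5) (nat_lit 7) (nat_lit 4) (nat_lit 5) (nat_lit 4) (nat_lit 448) (nat_lit 247) (nat_lit 205))) (XT.nd (nat_lit 78) (nat_lit 0) (nat_lit 0) (XT.lf (nat_lit 0) (nat_lit 32188400829) (nat_lit 152) (nat_lit 17057913296) (nat_lit 0) (nat_lit 27547181388) (nat_lit 5) (nat_lit 5) (nat_lit 7) (nat_lit 4) (nat_lit 5) (nat_lit 4) (nat_lit 449) (nat_lit 247) (nat_lit 204)) (XT.lf (nat_lit 0) (nat_lit 37020522658) (nat_lit 152) (nat_lit 9628181519) (nat_lit 0) (nat_lit 32326591083) (nat_lit 5) (nat_lit 5) (nat_lit 7) (nat_lit 4) (nat_lit 5) (nat_lit 4) (nat_lit 450) (nat_lit 247) (nat_lit 203)))))) (XT.nd (nat_lit 43680) (nat_lit 0) (nat_lit 684) (XT.nd (nat_lit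 43368) (nat_lit 0) (nat_lit 1064) (XT.nd (nat_lit 43212) (nat_lit 0) (nat_lit 1140) (XT.lf (nat_lit 0) (nat_lit 41955504408) (nat_lit 152) (nat_lit 2057913824) (nat_lit 0) (nat_lit 37210396005) (nat_lit 5) (nat_lit 5) (nat_lit 7) (nat_lit 4) (nat_lit 5) (nat_lit 4) (nat_lit 451) (nat_lit 247) (nat_lit 202)) (XT.nd (nat_lit 78) (nat_lit 152) (nat_lit 0) (XT.lf (nat_lit 0) (nat_lit 7961521398) (nat_lit 76) (nat_lit 2053682798) (nat_lit 76) (nat_lit 2053682798) (nat_lit 22) (nat_lit 4) (nat_lit 23) (nat_lit 5) (nat_lit 23) (nat_lit 4) (nat_lit 404) (nat_lit 248) (nat_lit 248)) (XT.lf (nat_lit 0) (nat_lit 1528571683) (nat_lit 152) (nat_lit 21852639008) (nat_lit 0) (nat_lit 1304217279) (nat_lit 20) (nat_lit 5) (nat_lit 22) (nat_lit 4) (nat_lit 20) (nat_lit 4) (nat_lit 405) (nat_lit 248) (nat_lit 247)))) (XT.nd (nat_lit 156) (nat_lit 76) (nat_lit 0) (XT.nd (nat_lit 78) (nat_lit 0) (nat_lit 0) (XT.lf (nat_lit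 0) (nat_lit 7258919495) (nat_lit 152) (nat_lit 11172399249) (nat_lit 0) (nat_lit 6816745280) (nat_lit 20) (nat_lit 5) (nat_lit 22) (nat_lit 4) (nat_lit 20) (nat_lit 4) (nat_lit 406) (nat_lit 248) (nat_lit 246)) (XT.lf (nat_lit 0) (nat_lit 13048017952) (nat_lit 152) (nat_lit 388596597) (nat_lit 0) (nat_lit 12394368193) (nat_lit 20) (nat_lit 5) (nat_lit 22) (nat_lit 4) (nat_lit 20) (nat_lit 4) (nat_lit 407) (nat_lit 248) (nat_lit 245))) (XT.nd (nat_lit 78) (nat_lit 0) (nat_lit 0) (XT.lf (nat_lit 0) (nat_lit 10717325303) (nat_lit 76) (nat_lit 8286621673) (nat_lit 76) (nat_lit 7427655852) (nat_lit 19) (nat_lit 4) (nat_lit 20) (nat_lit 5) (nat_lit 20) (nat_lit 4) (nat_lit 408) (nat_lit 248) (nat_lit 244)) (XT.lf (nat_lit 0) (nat_lit 21955926268) (nat_lit 76) (nat_lit 3077883825) (nat_lit 76) (nat_lit 2019582022) (nat_lit 19) (nat_lit 4) (nat_lit 20) (nat_lit 5) (nat_lit 20) (nat_lit 4) (nat_lit 409) (nat_lit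 248) (nat_lit 243))))) (XT.nd (nat_lit 234) (nat_lit 228) (nat_lit 0) (XT.nd (nat_lit 78) (nat_lit 0) (nat_lit 0) (XT.lf (nat_lit 0) (nat_lit 3451710170) (nat_lit 152) (nat_lit 22005661444) (nat_lit 0) (nat_lit 2236339409) (nat_lit 17) (nat_lit 5) (nat_lit 19) (nat_lit 4) (nat_lit 17) (nat_lit 4) (nat_lit 410) (nat_lit 248) (nat_lit 242)) (XT.nd (nat_lit 78) (nat_lit 0) (nat_lit 0) (XT.lf (nat_lit 0) (nat_lit 9022675745) (nat_lit 152) (nat_lit 11705803352) (nat_lit 0) (nat_lit 7624884322) (nat_lit 17) (nat_lit 5) (nat_lit 19) (nat_lit 4) (nat_lit 17) (nat_lit 4) (nat_lit 411) (nat_lit 248) (nat_lit 241)) (XT.lf (nat_lit 0) (nat_lit 14657535393) (nat_lit 152) (nat_lit 1295737869) (nat_lit 0) (nat_lit 13082636532) (nat_lit 17) (nat_lit 5) (nat_lit 19) (nat_lit 4) (nat_lit 17) (nat_lit 4) (nat_lit 412) (nat_lit 248) (nat_lit 240)))) (XT.nd (nat_lit 156) (nat_lit 152) (nat_lit 0) (XT.nd (nat_lit 78) (nat_lit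 0) (nat_lit 0) (XT.lf (nat_lit 0) (nat_lit 9417398543) (nat_lit 76) (nat_lit 11034340032) (nat_lit 76) (nat_lit 9287492201) (nat_lit 16) (nat_lit 4) (nat_lit 17) (nat_lit 5) (nat_lit 17) (nat_lit 4) (nat_lit 413) (nat_lit 248) (nat_lit 239)) (XT.lf (nat_lit 0) (nat_lit 20287384147) (nat_lit 76) (nat_lit 6046322300) (nat_lit 76) (nat_lit 4132533722) (nat_lit 16) (nat_lit 4) (nat_lit 17) (nat_lit 5) (nat_lit 17) (nat_lit 4) (nat_lit 414) (nat_lit 248) (nat_lit 238))) (XT.nd (nat_lit 78) (nat_lit 0) (nat_lit 0) (XT.lf (nat_lit 0) (nat_lit 70998742) (nat_lit 76) (nat_lit 986570575) (nat_lit 152) (nat_lit 30160053682) (nat_lit 14) (nat_lit 5) (nat_lit 15) (nat_lit 5) (nat_lit 16) (nat_lit 4) (nat_lit 415) (nat_lit 248) (nat_lit 237)) (XT.lf (nat_lit 0) (nat_lit 6367702090) (nat_lit 152) (nat_lit 21421679666) (nat_lit 0) (nat_lit 4199522829) (nat_lit 14) (nat_lit 5) (nat_lit 16) (nat_lit 4) (nat_lit 14) (nat_lit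 4) (nat_lit 416) (nat_lit 248) (nat_lit 236))))))) (XT.nd (nat_lit 1014) (nat_lit 380) (nat_lit 0) (XT.nd (nat_lit 468) (nat_lit 76) (nat_lit 0) (XT.nd (nat_lit 234) (nat_lit 152) (nat_lit 0) (XT.nd (nat_lit 78) (nat_lit 76) (nat_lit 0) (XT.lf (nat_lit 0) (nat_lit 11752702277) (nat_lit 152) (nat_lit 11596963278) (nat_lit 0) (nat_lit 9436198325) (nat_lit 14) (nat_lit 5) (nat_lit 16) (nat_lit 4) (nat_lit 14) (nat_lit 4) (nat_lit 417) (nat_lit 248) (nat_lit 235)) (XT.nd (nat_lit 78) (nat_lit 76) (nat_lit 0) (XT.lf (nat_lit 0) (nat_lit 17207791699) (nat_lit 152) (nat_lit 1654406871) (nat_lit 0) (nat_lit 14747283192) (nat_lit 14) (nat_lit 5) (nat_lit 16) (nat_lit 4) (nat_lit 14) (nat_lit 4) (nat_lit 418) (nat_lit 248) (nat_lit 234)) (XT.lf (nat_lit 0) (nat_lit 8582145801) (nat_lit 76) (nat_lit 14238087974) (nat_lit 76) (nat_lit 11637769219) (nat_lit 13) (nat_lit 4) (nat_lit 14) (nat_lit 5) (nat_lit 14) (nat_lit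 4) (nat_lit 419) (nat_lit 248) (nat_lit 233)))) (XT.nd (nat_lit 78) (nat_lit 152) (nat_lit 0) (XT.lf (nat_lit 0) (nat_lit 18989643585) (nat_lit 76) (nat_lit 9540266475) (nat_lit 76) (nat_lit 6804209616) (nat_lit 13) (nat_lit 4) (nat_lit 14) (nat_lit 5) (nat_lit 14) (nat_lit 4) (nat_lit 420) (nat_lit 248) (nat_lit 232)) (XT.nd (nat_lit 78) (nat_lit 152) (nat_lit 0) (XT.lf (nat_lit 0) (nat_lit 29544254470) (nat_lit 76) (nat_lit 4781335447) (nat_lit 76) (nat_lit 1913494021) (nat_lit 13) (nat_lit 4) (nat_lit 14) (nat_lit 5) (nat_lit 14) (nat_lit 4) (nat_lit 421) (nat_lit 248) (nat_lit 231)) (XT.lf (nat_lit 0) (nat_lit 3010278053) (nat_lit 152) (nat_lit 34059858135) (nat_lit 0) (nat_lit 101746394) (nat_lit 11) (nat_lit 5) (nat_lit 13) (nat_lit 4) (nat_lit 11) (nat_lit 4) (nat_lit 422) (nat_lit 248) (nat_lit 230))))) (XT.nd (nat_lit 234) (nat_lit 76) (nat_lit 0) (XT.nd (nat_lit 78) (nat_lit 0) (nat_lit 0) (XT.lf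 (nat_lit 0) (nat_lit 8075437852) (nat_lit 152) (nat_lit 25009395318) (nat_lit 0) (nat_lit 5046304646) (nat_lit 11) (nat_lit 5) (nat_lit 13) (nat_lit 4) (nat_lit 11) (nat_lit 4) (nat_lit 423) (nat_lit 248) (nat_lit 229)) (XT.nd (nat_lit 78) (nat_lit 0) (nat_lit 0) (XT.lf (nat_lit 0) (nat_lit 13211503843) (nat_lit 152) (nat_lit 15844821434) (nat_lit 0) (nat_lit 10065281756) (nat_lit 11) (nat_lit 5) (nat_lit 13) (nat_lit 4) (nat_lit 11) (nat_lit 4) (nat_lit 424) (nat_lit 248) (nat_lit 228)) (XT.lf (nat_lit 0) (nat_lit 18422963850) (nat_lit 152) (nat_lit 6558128602) (nat_lit 0) (nat_lit 15163063237) (nat_lit 11) (nat_lit 5) (nat_lit 13) (nat_lit 4) (nat_lit 11) (nat_lit 4) (nat_lit 425) (nat_lit 248) (nat_lit 227)))) (XT.nd (nat_lit 156) (nat_lit 0) (nat_lit 0) (XT.nd (nat_lit 78) (nat_lit 0) (nat_lit 0) (XT.lf (nat_lit 0) (nat_lit 2915693444) (nat_lit 76) (nat_lit 20826705561) (nat_lit 76) (nat_lit 17456437448)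 (nat_lit 10) (nat_lit 4) (nat_lit 11) (nat_lit 5) (nat_lit 11) (nat_lit 4) (nat_lit 426) (nat_lit 248) (nat_lit 226)) (XT.lf (nat_lit 0) (nat_lit 12661252688) (nat_lit 76) (nat_lit 16550805600) (nat_lit 76) (nat_lit 13073384573) (nat_lit 10) (nat_lit 4) (nat_lit 11) (nat_lit 5) (nat_lit 11) (nat_lit 4) (nat_lit 427) (nat_lit 248) (nat_lit 225))) (XT.nd (nat_lit 78) (nat_lit 0) (nat_lit 0) (XT.lf (nat_lit 0) (nat_lit 22556545049) (nat_lit 76) (nat_lit 12215880585) (nat_lit 76) (nat_lit 8634427604) (nat_lit 10) (nat_lit 4) (nat_lit 11) (nat_lit 5) (nat_lit 11) (nat_lit 4) (nat_lit 428) (nat_lit 248) (nat_lit 224)) (XT.lf (nat_lit 0) (nat_lit 32610216898) (nat_lit 76) (nat_lit 7818142718) (nat_lit 76) (nat_lit 4135687839) (nat_lit 10) (nat_lit 4) (nat_lit 11) (nat_lit 5) (nat_lit 11) (nat_lit 4) (nat_lit 429) (nat_lit 248) (nat_lit 223)))))) (XT.nd (nat_lit 546) (nat_lit 152) (nat_lit 0) (XT.nd (nat_lit 234)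 (nat_lit 76) (nat_lit 0) (XT.nd (nat_lit 78) (nat_lit 76) (nat_lit 0) (XT.lf (nat_lit 0) (nat_lit 418437923) (nat_lit 152) (nat_lit 2931085989) (nat_lit 76) (nat_lit 42408389672) (nat_lit 9) (nat_lit 5) (nat_lit 11) (nat_lit 5) (nat_lit 10) (nat_lit 4) (nat_lit 430) (nat_lit 248) (nat_lit 222)) (XT.nd (nat_lit 78) (nat_lit 0) (nat_lit 0) (XT.lf (nat_lit 0) (nat_lit 5031358772) (nat_lit 152) (nat_lit 40686328666) (nat_lit 0) (nat_lit 1268524841) (nat_lit 8) (nat_lit 5) (nat_lit 10) (nat_lit 4) (nat_lit 8) (nat_lit 4) (nat_lit 431) (nat_lit 248) (nat_lit 221)) (XT.lf (nat_lit 0) (nat_lit 9778008523) (nat_lit 152) (nat_lit 32548059190) (nat_lit 0) (nat_lit 5925435715) (nat_lit 8) (nat_lit 5) (nat_lit 10) (nat_lit 4) (nat_lit 8) (nat_lit 4) (nat_lit 432) (nat_lit 248) (nat_lit 220)))) (XT.nd (nat_lit 156) (nat_lit 76) (nat_lit 0) (XT.nd (nat_lit 78) (nat_lit 0) (nat_lit 0) (XT.lf (nat_lit 0) (nat_lit 14601316408)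 (nat_lit 152) (nat_lit 24293794289) (nat_lit 0) (nat_lit 10661618476) (nat_lit 8) (nat_lit 5) (nat_lit 10) (nat_lit 4) (nat_lit 8) (nat_lit 4) (nat_lit 433) (nat_lit 248) (nat_lit 219)) (XT.lf (nat_lit 0) (nat_lit 19505496968) (nat_lit 152) (nat_lit 15916321500) (nat_lit 0) (nat_lit 15481211536) (nat_lit 8) (nat_lit 5) (nat_lit 10) (nat_lit 4) (nat_lit 8) (nat_lit 4) (nat_lit 434) (nat_lit 248) (nat_lit 218))) (XT.nd (nat_lit 78) (nat_lit 76) (nat_lit 0) (XT.lf (nat_lit 0) (nat_lit 24494835408) (nat_lit 152) (nat_lit 7408320699) (nat_lit 0) (nat_lit 20388426191) (nat_lit 8) (nat_lit 5) (nat_lit 10) (nat_lit 4) (nat_lit 8) (nat_lit 4) (nat_lit 435) (nat_lit 248) (nat_lit 217)) (XT.lf (nat_lit 0) (nat_lit 1262273795) (nat_lit 76) (nat_lit 28323551298) (nat_lit 76) (nat_lit 24137410251) (nat_lit 7) (nat_lit 4) (nat_lit 8) (nat_lit 5) (nat_lit 8) (nat_lit 4) (nat_lit 436) (nat_lit 248) (nat_lit 216))))) (XT.nd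 (nat_lit 234) (nat_lit 152) (nat_lit 0) (XT.nd (nat_lit 78) (nat_lit 0) (nat_lit 0) (XT.lf (nat_lit 0) (nat_lit 10228721381) (nat_lit 76) (nat_lit 24616105961) (nat_lit 76) (nat_lit 20352555369) (nat_lit 7) (nat_lit 4) (nat_lit 8) (nat_lit 5) (nat_lit 8) (nat_lit 4) (nat_lit 437) (nat_lit 248) (nat_lit 215)) (XT.nd (nat_lit 78) (nat_lit 0) (nat_lit 0) (XT.lf (nat_lit 0) (nat_lit 19351416711) (nat_lit 76) (nat_lit 20852390094) (nat_lit 76) (nat_lit 16513684605) (nat_lit 7) (nat_lit 4) (nat_lit 8) (nat_lit 5) (nat_lit 8) (nat_lit 4) (nat_lit 438) (nat_lit 248) (nat_lit 214)) (XT.lf (nat_lit 0) (nat_lit 28638331071) (nat_lit 76) (nat_lit 17029115014) (nat_lit 76) (nat_lit 12617443605) (nat_lit 7) (nat_lit 4) (nat_lit 8) (nat_lit 5) (nat_lit 8) (nat_lit 4) (nat_lit 439) (nat_lit 248) (nat_lit 213)))) (XT.nd (nat_lit 156) (nat_lit 152) (nat_lit 0) (XT.nd (nat_lit 78) (nat_lit 0) (nat_lit 0) (XT.lf (nat_lit 0)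 (nat_lit 38097579241) (nat_lit 76) (nat_lit 13142939994) (nat_lit 76) (nat_lit 8660427887) (nat_lit 7) (nat_lit 4) (nat_lit 8) (nat_lit 5) (nat_lit 8) (nat_lit 4) (nat_lit 440) (nat_lit 248) (nat_lit 212)) (XT.lf (nat_lit 0) (nat_lit 47737426583) (nat_lit 76) (nat_lit 9190469348) (nat_lit 76) (nat_lit 4639179863) (nat_lit 7) (nat_lit 4) (nat_lit 8) (nat_lit 5) (nat_lit 8) (nat_lit 4) (nat_lit 441) (nat_lit 248) (nat_lit 211))) (XT.nd (nat_lit 78) (nat_lit 152) (nat_lit 0) (XT.lf (nat_lit 0) (nat_lit 57566296265) (nat_lit 76) (nat_lit 5168249461) (nat_lit 76) (nat_lit 550185823) (nat_lit 7) (nat_lit 4) (nat_lit 8) (nat_lit 5) (nat_lit 8) (nat_lit 4) (nat_lit 442) (nat_lit 248) (nat_lit 210)) (XT.lf (nat_lit 0) (nat_lit 2552466432) (nat_lit 76) (nat_lit 1011749993) (nat_lit 152) (nat_lit 61489421665) (nat_lit 5) (nat_lit 5) (nat_lit 6) (nat_lit 5) (nat_lit 7) (nat_lit 4) (nat_lit 443) (nat_lit 248) (nat_lit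 209))))))))
noncomputable def xc11 : XT := (XT.nd (nat_lit 45084) (nat_lit 0) (nat_lit 0) (XT.nd (nat_lit 43992) (nat_lit 0) (nat_lit 608) (XT.nd (nat_lit 468) (nat_lit 0) (nat_lit 0) (XT.nd (nat_lit 234) (nat_lit 0) (nat_lit 0) (XT.nd (nat_lit 78) (nat_lit 0) (nat_lit 0) (XT.lf (nat_lit 0) (nat_lit 7830463111) (nat_lit 152) (nat_lit 55820946391) (nat_lit 0) (nat_lit 3222857328) (nat_lit 5) (nat_lit 5) (nat_lit 7) (nat_lit 4) (nat_lit 5) (nat_lit 4) (nat_lit 444) (nat_lit 248) (nat_lit 208)) (XT.nd (nat_lit 78) (nat_lit 0) (nat_lit 0) (XT.lf (nat_lit 0) (nat_lit 12185904758) (nat_lit 152) (nat_lit 49045804908) (nat_lit 0) (nat_lit 7518971005) (nat_lit 5) (nat_lit 5) (nat_lit 7) (nat_lit 4) (nat_lit 5) (nat_lit 4) (nat_lit 445) (nat_lit 248) (nat_lit 207)) (XT.lf (nat_lit 0) (nat_lit 16624621533) (nat_lit 152) (nat_lit 42160101624) (nat_lit 0) (nat_lit 11900087809) (nat_lit 5) (nat_lit 5) (nat_lit 7) (nat_lit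 4) (nat_lit 5) (nat_lit 4) (nat_lit 446) (nat_lit 248) (nat_lit 206)))) (XT.nd (nat_lit 78) (nat_lit 0) (nat_lit 0) (XT.lf (nat_lit 0) (nat_lit 21150491926) (nat_lit 152) (nat_lit 35157819904) (nat_lit 0) (nat_lit 16370035901) (nat_lit 5) (nat_lit 5) (nat_lit 7) (nat_lit 4) (nat_lit 5) (nat_lit 4) (nat_lit 447) (nat_lit 248) (nat_lit 205)) (XT.nd (nat_lit 78) (nat_lit 0) (nat_lit 0) (XT.lf (nat_lit 0) (nat_lit 25767470581) (nat_lit 152) (nat_lit 28032841249) (nat_lit 0) (nat_lit 20932721059) (nat_lit 5) (nat_lit 5) (nat_lit 7) (nat_lit 4) (nat_lit 5) (nat_lit 4) (nat_lit 448) (nat_lit 248) (nat_lit 204)) (XT.lf (nat_lit 0) (nat_lit 30479591751) (nat_lit 152) (nat_lit 20778939952) (nat_lit 0) (nat_lit 25592130096) (nat_lit 5) (nat_lit 5) (nat_lit 7) (nat_lit 4) (nat_lit 5) (nat_lit 4) (nat_lit 449) (nat_lit 248) (nat_lit 203))))) (XT.nd (nat_lit 43212) (nat_lit 0) (nat_lit 1140) (XT.nd (nat_lit 78) (nat_lit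 0) (nat_lit 0) (XT.lf (nat_lit 0) (nat_lit 35290972825) (nat_lit 152) (nat_lit 13389777650) (nat_lit 0) (nat_lit 30352334342) (nat_lit 5) (nat_lit 5) (nat_lit 7) (nat_lit 4) (nat_lit 5) (nat_lit 4) (nat_lit 450) (nat_lit 248) (nat_lit 202)) (XT.nd (nat_lit 43056) (nat_lit 0) (nat_lit 1368) (XT.lf (nat_lit 0) (nat_lit 40205817920) (nat_lit 152) (nat_lit 5858897795) (nat_lit 0) (nat_lit 35217493196) (nat_lit 5) (nat_lit 5) (nat_lit 7) (nat_lit 4) (nat_lit 5) (nat_lit 4) (nat_lit 451) (nat_lit 248) (nat_lit 201)) (XT.lf (nat_lit 0) (nat_lit 4119917849) (nat_lit 152) (nat_lit 3306734145) (nat_lit 0) (nat_lit 4119917849) (nat_lit 23) (nat_lit 5) (nat_lit 25) (nat_lit 4) (nat_lit 23) (nat_lit 4) (nat_lit 402) (nat_lit 249) (nat_lit 249)))) (XT.nd (nat_lit 156) (nat_lit 152) (nat_lit 0) (XT.nd (nat_lit 78) (nat_lit 0) (nat_lit 0) (XT.lf (nat_lit 0) (nat_lit 4476651110) (nat_lit 76) (nat_lit 9684610788) (nat_lit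 76) (nat_lit 9446593200) (nat_lit 22) (nat_lit 4) (nat_lit 23) (nat_lit 5) (nat_lit 23) (nat_lit 4) (nat_lit 403) (nat_lit 249) (nat_lit 248)) (XT.lf (nat_lit 0) (nat_lit 15814304047) (nat_lit 76) (nat_lit 4397143328) (nat_lit 76) (nat_lit 3928040704) (nat_lit 22) (nat_lit 4) (nat_lit 23) (nat_lit 5) (nat_lit 23) (nat_lit 4) (nat_lit 404) (nat_lit 249) (nat_lit 247))) (XT.nd (nat_lit 78) (nat_lit 0) (nat_lit 0) (XT.lf (nat_lit 0) (nat_lit 1643102137) (nat_lit 152) (nat_lit 22075988639) (nat_lit 0) (nat_lit 969842886) (nat_lit 20) (nat_lit 5) (nat_lit 22) (nat_lit 4) (nat_lit 20) (nat_lit 4) (nat_lit 405) (nat_lit 249) (nat_lit 246)) (XT.lf (nat_lit 0) (nat_lit 7317706210) (nat_lit 152) (nat_lit 11502568732) (nat_lit 0) (nat_lit 6432971415) (nat_lit 20) (nat_lit 5) (nat_lit 22) (nat_lit 4) (nat_lit 20) (nat_lit 4) (nat_lit 406) (nat_lit 249) (nat_lit 245)))))) (XT.nd (nat_lit 546) (nat_lit 228) (nat_lit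 0) (XT.nd (nat_lit 234) (nat_lit 228) (nat_lit 0) (XT.nd (nat_lit 78) (nat_lit 76) (nat_lit 0) (XT.lf (nat_lit 0) (nat_lit 13052684533) (nat_lit 152) (nat_lit 822474676) (nat_lit 0) (nat_lit 11962633675) (nat_lit 20) (nat_lit 5) (nat_lit 22) (nat_lit 4) (nat_lit 20) (nat_lit 4) (nat_lit 407) (nat_lit 249) (nat_lit 244)) (XT.nd (nat_lit 78) (nat_lit 0) (nat_lit 0) (XT.lf (nat_lit 0) (nat_lit 10172120356) (nat_lit 76) (nat_lit 8778708537) (nat_lit 76) (nat_lit 7489321698) (nat_lit 19) (nat_lit 4) (nat_lit 20) (nat_lit 5) (nat_lit 20) (nat_lit 4) (nat_lit 408) (nat_lit 249) (nat_lit 243)) (XT.lf (nat_lit 0) (nat_lit 21311020501) (nat_lit 76) (nat_lit 3617699707) (nat_lit 76) (nat_lit 2134782787) (nat_lit 19) (nat_lit 4) (nat_lit 20) (nat_lit 5) (nat_lit 20) (nat_lit 4) (nat_lit 409) (nat_lit 249) (nat_lit 242)))) (XT.nd (nat_lit 156) (nat_lit 76) (nat_lit 0) (XT.nd (nat_lit 78) (nat_lit 0) (nat_lit 0) (XT.lf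 (nat_lit 0) (nat_lit 3274702767) (nat_lit 152) (nat_lit 22778520791) (nat_lit 0) (nat_lit 1652556940) (nat_lit 17) (nat_lit 5) (nat_lit 19) (nat_lit 4) (nat_lit 17) (nat_lit 4) (nat_lit 410) (nat_lit 249) (nat_lit 241)) (XT.lf (nat_lit 0) (nat_lit 8794813715) (nat_lit 152) (nat_lit 12576587995) (nat_lit 0) (nat_lit 6995560449) (nat_lit 17) (nat_lit 5) (nat_lit 19) (nat_lit 4) (nat_lit 17) (nat_lit 4) (nat_lit 411) (nat_lit 249) (nat_lit 240))) (XT.nd (nat_lit 78) (nat_lit 76) (nat_lit 0) (XT.lf (nat_lit 0) (nat_lit 14380299939) (nat_lit 152) (nat_lit 2261595616) (nat_lit 0) (nat_lit 12409097704) (nat_lit 17) (nat_lit 5) (nat_lit 19) (nat_lit 4) (nat_lit 17) (nat_lit 4) (nat_lit 412) (nat_lit 249) (nat_lit 239)) (XT.lf (nat_lit 0) (nat_lit 8338177320) (nat_lit 76) (nat_lit 11778016303) (nat_lit 76) (nat_lit 9639873321) (nat_lit 16) (nat_lit 4) (nat_lit 17) (nat_lit 5) (nat_lit 17) (nat_lit 4) (nat_lit 413)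 (nat_lit 249) (nat_lit 238))))) (XT.nd (nat_lit 234) (nat_lit 76) (nat_lit 0) (XT.nd (nat_lit 78) (nat_lit 152) (nat_lit 0) (XT.lf (nat_lit 0) (nat_lit 19116763880) (nat_lit 76) (nat_lit 6833979843) (nat_lit 76) (nat_lit 4533758465) (nat_lit 16) (nat_lit 4) (nat_lit 17) (nat_lit 5) (nat_lit 17) (nat_lit 4) (nat_lit 414) (nat_lit 249) (nat_lit 237)) (XT.nd (nat_lit 78) (nat_lit 76) (nat_lit 0) (XT.lf (nat_lit 0) (nat_lit 616995792) (nat_lit 152) (nat_lit 1205077583) (nat_lit 76) (nat_lit 29415345819) (nat_lit 15) (nat_lit 5) (nat_lit 17) (nat_lit 5) (nat_lit 16) (nat_lit 4) (nat_lit 415) (nat_lit 249) (nat_lit 236)) (XT.lf (nat_lit 0) (nat_lit 5860759535) (nat_lit 152) (nat_lit 22823499579) (nat_lit 0) (nat_lit 3326435773) (nat_lit 14) (nat_lit 5) (nat_lit 16) (nat_lit 4) (nat_lit 14) (nat_lit 4) (nat_lit 416) (nat_lit 249) (nat_lit 235)))) (XT.nd (nat_lit 156) (nat_lit 76) (nat_lit 0) (XT.nd (nat_lit 78)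 (nat_lit 0) (nat_lit 0) (XT.lf (nat_lit 0) (nat_lit 11200705156) (nat_lit 152) (nat_lit 13085926774) (nat_lit 0) (nat_lit 8522376839) (nat_lit 14) (nat_lit 5) (nat_lit 16) (nat_lit 4) (nat_lit 14) (nat_lit 4) (nat_lit 417) (nat_lit 249) (nat_lit 234)) (XT.lf (nat_lit 0) (nat_lit 16612052281) (nat_lit 152) (nat_lit 3227975786) (nat_lit 0) (nat_lit 13793913716) (nat_lit 14) (nat_lit 5) (nat_lit 16) (nat_lit 4) (nat_lit 14) (nat_lit 4) (nat_lit 418) (nat_lit 249) (nat_lit 233))) (XT.nd (nat_lit 78) (nat_lit 0) (nat_lit 0) (XT.lf (nat_lit 0) (nat_lit 6893483824) (nat_lit 76) (nat_lit 15272309830) (nat_lit 76) (nat_lit 12318433161) (nat_lit 13) (nat_lit 4) (nat_lit 14) (nat_lit 5) (nat_lit 14) (nat_lit 4) (nat_lit 419) (nat_lit 249) (nat_lit 232)) (XT.lf (nat_lit 0) (nat_lit 17219645730) (nat_lit 76) (nat_lit 10613811048) (nat_lit 76) (nat_lit 7528149812) (nat_lit 13) (nat_lit 4) (nat_lit 14) (nat_lit 5) (nat_lit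 14) (nat_lit 4) (nat_lit 420) (nat_lit 249) (nat_lit 231))))))) (XT.nd (nat_lit 1014) (nat_lit 228) (nat_lit 0) (XT.nd (nat_lit 468) (nat_lit 152) (nat_lit 0) (XT.nd (nat_lit 234) (nat_lit 76) (nat_lit 0) (XT.nd (nat_lit 78) (nat_lit 152) (nat_lit 0) (XT.lf (nat_lit 0) (nat_lit 27695289743) (nat_lit 76) (nat_lit 5893057416) (nat_lit 76) (nat_lit 2679449997) (nat_lit 13) (nat_lit 4) (nat_lit 14) (nat_lit 5) (nat_lit 14) (nat_lit 4) (nat_lit 421) (nat_lit 249) (nat_lit 230)) (XT.nd (nat_lit 78) (nat_lit 0) (nat_lit 0) (XT.lf (nat_lit 0) (nat_lit 1126506794) (nat_lit 76) (nat_lit 1072672420) (nat_lit 152) (nat_lit 35003442623) (nat_lit 11) (nat_lit 5) (nat_lit 12) (nat_lit 5) (nat_lit 13) (nat_lit 4) (nat_lit 422) (nat_lit 249) (nat_lit 229)) (XT.lf (nat_lit 0) (nat_lit 7214102411) (nat_lit 152) (nat_lit 27092879377) (nat_lit 0) (nat_lit 3856404779) (nat_lit 11) (nat_lit 5) (nat_lit 13) (nat_lit 4) (nat_lit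 11) (nat_lit 4) (nat_lit 423) (nat_lit 249) (nat_lit 228)))) (XT.nd (nat_lit 78) (nat_lit 76) (nat_lit 0) (XT.lf (nat_lit 0) (nat_lit 12311405858) (nat_lit 152) (nat_lit 18003585428) (nat_lit 0) (nat_lit 8840029701) (nat_lit 11) (nat_lit 5) (nat_lit 13) (nat_lit 4) (nat_lit 11) (nat_lit 4) (nat_lit 424) (nat_lit 249) (nat_lit 227)) (XT.nd (nat_lit 78) (nat_lit 76) (nat_lit 0) (XT.lf (nat_lit 0) (nat_lit 17485232328) (nat_lit 152) (nat_lit 8789979912) (nat_lit 0) (nat_lit 13903488670) (nat_lit 11) (nat_lit 5) (nat_lit 13) (nat_lit 4) (nat_lit 11) (nat_lit 4) (nat_lit 425) (nat_lit 249) (nat_lit 226)) (XT.lf (nat_lit 0) (nat_lit 567053143) (nat_lit 76) (nat_lit 22178500357) (nat_lit 76) (nat_lit 18489603787) (nat_lit 10) (nat_lit 4) (nat_lit 11) (nat_lit 5) (nat_lit 11) (nat_lit 4) (nat_lit 426) (nat_lit 249) (nat_lit 225))))) (XT.nd (nat_lit 234) (nat_lit 152) (nat_lit 0) (XT.nd (nat_lit 78) (nat_lit 0)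 (nat_lit 0) (XT.lf (nat_lit 0) (nat_lit 10242349500) (nat_lit 76) (nat_lit 17936714655) (nat_lit 76) (nat_lit 14143786130) (nat_lit 10) (nat_lit 4) (nat_lit 11) (nat_lit 5) (nat_lit 11) (nat_lit 4) (nat_lit 427) (nat_lit 249) (nat_lit 224)) (XT.nd (nat_lit 78) (nat_lit 0) (nat_lit 0) (XT.lf (nat_lit 0) (nat_lit 20069425465) (nat_lit 76) (nat_lit 13634910279) (nat_lit 76) (nat_lit 9740979857) (nat_lit 10) (nat_lit 4) (nat_lit 11) (nat_lit 5) (nat_lit 11) (nat_lit 4) (nat_lit 428) (nat_lit 249) (nat_lit 223)) (XT.lf (nat_lit 0) (nat_lit 30056867805) (nat_lit 76) (nat_lit 9269328373) (nat_lit 76) (nat_lit 5277337855) (nat_lit 10) (nat_lit 4) (nat_lit 11) (nat_lit 5) (nat_lit 11) (nat_lit 4) (nat_lit 429) (nat_lit 249) (nat_lit 222)))) (XT.nd (nat_lit 156) (nat_lit 0) (nat_lit 0) (XT.nd (nat_lit 78) (nat_lit 152) (nat_lit 0) (XT.lf (nat_lit 0) (nat_lit 40213403409) (nat_lit 76) (nat_lit 4836154349) (nat_lit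 76) (nat_lit 748959856) (nat_lit 10) (nat_lit 4) (nat_lit 11) (nat_lit 5) (nat_lit 11) (nat_lit 4) (nat_lit 430) (nat_lit 249) (nat_lit 221)) (XT.lf (nat_lit 0) (nat_lit 3548857000) (nat_lit 76) (nat_lit 258277254) (nat_lit 152) (nat_lit 43222043127) (nat_lit 8) (nat_lit 5) (nat_lit 9) (nat_lit 5) (nat_lit 10) (nat_lit 4) (nat_lit 431) (nat_lit 249) (nat_lit 220))) (XT.nd (nat_lit 78) (nat_lit 0) (nat_lit 0) (XT.lf (nat_lit 0) (nat_lit 8518916381) (nat_lit 152) (nat_lit 35402697575) (nat_lit 0) (nat_lit 4373902386) (nat_lit 8) (nat_lit 5) (nat_lit 10) (nat_lit 4) (nat_lit 8) (nat_lit 4) (nat_lit 432) (nat_lit 249) (nat_lit 219)) (XT.lf (nat_lit 0) (nat_lit 13310782610) (nat_lit 152) (nat_lit 27209723344) (nat_lit 0) (nat_lit 9081181116) (nat_lit 8) (nat_lit 5) (nat_lit 10) (nat_lit 4) (nat_lit 8) (nat_lit 4) (nat_lit 433) (nat_lit 249) (nat_lit 218)))))) (XT.nd (nat_lit 546) (nat_lit 152) (nat_lit 0) (XT.nd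 (nat_lit 234) (nat_lit 76) (nat_lit 0) (XT.nd (nat_lit 78) (nat_lit 0) (nat_lit 0) (XT.lf (nat_lit 0) (nat_lit 18184437289) (nat_lit 152) (nat_lit 18891756058) (nat_lit 0) (nat_lit 13872712010) (nat_lit 8) (nat_lit 5) (nat_lit 10) (nat_lit 4) (nat_lit 8) (nat_lit 4) (nat_lit 434) (nat_lit 249) (nat_lit 217)) (XT.nd (nat_lit 78) (nat_lit 0) (nat_lit 0) (XT.lf (nat_lit 0) (nat_lit 23144138953) (nat_lit 152) (nat_lit 10441527591) (nat_lit 0) (nat_lit 18752681844) (nat_lit 8) (nat_lit 5) (nat_lit 10) (nat_lit 4) (nat_lit 8) (nat_lit 4) (nat_lit 435) (nat_lit 249) (nat_lit 216)) (XT.lf (nat_lit 0) (nat_lit 28194221322) (nat_lit 152) (nat_lit 1851654249) (nat_lit 0) (nat_lit 23725354668) (nat_lit 8) (nat_lit 5) (nat_lit 10) (nat_lit 4) (nat_lit 8) (nat_lit 4) (nat_lit 436) (nat_lit 249) (nat_lit 215)))) (XT.nd (nat_lit 156) (nat_lit 0) (nat_lit 0) (XT.nd (nat_lit 78) (nat_lit 0) (nat_lit 0) (XT.lf (nat_lit 0)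 (nat_lit 7022402040) (nat_lit 76) (nat_lit 26384198671) (nat_lit 76) (nat_lit 21840177120) (nat_lit 7) (nat_lit 4) (nat_lit 8) (nat_lit 5) (nat_lit 8) (nat_lit 4) (nat_lit 437) (nat_lit 249) (nat_lit 214)) (XT.lf (nat_lit 0) (nat_lit 16091175286) (nat_lit 76) (nat_lit 22646764707) (nat_lit 76) (nat_lit 18029777236) (nat_lit 7) (nat_lit 4) (nat_lit 8) (nat_lit 5) (nat_lit 8) (nat_lit 4) (nat_lit 438) (nat_lit 249) (nat_lit 213))) (XT.nd (nat_lit 78) (nat_lit 0) (nat_lit 0) (XT.lf (nat_lit 0) (nat_lit 25325738109) (nat_lit 76) (nat_lit 18849006037) (nat_lit 76) (nat_lit 14161177867) (nat_lit 7) (nat_lit 4) (nat_lit 8) (nat_lit 5) (nat_lit 8) (nat_lit 4) (nat_lit 439) (nat_lit 249) (nat_lit 212)) (XT.lf (nat_lit 0) (nat_lit 34734159543) (nat_lit 76) (nat_lit 14987604231) (nat_lit 76) (nat_lit 10230998684) (nat_lit 7) (nat_lit 4) (nat_lit 8) (nat_lit 5) (nat_lit 8) (nat_lit 4) (nat_lit 440) (nat_lit 249) (nat_lit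 211))))) (XT.nd (nat_lit 234) (nat_lit 76) (nat_lit 0) (XT.nd (nat_lit 78) (nat_lit 76) (nat_lit 0) (XT.lf (nat_lit 0) (nat_lit 44324660541) (nat_lit 76) (nat_lit 11059185249) (nat_lit 76) (nat_lit 6235805549) (nat_lit 7) (nat_lit 4) (nat_lit 8) (nat_lit 5) (nat_lit 8) (nat_lit 4) (nat_lit 441) (nat_lit 249) (nat_lit 210)) (XT.nd (nat_lit 78) (nat_lit 76) (nat_lit 0) (XT.lf (nat_lit 0) (nat_lit 54105621150) (nat_lit 76) (nat_lit 7060316492) (nat_lit 76) (nat_lit 2172107517) (nat_lit 7) (nat_lit 4) (nat_lit 8) (nat_lit 5) (nat_lit 8) (nat_lit 4) (nat_lit 442) (nat_lit 249) (nat_lit 209)) (XT.lf (nat_lit 0) (nat_lit 1925328405) (nat_lit 152) (nat_lit 1042733355) (nat_lit 76) (nat_lit 62140817395) (nat_lit 6) (nat_lit 5) (nat_lit 8) (nat_lit 5) (nat_lit 7) (nat_lit 4) (nat_lit 443) (nat_lit 249) (nat_lit 208)))) (XT.nd (nat_lit 156) (nat_lit 0) (nat_lit 0) (XT.nd (nat_lit 78) (nat_lit 0) (nat_lit 0) (XT.lf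 (nat_lit 0) (nat_lit 6138401512) (nat_lit 152) (nat_lit 59520571027) (nat_lit 0) (nat_lit 1272131777) (nat_lit 5) (nat_lit 5) (nat_lit 7) (nat_lit 4) (nat_lit 5) (nat_lit 4) (nat_lit 444) (nat_lit 249) (nat_lit 207)) (XT.lf (nat_lit 0) (nat_lit 10470499257) (nat_lit 152) (nat_lit 52791090846) (nat_lit 0) (nat_lit 5546629551) (nat_lit 5) (nat_lit 5) (nat_lit 7) (nat_lit 4) (nat_lit 5) (nat_lit 4) (nat_lit 445) (nat_lit 249) (nat_lit 206))) (XT.nd (nat_lit 78) (nat_lit 0) (nat_lit 0) (XT.lf (nat_lit 0) (nat_lit 14886552049) (nat_lit 152) (nat_lit 45949718922) (nat_lit 0) (nat_lit 9906760041) (nat_lit 5) (nat_lit 5) (nat_lit 7) (nat_lit 4) (nat_lit 5) (nat_lit 4) (nat_lit 446) (nat_lit 249) (nat_lit 205)) (XT.lf (nat_lit 0) (nat_lit 19390418575) (nat_lit 152) (nat_lit 38990477359) (nat_lit 0) (nat_lit 14356333071) (nat_lit 5) (nat_lit 5) (nat_lit 7) (nat_lit 4) (nat_lit 5) (nat_lit 4) (nat_lit 447) (nat_lit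 249) (nat_lit 204))))))))
noncomputable def xc12 : XT := (XT.nd (nat_lit 44928) (nat_lit 0) (nat_lit 0) (XT.nd (nat_lit 43836) (nat_lit 0) (nat_lit 532) (XT.nd (nat_lit 43290) (nat_lit 0) (nat_lit 1064) (XT.nd (nat_lit 234) (nat_lit 0) (nat_lit 0) (XT.nd (nat_lit 78) (nat_lit 0) (nat_lit 0) (XT.lf (nat_lit 0) (nat_lit 23986034253) (nat_lit 152) (nat_lit 31907285264) (nat_lit 0) (nat_lit 18899236615) (nat_lit 5) (nat_lit 5) (nat_lit 7) (nat_lit 4) (nat_lit 5) (nat_lit 4) (nat_lit 448) (nat_lit 249) (nat_lit 203)) (XT.nd (nat_lit 78) (nat_lit 0) (nat_lit 0) (XT.lf (nat_lit 0) (nat_lit 28677414669) (nat_lit 152) (nat_lit 24693953442) (nat_lit 0) (nat_lit 23539440203) (nat_lit 5) (nat_lit 5) (nat_lit 7) (nat_lit 4) (nat_lit 5) (nat_lit 4) (nat_lit 449) (nat_lit 249) (nat_lit 202)) (XT.lf (nat_lit 0) (nat_lit 33468659087) (nat_lit 152) (nat_lit 17344178980) (nat_lit 0) (nat_lit 28280998380) (nat_lit 5) (nat_lit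 5) (nat_lit 7) (nat_lit 4) (nat_lit 5) (nat_lit 4) (nat_lit 450) (nat_lit 249) (nat_lit 201)))) (XT.nd (nat_lit 42900) (nat_lit 0) (nat_lit 1368) (XT.lf (nat_lit 0) (nat_lit 38363954031) (nat_lit 152) (nat_lit 9851539747) (nat_lit 0) (nat_lit 33128054256) (nat_lit 5) (nat_lit 5) (nat_lit 7) (nat_lit 4) (nat_lit 5) (nat_lit 4) (nat_lit 451) (nat_lit 249) (nat_lit 200)) (XT.nd (nat_lit 78) (nat_lit 152) (nat_lit 0) (XT.lf (nat_lit 0) (nat_lit 8040676529) (nat_lit 76) (nat_lit 1507340010) (nat_lit 76) (nat_lit 1507340010) (nat_lit 25) (nat_lit 4) (nat_lit 26) (nat_lit 5) (nat_lit 26) (nat_lit 4) (nat_lit 400) (nat_lit 250) (nat_lit 250)) (XT.lf (nat_lit 0) (nat_lit 2664270596) (nat_lit 152) (nat_lit 17512195493) (nat_lit 0) (nat_lit 2419112480) (nat_lit 23) (nat_lit 5) (nat_lit 25) (nat_lit 4) (nat_lit 23) (nat_lit 4) (nat_lit 401) (nat_lit 250) (nat_lit 249))))) (XT.nd (nat_lit 234) (nat_lit 228) (nat_lit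 0) (XT.nd (nat_lit 78) (nat_lit 76) (nat_lit 0) (XT.lf (nat_lit 0) (nat_lit 8427382472) (nat_lit 152) (nat_lit 6723283662) (nat_lit 0) (nat_lit 7944206769) (nat_lit 23) (nat_lit 5) (nat_lit 25) (nat_lit 4) (nat_lit 23) (nat_lit 4) (nat_lit 402) (nat_lit 250) (nat_lit 248)) (XT.nd (nat_lit 78) (nat_lit 0) (nat_lit 0) (XT.lf (nat_lit 0) (nat_lit 4255911447) (nat_lit 76) (nat_lit 10034841996) (nat_lit 76) (nat_lit 9320581256) (nat_lit 22) (nat_lit 4) (nat_lit 23) (nat_lit 5) (nat_lit 23) (nat_lit 4) (nat_lit 403) (nat_lit 250) (nat_lit 247)) (XT.lf (nat_lit 0) (nat_lit 15487992783) (nat_lit 76) (nat_lit 4797627104) (nat_lit 76) (nat_lit 3859011959) (nat_lit 22) (nat_lit 4) (nat_lit 23) (nat_lit 5) (nat_lit 23) (nat_lit 4) (nat_lit 404) (nat_lit 250) (nat_lit 246)))) (XT.nd (nat_lit 156) (nat_lit 76) (nat_lit 0) (XT.nd (nat_lit 78) (nat_lit 0) (nat_lit 0) (XT.lf (nat_lit 0) (nat_lit 1647908715) (nat_lit 152)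 (nat_lit 22522883060) (nat_lit 0) (nat_lit 525156333) (nat_lit 20) (nat_lit 5) (nat_lit 22) (nat_lit 4) (nat_lit 20) (nat_lit 4) (nat_lit 405) (nat_lit 250) (nat_lit 245)) (XT.lf (nat_lit 0) (nat_lit 7268392654) (nat_lit 152) (nat_lit 12053171748) (nat_lit 0) (nat_lit 5940324209) (nat_lit 20) (nat_lit 5) (nat_lit 22) (nat_lit 4) (nat_lit 20) (nat_lit 4) (nat_lit 406) (nat_lit 250) (nat_lit 244))) (XT.nd (nat_lit 78) (nat_lit 76) (nat_lit 0) (XT.lf (nat_lit 0) (nat_lit 12950827157) (nat_lit 152) (nat_lit 1473765648) (nat_lit 0) (nat_lit 11423422729) (nat_lit 20) (nat_lit 5) (nat_lit 22) (nat_lit 4) (nat_lit 20) (nat_lit 4) (nat_lit 407) (nat_lit 250) (nat_lit 243)) (XT.lf (nat_lit 0) (nat_lit 9408166597) (nat_lit 76) (nat_lit 9382447912) (nat_lit 76) (nat_lit 7661513405) (nat_lit 19) (nat_lit 4) (nat_lit 20) (nat_lit 5) (nat_lit 20) (nat_lit 4) (nat_lit 408) (nat_lit 250) (nat_lit 242)))))) (XT.nd (nat_lit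 546) (nat_lit 228) (nat_lit 0) (XT.nd (nat_lit 234) (nat_lit 152) (nat_lit 0) (XT.nd (nat_lit 78) (nat_lit 152) (nat_lit 0) (XT.lf (nat_lit 0) (nat_lit 20450269830) (nat_lit 76) (nat_lit 4267777933) (nat_lit 76) (nat_lit 2358950144) (nat_lit 19) (nat_lit 4) (nat_lit 20) (nat_lit 5) (nat_lit 20) (nat_lit 4) (nat_lit 409) (nat_lit 250) (nat_lit 241)) (XT.nd (nat_lit 78) (nat_lit 0) (nat_lit 0) (XT.lf (nat_lit 0) (nat_lit 2989150249) (nat_lit 152) (nat_lit 23773354270) (nat_lit 0) (nat_lit 958811947) (nat_lit 17) (nat_lit 5) (nat_lit 19) (nat_lit 4) (nat_lit 17) (nat_lit 4) (nat_lit 410) (nat_lit 250) (nat_lit 240)) (XT.lf (nat_lit 0) (nat_lit 8459887772) (nat_lit 152) (nat_lit 13666494578) (nat_lit 0) (nat_lit 6257600500) (nat_lit 17) (nat_lit 5) (nat_lit 19) (nat_lit 4) (nat_lit 17) (nat_lit 4) (nat_lit 411) (nat_lit 250) (nat_lit 239)))) (XT.nd (nat_lit 156) (nat_lit 76) (nat_lit 0) (XT.nd (nat_lit 78)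 (nat_lit 76) (nat_lit 0) (XT.lf (nat_lit 0) (nat_lit 13997438633) (nat_lit 152) (nat_lit 3443806182) (nat_lit 0) (nat_lit 11628210614) (nat_lit 17) (nat_lit 5) (nat_lit 19) (nat_lit 4) (nat_lit 17) (nat_lit 4) (nat_lit 412) (nat_lit 250) (nat_lit 238)) (XT.lf (nat_lit 0) (nat_lit 7041039402) (nat_lit 76) (nat_lit 12633284843) (nat_lit 76) (nat_lit 10101978429) (nat_lit 16) (nat_lit 4) (nat_lit 17) (nat_lit 5) (nat_lit 17) (nat_lit 4) (nat_lit 413) (nat_lit 250) (nat_lit 237))) (XT.nd (nat_lit 78) (nat_lit 76) (nat_lit 0) (XT.lf (nat_lit 0) (nat_lit 17730889028) (nat_lit 76) (nat_lit 7731948646) (nat_lit 76) (nat_lit 5043284567) (nat_lit 16) (nat_lit 4) (nat_lit 17) (nat_lit 5) (nat_lit 17) (nat_lit 4) (nat_lit 414) (nat_lit 250) (nat_lit 236)) (XT.lf (nat_lit 0) (nat_lit 72270983) (nat_lit 152) (nat_lit 2694728415) (nat_lit 76) (nat_lit 28493544065) (nat_lit 15) (nat_lit 5) (nat_lit 17) (nat_lit 5) (nat_lit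 16) (nat_lit 4) (nat_lit 415) (nat_lit 250) (nat_lit 235))))) (XT.nd (nat_lit 234) (nat_lit 152) (nat_lit 0) (XT.nd (nat_lit 78) (nat_lit 0) (nat_lit 0) (XT.lf (nat_lit 0) (nat_lit 5247147934) (nat_lit 152) (nat_lit 24444275561) (nat_lit 0) (nat_lit 2344465213) (nat_lit 14) (nat_lit 5) (nat_lit 16) (nat_lit 4) (nat_lit 14) (nat_lit 4) (nat_lit 416) (nat_lit 250) (nat_lit 234)) (XT.nd (nat_lit 78) (nat_lit 0) (nat_lit 0) (XT.lf (nat_lit 0) (nat_lit 10543351257) (nat_lit 152) (nat_lit 14791308176) (nat_lit 0) (nat_lit 7500858288) (nat_lit 14) (nat_lit 5) (nat_lit 16) (nat_lit 4) (nat_lit 14) (nat_lit 4) (nat_lit 417) (nat_lit 250) (nat_lit 233)) (XT.lf (nat_lit 0) (nat_lit 15912230132) (nat_lit 152) (nat_lit 5015498373) (nat_lit 0) (nat_lit 12733999058) (nat_lit 14) (nat_lit 5) (nat_lit 16) (nat_lit 4) (nat_lit 14) (nat_lit 4) (nat_lit 418) (nat_lit 250) (nat_lit 232)))) (XT.nd (nat_lit 156) (nat_lit 76)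 (nat_lit 0) (XT.nd (nat_lit 78) (nat_lit 0) (nat_lit 0) (XT.lf (nat_lit 0) (nat_lit 4989050155) (nat_lit 76) (nat_lit 16417383458) (nat_lit 76) (nat_lit 13107367817) (nat_lit 13) (nat_lit 4) (nat_lit 14) (nat_lit 5) (nat_lit 14) (nat_lit 4) (nat_lit 419) (nat_lit 250) (nat_lit 231)) (XT.lf (nat_lit 0) (nat_lit 15236245189) (nat_lit 76) (nat_lit 11797062071) (nat_lit 76) (nat_lit 8359100248) (nat_lit 13) (nat_lit 4) (nat_lit 14) (nat_lit 5) (nat_lit 14) (nat_lit 4) (nat_lit 420) (nat_lit 250) (nat_lit 230))) (XT.nd (nat_lit 78) (nat_lit 76) (nat_lit 0) (XT.lf (nat_lit 0) (nat_lit 25635222335) (nat_lit 76) (nat_lit 7113373872) (nat_lit 76) (nat_lit 3551192455) (nat_lit 13) (nat_lit 4) (nat_lit 14) (nat_lit 5) (nat_lit 14) (nat_lit 4) (nat_lit 421) (nat_lit 250) (nat_lit 229)) (XT.lf (nat_lit 0) (nat_lit 1294787832) (nat_lit 152) (nat_lit 1054363664) (nat_lit 76) (nat_lit 34887205428) (nat_lit 12) (nat_lit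 5) (nat_lit 14) (nat_lit 5) (nat_lit 13) (nat_lit 4) (nat_lit 422) (nat_lit 250) (nat_lit 228))))))) (XT.nd (nat_lit 1014) (nat_lit 228) (nat_lit 0) (XT.nd (nat_lit 468) (nat_lit 152) (nat_lit 0) (XT.nd (nat_lit 234) (nat_lit 76) (nat_lit 0) (XT.nd (nat_lit 78) (nat_lit 0) (nat_lit 0) (XT.lf (nat_lit 0) (nat_lit 6248238942) (nat_lit 152) (nat_lit 29391686226) (nat_lit 0) (nat_lit 2559042975) (nat_lit 11) (nat_lit 5) (nat_lit 13) (nat_lit 4) (nat_lit 11) (nat_lit 4) (nat_lit 423) (nat_lit 250) (nat_lit 227)) (XT.nd (nat_lit 78) (nat_lit 0) (nat_lit 0) (XT.lf (nat_lit 0) (nat_lit 11307908852) (nat_lit 152) (nat_lit 20375479593) (nat_lit 0) (nat_lit 7508345385) (nat_lit 11) (nat_lit 5) (nat_lit 13) (nat_lit 4) (nat_lit 11) (nat_lit 4) (nat_lit 424) (nat_lit 250) (nat_lit 226)) (XT.lf (nat_lit 0) (nat_lit 16445197907) (nat_lit 152) (nat_lit 11232832637) (nat_lit 0) (nat_lit 12538481526) (nat_lit 11) (nat_lit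 5) (nat_lit 13) (nat_lit 4) (nat_lit 11) (nat_lit 4) (nat_lit 425) (nat_lit 250) (nat_lit 225)))) (XT.nd (nat_lit 78) (nat_lit 76) (nat_lit 0) (XT.lf (nat_lit 0) (nat_lit 21664594999) (nat_lit 152) (nat_lit 1955756635) (nat_lit 0) (nat_lit 17653846664) (nat_lit 11) (nat_lit 5) (nat_lit 13) (nat_lit 4) (nat_lit 11) (nat_lit 4) (nat_lit 426) (nat_lit 250) (nat_lit 224)) (XT.nd (nat_lit 78) (nat_lit 0) (nat_lit 0) (XT.lf (nat_lit 0) (nat_lit 7612399934) (nat_lit 76) (nat_lit 19431435879) (nat_lit 76) (nat_lit 15319685647) (nat_lit 10) (nat_lit 4) (nat_lit 11) (nat_lit 5) (nat_lit 11) (nat_lit 4) (nat_lit 427) (nat_lit 250) (nat_lit 223)) (XT.lf (nat_lit 0) (nat_lit 17373246389) (nat_lit 76) (nat_lit 15161787465) (nat_lit 76) (nat_lit 10951977137) (nat_lit 10) (nat_lit 4) (nat_lit 11) (nat_lit 5) (nat_lit 11) (nat_lit 4) (nat_lit 428) (nat_lit 250) (nat_lit 222))))) (XT.nd (nat_lit 234) (nat_lit 0) (nat_lit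 0) (XT.nd (nat_lit 78) (nat_lit 152) (nat_lit 0) (XT.lf (nat_lit 0) (nat_lit 27296388234) (nat_lit 76) (nat_lit 10827424937) (nat_lit 76) (nat_lit 6522410635) (nat_lit 10) (nat_lit 4) (nat_lit 11) (nat_lit 5) (nat_lit 11) (nat_lit 4) (nat_lit 429) (nat_lit 250) (nat_lit 221)) (XT.nd (nat_lit 78) (nat_lit 152) (nat_lit 0) (XT.lf (nat_lit 0) (nat_lit 37390496173) (nat_lit 76) (nat_lit 6424560990) (nat_lit 76) (nat_lit 2027115644) (nat_lit 10) (nat_lit 4) (nat_lit 11) (nat_lit 5) (nat_lit 11) (nat_lit 4) (nat_lit 430) (nat_lit 250) (nat_lit 220)) (XT.lf (nat_lit 0) (nat_lit 575318609) (nat_lit 76) (nat_lit 1918525151) (nat_lit 152) (nat_lit 44581161474) (nat_lit 8) (nat_lit 5) (nat_lit 9) (nat_lit 5) (nat_lit 10) (nat_lit 4) (nat_lit 431) (nat_lit 250) (nat_lit 219)))) (XT.nd (nat_lit 156) (nat_lit 0) (nat_lit 0) (XT.nd (nat_lit 78) (nat_lit 0) (nat_lit 0) (XT.lf (nat_lit 0) (nat_lit 7158224912) (nat_lit 152)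 (nat_lit 38467395170) (nat_lit 0) (nat_lit 2717147875) (nat_lit 8) (nat_lit 5) (nat_lit 10) (nat_lit 4) (nat_lit 8) (nat_lit 4) (nat_lit 432) (nat_lit 250) (nat_lit 218)) (XT.lf (nat_lit 0) (nat_lit 11919565261) (nat_lit 152) (nat_lit 30333926442) (nat_lit 0) (nat_lit 7396364438) (nat_lit 8) (nat_lit 5) (nat_lit 10) (nat_lit 4) (nat_lit 8) (nat_lit 4) (nat_lit 433) (nat_lit 250) (nat_lit 217))) (XT.nd (nat_lit 78) (nat_lit 0) (nat_lit 0) (XT.lf (nat_lit 0) (nat_lit 16763583164) (nat_lit 152) (nat_lit 22073731490) (nat_lit 0) (nat_lit 12160650511) (nat_lit 8) (nat_lit 5) (nat_lit 10) (nat_lit 4) (nat_lit 8) (nat_lit 4) (nat_lit 434) (nat_lit 250) (nat_lit 216)) (XT.lf (nat_lit 0) (nat_lit 21694511259) (nat_lit 152) (nat_lit 13679592668) (nat_lit 0) (nat_lit 17014169061) (nat_lit 8) (nat_lit 5) (nat_lit 10) (nat_lit 4) (nat_lit 8) (nat_lit 4) (nat_lit 435) (nat_lit 250) (nat_lit 215)))))) (XT.nd (nat_lit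 546) (nat_lit 152) (nat_lit 0) (XT.nd (nat_lit 234) (nat_lit 0) (nat_lit 0) (XT.nd (nat_lit 78) (nat_lit 76) (nat_lit 0) (XT.lf (nat_lit 0) (nat_lit 26716658123) (nat_lit 152) (nat_lit 5144175291) (nat_lit 0) (nat_lit 21961161028) (nat_lit 8) (nat_lit 5) (nat_lit 10) (nat_lit 4) (nat_lit 8) (nat_lit 4) (nat_lit 436) (nat_lit 250) (nat_lit 214)) (XT.nd (nat_lit 78) (nat_lit 0) (nat_lit 0) (XT.lf (nat_lit 0) (nat_lit 3610431290) (nat_lit 76) (nat_lit 28258686424) (nat_lit 76) (nat_lit 23430223409) (nat_lit 7) (nat_lit 4) (nat_lit 8) (nat_lit 5) (nat_lit 8) (nat_lit 4) (nat_lit 437) (nat_lit 250) (nat_lit 213)) (XT.lf (nat_lit 0) (nat_lit 12626852998) (nat_lit 76) (nat_lit 24546768870) (nat_lit 76) (nat_lit 19647465157) (nat_lit 7) (nat_lit 4) (nat_lit 8) (nat_lit 5) (nat_lit 8) (nat_lit 4) (nat_lit 438) (nat_lit 250) (nat_lit 212)))) (XT.nd (nat_lit 156) (nat_lit 0) (nat_lit 0) (XT.nd (nat_lit 78) (nat_lit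 0) (nat_lit 0) (XT.lf (nat_lit 0) (nat_lit 21810589085) (nat_lit 76) (nat_lit 20773783414) (nat_lit 76) (nat_lit 15805702323) (nat_lit 7) (nat_lit 4) (nat_lit 8) (nat_lit 5) (nat_lit 8) (nat_lit 4) (nat_lit 439) (nat_lit 250) (nat_lit 211)) (XT.lf (nat_lit 0) (nat_lit 31169664175) (nat_lit 76) (nat_lit 16936433273) (nat_lit 76) (nat_lit 11901578029) (nat_lit 7) (nat_lit 4) (nat_lit 8) (nat_lit 5) (nat_lit 8) (nat_lit 4) (nat_lit 440) (nat_lit 250) (nat_lit 210))) (XT.nd (nat_lit 78) (nat_lit 0) (nat_lit 0) (XT.lf (nat_lit 0) (nat_lit 40712256099) (nat_lit 76) (nat_lit 13031365421) (nat_lit 76) (nat_lit 7931680902) (nat_lit 7) (nat_lit 4) (nat_lit 8) (nat_lit 5) (nat_lit 8) (nat_lit 4) (nat_lit 441) (nat_lit 250) (nat_lit 209)) (XT.lf (nat_lit 0) (nat_lit 50446703046) (nat_lit 76) (nat_lit 9055167663) (nat_lit 76) (nat_lit 3892542102) (nat_lit 7) (nat_lit 4) (nat_lit 8) (nat_lit 5) (nat_lit 8) (nat_lit 4)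 (nat_lit 442) (nat_lit 250) (nat_lit 208))))) (XT.nd (nat_lit 234) (nat_lit 0) (nat_lit 0) (XT.nd (nat_lit 78) (nat_lit 76) (nat_lit 0) (XT.lf (nat_lit 0) (nat_lit 215087062) (nat_lit 152) (nat_lit 4787106633) (nat_lit 76) (nat_lit 60164251822) (nat_lit 6) (nat_lit 5) (nat_lit 8) (nat_lit 5) (nat_lit 7) (nat_lit 4) (nat_lit 443) (nat_lit 250) (nat_lit 207)) (XT.nd (nat_lit 78) (nat_lit 0) (nat_lit 0) (XT.lf (nat_lit 0) (nat_lit 3559307595) (nat_lit 76) (nat_lit 796539171) (nat_lit 152) (nat_lit 62634994495) (nat_lit 5) (nat_lit 5) (nat_lit 6) (nat_lit 5) (nat_lit 7) (nat_lit 4) (nat_lit 444) (nat_lit 250) (nat_lit 206)) (XT.lf (nat_lit 0) (nat_lit 8657623706) (nat_lit 152) (nat_lit 56738728024) (nat_lit 0) (nat_lit 3472515637) (nat_lit 5) (nat_lit 5) (nat_lit 7) (nat_lit 4) (nat_lit 5) (nat_lit 4) (nat_lit 445) (nat_lit 250) (nat_lit 205)))) (XT.nd (nat_lit 156) (nat_lit 0) (nat_lit 0) (XT.nd (nat_lit 78)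 (nat_lit 0) (nat_lit 0) (XT.lf (nat_lit 0) (nat_lit 13051672631) (nat_lit 152) (nat_lit 49940396258) (nat_lit 0) (nat_lit 7812271065) (nat_lit 5) (nat_lit 5) (nat_lit 7) (nat_lit 4) (nat_lit 5) (nat_lit 4) (nat_lit 446) (nat_lit 250) (nat_lit 204)) (XT.lf (nat_lit 0) (nat_lit 17534176180) (nat_lit 152) (nat_lit 43022941254) (nat_lit 0) (nat_lit 12242062481) (nat_lit 5) (nat_lit 5) (nat_lit 7) (nat_lit 4) (nat_lit 5) (nat_lit 4) (nat_lit 447) (nat_lit 250) (nat_lit 203))) (XT.nd (nat_lit 78) (nat_lit 0) (nat_lit 0) (XT.lf (nat_lit 0) (nat_lit 22109051103) (nat_lit 152) (nat_lit 35980318634) (nat_lit 0) (nat_lit 16765760575) (nat_lit 5) (nat_lit 5) (nat_lit 7) (nat_lit 4) (nat_lit 5) (nat_lit 4) (nat_lit 448) (nat_lit 250) (nat_lit 202)) (XT.lf (nat_lit 0) (nat_lit 26780294863) (nat_lit 152) (nat_lit 28806374652) (nat_lit 0) (nat_lit 21387318095) (nat_lit 5) (nat_lit 5) (nat_lit 7) (nat_lit 4) (nat_lit 5)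 (nat_lit 4) (nat_lit 449) (nat_lit 250) (nat_lit 201))))))))
noncomputable def xc13 : XT := (XT.nd (nat_lit 44772) (nat_lit 0) (nat_lit 0) (XT.nd (nat_lit 43680) (nat_lit 0) (nat_lit 532) (XT.nd (nat_lit 43134) (nat_lit 0) (nat_lit 1064) (XT.nd (nat_lit 42900) (nat_lit 0) (nat_lit 1368) (XT.nd (nat_lit 78) (nat_lit 0) (nat_lit 0) (XT.lf (nat_lit 0) (nat_lit 31551989131) (nat_lit 152) (nat_lit 21494840812) (nat_lit 0) (nat_lit 26110773294) (nat_lit 5) (nat_lit 5) (nat_lit 7) (nat_lit 4) (nat_lit 5) (nat_lit 4) (nat_lit 450) (nat_lit 250) (nat_lit 200)) (XT.nd (nat_lit 42744) (nat_lit 0) (nat_lit 1596) (XT.lf (nat_lit 0) (nat_lit 36428303347) (nat_lit 152) (nat_lit 14039328395) (nat_lit 0) (nat_lit 30940253462) (nat_lit 5) (nat_lit 5) (nat_lit 7) (nat_lit 4) (nat_lit 5) (nat_lit 4) (nat_lit 451) (nat_lit 250) (nat_lit 199)) (XT.lf (nat_lit 0) (nat_lit 3690258013) (nat_lit 152) (nat_lit 3211391306) (nat_lit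 0) (nat_lit 3690258013) (nat_lit 26) (nat_lit 5) (nat_lit 28) (nat_lit 4) (nat_lit 26) (nat_lit 4) (nat_lit 398) (nat_lit 251) (nat_lit 251)))) (XT.nd (nat_lit 78) (nat_lit 152) (nat_lit 0) (XT.lf (nat_lit 0) (nat_lit 4653199074) (nat_lit 76) (nat_lit 8623694741) (nat_lit 76) (nat_lit 8363606496) (nat_lit 25) (nat_lit 4) (nat_lit 26) (nat_lit 5) (nat_lit 26) (nat_lit 4) (nat_lit 399) (nat_lit 251) (nat_lit 250)) (XT.nd (nat_lit 78) (nat_lit 152) (nat_lit 0) (XT.lf (nat_lit 0) (nat_lit 15972840533) (nat_lit 76) (nat_lit 3326097174) (nat_lit 76) (nat_lit 2813496070) (nat_lit 25) (nat_lit 4) (nat_lit 26) (nat_lit 5) (nat_lit 26) (nat_lit 4) (nat_lit 400) (nat_lit 251) (nat_lit 249)) (XT.lf (nat_lit 0) (nat_lit 2799832429) (nat_lit 152) (nat_lit 17735120696) (nat_lit 0) (nat_lit 2064143867) (nat_lit 23) (nat_lit 5) (nat_lit 25) (nat_lit 4) (nat_lit 23) (nat_lit 4) (nat_lit 401) (nat_lit 251) (nat_lit 248)))))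 (XT.nd (nat_lit 234) (nat_lit 228) (nat_lit 0) (XT.nd (nat_lit 78) (nat_lit 76) (nat_lit 0) (XT.lf (nat_lit 0) (nat_lit 8507010963) (nat_lit 152) (nat_lit 7052825731) (nat_lit 0) (nat_lit 7540237365) (nat_lit 23) (nat_lit 5) (nat_lit 25) (nat_lit 4) (nat_lit 23) (nat_lit 4) (nat_lit 402) (nat_lit 251) (nat_lit 247)) (XT.nd (nat_lit 78) (nat_lit 0) (nat_lit 0) (XT.lf (nat_lit 0) (nat_lit 3814239243) (nat_lit 76) (nat_lit 10497592852) (nat_lit 76) (nat_lit 9306464849) (nat_lit 22) (nat_lit 4) (nat_lit 23) (nat_lit 5) (nat_lit 23) (nat_lit 4) (nat_lit 403) (nat_lit 251) (nat_lit 246)) (XT.lf (nat_lit 0) (nat_lit 14943823878) (nat_lit 76) (nat_lit 5309166860) (nat_lit 76) (nat_lit 3900219047) (nat_lit 22) (nat_lit 4) (nat_lit 23) (nat_lit 5) (nat_lit 23) (nat_lit 4) (nat_lit 404) (nat_lit 251) (nat_lit 245)))) (XT.nd (nat_lit 156) (nat_lit 76) (nat_lit 0) (XT.nd (nat_lit 78) (nat_lit 0) (nat_lit 0) (XT.lf (nat_lit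 0) (nat_lit 1512459403) (nat_lit 76) (nat_lit 30832596) (nat_lit 152) (nat_lit 23163176546) (nat_lit 20) (nat_lit 5) (nat_lit 21) (nat_lit 5) (nat_lit 22) (nat_lit 4) (nat_lit 405) (nat_lit 251) (nat_lit 244)) (XT.lf (nat_lit 0) (nat_lit 7110935737) (nat_lit 152) (nat_lit 12824689406) (nat_lit 0) (nat_lit 5338373194) (nat_lit 20) (nat_lit 5) (nat_lit 22) (nat_lit 4) (nat_lit 20) (nat_lit 4) (nat_lit 406) (nat_lit 251) (nat_lit 243))) (XT.nd (nat_lit 78) (nat_lit 76) (nat_lit 0) (XT.lf (nat_lit 0) (nat_lit 12742356822) (nat_lit 152) (nat_lit 2343038603) (nat_lit 0) (nat_lit 10776264199) (nat_lit 20) (nat_lit 5) (nat_lit 22) (nat_lit 4) (nat_lit 20) (nat_lit 4) (nat_lit 407) (nat_lit 251) (nat_lit 242)) (XT.lf (nat_lit 0) (nat_lit 8424796493) (nat_lit 76) (nat_lit 10098367337) (nat_lit 76) (nat_lit 7944381432) (nat_lit 19) (nat_lit 4) (nat_lit 20) (nat_lit 5) (nat_lit 20) (nat_lit 4) (nat_lit 408) (nat_lit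 251) (nat_lit 241)))))) (XT.nd (nat_lit 546) (nat_lit 304) (nat_lit 0) (XT.nd (nat_lit 234) (nat_lit 76) (nat_lit 0) (XT.nd (nat_lit 78) (nat_lit 152) (nat_lit 0) (XT.lf (nat_lit 0) (nat_lit 19372922141) (nat_lit 76) (nat_lit 5028686534) (nat_lit 76) (nat_lit 2692279968) (nat_lit 19) (nat_lit 4) (nat_lit 20) (nat_lit 5) (nat_lit 20) (nat_lit 4) (nat_lit 409) (nat_lit 251) (nat_lit 240)) (XT.nd (nat_lit 78) (nat_lit 0) (nat_lit 0) (XT.lf (nat_lit 0) (nat_lit 2594803104) (nat_lit 152) (nat_lit 24991031153) (nat_lit 0) (nat_lit 154498244) (nat_lit 17) (nat_lit 5) (nat_lit 19) (nat_lit 4) (nat_lit 17) (nat_lit 4) (nat_lit 410) (nat_lit 251) (nat_lit 239)) (XT.lf (nat_lit 0) (nat_lit 8017605263) (nat_lit 152) (nat_lit 14976475445) (nat_lit 0) (nat_lit 5410359657) (nat_lit 17) (nat_lit 5) (nat_lit 19) (nat_lit 4) (nat_lit 17) (nat_lit 4) (nat_lit 411) (nat_lit 251) (nat_lit 238)))) (XT.nd (nat_lit 156) (nat_lit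 0) (nat_lit 0) (XT.nd (nat_lit 78) (nat_lit 76) (nat_lit 0) (XT.lf (nat_lit 0) (nat_lit 13508616936) (nat_lit 152) (nat_lit 4843402567) (nat_lit 0) (nat_lit 10739292934) (nat_lit 17) (nat_lit 5) (nat_lit 19) (nat_lit 4) (nat_lit 17) (nat_lit 4) (nat_lit 412) (nat_lit 251) (nat_lit 237)) (XT.lf (nat_lit 0) (nat_lit 5524851370) (nat_lit 76) (nat_lit 13600892974) (nat_lit 76) (nat_lit 10674211307) (nat_lit 16) (nat_lit 4) (nat_lit 17) (nat_lit 5) (nat_lit 17) (nat_lit 4) (nat_lit 413) (nat_lit 251) (nat_lit 236))) (XT.nd (nat_lit 78) (nat_lit 0) (nat_lit 0) (XT.lf (nat_lit 0) (nat_lit 16128548631) (nat_lit 76) (nat_lit 8741013344) (nat_lit 76) (nat_lit 5661557245) (nat_lit 16) (nat_lit 4) (nat_lit 17) (nat_lit 5) (nat_lit 17) (nat_lit 4) (nat_lit 414) (nat_lit 251) (nat_lit 235)) (XT.lf (nat_lit 0) (nat_lit 26880561375) (nat_lit 76) (nat_lit 3817042985) (nat_lit 76) (nat_lit 589262194) (nat_lit 16) (nat_lit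 4) (nat_lit 17) (nat_lit 5) (nat_lit 17) (nat_lit 4) (nat_lit 415) (nat_lit 251) (nat_lit 234))))) (XT.nd (nat_lit 234) (nat_lit 152) (nat_lit 0) (XT.nd (nat_lit 78) (nat_lit 0) (nat_lit 0) (XT.lf (nat_lit 0) (nat_lit 4526331121) (nat_lit 152) (nat_lit 26285423825) (nat_lit 0) (nat_lit 1252753115) (nat_lit 14) (nat_lit 5) (nat_lit 16) (nat_lit 4) (nat_lit 14) (nat_lit 4) (nat_lit 416) (nat_lit 251) (nat_lit 233)) (XT.nd (nat_lit 78) (nat_lit 0) (nat_lit 0) (XT.lf (nat_lit 0) (nat_lit 9780066193) (nat_lit 152) (nat_lit 16714597624) (nat_lit 0) (nat_lit 6370750083) (nat_lit 14) (nat_lit 5) (nat_lit 16) (nat_lit 4) (nat_lit 14) (nat_lit 4) (nat_lit 417) (nat_lit 251) (nat_lit 232)) (XT.lf (nat_lit 0) (nat_lit 15107713757) (nat_lit 152) (nat_lit 7018536543) (nat_lit 0) (nat_lit 11566613079) (nat_lit 14) (nat_lit 5) (nat_lit 16) (nat_lit 4) (nat_lit 14) (nat_lit 4) (nat_lit 418) (nat_lit 251) (nat_lit 231))))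 (XT.nd (nat_lit 156) (nat_lit 76) (nat_lit 0) (XT.nd (nat_lit 78) (nat_lit 0) (nat_lit 0) (XT.lf (nat_lit 0) (nat_lit 2867180725) (nat_lit 76) (nat_lit 17674309407) (nat_lit 76) (nat_lit 14005262547) (nat_lit 13) (nat_lit 4) (nat_lit 14) (nat_lit 5) (nat_lit 14) (nat_lit 4) (nat_lit 419) (nat_lit 251) (nat_lit 230)) (XT.lf (nat_lit 0) (nat_lit 13037708893) (nat_lit 76) (nat_lit 13091053453) (nat_lit 76) (nat_lit 9297787000) (nat_lit 13) (nat_lit 4) (nat_lit 14) (nat_lit 5) (nat_lit 14) (nat_lit 4) (nat_lit 420) (nat_lit 251) (nat_lit 229))) (XT.nd (nat_lit 78) (nat_lit 76) (nat_lit 0) (XT.lf (nat_lit 0) (nat_lit 23362252188) (nat_lit 76) (nat_lit 8443351110) (nat_lit 76) (nat_lit 4529483109) (nat_lit 13) (nat_lit 4) (nat_lit 14) (nat_lit 5) (nat_lit 14) (nat_lit 4) (nat_lit 421) (nat_lit 251) (nat_lit 228)) (XT.lf (nat_lit 0) (nat_lit 297887066) (nat_lit 152) (nat_lit 3426246137) (nat_lit 76) (nat_lit 33548936915)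 (nat_lit 12) (nat_lit 5) (nat_lit 14) (nat_lit 5) (nat_lit 13) (nat_lit 4) (nat_lit 422) (nat_lit 251) (nat_lit 227))))))) (XT.nd (nat_lit 1014) (nat_lit 228) (nat_lit 0) (XT.nd (nat_lit 468) (nat_lit 152) (nat_lit 0) (XT.nd (nat_lit 234) (nat_lit 76) (nat_lit 0) (XT.nd (nat_lit 78) (nat_lit 0) (nat_lit 0) (XT.lf (nat_lit 0) (nat_lit 5177003489) (nat_lit 152) (nat_lit 31907824533) (nat_lit 0) (nat_lit 1153085617) (nat_lit 11) (nat_lit 5) (nat_lit 13) (nat_lit 4) (nat_lit 11) (nat_lit 4) (nat_lit 423) (nat_lit 251) (nat_lit 226)) (XT.nd (nat_lit 78) (nat_lit 0) (nat_lit 0) (XT.lf (nat_lit 0) (nat_lit 10200135984) (nat_lit 152) (nat_lit 22962576459) (nat_lit 0) (nat_lit 6069065199) (nat_lit 11) (nat_lit 5) (nat_lit 13) (nat_lit 4) (nat_lit 11) (nat_lit 4) (nat_lit 424) (nat_lit 251) (nat_lit 225)) (XT.lf (nat_lit 0) (nat_lit 15301951820) (nat_lit 152) (nat_lit 13888821307) (nat_lit 0) (nat_lit 11066849080)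 (nat_lit 11) (nat_lit 5) (nat_lit 13) (nat_lit 4) (nat_lit 11) (nat_lit 4) (nat_lit 425) (nat_lit 251) (nat_lit 224)))) (XT.nd (nat_lit 78) (nat_lit 76) (nat_lit 0) (XT.lf (nat_lit 0) (nat_lit 20486908894) (nat_lit 152) (nat_lit 4678630554) (nat_lit 0) (nat_lit 16150804257) (nat_lit 11) (nat_lit 5) (nat_lit 13) (nat_lit 4) (nat_lit 11) (nat_lit 4) (nat_lit 426) (nat_lit 251) (nat_lit 223)) (XT.nd (nat_lit 78) (nat_lit 0) (nat_lit 0) (XT.lf (nat_lit 0) (nat_lit 4769105975) (nat_lit 76) (nat_lit 21036275341) (nat_lit 76) (nat_lit 16602110609) (nat_lit 10) (nat_lit 4) (nat_lit 11) (nat_lit 5) (nat_lit 11) (nat_lit 4) (nat_lit 427) (nat_lit 251) (nat_lit 222)) (XT.lf (nat_lit 0) (nat_lit 14465651936) (nat_lit 76) (nat_lit 16797846305) (nat_lit 76) (nat_lit 12268477598) (nat_lit 10) (nat_lit 4) (nat_lit 11) (nat_lit 5) (nat_lit 11) (nat_lit 4) (nat_lit 428) (nat_lit 251) (nat_lit 221))))) (XT.nd (nat_lit 234)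 (nat_lit 76) (nat_lit 0) (XT.nd (nat_lit 78) (nat_lit 76) (nat_lit 0) (XT.lf (nat_lit 0) (nat_lit 24326366115) (nat_lit 76) (nat_lit 12493793855) (nat_lit 76) (nat_lit 7871994104) (nat_lit 10) (nat_lit 4) (nat_lit 11) (nat_lit 5) (nat_lit 11) (nat_lit 4) (nat_lit 429) (nat_lit 251) (nat_lit 220)) (XT.nd (nat_lit 78) (nat_lit 76) (nat_lit 0) (XT.lf (nat_lit 0) (nat_lit 34359864671) (nat_lit 76) (nat_lit 8120357167) (nat_lit 76) (nat_lit 3408818538) (nat_lit 10) (nat_lit 4) (nat_lit 11) (nat_lit 5) (nat_lit 11) (nat_lit 4) (nat_lit 430) (nat_lit 251) (nat_lit 219)) (XT.lf (nat_lit 0) (nat_lit 1102997153) (nat_lit 152) (nat_lit 2559579531) (nat_lit 76) (nat_lit 43460779477) (nat_lit 9) (nat_lit 5) (nat_lit 11) (nat_lit 5) (nat_lit 10) (nat_lit 4) (nat_lit 431) (nat_lit 251) (nat_lit 218)))) (XT.nd (nat_lit 156) (nat_lit 0) (nat_lit 0) (XT.nd (nat_lit 78) (nat_lit 0) (nat_lit 0) (XT.lf (nat_lit 0) (nat_lit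 5694745163) (nat_lit 152) (nat_lit 41744829866) (nat_lit 0) (nat_lit 953724530) (nat_lit 8) (nat_lit 5) (nat_lit 10) (nat_lit 4) (nat_lit 8) (nat_lit 4) (nat_lit 432) (nat_lit 251) (nat_lit 217)) (XT.lf (nat_lit 0) (nat_lit 10426448736) (nat_lit 152) (nat_lit 33669133472) (nat_lit 0) (nat_lit 5605696272) (nat_lit 8) (nat_lit 5) (nat_lit 10) (nat_lit 4) (nat_lit 8) (nat_lit 4) (nat_lit 433) (nat_lit 251) (nat_lit 216))) (XT.nd (nat_lit 78) (nat_lit 0) (nat_lit 0) (XT.lf (nat_lit 0) (nat_lit 15241693070) (nat_lit 152) (nat_lit 25465028164) (nat_lit 0) (nat_lit 10343531062) (nat_lit 8) (nat_lit 5) (nat_lit 10) (nat_lit 4) (nat_lit 8) (nat_lit 4) (nat_lit 434) (nat_lit 251) (nat_lit 215)) (XT.lf (nat_lit 0) (nat_lit 20144685661) (nat_lit 152) (nat_lit 17125345307) (nat_lit 0) (nat_lit 15171368755) (nat_lit 8) (nat_lit 5) (nat_lit 10) (nat_lit 4) (nat_lit 8) (nat_lit 4) (nat_lit 435) (nat_lit 251) (nat_lit 214))))))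 (XT.nd (nat_lit 546) (nat_lit 152) (nat_lit 0) (XT.nd (nat_lit 234) (nat_lit 0) (nat_lit 0) (XT.nd (nat_lit 78) (nat_lit 76) (nat_lit 0) (XT.lf (nat_lit 0) (nat_lit 25139710676) (nat_lit 152) (nat_lit 8642797800) (nat_lit 0) (nat_lit 20093427851) (nat_lit 8) (nat_lit 5) (nat_lit 10) (nat_lit 4) (nat_lit 8) (nat_lit 4) (nat_lit 436) (nat_lit 251) (nat_lit 213)) (XT.nd (nat_lit 78) (nat_lit 76) (nat_lit 0) (XT.lf (nat_lit 0) (nat_lit 30231132701) (nat_lit 152) (nat_lit 9973707) (nat_lit 0) (nat_lit 25114009177) (nat_lit 8) (nat_lit 5) (nat_lit 10) (nat_lit 4) (nat_lit 8) (nat_lit 4) (nat_lit 437) (nat_lit 251) (nat_lit 212)) (XT.lf (nat_lit 0) (nat_lit 8955422769) (nat_lit 76) (nat_lit 26554062783) (nat_lit 76) (nat_lit 21368161882) (nat_lit 7) (nat_lit 4) (nat_lit 8) (nat_lit 5) (nat_lit 8) (nat_lit 4) (nat_lit 438) (nat_lit 251) (nat_lit 211)))) (XT.nd (nat_lit 156) (nat_lit 0) (nat_lit 0) (XT.nd (nat_lit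 78) (nat_lit 0) (nat_lit 0) (XT.lf (nat_lit 0) (nat_lit 18089812511) (nat_lit 76) (nat_lit 22805128991) (nat_lit 76) (nat_lit 17552453937) (nat_lit 7) (nat_lit 4) (nat_lit 8) (nat_lit 5) (nat_lit 8) (nat_lit 4) (nat_lit 439) (nat_lit 251) (nat_lit 210)) (XT.lf (nat_lit 0) (nat_lit 27400978528) (nat_lit 76) (nat_lit 18991129980) (nat_lit 76) (nat_lit 13673625651) (nat_lit 7) (nat_lit 4) (nat_lit 8) (nat_lit 5) (nat_lit 8) (nat_lit 4) (nat_lit 440) (nat_lit 251) (nat_lit 209))) (XT.nd (nat_lit 78) (nat_lit 0) (nat_lit 0) (XT.lf (nat_lit 0) (nat_lit 36897056789) (nat_lit 76) (nat_lit 15108733128) (nat_lit 76) (nat_lit 9728287756) (nat_lit 7) (nat_lit 4) (nat_lit 8) (nat_lit 5) (nat_lit 8) (nat_lit 4) (nat_lit 441) (nat_lit 251) (nat_lit 208)) (XT.lf (nat_lit 0) (nat_lit 46586344840) (nat_lit 76) (nat_lit 11154546050) (nat_lit 76) (nat_lit 5712992869) (nat_lit 7) (nat_lit 4) (nat_lit 8) (nat_lit 5) (nat_lit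 8) (nat_lit 4) (nat_lit 442) (nat_lit 251) (nat_lit 207))))) (XT.nd (nat_lit 234) (nat_lit 0) (nat_lit 0) (XT.nd (nat_lit 78) (nat_lit 152) (nat_lit 0) (XT.lf (nat_lit 0) (nat_lit 56477309047) (nat_lit 76) (nat_lit 7125113632) (nat_lit 76) (nat_lit 1624232481) (nat_lit 7) (nat_lit 4) (nat_lit 8) (nat_lit 5) (nat_lit 8) (nat_lit 4) (nat_lit 443) (nat_lit 251) (nat_lit 206)) (XT.nd (nat_lit 78) (nat_lit 76) (nat_lit 0) (XT.lf (nat_lit 0) (nat_lit 2491971001) (nat_lit 152) (nat_lit 499779988) (nat_lit 76) (nat_lit 64061456979) (nat_lit 6) (nat_lit 5) (nat_lit 8) (nat_lit 5) (nat_lit 7) (nat_lit 4) (nat_lit 444) (nat_lit 251) (nat_lit 205)) (XT.lf (nat_lit 0) (nat_lit 6745694039) (nat_lit 152) (nat_lit 60892165836) (nat_lit 0) (nat_lit 1294816929) (nat_lit 5) (nat_lit 5) (nat_lit 7) (nat_lit 4) (nat_lit 5) (nat_lit 4) (nat_lit 445) (nat_lit 251) (nat_lit 204)))) (XT.nd (nat_lit 156) (nat_lit 0) (nat_lit 0)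 (XT.nd (nat_lit 78) (nat_lit 0) (nat_lit 0) (XT.lf (nat_lit 0) (nat_lit 11118379987) (nat_lit 152) (nat_lit 54135620629) (nat_lit 0) (nat_lit 5614790743) (nat_lit 5) (nat_lit 5) (nat_lit 7) (nat_lit 4) (nat_lit 5) (nat_lit 4) (nat_lit 446) (nat_lit 251) (nat_lit 203)) (XT.lf (nat_lit 0) (nat_lit 15580142781) (nat_lit 152) (nat_lit 47258735100) (nat_lit 0) (nat_lit 10025376709) (nat_lit 5) (nat_lit 5) (nat_lit 7) (nat_lit 4) (nat_lit 5) (nat_lit 4) (nat_lit 447) (nat_lit 251) (nat_lit 202))) (XT.nd (nat_lit 78) (nat_lit 0) (nat_lit 0) (XT.lf (nat_lit 0) (nat_lit 20134881048) (nat_lit 152) (nat_lit 40255500321) (nat_lit 0) (nat_lit 14530428736) (nat_lit 5) (nat_lit 5) (nat_lit 7) (nat_lit 4) (nat_lit 5) (nat_lit 4) (nat_lit 448) (nat_lit 251) (nat_lit 201)) (XT.lf (nat_lit 0) (nat_lit 24786574658) (nat_lit 152) (nat_lit 33119796960) (nat_lit 0) (nat_lit 19133883277) (nat_lit 5) (nat_lit 5) (nat_lit 7) (nat_lit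 4) (nat_lit 5) (nat_lit 4) (nat_lit 449) (nat_lit 251) (nat_lit 200))))))))
noncomputable def xc14 : XT := (XT.nd (nat_lit 44616) (nat_lit 0) (nat_lit 0) (XT.nd (nat_lit 43524) (nat_lit 0) (nat_lit 608) (XT.nd (nat_lit 42978) (nat_lit 0) (nat_lit 1140) (XT.nd (nat_lit 42744) (nat_lit 0) (nat_lit 1520) (XT.nd (nat_lit 78) (nat_lit 0) (nat_lit 0) (XT.lf (nat_lit 0) (nat_lit 29539288197) (nat_lit 152) (nat_lit 25845389937) (nat_lit 0) (nat_lit 23839762768) (nat_lit 5) (nat_lit 5) (nat_lit 7) (nat_lit 4) (nat_lit 5) (nat_lit 4) (nat_lit 450) (nat_lit 251) (nat_lit 199)) (XT.nd (nat_lit 42588) (nat_lit 0) (nat_lit 1748) (XT.lf (nat_lit 0) (nat_lit 34397174521) (nat_lit 152) (nat_lit 18425922974) (nat_lit 0) (nat_lit 28652179144) (nat_lit 5) (nat_lit 5) (nat_lit 7) (nat_lit 4) (nat_lit 5) (nat_lit 4) (nat_lit 451) (nat_lit 251) (nat_lit 198)) (XT.lf (nat_lit 0) (nat_lit 6362303062) (nat_lit 76) (nat_lit 1896711110)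 (nat_lit 76) (nat_lit 1896711110) (nat_lit 28) (nat_lit 4) (nat_lit 29) (nat_lit 5) (nat_lit 29) (nat_lit 4) (nat_lit 396) (nat_lit 252) (nat_lit 252)))) (XT.nd (nat_lit 78) (nat_lit 76) (nat_lit 0) (XT.lf (nat_lit 0) (nat_lit 1853229616) (nat_lit 152) (nat_lit 17303988861) (nat_lit 0) (nat_lit 1585338724) (nat_lit 26) (nat_lit 5) (nat_lit 28) (nat_lit 4) (nat_lit 26) (nat_lit 4) (nat_lit 397) (nat_lit 252) (nat_lit 251)) (XT.nd (nat_lit 78) (nat_lit 76) (nat_lit 0) (XT.lf (nat_lit 0) (nat_lit 7590582175) (nat_lit 152) (nat_lit 6532369520) (nat_lit 0) (nat_lit 7062603039) (nat_lit 26) (nat_lit 5) (nat_lit 28) (nat_lit 4) (nat_lit 26) (nat_lit 4) (nat_lit 398) (nat_lit 252) (nat_lit 250)) (XT.lf (nat_lit 0) (nat_lit 4432918647) (nat_lit 76) (nat_lit 8995783318) (nat_lit 76) (nat_lit 8215291323) (nat_lit 25) (nat_lit 4) (nat_lit 26) (nat_lit 5) (nat_lit 26) (nat_lit 4) (nat_lit 399) (nat_lit 252) (nat_lit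 249))))) (XT.nd (nat_lit 234) (nat_lit 228) (nat_lit 0) (XT.nd (nat_lit 78) (nat_lit 152) (nat_lit 0) (XT.lf (nat_lit 0) (nat_lit 15647208140) (nat_lit 76) (nat_lit 3748019644) (nat_lit 76) (nat_lit 2722369533) (nat_lit 25) (nat_lit 4) (nat_lit 26) (nat_lit 5) (nat_lit 26) (nat_lit 4) (nat_lit 400) (nat_lit 252) (nat_lit 248)) (XT.nd (nat_lit 78) (nat_lit 0) (nat_lit 0) (XT.lf (nat_lit 0) (nat_lit 2825916433) (nat_lit 152) (nat_lit 18181165893) (nat_lit 0) (nat_lit 1599054590) (nat_lit 23) (nat_lit 5) (nat_lit 25) (nat_lit 4) (nat_lit 23) (nat_lit 4) (nat_lit 401) (nat_lit 252) (nat_lit 247)) (XT.lf (nat_lit 0) (nat_lit 8478790751) (nat_lit 152) (nat_lit 7602382447) (nat_lit 0) (nat_lit 7027574504) (nat_lit 23) (nat_lit 5) (nat_lit 25) (nat_lit 4) (nat_lit 23) (nat_lit 4) (nat_lit 402) (nat_lit 252) (nat_lit 246)))) (XT.nd (nat_lit 156) (nat_lit 152) (nat_lit 0) (XT.nd (nat_lit 78) (nat_lit 0) (nat_lit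 0) (XT.lf (nat_lit 0) (nat_lit 3151248571) (nat_lit 76) (nat_lit 11073267702) (nat_lit 76) (nat_lit 9404231644) (nat_lit 22) (nat_lit 4) (nat_lit 23) (nat_lit 5) (nat_lit 23) (nat_lit 4) (nat_lit 403) (nat_lit 252) (nat_lit 245)) (XT.lf (nat_lit 0) (nat_lit 14181321845) (nat_lit 76) (nat_lit 5932209574) (nat_lit 76) (nat_lit 4051697972) (nat_lit 22) (nat_lit 4) (nat_lit 23) (nat_lit 5) (nat_lit 23) (nat_lit 4) (nat_lit 404) (nat_lit 252) (nat_lit 244))) (XT.nd (nat_lit 78) (nat_lit 0) (nat_lit 0) (XT.lf (nat_lit 0) (nat_lit 624430590) (nat_lit 76) (nat_lit 710671997) (nat_lit 152) (nat_lit 23385223321) (nat_lit 20) (nat_lit 5) (nat_lit 21) (nat_lit 5) (nat_lit 22) (nat_lit 4) (nat_lit 405) (nat_lit 252) (nat_lit 243)) (XT.lf (nat_lit 0) (nat_lit 6845197875) (nat_lit 152) (nat_lit 13817795847) (nat_lit 0) (nat_lit 4626592393) (nat_lit 20) (nat_lit 5) (nat_lit 22) (nat_lit 4) (nat_lit 20) (nat_lit 4) (nat_lit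 406) (nat_lit 252) (nat_lit 242)))))) (XT.nd (nat_lit 546) (nat_lit 228) (nat_lit 0) (XT.nd (nat_lit 234) (nat_lit 228) (nat_lit 0) (XT.nd (nat_lit 78) (nat_lit 76) (nat_lit 0) (XT.lf (nat_lit 0) (nat_lit 12427091371) (nat_lit 152) (nat_lit 3431053101) (nat_lit 0) (nat_lit 10020592607) (nat_lit 20) (nat_lit 5) (nat_lit 22) (nat_lit 4) (nat_lit 20) (nat_lit 4) (nat_lit 407) (nat_lit 252) (nat_lit 241)) (XT.nd (nat_lit 78) (nat_lit 0) (nat_lit 0) (XT.lf (nat_lit 0) (nat_lit 7221150790) (nat_lit 76) (nat_lit 10927092372) (nat_lit 76) (nat_lit 8338172946) (nat_lit 19) (nat_lit 4) (nat_lit 20) (nat_lit 5) (nat_lit 20) (nat_lit 4) (nat_lit 408) (nat_lit 252) (nat_lit 240)) (XT.lf (nat_lit 0) (nat_lit 18078036064) (nat_lit 76) (nat_lit 5901090381) (nat_lit 76) (nat_lit 3135063517) (nat_lit 19) (nat_lit 4) (nat_lit 20) (nat_lit 5) (nat_lit 20) (nat_lit 4) (nat_lit 409) (nat_lit 252) (nat_lit 239)))) (XT.nd (nat_lit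 156) (nat_lit 76) (nat_lit 0) (XT.nd (nat_lit 78) (nat_lit 0) (nat_lit 0) (XT.lf (nat_lit 0) (nat_lit 1322544305) (nat_lit 76) (nat_lit 776234088) (nat_lit 152) (nat_lit 25663842979) (nat_lit 17) (nat_lit 5) (nat_lit 18) (nat_lit 5) (nat_lit 19) (nat_lit 4) (nat_lit 410) (nat_lit 252) (nat_lit 238)) (XT.lf (nat_lit 0) (nat_lit 7467579728) (nat_lit 152) (nat_lit 16507675240) (nat_lit 0) (nat_lit 4453097610) (nat_lit 17) (nat_lit 5) (nat_lit 19) (nat_lit 4) (nat_lit 17) (nat_lit 4) (nat_lit 411) (nat_lit 252) (nat_lit 237))) (XT.nd (nat_lit 78) (nat_lit 76) (nat_lit 0) (XT.lf (nat_lit 0) (nat_lit 12913407723) (nat_lit 152) (nat_lit 6461607720) (nat_lit 0) (nat_lit 9741567940) (nat_lit 17) (nat_lit 5) (nat_lit 19) (nat_lit 4) (nat_lit 17) (nat_lit 4) (nat_lit 412) (nat_lit 252) (nat_lit 236)) (XT.lf (nat_lit 0) (nat_lit 3788288398) (nat_lit 76) (nat_lit 14681686180) (nat_lit 76) (nat_lit 11357071965) (nat_lit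 16) (nat_lit 4) (nat_lit 17) (nat_lit 5) (nat_lit 17) (nat_lit 4) (nat_lit 413) (nat_lit 252) (nat_lit 235))))) (XT.nd (nat_lit 234) (nat_lit 76) (nat_lit 0) (XT.nd (nat_lit 78) (nat_lit 152) (nat_lit 0) (XT.lf (nat_lit 0) (nat_lit 14308342588) (nat_lit 76) (nat_lit 9862055643) (nat_lit 76) (nat_lit 6389116736) (nat_lit 16) (nat_lit 4) (nat_lit 17) (nat_lit 5) (nat_lit 17) (nat_lit 4) (nat_lit 414) (nat_lit 252) (nat_lit 234)) (XT.nd (nat_lit 78) (nat_lit 152) (nat_lit 0) (XT.lf (nat_lit 0) (nat_lit 24979148466) (nat_lit 76) (nat_lit 4977162074) (nat_lit 76) (nat_lit 1360218612) (nat_lit 16) (nat_lit 4) (nat_lit 17) (nat_lit 5) (nat_lit 17) (nat_lit 4) (nat_lit 415) (nat_lit 252) (nat_lit 233)) (XT.lf (nat_lit 0) (nat_lit 3697679255) (nat_lit 152) (nat_lit 28348553141) (nat_lit 0) (nat_lit 50345557) (nat_lit 14) (nat_lit 5) (nat_lit 16) (nat_lit 4) (nat_lit 14) (nat_lit 4) (nat_lit 416) (nat_lit 252) (nat_lit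 232)))) (XT.nd (nat_lit 156) (nat_lit 76) (nat_lit 0) (XT.nd (nat_lit 78) (nat_lit 0) (nat_lit 0) (XT.lf (nat_lit 0) (nat_lit 8910183016) (nat_lit 152) (nat_lit 18857475662) (nat_lit 0) (nat_lit 5131064751) (nat_lit 14) (nat_lit 5) (nat_lit 16) (nat_lit 4) (nat_lit 14) (nat_lit 4) (nat_lit 417) (nat_lit 252) (nat_lit 231)) (XT.lf (nat_lit 0) (nat_lit 14197800181) (nat_lit 152) (nat_lit 9238840526) (nat_lit 0) (nat_lit 10290735734) (nat_lit 14) (nat_lit 5) (nat_lit 16) (nat_lit 4) (nat_lit 14) (nat_lit 4) (nat_lit 418) (nat_lit 252) (nat_lit 230))) (XT.nd (nat_lit 78) (nat_lit 0) (nat_lit 0) (XT.lf (nat_lit 0) (nat_lit 526021474) (nat_lit 76) (nat_lit 19044185963) (nat_lit 76) (nat_lit 15012901921) (nat_lit 13) (nat_lit 4) (nat_lit 14) (nat_lit 5) (nat_lit 14) (nat_lit 4) (nat_lit 419) (nat_lit 252) (nat_lit 229)) (XT.lf (nat_lit 0) (nat_lit 10622115790) (nat_lit 76) (nat_lit 14496915866) (nat_lit 76) (nat_lit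 10345030277) (nat_lit 13) (nat_lit 4) (nat_lit 14) (nat_lit 5) (nat_lit 14) (nat_lit 4) (nat_lit 420) (nat_lit 252) (nat_lit 228))))))) (XT.nd (nat_lit 1014) (nat_lit 228) (nat_lit 0) (XT.nd (nat_lit 468) (nat_lit 228) (nat_lit 0) (XT.nd (nat_lit 234) (nat_lit 0) (nat_lit 0) (XT.nd (nat_lit 78) (nat_lit 152) (nat_lit 0) (XT.lf (nat_lit 0) (nat_lit 20874393211) (nat_lit 76) (nat_lit 9884151248) (nat_lit 76) (nat_lit 5615176778) (nat_lit 13) (nat_lit 4) (nat_lit 14) (nat_lit 5) (nat_lit 14) (nat_lit 4) (nat_lit 421) (nat_lit 252) (nat_lit 227)) (XT.nd (nat_lit 78) (nat_lit 152) (nat_lit 0) (XT.lf (nat_lit 0) (nat_lit 31291812037) (nat_lit 76) (nat_lit 5201861538) (nat_lit 76) (nat_lit 819208542) (nat_lit 13) (nat_lit 4) (nat_lit 14) (nat_lit 5) (nat_lit 14) (nat_lit 4) (nat_lit 422) (nat_lit 252) (nat_lit 226)) (XT.lf (nat_lit 0) (nat_lit 3633101701) (nat_lit 76) (nat_lit 369914159) (nat_lit 152) (nat_lit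 34277134545) (nat_lit 11) (nat_lit 5) (nat_lit 12) (nat_lit 5) (nat_lit 13) (nat_lit 4) (nat_lit 423) (nat_lit 252) (nat_lit 225)))) (XT.nd (nat_lit 78) (nat_lit 0) (nat_lit 0) (XT.lf (nat_lit 0) (nat_lit 8987119295) (nat_lit 152) (nat_lit 25767136595) (nat_lit 0) (nat_lit 4520931519) (nat_lit 11) (nat_lit 5) (nat_lit 13) (nat_lit 4) (nat_lit 11) (nat_lit 4) (nat_lit 424) (nat_lit 252) (nat_lit 224)) (XT.nd (nat_lit 78) (nat_lit 0) (nat_lit 0) (XT.lf (nat_lit 0) (nat_lit 14054495114) (nat_lit 152) (nat_lit 16760266691) (nat_lit 0) (nat_lit 9487305440) (nat_lit 11) (nat_lit 5) (nat_lit 13) (nat_lit 4) (nat_lit 11) (nat_lit 4) (nat_lit 425) (nat_lit 252) (nat_lit 223)) (XT.lf (nat_lit 0) (nat_lit 19206015278) (nat_lit 152) (nat_lit 7615013071) (nat_lit 0) (nat_lit 14540765509) (nat_lit 11) (nat_lit 5) (nat_lit 13) (nat_lit 4) (nat_lit 11) (nat_lit 4) (nat_lit 426) (nat_lit 252) (nat_lit 222))))) (XT.nd (nat_lit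 234) (nat_lit 152) (nat_lit 0) (XT.nd (nat_lit 78) (nat_lit 0) (nat_lit 0) (XT.lf (nat_lit 0) (nat_lit 1709983194) (nat_lit 76) (nat_lit 22752635326) (nat_lit 76) (nat_lit 17992181583) (nat_lit 10) (nat_lit 4) (nat_lit 11) (nat_lit 5) (nat_lit 11) (nat_lit 4) (nat_lit 427) (nat_lit 252) (nat_lit 221)) (XT.nd (nat_lit 78) (nat_lit 0) (nat_lit 0) (XT.lf (nat_lit 0) (nat_lit 11344101489) (nat_lit 76) (nat_lit 18544516368) (nat_lit 76) (nat_lit 13691631580) (nat_lit 10) (nat_lit 4) (nat_lit 11) (nat_lit 5) (nat_lit 11) (nat_lit 4) (nat_lit 428) (nat_lit 252) (nat_lit 220)) (XT.lf (nat_lit 0) (nat_lit 21144206285) (nat_lit 76) (nat_lit 14269891177) (nat_lit 76) (nat_lit 9327267511) (nat_lit 10) (nat_lit 4) (nat_lit 11) (nat_lit 5) (nat_lit 11) (nat_lit 4) (nat_lit 429) (nat_lit 252) (nat_lit 219)))) (XT.nd (nat_lit 156) (nat_lit 152) (nat_lit 0) (XT.nd (nat_lit 78) (nat_lit 0) (nat_lit 0) (XT.lf (nat_lit 0)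 (nat_lit 31118860779) (nat_lit 76) (nat_lit 9925024644) (nat_lit 76) (nat_lit 4895275854) (nat_lit 10) (nat_lit 4) (nat_lit 11) (nat_lit 5) (nat_lit 11) (nat_lit 4) (nat_lit 430) (nat_lit 252) (nat_lit 218)) (XT.lf (nat_lit 0) (nat_lit 41276780689) (nat_lit 76) (nat_lit 5506120283) (nat_lit 76) (nat_lit 391783995) (nat_lit 10) (nat_lit 4) (nat_lit 11) (nat_lit 5) (nat_lit 11) (nat_lit 4) (nat_lit 431) (nat_lit 252) (nat_lit 217))) (XT.nd (nat_lit 78) (nat_lit 0) (nat_lit 0) (XT.lf (nat_lit 0) (nat_lit 3200020788) (nat_lit 76) (nat_lit 936176680) (nat_lit 152) (nat_lit 44310687862) (nat_lit 8) (nat_lit 5) (nat_lit 9) (nat_lit 5) (nat_lit 10) (nat_lit 4) (nat_lit 432) (nat_lit 252) (nat_lit 216)) (XT.lf (nat_lit 0) (nat_lit 8830128369) (nat_lit 152) (nat_lit 37218258690) (nat_lit 0) (nat_lit 3707611957) (nat_lit 8) (nat_lit 5) (nat_lit 10) (nat_lit 4) (nat_lit 8) (nat_lit 4) (nat_lit 433) (nat_lit 252) (nat_lit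 215)))))) (XT.nd (nat_lit 546) (nat_lit 152) (nat_lit 0) (XT.nd (nat_lit 234) (nat_lit 76) (nat_lit 0) (XT.nd (nat_lit 78) (nat_lit 0) (nat_lit 0) (XT.lf (nat_lit 0) (nat_lit 13617437199) (nat_lit 152) (nat_lit 29068609348) (nat_lit 0) (nat_lit 8419765889) (nat_lit 8) (nat_lit 5) (nat_lit 10) (nat_lit 4) (nat_lit 8) (nat_lit 4) (nat_lit 434) (nat_lit 252) (nat_lit 214)) (XT.nd (nat_lit 78) (nat_lit 0) (nat_lit 0) (XT.lf (nat_lit 0) (nat_lit 18493307941) (nat_lit 152) (nat_lit 20781796361) (nat_lit 0) (nat_lit 13222670711) (nat_lit 8) (nat_lit 5) (nat_lit 10) (nat_lit 4) (nat_lit 8) (nat_lit 4) (nat_lit 435) (nat_lit 252) (nat_lit 213)) (XT.lf (nat_lit 0) (nat_lit 23462001064) (nat_lit 152) (nat_lit 12350578824) (nat_lit 0) (nat_lit 18120523136) (nat_lit 8) (nat_lit 5) (nat_lit 10) (nat_lit 4) (nat_lit 8) (nat_lit 4) (nat_lit 436) (nat_lit 252) (nat_lit 212)))) (XT.nd (nat_lit 156) (nat_lit 0) (nat_lit 0)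 (XT.nd (nat_lit 78) (nat_lit 76) (nat_lit 0) (XT.lf (nat_lit 0) (nat_lit 28527858145) (nat_lit 152) (nat_lit 3767589654) (nat_lit 0) (nat_lit 23117602840) (nat_lit 8) (nat_lit 5) (nat_lit 10) (nat_lit 4) (nat_lit 8) (nat_lit 4) (nat_lit 437) (nat_lit 252) (nat_lit 211)) (XT.lf (nat_lit 0) (nat_lit 5073676552) (nat_lit 76) (nat_lit 28670400392) (nat_lit 76) (nat_lit 23193370933) (nat_lit 7) (nat_lit 4) (nat_lit 8) (nat_lit 5) (nat_lit 8) (nat_lit 4) (nat_lit 438) (nat_lit 252) (nat_lit 210))) (XT.nd (nat_lit 78) (nat_lit 0) (nat_lit 0) (XT.lf (nat_lit 0) (nat_lit 14160157222) (nat_lit 76) (nat_lit 24944817730) (nat_lit 76) (nat_lit 19402958996) (nat_lit 7) (nat_lit 4) (nat_lit 8) (nat_lit 5) (nat_lit 8) (nat_lit 4) (nat_lit 439) (nat_lit 252) (nat_lit 209)) (XT.lf (nat_lit 0) (nat_lit 23424809576) (nat_lit 76) (nat_lit 21153489718) (nat_lit 76) (nat_lit 15548689942) (nat_lit 7) (nat_lit 4) (nat_lit 8) (nat_lit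 5) (nat_lit 8) (nat_lit 4) (nat_lit 440) (nat_lit 252) (nat_lit 208))))) (XT.nd (nat_lit 234) (nat_lit 152) (nat_lit 0) (XT.nd (nat_lit 78) (nat_lit 0) (nat_lit 0) (XT.lf (nat_lit 0) (nat_lit 32875728941) (nat_lit 76) (nat_lit 17293103546) (nat_lit 76) (nat_lit 11627195960) (nat_lit 7) (nat_lit 4) (nat_lit 8) (nat_lit 5) (nat_lit 8) (nat_lit 4) (nat_lit 441) (nat_lit 252) (nat_lit 207)) (XT.nd (nat_lit 78) (nat_lit 0) (nat_lit 0) (XT.lf (nat_lit 0) (nat_lit 42521173403) (nat_lit 76) (nat_lit 13360286061) (nat_lit 76) (nat_lit 7635050505) (nat_lit 7) (nat_lit 4) (nat_lit 8) (nat_lit 5) (nat_lit 8) (nat_lit 4) (nat_lit 442) (nat_lit 252) (nat_lit 206)) (XT.lf (nat_lit 0) (nat_lit 52369571020) (nat_lit 76) (nat_lit 9351600819) (nat_lit 76) (nat_lit 3568765293) (nat_lit 7) (nat_lit 4) (nat_lit 8) (nat_lit 5) (nat_lit 8) (nat_lit 4) (nat_lit 443) (nat_lit 252) (nat_lit 205)))) (XT.nd (nat_lit 156) (nat_lit 0)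 (nat_lit 0) (XT.nd (nat_lit 78) (nat_lit 76) (nat_lit 0) (XT.lf (nat_lit 0) (nat_lit 563988268) (nat_lit 152) (nat_lit 4693861644) (nat_lit 76) (nat_lit 61859843744) (nat_lit 6) (nat_lit 5) (nat_lit 8) (nat_lit 5) (nat_lit 7) (nat_lit 4) (nat_lit 444) (nat_lit 252) (nat_lit 204)) (XT.lf (nat_lit 0) (nat_lit 3734689629) (nat_lit 76) (nat_lit 1008039904) (nat_lit 152) (nat_lit 64256683490) (nat_lit 5) (nat_lit 5) (nat_lit 6) (nat_lit 5) (nat_lit 7) (nat_lit 4) (nat_lit 445) (nat_lit 252) (nat_lit 203))) (XT.nd (nat_lit 78) (nat_lit 0) (nat_lit 0) (XT.lf (nat_lit 0) (nat_lit 9084984831) (nat_lit 152) (nat_lit 58539057766) (nat_lit 0) (nat_lit 3312398949) (nat_lit 5) (nat_lit 5) (nat_lit 7) (nat_lit 4) (nat_lit 5) (nat_lit 4) (nat_lit 446) (nat_lit 252) (nat_lit 202)) (XT.lf (nat_lit 0) (nat_lit 13526610969) (nat_lit 152) (nat_lit 51701560078) (nat_lit 0) (nat_lit 7704338847) (nat_lit 5) (nat_lit 5) (nat_lit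 7) (nat_lit 4) (nat_lit 5) (nat_lit 4) (nat_lit 447) (nat_lit 252) (nat_lit 201))))))))
noncomputable def xc15 : XT := (XT.nd (nat_lit 44460) (nat_lit 0) (nat_lit 152) (XT.nd (nat_lit 43368) (nat_lit 0) (nat_lit 684) (XT.nd (nat_lit 42822) (nat_lit 0) (nat_lit 1368) (XT.nd (nat_lit 234) (nat_lit 0) (nat_lit 0) (XT.nd (nat_lit 78) (nat_lit 0) (nat_lit 0) (XT.lf (nat_lit 0) (nat_lit 18061799086) (nat_lit 152) (nat_lit 44736565920) (nat_lit 0) (nat_lit 12191287895) (nat_lit 5) (nat_lit 5) (nat_lit 7) (nat_lit 4) (nat_lit 5) (nat_lit 4) (nat_lit 448) (nat_lit 252) (nat_lit 200)) (XT.nd (nat_lit 78) (nat_lit 0) (nat_lit 0) (XT.lf (nat_lit 0) (nat_lit 22694511967) (nat_lit 152) (nat_lit 37637989376) (nat_lit 0) (nat_lit 16777166729) (nat_lit 5) (nat_lit 5) (nat_lit 7) (nat_lit 4) (nat_lit 5) (nat_lit 4) (nat_lit 449) (nat_lit 252) (nat_lit 199)) (XT.lf (nat_lit 0) (nat_lit 27428797614) (nat_lit 152) (nat_lit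 30399627807) (nat_lit 0) (nat_lit 21465982427) (nat_lit 5) (nat_lit 5) (nat_lit 7) (nat_lit 4) (nat_lit 5) (nat_lit 4) (nat_lit 450) (nat_lit 252) (nat_lit 198)))) (XT.nd (nat_lit 42432) (nat_lit 0) (nat_lit 1748) (XT.lf (nat_lit 0) (nat_lit 32268792781) (nat_lit 152) (nat_lit 23015156429) (nat_lit 0) (nat_lit 26261832012) (nat_lit 5) (nat_lit 5) (nat_lit 7) (nat_lit 4) (nat_lit 5) (nat_lit 4) (nat_lit 451) (nat_lit 252) (nat_lit 197)) (XT.nd (nat_lit 78) (nat_lit 76) (nat_lit 0) (XT.lf (nat_lit 0) (nat_lit 2502943173) (nat_lit 152) (nat_lit 4738303358) (nat_lit 0) (nat_lit 2502943173) (nat_lit 29) (nat_lit 5) (nat_lit 31) (nat_lit 4) (nat_lit 29) (nat_lit 4) (nat_lit 394) (nat_lit 253) (nat_lit 253)) (XT.lf (nat_lit 0) (nat_lit 1419188839) (nat_lit 76) (nat_lit 9379693648) (nat_lit 76) (nat_lit 9095488200) (nat_lit 28) (nat_lit 4) (nat_lit 29) (nat_lit 5) (nat_lit 29) (nat_lit 4) (nat_lit 395) (nat_lit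 253) (nat_lit 252))))) (XT.nd (nat_lit 234) (nat_lit 228) (nat_lit 0) (XT.nd (nat_lit 78) (nat_lit 152) (nat_lit 0) (XT.lf (nat_lit 0) (nat_lit 12616340800) (nat_lit 76) (nat_lit 4128485354) (nat_lit 76) (nat_lit 3568352289) (nat_lit 28) (nat_lit 4) (nat_lit 29) (nat_lit 5) (nat_lit 29) (nat_lit 4) (nat_lit 396) (nat_lit 253) (nat_lit 251)) (XT.nd (nat_lit 78) (nat_lit 0) (nat_lit 0) (XT.lf (nat_lit 0) (nat_lit 2011773006) (nat_lit 152) (nat_lit 17526450282) (nat_lit 0) (nat_lit 1207866251) (nat_lit 26) (nat_lit 5) (nat_lit 28) (nat_lit 4) (nat_lit 26) (nat_lit 4) (nat_lit 397) (nat_lit 253) (nat_lit 250)) (XT.lf (nat_lit 0) (nat_lit 7692985038) (nat_lit 152) (nat_lit 6861225996) (nat_lit 0) (nat_lit 6636565424) (nat_lit 26) (nat_lit 5) (nat_lit 28) (nat_lit 4) (nat_lit 26) (nat_lit 4) (nat_lit 398) (nat_lit 253) (nat_lit 249)))) (XT.nd (nat_lit 156) (nat_lit 152) (nat_lit 0) (XT.nd (nat_lit 78) (nat_lit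 0) (nat_lit 0) (XT.lf (nat_lit 0) (nat_lit 3992165316) (nat_lit 76) (nat_lit 9480197355) (nat_lit 76) (nat_lit 8178619626) (nat_lit 25) (nat_lit 4) (nat_lit 26) (nat_lit 5) (nat_lit 26) (nat_lit 4) (nat_lit 399) (nat_lit 253) (nat_lit 248)) (XT.lf (nat_lit 0) (nat_lit 15104171347) (nat_lit 76) (nat_lit 4280816100) (nat_lit 76) (nat_lit 2741220783) (nat_lit 25) (nat_lit 4) (nat_lit 26) (nat_lit 5) (nat_lit 26) (nat_lit 4) (nat_lit 400) (nat_lit 253) (nat_lit 247))) (XT.nd (nat_lit 78) (nat_lit 0) (nat_lit 0) (XT.lf (nat_lit 0) (nat_lit 2742545399) (nat_lit 152) (nat_lit 18850720829) (nat_lit 0) (nat_lit 1023438260) (nat_lit 23) (nat_lit 5) (nat_lit 25) (nat_lit 4) (nat_lit 23) (nat_lit 4) (nat_lit 401) (nat_lit 253) (nat_lit 246)) (XT.lf (nat_lit 0) (nat_lit 8342697178) (nat_lit 152) (nat_lit 8372434005) (nat_lit 0) (nat_lit 6405770228) (nat_lit 23) (nat_lit 5) (nat_lit 25) (nat_lit 4) (nat_lit 23) (nat_lit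 4) (nat_lit 402) (nat_lit 253) (nat_lit 245)))))) (XT.nd (nat_lit 546) (nat_lit 380) (nat_lit 0) (XT.nd (nat_lit 234) (nat_lit 152) (nat_lit 0) (XT.nd (nat_lit 78) (nat_lit 76) (nat_lit 0) (XT.lf (nat_lit 0) (nat_lit 2266360117) (nat_lit 76) (nat_lit 11762369561) (nat_lit 76) (nat_lit 9613967068) (nat_lit 22) (nat_lit 4) (nat_lit 23) (nat_lit 5) (nat_lit 23) (nat_lit 4) (nat_lit 403) (nat_lit 253) (nat_lit 244)) (XT.nd (nat_lit 78) (nat_lit 76) (nat_lit 0) (XT.lf (nat_lit 0) (nat_lit 13199820421) (nat_lit 76) (nat_lit 6667299651) (nat_lit 76) (nat_lit 4313581096) (nat_lit 22) (nat_lit 4) (nat_lit 23) (nat_lit 5) (nat_lit 23) (nat_lit 4) (nat_lit 404) (nat_lit 253) (nat_lit 243)) (XT.lf (nat_lit 0) (nat_lit 1022686455) (nat_lit 152) (nat_lit 477001034) (nat_lit 76) (nat_lit 23237858979) (nat_lit 21) (nat_lit 5) (nat_lit 23) (nat_lit 5) (nat_lit 22) (nat_lit 4) (nat_lit 405) (nat_lit 253) (nat_lit 242))))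 (XT.nd (nat_lit 156) (nat_lit 76) (nat_lit 0) (XT.nd (nat_lit 78) (nat_lit 0) (nat_lit 0) (XT.lf (nat_lit 0) (nat_lit 6470946870) (nat_lit 152) (nat_lit 15033358835) (nat_lit 0) (nat_lit 3804359862) (nat_lit 20) (nat_lit 5) (nat_lit 22) (nat_lit 4) (nat_lit 20) (nat_lit 4) (nat_lit 406) (nat_lit 253) (nat_lit 241)) (XT.lf (nat_lit 0) (nat_lit 12004755327) (nat_lit 152) (nat_lit 4738759832) (nat_lit 0) (nat_lit 9155747658) (nat_lit 20) (nat_lit 5) (nat_lit 22) (nat_lit 4) (nat_lit 20) (nat_lit 4) (nat_lit 407) (nat_lit 253) (nat_lit 240))) (XT.nd (nat_lit 78) (nat_lit 0) (nat_lit 0) (XT.lf (nat_lit 0) (nat_lit 5796177757) (nat_lit 76) (nat_lit 11869347145) (nat_lit 76) (nat_lit 8843232037) (nat_lit 19) (nat_lit 4) (nat_lit 20) (nat_lit 5) (nat_lit 20) (nat_lit 4) (nat_lit 408) (nat_lit 253) (nat_lit 239)) (XT.lf (nat_lit 0) (nat_lit 16564480144) (nat_lit 76) (nat_lit 6885751768) (nat_lit 76) (nat_lit 3687687690)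 (nat_lit 19) (nat_lit 4) (nat_lit 20) (nat_lit 5) (nat_lit 20) (nat_lit 4) (nat_lit 409) (nat_lit 253) (nat_lit 238))))) (XT.nd (nat_lit 234) (nat_lit 228) (nat_lit 0) (XT.nd (nat_lit 78) (nat_lit 76) (nat_lit 0) (XT.lf (nat_lit 0) (nat_lit 1498946243) (nat_lit 152) (nat_lit 322143949) (nat_lit 76) (nat_lit 25967163252) (nat_lit 18) (nat_lit 5) (nat_lit 20) (nat_lit 5) (nat_lit 19) (nat_lit 4) (nat_lit 410) (nat_lit 253) (nat_lit 237)) (XT.nd (nat_lit 78) (nat_lit 0) (nat_lit 0) (XT.lf (nat_lit 0) (nat_lit 6809330560) (nat_lit 152) (nat_lit 18261431905) (nat_lit 0) (nat_lit 3384977919) (nat_lit 17) (nat_lit 5) (nat_lit 19) (nat_lit 4) (nat_lit 17) (nat_lit 4) (nat_lit 411) (nat_lit 253) (nat_lit 236)) (XT.lf (nat_lit 0) (nat_lit 12211290907) (nat_lit 152) (nat_lit 8299835606) (nat_lit 0) (nat_lit 8634163834) (nat_lit 17) (nat_lit 5) (nat_lit 19) (nat_lit 4) (nat_lit 17) (nat_lit 4) (nat_lit 412) (nat_lit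 253) (nat_lit 235)))) (XT.nd (nat_lit 156) (nat_lit 152) (nat_lit 0) (XT.nd (nat_lit 78) (nat_lit 0) (nat_lit 0) (XT.lf (nat_lit 0) (nat_lit 1829833101) (nat_lit 76) (nat_lit 15876608841) (nat_lit 76) (nat_lit 12151157076) (nat_lit 16) (nat_lit 4) (nat_lit 17) (nat_lit 5) (nat_lit 17) (nat_lit 4) (nat_lit 413) (nat_lit 253) (nat_lit 234)) (XT.lf (nat_lit 0) (nat_lit 12268680425) (nat_lit 76) (nat_lit 11096055094) (nat_lit 76) (nat_lit 7226598774) (nat_lit 16) (nat_lit 4) (nat_lit 17) (nat_lit 5) (nat_lit 17) (nat_lit 4) (nat_lit 414) (nat_lit 253) (nat_lit 233))) (XT.nd (nat_lit 78) (nat_lit 152) (nat_lit 0) (XT.lf (nat_lit 0) (nat_lit 22860644686) (nat_lit 76) (nat_lit 6249100156) (nat_lit 76) (nat_lit 2239833588) (nat_lit 16) (nat_lit 4) (nat_lit 17) (nat_lit 5) (nat_lit 17) (nat_lit 4) (nat_lit 415) (nat_lit 253) (nat_lit 232)) (XT.lf (nat_lit 0) (nat_lit 1483898179) (nat_lit 76) (nat_lit 1288960368)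 (nat_lit 152) (nat_lit 29358896151) (nat_lit 14) (nat_lit 5) (nat_lit 15) (nat_lit 5) (nat_lit 16) (nat_lit 4) (nat_lit 416) (nat_lit 253) (nat_lit 231))))))) (XT.nd (nat_lit 1014) (nat_lit 228) (nat_lit 0) (XT.nd (nat_lit 468) (nat_lit 228) (nat_lit 0) (XT.nd (nat_lit 234) (nat_lit 76) (nat_lit 0) (XT.nd (nat_lit 78) (nat_lit 0) (nat_lit 0) (XT.lf (nat_lit 0) (nat_lit 7932941634) (nat_lit 152) (nat_lit 21221814708) (nat_lit 0) (nat_lit 3780719072) (nat_lit 14) (nat_lit 5) (nat_lit 16) (nat_lit 4) (nat_lit 14) (nat_lit 4) (nat_lit 417) (nat_lit 253) (nat_lit 230)) (XT.nd (nat_lit 78) (nat_lit 0) (nat_lit 0) (XT.lf (nat_lit 0) (nat_lit 13181694334) (nat_lit 152) (nat_lit 11678350391) (nat_lit 0) (nat_lit 8905252177) (nat_lit 14) (nat_lit 5) (nat_lit 16) (nat_lit 4) (nat_lit 14) (nat_lit 4) (nat_lit 418) (nat_lit 253) (nat_lit 229)) (XT.lf (nat_lit 0) (nat_lit 18511312660) (nat_lit 152) (nat_lit 1996734343)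 (nat_lit 0) (nat_lit 14114268955) (nat_lit 14) (nat_lit 5) (nat_lit 16) (nat_lit 4) (nat_lit 14) (nat_lit 4) (nat_lit 419) (nat_lit 253) (nat_lit 228)))) (XT.nd (nat_lit 78) (nat_lit 0) (nat_lit 0) (XT.lf (nat_lit 0) (nat_lit 7987355170) (nat_lit 76) (nat_lit 16015877733) (nat_lit 76) (nat_lit 11501745147) (nat_lit 13) (nat_lit 4) (nat_lit 14) (nat_lit 5) (nat_lit 14) (nat_lit 4) (nat_lit 420) (nat_lit 253) (nat_lit 227)) (XT.nd (nat_lit 78) (nat_lit 0) (nat_lit 0) (XT.lf (nat_lit 0) (nat_lit 18169471547) (nat_lit 76) (nat_lit 11437033236) (nat_lit 76) (nat_lit 6809222125) (nat_lit 13) (nat_lit 4) (nat_lit 14) (nat_lit 5) (nat_lit 14) (nat_lit 4) (nat_lit 421) (nat_lit 253) (nat_lit 226)) (XT.lf (nat_lit 0) (nat_lit 28518772855) (nat_lit 76) (nat_lit 6787675683) (nat_lit 76) (nat_lit 2049497071) (nat_lit 13) (nat_lit 4) (nat_lit 14) (nat_lit 5) (nat_lit 14) (nat_lit 4) (nat_lit 422) (nat_lit 253) (nat_lit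 225))))) (XT.nd (nat_lit 234) (nat_lit 76) (nat_lit 0) (XT.nd (nat_lit 78) (nat_lit 0) (nat_lit 0) (XT.lf (nat_lit 0) (nat_lit 704862541) (nat_lit 76) (nat_lit 2029223205) (nat_lit 152) (nat_lit 35591364538) (nat_lit 11) (nat_lit 5) (nat_lit 12) (nat_lit 5) (nat_lit 13) (nat_lit 4) (nat_lit 423) (nat_lit 253) (nat_lit 224)) (XT.nd (nat_lit 78) (nat_lit 0) (nat_lit 0) (XT.lf (nat_lit 0) (nat_lit 7667798870) (nat_lit 152) (nat_lit 28791610588) (nat_lit 0) (nat_lit 2862591609) (nat_lit 11) (nat_lit 5) (nat_lit 13) (nat_lit 4) (nat_lit 11) (nat_lit 4) (nat_lit 424) (nat_lit 253) (nat_lit 223)) (XT.lf (nat_lit 0) (nat_lit 12701737778) (nat_lit 152) (nat_lit 19849677817) (nat_lit 0) (nat_lit 7798470422) (nat_lit 11) (nat_lit 5) (nat_lit 13) (nat_lit 4) (nat_lit 11) (nat_lit 4) (nat_lit 425) (nat_lit 253) (nat_lit 222)))) (XT.nd (nat_lit 156) (nat_lit 76) (nat_lit 0) (XT.nd (nat_lit 78) (nat_lit 0) (nat_lit 0)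 (XT.lf (nat_lit 0) (nat_lit 17820794922) (nat_lit 152) (nat_lit 10767469958) (nat_lit 0) (nat_lit 12822323590) (nat_lit 11) (nat_lit 5) (nat_lit 13) (nat_lit 4) (nat_lit 11) (nat_lit 4) (nat_lit 426) (nat_lit 253) (nat_lit 221)) (XT.lf (nat_lit 0) (nat_lit 23029443265) (nat_lit 152) (nat_lit 1537051100) (nat_lit 0) (nat_lit 17938540889) (nat_lit 11) (nat_lit 5) (nat_lit 13) (nat_lit 4) (nat_lit 11) (nat_lit 4) (nat_lit 427) (nat_lit 253) (nat_lit 220))) (XT.nd (nat_lit 78) (nat_lit 0) (nat_lit 0) (XT.lf (nat_lit 0) (nat_lit 8005867480) (nat_lit 76) (nat_lit 20403323868) (nat_lit 76) (nat_lit 15222682615) (nat_lit 10) (nat_lit 4) (nat_lit 11) (nat_lit 5) (nat_lit 11) (nat_lit 4) (nat_lit 428) (nat_lit 253) (nat_lit 219)) (XT.lf (nat_lit 0) (nat_lit 17747128214) (nat_lit 76) (nat_lit 16157268832) (nat_lit 76) (nat_lit 10889502454) (nat_lit 10) (nat_lit 4) (nat_lit 11) (nat_lit 5) (nat_lit 11) (nat_lit 4)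 (nat_lit 429) (nat_lit 253) (nat_lit 218)))))) (XT.nd (nat_lit 546) (nat_lit 76) (nat_lit 0) (XT.nd (nat_lit 234) (nat_lit 76) (nat_lit 0) (XT.nd (nat_lit 78) (nat_lit 76) (nat_lit 0) (XT.lf (nat_lit 0) (nat_lit 27664652551) (nat_lit 76) (nat_lit 11840140313) (nat_lit 76) (nat_lit 6487786437) (nat_lit 10) (nat_lit 4) (nat_lit 11) (nat_lit 5) (nat_lit 11) (nat_lit 4) (nat_lit 430) (nat_lit 253) (nat_lit 217)) (XT.nd (nat_lit 78) (nat_lit 76) (nat_lit 0) (XT.lf (nat_lit 0) (nat_lit 37767106290) (nat_lit 76) (nat_lit 7448166064) (nat_lit 76) (nat_lit 2013688402) (nat_lit 10) (nat_lit 4) (nat_lit 11) (nat_lit 5) (nat_lit 11) (nat_lit 4) (nat_lit 431) (nat_lit 253) (nat_lit 216)) (XT.lf (nat_lit 0) (nat_lit 2487200881) (nat_lit 152) (nat_lit 465191703) (nat_lit 76) (nat_lit 45551000083) (nat_lit 9) (nat_lit 5) (nat_lit 11) (nat_lit 5) (nat_lit 10) (nat_lit 4) (nat_lit 432) (nat_lit 253) (nat_lit 215)))) (XT.nd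 (nat_lit 156) (nat_lit 0) (nat_lit 0) (XT.nd (nat_lit 78) (nat_lit 0) (nat_lit 0) (XT.lf (nat_lit 0) (nat_lit 7129209318) (nat_lit 152) (nat_lit 40984403275) (nat_lit 0) (nat_lit 1700452972) (nat_lit 8) (nat_lit 5) (nat_lit 10) (nat_lit 4) (nat_lit 8) (nat_lit 4) (nat_lit 433) (nat_lit 253) (nat_lit 214)) (XT.lf (nat_lit 0) (nat_lit 11889396299) (nat_lit 152) (nat_lit 32887623803) (nat_lit 0) (nat_lit 6387674033) (nat_lit 8) (nat_lit 5) (nat_lit 10) (nat_lit 4) (nat_lit 8) (nat_lit 4) (nat_lit 434) (nat_lit 253) (nat_lit 213))) (XT.nd (nat_lit 78) (nat_lit 0) (nat_lit 0) (XT.lf (nat_lit 0) (nat_lit 16738935149) (nat_lit 152) (nat_lit 24652140786) (nat_lit 0) (nat_lit 11166372184) (nat_lit 8) (nat_lit 5) (nat_lit 10) (nat_lit 4) (nat_lit 8) (nat_lit 4) (nat_lit 435) (nat_lit 253) (nat_lit 212)) (XT.lf (nat_lit 0) (nat_lit 21682063328) (nat_lit 152) (nat_lit 16270758171) (nat_lit 0) (nat_lit 16040722986)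 (nat_lit 8) (nat_lit 5) (nat_lit 10) (nat_lit 4) (nat_lit 8) (nat_lit 4) (nat_lit 436) (nat_lit 253) (nat_lit 211))))) (XT.nd (nat_lit 234) (nat_lit 0) (nat_lit 0) (XT.nd (nat_lit 78) (nat_lit 76) (nat_lit 0) (XT.lf (nat_lit 0) (nat_lit 26723100076) (nat_lit 152) (nat_lit 7736152421) (nat_lit 0) (nat_lit 21014985581) (nat_lit 8) (nat_lit 5) (nat_lit 10) (nat_lit 4) (nat_lit 8) (nat_lit 4) (nat_lit 437) (nat_lit 253) (nat_lit 210)) (XT.nd (nat_lit 78) (nat_lit 0) (nat_lit 0) (XT.lf (nat_lit 0) (nat_lit 978222531) (nat_lit 76) (nat_lit 30897630922) (nat_lit 76) (nat_lit 25124687152) (nat_lit 7) (nat_lit 4) (nat_lit 8) (nat_lit 5) (nat_lit 8) (nat_lit 4) (nat_lit 438) (nat_lit 253) (nat_lit 209)) (XT.lf (nat_lit 0) (nat_lit 10018189538) (nat_lit 76) (nat_lit 27194719260) (nat_lit 76) (nat_lit 21358834447) (nat_lit 7) (nat_lit 4) (nat_lit 8) (nat_lit 5) (nat_lit 8) (nat_lit 4) (nat_lit 439) (nat_lit 253) (nat_lit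 208)))) (XT.nd (nat_lit 156) (nat_lit 0) (nat_lit 0) (XT.nd (nat_lit 78) (nat_lit 0) (nat_lit 0) (XT.lf (nat_lit 0) (nat_lit 19237682996) (nat_lit 76) (nat_lit 23425401929) (nat_lit 76) (nat_lit 17528409306) (nat_lit 7) (nat_lit 4) (nat_lit 8) (nat_lit 5) (nat_lit 8) (nat_lit 4) (nat_lit 440) (nat_lit 253) (nat_lit 207)) (XT.lf (nat_lit 0) (nat_lit 28644758773) (nat_lit 76) (nat_lit 19586385349) (nat_lit 76) (nat_lit 13630064756) (nat_lit 7) (nat_lit 4) (nat_lit 8) (nat_lit 5) (nat_lit 8) (nat_lit 4) (nat_lit 441) (nat_lit 253) (nat_lit 206))) (XT.nd (nat_lit 78) (nat_lit 0) (nat_lit 0) (XT.lf (nat_lit 0) (nat_lit 38247636644) (nat_lit 76) (nat_lit 15674315040) (nat_lit 76) (nat_lit 9660394477) (nat_lit 7) (nat_lit 4) (nat_lit 8) (nat_lit 5) (nat_lit 8) (nat_lit 4) (nat_lit 442) (nat_lit 253) (nat_lit 205)) (XT.lf (nat_lit 0) (nat_lit 48054707474) (nat_lit 76) (nat_lit 11685772688) (nat_lit 76) (nat_lit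 5615929824) (nat_lit 7) (nat_lit 4) (nat_lit 8) (nat_lit 5) (nat_lit 8) (nat_lit 4) (nat_lit 443) (nat_lit 253) (nat_lit 204))))))))
noncomputable def xc16 : XT := (XT.nd (nat_lit 44304) (nat_lit 0) (nat_lit 228) (XT.nd (nat_lit 43290) (nat_lit 0) (nat_lit 988) (XT.nd (nat_lit 468) (nat_lit 0) (nat_lit 0) (XT.nd (nat_lit 234) (nat_lit 0) (nat_lit 0) (XT.nd (nat_lit 78) (nat_lit 152) (nat_lit 0) (XT.lf (nat_lit 0) (nat_lit 58074540548) (nat_lit 76) (nat_lit 7617273160) (nat_lit 76) (nat_lit 1493136799) (nat_lit 7) (nat_lit 4) (nat_lit 8) (nat_lit 5) (nat_lit 8) (nat_lit 4) (nat_lit 444) (nat_lit 253) (nat_lit 203)) (XT.nd (nat_lit 78) (nat_lit 76) (nat_lit 0) (XT.lf (nat_lit 0) (nat_lit 2658674208) (nat_lit 152) (nat_lit 779739851) (nat_lit 76) (nat_lit 65630369454) (nat_lit 6) (nat_lit 5) (nat_lit 8) (nat_lit 5) (nat_lit 7) (nat_lit 4) (nat_lit 445) (nat_lit 253) (nat_lit 202)) (XT.lf (nat_lit 0) (nat_lit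 6949710410) (nat_lit 152) (nat_lit 63154555333) (nat_lit 0) (nat_lit 903083883) (nat_lit 5) (nat_lit 5) (nat_lit 7) (nat_lit 4) (nat_lit 5) (nat_lit 4) (nat_lit 446) (nat_lit 253) (nat_lit 201)))) (XT.nd (nat_lit 78) (nat_lit 0) (nat_lit 0) (XT.lf (nat_lit 0) (nat_lit 11371786398) (nat_lit 152) (nat_lit 56355298266) (nat_lit 0) (nat_lit 5276920802) (nat_lit 5) (nat_lit 5) (nat_lit 7) (nat_lit 4) (nat_lit 5) (nat_lit 4) (nat_lit 447) (nat_lit 253) (nat_lit 200)) (XT.nd (nat_lit 78) (nat_lit 0) (nat_lit 0) (XT.lf (nat_lit 0) (nat_lit 15887993786) (nat_lit 152) (nat_lit 49427430926) (nat_lit 0) (nat_lit 9746294143) (nat_lit 5) (nat_lit 5) (nat_lit 7) (nat_lit 4) (nat_lit 5) (nat_lit 4) (nat_lit 448) (nat_lit 253) (nat_lit 199)) (XT.lf (nat_lit 0) (nat_lit 20502278775) (nat_lit 152) (nat_lit 42364899835) (nat_lit 0) (nat_lit 14315109183) (nat_lit 5) (nat_lit 5) (nat_lit 7) (nat_lit 4) (nat_lit 5) (nat_lit 4)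 (nat_lit 449) (nat_lit 253) (nat_lit 198))))) (XT.nd (nat_lit 42510) (nat_lit 0) (nat_lit 1596) (XT.nd (nat_lit 42354) (nat_lit 0) (nat_lit 1976) (XT.lf (nat_lit 0) (nat_lit 25218673264) (nat_lit 152) (nat_lit 35161533851) (nat_lit 0) (nat_lit 18987358091) (nat_lit 5) (nat_lit 5) (nat_lit 7) (nat_lit 4) (nat_lit 5) (nat_lit 4) (nat_lit 450) (nat_lit 253) (nat_lit 197)) (XT.nd (nat_lit 78) (nat_lit 0) (nat_lit 0) (XT.lf (nat_lit 0) (nat_lit 3371811731) (nat_lit 152) (nat_lit 2992162487) (nat_lit 152) (nat_lit 2992162487) (nat_lit 31) (nat_lit 4) (nat_lit 33) (nat_lit 5) (nat_lit 33) (nat_lit 4) (nat_lit 392) (nat_lit 254) (nat_lit 254)) (XT.lf (nat_lit 0) (nat_lit 17961442536) (nat_lit 152) (nat_lit 718333243) (nat_lit 152) (nat_lit 416819684) (nat_lit 31) (nat_lit 4) (nat_lit 33) (nat_lit 5) (nat_lit 33) (nat_lit 4) (nat_lit 393) (nat_lit 254) (nat_lit 253)))) (XT.nd (nat_lit 156) (nat_lit 152) (nat_lit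 0) (XT.nd (nat_lit 78) (nat_lit 76) (nat_lit 0) (XT.lf (nat_lit 0) (nat_lit 5240560025) (nat_lit 152) (nat_lit 9585943973) (nat_lit 0) (nat_lit 4663622967) (nat_lit 29) (nat_lit 5) (nat_lit 31) (nat_lit 4) (nat_lit 29) (nat_lit 4) (nat_lit 394) (nat_lit 254) (nat_lit 252)) (XT.lf (nat_lit 0) (nat_lit 1199410232) (nat_lit 76) (nat_lit 9775666363) (nat_lit 76) (nat_lit 8922801686) (nat_lit 28) (nat_lit 4) (nat_lit 29) (nat_lit 5) (nat_lit 29) (nat_lit 4) (nat_lit 395) (nat_lit 254) (nat_lit 251))) (XT.nd (nat_lit 78) (nat_lit 152) (nat_lit 0) (XT.lf (nat_lit 0) (nat_lit 12291450229) (nat_lit 76) (nat_lit 4573834465) (nat_lit 76) (nat_lit 3453078896) (nat_lit 28) (nat_lit 4) (nat_lit 29) (nat_lit 5) (nat_lit 29) (nat_lit 4) (nat_lit 396) (nat_lit 254) (nat_lit 250)) (XT.lf (nat_lit 0) (nat_lit 2061107428) (nat_lit 152) (nat_lit 17971567507) (nat_lit 0) (nat_lit 720482366) (nat_lit 26) (nat_lit 5) (nat_lit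 28) (nat_lit 4) (nat_lit 26) (nat_lit 4) (nat_lit 397) (nat_lit 254) (nat_lit 249)))))) (XT.nd (nat_lit 468) (nat_lit 304) (nat_lit 0) (XT.nd (nat_lit 234) (nat_lit 228) (nat_lit 0) (XT.nd (nat_lit 78) (nat_lit 76) (nat_lit 0) (XT.lf (nat_lit 0) (nat_lit 7687814093) (nat_lit 152) (nat_lit 7409639392) (nat_lit 0) (nat_lit 6102030916) (nat_lit 26) (nat_lit 5) (nat_lit 28) (nat_lit 4) (nat_lit 26) (nat_lit 4) (nat_lit 398) (nat_lit 254) (nat_lit 248)) (XT.nd (nat_lit 78) (nat_lit 0) (nat_lit 0) (XT.lf (nat_lit 0) (nat_lit 3330553957) (nat_lit 76) (nat_lit 10077360125) (nat_lit 76) (nat_lit 8253559361) (nat_lit 25) (nat_lit 4) (nat_lit 26) (nat_lit 5) (nat_lit 26) (nat_lit 4) (nat_lit 399) (nat_lit 254) (nat_lit 247)) (XT.lf (nat_lit 0) (nat_lit 14343255655) (nat_lit 76) (nat_lit 4924952093) (nat_lit 76) (nat_lit 2870066292) (nat_lit 25) (nat_lit 4) (nat_lit 26) (nat_lit 5) (nat_lit 26) (nat_lit 4) (nat_lit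 400) (nat_lit 254) (nat_lit 246)))) (XT.nd (nat_lit 78) (nat_lit 76) (nat_lit 0) (XT.lf (nat_lit 0) (nat_lit 2549646479) (nat_lit 152) (nat_lit 19744370555) (nat_lit 0) (nat_lit 336791910) (nat_lit 23) (nat_lit 5) (nat_lit 25) (nat_lit 4) (nat_lit 23) (nat_lit 4) (nat_lit 401) (nat_lit 254) (nat_lit 245)) (XT.nd (nat_lit 78) (nat_lit 76) (nat_lit 0) (XT.lf (nat_lit 0) (nat_lit 8098611326) (nat_lit 152) (nat_lit 9363653265) (nat_lit 0) (nat_lit 5674281213) (nat_lit 23) (nat_lit 5) (nat_lit 25) (nat_lit 4) (nat_lit 23) (nat_lit 4) (nat_lit 402) (nat_lit 254) (nat_lit 244)) (XT.lf (nat_lit 0) (nat_lit 1158800678) (nat_lit 76) (nat_lit 12565500559) (nat_lit 76) (nat_lit 9935854384) (nat_lit 22) (nat_lit 4) (nat_lit 23) (nat_lit 5) (nat_lit 23) (nat_lit 4) (nat_lit 403) (nat_lit 254) (nat_lit 243))))) (XT.nd (nat_lit 234) (nat_lit 152) (nat_lit 0) (XT.nd (nat_lit 78) (nat_lit 152) (nat_lit 0) (XT.lf (nat_lit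 0) (nat_lit 11998461981) (nat_lit 76) (nat_lit 7515079404) (nat_lit 76) (nat_lit 4686097247) (nat_lit 22) (nat_lit 4) (nat_lit 23) (nat_lit 5) (nat_lit 23) (nat_lit 4) (nat_lit 404) (nat_lit 254) (nat_lit 242)) (XT.nd (nat_lit 78) (nat_lit 76) (nat_lit 0) (XT.lf (nat_lit 0) (nat_lit 609244402) (nat_lit 152) (nat_lit 1785746099) (nat_lit 76) (nat_lit 22363050555) (nat_lit 21) (nat_lit 5) (nat_lit 23) (nat_lit 5) (nat_lit 22) (nat_lit 4) (nat_lit 405) (nat_lit 254) (nat_lit 241)) (XT.lf (nat_lit 0) (nat_lit 5987855707) (nat_lit 152) (nat_lit 16472440512) (nat_lit 0) (nat_lit 2870957146) (nat_lit 20) (nat_lit 5) (nat_lit 22) (nat_lit 4) (nat_lit 20) (nat_lit 4) (nat_lit 406) (nat_lit 254) (nat_lit 240)))) (XT.nd (nat_lit 156) (nat_lit 76) (nat_lit 0) (XT.nd (nat_lit 78) (nat_lit 76) (nat_lit 0) (XT.lf (nat_lit 0) (nat_lit 11474979661) (nat_lit 152) (nat_lit 6267301454) (nat_lit 0) (nat_lit 8180973661) (nat_lit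 20) (nat_lit 5) (nat_lit 22) (nat_lit 4) (nat_lit 20) (nat_lit 4) (nat_lit 407) (nat_lit 254) (nat_lit 239)) (XT.lf (nat_lit 0) (nat_lit 4148632272) (nat_lit 76) (nat_lit 12925954988) (nat_lit 76) (nat_lit 9460000018) (nat_lit 19) (nat_lit 4) (nat_lit 20) (nat_lit 5) (nat_lit 20) (nat_lit 4) (nat_lit 408) (nat_lit 254) (nat_lit 238))) (XT.nd (nat_lit 78) (nat_lit 76) (nat_lit 0) (XT.lf (nat_lit 0) (nat_lit 14830931857) (nat_lit 76) (nat_lit 7983531079) (nat_lit 76) (nat_lit 4350635362) (nat_lit 19) (nat_lit 4) (nat_lit 20) (nat_lit 5) (nat_lit 20) (nat_lit 4) (nat_lit 409) (nat_lit 254) (nat_lit 237)) (XT.lf (nat_lit 0) (nat_lit 804975301) (nat_lit 152) (nat_lit 2160874249) (nat_lit 76) (nat_lit 24851095786) (nat_lit 18) (nat_lit 5) (nat_lit 20) (nat_lit 5) (nat_lit 19) (nat_lit 4) (nat_lit 410) (nat_lit 254) (nat_lit 236))))))) (XT.nd (nat_lit 1014) (nat_lit 304) (nat_lit 0) (XT.nd (nat_lit 468) (nat_lit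 228) (nat_lit 0) (XT.nd (nat_lit 234) (nat_lit 152) (nat_lit 0) (XT.nd (nat_lit 78) (nat_lit 0) (nat_lit 0) (XT.lf (nat_lit 0) (nat_lit 6042282593) (nat_lit 152) (nat_lit 20239277848) (nat_lit 0) (nat_lit 2205067274) (nat_lit 17) (nat_lit 5) (nat_lit 19) (nat_lit 4) (nat_lit 17) (nat_lit 4) (nat_lit 411) (nat_lit 254) (nat_lit 235)) (XT.nd (nat_lit 78) (nat_lit 0) (nat_lit 0) (XT.lf (nat_lit 0) (nat_lit 11401652990) (nat_lit 152) (nat_lit 10359692443) (nat_lit 0) (nat_lit 7416112980) (nat_lit 17) (nat_lit 5) (nat_lit 19) (nat_lit 4) (nat_lit 17) (nat_lit 4) (nat_lit 412) (nat_lit 254) (nat_lit 234)) (XT.lf (nat_lit 0) (nat_lit 16837865084) (nat_lit 152) (nat_lit 345352597) (nat_lit 0) (nat_lit 12708320519) (nat_lit 17) (nat_lit 5) (nat_lit 19) (nat_lit 4) (nat_lit 17) (nat_lit 4) (nat_lit 413) (nat_lit 254) (nat_lit 233)))) (XT.nd (nat_lit 78) (nat_lit 76) (nat_lit 0) (XT.lf (nat_lit 0) (nat_lit 10007779915)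 (nat_lit 76) (nat_lit 12444089950) (nat_lit 76) (nat_lit 8174735138) (nat_lit 16) (nat_lit 4) (nat_lit 17) (nat_lit 5) (nat_lit 17) (nat_lit 4) (nat_lit 414) (nat_lit 254) (nat_lit 232)) (XT.nd (nat_lit 78) (nat_lit 76) (nat_lit 0) (XT.lf (nat_lit 0) (nat_lit 20523198917) (nat_lit 76) (nat_lit 7633968634) (nat_lit 76) (nat_lit 3228875718) (nat_lit 16) (nat_lit 4) (nat_lit 17) (nat_lit 5) (nat_lit 17) (nat_lit 4) (nat_lit 415) (nat_lit 254) (nat_lit 231)) (XT.lf (nat_lit 0) (nat_lit 1749912689) (nat_lit 152) (nat_lit 984554723) (nat_lit 76) (nat_lit 29435636066) (nat_lit 15) (nat_lit 5) (nat_lit 17) (nat_lit 5) (nat_lit 16) (nat_lit 4) (nat_lit 416) (nat_lit 254) (nat_lit 230))))) (XT.nd (nat_lit 234) (nat_lit 152) (nat_lit 0) (XT.nd (nat_lit 78) (nat_lit 0) (nat_lit 0) (XT.lf (nat_lit 0) (nat_lit 6847488147) (nat_lit 152) (nat_lit 23809680690) (nat_lit 0) (nat_lit 2318533131) (nat_lit 14) (nat_lit 5) (nat_lit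 16) (nat_lit 4) (nat_lit 14) (nat_lit 4) (nat_lit 417) (nat_lit 254) (nat_lit 229)) (XT.nd (nat_lit 78) (nat_lit 0) (nat_lit 0) (XT.lf (nat_lit 0) (nat_lit 12058508356) (nat_lit 152) (nat_lit 14339197751) (nat_lit 0) (nat_lit 7408951793) (nat_lit 14) (nat_lit 5) (nat_lit 16) (nat_lit 4) (nat_lit 14) (nat_lit 4) (nat_lit 418) (nat_lit 254) (nat_lit 228)) (XT.lf (nat_lit 0) (nat_lit 17351493196) (nat_lit 152) (nat_lit 4728437409) (nat_lit 0) (nat_lit 12584847752) (nat_lit 14) (nat_lit 5) (nat_lit 16) (nat_lit 4) (nat_lit 14) (nat_lit 4) (nat_lit 419) (nat_lit 254) (nat_lit 227)))) (XT.nd (nat_lit 156) (nat_lit 76) (nat_lit 0) (XT.nd (nat_lit 78) (nat_lit 0) (nat_lit 0) (XT.lf (nat_lit 0) (nat_lit 5131124813) (nat_lit 76) (nat_lit 17649266302) (nat_lit 76) (nat_lit 12768942332) (nat_lit 13) (nat_lit 4) (nat_lit 14) (nat_lit 5) (nat_lit 14) (nat_lit 4) (nat_lit 420) (nat_lit 254) (nat_lit 226)) (XT.lf (nat_lit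 0) (nat_lit 15245123673) (nat_lit 76) (nat_lit 13103353962) (nat_lit 76) (nat_lit 8112662491) (nat_lit 13) (nat_lit 4) (nat_lit 14) (nat_lit 5) (nat_lit 14) (nat_lit 4) (nat_lit 421) (nat_lit 254) (nat_lit 225))) (XT.nd (nat_lit 78) (nat_lit 76) (nat_lit 0) (XT.lf (nat_lit 0) (nat_lit 25528291468) (nat_lit 76) (nat_lit 8485969376) (nat_lit 76) (nat_lit 3388124992) (nat_lit 13) (nat_lit 4) (nat_lit 14) (nat_lit 5) (nat_lit 14) (nat_lit 4) (nat_lit 422) (nat_lit 254) (nat_lit 224)) (XT.lf (nat_lit 0) (nat_lit 1381307669) (nat_lit 152) (nat_lit 2397821768) (nat_lit 76) (nat_lit 34594357323) (nat_lit 12) (nat_lit 5) (nat_lit 14) (nat_lit 5) (nat_lit 13) (nat_lit 4) (nat_lit 423) (nat_lit 254) (nat_lit 223)))))) (XT.nd (nat_lit 546) (nat_lit 152) (nat_lit 0) (XT.nd (nat_lit 234) (nat_lit 76) (nat_lit 0) (XT.nd (nat_lit 78) (nat_lit 0) (nat_lit 0) (XT.lf (nat_lit 0) (nat_lit 6241021904) (nat_lit 152) (nat_lit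 32038641181) (nat_lit 0) (nat_lit 1092596432) (nat_lit 11) (nat_lit 5) (nat_lit 13) (nat_lit 4) (nat_lit 11) (nat_lit 4) (nat_lit 424) (nat_lit 254) (nat_lit 222)) (XT.nd (nat_lit 78) (nat_lit 0) (nat_lit 0) (XT.lf (nat_lit 0) (nat_lit 11242497791) (nat_lit 152) (nat_lit 23159754172) (nat_lit 0) (nat_lit 5998868344) (nat_lit 11) (nat_lit 5) (nat_lit 13) (nat_lit 4) (nat_lit 11) (nat_lit 4) (nat_lit 425) (nat_lit 254) (nat_lit 221)) (XT.lf (nat_lit 0) (nat_lit 16330037440) (nat_lit 152) (nat_lit 14138755789) (nat_lit 0) (nat_lit 10993976949) (nat_lit 11) (nat_lit 5) (nat_lit 13) (nat_lit 4) (nat_lit 11) (nat_lit 4) (nat_lit 426) (nat_lit 254) (nat_lit 220)))) (XT.nd (nat_lit 156) (nat_lit 0) (nat_lit 0) (XT.nd (nat_lit 78) (nat_lit 76) (nat_lit 0) (XT.lf (nat_lit 0) (nat_lit 21508086273) (nat_lit 152) (nat_lit 4967763607) (nat_lit 0) (nat_lit 16082286904) (nat_lit 11) (nat_lit 5) (nat_lit 13) (nat_lit 4)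 (nat_lit 11) (nat_lit 4) (nat_lit 427) (nat_lit 254) (nat_lit 219)) (XT.lf (nat_lit 0) (nat_lit 4448033005) (nat_lit 76) (nat_lit 22375893008) (nat_lit 76) (nat_lit 16862968515) (nat_lit 10) (nat_lit 4) (nat_lit 11) (nat_lit 5) (nat_lit 11) (nat_lit 4) (nat_lit 428) (nat_lit 254) (nat_lit 218))) (XT.nd (nat_lit 78) (nat_lit 0) (nat_lit 0) (XT.lf (nat_lit 0) (nat_lit 14132163582) (nat_lit 76) (nat_lit 18157575985) (nat_lit 76) (nat_lit 12560063994) (nat_lit 10) (nat_lit 4) (nat_lit 11) (nat_lit 5) (nat_lit 11) (nat_lit 4) (nat_lit 429) (nat_lit 254) (nat_lit 217)) (XT.lf (nat_lit 0) (nat_lit 23994221748) (nat_lit 76) (nat_lit 13867377577) (nat_lit 76) (nat_lit 8187741800) (nat_lit 10) (nat_lit 4) (nat_lit 11) (nat_lit 5) (nat_lit 11) (nat_lit 4) (nat_lit 430) (nat_lit 254) (nat_lit 216))))) (XT.nd (nat_lit 234) (nat_lit 0) (nat_lit 0) (XT.nd (nat_lit 78) (nat_lit 152) (nat_lit 0) (XT.lf (nat_lit 0) (nat_lit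 34042824834) (nat_lit 76) (nat_lit 9501549067) (nat_lit 76) (nat_lit 3742181459) (nat_lit 10) (nat_lit 4) (nat_lit 11) (nat_lit 5) (nat_lit 11) (nat_lit 4) (nat_lit 431) (nat_lit 254) (nat_lit 215)) (XT.nd (nat_lit 78) (nat_lit 76) (nat_lit 0) (XT.lf (nat_lit 0) (nat_lit 765271104) (nat_lit 152) (nat_lit 4283276809) (nat_lit 76) (nat_lit 43513754331) (nat_lit 9) (nat_lit 5) (nat_lit 11) (nat_lit 5) (nat_lit 10) (nat_lit 4) (nat_lit 432) (nat_lit 254) (nat_lit 214)) (XT.lf (nat_lit 0) (nat_lit 4900454551) (nat_lit 76) (nat_lit 425844266) (nat_lit 152) (nat_lit 44549107242) (nat_lit 8) (nat_lit 5) (nat_lit 9) (nat_lit 5) (nat_lit 10) (nat_lit 4) (nat_lit 433) (nat_lit 254) (nat_lit 213)))) (XT.nd (nat_lit 156) (nat_lit 0) (nat_lit 0) (XT.nd (nat_lit 78) (nat_lit 0) (nat_lit 0) (XT.lf (nat_lit 0) (nat_lit 10056060431) (nat_lit 152) (nat_lit 36925408531) (nat_lit 0) (nat_lit 4245479879) (nat_lit 8) (nat_lit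 5) (nat_lit 10) (nat_lit 4) (nat_lit 8) (nat_lit 4) (nat_lit 434) (nat_lit 254) (nat_lit 212)) (XT.lf (nat_lit 0) (nat_lit 14880034337) (nat_lit 152) (nat_lit 28739760436) (nat_lit 0) (nat_lit 9000676407) (nat_lit 8) (nat_lit 5) (nat_lit 10) (nat_lit 4) (nat_lit 8) (nat_lit 4) (nat_lit 435) (nat_lit 254) (nat_lit 211))) (XT.nd (nat_lit 78) (nat_lit 0) (nat_lit 0) (XT.lf (nat_lit 0) (nat_lit 19798342183) (nat_lit 152) (nat_lit 20406761242) (nat_lit 0) (nat_lit 13852210100) (nat_lit 8) (nat_lit 5) (nat_lit 10) (nat_lit 4) (nat_lit 8) (nat_lit 4) (nat_lit 436) (nat_lit 254) (nat_lit 210)) (XT.lf (nat_lit 0) (nat_lit 24815281519) (nat_lit 152) (nat_lit 11919129686) (nat_lit 0) (nat_lit 18804320162) (nat_lit 8) (nat_lit 5) (nat_lit 10) (nat_lit 4) (nat_lit 8) (nat_lit 4) (nat_lit 437) (nat_lit 254) (nat_lit 209))))))))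
noncomputable def xc17 : XT := (XT.nd (nat_lit 44226) (nat_lit 0) (nat_lit 380) (XT.nd (nat_lit 43134) (nat_lit 0) (nat_lit 1368) (XT.nd (nat_lit 468) (nat_lit 152) (nat_lit 0) (XT.nd (nat_lit 234) (nat_lit 0) (nat_lit 0) (XT.nd (nat_lit 78) (nat_lit 76) (nat_lit 0) (XT.lf (nat_lit 0) (nat_lit 29935236079) (nat_lit 152) (nat_lit 3269449391) (nat_lit 0) (nat_lit 23861333678) (nat_lit 8) (nat_lit 5) (nat_lit 10) (nat_lit 4) (nat_lit 8) (nat_lit 4) (nat_lit 438) (nat_lit 254) (nat_lit 208)) (XT.nd (nat_lit 78) (nat_lit 0) (nat_lit 0) (XT.lf (nat_lit 0) (nat_lit 5660290265) (nat_lit 76) (nat_lit 29556799517) (nat_lit 76) (nat_lit 23421789307) (nat_lit 7) (nat_lit 4) (nat_lit 8) (nat_lit 5) (nat_lit 8) (nat_lit 4) (nat_lit 439) (nat_lit 254) (nat_lit 207)) (XT.lf (nat_lit 0) (nat_lit 14835940134) (nat_lit 76) (nat_lit 25808851777) (nat_lit 76) (nat_lit 19614513597) (nat_lit 7) (nat_lit 4) (nat_lit 8) (nat_lit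 5) (nat_lit 8) (nat_lit 4) (nat_lit 440) (nat_lit 254) (nat_lit 206)))) (XT.nd (nat_lit 78) (nat_lit 0) (nat_lit 0) (XT.lf (nat_lit 0) (nat_lit 24200449321) (nat_lit 76) (nat_lit 21990582374) (nat_lit 76) (nat_lit 15738644223) (nat_lit 7) (nat_lit 4) (nat_lit 8) (nat_lit 5) (nat_lit 8) (nat_lit 4) (nat_lit 441) (nat_lit 254) (nat_lit 205)) (XT.nd (nat_lit 78) (nat_lit 0) (nat_lit 0) (XT.lf (nat_lit 0) (nat_lit 33762000405) (nat_lit 76) (nat_lit 18098654955) (nat_lit 76) (nat_lit 11790794502) (nat_lit 7) (nat_lit 4) (nat_lit 8) (nat_lit 5) (nat_lit 8) (nat_lit 4) (nat_lit 442) (nat_lit 254) (nat_lit 204)) (XT.lf (nat_lit 0) (nat_lit 43528948141) (nat_lit 76) (nat_lit 14129668807) (nat_lit 76) (nat_lit 7767514858) (nat_lit 7) (nat_lit 4) (nat_lit 8) (nat_lit 5) (nat_lit 8) (nat_lit 4) (nat_lit 443) (nat_lit 254) (nat_lit 203))))) (XT.nd (nat_lit 234) (nat_lit 0) (nat_lit 0) (XT.nd (nat_lit 78) (nat_lit 152)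 (nat_lit 0) (XT.lf (nat_lit 0) (nat_lit 53509826754) (nat_lit 76) (nat_lit 10080155885) (nat_lit 76) (nat_lit 3665289803) (nat_lit 7) (nat_lit 4) (nat_lit 8) (nat_lit 5) (nat_lit 8) (nat_lit 4) (nat_lit 444) (nat_lit 254) (nat_lit 202)) (XT.nd (nat_lit 78) (nat_lit 76) (nat_lit 0) (XT.lf (nat_lit 0) (nat_lit 509328495) (nat_lit 152) (nat_lit 5432106064) (nat_lit 76) (nat_lit 63198885685) (nat_lit 6) (nat_lit 5) (nat_lit 8) (nat_lit 5) (nat_lit 7) (nat_lit 4) (nat_lit 445) (nat_lit 254) (nat_lit 201)) (XT.lf (nat_lit 0) (nat_lit 3079120313) (nat_lit 76) (nat_lit 1647406516) (nat_lit 152) (nat_lit 66354575652) (nat_lit 5) (nat_lit 5) (nat_lit 6) (nat_lit 5) (nat_lit 7) (nat_lit 4) (nat_lit 446) (nat_lit 254) (nat_lit 200)))) (XT.nd (nat_lit 156) (nat_lit 0) (nat_lit 0) (XT.nd (nat_lit 78) (nat_lit 0) (nat_lit 0) (XT.lf (nat_lit 0) (nat_lit 9113786209) (nat_lit 152) (nat_lit 61224016039) (nat_lit 0) (nat_lit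 2741001530) (nat_lit 5) (nat_lit 5) (nat_lit 7) (nat_lit 4) (nat_lit 5) (nat_lit 4) (nat_lit 447) (nat_lit 254) (nat_lit 199)) (XT.lf (nat_lit 0) (nat_lit 13611565706) (nat_lit 152) (nat_lit 54332194152) (nat_lit 0) (nat_lit 7193311077) (nat_lit 5) (nat_lit 5) (nat_lit 7) (nat_lit 4) (nat_lit 5) (nat_lit 4) (nat_lit 448) (nat_lit 254) (nat_lit 198))) (XT.nd (nat_lit 78) (nat_lit 0) (nat_lit 0) (XT.lf (nat_lit 0) (nat_lit 18207959537) (nat_lit 152) (nat_lit 47304658647) (nat_lit 0) (nat_lit 11745559327) (nat_lit 5) (nat_lit 5) (nat_lit 7) (nat_lit 4) (nat_lit 5) (nat_lit 4) (nat_lit 449) (nat_lit 254) (nat_lit 197)) (XT.lf (nat_lit 0) (nat_lit 22906983971) (nat_lit 152) (nat_lit 40135268960) (nat_lit 0) (nat_lit 16401723973) (nat_lit 5) (nat_lit 5) (nat_lit 7) (nat_lit 4) (nat_lit 5) (nat_lit 4) (nat_lit 450) (nat_lit 254) (nat_lit 196)))))) (XT.nd (nat_lit 546) (nat_lit 380) (nat_lit 0) (XT.nd (nat_lit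 234) (nat_lit 228) (nat_lit 0) (XT.nd (nat_lit 78) (nat_lit 152) (nat_lit 0) (XT.lf (nat_lit 0) (nat_lit 757426431) (nat_lit 152) (nat_lit 7475629824) (nat_lit 0) (nat_lit 757426431) (nat_lit 33) (nat_lit 5) (nat_lit 35) (nat_lit 4) (nat_lit 33) (nat_lit 4) (nat_lit 390) (nat_lit 255) (nat_lit 255)) (XT.nd (nat_lit 78) (nat_lit 152) (nat_lit 0) (XT.lf (nat_lit 0) (nat_lit 7188322543) (nat_lit 152) (nat_lit 4275222610) (nat_lit 0) (nat_lit 6877763577) (nat_lit 33) (nat_lit 5) (nat_lit 35) (nat_lit 4) (nat_lit 33) (nat_lit 4) (nat_lit 391) (nat_lit 255) (nat_lit 254)) (XT.lf (nat_lit 0) (nat_lit 6635628263) (nat_lit 152) (nat_lit 6345226711) (nat_lit 152) (nat_lit 5733154186) (nat_lit 31) (nat_lit 4) (nat_lit 33) (nat_lit 5) (nat_lit 33) (nat_lit 4) (nat_lit 392) (nat_lit 255) (nat_lit 253)))) (XT.nd (nat_lit 156) (nat_lit 76) (nat_lit 0) (XT.nd (nat_lit 78) (nat_lit 152) (nat_lit 0) (XT.lf (nat_lit 0) (nat_lit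 17748597628) (nat_lit 152) (nat_lit 1128111454) (nat_lit 152) (nat_lit 223307319) (nat_lit 31) (nat_lit 4) (nat_lit 33) (nat_lit 5) (nat_lit 33) (nat_lit 4) (nat_lit 393) (nat_lit 255) (nat_lit 252)) (XT.lf (nat_lit 0) (nat_lit 5367849058) (nat_lit 152) (nat_lit 9914051283) (nat_lit 0) (nat_lit 4213470823) (nat_lit 29) (nat_lit 5) (nat_lit 31) (nat_lit 4) (nat_lit 29) (nat_lit 4) (nat_lit 394) (nat_lit 255) (nat_lit 251))) (XT.nd (nat_lit 78) (nat_lit 0) (nat_lit 0) (XT.lf (nat_lit 0) (nat_lit 759660978) (nat_lit 76) (nat_lit 10283752342) (nat_lit 76) (nat_lit 8861483214) (nat_lit 28) (nat_lit 4) (nat_lit 29) (nat_lit 5) (nat_lit 29) (nat_lit 4) (nat_lit 395) (nat_lit 255) (nat_lit 250)) (XT.lf (nat_lit 0) (nat_lit 11749650524) (nat_lit 76) (nat_lit 5129858691) (nat_lit 76) (nat_lit 3447501319) (nat_lit 28) (nat_lit 4) (nat_lit 29) (nat_lit 5) (nat_lit 29) (nat_lit 4) (nat_lit 396) (nat_lit 255) (nat_lit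 249))))) (XT.nd (nat_lit 234) (nat_lit 152) (nat_lit 0) (XT.nd (nat_lit 78) (nat_lit 76) (nat_lit 0) (XT.lf (nat_lit 0) (nat_lit 2001275988) (nat_lit 152) (nat_lit 18639729474) (nat_lit 0) (nat_lit 122761200) (nat_lit 26) (nat_lit 5) (nat_lit 28) (nat_lit 4) (nat_lit 26) (nat_lit 4) (nat_lit 397) (nat_lit 255) (nat_lit 248)) (XT.nd (nat_lit 78) (nat_lit 76) (nat_lit 0) (XT.lf (nat_lit 0) (nat_lit 7575064821) (nat_lit 152) (nat_lit 8178088903) (nat_lit 0) (nat_lit 5458532447) (nat_lit 26) (nat_lit 5) (nat_lit 28) (nat_lit 4) (nat_lit 26) (nat_lit 4) (nat_lit 398) (nat_lit 255) (nat_lit 247)) (XT.lf (nat_lit 0) (nat_lit 2447506461) (nat_lit 76) (nat_lit 10787793421) (nat_lit 76) (nat_lit 8440176010) (nat_lit 25) (nat_lit 4) (nat_lit 26) (nat_lit 5) (nat_lit 26) (nat_lit 4) (nat_lit 399) (nat_lit 255) (nat_lit 246)))) (XT.nd (nat_lit 156) (nat_lit 0) (nat_lit 0) (XT.nd (nat_lit 78) (nat_lit 152) (nat_lit 0)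 (XT.lf (nat_lit 0) (nat_lit 13363796186) (nat_lit 76) (nat_lit 5680990461) (nat_lit 76) (nat_lit 3109018645) (nat_lit 25) (nat_lit 4) (nat_lit 26) (nat_lit 5) (nat_lit 26) (nat_lit 4) (nat_lit 400) (nat_lit 255) (nat_lit 245)) (XT.lf (nat_lit 0) (nat_lit 1780906592) (nat_lit 76) (nat_lit 470668884) (nat_lit 152) (nat_lit 20396751401) (nat_lit 23) (nat_lit 5) (nat_lit 24) (nat_lit 5) (nat_lit 25) (nat_lit 4) (nat_lit 401) (nat_lit 255) (nat_lit 244))) (XT.nd (nat_lit 78) (nat_lit 0) (nat_lit 0) (XT.lf (nat_lit 0) (nat_lit 7746319916) (nat_lit 152) (nat_lit 10576906343) (nat_lit 0) (nat_lit 4832468295) (nat_lit 23) (nat_lit 5) (nat_lit 25) (nat_lit 4) (nat_lit 23) (nat_lit 4) (nat_lit 402) (nat_lit 255) (nat_lit 243)) (XT.lf (nat_lit 0) (nat_lit 13312622135) (nat_lit 152) (nat_lit 169033418) (nat_lit 0) (nat_lit 10199434531) (nat_lit 23) (nat_lit 5) (nat_lit 25) (nat_lit 4) (nat_lit 23) (nat_lit 4) (nat_lit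 403) (nat_lit 255) (nat_lit 242))))))) (XT.nd (nat_lit 1014) (nat_lit 380) (nat_lit 0) (XT.nd (nat_lit 468) (nat_lit 304) (nat_lit 0) (XT.nd (nat_lit 234) (nat_lit 76) (nat_lit 0) (XT.nd (nat_lit 78) (nat_lit 152) (nat_lit 0) (XT.lf (nat_lit 0) (nat_lit 10576196797) (nat_lit 76) (nat_lit 8476289610) (nat_lit 76) (nat_lit 5169571926) (nat_lit 22) (nat_lit 4) (nat_lit 23) (nat_lit 5) (nat_lit 23) (nat_lit 4) (nat_lit 404) (nat_lit 255) (nat_lit 241)) (XT.nd (nat_lit 78) (nat_lit 76) (nat_lit 0) (XT.lf (nat_lit 0) (nat_lit 88412762) (nat_lit 152) (nat_lit 3315133058) (nat_lit 76) (nat_lit 21378461835) (nat_lit 21) (nat_lit 5) (nat_lit 23) (nat_lit 5) (nat_lit 22) (nat_lit 4) (nat_lit 405) (nat_lit 255) (nat_lit 240)) (XT.lf (nat_lit 0) (nat_lit 5395502268) (nat_lit 152) (nat_lit 18136298327) (nat_lit 0) (nat_lit 1825568649) (nat_lit 20) (nat_lit 5) (nat_lit 22) (nat_lit 4) (nat_lit 20) (nat_lit 4) (nat_lit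 406) (nat_lit 255) (nat_lit 239)))) (XT.nd (nat_lit 78) (nat_lit 76) (nat_lit 0) (XT.lf (nat_lit 0) (nat_lit 10837301461) (nat_lit 152) (nat_lit 8018013585) (nat_lit 0) (nat_lit 7095418872) (nat_lit 20) (nat_lit 5) (nat_lit 22) (nat_lit 4) (nat_lit 20) (nat_lit 4) (nat_lit 407) (nat_lit 255) (nat_lit 238)) (XT.nd (nat_lit 78) (nat_lit 0) (nat_lit 0) (XT.lf (nat_lit 0) (nat_lit 2277074734) (nat_lit 76) (nat_lit 14097839148) (nat_lit 76) (nat_lit 10189015812) (nat_lit 19) (nat_lit 4) (nat_lit 20) (nat_lit 5) (nat_lit 20) (nat_lit 4) (nat_lit 408) (nat_lit 255) (nat_lit 237)) (XT.lf (nat_lit 0) (nat_lit 12875876452) (nat_lit 76) (nat_lit 9195387540) (nat_lit 76) (nat_lit 5124485808) (nat_lit 19) (nat_lit 4) (nat_lit 20) (nat_lit 5) (nat_lit 20) (nat_lit 4) (nat_lit 409) (nat_lit 255) (nat_lit 236))))) (XT.nd (nat_lit 234) (nat_lit 152) (nat_lit 0) (XT.nd (nat_lit 78) (nat_lit 76) (nat_lit 0) (XT.lf (nat_lit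 0) (nat_lit 3546080) (nat_lit 152) (nat_lit 4221060853) (nat_lit 76) (nat_lit 23624496577) (nat_lit 18) (nat_lit 5) (nat_lit 20) (nat_lit 5) (nat_lit 19) (nat_lit 4) (nat_lit 410) (nat_lit 255) (nat_lit 235)) (XT.nd (nat_lit 78) (nat_lit 0) (nat_lit 0) (XT.lf (nat_lit 0) (nat_lit 5165765588) (nat_lit 152) (nat_lit 22442941285) (nat_lit 0) (nat_lit 912334686) (nat_lit 17) (nat_lit 5) (nat_lit 19) (nat_lit 4) (nat_lit 17) (nat_lit 4) (nat_lit 411) (nat_lit 255) (nat_lit 234)) (XT.lf (nat_lit 0) (nat_lit 10483786520) (nat_lit 152) (nat_lit 12642978107) (nat_lit 0) (nat_lit 6086351063) (nat_lit 17) (nat_lit 5) (nat_lit 19) (nat_lit 4) (nat_lit 17) (nat_lit 4) (nat_lit 412) (nat_lit 255) (nat_lit 233)))) (XT.nd (nat_lit 156) (nat_lit 76) (nat_lit 0) (XT.nd (nat_lit 78) (nat_lit 76) (nat_lit 0) (XT.lf (nat_lit 0) (nat_lit 15879853501) (nat_lit 152) (nat_lit 2705941394) (nat_lit 0) (nat_lit 11342607797) (nat_lit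 17) (nat_lit 5) (nat_lit 19) (nat_lit 4) (nat_lit 17) (nat_lit 4) (nat_lit 413) (nat_lit 255) (nat_lit 232)) (XT.lf (nat_lit 0) (nat_lit 7523665513) (nat_lit 76) (nat_lit 13907338105) (nat_lit 76) (nat_lit 9234354296) (nat_lit 16) (nat_lit 4) (nat_lit 17) (nat_lit 5) (nat_lit 17) (nat_lit 4) (nat_lit 414) (nat_lit 255) (nat_lit 231))) (XT.nd (nat_lit 78) (nat_lit 76) (nat_lit 0) (XT.lf (nat_lit 0) (nat_lit 17964768728) (nat_lit 76) (nat_lit 9132977588) (nat_lit 76) (nat_lit 4328209212) (nat_lit 16) (nat_lit 4) (nat_lit 17) (nat_lit 5) (nat_lit 17) (nat_lit 4) (nat_lit 415) (nat_lit 255) (nat_lit 230)) (XT.lf (nat_lit 0) (nat_lit 634225942) (nat_lit 152) (nat_lit 3645235894) (nat_lit 76) (nat_lit 27932007626) (nat_lit 15) (nat_lit 5) (nat_lit 17) (nat_lit 5) (nat_lit 16) (nat_lit 4) (nat_lit 416) (nat_lit 255) (nat_lit 229)))))) (XT.nd (nat_lit 546) (nat_lit 228) (nat_lit 0) (XT.nd (nat_lit 234) (nat_lit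 76) (nat_lit 0) (XT.nd (nat_lit 78) (nat_lit 0) (nat_lit 0) (XT.lf (nat_lit 0) (nat_lit 5652874100) (nat_lit 152) (nat_lit 26623334848) (nat_lit 0) (nat_lit 743229292) (nat_lit 14) (nat_lit 5) (nat_lit 16) (nat_lit 4) (nat_lit 14) (nat_lit 4) (nat_lit 417) (nat_lit 255) (nat_lit 228)) (XT.nd (nat_lit 78) (nat_lit 0) (nat_lit 0) (XT.lf (nat_lit 0) (nat_lit 10827260824) (nat_lit 152) (nat_lit 17223707616) (nat_lit 0) (nat_lit 5800527134) (nat_lit 14) (nat_lit 5) (nat_lit 16) (nat_lit 4) (nat_lit 14) (nat_lit 4) (nat_lit 418) (nat_lit 255) (nat_lit 227)) (XT.lf (nat_lit 0) (nat_lit 16084679172) (nat_lit 152) (nat_lit 7681739223) (nat_lit 0) (nat_lit 10944266958) (nat_lit 14) (nat_lit 5) (nat_lit 16) (nat_lit 4) (nat_lit 14) (nat_lit 4) (nat_lit 419) (nat_lit 255) (nat_lit 226)))) (XT.nd (nat_lit 156) (nat_lit 0) (nat_lit 0) (XT.nd (nat_lit 78) (nat_lit 0) (nat_lit 0) (XT.lf (nat_lit 0) (nat_lit 2050928984)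 (nat_lit 76) (nat_lit 19398508806) (nat_lit 76) (nat_lit 14147729091) (nat_lit 13) (nat_lit 4) (nat_lit 14) (nat_lit 5) (nat_lit 14) (nat_lit 4) (nat_lit 420) (nat_lit 255) (nat_lit 225)) (XT.lf (nat_lit 0) (nat_lit 12098794332) (nat_lit 76) (nat_lit 14884569434) (nat_lit 76) (nat_lit 9526636806) (nat_lit 13) (nat_lit 4) (nat_lit 14) (nat_lit 5) (nat_lit 14) (nat_lit 4) (nat_lit 421) (nat_lit 255) (nat_lit 224))) (XT.nd (nat_lit 78) (nat_lit 0) (nat_lit 0) (XT.lf (nat_lit 0) (nat_lit 22317754834) (nat_lit 76) (nat_lit 10298226564) (nat_lit 76) (nat_lit 4836261982) (nat_lit 13) (nat_lit 4) (nat_lit 14) (nat_lit 5) (nat_lit 14) (nat_lit 4) (nat_lit 422) (nat_lit 255) (nat_lit 223)) (XT.lf (nat_lit 0) (nat_lit 32716739680) (nat_lit 76) (nat_lit 5635472713) (nat_lit 76) (nat_lit 72506233) (nat_lit 13) (nat_lit 4) (nat_lit 14) (nat_lit 5) (nat_lit 14) (nat_lit 4) (nat_lit 423) (nat_lit 255) (nat_lit 222)))))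 (XT.nd (nat_lit 234) (nat_lit 76) (nat_lit 0) (XT.nd (nat_lit 78) (nat_lit 0) (nat_lit 0) (XT.lf (nat_lit 0) (nat_lit 3906957573) (nat_lit 76) (nat_lit 806335110) (nat_lit 152) (nat_lit 34712481463) (nat_lit 11) (nat_lit 5) (nat_lit 12) (nat_lit 5) (nat_lit 13) (nat_lit 4) (nat_lit 424) (nat_lit 255) (nat_lit 221)) (XT.nd (nat_lit 78) (nat_lit 0) (nat_lit 0) (XT.lf (nat_lit 0) (nat_lit 9675500089) (nat_lit 152) (nat_lit 26693388054) (nat_lit 0) (nat_lit 4086926740) (nat_lit 11) (nat_lit 5) (nat_lit 13) (nat_lit 4) (nat_lit 11) (nat_lit 4) (nat_lit 425) (nat_lit 255) (nat_lit 220)) (XT.lf (nat_lit 0) (nat_lit 14732440228) (nat_lit 152) (nat_lit 17731816347) (nat_lit 0) (nat_lit 9054128001) (nat_lit 11) (nat_lit 5) (nat_lit 13) (nat_lit 4) (nat_lit 11) (nat_lit 4) (nat_lit 426) (nat_lit 255) (nat_lit 219)))) (XT.nd (nat_lit 156) (nat_lit 0) (nat_lit 0) (XT.nd (nat_lit 78) (nat_lit 76) (nat_lit 0) (XT.lf (nat_lit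 0) (nat_lit 19880780800) (nat_lit 152) (nat_lit 8618519968) (nat_lit 0) (nat_lit 14115343448) (nat_lit 11) (nat_lit 5) (nat_lit 13) (nat_lit 4) (nat_lit 11) (nat_lit 4) (nat_lit 427) (nat_lit 255) (nat_lit 218)) (XT.lf (nat_lit 0) (nat_lit 667489278) (nat_lit 76) (nat_lit 24463947390) (nat_lit 76) (nat_lit 18613922539) (nat_lit 10) (nat_lit 4) (nat_lit 11) (nat_lit 5) (nat_lit 11) (nat_lit 4) (nat_lit 428) (nat_lit 255) (nat_lit 217))) (XT.nd (nat_lit 78) (nat_lit 0) (nat_lit 0) (XT.lf (nat_lit 0) (nat_lit 10296153683) (nat_lit 76) (nat_lit 20272560478) (nat_lit 76) (nat_lit 14340411842) (nat_lit 10) (nat_lit 4) (nat_lit 11) (nat_lit 5) (nat_lit 11) (nat_lit 4) (nat_lit 429) (nat_lit 255) (nat_lit 216)) (XT.lf (nat_lit 0) (nat_lit 20104361196) (nat_lit 76) (nat_lit 16008507809) (nat_lit 76) (nat_lit 9996627342) (nat_lit 10) (nat_lit 4) (nat_lit 11) (nat_lit 5) (nat_lit 11) (nat_lit 4) (nat_lit 430) (nat_lit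 255) (nat_lit 215))))))))
noncomputable def xc18 : XT := (XT.nd (nat_lit 44070) (nat_lit 0) (nat_lit 608) (XT.nd (nat_lit 1014) (nat_lit 152) (nat_lit 0) (XT.nd (nat_lit 468) (nat_lit 76) (nat_lit 0) (XT.nd (nat_lit 234) (nat_lit 0) (nat_lit 0) (XT.nd (nat_lit 78) (nat_lit 152) (nat_lit 0) (XT.lf (nat_lit 0) (nat_lit 30100682095) (nat_lit 76) (nat_lit 11668063511) (nat_lit 76) (nat_lit 5578773500) (nat_lit 10) (nat_lit 4) (nat_lit 11) (nat_lit 5) (nat_lit 11) (nat_lit 4) (nat_lit 431) (nat_lit 255) (nat_lit 214)) (XT.nd (nat_lit 78) (nat_lit 152) (nat_lit 0) (XT.lf (nat_lit 0) (nat_lit 40293851031) (nat_lit 76) (nat_lit 7247434962) (nat_lit 76) (nat_lit 1082990054) (nat_lit 10) (nat_lit 4) (nat_lit 11) (nat_lit 5) (nat_lit 11) (nat_lit 4) (nat_lit 432) (nat_lit 255) (nat_lit 213)) (XT.lf (nat_lit 0) (nat_lit 732594706) (nat_lit 76) (nat_lit 2700905556) (nat_lit 152) (nat_lit 46506163473) (nat_lit 8) (nat_lit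 5) (nat_lit 9) (nat_lit 5) (nat_lit 10) (nat_lit 4) (nat_lit 433) (nat_lit 255) (nat_lit 212)))) (XT.nd (nat_lit 78) (nat_lit 0) (nat_lit 0) (XT.lf (nat_lit 0) (nat_lit 8115827652) (nat_lit 152) (nat_lit 41185491693) (nat_lit 0) (nat_lit 1991311606) (nat_lit 8) (nat_lit 5) (nat_lit 10) (nat_lit 4) (nat_lit 8) (nat_lit 4) (nat_lit 434) (nat_lit 255) (nat_lit 211)) (XT.nd (nat_lit 78) (nat_lit 0) (nat_lit 0) (XT.lf (nat_lit 0) (nat_lit 12914981224) (nat_lit 152) (nat_lit 33048227019) (nat_lit 0) (nat_lit 6723691026) (nat_lit 8) (nat_lit 5) (nat_lit 10) (nat_lit 4) (nat_lit 8) (nat_lit 4) (nat_lit 435) (nat_lit 255) (nat_lit 210)) (XT.lf (nat_lit 0) (nat_lit 17809191659) (nat_lit 152) (nat_lit 24762202019) (nat_lit 0) (nat_lit 11553072186) (nat_lit 8) (nat_lit 5) (nat_lit 10) (nat_lit 4) (nat_lit 8) (nat_lit 4) (nat_lit 436) (nat_lit 255) (nat_lit 209))))) (XT.nd (nat_lit 234) (nat_lit 0) (nat_lit 0) (XT.nd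 (nat_lit 78) (nat_lit 76) (nat_lit 0) (XT.lf (nat_lit 0) (nat_lit 22802735450) (nat_lit 152) (nat_lit 16320176477) (nat_lit 0) (nat_lit 16483674933) (nat_lit 8) (nat_lit 5) (nat_lit 10) (nat_lit 4) (nat_lit 8) (nat_lit 4) (nat_lit 437) (nat_lit 255) (nat_lit 208)) (XT.nd (nat_lit 78) (nat_lit 76) (nat_lit 0) (XT.lf (nat_lit 0) (nat_lit 27899975888) (nat_lit 152) (nat_lit 7714773865) (nat_lit 0) (nat_lit 21519807563) (nat_lit 8) (nat_lit 5) (nat_lit 10) (nat_lit 4) (nat_lit 8) (nat_lit 4) (nat_lit 438) (nat_lit 255) (nat_lit 207)) (XT.lf (nat_lit 0) (nat_lit 1082651529) (nat_lit 76) (nat_lit 32033122453) (nat_lit 76) (nat_lit 25593626158) (nat_lit 7) (nat_lit 4) (nat_lit 8) (nat_lit 5) (nat_lit 8) (nat_lit 4) (nat_lit 439) (nat_lit 255) (nat_lit 206)))) (XT.nd (nat_lit 156) (nat_lit 0) (nat_lit 0) (XT.nd (nat_lit 78) (nat_lit 0) (nat_lit 0) (XT.lf (nat_lit 0) (nat_lit 10215734808) (nat_lit 76) (nat_lit 28305921890)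 (nat_lit 76) (nat_lit 21808825624) (nat_lit 7) (nat_lit 4) (nat_lit 8) (nat_lit 5) (nat_lit 8) (nat_lit 4) (nat_lit 440) (nat_lit 255) (nat_lit 205)) (XT.lf (nat_lit 0) (nat_lit 19538917207) (nat_lit 76) (nat_lit 24507795376) (nat_lit 76) (nat_lit 17954776809) (nat_lit 7) (nat_lit 4) (nat_lit 8) (nat_lit 5) (nat_lit 8) (nat_lit 4) (nat_lit 441) (nat_lit 255) (nat_lit 204))) (XT.nd (nat_lit 78) (nat_lit 0) (nat_lit 0) (XT.lf (nat_lit 0) (nat_lit 29060345197) (nat_lit 76) (nat_lit 20635424162) (nat_lit 76) (nat_lit 14028112097) (nat_lit 7) (nat_lit 4) (nat_lit 8) (nat_lit 5) (nat_lit 8) (nat_lit 4) (nat_lit 442) (nat_lit 255) (nat_lit 203)) (XT.lf (nat_lit 0) (nat_lit 38788338473) (nat_lit 76) (nat_lit 16685424620) (nat_lit 76) (nat_lit 10025400422) (nat_lit 7) (nat_lit 4) (nat_lit 8) (nat_lit 5) (nat_lit 8) (nat_lit 4) (nat_lit 443) (nat_lit 255) (nat_lit 202)))))) (XT.nd (nat_lit 42510) (nat_lit 0) (nat_lit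 1824) (XT.nd (nat_lit 234) (nat_lit 76) (nat_lit 0) (XT.nd (nat_lit 78) (nat_lit 76) (nat_lit 0) (XT.lf (nat_lit 0) (nat_lit 48731397221) (nat_lit 76) (nat_lit 12654345295) (nat_lit 76) (nat_lit 5943144269) (nat_lit 7) (nat_lit 4) (nat_lit 8) (nat_lit 5) (nat_lit 8) (nat_lit 4) (nat_lit 444) (nat_lit 255) (nat_lit 201)) (XT.nd (nat_lit 78) (nat_lit 76) (nat_lit 0) (XT.lf (nat_lit 0) (nat_lit 58898209553) (nat_lit 76) (nat_lit 8538663885) (nat_lit 76) (nat_lit 1777776619) (nat_lit 7) (nat_lit 4) (nat_lit 8) (nat_lit 5) (nat_lit 8) (nat_lit 4) (nat_lit 445) (nat_lit 255) (nat_lit 200)) (XT.lf (nat_lit 0) (nat_lit 2426058843) (nat_lit 152) (nat_lit 1884226883) (nat_lit 76) (nat_lit 66847101809) (nat_lit 6) (nat_lit 5) (nat_lit 8) (nat_lit 5) (nat_lit 7) (nat_lit 4) (nat_lit 446) (nat_lit 255) (nat_lit 199)))) (XT.nd (nat_lit 156) (nat_lit 0) (nat_lit 0) (XT.nd (nat_lit 78) (nat_lit 0) (nat_lit 0) (XT.lf (nat_lit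 0) (nat_lit 6750637395) (nat_lit 152) (nat_lit 66311967615) (nat_lit 0) (nat_lit 94365179) (nat_lit 5) (nat_lit 5) (nat_lit 7) (nat_lit 4) (nat_lit 5) (nat_lit 4) (nat_lit 447) (nat_lit 255) (nat_lit 198)) (XT.lf (nat_lit 0) (nat_lit 11230525734) (nat_lit 152) (nat_lit 59455141314) (nat_lit 0) (nat_lit 4530107936) (nat_lit 5) (nat_lit 5) (nat_lit 7) (nat_lit 4) (nat_lit 5) (nat_lit 4) (nat_lit 448) (nat_lit 255) (nat_lit 197))) (XT.nd (nat_lit 78) (nat_lit 0) (nat_lit 0) (XT.lf (nat_lit 0) (nat_lit 15809549510) (nat_lit 152) (nat_lit 52461582106) (nat_lit 0) (nat_lit 9066271924) (nat_lit 5) (nat_lit 5) (nat_lit 7) (nat_lit 4) (nat_lit 5) (nat_lit 4) (nat_lit 449) (nat_lit 255) (nat_lit 196)) (XT.lf (nat_lit 0) (nat_lit 20491709812) (nat_lit 152) (nat_lit 45325179115) (nat_lit 0) (nat_lit 13706820782) (nat_lit 5) (nat_lit 5) (nat_lit 7) (nat_lit 4) (nat_lit 5) (nat_lit 4) (nat_lit 450) (nat_lit 255) (nat_lit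 195))))) (XT.nd (nat_lit 234) (nat_lit 304) (nat_lit 0) (XT.nd (nat_lit 78) (nat_lit 304) (nat_lit 0) (XT.lf (nat_lit 0) (nat_lit 4042671102) (nat_lit 152) (nat_lit 559116352) (nat_lit 0) (nat_lit 4042671102) (nat_lit 37) (nat_lit 5) (nat_lit 39) (nat_lit 4) (nat_lit 37) (nat_lit 4) (nat_lit 388) (nat_lit 256) (nat_lit 256)) (XT.nd (nat_lit 78) (nat_lit 152) (nat_lit 0) (XT.lf (nat_lit 0) (nat_lit 9810700489) (nat_lit 152) (nat_lit 4074385916) (nat_lit 152) (nat_lit 3744913910) (nat_lit 35) (nat_lit 4) (nat_lit 37) (nat_lit 5) (nat_lit 37) (nat_lit 4) (nat_lit 389) (nat_lit 256) (nat_lit 255)) (XT.lf (nat_lit 0) (nat_lit 1776415853) (nat_lit 152) (nat_lit 15060324107) (nat_lit 0) (nat_lit 1145981153) (nat_lit 33) (nat_lit 5) (nat_lit 35) (nat_lit 4) (nat_lit 33) (nat_lit 4) (nat_lit 390) (nat_lit 256) (nat_lit 254)))) (XT.nd (nat_lit 156) (nat_lit 152) (nat_lit 0) (XT.nd (nat_lit 78) (nat_lit 152) (nat_lit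 0) (XT.lf (nat_lit 0) (nat_lit 7393271220) (nat_lit 152) (nat_lit 4490174893) (nat_lit 0) (nat_lit 6461322960) (nat_lit 33) (nat_lit 5) (nat_lit 35) (nat_lit 4) (nat_lit 33) (nat_lit 4) (nat_lit 391) (nat_lit 256) (nat_lit 253)) (XT.lf (nat_lit 0) (nat_lit 6311548300) (nat_lit 152) (nat_lit 6816174743) (nat_lit 152) (nat_lit 5591494873) (nat_lit 31) (nat_lit 4) (nat_lit 33) (nat_lit 5) (nat_lit 33) (nat_lit 4) (nat_lit 392) (nat_lit 256) (nat_lit 252))) (XT.nd (nat_lit 78) (nat_lit 152) (nat_lit 0) (XT.lf (nat_lit 0) (nat_lit 17322721830) (nat_lit 152) (nat_lit 1646512376) (nat_lit 152) (nat_lit 137627058) (nat_lit 31) (nat_lit 4) (nat_lit 33) (nat_lit 5) (nat_lit 33) (nat_lit 4) (nat_lit 393) (nat_lit 256) (nat_lit 251)) (XT.lf (nat_lit 0) (nat_lit 5387864669) (nat_lit 152) (nat_lit 10461215342) (nat_lit 0) (nat_lit 3655036576) (nat_lit 29) (nat_lit 5) (nat_lit 31) (nat_lit 4) (nat_lit 29) (nat_lit 4)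 (nat_lit 394) (nat_lit 256) (nat_lit 250))))))) (XT.nd (nat_lit 1014) (nat_lit 532) (nat_lit 0) (XT.nd (nat_lit 468) (nat_lit 380) (nat_lit 0) (XT.nd (nat_lit 234) (nat_lit 76) (nat_lit 0) (XT.nd (nat_lit 78) (nat_lit 152) (nat_lit 0) (XT.lf (nat_lit 0) (nat_lit 99556831) (nat_lit 76) (nat_lit 10904395543) (nat_lit 76) (nat_lit 8911479205) (nat_lit 28) (nat_lit 4) (nat_lit 29) (nat_lit 5) (nat_lit 29) (nat_lit 4) (nat_lit 395) (nat_lit 256) (nat_lit 249)) (XT.nd (nat_lit 78) (nat_lit 152) (nat_lit 0) (XT.lf (nat_lit 0) (nat_lit 10990468269) (nat_lit 76) (nat_lit 5797043881) (nat_lit 76) (nat_lit 3551614684) (nat_lit 28) (nat_lit 4) (nat_lit 29) (nat_lit 5) (nat_lit 29) (nat_lit 4) (nat_lit 396) (nat_lit 256) (nat_lit 248)) (XT.lf (nat_lit 0) (nat_lit 1240491252) (nat_lit 76) (nat_lit 597478483) (nat_lit 152) (nat_lit 18939784859) (nat_lit 26) (nat_lit 5) (nat_lit 27) (nat_lit 5) (nat_lit 28) (nat_lit 4)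 (nat_lit 397) (nat_lit 256) (nat_lit 247)))) (XT.nd (nat_lit 78) (nat_lit 76) (nat_lit 0) (XT.lf (nat_lit 0) (nat_lit 7354638705) (nat_lit 152) (nat_lit 9167245990) (nat_lit 0) (nat_lit 4705507735) (nat_lit 26) (nat_lit 5) (nat_lit 28) (nat_lit 4) (nat_lit 26) (nat_lit 4) (nat_lit 398) (nat_lit 256) (nat_lit 246)) (XT.nd (nat_lit 78) (nat_lit 0) (nat_lit 0) (XT.lf (nat_lit 0) (nat_lit 1342251235) (nat_lit 76) (nat_lit 11612118010) (nat_lit 76) (nat_lit 8738632635) (nat_lit 25) (nat_lit 4) (nat_lit 26) (nat_lit 5) (nat_lit 26) (nat_lit 4) (nat_lit 399) (nat_lit 256) (nat_lit 245)) (XT.lf (nat_lit 0) (nat_lit 12164937102) (nat_lit 76) (nat_lit 6549591818) (nat_lit 76) (nat_lit 3458286633) (nat_lit 25) (nat_lit 4) (nat_lit 26) (nat_lit 5) (nat_lit 26) (nat_lit 4) (nat_lit 400) (nat_lit 256) (nat_lit 244))))) (XT.nd (nat_lit 234) (nat_lit 228) (nat_lit 0) (XT.nd (nat_lit 78) (nat_lit 0) (nat_lit 0) (XT.lf (nat_lit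 0) (nat_lit 448551202) (nat_lit 76) (nat_lit 1399395561) (nat_lit 152) (nat_lit 20821330587) (nat_lit 23) (nat_lit 5) (nat_lit 24) (nat_lit 5) (nat_lit 25) (nat_lit 4) (nat_lit 401) (nat_lit 256) (nat_lit 243)) (XT.nd (nat_lit 78) (nat_lit 0) (nat_lit 0) (XT.lf (nat_lit 0) (nat_lit 7285515122) (nat_lit 152) (nat_lit 12013253361) (nat_lit 0) (nat_lit 3879595908) (nat_lit 23) (nat_lit 5) (nat_lit 25) (nat_lit 4) (nat_lit 23) (nat_lit 4) (nat_lit 402) (nat_lit 256) (nat_lit 242)) (XT.lf (nat_lit 0) (nat_lit 12804974047) (nat_lit 152) (nat_lit 1694670382) (nat_lit 0) (nat_lit 9205524752) (nat_lit 23) (nat_lit 5) (nat_lit 25) (nat_lit 4) (nat_lit 23) (nat_lit 4) (nat_lit 403) (nat_lit 256) (nat_lit 241)))) (XT.nd (nat_lit 156) (nat_lit 152) (nat_lit 0) (XT.nd (nat_lit 78) (nat_lit 0) (nat_lit 0) (XT.lf (nat_lit 0) (nat_lit 8931782111) (nat_lit 76) (nat_lit 9551770163) (nat_lit 76) (nat_lit 5764427586) (nat_lit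 22) (nat_lit 4) (nat_lit 23) (nat_lit 5) (nat_lit 23) (nat_lit 4) (nat_lit 404) (nat_lit 256) (nat_lit 240)) (XT.lf (nat_lit 0) (nat_lit 19737513333) (nat_lit 76) (nat_lit 4520779104) (nat_lit 76) (nat_lit 551015866) (nat_lit 22) (nat_lit 4) (nat_lit 23) (nat_lit 5) (nat_lit 23) (nat_lit 4) (nat_lit 405) (nat_lit 256) (nat_lit 239))) (XT.nd (nat_lit 78) (nat_lit 0) (nat_lit 0) (XT.lf (nat_lit 0) (nat_lit 4693368961) (nat_lit 152) (nat_lit 20026386138) (nat_lit 0) (nat_lit 667280925) (nat_lit 20) (nat_lit 5) (nat_lit 22) (nat_lit 4) (nat_lit 20) (nat_lit 4) (nat_lit 406) (nat_lit 256) (nat_lit 238)) (XT.lf (nat_lit 0) (nat_lit 10091163532) (nat_lit 152) (nat_lit 9992425974) (nat_lit 0) (nat_lit 5898134749) (nat_lit 20) (nat_lit 5) (nat_lit 22) (nat_lit 4) (nat_lit 20) (nat_lit 4) (nat_lit 407) (nat_lit 256) (nat_lit 237)))))) (XT.nd (nat_lit 546) (nat_lit 228) (nat_lit 0) (XT.nd (nat_lit 234) (nat_lit 228)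 (nat_lit 0) (XT.nd (nat_lit 78) (nat_lit 0) (nat_lit 0) (XT.lf (nat_lit 0) (nat_lit 179869800) (nat_lit 76) (nat_lit 15386023602) (nat_lit 76) (nat_lit 11030916424) (nat_lit 19) (nat_lit 4) (nat_lit 20) (nat_lit 5) (nat_lit 20) (nat_lit 4) (nat_lit 408) (nat_lit 256) (nat_lit 236)) (XT.nd (nat_lit 78) (nat_lit 0) (nat_lit 0) (XT.lf (nat_lit 0) (nat_lit 10697605628) (nat_lit 76) (nat_lit 10522380052) (nat_lit 76) (nat_lit 6009915209) (nat_lit 19) (nat_lit 4) (nat_lit 20) (nat_lit 5) (nat_lit 20) (nat_lit 4) (nat_lit 409) (nat_lit 256) (nat_lit 235)) (XT.lf (nat_lit 0) (nat_lit 21371102894) (nat_lit 76) (nat_lit 5589312982) (nat_lit 76) (nat_lit 924073706) (nat_lit 19) (nat_lit 4) (nat_lit 20) (nat_lit 5) (nat_lit 20) (nat_lit 4) (nat_lit 410) (nat_lit 256) (nat_lit 234)))) (XT.nd (nat_lit 156) (nat_lit 76) (nat_lit 0) (XT.nd (nat_lit 78) (nat_lit 0) (nat_lit 0) (XT.lf (nat_lit 0) (nat_lit 3679672280) (nat_lit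 76) (nat_lit 504187940) (nat_lit 152) (nat_lit 24375006369) (nat_lit 17) (nat_lit 5) (nat_lit 18) (nat_lit 5) (nat_lit 19) (nat_lit 4) (nat_lit 411) (nat_lit 256) (nat_lit 233)) (XT.lf (nat_lit 0) (nat_lit 9456889477) (nat_lit 152) (nat_lit 15151687701) (nat_lit 0) (nat_lit 4643716154) (nat_lit 17) (nat_lit 5) (nat_lit 19) (nat_lit 4) (nat_lit 17) (nat_lit 4) (nat_lit 412) (nat_lit 256) (nat_lit 232))) (XT.nd (nat_lit 78) (nat_lit 76) (nat_lit 0) (XT.lf (nat_lit 0) (nat_lit 14813980622) (nat_lit 152) (nat_lit 5289702575) (nat_lit 0) (nat_lit 9865069194) (nat_lit 17) (nat_lit 5) (nat_lit 19) (nat_lit 4) (nat_lit 17) (nat_lit 4) (nat_lit 413) (nat_lit 256) (nat_lit 231)) (XT.lf (nat_lit 0) (nat_lit 4814166633) (nat_lit 76) (nat_lit 15487078126) (nat_lit 76) (nat_lit 10406382131) (nat_lit 16) (nat_lit 4) (nat_lit 17) (nat_lit 5) (nat_lit 17) (nat_lit 4) (nat_lit 414) (nat_lit 256) (nat_lit 230))))) (XT.nd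 (nat_lit 234) (nat_lit 76) (nat_lit 0) (XT.nd (nat_lit 78) (nat_lit 152) (nat_lit 0) (XT.lf (nat_lit 0) (nat_lit 15183118600) (nat_lit 76) (nat_lit 10747436830) (nat_lit 76) (nat_lit 5538794653) (nat_lit 16) (nat_lit 4) (nat_lit 17) (nat_lit 5) (nat_lit 17) (nat_lit 4) (nat_lit 415) (nat_lit 256) (nat_lit 229)) (XT.nd (nat_lit 78) (nat_lit 152) (nat_lit 0) (XT.lf (nat_lit 0) (nat_lit 25720938123) (nat_lit 76) (nat_lit 5934033500) (nat_lit 76) (nat_lit 601171729) (nat_lit 16) (nat_lit 4) (nat_lit 17) (nat_lit 5) (nat_lit 17) (nat_lit 4) (nat_lit 416) (nat_lit 256) (nat_lit 228)) (XT.lf (nat_lit 0) (nat_lit 3391928240) (nat_lit 76) (nat_lit 965407503) (nat_lit 152) (nat_lit 28709108301) (nat_lit 14) (nat_lit 5) (nat_lit 15) (nat_lit 5) (nat_lit 16) (nat_lit 4) (nat_lit 417) (nat_lit 256) (nat_lit 227)))) (XT.nd (nat_lit 156) (nat_lit 76) (nat_lit 0) (XT.nd (nat_lit 78) (nat_lit 0) (nat_lit 0) (XT.lf (nat_lit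 0) (nat_lit 9486875888) (nat_lit 152) (nat_lit 20334400433) (nat_lit 0) (nat_lit 4078572781) (nat_lit 14) (nat_lit 5) (nat_lit 16) (nat_lit 4) (nat_lit 14) (nat_lit 4) (nat_lit 418) (nat_lit 256) (nat_lit 226)) (XT.lf (nat_lit 0) (nat_lit 14709763663) (nat_lit 152) (nat_lit 10859220340) (nat_lit 0) (nat_lit 9191093056) (nat_lit 14) (nat_lit 5) (nat_lit 16) (nat_lit 4) (nat_lit 14) (nat_lit 4) (nat_lit 419) (nat_lit 256) (nat_lit 225))) (XT.nd (nat_lit 78) (nat_lit 76) (nat_lit 0) (XT.lf (nat_lit 0) (nat_lit 20021282668) (nat_lit 152) (nat_lit 1231416152) (nat_lit 0) (nat_lit 14395459148) (nat_lit 14) (nat_lit 5) (nat_lit 16) (nat_lit 4) (nat_lit 14) (nat_lit 4) (nat_lit 420) (nat_lit 256) (nat_lit 224)) (XT.lf (nat_lit 0) (nat_lit 8727734305) (nat_lit 76) (nat_lit 16782236054) (nat_lit 76) (nat_lit 11052380579) (nat_lit 13) (nat_lit 4) (nat_lit 14) (nat_lit 5) (nat_lit 14) (nat_lit 4) (nat_lit 421) (nat_lit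 256) (nat_lit 223))))))))
noncomputable def xc19 : XT := (XT.nd (nat_lit 2106) (nat_lit 0) (nat_lit 0) (XT.nd (nat_lit 1014) (nat_lit 228) (nat_lit 0) (XT.nd (nat_lit 468) (nat_lit 228) (nat_lit 0) (XT.nd (nat_lit 234) (nat_lit 0) (nat_lit 0) (XT.nd (nat_lit 78) (nat_lit 152) (nat_lit 0) (XT.lf (nat_lit 0) (nat_lit 18884357629) (nat_lit 76) (nat_lit 12226030773) (nat_lit 76) (nat_lit 6395173401) (nat_lit 13) (nat_lit 4) (nat_lit 14) (nat_lit 5) (nat_lit 14) (nat_lit 4) (nat_lit 422) (nat_lit 256) (nat_lit 222)) (XT.nd (nat_lit 78) (nat_lit 152) (nat_lit 0) (XT.lf (nat_lit 0) (nat_lit 29222820942) (nat_lit 76) (nat_lit 7592536716) (nat_lit 76) (nat_lit 1663619249) (nat_lit 13) (nat_lit 4) (nat_lit 14) (nat_lit 5) (nat_lit 14) (nat_lit 4) (nat_lit 423) (nat_lit 256) (nat_lit 221)) (XT.lf (nat_lit 0) (nat_lit 243211698) (nat_lit 76) (nat_lit 2844144528) (nat_lit 152) (nat_lit 36395113091) (nat_lit 11) (nat_lit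 5) (nat_lit 12) (nat_lit 5) (nat_lit 13) (nat_lit 4) (nat_lit 424) (nat_lit 256) (nat_lit 220)))) (XT.nd (nat_lit 78) (nat_lit 0) (nat_lit 0) (XT.lf (nat_lit 0) (nat_lit 7999375452) (nat_lit 152) (nat_lit 30453667105) (nat_lit 0) (nat_lit 2060974980) (nat_lit 11) (nat_lit 5) (nat_lit 13) (nat_lit 4) (nat_lit 11) (nat_lit 4) (nat_lit 425) (nat_lit 256) (nat_lit 219)) (XT.nd (nat_lit 78) (nat_lit 0) (nat_lit 0) (XT.lf (nat_lit 0) (nat_lit 13026607329) (nat_lit 152) (nat_lit 21549791201) (nat_lit 0) (nat_lit 7001081733) (nat_lit 11) (nat_lit 5) (nat_lit 13) (nat_lit 4) (nat_lit 11) (nat_lit 4) (nat_lit 426) (nat_lit 256) (nat_lit 218)) (XT.lf (nat_lit 0) (nat_lit 18146104927) (nat_lit 152) (nat_lit 12492510163) (nat_lit 0) (nat_lit 12035991832) (nat_lit 11) (nat_lit 5) (nat_lit 13) (nat_lit 4) (nat_lit 11) (nat_lit 4) (nat_lit 427) (nat_lit 256) (nat_lit 217))))) (XT.nd (nat_lit 234) (nat_lit 152) (nat_lit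 0) (XT.nd (nat_lit 78) (nat_lit 76) (nat_lit 0) (XT.lf (nat_lit 0) (nat_lit 23362341594) (nat_lit 152) (nat_lit 3273909864) (nat_lit 0) (nat_lit 17170104714) (nat_lit 11) (nat_lit 5) (nat_lit 13) (nat_lit 4) (nat_lit 11) (nat_lit 4) (nat_lit 428) (nat_lit 256) (nat_lit 216)) (XT.nd (nat_lit 78) (nat_lit 0) (nat_lit 0) (XT.lf (nat_lit 0) (nat_lit 6235746662) (nat_lit 76) (nat_lit 22504070356) (nat_lit 76) (nat_lit 16232101645) (nat_lit 10) (nat_lit 4) (nat_lit 11) (nat_lit 5) (nat_lit 11) (nat_lit 4) (nat_lit 429) (nat_lit 256) (nat_lit 215)) (XT.lf (nat_lit 0) (nat_lit 15991671989) (nat_lit 76) (nat_lit 18265401899) (nat_lit 76) (nat_lit 11916023643) (nat_lit 10) (nat_lit 4) (nat_lit 11) (nat_lit 5) (nat_lit 11) (nat_lit 4) (nat_lit 430) (nat_lit 256) (nat_lit 214)))) (XT.nd (nat_lit 156) (nat_lit 152) (nat_lit 0) (XT.nd (nat_lit 78) (nat_lit 0) (nat_lit 0) (XT.lf (nat_lit 0) (nat_lit 25937233484) (nat_lit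 76) (nat_lit 13949602467) (nat_lit 76) (nat_lit 7525069314) (nat_lit 10) (nat_lit 4) (nat_lit 11) (nat_lit 5) (nat_lit 11) (nat_lit 4) (nat_lit 431) (nat_lit 256) (nat_lit 213)) (XT.lf (nat_lit 0) (nat_lit 36081121443) (nat_lit 76) (nat_lit 9552900973) (nat_lit 76) (nat_lit 3055401900) (nat_lit 10) (nat_lit 4) (nat_lit 11) (nat_lit 5) (nat_lit 11) (nat_lit 4) (nat_lit 432) (nat_lit 256) (nat_lit 212))) (XT.nd (nat_lit 78) (nat_lit 76) (nat_lit 0) (XT.lf (nat_lit 0) (nat_lit 1467674531) (nat_lit 152) (nat_lit 3588960472) (nat_lit 76) (nat_lit 44949704293) (nat_lit 9) (nat_lit 5) (nat_lit 11) (nat_lit 5) (nat_lit 10) (nat_lit 4) (nat_lit 433) (nat_lit 256) (nat_lit 211)) (XT.lf (nat_lit 0) (nat_lit 5686397221) (nat_lit 76) (nat_lit 384299512) (nat_lit 152) (nat_lit 45290990303) (nat_lit 8) (nat_lit 5) (nat_lit 9) (nat_lit 5) (nat_lit 10) (nat_lit 4) (nat_lit 434) (nat_lit 256) (nat_lit 210)))))) (XT.nd (nat_lit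 546) (nat_lit 152) (nat_lit 0) (XT.nd (nat_lit 234) (nat_lit 76) (nat_lit 0) (XT.nd (nat_lit 78) (nat_lit 0) (nat_lit 0) (XT.lf (nat_lit 0) (nat_lit 10842058772) (nat_lit 152) (nat_lit 37581305213) (nat_lit 0) (nat_lit 4333426441) (nat_lit 8) (nat_lit 5) (nat_lit 10) (nat_lit 4) (nat_lit 8) (nat_lit 4) (nat_lit 435) (nat_lit 256) (nat_lit 209)) (XT.nd (nat_lit 78) (nat_lit 0) (nat_lit 0) (XT.lf (nat_lit 0) (nat_lit 15712873662) (nat_lit 152) (nat_lit 29340886227) (nat_lit 0) (nat_lit 9141300287) (nat_lit 8) (nat_lit 5) (nat_lit 10) (nat_lit 4) (nat_lit 8) (nat_lit 4) (nat_lit 436) (nat_lit 256) (nat_lit 208)) (XT.lf (nat_lit 0) (nat_lit 20683703332) (nat_lit 152) (nat_lit 20943138368) (nat_lit 0) (nat_lit 14051022148) (nat_lit 8) (nat_lit 5) (nat_lit 10) (nat_lit 4) (nat_lit 8) (nat_lit 4) (nat_lit 437) (nat_lit 256) (nat_lit 207)))) (XT.nd (nat_lit 156) (nat_lit 76) (nat_lit 0) (XT.nd (nat_lit 78) (nat_lit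 0) (nat_lit 0) (XT.lf (nat_lit 0) (nat_lit 25758891225) (nat_lit 152) (nat_lit 12380723799) (nat_lit 0) (nat_lit 19066882071) (nat_lit 8) (nat_lit 5) (nat_lit 10) (nat_lit 4) (nat_lit 8) (nat_lit 4) (nat_lit 438) (nat_lit 256) (nat_lit 206)) (XT.lf (nat_lit 0) (nat_lit 30942871973) (nat_lit 152) (nat_lit 3646160798) (nat_lit 0) (nat_lit 24193262848) (nat_lit 8) (nat_lit 5) (nat_lit 10) (nat_lit 4) (nat_lit 8) (nat_lit 4) (nat_lit 439) (nat_lit 256) (nat_lit 205))) (XT.nd (nat_lit 78) (nat_lit 0) (nat_lit 0) (XT.lf (nat_lit 0) (nat_lit 5373029944) (nat_lit 76) (nat_lit 30918794173) (nat_lit 76) (nat_lit 24113262746) (nat_lit 7) (nat_lit 4) (nat_lit 8) (nat_lit 5) (nat_lit 8) (nat_lit 4) (nat_lit 440) (nat_lit 256) (nat_lit 204)) (XT.lf (nat_lit 0) (nat_lit 14656089249) (nat_lit 76) (nat_lit 27140223863) (nat_lit 76) (nat_lit 20280398939) (nat_lit 7) (nat_lit 4) (nat_lit 8) (nat_lit 5) (nat_lit 8) (nat_lit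 4) (nat_lit 441) (nat_lit 256) (nat_lit 203))))) (XT.nd (nat_lit 234) (nat_lit 152) (nat_lit 0) (XT.nd (nat_lit 78) (nat_lit 0) (nat_lit 0) (XT.lf (nat_lit 0) (nat_lit 24138562779) (nat_lit 76) (nat_lit 23286839254) (nat_lit 76) (nat_lit 16374302197) (nat_lit 7) (nat_lit 4) (nat_lit 8) (nat_lit 5) (nat_lit 8) (nat_lit 4) (nat_lit 442) (nat_lit 256) (nat_lit 202)) (XT.nd (nat_lit 78) (nat_lit 0) (nat_lit 0) (XT.lf (nat_lit 0) (nat_lit 33828736189) (nat_lit 76) (nat_lit 19355273310) (nat_lit 76) (nat_lit 12391559425) (nat_lit 7) (nat_lit 4) (nat_lit 8) (nat_lit 5) (nat_lit 8) (nat_lit 4) (nat_lit 443) (nat_lit 256) (nat_lit 201)) (XT.lf (nat_lit 0) (nat_lit 43735076623) (nat_lit 76) (nat_lit 15342090682) (nat_lit 76) (nat_lit 8328690556) (nat_lit 7) (nat_lit 4) (nat_lit 8) (nat_lit 5) (nat_lit 8) (nat_lit 4) (nat_lit 444) (nat_lit 256) (nat_lit 200)))) (XT.nd (nat_lit 156) (nat_lit 76) (nat_lit 0) (XT.nd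 (nat_lit 78) (nat_lit 76) (nat_lit 0) (XT.lf (nat_lit 0) (nat_lit 53866240105) (nat_lit 76) (nat_lit 11243784706) (nat_lit 76) (nat_lit 4182145512) (nat_lit 7) (nat_lit 4) (nat_lit 8) (nat_lit 5) (nat_lit 8) (nat_lit 4) (nat_lit 445) (nat_lit 256) (nat_lit 199)) (XT.lf (nat_lit 0) (nat_lit 50690071) (nat_lit 152) (nat_lit 7005572396) (nat_lit 76) (nat_lit 64179877167) (nat_lit 6) (nat_lit 5) (nat_lit 8) (nat_lit 5) (nat_lit 7) (nat_lit 4) (nat_lit 446) (nat_lit 256) (nat_lit 198))) (XT.nd (nat_lit 78) (nat_lit 0) (nat_lit 0) (XT.lf (nat_lit 0) (nat_lit 1588059908) (nat_lit 76) (nat_lit 2718345558) (nat_lit 152) (nat_lit 68931383619) (nat_lit 5) (nat_lit 5) (nat_lit 6) (nat_lit 5) (nat_lit 7) (nat_lit 4) (nat_lit 447) (nat_lit 256) (nat_lit 197)) (XT.lf (nat_lit 0) (nat_lit 8742793350) (nat_lit 152) (nat_lit 64800748773) (nat_lit 0) (nat_lit 1754357649) (nat_lit 5) (nat_lit 5) (nat_lit 7) (nat_lit 4) (nat_lit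 5) (nat_lit 4) (nat_lit 448) (nat_lit 256) (nat_lit 196))))))) (XT.nd (nat_lit 42822) (nat_lit 0) (nat_lit 1064) (XT.nd (nat_lit 42276) (nat_lit 0) (nat_lit 1748) (XT.nd (nat_lit 42042) (nat_lit 0) (nat_lit 2280) (XT.nd (nat_lit 78) (nat_lit 0) (nat_lit 0) (XT.lf (nat_lit 0) (nat_lit 13304952994) (nat_lit 152) (nat_lit 57840176262) (nat_lit 0) (nat_lit 6274905849) (nat_lit 5) (nat_lit 5) (nat_lit 7) (nat_lit 4) (nat_lit 5) (nat_lit 4) (nat_lit 449) (nat_lit 256) (nat_lit 195)) (XT.nd (nat_lit 41886) (nat_lit 0) (nat_lit 2584) (XT.lf (nat_lit 0) (nat_lit 17970740353) (nat_lit 152) (nat_lit 50735799189) (nat_lit 0) (nat_lit 10900293747) (nat_lit 5) (nat_lit 5) (nat_lit 7) (nat_lit 4) (nat_lit 5) (nat_lit 4) (nat_lit 450) (nat_lit 256) (nat_lit 194)) (XT.lf (nat_lit 0) (nat_lit 5574835934) (nat_lit 152) (nat_lit 1371583957) (nat_lit 152) (nat_lit 1371583957) (nat_lit 39) (nat_lit 4) (nat_lit 41) (nat_lit 5)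 (nat_lit 41) (nat_lit 4) (nat_lit 386) (nat_lit 257) (nat_lit 257)))) (XT.nd (nat_lit 78) (nat_lit 152) (nat_lit 0) (XT.lf (nat_lit 0) (nat_lit 2773325971) (nat_lit 152) (nat_lit 11751102480) (nat_lit 0) (nat_lit 2433969804) (nat_lit 37) (nat_lit 5) (nat_lit 39) (nat_lit 4) (nat_lit 37) (nat_lit 4) (nat_lit 387) (nat_lit 257) (nat_lit 256)) (XT.nd (nat_lit 78) (nat_lit 152) (nat_lit 0) (XT.lf (nat_lit 0) (nat_lit 8367813728) (nat_lit 152) (nat_lit 1223831117) (nat_lit 0) (nat_lit 7698985554) (nat_lit 37) (nat_lit 5) (nat_lit 39) (nat_lit 4) (nat_lit 37) (nat_lit 4) (nat_lit 388) (nat_lit 257) (nat_lit 255)) (XT.lf (nat_lit 0) (nat_lit 9598437327) (nat_lit 152) (nat_lit 4511852389) (nat_lit 152) (nat_lit 3523148480) (nat_lit 35) (nat_lit 4) (nat_lit 37) (nat_lit 5) (nat_lit 37) (nat_lit 4) (nat_lit 389) (nat_lit 257) (nat_lit 254))))) (XT.nd (nat_lit 234) (nat_lit 228) (nat_lit 0) (XT.nd (nat_lit 78) (nat_lit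 152) (nat_lit 0) (XT.lf (nat_lit 0) (nat_lit 1930898677) (nat_lit 152) (nat_lit 15387612783) (nat_lit 0) (nat_lit 669478411) (nat_lit 33) (nat_lit 5) (nat_lit 35) (nat_lit 4) (nat_lit 33) (nat_lit 4) (nat_lit 390) (nat_lit 257) (nat_lit 253)) (XT.nd (nat_lit 78) (nat_lit 152) (nat_lit 0) (XT.lf (nat_lit 0) (nat_lit 7492788690) (nat_lit 152) (nat_lit 4920267282) (nat_lit 0) (nat_lit 5938636813) (nat_lit 33) (nat_lit 5) (nat_lit 35) (nat_lit 4) (nat_lit 33) (nat_lit 4) (nat_lit 391) (nat_lit 257) (nat_lit 252)) (XT.lf (nat_lit 0) (nat_lit 5771100395) (nat_lit 152) (nat_lit 7397580582) (nat_lit 152) (nat_lit 5559223258) (nat_lit 31) (nat_lit 4) (nat_lit 33) (nat_lit 5) (nat_lit 33) (nat_lit 4) (nat_lit 392) (nat_lit 257) (nat_lit 251)))) (XT.nd (nat_lit 156) (nat_lit 76) (nat_lit 0) (XT.nd (nat_lit 78) (nat_lit 152) (nat_lit 0) (XT.lf (nat_lit 0) (nat_lit 16683443019) (nat_lit 152) (nat_lit 2273988980) (nat_lit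 152) (nat_lit 159704037) (nat_lit 31) (nat_lit 4) (nat_lit 33) (nat_lit 5) (nat_lit 33) (nat_lit 4) (nat_lit 393) (nat_lit 257) (nat_lit 250)) (XT.lf (nat_lit 0) (nat_lit 5300624347) (nat_lit 152) (nat_lit 11227914253) (nat_lit 0) (nat_lit 2987832275) (nat_lit 29) (nat_lit 5) (nat_lit 31) (nat_lit 4) (nat_lit 29) (nat_lit 4) (nat_lit 394) (nat_lit 257) (nat_lit 249))) (XT.nd (nat_lit 78) (nat_lit 76) (nat_lit 0) (XT.lf (nat_lit 0) (nat_lit 10864171331) (nat_lit 152) (nat_lit 766229529) (nat_lit 0) (nat_lit 8298866399) (nat_lit 29) (nat_lit 5) (nat_lit 31) (nat_lit 4) (nat_lit 29) (nat_lit 4) (nat_lit 395) (nat_lit 257) (nat_lit 248)) (XT.lf (nat_lit 0) (nat_lit 10013240100) (nat_lit 76) (nat_lit 6575973010) (nat_lit 76) (nat_lit 3765509963) (nat_lit 28) (nat_lit 4) (nat_lit 29) (nat_lit 5) (nat_lit 29) (nat_lit 4) (nat_lit 396) (nat_lit 257) (nat_lit 247)))))) (XT.nd (nat_lit 546) (nat_lit 304) (nat_lit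 0) (XT.nd (nat_lit 234) (nat_lit 152) (nat_lit 0) (XT.nd (nat_lit 78) (nat_lit 76) (nat_lit 0) (XT.lf (nat_lit 0) (nat_lit 133735387) (nat_lit 76) (nat_lit 1433858712) (nat_lit 152) (nat_lit 19227642777) (nat_lit 26) (nat_lit 5) (nat_lit 27) (nat_lit 5) (nat_lit 28) (nat_lit 4) (nat_lit 397) (nat_lit 257) (nat_lit 246)) (XT.nd (nat_lit 78) (nat_lit 76) (nat_lit 0) (XT.lf (nat_lit 0) (nat_lit 7026343139) (nat_lit 152) (nat_lit 10377974966) (nat_lit 0) (nat_lit 3842298798) (nat_lit 26) (nat_lit 5) (nat_lit 28) (nat_lit 4) (nat_lit 26) (nat_lit 4) (nat_lit 398) (nat_lit 257) (nat_lit 245)) (XT.lf (nat_lit 0) (nat_lit 13822521) (nat_lit 76) (nat_lit 12551054176) (nat_lit 76) (nat_lit 9149190025) (nat_lit 25) (nat_lit 4) (nat_lit 26) (nat_lit 5) (nat_lit 26) (nat_lit 4) (nat_lit 399) (nat_lit 257) (nat_lit 244)))) (XT.nd (nat_lit 156) (nat_lit 76) (nat_lit 0) (XT.nd (nat_lit 78) (nat_lit 76) (nat_lit 0) (XT.lf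 (nat_lit 0) (nat_lit 10745630856) (nat_lit 76) (nat_lit 7531515137) (nat_lit 76) (nat_lit 3918175442) (nat_lit 25) (nat_lit 4) (nat_lit 26) (nat_lit 5) (nat_lit 26) (nat_lit 4) (nat_lit 400) (nat_lit 257) (nat_lit 243)) (XT.lf (nat_lit 0) (nat_lit 1345760306) (nat_lit 152) (nat_lit 1086762333) (nat_lit 76) (nat_lit 20260935450) (nat_lit 24) (nat_lit 5) (nat_lit 26) (nat_lit 5) (nat_lit 25) (nat_lit 4) (nat_lit 401) (nat_lit 257) (nat_lit 242))) (XT.nd (nat_lit 78) (nat_lit 0) (nat_lit 0) (XT.lf (nat_lit 0) (nat_lit 6715794299) (nat_lit 152) (nat_lit 13673949380) (nat_lit 0) (nat_lit 2814831445) (nat_lit 23) (nat_lit 5) (nat_lit 25) (nat_lit 4) (nat_lit 23) (nat_lit 4) (nat_lit 402) (nat_lit 257) (nat_lit 241)) (XT.lf (nat_lit 0) (nat_lit 12189774298) (nat_lit 152) (nat_lit 3442055669) (nat_lit 0) (nat_lit 8100918162) (nat_lit 23) (nat_lit 5) (nat_lit 25) (nat_lit 4) (nat_lit 23) (nat_lit 4) (nat_lit 403)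 (nat_lit 257) (nat_lit 240))))) (XT.nd (nat_lit 234) (nat_lit 76) (nat_lit 0) (XT.nd (nat_lit 78) (nat_lit 152) (nat_lit 0) (XT.lf (nat_lit 0) (nat_lit 7063781057) (nat_lit 76) (nat_lit 10742460802) (nat_lit 76) (nat_lit 6471184004) (nat_lit 22) (nat_lit 4) (nat_lit 23) (nat_lit 5) (nat_lit 23) (nat_lit 4) (nat_lit 404) (nat_lit 257) (nat_lit 239)) (XT.nd (nat_lit 78) (nat_lit 152) (nat_lit 0) (XT.lf (nat_lit 0) (nat_lit 17786173082) (nat_lit 76) (nat_lit 5751139584) (nat_lit 76) (nat_lit 1302755348) (nat_lit 22) (nat_lit 4) (nat_lit 23) (nat_lit 5) (nat_lit 23) (nat_lit 4) (nat_lit 405) (nat_lit 257) (nat_lit 238)) (XT.lf (nat_lit 0) (nat_lit 3269815664) (nat_lit 76) (nat_lit 616957177) (nat_lit 152) (nat_lit 21533328870) (nat_lit 20) (nat_lit 5) (nat_lit 21) (nat_lit 5) (nat_lit 22) (nat_lit 4) (nat_lit 406) (nat_lit 257) (nat_lit 237)))) (XT.nd (nat_lit 156) (nat_lit 76) (nat_lit 0) (XT.nd (nat_lit 78)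 (nat_lit 0) (nat_lit 0) (XT.lf (nat_lit 0) (nat_lit 9235913909) (nat_lit 152) (nat_lit 12192263836) (nat_lit 0) (nat_lit 4588075120) (nat_lit 20) (nat_lit 5) (nat_lit 22) (nat_lit 4) (nat_lit 20) (nat_lit 4) (nat_lit 407) (nat_lit 257) (nat_lit 236)) (XT.lf (nat_lit 0) (nat_lit 14667436185) (nat_lit 152) (nat_lit 2102961971) (nat_lit 0) (nat_lit 9862239731) (nat_lit 20) (nat_lit 5) (nat_lit 22) (nat_lit 4) (nat_lit 20) (nat_lit 4) (nat_lit 408) (nat_lit 257) (nat_lit 235))) (XT.nd (nat_lit 78) (nat_lit 0) (nat_lit 0) (XT.lf (nat_lit 0) (nat_lit 8294216042) (nat_lit 76) (nat_lit 11965668126) (nat_lit 76) (nat_lit 7007697239) (nat_lit 19) (nat_lit 4) (nat_lit 20) (nat_lit 5) (nat_lit 20) (nat_lit 4) (nat_lit 409) (nat_lit 257) (nat_lit 234)) (XT.lf (nat_lit 0) (nat_lit 18891300931) (nat_lit 76) (nat_lit 7069181372) (nat_lit 76) (nat_lit 1962885794) (nat_lit 19) (nat_lit 4) (nat_lit 20) (nat_lit 5) (nat_lit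 20) (nat_lit 4) (nat_lit 410) (nat_lit 257) (nat_lit 233))))))))
noncomputable def xc20 : XT := (XT.nd (nat_lit 2106) (nat_lit 228) (nat_lit 0) (XT.nd (nat_lit 1014) (nat_lit 380) (nat_lit 0) (XT.nd (nat_lit 468) (nat_lit 228) (nat_lit 0) (XT.nd (nat_lit 234) (nat_lit 76) (nat_lit 0) (XT.nd (nat_lit 78) (nat_lit 0) (nat_lit 0) (XT.lf (nat_lit 0) (nat_lit 1044590603) (nat_lit 76) (nat_lit 2056340793) (nat_lit 152) (nat_lit 25499047773) (nat_lit 17) (nat_lit 5) (nat_lit 18) (nat_lit 5) (nat_lit 19) (nat_lit 4) (nat_lit 411) (nat_lit 257) (nat_lit 232)) (XT.nd (nat_lit 78) (nat_lit 0) (nat_lit 0) (XT.lf (nat_lit 0) (nat_lit 8320064574) (nat_lit 152) (nat_lit 17888013302) (nat_lit 0) (nat_lit 3086947699) (nat_lit 17) (nat_lit 5) (nat_lit 19) (nat_lit 4) (nat_lit 17) (nat_lit 4) (nat_lit 412) (nat_lit 257) (nat_lit 231)) (XT.lf (nat_lit 0) (nat_lit 13639315100) (nat_lit 152) (nat_lit 8098893793) (nat_lit 0)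 (nat_lit 8274413658) (nat_lit 17) (nat_lit 5) (nat_lit 19) (nat_lit 4) (nat_lit 17) (nat_lit 4) (nat_lit 413) (nat_lit 257) (nat_lit 230)))) (XT.nd (nat_lit 78) (nat_lit 0) (nat_lit 0) (XT.lf (nat_lit 0) (nat_lit 1876915753) (nat_lit 76) (nat_lit 17184690367) (nat_lit 76) (nat_lit 11691842743) (nat_lit 16) (nat_lit 4) (nat_lit 17) (nat_lit 5) (nat_lit 17) (nat_lit 4) (nat_lit 414) (nat_lit 257) (nat_lit 229)) (XT.nd (nat_lit 78) (nat_lit 0) (nat_lit 0) (XT.lf (nat_lit 0) (nat_lit 12175817965) (nat_lit 76) (nat_lit 12478757054) (nat_lit 76) (nat_lit 6861689836) (nat_lit 16) (nat_lit 4) (nat_lit 17) (nat_lit 5) (nat_lit 17) (nat_lit 4) (nat_lit 415) (nat_lit 257) (nat_lit 228)) (XT.lf (nat_lit 0) (nat_lit 22645628015) (nat_lit 76) (nat_lit 7698079920) (nat_lit 76) (nat_lit 1960411154) (nat_lit 16) (nat_lit 4) (nat_lit 17) (nat_lit 5) (nat_lit 17) (nat_lit 4) (nat_lit 416) (nat_lit 257) (nat_lit 227))))) (XT.nd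 (nat_lit 234) (nat_lit 76) (nat_lit 0) (XT.nd (nat_lit 78) (nat_lit 0) (nat_lit 0) (XT.lf (nat_lit 0) (nat_lit 151761419) (nat_lit 76) (nat_lit 2807114968) (nat_lit 152) (nat_lit 30157910005) (nat_lit 14) (nat_lit 5) (nat_lit 15) (nat_lit 5) (nat_lit 16) (nat_lit 4) (nat_lit 417) (nat_lit 257) (nat_lit 226)) (XT.nd (nat_lit 78) (nat_lit 0) (nat_lit 0) (XT.lf (nat_lit 0) (nat_lit 8036182340) (nat_lit 152) (nat_lit 23673994283) (nat_lit 0) (nat_lit 2241584114) (nat_lit 14) (nat_lit 5) (nat_lit 16) (nat_lit 4) (nat_lit 14) (nat_lit 4) (nat_lit 418) (nat_lit 257) (nat_lit 225)) (XT.lf (nat_lit 0) (nat_lit 13225545286) (nat_lit 152) (nat_lit 14263657199) (nat_lit 0) (nat_lit 7323794147) (nat_lit 14) (nat_lit 5) (nat_lit 16) (nat_lit 4) (nat_lit 14) (nat_lit 4) (nat_lit 419) (nat_lit 257) (nat_lit 224)))) (XT.nd (nat_lit 156) (nat_lit 0) (nat_lit 0) (XT.nd (nat_lit 78) (nat_lit 76) (nat_lit 0) (XT.lf (nat_lit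 0) (nat_lit 18504515914) (nat_lit 152) (nat_lit 4698807389) (nat_lit 0) (nat_lit 12498732820) (nat_lit 14) (nat_lit 5) (nat_lit 16) (nat_lit 4) (nat_lit 14) (nat_lit 4) (nat_lit 420) (nat_lit 257) (nat_lit 223)) (XT.lf (nat_lit 0) (nat_lit 5128998005) (nat_lit 76) (nat_lit 18798011977) (nat_lit 76) (nat_lit 12691226986) (nat_lit 13) (nat_lit 4) (nat_lit 14) (nat_lit 5) (nat_lit 14) (nat_lit 4) (nat_lit 421) (nat_lit 257) (nat_lit 222))) (XT.nd (nat_lit 78) (nat_lit 0) (nat_lit 0) (XT.lf (nat_lit 0) (nat_lit 15225099797) (nat_lit 76) (nat_lit 14271066490) (nat_lit 76) (nat_lit 8066221405) (nat_lit 13) (nat_lit 4) (nat_lit 14) (nat_lit 5) (nat_lit 14) (nat_lit 4) (nat_lit 422) (nat_lit 257) (nat_lit 221)) (XT.lf (nat_lit 0) (nat_lit 25504804341) (nat_lit 76) (nat_lit 9665980002) (nat_lit 76) (nat_lit 3365930941) (nat_lit 13) (nat_lit 4) (nat_lit 14) (nat_lit 5) (nat_lit 14) (nat_lit 4) (nat_lit 423) (nat_lit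 257) (nat_lit 220)))))) (XT.nd (nat_lit 546) (nat_lit 152) (nat_lit 0) (XT.nd (nat_lit 234) (nat_lit 76) (nat_lit 0) (XT.nd (nat_lit 78) (nat_lit 76) (nat_lit 0) (XT.lf (nat_lit 0) (nat_lit 1386164072) (nat_lit 152) (nat_lit 3578567037) (nat_lit 76) (nat_lit 34576932292) (nat_lit 12) (nat_lit 5) (nat_lit 14) (nat_lit 5) (nat_lit 13) (nat_lit 4) (nat_lit 424) (nat_lit 257) (nat_lit 219)) (XT.nd (nat_lit 78) (nat_lit 0) (nat_lit 0) (XT.lf (nat_lit 0) (nat_lit 6131086629) (nat_lit 76) (nat_lit 82364410) (nat_lit 152) (nat_lit 34362304333) (nat_lit 11) (nat_lit 5) (nat_lit 12) (nat_lit 5) (nat_lit 13) (nat_lit 4) (nat_lit 425) (nat_lit 257) (nat_lit 218)) (XT.lf (nat_lit 0) (nat_lit 11211048207) (nat_lit 152) (nat_lit 25596016444) (nat_lit 0) (nat_lit 4833044220) (nat_lit 11) (nat_lit 5) (nat_lit 13) (nat_lit 4) (nat_lit 11) (nat_lit 4) (nat_lit 426) (nat_lit 257) (nat_lit 217)))) (XT.nd (nat_lit 156) (nat_lit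 76) (nat_lit 0) (XT.nd (nat_lit 78) (nat_lit 0) (nat_lit 0) (XT.lf (nat_lit 0) (nat_lit 16302542919) (nat_lit 152) (nat_lit 16593119234) (nat_lit 0) (nat_lit 9842415147) (nat_lit 11) (nat_lit 5) (nat_lit 13) (nat_lit 4) (nat_lit 11) (nat_lit 4) (nat_lit 427) (nat_lit 257) (nat_lit 216)) (XT.lf (nat_lit 0) (nat_lit 21491592318) (nat_lit 152) (nat_lit 7427318766) (nat_lit 0) (nat_lit 14951732715) (nat_lit 11) (nat_lit 5) (nat_lit 13) (nat_lit 4) (nat_lit 11) (nat_lit 4) (nat_lit 428) (nat_lit 257) (nat_lit 215))) (XT.nd (nat_lit 78) (nat_lit 0) (nat_lit 0) (XT.lf (nat_lit 0) (nat_lit 1947394592) (nat_lit 76) (nat_lit 24854055481) (nat_lit 76) (nat_lit 18236786333) (nat_lit 10) (nat_lit 4) (nat_lit 11) (nat_lit 5) (nat_lit 11) (nat_lit 4) (nat_lit 429) (nat_lit 257) (nat_lit 214)) (XT.lf (nat_lit 0) (nat_lit 11652560514) (nat_lit 76) (nat_lit 20640031890) (nat_lit 76) (nat_lit 13947607845) (nat_lit 10) (nat_lit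 4) (nat_lit 11) (nat_lit 5) (nat_lit 11) (nat_lit 4) (nat_lit 430) (nat_lit 257) (nat_lit 213))))) (XT.nd (nat_lit 234) (nat_lit 152) (nat_lit 0) (XT.nd (nat_lit 78) (nat_lit 0) (nat_lit 0) (XT.lf (nat_lit 0) (nat_lit 21548841033) (nat_lit 76) (nat_lit 16348159512) (nat_lit 76) (nat_lit 9582769548) (nat_lit 10) (nat_lit 4) (nat_lit 11) (nat_lit 5) (nat_lit 11) (nat_lit 4) (nat_lit 431) (nat_lit 257) (nat_lit 212)) (XT.nd (nat_lit 78) (nat_lit 0) (nat_lit 0) (XT.lf (nat_lit 0) (nat_lit 31644883386) (nat_lit 76) (nat_lit 11974688168) (nat_lit 76) (nat_lit 5138457505) (nat_lit 10) (nat_lit 4) (nat_lit 11) (nat_lit 5) (nat_lit 11) (nat_lit 4) (nat_lit 432) (nat_lit 257) (nat_lit 211)) (XT.lf (nat_lit 0) (nat_lit 41949509357) (nat_lit 76) (nat_lit 7515796378) (nat_lit 76) (nat_lit 610788337) (nat_lit 10) (nat_lit 4) (nat_lit 11) (nat_lit 5) (nat_lit 11) (nat_lit 4) (nat_lit 433) (nat_lit 257) (nat_lit 210))))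 (XT.nd (nat_lit 156) (nat_lit 0) (nat_lit 0) (XT.nd (nat_lit 78) (nat_lit 0) (nat_lit 0) (XT.lf (nat_lit 0) (nat_lit 1017979836) (nat_lit 76) (nat_lit 2917863528) (nat_lit 152) (nat_lit 47497825189) (nat_lit 8) (nat_lit 5) (nat_lit 9) (nat_lit 5) (nat_lit 10) (nat_lit 4) (nat_lit 434) (nat_lit 257) (nat_lit 209)) (XT.lf (nat_lit 0) (nat_lit 8659455691) (nat_lit 152) (nat_lit 42342955962) (nat_lit 0) (nat_lit 1827794071) (nat_lit 8) (nat_lit 5) (nat_lit 10) (nat_lit 4) (nat_lit 8) (nat_lit 4) (nat_lit 435) (nat_lit 257) (nat_lit 208))) (XT.nd (nat_lit 78) (nat_lit 0) (nat_lit 0) (XT.lf (nat_lit 0) (nat_lit 13507556459) (nat_lit 152) (nat_lit 34146814659) (nat_lit 0) (nat_lit 6614787030) (nat_lit 8) (nat_lit 5) (nat_lit 10) (nat_lit 4) (nat_lit 8) (nat_lit 4) (nat_lit 436) (nat_lit 257) (nat_lit 207)) (XT.lf (nat_lit 0) (nat_lit 18456333584) (nat_lit 152) (nat_lit 25792054842) (nat_lit 0) (nat_lit 11504236185)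 (nat_lit 8) (nat_lit 5) (nat_lit 10) (nat_lit 4) (nat_lit 8) (nat_lit 4) (nat_lit 437) (nat_lit 257) (nat_lit 206))))))) (XT.nd (nat_lit 42666) (nat_lit 0) (nat_lit 1672) (XT.nd (nat_lit 468) (nat_lit 152) (nat_lit 0) (XT.nd (nat_lit 234) (nat_lit 0) (nat_lit 0) (XT.nd (nat_lit 78) (nat_lit 76) (nat_lit 0) (XT.lf (nat_lit 0) (nat_lit 23510111239) (nat_lit 152) (nat_lit 17271376236) (nat_lit 0) (nat_lit 16500413870) (nat_lit 8) (nat_lit 5) (nat_lit 10) (nat_lit 4) (nat_lit 8) (nat_lit 4) (nat_lit 438) (nat_lit 257) (nat_lit 205)) (XT.nd (nat_lit 78) (nat_lit 76) (nat_lit 0) (XT.lf (nat_lit 0) (nat_lit 28673305348) (nat_lit 152) (nat_lit 8577333587) (nat_lit 0) (nat_lit 21607685677) (nat_lit 8) (nat_lit 5) (nat_lit 10) (nat_lit 4) (nat_lit 8) (nat_lit 4) (nat_lit 439) (nat_lit 257) (nat_lit 204)) (XT.lf (nat_lit 0) (nat_lit 303594053) (nat_lit 76) (nat_lit 33649751718) (nat_lit 76) (nat_lit 26529838549) (nat_lit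 7) (nat_lit 4) (nat_lit 8) (nat_lit 5) (nat_lit 8) (nat_lit 4) (nat_lit 440) (nat_lit 257) (nat_lit 203)))) (XT.nd (nat_lit 78) (nat_lit 0) (nat_lit 0) (XT.lf (nat_lit 0) (nat_lit 9547698897) (nat_lit 76) (nat_lit 29890168014) (nat_lit 76) (nat_lit 22717542713) (nat_lit 7) (nat_lit 4) (nat_lit 8) (nat_lit 5) (nat_lit 8) (nat_lit 4) (nat_lit 441) (nat_lit 257) (nat_lit 202)) (XT.nd (nat_lit 78) (nat_lit 0) (nat_lit 0) (XT.lf (nat_lit 0) (nat_lit 18992352563) (nat_lit 76) (nat_lit 26055217002) (nat_lit 76) (nat_lit 18831414873) (nat_lit 7) (nat_lit 4) (nat_lit 8) (nat_lit 5) (nat_lit 8) (nat_lit 4) (nat_lit 442) (nat_lit 257) (nat_lit 201)) (XT.lf (nat_lit 0) (nat_lit 28645807658) (nat_lit 76) (nat_lit 22141547755) (nat_lit 76) (nat_lit 14868059385) (nat_lit 7) (nat_lit 4) (nat_lit 8) (nat_lit 5) (nat_lit 8) (nat_lit 4) (nat_lit 443) (nat_lit 257) (nat_lit 200))))) (XT.nd (nat_lit 234) (nat_lit 152) (nat_lit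 0) (XT.nd (nat_lit 78) (nat_lit 0) (nat_lit 0) (XT.lf (nat_lit 0) (nat_lit 38516499243) (nat_lit 76) (nat_lit 18145740561) (nat_lit 76) (nat_lit 10824013122) (nat_lit 7) (nat_lit 4) (nat_lit 8) (nat_lit 5) (nat_lit 8) (nat_lit 4) (nat_lit 444) (nat_lit 257) (nat_lit 199)) (XT.nd (nat_lit 78) (nat_lit 0) (nat_lit 0) (XT.lf (nat_lit 0) (nat_lit 48613052191) (nat_lit 76) (nat_lit 14064303938) (nat_lit 76) (nat_lit 6695742452) (nat_lit 7) (nat_lit 4) (nat_lit 8) (nat_lit 5) (nat_lit 8) (nat_lit 4) (nat_lit 445) (nat_lit 257) (nat_lit 198)) (XT.lf (nat_lit 0) (nat_lit 58944288735) (nat_lit 76) (nat_lit 9893671583) (nat_lit 76) (nat_lit 2479640148) (nat_lit 7) (nat_lit 4) (nat_lit 8) (nat_lit 5) (nat_lit 8) (nat_lit 4) (nat_lit 446) (nat_lit 257) (nat_lit 197)))) (XT.nd (nat_lit 156) (nat_lit 0) (nat_lit 0) (XT.nd (nat_lit 78) (nat_lit 76) (nat_lit 0) (XT.lf (nat_lit 0) (nat_lit 1792307332) (nat_lit 152) (nat_lit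 3819793131) (nat_lit 76) (nat_lit 67708830046) (nat_lit 6) (nat_lit 5) (nat_lit 8) (nat_lit 5) (nat_lit 7) (nat_lit 4) (nat_lit 447) (nat_lit 257) (nat_lit 196)) (XT.lf (nat_lit 0) (nat_lit 4998354550) (nat_lit 76) (nat_lit 1158981092) (nat_lit 152) (nat_lit 69225847192) (nat_lit 5) (nat_lit 5) (nat_lit 6) (nat_lit 5) (nat_lit 7) (nat_lit 4) (nat_lit 448) (nat_lit 257) (nat_lit 195))) (XT.nd (nat_lit 78) (nat_lit 0) (nat_lit 0) (XT.lf (nat_lit 0) (nat_lit 10691981508) (nat_lit 152) (nat_lit 63445140856) (nat_lit 0) (nat_lit 3369022043) (nat_lit 5) (nat_lit 5) (nat_lit 7) (nat_lit 4) (nat_lit 5) (nat_lit 4) (nat_lit 449) (nat_lit 257) (nat_lit 194)) (XT.lf (nat_lit 0) (nat_lit 15341872805) (nat_lit 152) (nat_lit 56371856909) (nat_lit 0) (nat_lit 7979690563) (nat_lit 5) (nat_lit 5) (nat_lit 7) (nat_lit 4) (nat_lit 5) (nat_lit 4) (nat_lit 450) (nat_lit 257) (nat_lit 193)))))) (XT.nd (nat_lit 546) (nat_lit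 456) (nat_lit 0) (XT.nd (nat_lit 234) (nat_lit 456) (nat_lit 0) (XT.nd (nat_lit 78) (nat_lit 152) (nat_lit 0) (XT.lf (nat_lit 0) (nat_lit 1468535311) (nat_lit 152) (nat_lit 5072269376) (nat_lit 0) (nat_lit 1468535311) (nat_lit 41) (nat_lit 5) (nat_lit 43) (nat_lit 4) (nat_lit 41) (nat_lit 4) (nat_lit 384) (nat_lit 258) (nat_lit 258)) (XT.nd (nat_lit 78) (nat_lit 0) (nat_lit 0) (XT.lf (nat_lit 0) (nat_lit 295675536) (nat_lit 152) (nat_lit 8193889858) (nat_lit 152) (nat_lit 7833866900) (nat_lit 39) (nat_lit 4) (nat_lit 41) (nat_lit 5) (nat_lit 41) (nat_lit 4) (nat_lit 385) (nat_lit 258) (nat_lit 257)) (XT.lf (nat_lit 0) (nat_lit 11045421882) (nat_lit 152) (nat_lit 3150924142) (nat_lit 152) (nat_lit 2441364333) (nat_lit 39) (nat_lit 4) (nat_lit 41) (nat_lit 5) (nat_lit 41) (nat_lit 4) (nat_lit 386) (nat_lit 258) (nat_lit 256)))) (XT.nd (nat_lit 156) (nat_lit 304) (nat_lit 0) (XT.nd (nat_lit 78) (nat_lit 0)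 (nat_lit 0) (XT.lf (nat_lit 0) (nat_lit 3007386996) (nat_lit 152) (nat_lit 11965467258) (nat_lit 0) (nat_lit 1989021970) (nat_lit 37) (nat_lit 5) (nat_lit 39) (nat_lit 4) (nat_lit 37) (nat_lit 4) (nat_lit 387) (nat_lit 258) (nat_lit 255)) (XT.lf (nat_lit 0) (nat_lit 8546646944) (nat_lit 152) (nat_lit 1540718625) (nat_lit 0) (nat_lit 7208406184) (nat_lit 37) (nat_lit 5) (nat_lit 39) (nat_lit 4) (nat_lit 37) (nat_lit 4) (nat_lit 388) (nat_lit 258) (nat_lit 254))) (XT.nd (nat_lit 78) (nat_lit 152) (nat_lit 0) (XT.lf (nat_lit 0) (nat_lit 9173725531) (nat_lit 152) (nat_lit 5057695580) (nat_lit 152) (nat_lit 3408895853) (nat_lit 35) (nat_lit 4) (nat_lit 37) (nat_lit 5) (nat_lit 37) (nat_lit 4) (nat_lit 389) (nat_lit 258) (nat_lit 253)) (XT.lf (nat_lit 0) (nat_lit 1978436318) (nat_lit 152) (nat_lit 15933411657) (nat_lit 0) (nat_lit 84928274) (nat_lit 33) (nat_lit 5) (nat_lit 35) (nat_lit 4) (nat_lit 33) (nat_lit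 4) (nat_lit 390) (nat_lit 258) (nat_lit 252))))) (XT.nd (nat_lit 234) (nat_lit 304) (nat_lit 0) (XT.nd (nat_lit 78) (nat_lit 152) (nat_lit 0) (XT.lf (nat_lit 0) (nat_lit 7486961910) (nat_lit 152) (nat_lit 5565875586) (nat_lit 0) (nat_lit 5309248419) (nat_lit 33) (nat_lit 5) (nat_lit 35) (nat_lit 4) (nat_lit 33) (nat_lit 4) (nat_lit 391) (nat_lit 258) (nat_lit 251)) (XT.nd (nat_lit 78) (nat_lit 0) (nat_lit 0) (XT.lf (nat_lit 0) (nat_lit 5013812314) (nat_lit 152) (nat_lit 8089952250) (nat_lit 152) (nat_lit 5636311140) (nat_lit 31) (nat_lit 4) (nat_lit 33) (nat_lit 5) (nat_lit 33) (nat_lit 4) (nat_lit 392) (nat_lit 258) (nat_lit 250)) (XT.lf (nat_lit 0) (nat_lit 15830202602) (nat_lit 152) (nat_lit 3011089547) (nat_lit 152) (nat_lit 289557545) (nat_lit 31) (nat_lit 4) (nat_lit 33) (nat_lit 5) (nat_lit 33) (nat_lit 4) (nat_lit 393) (nat_lit 258) (nat_lit 249)))) (XT.nd (nat_lit 156) (nat_lit 152) (nat_lit 0)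 (XT.nd (nat_lit 78) (nat_lit 0) (nat_lit 0) (XT.lf (nat_lit 0) (nat_lit 5106051863) (nat_lit 152) (nat_lit 12214817947) (nat_lit 0) (nat_lit 2211274925) (nat_lit 29) (nat_lit 5) (nat_lit 31) (nat_lit 4) (nat_lit 29) (nat_lit 4) (nat_lit 394) (nat_lit 258) (nat_lit 248)) (XT.lf (nat_lit 0) (nat_lit 10619517565) (nat_lit 152) (nat_lit 1847448502) (nat_lit 0) (nat_lit 7479582511) (nat_lit 29) (nat_lit 5) (nat_lit 31) (nat_lit 4) (nat_lit 29) (nat_lit 4) (nat_lit 395) (nat_lit 258) (nat_lit 247))) (XT.nd (nat_lit 78) (nat_lit 76) (nat_lit 0) (XT.lf (nat_lit 0) (nat_lit 8817112130) (nat_lit 76) (nat_lit 7467326697) (nat_lit 76) (nat_lit 4089374055) (nat_lit 28) (nat_lit 4) (nat_lit 29) (nat_lit 5) (nat_lit 29) (nat_lit 4) (nat_lit 396) (nat_lit 258) (nat_lit 246)) (XT.lf (nat_lit 0) (nat_lit 1200205564) (nat_lit 152) (nat_lit 1172620381) (nat_lit 76) (nat_lit 18443094054) (nat_lit 27) (nat_lit 5) (nat_lit 29)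 (nat_lit 5) (nat_lit 28) (nat_lit 4) (nat_lit 397) (nat_lit 258) (nat_lit 245))))))))
noncomputable def xc21 : XT := (XT.nd (nat_lit 2106) (nat_lit 608) (nat_lit 0) (XT.nd (nat_lit 1014) (nat_lit 456) (nat_lit 0) (XT.nd (nat_lit 468) (nat_lit 304) (nat_lit 0) (XT.nd (nat_lit 234) (nat_lit 152) (nat_lit 0) (XT.nd (nat_lit 78) (nat_lit 76) (nat_lit 0) (XT.lf (nat_lit 0) (nat_lit 6589891262) (nat_lit 152) (nat_lit 11811333748) (nat_lit 0) (nat_lit 2868151376) (nat_lit 26) (nat_lit 5) (nat_lit 28) (nat_lit 4) (nat_lit 26) (nat_lit 4) (nat_lit 398) (nat_lit 258) (nat_lit 244)) (XT.nd (nat_lit 78) (nat_lit 76) (nat_lit 0) (XT.lf (nat_lit 0) (nat_lit 12081275143) (nat_lit 152) (nat_lit 1508910171) (nat_lit 0) (nat_lit 8148059713) (nat_lit 26) (nat_lit 5) (nat_lit 28) (nat_lit 4) (nat_lit 26) (nat_lit 4) (nat_lit 399) (nat_lit 258) (nat_lit 243)) (XT.lf (nat_lit 0) (nat_lit 9104637279) (nat_lit 76) (nat_lit 8627618410)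 (nat_lit 76) (nat_lit 4489086918) (nat_lit 25) (nat_lit 4) (nat_lit 26) (nat_lit 5) (nat_lit 26) (nat_lit 4) (nat_lit 400) (nat_lit 258) (nat_lit 242)))) (XT.nd (nat_lit 78) (nat_lit 76) (nat_lit 0) (XT.lf (nat_lit 0) (nat_lit 740397150) (nat_lit 152) (nat_lit 2834861258) (nat_lit 76) (nat_lit 19145757220) (nat_lit 24) (nat_lit 5) (nat_lit 26) (nat_lit 5) (nat_lit 25) (nat_lit 4) (nat_lit 401) (nat_lit 258) (nat_lit 241)) (XT.nd (nat_lit 78) (nat_lit 0) (nat_lit 0) (XT.lf (nat_lit 0) (nat_lit 6036659631) (nat_lit 152) (nat_lit 15560445494) (nat_lit 0) (nat_lit 1637244530) (nat_lit 23) (nat_lit 5) (nat_lit 25) (nat_lit 4) (nat_lit 23) (nat_lit 4) (nat_lit 402) (nat_lit 258) (nat_lit 240)) (XT.lf (nat_lit 0) (nat_lit 11466485333) (nat_lit 152) (nat_lit 5412716121) (nat_lit 0) (nat_lit 6884649570) (nat_lit 23) (nat_lit 5) (nat_lit 25) (nat_lit 4) (nat_lit 23) (nat_lit 4) (nat_lit 403) (nat_lit 258) (nat_lit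 239))))) (XT.nd (nat_lit 234) (nat_lit 76) (nat_lit 0) (XT.nd (nat_lit 78) (nat_lit 152) (nat_lit 0) (XT.lf (nat_lit 0) (nat_lit 4970561400) (nat_lit 76) (nat_lit 12049401936) (nat_lit 76) (nat_lit 7290458735) (nat_lit 22) (nat_lit 4) (nat_lit 23) (nat_lit 5) (nat_lit 23) (nat_lit 4) (nat_lit 404) (nat_lit 258) (nat_lit 238)) (XT.nd (nat_lit 78) (nat_lit 152) (nat_lit 0) (XT.lf (nat_lit 0) (nat_lit 15612041583) (nat_lit 76) (nat_lit 7096595127) (nat_lit 76) (nat_lit 2165702955) (nat_lit 22) (nat_lit 4) (nat_lit 23) (nat_lit 5) (nat_lit 23) (nat_lit 4) (nat_lit 405) (nat_lit 258) (nat_lit 237)) (XT.lf (nat_lit 0) (nat_lit 944955397) (nat_lit 76) (nat_lit 2031787615) (nat_lit 152) (nat_lit 22479800168) (nat_lit 20) (nat_lit 5) (nat_lit 21) (nat_lit 5) (nat_lit 22) (nat_lit 4) (nat_lit 406) (nat_lit 258) (nat_lit 236)))) (XT.nd (nat_lit 156) (nat_lit 76) (nat_lit 0) (XT.nd (nat_lit 78) (nat_lit 0) (nat_lit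 0) (XT.lf (nat_lit 0) (nat_lit 8270805288) (nat_lit 152) (nat_lit 14619449359) (nat_lit 0) (nat_lit 3164095274) (nat_lit 20) (nat_lit 5) (nat_lit 22) (nat_lit 4) (nat_lit 20) (nat_lit 4) (nat_lit 407) (nat_lit 258) (nat_lit 235)) (XT.lf (nat_lit 0) (nat_lit 13662057101) (nat_lit 152) (nat_lit 4607316428) (nat_lit 0) (nat_lit 8402572655) (nat_lit 20) (nat_lit 5) (nat_lit 22) (nat_lit 4) (nat_lit 20) (nat_lit 4) (nat_lit 408) (nat_lit 258) (nat_lit 234))) (XT.nd (nat_lit 78) (nat_lit 0) (nat_lit 0) (XT.lf (nat_lit 0) (nat_lit 5663607644) (nat_lit 76) (nat_lit 13526512886) (nat_lit 76) (nat_lit 8118703748) (nat_lit 19) (nat_lit 4) (nat_lit 20) (nat_lit 5) (nat_lit 20) (nat_lit 4) (nat_lit 409) (nat_lit 258) (nat_lit 233)) (XT.lf (nat_lit 0) (nat_lit 16186505760) (nat_lit 76) (nat_lit 8665541003) (nat_lit 76) (nat_lit 3113727311) (nat_lit 19) (nat_lit 4) (nat_lit 20) (nat_lit 5) (nat_lit 20) (nat_lit 4) (nat_lit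 410) (nat_lit 258) (nat_lit 232)))))) (XT.nd (nat_lit 546) (nat_lit 152) (nat_lit 0) (XT.nd (nat_lit 234) (nat_lit 152) (nat_lit 0) (XT.nd (nat_lit 78) (nat_lit 76) (nat_lit 0) (XT.lf (nat_lit 0) (nat_lit 1924585619) (nat_lit 152) (nat_lit 1784715132) (nat_lit 76) (nat_lit 24934857892) (nat_lit 18) (nat_lit 5) (nat_lit 20) (nat_lit 5) (nat_lit 19) (nat_lit 4) (nat_lit 411) (nat_lit 258) (nat_lit 231)) (XT.nd (nat_lit 78) (nat_lit 0) (nat_lit 0) (XT.lf (nat_lit 0) (nat_lit 7072318468) (nat_lit 152) (nat_lit 20854345875) (nat_lit 0) (nat_lit 1414685415) (nat_lit 17) (nat_lit 5) (nat_lit 19) (nat_lit 4) (nat_lit 17) (nat_lit 4) (nat_lit 412) (nat_lit 258) (nat_lit 230)) (XT.lf (nat_lit 0) (nat_lit 12354830529) (nat_lit 152) (nat_lit 11135969683) (nat_lit 0) (nat_lit 6569251294) (nat_lit 17) (nat_lit 5) (nat_lit 19) (nat_lit 4) (nat_lit 17) (nat_lit 4) (nat_lit 413) (nat_lit 258) (nat_lit 229)))) (XT.nd (nat_lit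 156) (nat_lit 76) (nat_lit 0) (XT.nd (nat_lit 78) (nat_lit 76) (nat_lit 0) (XT.lf (nat_lit 0) (nat_lit 17723411075) (nat_lit 152) (nat_lit 1265468355) (nat_lit 0) (nat_lit 11813612246) (nat_lit 17) (nat_lit 5) (nat_lit 19) (nat_lit 4) (nat_lit 17) (nat_lit 4) (nat_lit 414) (nat_lit 258) (nat_lit 228)) (XT.lf (nat_lit 0) (nat_lit 8940239082) (nat_lit 76) (nat_lit 14328451063) (nat_lit 76) (nat_lit 8298050686) (nat_lit 16) (nat_lit 4) (nat_lit 17) (nat_lit 5) (nat_lit 17) (nat_lit 4) (nat_lit 415) (nat_lit 258) (nat_lit 227))) (XT.nd (nat_lit 78) (nat_lit 76) (nat_lit 0) (XT.lf (nat_lit 0) (nat_lit 19344020520) (nat_lit 76) (nat_lit 9579546935) (nat_lit 76) (nat_lit 3432057677) (nat_lit 16) (nat_lit 4) (nat_lit 17) (nat_lit 5) (nat_lit 17) (nat_lit 4) (nat_lit 416) (nat_lit 258) (nat_lit 226)) (XT.lf (nat_lit 0) (nat_lit 1480898725) (nat_lit 152) (nat_lit 3254943369) (nat_lit 76) (nat_lit 28433928438) (nat_lit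 15) (nat_lit 5) (nat_lit 17) (nat_lit 5) (nat_lit 16) (nat_lit 4) (nat_lit 417) (nat_lit 258) (nat_lit 225))))) (XT.nd (nat_lit 234) (nat_lit 76) (nat_lit 0) (XT.nd (nat_lit 78) (nat_lit 0) (nat_lit 0) (XT.lf (nat_lit 0) (nat_lit 6473912582) (nat_lit 152) (nat_lit 27245407257) (nat_lit 0) (nat_lit 287955996) (nat_lit 14) (nat_lit 5) (nat_lit 16) (nat_lit 4) (nat_lit 14) (nat_lit 4) (nat_lit 418) (nat_lit 258) (nat_lit 224)) (XT.nd (nat_lit 78) (nat_lit 0) (nat_lit 0) (XT.lf (nat_lit 0) (nat_lit 11630727151) (nat_lit 152) (nat_lit 17898024551) (nat_lit 0) (nat_lit 5340738610) (nat_lit 14) (nat_lit 5) (nat_lit 16) (nat_lit 4) (nat_lit 14) (nat_lit 4) (nat_lit 419) (nat_lit 258) (nat_lit 223)) (XT.lf (nat_lit 0) (nat_lit 16878097412) (nat_lit 152) (nat_lit 8394295496) (nat_lit 0) (nat_lit 10487106974) (nat_lit 14) (nat_lit 5) (nat_lit 16) (nat_lit 4) (nat_lit 14) (nat_lit 4) (nat_lit 420) (nat_lit 258) (nat_lit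 222)))) (XT.nd (nat_lit 156) (nat_lit 0) (nat_lit 0) (XT.nd (nat_lit 78) (nat_lit 0) (nat_lit 0) (XT.lf (nat_lit 0) (nat_lit 1299440907) (nat_lit 76) (nat_lit 20933658561) (nat_lit 76) (nat_lit 14444608028) (nat_lit 13) (nat_lit 4) (nat_lit 14) (nat_lit 5) (nat_lit 14) (nat_lit 4) (nat_lit 421) (nat_lit 258) (nat_lit 221)) (XT.lf (nat_lit 0) (nat_lit 11336783929) (nat_lit 76) (nat_lit 16435120642) (nat_lit 76) (nat_lit 9850866134) (nat_lit 13) (nat_lit 4) (nat_lit 14) (nat_lit 5) (nat_lit 14) (nat_lit 4) (nat_lit 422) (nat_lit 258) (nat_lit 220))) (XT.nd (nat_lit 78) (nat_lit 0) (nat_lit 0) (XT.lf (nat_lit 0) (nat_lit 21559441125) (nat_lit 76) (nat_lit 11857614316) (nat_lit 76) (nat_lit 5180928764) (nat_lit 13) (nat_lit 4) (nat_lit 14) (nat_lit 5) (nat_lit 14) (nat_lit 4) (nat_lit 423) (nat_lit 258) (nat_lit 219)) (XT.lf (nat_lit 0) (nat_lit 31976344912) (nat_lit 76) (nat_lit 7197139820) (nat_lit 76) (nat_lit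 430715390) (nat_lit 13) (nat_lit 4) (nat_lit 14) (nat_lit 5) (nat_lit 14) (nat_lit 4) (nat_lit 424) (nat_lit 258) (nat_lit 218))))))) (XT.nd (nat_lit 1014) (nat_lit 228) (nat_lit 0) (XT.nd (nat_lit 468) (nat_lit 152) (nat_lit 0) (XT.nd (nat_lit 234) (nat_lit 76) (nat_lit 0) (XT.nd (nat_lit 78) (nat_lit 0) (nat_lit 0) (XT.lf (nat_lit 0) (nat_lit 1950018428) (nat_lit 76) (nat_lit 2386714567) (nat_lit 152) (nat_lit 36303732342) (nat_lit 11) (nat_lit 5) (nat_lit 12) (nat_lit 5) (nat_lit 13) (nat_lit 4) (nat_lit 425) (nat_lit 258) (nat_lit 217)) (XT.nd (nat_lit 78) (nat_lit 0) (nat_lit 0) (XT.lf (nat_lit 0) (nat_lit 9284176453) (nat_lit 152) (nat_lit 29874027614) (nat_lit 0) (nat_lit 2548121062) (nat_lit 11) (nat_lit 5) (nat_lit 13) (nat_lit 4) (nat_lit 11) (nat_lit 4) (nat_lit 426) (nat_lit 258) (nat_lit 216)) (XT.lf (nat_lit 0) (nat_lit 14348483897) (nat_lit 152) (nat_lit 20923930235) (nat_lit 0) (nat_lit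 7532696675) (nat_lit 11) (nat_lit 5) (nat_lit 13) (nat_lit 4) (nat_lit 11) (nat_lit 4) (nat_lit 427) (nat_lit 258) (nat_lit 215)))) (XT.nd (nat_lit 78) (nat_lit 76) (nat_lit 0) (XT.lf (nat_lit 0) (nat_lit 19511137890) (nat_lit 152) (nat_lit 11809391741) (nat_lit 0) (nat_lit 12617941124) (nat_lit 11) (nat_lit 5) (nat_lit 13) (nat_lit 4) (nat_lit 11) (nat_lit 4) (nat_lit 428) (nat_lit 258) (nat_lit 214)) (XT.nd (nat_lit 78) (nat_lit 76) (nat_lit 0) (XT.lf (nat_lit 0) (nat_lit 24776649489) (nat_lit 152) (nat_lit 2522447970) (nat_lit 0) (nat_lit 17808297825) (nat_lit 11) (nat_lit 5) (nat_lit 13) (nat_lit 4) (nat_lit 11) (nat_lit 4) (nat_lit 429) (nat_lit 258) (nat_lit 213)) (XT.lf (nat_lit 0) (nat_lit 7083235315) (nat_lit 76) (nat_lit 23134472702) (nat_lit 76) (nat_lit 16093155118) (nat_lit 10) (nat_lit 4) (nat_lit 11) (nat_lit 5) (nat_lit 11) (nat_lit 4) (nat_lit 430) (nat_lit 258) (nat_lit 212))))) (XT.nd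 (nat_lit 234) (nat_lit 152) (nat_lit 0) (XT.nd (nat_lit 78) (nat_lit 0) (nat_lit 0) (XT.lf (nat_lit 0) (nat_lit 16931670227) (nat_lit 76) (nat_lit 18865830474) (nat_lit 76) (nat_lit 11753672192) (nat_lit 10) (nat_lit 4) (nat_lit 11) (nat_lit 5) (nat_lit 11) (nat_lit 4) (nat_lit 431) (nat_lit 258) (nat_lit 211)) (XT.nd (nat_lit 78) (nat_lit 0) (nat_lit 0) (XT.lf (nat_lit 0) (nat_lit 26981260535) (nat_lit 76) (nat_lit 14514912674) (nat_lit 76) (nat_lit 7333977015) (nat_lit 10) (nat_lit 4) (nat_lit 11) (nat_lit 5) (nat_lit 11) (nat_lit 4) (nat_lit 432) (nat_lit 258) (nat_lit 210)) (XT.lf (nat_lit 0) (nat_lit 37240787432) (nat_lit 76) (nat_lit 10077917529) (nat_lit 76) (nat_lit 2830207716) (nat_lit 10) (nat_lit 4) (nat_lit 11) (nat_lit 5) (nat_lit 11) (nat_lit 4) (nat_lit 433) (nat_lit 258) (nat_lit 209)))) (XT.nd (nat_lit 156) (nat_lit 0) (nat_lit 0) (XT.nd (nat_lit 78) (nat_lit 76) (nat_lit 0) (XT.lf (nat_lit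 0) (nat_lit 1727196439) (nat_lit 152) (nat_lit 3806330314) (nat_lit 76) (nat_lit 45974577817) (nat_lit 9) (nat_lit 5) (nat_lit 11) (nat_lit 5) (nat_lit 10) (nat_lit 4) (nat_lit 434) (nat_lit 258) (nat_lit 208)) (XT.lf (nat_lit 0) (nat_lit 5561837446) (nat_lit 76) (nat_lit 811225399) (nat_lit 152) (nat_lit 46533912525) (nat_lit 8) (nat_lit 5) (nat_lit 9) (nat_lit 5) (nat_lit 10) (nat_lit 4) (nat_lit 435) (nat_lit 258) (nat_lit 207))) (XT.nd (nat_lit 78) (nat_lit 0) (nat_lit 0) (XT.lf (nat_lit 0) (nat_lit 11191313074) (nat_lit 152) (nat_lit 39184186669) (nat_lit 0) (nat_lit 3971324783) (nat_lit 8) (nat_lit 5) (nat_lit 10) (nat_lit 4) (nat_lit 8) (nat_lit 4) (nat_lit 436) (nat_lit 258) (nat_lit 206)) (XT.lf (nat_lit 0) (nat_lit 16118679961) (nat_lit 152) (nat_lit 30871162815) (nat_lit 0) (nat_lit 8841091699) (nat_lit 8) (nat_lit 5) (nat_lit 10) (nat_lit 4) (nat_lit 8) (nat_lit 4) (nat_lit 437) (nat_lit 258)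 (nat_lit 205)))))) (XT.nd (nat_lit 546) (nat_lit 152) (nat_lit 0) (XT.nd (nat_lit 234) (nat_lit 76) (nat_lit 0) (XT.nd (nat_lit 78) (nat_lit 0) (nat_lit 0) (XT.lf (nat_lit 0) (nat_lit 21151670978) (nat_lit 152) (nat_lit 22391004562) (nat_lit 0) (nat_lit 13818160414) (nat_lit 8) (nat_lit 5) (nat_lit 10) (nat_lit 4) (nat_lit 8) (nat_lit 4) (nat_lit 438) (nat_lit 258) (nat_lit 204)) (XT.nd (nat_lit 78) (nat_lit 0) (nat_lit 0) (XT.lf (nat_lit 0) (nat_lit 26294683884) (nat_lit 152) (nat_lit 13736302061) (nat_lit 0) (nat_lit 18906879824) (nat_lit 8) (nat_lit 5) (nat_lit 10) (nat_lit 4) (nat_lit 8) (nat_lit 4) (nat_lit 439) (nat_lit 258) (nat_lit 203)) (XT.lf (nat_lit 0) (nat_lit 31552212574) (nat_lit 152) (nat_lit 4899492952) (nat_lit 0) (nat_lit 24111696381) (nat_lit 8) (nat_lit 5) (nat_lit 10) (nat_lit 4) (nat_lit 8) (nat_lit 4) (nat_lit 440) (nat_lit 258) (nat_lit 202)))) (XT.nd (nat_lit 156) (nat_lit 0) (nat_lit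 0) (XT.nd (nat_lit 78) (nat_lit 0) (nat_lit 0) (XT.lf (nat_lit 0) (nat_lit 4209282510) (nat_lit 76) (nat_lit 32760030692) (nat_lit 76) (nat_lit 25268337671) (nat_lit 7) (nat_lit 4) (nat_lit 8) (nat_lit 5) (nat_lit 8) (nat_lit 4) (nat_lit 441) (nat_lit 258) (nat_lit 201)) (XT.lf (nat_lit 0) (nat_lit 13617217861) (nat_lit 76) (nat_lit 28942976378) (nat_lit 76) (nat_lit 21401597116) (nat_lit 7) (nat_lit 4) (nat_lit 8) (nat_lit 5) (nat_lit 8) (nat_lit 4) (nat_lit 442) (nat_lit 258) (nat_lit 200))) (XT.nd (nat_lit 78) (nat_lit 0) (nat_lit 0) (XT.lf (nat_lit 0) (nat_lit 23235024107) (nat_lit 76) (nat_lit 25046682564) (nat_lit 76) (nat_lit 17457064234) (nat_lit 7) (nat_lit 4) (nat_lit 8) (nat_lit 5) (nat_lit 8) (nat_lit 4) (nat_lit 443) (nat_lit 258) (nat_lit 199)) (XT.lf (nat_lit 0) (nat_lit 33071105157) (nat_lit 76) (nat_lit 21067744724) (nat_lit 76) (nat_lit 13431292346) (nat_lit 7) (nat_lit 4) (nat_lit 8)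 (nat_lit 5) (nat_lit 8) (nat_lit 4) (nat_lit 444) (nat_lit 258) (nat_lit 198))))) (XT.nd (nat_lit 234) (nat_lit 152) (nat_lit 0) (XT.nd (nat_lit 78) (nat_lit 0) (nat_lit 0) (XT.lf (nat_lit 0) (nat_lit 43134055646) (nat_lit 76) (nat_lit 17002686114) (nat_lit 76) (nat_lit 9320763787) (nat_lit 7) (nat_lit 4) (nat_lit 8) (nat_lit 5) (nat_lit 8) (nat_lit 4) (nat_lit 445) (nat_lit 258) (nat_lit 197)) (XT.nd (nat_lit 78) (nat_lit 0) (nat_lit 0) (XT.lf (nat_lit 0) (nat_lit 53432668443) (nat_lit 76) (nat_lit 12847954742) (nat_lit 76) (nat_lit 5121886833) (nat_lit 7) (nat_lit 4) (nat_lit 8) (nat_lit 5) (nat_lit 8) (nat_lit 4) (nat_lit 446) (nat_lit 258) (nat_lit 196)) (XT.lf (nat_lit 0) (nat_lit 63975942335) (nat_lit 76) (nat_lit 8599920260) (nat_lit 76) (nat_lit 830992564) (nat_lit 7) (nat_lit 4) (nat_lit 8) (nat_lit 5) (nat_lit 8) (nat_lit 4) (nat_lit 447) (nat_lit 258) (nat_lit 195)))) (XT.nd (nat_lit 156) (nat_lit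 0) (nat_lit 0) (XT.nd (nat_lit 78) (nat_lit 76) (nat_lit 0) (XT.lf (nat_lit 0) (nat_lit 3486284450) (nat_lit 152) (nat_lit 733381706) (nat_lit 76) (nat_lit 71251600804) (nat_lit 6) (nat_lit 5) (nat_lit 8) (nat_lit 5) (nat_lit 7) (nat_lit 4) (nat_lit 448) (nat_lit 258) (nat_lit 194)) (XT.lf (nat_lit 0) (nat_lit 7968351872) (nat_lit 152) (nat_lit 69281373432) (nat_lit 0) (nat_lit 346081385) (nat_lit 5) (nat_lit 5) (nat_lit 7) (nat_lit 4) (nat_lit 5) (nat_lit 4) (nat_lit 449) (nat_lit 258) (nat_lit 193))) (XT.nd (nat_lit 41574) (nat_lit 0) (nat_lit 2888) (XT.lf (nat_lit 0) (nat_lit 12602810099) (nat_lit 152) (nat_lit 62238276984) (nat_lit 0) (nat_lit 4942459246) (nat_lit 5) (nat_lit 5) (nat_lit 7) (nat_lit 4) (nat_lit 5) (nat_lit 4) (nat_lit 450) (nat_lit 258) (nat_lit 192)) (XT.lf (nat_lit 0) (nat_lit 201430462) (nat_lit 152) (nat_lit 3758034079) (nat_lit 152) (nat_lit 3758034079) (nat_lit 43) (nat_lit 4)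 (nat_lit 45) (nat_lit 5) (nat_lit 45) (nat_lit 4) (nat_lit 382) (nat_lit 259) (nat_lit 259))))))))
noncomputable def xc22 : XT := (XT.nd (nat_lit 2106) (nat_lit 836) (nat_lit 0) (XT.nd (nat_lit 1014) (nat_lit 760) (nat_lit 0) (XT.nd (nat_lit 468) (nat_lit 608) (nat_lit 0) (XT.nd (nat_lit 234) (nat_lit 152) (nat_lit 0) (XT.nd (nat_lit 78) (nat_lit 304) (nat_lit 0) (XT.lf (nat_lit 0) (nat_lit 11013542481) (nat_lit 152) (nat_lit 2545882639) (nat_lit 152) (nat_lit 2163934284) (nat_lit 43) (nat_lit 4) (nat_lit 45) (nat_lit 5) (nat_lit 45) (nat_lit 4) (nat_lit 383) (nat_lit 259) (nat_lit 258)) (XT.nd (nat_lit 78) (nat_lit 152) (nat_lit 0) (XT.lf (nat_lit 0) (nat_lit 3250714229) (nat_lit 152) (nat_lit 10249820917) (nat_lit 0) (nat_lit 2519867625) (nat_lit 41) (nat_lit 5) (nat_lit 43) (nat_lit 4) (nat_lit 41) (nat_lit 4) (nat_lit 384) (nat_lit 259) (nat_lit 257)) (XT.lf (nat_lit 0) (nat_lit 84048064) (nat_lit 152)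 (nat_lit 8661612041) (nat_lit 152) (nat_lit 7581228585) (nat_lit 39) (nat_lit 4) (nat_lit 41) (nat_lit 5) (nat_lit 41) (nat_lit 4) (nat_lit 385) (nat_lit 259) (nat_lit 256)))) (XT.nd (nat_lit 78) (nat_lit 152) (nat_lit 0) (XT.lf (nat_lit 0) (nat_lit 10732580831) (nat_lit 152) (nat_lit 3664989306) (nat_lit 152) (nat_lit 2245249683) (nat_lit 39) (nat_lit 4) (nat_lit 41) (nat_lit 5) (nat_lit 41) (nat_lit 4) (nat_lit 386) (nat_lit 259) (nat_lit 255)) (XT.nd (nat_lit 78) (nat_lit 0) (nat_lit 0) (XT.lf (nat_lit 0) (nat_lit 3136357399) (nat_lit 152) (nat_lit 12394384121) (nat_lit 0) (nat_lit 1438093681) (nat_lit 37) (nat_lit 5) (nat_lit 39) (nat_lit 4) (nat_lit 37) (nat_lit 4) (nat_lit 387) (nat_lit 259) (nat_lit 254)) (XT.lf (nat_lit 0) (nat_lit 8621998115) (nat_lit 152) (nat_lit 2069172120) (nat_lit 0) (nat_lit 6613175432) (nat_lit 37) (nat_lit 5) (nat_lit 39) (nat_lit 4) (nat_lit 37) (nat_lit 4) (nat_lit 388)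 (nat_lit 259) (nat_lit 253))))) (XT.nd (nat_lit 234) (nat_lit 304) (nat_lit 0) (XT.nd (nat_lit 78) (nat_lit 152) (nat_lit 0) (XT.lf (nat_lit 0) (nat_lit 8536193993) (nat_lit 152) (nat_lit 5712392438) (nat_lit 152) (nat_lit 3402056196) (nat_lit 35) (nat_lit 4) (nat_lit 37) (nat_lit 5) (nat_lit 37) (nat_lit 4) (nat_lit 389) (nat_lit 259) (nat_lit 252)) (XT.nd (nat_lit 78) (nat_lit 0) (nat_lit 0) (XT.lf (nat_lit 0) (nat_lit 1304748859) (nat_lit 76) (nat_lit 620284003) (nat_lit 152) (nat_lit 16083876186) (nat_lit 33) (nat_lit 5) (nat_lit 34) (nat_lit 5) (nat_lit 35) (nat_lit 4) (nat_lit 390) (nat_lit 259) (nat_lit 251)) (XT.lf (nat_lit 0) (nat_lit 7375785789) (nat_lit 152) (nat_lit 6427563929) (nat_lit 0) (nat_lit 4572607827) (nat_lit 33) (nat_lit 5) (nat_lit 35) (nat_lit 4) (nat_lit 33) (nat_lit 4) (nat_lit 391) (nat_lit 259) (nat_lit 250)))) (XT.nd (nat_lit 156) (nat_lit 152) (nat_lit 0) (XT.nd (nat_lit 78)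 (nat_lit 0) (nat_lit 0) (XT.lf (nat_lit 0) (nat_lit 4039022347) (nat_lit 152) (nat_lit 8893894732) (nat_lit 152) (nat_lit 5822825879) (nat_lit 31) (nat_lit 4) (nat_lit 33) (nat_lit 5) (nat_lit 33) (nat_lit 4) (nat_lit 392) (nat_lit 259) (nat_lit 249)) (XT.lf (nat_lit 0) (nat_lit 14762255028) (nat_lit 152) (nat_lit 3858458145) (nat_lit 152) (nat_lit 527301047) (nat_lit 31) (nat_lit 4) (nat_lit 33) (nat_lit 5) (nat_lit 33) (nat_lit 4) (nat_lit 393) (nat_lit 259) (nat_lit 248))) (XT.nd (nat_lit 78) (nat_lit 0) (nat_lit 0) (XT.lf (nat_lit 0) (nat_lit 4803977202) (nat_lit 152) (nat_lit 13422788769) (nat_lit 0) (nat_lit 1324685982) (nat_lit 29) (nat_lit 5) (nat_lit 31) (nat_lit 4) (nat_lit 29) (nat_lit 4) (nat_lit 394) (nat_lit 259) (nat_lit 247)) (XT.lf (nat_lit 0) (nat_lit 10268820300) (nat_lit 152) (nat_lit 3146987556) (nat_lit 0) (nat_lit 6551511492) (nat_lit 29) (nat_lit 5) (nat_lit 31) (nat_lit 4) (nat_lit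 29) (nat_lit 4) (nat_lit 395) (nat_lit 259) (nat_lit 246)))))) (XT.nd (nat_lit 546) (nat_lit 304) (nat_lit 0) (XT.nd (nat_lit 234) (nat_lit 228) (nat_lit 0) (XT.nd (nat_lit 78) (nat_lit 152) (nat_lit 0) (XT.lf (nat_lit 0) (nat_lit 7401039197) (nat_lit 76) (nat_lit 8471883794) (nat_lit 76) (nat_lit 4523489949) (nat_lit 28) (nat_lit 4) (nat_lit 29) (nat_lit 5) (nat_lit 29) (nat_lit 4) (nat_lit 396) (nat_lit 259) (nat_lit 245)) (XT.nd (nat_lit 78) (nat_lit 76) (nat_lit 0) (XT.lf (nat_lit 0) (nat_lit 727416514) (nat_lit 152) (nat_lit 2696092724) (nat_lit 76) (nat_lit 17416554798) (nat_lit 27) (nat_lit 5) (nat_lit 29) (nat_lit 5) (nat_lit 28) (nat_lit 4) (nat_lit 397) (nat_lit 259) (nat_lit 244)) (XT.lf (nat_lit 0) (nat_lit 6044901709) (nat_lit 152) (nat_lit 13468574787) (nat_lit 0) (nat_lit 1782214272) (nat_lit 26) (nat_lit 5) (nat_lit 28) (nat_lit 4) (nat_lit 26) (nat_lit 4) (nat_lit 398) (nat_lit 259) (nat_lit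 243)))) (XT.nd (nat_lit 156) (nat_lit 152) (nat_lit 0) (XT.nd (nat_lit 78) (nat_lit 76) (nat_lit 0) (XT.lf (nat_lit 0) (nat_lit 11490638203) (nat_lit 152) (nat_lit 3252660127) (nat_lit 0) (nat_lit 7022634705) (nat_lit 26) (nat_lit 5) (nat_lit 28) (nat_lit 4) (nat_lit 26) (nat_lit 4) (nat_lit 399) (nat_lit 259) (nat_lit 242)) (XT.lf (nat_lit 0) (nat_lit 7240522491) (nat_lit 76) (nat_lit 9838859396) (nat_lit 76) (nat_lit 5171519915) (nat_lit 25) (nat_lit 4) (nat_lit 26) (nat_lit 5) (nat_lit 26) (nat_lit 4) (nat_lit 400) (nat_lit 259) (nat_lit 241))) (XT.nd (nat_lit 78) (nat_lit 76) (nat_lit 0) (XT.lf (nat_lit 0) (nat_lit 27016588) (nat_lit 152) (nat_lit 4806025886) (nat_lit 76) (nat_lit 17919060924) (nat_lit 24) (nat_lit 5) (nat_lit 26) (nat_lit 5) (nat_lit 25) (nat_lit 4) (nat_lit 401) (nat_lit 259) (nat_lit 240)) (XT.lf (nat_lit 0) (nat_lit 5247517701) (nat_lit 152) (nat_lit 17674390098) (nat_lit 0) (nat_lit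 345806203) (nat_lit 23) (nat_lit 5) (nat_lit 25) (nat_lit 4) (nat_lit 23) (nat_lit 4) (nat_lit 402) (nat_lit 259) (nat_lit 239))))) (XT.nd (nat_lit 234) (nat_lit 228) (nat_lit 0) (XT.nd (nat_lit 78) (nat_lit 76) (nat_lit 0) (XT.lf (nat_lit 0) (nat_lit 10634475153) (nat_lit 152) (nat_lit 7608373674) (nat_lit 0) (nat_lit 5555656217) (nat_lit 23) (nat_lit 5) (nat_lit 25) (nat_lit 4) (nat_lit 23) (nat_lit 4) (nat_lit 403) (nat_lit 259) (nat_lit 238)) (XT.nd (nat_lit 78) (nat_lit 0) (nat_lit 0) (XT.lf (nat_lit 0) (nat_lit 2650294115) (nat_lit 76) (nat_lit 13473735554) (nat_lit 76) (nat_lit 8222967648) (nat_lit 22) (nat_lit 4) (nat_lit 23) (nat_lit 5) (nat_lit 23) (nat_lit 4) (nat_lit 404) (nat_lit 259) (nat_lit 237)) (XT.lf (nat_lit 0) (nat_lit 13213219111) (nat_lit 76) (nat_lit 8558321374) (nat_lit 76) (nat_lit 3140612721) (nat_lit 22) (nat_lit 4) (nat_lit 23) (nat_lit 5) (nat_lit 23) (nat_lit 4) (nat_lit 405)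 (nat_lit 259) (nat_lit 236)))) (XT.nd (nat_lit 156) (nat_lit 76) (nat_lit 0) (XT.nd (nat_lit 78) (nat_lit 76) (nat_lit 0) (XT.lf (nat_lit 0) (nat_lit 1971411178) (nat_lit 152) (nat_lit 1577822357) (nat_lit 76) (nat_lit 21946890934) (nat_lit 21) (nat_lit 5) (nat_lit 23) (nat_lit 5) (nat_lit 22) (nat_lit 4) (nat_lit 406) (nat_lit 259) (nat_lit 235)) (XT.lf (nat_lit 0) (nat_lit 7194994368) (nat_lit 152) (nat_lit 17276103385) (nat_lit 0) (nat_lit 1624950956) (nat_lit 20) (nat_lit 5) (nat_lit 22) (nat_lit 4) (nat_lit 20) (nat_lit 4) (nat_lit 407) (nat_lit 259) (nat_lit 234))) (XT.nd (nat_lit 78) (nat_lit 76) (nat_lit 0) (XT.lf (nat_lit 0) (nat_lit 12547148644) (nat_lit 152) (nat_lit 7338891749) (nat_lit 0) (nat_lit 6828780541) (nat_lit 20) (nat_lit 5) (nat_lit 22) (nat_lit 4) (nat_lit 20) (nat_lit 4) (nat_lit 408) (nat_lit 259) (nat_lit 233)) (XT.lf (nat_lit 0) (nat_lit 2803481845) (nat_lit 76) (nat_lit 15206278177)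 (nat_lit 76) (nat_lit 9343905518) (nat_lit 19) (nat_lit 4) (nat_lit 20) (nat_lit 5) (nat_lit 20) (nat_lit 4) (nat_lit 409) (nat_lit 259) (nat_lit 232))))))) (XT.nd (nat_lit 1014) (nat_lit 380) (nat_lit 0) (XT.nd (nat_lit 468) (nat_lit 228) (nat_lit 0) (XT.nd (nat_lit 234) (nat_lit 76) (nat_lit 0) (XT.nd (nat_lit 78) (nat_lit 152) (nat_lit 0) (XT.lf (nat_lit 0) (nat_lit 13254353967) (nat_lit 76) (nat_lit 10379786751) (nat_lit 76) (nat_lit 4377603846) (nat_lit 19) (nat_lit 4) (nat_lit 20) (nat_lit 5) (nat_lit 20) (nat_lit 4) (nat_lit 410) (nat_lit 259) (nat_lit 231)) (XT.nd (nat_lit 78) (nat_lit 76) (nat_lit 0) (XT.lf (nat_lit 0) (nat_lit 648556255) (nat_lit 152) (nat_lit 4821351811) (nat_lit 76) (nat_lit 23221692709) (nat_lit 18) (nat_lit 5) (nat_lit 20) (nat_lit 5) (nat_lit 19) (nat_lit 4) (nat_lit 411) (nat_lit 259) (nat_lit 230)) (XT.lf (nat_lit 0) (nat_lit 5334246959) (nat_lit 76) (nat_lit 381985817)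 (nat_lit 152) (nat_lit 23674963423) (nat_lit 17) (nat_lit 5) (nat_lit 18) (nat_lit 5) (nat_lit 19) (nat_lit 4) (nat_lit 412) (nat_lit 259) (nat_lit 229)))) (XT.nd (nat_lit 78) (nat_lit 76) (nat_lit 0) (XT.lf (nat_lit 0) (nat_lit 10959404544) (nat_lit 152) (nat_lit 14403583999) (nat_lit 0) (nat_lit 4748092156) (nat_lit 17) (nat_lit 5) (nat_lit 19) (nat_lit 4) (nat_lit 17) (nat_lit 4) (nat_lit 413) (nat_lit 259) (nat_lit 228)) (XT.nd (nat_lit 78) (nat_lit 76) (nat_lit 0) (XT.lf (nat_lit 0) (nat_lit 16293355563) (nat_lit 152) (nat_lit 4599765034) (nat_lit 0) (nat_lit 9961441628) (nat_lit 17) (nat_lit 5) (nat_lit 19) (nat_lit 4) (nat_lit 17) (nat_lit 4) (nat_lit 414) (nat_lit 259) (nat_lit 227)) (XT.lf (nat_lit 0) (nat_lit 5473554749) (nat_lit 76) (nat_lit 16298135095) (nat_lit 76) (nat_lit 9849132278) (nat_lit 16) (nat_lit 4) (nat_lit 17) (nat_lit 5) (nat_lit 17) (nat_lit 4) (nat_lit 415) (nat_lit 259) (nat_lit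 226))))) (XT.nd (nat_lit 234) (nat_lit 76) (nat_lit 0) (XT.nd (nat_lit 78) (nat_lit 152) (nat_lit 0) (XT.lf (nat_lit 0) (nat_lit 15813230737) (nat_lit 76) (nat_lit 11580078546) (nat_lit 76) (nat_lit 5017397204) (nat_lit 16) (nat_lit 4) (nat_lit 17) (nat_lit 5) (nat_lit 17) (nat_lit 4) (nat_lit 416) (nat_lit 259) (nat_lit 225)) (XT.nd (nat_lit 78) (nat_lit 152) (nat_lit 0) (XT.lf (nat_lit 0) (nat_lit 26336753254) (nat_lit 76) (nat_lit 6781276985) (nat_lit 76) (nat_lit 108228142) (nat_lit 16) (nat_lit 4) (nat_lit 17) (nat_lit 5) (nat_lit 17) (nat_lit 4) (nat_lit 417) (nat_lit 259) (nat_lit 224)) (XT.lf (nat_lit 0) (nat_lit 2996667810) (nat_lit 76) (nat_lit 1819524094) (nat_lit 152) (nat_lit 29249726292) (nat_lit 14) (nat_lit 5) (nat_lit 15) (nat_lit 5) (nat_lit 16) (nat_lit 4) (nat_lit 418) (nat_lit 259) (nat_lit 223)))) (XT.nd (nat_lit 156) (nat_lit 76) (nat_lit 0) (XT.nd (nat_lit 78) (nat_lit 0) (nat_lit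 0) (XT.lf (nat_lit 0) (nat_lit 9923915727) (nat_lit 152) (nat_lit 21765498056) (nat_lit 0) (nat_lit 3240193679) (nat_lit 14) (nat_lit 5) (nat_lit 16) (nat_lit 4) (nat_lit 14) (nat_lit 4) (nat_lit 419) (nat_lit 259) (nat_lit 222)) (XT.lf (nat_lit 0) (nat_lit 15140606021) (nat_lit 152) (nat_lit 12321109541) (nat_lit 0) (nat_lit 8358823878) (nat_lit 14) (nat_lit 5) (nat_lit 16) (nat_lit 4) (nat_lit 14) (nat_lit 4) (nat_lit 420) (nat_lit 259) (nat_lit 221))) (XT.nd (nat_lit 78) (nat_lit 76) (nat_lit 0) (XT.lf (nat_lit 0) (nat_lit 20453330680) (nat_lit 152) (nat_lit 2710342084) (nat_lit 0) (nat_lit 13576344561) (nat_lit 14) (nat_lit 5) (nat_lit 16) (nat_lit 4) (nat_lit 14) (nat_lit 4) (nat_lit 421) (nat_lit 259) (nat_lit 220)) (XT.lf (nat_lit 0) (nat_lit 7216012467) (nat_lit 76) (nat_lit 18720084149) (nat_lit 76) (nat_lit 11750666986) (nat_lit 13) (nat_lit 4) (nat_lit 14) (nat_lit 5) (nat_lit 14) (nat_lit 4)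 (nat_lit 422) (nat_lit 259) (nat_lit 219)))))) (XT.nd (nat_lit 546) (nat_lit 228) (nat_lit 0) (XT.nd (nat_lit 234) (nat_lit 76) (nat_lit 0) (XT.nd (nat_lit 78) (nat_lit 76) (nat_lit 0) (XT.lf (nat_lit 0) (nat_lit 17383283888) (nat_lit 76) (nat_lit 14169354680) (nat_lit 76) (nat_lit 7110198639) (nat_lit 13) (nat_lit 4) (nat_lit 14) (nat_lit 5) (nat_lit 14) (nat_lit 4) (nat_lit 423) (nat_lit 259) (nat_lit 218)) (XT.nd (nat_lit 78) (nat_lit 76) (nat_lit 0) (XT.lf (nat_lit 0) (nat_lit 27746415077) (nat_lit 76) (nat_lit 9534877133) (nat_lit 76) (nat_lit 2388595968) (nat_lit 13) (nat_lit 4) (nat_lit 14) (nat_lit 5) (nat_lit 14) (nat_lit 4) (nat_lit 424) (nat_lit 259) (nat_lit 217)) (XT.lf (nat_lit 0) (nat_lit 2371077606) (nat_lit 152) (nat_lit 2417581122) (nat_lit 76) (nat_lit 35919440359) (nat_lit 12) (nat_lit 5) (nat_lit 14) (nat_lit 5) (nat_lit 13) (nat_lit 4) (nat_lit 425) (nat_lit 259) (nat_lit 216)))) (XT.nd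 (nat_lit 156) (nat_lit 0) (nat_lit 0) (XT.nd (nat_lit 78) (nat_lit 0) (nat_lit 0) (XT.lf (nat_lit 0) (nat_lit 7244308392) (nat_lit 152) (nat_lit 34387562777) (nat_lit 0) (nat_lit 144315722) (nat_lit 11) (nat_lit 5) (nat_lit 13) (nat_lit 4) (nat_lit 11) (nat_lit 4) (nat_lit 426) (nat_lit 259) (nat_lit 215)) (XT.lf (nat_lit 0) (nat_lit 12282220429) (nat_lit 152) (nat_lit 25488727372) (nat_lit 0) (nat_lit 5104818216) (nat_lit 11) (nat_lit 5) (nat_lit 13) (nat_lit 4) (nat_lit 11) (nat_lit 4) (nat_lit 427) (nat_lit 259) (nat_lit 214))) (XT.nd (nat_lit 78) (nat_lit 0) (nat_lit 0) (XT.lf (nat_lit 0) (nat_lit 17419247815) (nat_lit 152) (nat_lit 16423957783) (nat_lit 0) (nat_lit 10166690704) (nat_lit 11) (nat_lit 5) (nat_lit 13) (nat_lit 4) (nat_lit 11) (nat_lit 4) (nat_lit 428) (nat_lit 259) (nat_lit 213)) (XT.lf (nat_lit 0) (nat_lit 22659879212) (nat_lit 152) (nat_lit 7185333338) (nat_lit 0) (nat_lit 15334356181)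 (nat_lit 11) (nat_lit 5) (nat_lit 13) (nat_lit 4) (nat_lit 11) (nat_lit 4) (nat_lit 429) (nat_lit 259) (nat_lit 212))))) (XT.nd (nat_lit 234) (nat_lit 152) (nat_lit 0) (XT.nd (nat_lit 78) (nat_lit 0) (nat_lit 0) (XT.lf (nat_lit 0) (nat_lit 2279703778) (nat_lit 76) (nat_lit 25750903943) (nat_lit 76) (nat_lit 18354540213) (nat_lit 10) (nat_lit 4) (nat_lit 11) (nat_lit 5) (nat_lit 11) (nat_lit 4) (nat_lit 430) (nat_lit 259) (nat_lit 211)) (XT.nd (nat_lit 78) (nat_lit 0) (nat_lit 0) (XT.lf (nat_lit 0) (nat_lit 12081686645) (nat_lit 76) (nat_lit 21504815259) (nat_lit 76) (nat_lit 14039674153) (nat_lit 10) (nat_lit 4) (nat_lit 11) (nat_lit 5) (nat_lit 11) (nat_lit 4) (nat_lit 431) (nat_lit 259) (nat_lit 210)) (XT.lf (nat_lit 0) (nat_lit 22086177878) (nat_lit 76) (nat_lit 17175794104) (nat_lit 76) (nat_lit 9643878844) (nat_lit 10) (nat_lit 4) (nat_lit 11) (nat_lit 5) (nat_lit 11) (nat_lit 4) (nat_lit 432) (nat_lit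 259) (nat_lit 209)))) (XT.nd (nat_lit 156) (nat_lit 152) (nat_lit 0) (XT.nd (nat_lit 78) (nat_lit 0) (nat_lit 0) (XT.lf (nat_lit 0) (nat_lit 32301919267) (nat_lit 76) (nat_lit 12760057836) (nat_lit 76) (nat_lit 5163313302) (nat_lit 10) (nat_lit 4) (nat_lit 11) (nat_lit 5) (nat_lit 11) (nat_lit 4) (nat_lit 433) (nat_lit 259) (nat_lit 208)) (XT.lf (nat_lit 0) (nat_lit 42737837187) (nat_lit 76) (nat_lit 8253748046) (nat_lit 76) (nat_lit 594062469) (nat_lit 10) (nat_lit 4) (nat_lit 11) (nat_lit 5) (nat_lit 11) (nat_lit 4) (nat_lit 434) (nat_lit 259) (nat_lit 207))) (XT.nd (nat_lit 78) (nat_lit 0) (nat_lit 0) (XT.lf (nat_lit 0) (nat_lit 383316080) (nat_lit 76) (nat_lit 3608856070) (nat_lit 152) (nat_lit 48994655604) (nat_lit 8) (nat_lit 5) (nat_lit 9) (nat_lit 5) (nat_lit 10) (nat_lit 4) (nat_lit 435) (nat_lit 259) (nat_lit 206)) (XT.lf (nat_lit 0) (nat_lit 8762119604) (nat_lit 152) (nat_lit 44457403844) (nat_lit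 0) (nat_lit 1208603724) (nat_lit 8) (nat_lit 5) (nat_lit 10) (nat_lit 4) (nat_lit 8) (nat_lit 4) (nat_lit 436) (nat_lit 259) (nat_lit 205))))))))
noncomputable def xc23 : XT := (XT.nd (nat_lit 43446) (nat_lit 0) (nat_lit 684) (XT.nd (nat_lit 1014) (nat_lit 0) (nat_lit 0) (XT.nd (nat_lit 468) (nat_lit 152) (nat_lit 0) (XT.nd (nat_lit 234) (nat_lit 76) (nat_lit 0) (XT.nd (nat_lit 78) (nat_lit 0) (nat_lit 0) (XT.lf (nat_lit 0) (nat_lit 13668699852) (nat_lit 152) (nat_lit 36184900343) (nat_lit 0) (nat_lit 6059261670) (nat_lit 8) (nat_lit 5) (nat_lit 10) (nat_lit 4) (nat_lit 8) (nat_lit 4) (nat_lit 437) (nat_lit 259) (nat_lit 204)) (XT.nd (nat_lit 78) (nat_lit 0) (nat_lit 0) (XT.lf (nat_lit 0) (nat_lit 18681509666) (nat_lit 152) (nat_lit 27744082238) (nat_lit 0) (nat_lit 11017777988) (nat_lit 8) (nat_lit 5) (nat_lit 10) (nat_lit 4) (nat_lit 8) (nat_lit 4) (nat_lit 438) (nat_lit 259) (nat_lit 203)) (XT.lf (nat_lit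 0) (nat_lit 23804929172) (nat_lit 152) (nat_lit 19127574056) (nat_lit 0) (nat_lit 16088485360) (nat_lit 8) (nat_lit 5) (nat_lit 10) (nat_lit 4) (nat_lit 8) (nat_lit 4) (nat_lit 439) (nat_lit 259) (nat_lit 202)))) (XT.nd (nat_lit 78) (nat_lit 76) (nat_lit 0) (XT.lf (nat_lit 0) (nat_lit 29043435143) (nat_lit 152) (nat_lit 10327846810) (nat_lit 0) (nat_lit 21275814503) (nat_lit 8) (nat_lit 5) (nat_lit 10) (nat_lit 4) (nat_lit 8) (nat_lit 4) (nat_lit 440) (nat_lit 259) (nat_lit 201)) (XT.nd (nat_lit 78) (nat_lit 76) (nat_lit 0) (XT.lf (nat_lit 0) (nat_lit 34401604915) (nat_lit 152) (nat_lit 1337211417) (nat_lit 0) (nat_lit 26584298034) (nat_lit 8) (nat_lit 5) (nat_lit 10) (nat_lit 4) (nat_lit 8) (nat_lit 4) (nat_lit 441) (nat_lit 259) (nat_lit 200)) (XT.lf (nat_lit 0) (nat_lit 8008461953) (nat_lit 76) (nat_lit 31952640665) (nat_lit 76) (nat_lit 24087094716) (nat_lit 7) (nat_lit 4) (nat_lit 8) (nat_lit 5) (nat_lit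 8) (nat_lit 4) (nat_lit 442) (nat_lit 259) (nat_lit 199))))) (XT.nd (nat_lit 234) (nat_lit 152) (nat_lit 0) (XT.nd (nat_lit 78) (nat_lit 0) (nat_lit 0) (XT.lf (nat_lit 0) (nat_lit 17591657666) (nat_lit 76) (nat_lit 28073216205) (nat_lit 76) (nat_lit 20160836208) (nat_lit 7) (nat_lit 4) (nat_lit 8) (nat_lit 5) (nat_lit 8) (nat_lit 4) (nat_lit 443) (nat_lit 259) (nat_lit 198)) (XT.nd (nat_lit 78) (nat_lit 0) (nat_lit 0) (XT.lf (nat_lit 0) (nat_lit 27394136257) (nat_lit 76) (nat_lit 24110656377) (nat_lit 76) (nat_lit 16152806432) (nat_lit 7) (nat_lit 4) (nat_lit 8) (nat_lit 5) (nat_lit 8) (nat_lit 4) (nat_lit 444) (nat_lit 259) (nat_lit 197)) (XT.lf (nat_lit 0) (nat_lit 37424462998) (nat_lit 76) (nat_lit 20061498751) (nat_lit 76) (nat_lit 12059503224) (nat_lit 7) (nat_lit 4) (nat_lit 8) (nat_lit 5) (nat_lit 8) (nat_lit 4) (nat_lit 445) (nat_lit 259) (nat_lit 196)))) (XT.nd (nat_lit 156) (nat_lit 152) (nat_lit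 0) (XT.nd (nat_lit 78) (nat_lit 0) (nat_lit 0) (XT.lf (nat_lit 0) (nat_lit 47691402253) (nat_lit 76) (nat_lit 15922205226) (nat_lit 76) (nat_lit 7877349912) (nat_lit 7) (nat_lit 4) (nat_lit 8) (nat_lit 5) (nat_lit 8) (nat_lit 4) (nat_lit 446) (nat_lit 259) (nat_lit 195)) (XT.lf (nat_lit 0) (nat_lit 58203925135) (nat_lit 76) (nat_lit 11689158946) (nat_lit 76) (nat_lit 3602692187) (nat_lit 7) (nat_lit 4) (nat_lit 8) (nat_lit 5) (nat_lit 8) (nat_lit 4) (nat_lit 447) (nat_lit 259) (nat_lit 194))) (XT.nd (nat_lit 78) (nat_lit 76) (nat_lit 0) (XT.lf (nat_lit 0) (nat_lit 753214638) (nat_lit 152) (nat_lit 6597840502) (nat_lit 76) (nat_lit 68210396711) (nat_lit 6) (nat_lit 5) (nat_lit 8) (nat_lit 5) (nat_lit 7) (nat_lit 4) (nat_lit 448) (nat_lit 259) (nat_lit 193)) (XT.lf (nat_lit 0) (nat_lit 2306886940) (nat_lit 76) (nat_lit 2852214506) (nat_lit 152) (nat_lit 72529176334) (nat_lit 5) (nat_lit 5) (nat_lit 6) (nat_lit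 5) (nat_lit 7) (nat_lit 4) (nat_lit 449) (nat_lit 259) (nat_lit 192)))))) (XT.nd (nat_lit 41886) (nat_lit 0) (nat_lit 1976) (XT.nd (nat_lit 41574) (nat_lit 0) (nat_lit 2736) (XT.nd (nat_lit 41418) (nat_lit 0) (nat_lit 3040) (XT.lf (nat_lit 0) (nat_lit 9751158881) (nat_lit 152) (nat_lit 68340185414) (nat_lit 0) (nat_lit 1785945907) (nat_lit 5) (nat_lit 5) (nat_lit 7) (nat_lit 4) (nat_lit 5) (nat_lit 4) (nat_lit 450) (nat_lit 259) (nat_lit 191)) (XT.nd (nat_lit 78) (nat_lit 152) (nat_lit 0) (XT.lf (nat_lit 0) (nat_lit 4904513682) (nat_lit 152) (nat_lit 1268426823) (nat_lit 152) (nat_lit 1268426823) (nat_lit 47) (nat_lit 4) (nat_lit 49) (nat_lit 5) (nat_lit 49) (nat_lit 4) (nat_lit 380) (nat_lit 260) (nat_lit 260)) (XT.lf (nat_lit 0) (nat_lit 2821249278) (nat_lit 152) (nat_lit 9906403951) (nat_lit 0) (nat_lit 2427842471) (nat_lit 45) (nat_lit 5) (nat_lit 47) (nat_lit 4) (nat_lit 45) (nat_lit 4) (nat_lit 381)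 (nat_lit 260) (nat_lit 259)))) (XT.nd (nat_lit 156) (nat_lit 152) (nat_lit 0) (XT.nd (nat_lit 78) (nat_lit 0) (nat_lit 0) (XT.lf (nat_lit 0) (nat_lit 298953124) (nat_lit 152) (nat_lit 7956555953) (nat_lit 152) (nat_lit 7181200791) (nat_lit 43) (nat_lit 4) (nat_lit 45) (nat_lit 5) (nat_lit 45) (nat_lit 4) (nat_lit 382) (nat_lit 260) (nat_lit 258)) (XT.lf (nat_lit 0) (nat_lit 10808753320) (nat_lit 152) (nat_lit 3032080130) (nat_lit 152) (nat_lit 1885901322) (nat_lit 43) (nat_lit 4) (nat_lit 45) (nat_lit 5) (nat_lit 45) (nat_lit 4) (nat_lit 383) (nat_lit 260) (nat_lit 257))) (XT.nd (nat_lit 78) (nat_lit 0) (nat_lit 0) (XT.lf (nat_lit 0) (nat_lit 3461072502) (nat_lit 152) (nat_lit 10565759404) (nat_lit 0) (nat_lit 1998740690) (nat_lit 41) (nat_lit 5) (nat_lit 43) (nat_lit 4) (nat_lit 41) (nat_lit 4) (nat_lit 384) (nat_lit 260) (nat_lit 256)) (XT.lf (nat_lit 0) (nat_lit 8901312785) (nat_lit 152) (nat_lit 332769039)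 (nat_lit 0) (nat_lit 7099624807) (nat_lit 41) (nat_lit 5) (nat_lit 43) (nat_lit 4) (nat_lit 41) (nat_lit 4) (nat_lit 385) (nat_lit 260) (nat_lit 255))))) (XT.nd (nat_lit 234) (nat_lit 456) (nat_lit 0) (XT.nd (nat_lit 78) (nat_lit 152) (nat_lit 0) (XT.lf (nat_lit 0) (nat_lit 10210875360) (nat_lit 152) (nat_lit 4285812589) (nat_lit 152) (nat_lit 2154652604) (nat_lit 39) (nat_lit 4) (nat_lit 41) (nat_lit 5) (nat_lit 41) (nat_lit 4) (nat_lit 386) (nat_lit 260) (nat_lit 254)) (XT.nd (nat_lit 78) (nat_lit 0) (nat_lit 0) (XT.lf (nat_lit 0) (nat_lit 3160349873) (nat_lit 152) (nat_lit 13038227853) (nat_lit 0) (nat_lit 780703543) (nat_lit 37) (nat_lit 5) (nat_lit 39) (nat_lit 4) (nat_lit 37) (nat_lit 4) (nat_lit 387) (nat_lit 260) (nat_lit 253)) (XT.lf (nat_lit 0) (nat_lit 8593933082) (nat_lit 152) (nat_lit 2809653358) (nat_lit 0) (nat_lit 5912773193) (nat_lit 37) (nat_lit 5) (nat_lit 39) (nat_lit 4) (nat_lit 37)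 (nat_lit 4) (nat_lit 388) (nat_lit 260) (nat_lit 252)))) (XT.nd (nat_lit 156) (nat_lit 152) (nat_lit 0) (XT.nd (nat_lit 78) (nat_lit 152) (nat_lit 0) (XT.lf (nat_lit 0) (nat_lit 7685285646) (nat_lit 152) (nat_lit 6476515031) (nat_lit 152) (nat_lit 3502623532) (nat_lit 35) (nat_lit 4) (nat_lit 37) (nat_lit 5) (nat_lit 37) (nat_lit 4) (nat_lit 389) (nat_lit 260) (nat_lit 251)) (XT.lf (nat_lit 0) (nat_lit 328053863) (nat_lit 76) (nat_lit 1438522890) (nat_lit 152) (nat_lit 16257944064) (nat_lit 33) (nat_lit 5) (nat_lit 34) (nat_lit 5) (nat_lit 35) (nat_lit 4) (nat_lit 390) (nat_lit 260) (nat_lit 250))) (XT.nd (nat_lit 78) (nat_lit 152) (nat_lit 0) (XT.lf (nat_lit 0) (nat_lit 7159163182) (nat_lit 152) (nat_lit 7506085241) (nat_lit 0) (nat_lit 3728071371) (nat_lit 33) (nat_lit 5) (nat_lit 35) (nat_lit 4) (nat_lit 33) (nat_lit 4) (nat_lit 391) (nat_lit 260) (nat_lit 249)) (XT.lf (nat_lit 0) (nat_lit 2845878738)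 (nat_lit 152) (nat_lit 9810110504) (nat_lit 152) (nat_lit 6118930448) (nat_lit 31) (nat_lit 4) (nat_lit 33) (nat_lit 5) (nat_lit 33) (nat_lit 4) (nat_lit 392) (nat_lit 260) (nat_lit 248))))))) (XT.nd (nat_lit 1014) (nat_lit 608) (nat_lit 0) (XT.nd (nat_lit 468) (nat_lit 304) (nat_lit 0) (XT.nd (nat_lit 234) (nat_lit 228) (nat_lit 0) (XT.nd (nat_lit 78) (nat_lit 152) (nat_lit 0) (XT.lf (nat_lit 0) (nat_lit 13478667139) (nat_lit 152) (nat_lit 4816835193) (nat_lit 152) (nat_lit 873142279) (nat_lit 31) (nat_lit 4) (nat_lit 33) (nat_lit 5) (nat_lit 33) (nat_lit 4) (nat_lit 393) (nat_lit 260) (nat_lit 247)) (XT.nd (nat_lit 78) (nat_lit 0) (nat_lit 0) (XT.lf (nat_lit 0) (nat_lit 4394136415) (nat_lit 152) (nat_lit 14852882226) (nat_lit 0) (nat_lit 327290755) (nat_lit 29) (nat_lit 5) (nat_lit 31) (nat_lit 4) (nat_lit 29) (nat_lit 4) (nat_lit 394) (nat_lit 260) (nat_lit 246)) (XT.lf (nat_lit 0) (nat_lit 9811773101)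 (nat_lit 152) (nat_lit 4665982209) (nat_lit 0) (nat_lit 5513842405) (nat_lit 29) (nat_lit 5) (nat_lit 31) (nat_lit 4) (nat_lit 29) (nat_lit 4) (nat_lit 395) (nat_lit 260) (nat_lit 245)))) (XT.nd (nat_lit 78) (nat_lit 152) (nat_lit 0) (XT.lf (nat_lit 0) (nat_lit 5763783956) (nat_lit 76) (nat_lit 9590522070) (nat_lit 76) (nat_lit 5068236968) (nat_lit 28) (nat_lit 4) (nat_lit 29) (nat_lit 5) (nat_lit 29) (nat_lit 4) (nat_lit 396) (nat_lit 260) (nat_lit 244)) (XT.nd (nat_lit 78) (nat_lit 76) (nat_lit 0) (XT.lf (nat_lit 0) (nat_lit 147528286) (nat_lit 152) (nat_lit 4440622490) (nat_lit 76) (nat_lit 16279577873) (nat_lit 27) (nat_lit 5) (nat_lit 29) (nat_lit 5) (nat_lit 28) (nat_lit 4) (nat_lit 397) (nat_lit 260) (nat_lit 243)) (XT.lf (nat_lit 0) (nat_lit 5390898275) (nat_lit 152) (nat_lit 15351146157) (nat_lit 0) (nat_lit 583538610) (nat_lit 26) (nat_lit 5) (nat_lit 28) (nat_lit 4) (nat_lit 26) (nat_lit 4) (nat_lit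 398) (nat_lit 260) (nat_lit 242))))) (XT.nd (nat_lit 234) (nat_lit 228) (nat_lit 0) (XT.nd (nat_lit 78) (nat_lit 76) (nat_lit 0) (XT.lf (nat_lit 0) (nat_lit 10792316919) (nat_lit 152) (nat_lit 5219220736) (nat_lit 0) (nat_lit 5785621271) (nat_lit 26) (nat_lit 5) (nat_lit 28) (nat_lit 4) (nat_lit 26) (nat_lit 4) (nat_lit 399) (nat_lit 260) (nat_lit 241)) (XT.nd (nat_lit 78) (nat_lit 0) (nat_lit 0) (XT.lf (nat_lit 0) (nat_lit 5151657655) (nat_lit 76) (nat_lit 11166296462) (nat_lit 76) (nat_lit 5966070734) (nat_lit 25) (nat_lit 4) (nat_lit 26) (nat_lit 5) (nat_lit 26) (nat_lit 4) (nat_lit 400) (nat_lit 260) (nat_lit 240)) (XT.lf (nat_lit 0) (nat_lit 15776741981) (nat_lit 76) (nat_lit 6198945884) (nat_lit 76) (nat_lit 810826874) (nat_lit 25) (nat_lit 4) (nat_lit 26) (nat_lit 5) (nat_lit 26) (nat_lit 4) (nat_lit 401) (nat_lit 260) (nat_lit 239)))) (XT.nd (nat_lit 156) (nat_lit 76) (nat_lit 0) (XT.nd (nat_lit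 78) (nat_lit 0) (nat_lit 0) (XT.lf (nat_lit 0) (nat_lit 3276356888) (nat_lit 76) (nat_lit 1081720234) (nat_lit 152) (nat_lit 18946308249) (nat_lit 23) (nat_lit 5) (nat_lit 24) (nat_lit 5) (nat_lit 25) (nat_lit 4) (nat_lit 402) (nat_lit 260) (nat_lit 238)) (XT.lf (nat_lit 0) (nat_lit 9693016759) (nat_lit 152) (nat_lit 10030946864) (nat_lit 0) (nat_lit 4112776846) (nat_lit 23) (nat_lit 5) (nat_lit 25) (nat_lit 4) (nat_lit 23) (nat_lit 4) (nat_lit 403) (nat_lit 260) (nat_lit 237))) (XT.nd (nat_lit 78) (nat_lit 0) (nat_lit 0) (XT.lf (nat_lit 0) (nat_lit 100951782) (nat_lit 76) (nat_lit 15016706218) (nat_lit 76) (nat_lit 9269525558) (nat_lit 22) (nat_lit 4) (nat_lit 23) (nat_lit 5) (nat_lit 23) (nat_lit 4) (nat_lit 404) (nat_lit 260) (nat_lit 236)) (XT.lf (nat_lit 0) (nat_lit 10587609607) (nat_lit 76) (nat_lit 10137595562) (nat_lit 76) (nat_lit 4228336507) (nat_lit 22) (nat_lit 4) (nat_lit 23) (nat_lit 5) (nat_lit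 23) (nat_lit 4) (nat_lit 405) (nat_lit 260) (nat_lit 235)))))) (XT.nd (nat_lit 546) (nat_lit 228) (nat_lit 0) (XT.nd (nat_lit 234) (nat_lit 228) (nat_lit 0) (XT.nd (nat_lit 78) (nat_lit 76) (nat_lit 0) (XT.lf (nat_lit 0) (nat_lit 865725828) (nat_lit 152) (nat_lit 4309193287) (nat_lit 76) (nat_lit 20364086235) (nat_lit 21) (nat_lit 5) (nat_lit 23) (nat_lit 5) (nat_lit 22) (nat_lit 4) (nat_lit 406) (nat_lit 260) (nat_lit 234)) (XT.nd (nat_lit 78) (nat_lit 0) (nat_lit 0) (XT.lf (nat_lit 0) (nat_lit 5976528368) (nat_lit 76) (nat_lit 31313760) (nat_lit 152) (nat_lit 20133534508) (nat_lit 20) (nat_lit 5) (nat_lit 21) (nat_lit 5) (nat_lit 22) (nat_lit 4) (nat_lit 407) (nat_lit 260) (nat_lit 233)) (XT.lf (nat_lit 0) (nat_lit 11321736624) (nat_lit 152) (nat_lit 10300074748) (nat_lit 0) (nat_lit 5139488232) (nat_lit 20) (nat_lit 5) (nat_lit 22) (nat_lit 4) (nat_lit 20) (nat_lit 4) (nat_lit 408) (nat_lit 260) (nat_lit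 232)))) (XT.nd (nat_lit 156) (nat_lit 152) (nat_lit 0) (XT.nd (nat_lit 78) (nat_lit 76) (nat_lit 0) (XT.lf (nat_lit 0) (nat_lit 16720546041) (nat_lit 152) (nat_lit 283027688) (nat_lit 0) (nat_lit 10398487401) (nat_lit 20) (nat_lit 5) (nat_lit 22) (nat_lit 4) (nat_lit 20) (nat_lit 4) (nat_lit 409) (nat_lit 260) (nat_lit 231)) (XT.lf (nat_lit 0) (nat_lit 10092283478) (nat_lit 76) (nat_lit 12213416501) (nat_lit 76) (nat_lit 5755619757) (nat_lit 19) (nat_lit 4) (nat_lit 20) (nat_lit 5) (nat_lit 20) (nat_lit 4) (nat_lit 410) (nat_lit 260) (nat_lit 230))) (XT.nd (nat_lit 78) (nat_lit 152) (nat_lit 0) (XT.lf (nat_lit 0) (nat_lit 20646836216) (nat_lit 76) (nat_lit 7342588101) (nat_lit 76) (nat_lit 753006789) (nat_lit 19) (nat_lit 4) (nat_lit 20) (nat_lit 5) (nat_lit 20) (nat_lit 4) (nat_lit 411) (nat_lit 260) (nat_lit 229)) (XT.lf (nat_lit 0) (nat_lit 1934289655) (nat_lit 76) (nat_lit 2327689236) (nat_lit 152)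 (nat_lit 25182288875) (nat_lit 17) (nat_lit 5) (nat_lit 18) (nat_lit 5) (nat_lit 19) (nat_lit 4) (nat_lit 412) (nat_lit 260) (nat_lit 228))))) (XT.nd (nat_lit 234) (nat_lit 152) (nat_lit 0) (XT.nd (nat_lit 78) (nat_lit 76) (nat_lit 0) (XT.lf (nat_lit 0) (nat_lit 9451817840) (nat_lit 152) (nat_lit 17904591940) (nat_lit 0) (nat_lit 2809344939) (nat_lit 17) (nat_lit 5) (nat_lit 19) (nat_lit 4) (nat_lit 17) (nat_lit 4) (nat_lit 413) (nat_lit 260) (nat_lit 227)) (XT.nd (nat_lit 78) (nat_lit 76) (nat_lit 0) (XT.lf (nat_lit 0) (nat_lit 14752147960) (nat_lit 152) (nat_lit 8165513132) (nat_lit 0) (nat_lit 7992586178) (nat_lit 17) (nat_lit 5) (nat_lit 19) (nat_lit 4) (nat_lit 17) (nat_lit 4) (nat_lit 414) (nat_lit 260) (nat_lit 226)) (XT.lf (nat_lit 0) (nat_lit 1772735822) (nat_lit 76) (nat_lit 18389530232) (nat_lit 76) (nat_lit 11516289925) (nat_lit 16) (nat_lit 4) (nat_lit 17) (nat_lit 5) (nat_lit 17) (nat_lit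 4) (nat_lit 415) (nat_lit 260) (nat_lit 225)))) (XT.nd (nat_lit 156) (nat_lit 152) (nat_lit 0) (XT.nd (nat_lit 78) (nat_lit 0) (nat_lit 0) (XT.lf (nat_lit 0) (nat_lit 12050173509) (nat_lit 76) (nat_lit 13701422789) (nat_lit 76) (nat_lit 6717814981) (nat_lit 16) (nat_lit 4) (nat_lit 17) (nat_lit 5) (nat_lit 17) (nat_lit 4) (nat_lit 416) (nat_lit 260) (nat_lit 224)) (XT.lf (nat_lit 0) (nat_lit 22513270492) (nat_lit 76) (nat_lit 8931698030) (nat_lit 76) (nat_lit 1840937309) (nat_lit 16) (nat_lit 4) (nat_lit 17) (nat_lit 5) (nat_lit 17) (nat_lit 4) (nat_lit 417) (nat_lit 260) (nat_lit 223))) (XT.nd (nat_lit 78) (nat_lit 76) (nat_lit 0) (XT.lf (nat_lit 0) (nat_lit 3057749235) (nat_lit 152) (nat_lit 987561727) (nat_lit 76) (nat_lit 30082542774) (nat_lit 15) (nat_lit 5) (nat_lit 17) (nat_lit 5) (nat_lit 16) (nat_lit 4) (nat_lit 418) (nat_lit 260) (nat_lit 222)) (XT.lf (nat_lit 0) (nat_lit 8103619627) (nat_lit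 152) (nat_lit 25869457062) (nat_lit 0) (nat_lit 1020323925) (nat_lit 14) (nat_lit 5) (nat_lit 16) (nat_lit 4) (nat_lit 14) (nat_lit 4) (nat_lit 419) (nat_lit 260) (nat_lit 221))))))))
noncomputable def xc24 : XT := (XT.nd (nat_lit 2028) (nat_lit 152) (nat_lit 0) (XT.nd (nat_lit 1014) (nat_lit 228) (nat_lit 0) (XT.nd (nat_lit 468) (nat_lit 152) (nat_lit 0) (XT.nd (nat_lit 234) (nat_lit 76) (nat_lit 0) (XT.nd (nat_lit 78) (nat_lit 76) (nat_lit 0) (XT.lf (nat_lit 0) (nat_lit 13290523545) (nat_lit 152) (nat_lit 16482680720) (nat_lit 0) (nat_lit 6112023867) (nat_lit 14) (nat_lit 5) (nat_lit 16) (nat_lit 4) (nat_lit 14) (nat_lit 4) (nat_lit 420) (nat_lit 260) (nat_lit 220)) (XT.nd (nat_lit 78) (nat_lit 76) (nat_lit 0) (XT.lf (nat_lit 0) (nat_lit 18574329392) (nat_lit 152) (nat_lit 6927847412) (nat_lit 0) (nat_lit 11303398670) (nat_lit 14) (nat_lit 5) (nat_lit 16) (nat_lit 4) (nat_lit 14) (nat_lit 4) (nat_lit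 421) (nat_lit 260) (nat_lit 219)) (XT.lf (nat_lit 0) (nat_lit 2859184738) (nat_lit 76) (nat_lit 21127953580) (nat_lit 76) (nat_lit 13767283981) (nat_lit 13) (nat_lit 4) (nat_lit 14) (nat_lit 5) (nat_lit 14) (nat_lit 4) (nat_lit 422) (nat_lit 260) (nat_lit 218)))) (XT.nd (nat_lit 78) (nat_lit 76) (nat_lit 0) (XT.lf (nat_lit 0) (nat_lit 12972683560) (nat_lit 76) (nat_lit 16603221060) (nat_lit 76) (nat_lit 9155426337) (nat_lit 13) (nat_lit 4) (nat_lit 14) (nat_lit 5) (nat_lit 14) (nat_lit 4) (nat_lit 423) (nat_lit 260) (nat_lit 217)) (XT.nd (nat_lit 78) (nat_lit 76) (nat_lit 0) (XT.lf (nat_lit 0) (nat_lit 23283608345) (nat_lit 76) (nat_lit 11993983269) (nat_lit 76) (nat_lit 4461601046) (nat_lit 13) (nat_lit 4) (nat_lit 14) (nat_lit 5) (nat_lit 14) (nat_lit 4) (nat_lit 424) (nat_lit 260) (nat_lit 216)) (XT.lf (nat_lit 0) (nat_lit 312082242) (nat_lit 152) (nat_lit 6980979056) (nat_lit 76) (nat_lit 33485734976)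 (nat_lit 12) (nat_lit 5) (nat_lit 14) (nat_lit 5) (nat_lit 13) (nat_lit 4) (nat_lit 425) (nat_lit 260) (nat_lit 215))))) (XT.nd (nat_lit 234) (nat_lit 76) (nat_lit 0) (XT.nd (nat_lit 78) (nat_lit 0) (nat_lit 0) (XT.lf (nat_lit 0) (nat_lit 2685151303) (nat_lit 76) (nat_lit 2427848273) (nat_lit 152) (nat_lit 36736055490) (nat_lit 11) (nat_lit 5) (nat_lit 12) (nat_lit 5) (nat_lit 13) (nat_lit 4) (nat_lit 426) (nat_lit 260) (nat_lit 214)) (XT.nd (nat_lit 78) (nat_lit 0) (nat_lit 0) (XT.lf (nat_lit 0) (nat_lit 10101947044) (nat_lit 152) (nat_lit 30291499302) (nat_lit 0) (nat_lit 2556658323) (nat_lit 11) (nat_lit 5) (nat_lit 13) (nat_lit 4) (nat_lit 11) (nat_lit 4) (nat_lit 427) (nat_lit 260) (nat_lit 213)) (XT.lf (nat_lit 0) (nat_lit 15214094228) (nat_lit 152) (nat_lit 21275049039) (nat_lit 0) (nat_lit 7595839587) (nat_lit 11) (nat_lit 5) (nat_lit 13) (nat_lit 4) (nat_lit 11) (nat_lit 4) (nat_lit 428) (nat_lit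 260) (nat_lit 212)))) (XT.nd (nat_lit 156) (nat_lit 76) (nat_lit 0) (XT.nd (nat_lit 78) (nat_lit 0) (nat_lit 0) (XT.lf (nat_lit 0) (nat_lit 20430570089) (nat_lit 152) (nat_lit 12083336561) (nat_lit 0) (nat_lit 12741474749) (nat_lit 11) (nat_lit 5) (nat_lit 13) (nat_lit 4) (nat_lit 11) (nat_lit 4) (nat_lit 429) (nat_lit 260) (nat_lit 211)) (XT.lf (nat_lit 0) (nat_lit 25755932715) (nat_lit 152) (nat_lit 2708330275) (nat_lit 0) (nat_lit 17998059997) (nat_lit 11) (nat_lit 5) (nat_lit 13) (nat_lit 4) (nat_lit 11) (nat_lit 4) (nat_lit 430) (nat_lit 260) (nat_lit 210))) (XT.nd (nat_lit 78) (nat_lit 0) (nat_lit 0) (XT.lf (nat_lit 0) (nat_lit 6994652435) (nat_lit 76) (nat_lit 24267419776) (nat_lit 76) (nat_lit 16442772906) (nat_lit 10) (nat_lit 4) (nat_lit 11) (nat_lit 5) (nat_lit 11) (nat_lit 4) (nat_lit 431) (nat_lit 260) (nat_lit 209)) (XT.lf (nat_lit 0) (nat_lit 16955358160) (nat_lit 76) (nat_lit 19959657499)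 (nat_lit 76) (nat_lit 12070181354) (nat_lit 10) (nat_lit 4) (nat_lit 11) (nat_lit 5) (nat_lit 11) (nat_lit 4) (nat_lit 432) (nat_lit 260) (nat_lit 208)))))) (XT.nd (nat_lit 468) (nat_lit 76) (nat_lit 0) (XT.nd (nat_lit 234) (nat_lit 76) (nat_lit 0) (XT.nd (nat_lit 78) (nat_lit 76) (nat_lit 0) (XT.lf (nat_lit 0) (nat_lit 27128589347) (nat_lit 76) (nat_lit 15564560919) (nat_lit 76) (nat_lit 7612143730) (nat_lit 10) (nat_lit 4) (nat_lit 11) (nat_lit 5) (nat_lit 11) (nat_lit 4) (nat_lit 433) (nat_lit 260) (nat_lit 207)) (XT.nd (nat_lit 78) (nat_lit 76) (nat_lit 0) (XT.lf (nat_lit 0) (nat_lit 37523235226) (nat_lit 76) (nat_lit 11078289660) (nat_lit 76) (nat_lit 3064764663) (nat_lit 10) (nat_lit 4) (nat_lit 11) (nat_lit 5) (nat_lit 11) (nat_lit 4) (nat_lit 434) (nat_lit 260) (nat_lit 206)) (XT.lf (nat_lit 0) (nat_lit 1545177229) (nat_lit 152) (nat_lit 4936143192) (nat_lit 76) (nat_lit 46587598008) (nat_lit 9)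 (nat_lit 5) (nat_lit 11) (nat_lit 5) (nat_lit 10) (nat_lit 4) (nat_lit 435) (nat_lit 260) (nat_lit 205)))) (XT.nd (nat_lit 78) (nat_lit 0) (nat_lit 0) (XT.lf (nat_lit 0) (nat_lit 4525141083) (nat_lit 76) (nat_lit 1709141685) (nat_lit 152) (nat_lit 48278361480) (nat_lit 8) (nat_lit 5) (nat_lit 9) (nat_lit 5) (nat_lit 10) (nat_lit 4) (nat_lit 436) (nat_lit 260) (nat_lit 204)) (XT.nd (nat_lit 78) (nat_lit 0) (nat_lit 0) (XT.lf (nat_lit 0) (nat_lit 11104252499) (nat_lit 152) (nat_lit 41737910498) (nat_lit 0) (nat_lit 3156315373) (nat_lit 8) (nat_lit 5) (nat_lit 10) (nat_lit 4) (nat_lit 8) (nat_lit 4) (nat_lit 437) (nat_lit 260) (nat_lit 203)) (XT.lf (nat_lit 0) (nat_lit 16097468913) (nat_lit 152) (nat_lit 33335286711) (nat_lit 0) (nat_lit 8096819654) (nat_lit 8) (nat_lit 5) (nat_lit 10) (nat_lit 4) (nat_lit 8) (nat_lit 4) (nat_lit 438) (nat_lit 260) (nat_lit 202))))) (XT.nd (nat_lit 234) (nat_lit 76) (nat_lit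 0) (XT.nd (nat_lit 78) (nat_lit 0) (nat_lit 0) (XT.lf (nat_lit 0) (nat_lit 21201865699) (nat_lit 152) (nat_lit 24755860392) (nat_lit 0) (nat_lit 13150039612) (nat_lit 8) (nat_lit 5) (nat_lit 10) (nat_lit 4) (nat_lit 8) (nat_lit 4) (nat_lit 439) (nat_lit 260) (nat_lit 201)) (XT.nd (nat_lit 78) (nat_lit 0) (nat_lit 0) (XT.lf (nat_lit 0) (nat_lit 26421903011) (nat_lit 152) (nat_lit 15992134954) (nat_lit 0) (nat_lit 18320390683) (nat_lit 8) (nat_lit 5) (nat_lit 10) (nat_lit 4) (nat_lit 8) (nat_lit 4) (nat_lit 440) (nat_lit 260) (nat_lit 200)) (XT.lf (nat_lit 0) (nat_lit 31762142046) (nat_lit 152) (nat_lit 7036452774) (nat_lit 0) (nat_lit 23612390649) (nat_lit 8) (nat_lit 5) (nat_lit 10) (nat_lit 4) (nat_lit 8) (nat_lit 4) (nat_lit 441) (nat_lit 260) (nat_lit 199)))) (XT.nd (nat_lit 156) (nat_lit 0) (nat_lit 0) (XT.nd (nat_lit 78) (nat_lit 0) (nat_lit 0) (XT.lf (nat_lit 0) (nat_lit 2161183985) (nat_lit 76) (nat_lit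 35086839668) (nat_lit 76) (nat_lit 26890254224) (nat_lit 7) (nat_lit 4) (nat_lit 8) (nat_lit 5) (nat_lit 8) (nat_lit 4) (nat_lit 442) (nat_lit 260) (nat_lit 198)) (XT.lf (nat_lit 0) (nat_lit 11710777238) (nat_lit 76) (nat_lit 31223793221) (nat_lit 76) (nat_lit 22981737828) (nat_lit 7) (nat_lit 4) (nat_lit 8) (nat_lit 5) (nat_lit 8) (nat_lit 4) (nat_lit 443) (nat_lit 260) (nat_lit 197))) (XT.nd (nat_lit 78) (nat_lit 0) (nat_lit 0) (XT.lf (nat_lit 0) (nat_lit 21480632082) (nat_lit 76) (nat_lit 27277134376) (nat_lit 76) (nat_lit 18990933402) (nat_lit 7) (nat_lit 4) (nat_lit 8) (nat_lit 5) (nat_lit 8) (nat_lit 4) (nat_lit 444) (nat_lit 260) (nat_lit 196)) (XT.lf (nat_lit 0) (nat_lit 31479285282) (nat_lit 76) (nat_lit 23243414598) (nat_lit 76) (nat_lit 14914353836) (nat_lit 7) (nat_lit 4) (nat_lit 8) (nat_lit 5) (nat_lit 8) (nat_lit 4) (nat_lit 445) (nat_lit 260) (nat_lit 195))))))) (XT.nd (nat_lit 42198) (nat_lit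 0) (nat_lit 1596) (XT.nd (nat_lit 41652) (nat_lit 0) (nat_lit 2736) (XT.nd (nat_lit 234) (nat_lit 152) (nat_lit 0) (XT.nd (nat_lit 78) (nat_lit 0) (nat_lit 0) (XT.lf (nat_lit 0) (nat_lit 41715473527) (nat_lit 76) (nat_lit 19119109276) (nat_lit 76) (nat_lit 10748437069) (nat_lit 7) (nat_lit 4) (nat_lit 8) (nat_lit 5) (nat_lit 8) (nat_lit 4) (nat_lit 446) (nat_lit 260) (nat_lit 194)) (XT.nd (nat_lit 78) (nat_lit 0) (nat_lit 0) (XT.lf (nat_lit 0) (nat_lit 52198141058) (nat_lit 76) (nat_lit 14900614648) (nat_lit 76) (nat_lit 6489542981) (nat_lit 7) (nat_lit 4) (nat_lit 8) (nat_lit 5) (nat_lit 8) (nat_lit 4) (nat_lit 447) (nat_lit 260) (nat_lit 193)) (XT.lf (nat_lit 0) (nat_lit 62936447487) (nat_lit 76) (nat_lit 10584244651) (nat_lit 76) (nat_lit 2133950207) (nat_lit 7) (nat_lit 4) (nat_lit 8) (nat_lit 5) (nat_lit 8) (nat_lit 4) (nat_lit 448) (nat_lit 260) (nat_lit 192)))) (XT.nd (nat_lit 78) (nat_lit 76) (nat_lit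 0) (XT.lf (nat_lit 0) (nat_lit 2276833655) (nat_lit 152) (nat_lit 3866402490) (nat_lit 76) (nat_lit 71639950591) (nat_lit 6) (nat_lit 5) (nat_lit 8) (nat_lit 5) (nat_lit 7) (nat_lit 4) (nat_lit 449) (nat_lit 260) (nat_lit 191)) (XT.nd (nat_lit 41262) (nat_lit 0) (nat_lit 3344) (XT.lf (nat_lit 0) (nat_lit 5276747430) (nat_lit 76) (nat_lit 1522313392) (nat_lit 152) (nat_lit 73175233978) (nat_lit 5) (nat_lit 5) (nat_lit 6) (nat_lit 5) (nat_lit 7) (nat_lit 4) (nat_lit 450) (nat_lit 260) (nat_lit 190)) (XT.lf (nat_lit 0) (nat_lit 927111629) (nat_lit 228) (nat_lit 5325793101) (nat_lit 0) (nat_lit 927111629) (nat_lit 49) (nat_lit 5) (nat_lit 52) (nat_lit 4) (nat_lit 49) (nat_lit 4) (nat_lit 378) (nat_lit 261) (nat_lit 261))))) (XT.nd (nat_lit 234) (nat_lit 304) (nat_lit 0) (XT.nd (nat_lit 78) (nat_lit 304) (nat_lit 0) (XT.lf (nat_lit 0) (nat_lit 7209347936) (nat_lit 228) (nat_lit 616749906) (nat_lit 0) (nat_lit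 6791982655) (nat_lit 49) (nat_lit 5) (nat_lit 52) (nat_lit 4) (nat_lit 49) (nat_lit 4) (nat_lit 379) (nat_lit 261) (nat_lit 260)) (XT.nd (nat_lit 78) (nat_lit 152) (nat_lit 0) (XT.lf (nat_lit 0) (nat_lit 9708509029) (nat_lit 152) (nat_lit 2999236618) (nat_lit 152) (nat_lit 2176662326) (nat_lit 47) (nat_lit 4) (nat_lit 49) (nat_lit 5) (nat_lit 49) (nat_lit 4) (nat_lit 380) (nat_lit 261) (nat_lit 259)) (XT.lf (nat_lit 0) (nat_lit 3113127472) (nat_lit 152) (nat_lit 10113220728) (nat_lit 0) (nat_lit 1932563300) (nat_lit 45) (nat_lit 5) (nat_lit 47) (nat_lit 4) (nat_lit 45) (nat_lit 4) (nat_lit 381) (nat_lit 261) (nat_lit 258)))) (XT.nd (nat_lit 156) (nat_lit 152) (nat_lit 0) (XT.nd (nat_lit 78) (nat_lit 152) (nat_lit 0) (XT.lf (nat_lit 0) (nat_lit 8490311622) (nat_lit 152) (nat_lit 12610106) (nat_lit 0) (nat_lit 6938923803) (nat_lit 45) (nat_lit 5) (nat_lit 47) (nat_lit 4) (nat_lit 45) (nat_lit 4) (nat_lit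 382) (nat_lit 261) (nat_lit 257)) (XT.lf (nat_lit 0) (nat_lit 10398996054) (nat_lit 152) (nat_lit 3622951589) (nat_lit 152) (nat_lit 1711540813) (nat_lit 43) (nat_lit 4) (nat_lit 45) (nat_lit 5) (nat_lit 45) (nat_lit 4) (nat_lit 383) (nat_lit 261) (nat_lit 256))) (XT.nd (nat_lit 78) (nat_lit 0) (nat_lit 0) (XT.lf (nat_lit 0) (nat_lit 3568329248) (nat_lit 152) (nat_lit 11092630277) (nat_lit 0) (nat_lit 1373234464) (nat_lit 41) (nat_lit 5) (nat_lit 43) (nat_lit 4) (nat_lit 41) (nat_lit 4) (nat_lit 384) (nat_lit 261) (nat_lit 255)) (XT.lf (nat_lit 0) (nat_lit 8956241695) (nat_lit 152) (nat_lit 955988007) (nat_lit 0) (nat_lit 6431674904) (nat_lit 41) (nat_lit 5) (nat_lit 43) (nat_lit 4) (nat_lit 41) (nat_lit 4) (nat_lit 385) (nat_lit 261) (nat_lit 254)))))) (XT.nd (nat_lit 546) (nat_lit 380) (nat_lit 0) (XT.nd (nat_lit 234) (nat_lit 456) (nat_lit 0) (XT.nd (nat_lit 78) (nat_lit 152) (nat_lit 0) (XT.lf (nat_lit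 0) (nat_lit 9479849608) (nat_lit 152) (nat_lit 5013936459) (nat_lit 152) (nat_lit 2169493933) (nat_lit 39) (nat_lit 4) (nat_lit 41) (nat_lit 5) (nat_lit 41) (nat_lit 4) (nat_lit 386) (nat_lit 261) (nat_lit 253)) (XT.nd (nat_lit 78) (nat_lit 0) (nat_lit 0) (XT.lf (nat_lit 0) (nat_lit 3079385382) (nat_lit 152) (nat_lit 13897561035) (nat_lit 0) (nat_lit 16277137) (nat_lit 37) (nat_lit 5) (nat_lit 39) (nat_lit 4) (nat_lit 37) (nat_lit 4) (nat_lit 387) (nat_lit 261) (nat_lit 252)) (XT.lf (nat_lit 0) (nat_lit 8462427321) (nat_lit 152) (nat_lit 3762809362) (nat_lit 0) (nat_lit 5106587466) (nat_lit 37) (nat_lit 5) (nat_lit 39) (nat_lit 4) (nat_lit 37) (nat_lit 4) (nat_lit 388) (nat_lit 261) (nat_lit 251)))) (XT.nd (nat_lit 156) (nat_lit 228) (nat_lit 0) (XT.nd (nat_lit 78) (nat_lit 76) (nat_lit 0) (XT.lf (nat_lit 0) (nat_lit 6620256979) (nat_lit 152) (nat_lit 7350731037) (nat_lit 152) (nat_lit 3710685735) (nat_lit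 35) (nat_lit 4) (nat_lit 37) (nat_lit 5) (nat_lit 37) (nat_lit 4) (nat_lit 389) (nat_lit 261) (nat_lit 250)) (XT.lf (nat_lit 0) (nat_lit 1510428309) (nat_lit 228) (nat_lit 849803453) (nat_lit 76) (nat_lit 15683168472) (nat_lit 34) (nat_lit 5) (nat_lit 37) (nat_lit 5) (nat_lit 35) (nat_lit 4) (nat_lit 390) (nat_lit 261) (nat_lit 249))) (XT.nd (nat_lit 78) (nat_lit 152) (nat_lit 0) (XT.lf (nat_lit 0) (nat_lit 6836904807) (nat_lit 152) (nat_lit 8802381921) (nat_lit 0) (nat_lit 2774901105) (nat_lit 33) (nat_lit 5) (nat_lit 35) (nat_lit 4) (nat_lit 33) (nat_lit 4) (nat_lit 391) (nat_lit 261) (nat_lit 248)) (XT.lf (nat_lit 0) (nat_lit 1433338933) (nat_lit 152) (nat_lit 10839400141) (nat_lit 152) (nat_lit 6524883580) (nat_lit 31) (nat_lit 4) (nat_lit 33) (nat_lit 5) (nat_lit 33) (nat_lit 4) (nat_lit 392) (nat_lit 261) (nat_lit 247))))) (XT.nd (nat_lit 234) (nat_lit 228) (nat_lit 0) (XT.nd (nat_lit 78) (nat_lit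 152) (nat_lit 0) (XT.lf (nat_lit 0) (nat_lit 11978317353) (nat_lit 152) (nat_lit 5887058109) (nat_lit 152) (nat_lit 1327383433) (nat_lit 31) (nat_lit 4) (nat_lit 33) (nat_lit 5) (nat_lit 33) (nat_lit 4) (nat_lit 393) (nat_lit 261) (nat_lit 246)) (XT.nd (nat_lit 78) (nat_lit 0) (nat_lit 0) (XT.lf (nat_lit 0) (nat_lit 3086494657) (nat_lit 76) (nat_lit 797341264) (nat_lit 152) (nat_lit 15716671183) (nat_lit 29) (nat_lit 5) (nat_lit 30) (nat_lit 5) (nat_lit 31) (nat_lit 4) (nat_lit 394) (nat_lit 261) (nat_lit 245)) (XT.lf (nat_lit 0) (nat_lit 9247976608) (nat_lit 152) (nat_lit 6405759739) (nat_lit 0) (nat_lit 4365668549) (nat_lit 29) (nat_lit 5) (nat_lit 31) (nat_lit 4) (nat_lit 29) (nat_lit 4) (nat_lit 395) (nat_lit 261) (nat_lit 244)))) (XT.nd (nat_lit 156) (nat_lit 152) (nat_lit 0) (XT.nd (nat_lit 78) (nat_lit 0) (nat_lit 0) (XT.lf (nat_lit 0) (nat_lit 3903915796) (nat_lit 76) (nat_lit 10824218975) (nat_lit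 76) (nat_lit 5724091106) (nat_lit 28) (nat_lit 4) (nat_lit 29) (nat_lit 5) (nat_lit 29) (nat_lit 4) (nat_lit 396) (nat_lit 261) (nat_lit 243)) (XT.lf (nat_lit 0) (nat_lit 14485751390) (nat_lit 76) (nat_lit 5862315610) (nat_lit 76) (nat_lit 550712198) (nat_lit 28) (nat_lit 4) (nat_lit 29) (nat_lit 5) (nat_lit 29) (nat_lit 4) (nat_lit 397) (nat_lit 261) (nat_lit 242))) (XT.nd (nat_lit 78) (nat_lit 0) (nat_lit 0) (XT.lf (nat_lit 0) (nat_lit 3891025810) (nat_lit 76) (nat_lit 743429994) (nat_lit 152) (nat_lit 16724409132) (nat_lit 26) (nat_lit 5) (nat_lit 27) (nat_lit 5) (nat_lit 28) (nat_lit 4) (nat_lit 398) (nat_lit 261) (nat_lit 241)) (XT.lf (nat_lit 0) (nat_lit 9985701106) (nat_lit 152) (nat_lit 7410310352) (nat_lit 0) (nat_lit 4435938526) (nat_lit 26) (nat_lit 5) (nat_lit 28) (nat_lit 4) (nat_lit 26) (nat_lit 4) (nat_lit 399) (nat_lit 261) (nat_lit 240))))))))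
noncomputable def xc25 : XT := (XT.nd (nat_lit 2106) (nat_lit 456) (nat_lit 0) (XT.nd (nat_lit 1014) (nat_lit 456) (nat_lit 0) (XT.nd (nat_lit 468) (nat_lit 304) (nat_lit 0) (XT.nd (nat_lit 234) (nat_lit 76) (nat_lit 0) (XT.nd (nat_lit 78) (nat_lit 152) (nat_lit 0) (XT.lf (nat_lit 0) (nat_lit 2836217548) (nat_lit 76) (nat_lit 12611089503) (nat_lit 76) (nat_lit 6873433641) (nat_lit 25) (nat_lit 4) (nat_lit 26) (nat_lit 5) (nat_lit 26) (nat_lit 4) (nat_lit 400) (nat_lit 261) (nat_lit 239)) (XT.nd (nat_lit 78) (nat_lit 152) (nat_lit 0) (XT.lf (nat_lit 0) (nat_lit 13382910117) (nat_lit 76) (nat_lit 7680820021) (nat_lit 76) (nat_lit 1760743498) (nat_lit 25) (nat_lit 4) (nat_lit 26) (nat_lit 5) (nat_lit 26) (nat_lit 4) (nat_lit 401) (nat_lit 261) (nat_lit 238)) (XT.lf (nat_lit 0) (nat_lit 727032594) (nat_lit 76) (nat_lit 2634650438) (nat_lit 152) (nat_lit 19982889106) (nat_lit 23) (nat_lit 5) (nat_lit 24) (nat_lit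 5) (nat_lit 25) (nat_lit 4) (nat_lit 402) (nat_lit 261) (nat_lit 237)))) (XT.nd (nat_lit 78) (nat_lit 76) (nat_lit 0) (XT.lf (nat_lit 0) (nat_lit 8641287517) (nat_lit 152) (nat_lit 12682552502) (nat_lit 0) (nat_lit 2554750690) (nat_lit 23) (nat_lit 5) (nat_lit 25) (nat_lit 4) (nat_lit 23) (nat_lit 4) (nat_lit 403) (nat_lit 261) (nat_lit 236)) (XT.nd (nat_lit 78) (nat_lit 76) (nat_lit 0) (XT.lf (nat_lit 0) (nat_lit 14025727827) (nat_lit 152) (nat_lit 2627402712) (nat_lit 0) (nat_lit 7777112605) (nat_lit 23) (nat_lit 5) (nat_lit 25) (nat_lit 4) (nat_lit 23) (nat_lit 4) (nat_lit 404) (nat_lit 261) (nat_lit 235)) (XT.lf (nat_lit 0) (nat_lit 7732918848) (nat_lit 76) (nat_lit 11835797639) (nat_lit 76) (nat_lit 5429824752) (nat_lit 22) (nat_lit 4) (nat_lit 23) (nat_lit 5) (nat_lit 23) (nat_lit 4) (nat_lit 405) (nat_lit 261) (nat_lit 234))))) (XT.nd (nat_lit 234) (nat_lit 152) (nat_lit 0) (XT.nd (nat_lit 78) (nat_lit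 152) (nat_lit 0) (XT.lf (nat_lit 0) (nat_lit 18311974315) (nat_lit 76) (nat_lit 6916082880) (nat_lit 76) (nat_lit 357335560) (nat_lit 22) (nat_lit 4) (nat_lit 23) (nat_lit 5) (nat_lit 23) (nat_lit 4) (nat_lit 406) (nat_lit 261) (nat_lit 233)) (XT.nd (nat_lit 78) (nat_lit 0) (nat_lit 0) (XT.lf (nat_lit 0) (nat_lit 2884875518) (nat_lit 76) (nat_lit 1840221787) (nat_lit 152) (nat_lit 21464772422) (nat_lit 20) (nat_lit 5) (nat_lit 21) (nat_lit 5) (nat_lit 22) (nat_lit 4) (nat_lit 407) (nat_lit 261) (nat_lit 232)) (XT.lf (nat_lit 0) (nat_lit 9984750292) (nat_lit 152) (nat_lit 13493452865) (nat_lit 0) (nat_lit 3333219645) (nat_lit 20) (nat_lit 5) (nat_lit 22) (nat_lit 4) (nat_lit 20) (nat_lit 4) (nat_lit 408) (nat_lit 261) (nat_lit 231)))) (XT.nd (nat_lit 156) (nat_lit 76) (nat_lit 0) (XT.nd (nat_lit 78) (nat_lit 76) (nat_lit 0) (XT.lf (nat_lit 0) (nat_lit 15347779924) (nat_lit 152) (nat_lit 3544969404) (nat_lit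 0) (nat_lit 8560511173) (nat_lit 20) (nat_lit 5) (nat_lit 22) (nat_lit 4) (nat_lit 20) (nat_lit 4) (nat_lit 409) (nat_lit 261) (nat_lit 230)) (XT.lf (nat_lit 0) (nat_lit 6697531320) (nat_lit 76) (nat_lit 14168032454) (nat_lit 76) (nat_lit 7248979135) (nat_lit 19) (nat_lit 4) (nat_lit 20) (nat_lit 5) (nat_lit 20) (nat_lit 4) (nat_lit 410) (nat_lit 261) (nat_lit 229))) (XT.nd (nat_lit 78) (nat_lit 76) (nat_lit 0) (XT.lf (nat_lit 0) (nat_lit 17186170070) (nat_lit 76) (nat_lit 9328758557) (nat_lit 76) (nat_lit 2281759056) (nat_lit 19) (nat_lit 4) (nat_lit 20) (nat_lit 5) (nat_lit 20) (nat_lit 4) (nat_lit 411) (nat_lit 261) (nat_lit 228)) (XT.lf (nat_lit 0) (nat_lit 2710773011) (nat_lit 152) (nat_lit 1668349882) (nat_lit 76) (nat_lit 25121413330) (nat_lit 18) (nat_lit 5) (nat_lit 20) (nat_lit 5) (nat_lit 19) (nat_lit 4) (nat_lit 412) (nat_lit 261) (nat_lit 227)))))) (XT.nd (nat_lit 546) (nat_lit 152) (nat_lit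 0) (XT.nd (nat_lit 234) (nat_lit 228) (nat_lit 0) (XT.nd (nat_lit 78) (nat_lit 0) (nat_lit 0) (XT.lf (nat_lit 0) (nat_lit 7830753110) (nat_lit 152) (nat_lit 21642052638) (nat_lit 0) (nat_lit 751315592) (nat_lit 17) (nat_lit 5) (nat_lit 19) (nat_lit 4) (nat_lit 17) (nat_lit 4) (nat_lit 413) (nat_lit 261) (nat_lit 226)) (XT.nd (nat_lit 78) (nat_lit 0) (nat_lit 0) (XT.lf (nat_lit 0) (nat_lit 13098441579) (nat_lit 152) (nat_lit 11965828351) (nat_lit 0) (nat_lit 5905325537) (nat_lit 17) (nat_lit 5) (nat_lit 19) (nat_lit 4) (nat_lit 17) (nat_lit 4) (nat_lit 414) (nat_lit 261) (nat_lit 225)) (XT.lf (nat_lit 0) (nat_lit 18459828131) (nat_lit 152) (nat_lit 2123195665) (nat_lit 0) (nat_lit 11156344588) (nat_lit 17) (nat_lit 5) (nat_lit 19) (nat_lit 4) (nat_lit 17) (nat_lit 4) (nat_lit 415) (nat_lit 261) (nat_lit 224)))) (XT.nd (nat_lit 156) (nat_lit 152) (nat_lit 0) (XT.nd (nat_lit 78) (nat_lit 0) (nat_lit 0) (XT.lf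 (nat_lit 0) (nat_lit 8051560730) (nat_lit 76) (nat_lit 15945433267) (nat_lit 76) (nat_lit 8534796811) (nat_lit 16) (nat_lit 4) (nat_lit 17) (nat_lit 5) (nat_lit 17) (nat_lit 4) (nat_lit 416) (nat_lit 261) (nat_lit 223)) (XT.lf (nat_lit 0) (nat_lit 18455992145) (nat_lit 76) (nat_lit 11203938413) (nat_lit 76) (nat_lit 3689270002) (nat_lit 16) (nat_lit 4) (nat_lit 17) (nat_lit 5) (nat_lit 17) (nat_lit 4) (nat_lit 417) (nat_lit 261) (nat_lit 222))) (XT.nd (nat_lit 78) (nat_lit 76) (nat_lit 0) (XT.lf (nat_lit 0) (nat_lit 1215640389) (nat_lit 152) (nat_lit 5147920318) (nat_lit 76) (nat_lit 27829018100) (nat_lit 15) (nat_lit 5) (nat_lit 17) (nat_lit 5) (nat_lit 16) (nat_lit 4) (nat_lit 418) (nat_lit 261) (nat_lit 221)) (XT.lf (nat_lit 0) (nat_lit 4834100363) (nat_lit 76) (nat_lit 1347097058) (nat_lit 152) (nat_lit 28879339613) (nat_lit 14) (nat_lit 5) (nat_lit 15) (nat_lit 5) (nat_lit 16) (nat_lit 4) (nat_lit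 419) (nat_lit 261) (nat_lit 220))))) (XT.nd (nat_lit 234) (nat_lit 152) (nat_lit 0) (XT.nd (nat_lit 78) (nat_lit 0) (nat_lit 0) (XT.lf (nat_lit 0) (nat_lit 11326233406) (nat_lit 152) (nat_lit 20882645358) (nat_lit 0) (nat_lit 3744743718) (nat_lit 14) (nat_lit 5) (nat_lit 16) (nat_lit 4) (nat_lit 14) (nat_lit 4) (nat_lit 420) (nat_lit 261) (nat_lit 219)) (XT.nd (nat_lit 78) (nat_lit 0) (nat_lit 0) (XT.lf (nat_lit 0) (nat_lit 16581962737) (nat_lit 152) (nat_lit 11382117050) (nat_lit 0) (nat_lit 8910734171) (nat_lit 14) (nat_lit 5) (nat_lit 16) (nat_lit 4) (nat_lit 14) (nat_lit 4) (nat_lit 421) (nat_lit 261) (nat_lit 218)) (XT.lf (nat_lit 0) (nat_lit 21940028677) (nat_lit 152) (nat_lit 1703601192) (nat_lit 0) (nat_lit 14181674988) (nat_lit 14) (nat_lit 5) (nat_lit 16) (nat_lit 4) (nat_lit 14) (nat_lit 4) (nat_lit 422) (nat_lit 261) (nat_lit 217)))) (XT.nd (nat_lit 156) (nat_lit 76) (nat_lit 0) (XT.nd (nat_lit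 78) (nat_lit 0) (nat_lit 0) (XT.lf (nat_lit 0) (nat_lit 8323786221) (nat_lit 76) (nat_lit 19161340136) (nat_lit 76) (nat_lit 11318398948) (nat_lit 13) (nat_lit 4) (nat_lit 14) (nat_lit 5) (nat_lit 14) (nat_lit 4) (nat_lit 423) (nat_lit 261) (nat_lit 216)) (XT.lf (nat_lit 0) (nat_lit 18584025175) (nat_lit 76) (nat_lit 14576606962) (nat_lit 76) (nat_lit 6651541988) (nat_lit 13) (nat_lit 4) (nat_lit 14) (nat_lit 5) (nat_lit 14) (nat_lit 4) (nat_lit 424) (nat_lit 261) (nat_lit 215))) (XT.nd (nat_lit 78) (nat_lit 76) (nat_lit 0) (XT.lf (nat_lit 0) (nat_lit 29052175923) (nat_lit 76) (nat_lit 9902627301) (nat_lit 76) (nat_lit 1897830497) (nat_lit 13) (nat_lit 4) (nat_lit 14) (nat_lit 5) (nat_lit 14) (nat_lit 4) (nat_lit 425) (nat_lit 261) (nat_lit 214)) (XT.lf (nat_lit 0) (nat_lit 2889384831) (nat_lit 152) (nat_lit 2216755140) (nat_lit 76) (nat_lit 36818823440) (nat_lit 12) (nat_lit 5) (nat_lit 14) (nat_lit 5)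 (nat_lit 13) (nat_lit 4) (nat_lit 426) (nat_lit 261) (nat_lit 213))))))) (XT.nd (nat_lit 1014) (nat_lit 152) (nat_lit 0) (XT.nd (nat_lit 468) (nat_lit 152) (nat_lit 0) (XT.nd (nat_lit 234) (nat_lit 76) (nat_lit 0) (XT.nd (nat_lit 78) (nat_lit 0) (nat_lit 0) (XT.lf (nat_lit 0) (nat_lit 7690597823) (nat_lit 76) (nat_lit 116278565) (nat_lit 152) (nat_lit 35221281796) (nat_lit 11) (nat_lit 5) (nat_lit 12) (nat_lit 5) (nat_lit 13) (nat_lit 4) (nat_lit 427) (nat_lit 261) (nat_lit 212)) (XT.nd (nat_lit 78) (nat_lit 0) (nat_lit 0) (XT.lf (nat_lit 0) (nat_lit 12893750296) (nat_lit 152) (nat_lit 26366904325) (nat_lit 0) (nat_lit 4903141397) (nat_lit 11) (nat_lit 5) (nat_lit 13) (nat_lit 4) (nat_lit 11) (nat_lit 4) (nat_lit 428) (nat_lit 261) (nat_lit 211)) (XT.lf (nat_lit 0) (nat_lit 18086774181) (nat_lit 152) (nat_lit 17220737446) (nat_lit 0) (nat_lit 10027387905) (nat_lit 11) (nat_lit 5) (nat_lit 13) (nat_lit 4)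 (nat_lit 11) (nat_lit 4) (nat_lit 429) (nat_lit 261) (nat_lit 210)))) (XT.nd (nat_lit 78) (nat_lit 76) (nat_lit 0) (XT.lf (nat_lit 0) (nat_lit 23389367897) (nat_lit 152) (nat_lit 7889950188) (nat_lit 0) (nat_lit 15263207468) (nat_lit 11) (nat_lit 5) (nat_lit 13) (nat_lit 4) (nat_lit 11) (nat_lit 4) (nat_lit 430) (nat_lit 261) (nat_lit 209)) (XT.nd (nat_lit 78) (nat_lit 0) (nat_lit 0) (XT.lf (nat_lit 0) (nat_lit 1666122617) (nat_lit 76) (nat_lit 27156057951) (nat_lit 76) (nat_lit 18965068247) (nat_lit 10) (nat_lit 4) (nat_lit 11) (nat_lit 5) (nat_lit 11) (nat_lit 4) (nat_lit 431) (nat_lit 261) (nat_lit 208)) (XT.lf (nat_lit 0) (nat_lit 11584318140) (nat_lit 76) (nat_lit 22868935361) (nat_lit 76) (nat_lit 14615004614) (nat_lit 10) (nat_lit 4) (nat_lit 11) (nat_lit 5) (nat_lit 11) (nat_lit 4) (nat_lit 432) (nat_lit 261) (nat_lit 207))))) (XT.nd (nat_lit 234) (nat_lit 152) (nat_lit 0) (XT.nd (nat_lit 78) (nat_lit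 0) (nat_lit 0) (XT.lf (nat_lit 0) (nat_lit 21716277286) (nat_lit 76) (nat_lit 18493877313) (nat_lit 76) (nat_lit 10178838757) (nat_lit 10) (nat_lit 4) (nat_lit 11) (nat_lit 5) (nat_lit 11) (nat_lit 4) (nat_lit 433) (nat_lit 261) (nat_lit 206)) (XT.nd (nat_lit 78) (nat_lit 0) (nat_lit 0) (XT.lf (nat_lit 0) (nat_lit 32070853222) (nat_lit 76) (nat_lit 14027060940) (nat_lit 76) (nat_lit 5652694413) (nat_lit 10) (nat_lit 4) (nat_lit 11) (nat_lit 5) (nat_lit 11) (nat_lit 4) (nat_lit 434) (nat_lit 261) (nat_lit 205)) (XT.lf (nat_lit 0) (nat_lit 42657093637) (nat_lit 76) (nat_lit 9464583198) (nat_lit 76) (nat_lit 1032616701) (nat_lit 10) (nat_lit 4) (nat_lit 11) (nat_lit 5) (nat_lit 11) (nat_lit 4) (nat_lit 435) (nat_lit 261) (nat_lit 204)))) (XT.nd (nat_lit 156) (nat_lit 0) (nat_lit 0) (XT.nd (nat_lit 78) (nat_lit 76) (nat_lit 0) (XT.lf (nat_lit 0) (nat_lit 3613515301) (nat_lit 152) (nat_lit 1152452737) (nat_lit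 76) (nat_lit 49834243923) (nat_lit 9) (nat_lit 5) (nat_lit 11) (nat_lit 5) (nat_lit 10) (nat_lit 4) (nat_lit 436) (nat_lit 261) (nat_lit 203)) (XT.lf (nat_lit 0) (nat_lit 8423097122) (nat_lit 152) (nat_lit 47535045424) (nat_lit 0) (nat_lit 129716252) (nat_lit 8) (nat_lit 5) (nat_lit 10) (nat_lit 4) (nat_lit 8) (nat_lit 4) (nat_lit 437) (nat_lit 261) (nat_lit 202))) (XT.nd (nat_lit 78) (nat_lit 0) (nat_lit 0) (XT.lf (nat_lit 0) (nat_lit 13397290817) (nat_lit 152) (nat_lit 39169503499) (nat_lit 0) (nat_lit 5052733119) (nat_lit 8) (nat_lit 5) (nat_lit 10) (nat_lit 4) (nat_lit 8) (nat_lit 4) (nat_lit 438) (nat_lit 261) (nat_lit 201)) (XT.lf (nat_lit 0) (nat_lit 18483218944) (nat_lit 152) (nat_lit 30626078989) (nat_lit 0) (nat_lit 10088975005) (nat_lit 8) (nat_lit 5) (nat_lit 10) (nat_lit 4) (nat_lit 8) (nat_lit 4) (nat_lit 439) (nat_lit 261) (nat_lit 200)))))) (XT.nd (nat_lit 546) (nat_lit 76) (nat_lit 0) (XT.nd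 (nat_lit 234) (nat_lit 76) (nat_lit 0) (XT.nd (nat_lit 78) (nat_lit 0) (nat_lit 0) (XT.lf (nat_lit 0) (nat_lit 23685325519) (nat_lit 152) (nat_lit 21897306763) (nat_lit 0) (nat_lit 15242842511) (nat_lit 8) (nat_lit 5) (nat_lit 10) (nat_lit 4) (nat_lit 8) (nat_lit 4) (nat_lit 440) (nat_lit 261) (nat_lit 199)) (XT.nd (nat_lit 78) (nat_lit 0) (nat_lit 0) (XT.lf (nat_lit 0) (nat_lit 29008156071) (nat_lit 152) (nat_lit 12975559740) (nat_lit 0) (nat_lit 20518839016) (nat_lit 8) (nat_lit 5) (nat_lit 10) (nat_lit 4) (nat_lit 8) (nat_lit 4) (nat_lit 441) (nat_lit 261) (nat_lit 198)) (XT.lf (nat_lit 0) (nat_lit 34456361617) (nat_lit 152) (nat_lit 3853042219) (nat_lit 0) (nat_lit 25921574614) (nat_lit 8) (nat_lit 5) (nat_lit 10) (nat_lit 4) (nat_lit 8) (nat_lit 4) (nat_lit 442) (nat_lit 261) (nat_lit 197)))) (XT.nd (nat_lit 156) (nat_lit 0) (nat_lit 0) (XT.nd (nat_lit 78) (nat_lit 0) (nat_lit 0) (XT.lf (nat_lit 0)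 (nat_lit 5587244191) (nat_lit 76) (nat_lit 34501166544) (nat_lit 76) (nat_lit 25922233959) (nat_lit 7) (nat_lit 4) (nat_lit 8) (nat_lit 5) (nat_lit 8) (nat_lit 4) (nat_lit 443) (nat_lit 261) (nat_lit 196)) (XT.lf (nat_lit 0) (nat_lit 15325425493) (nat_lit 76) (nat_lit 30569945547) (nat_lit 76) (nat_lit 21948153174) (nat_lit 7) (nat_lit 4) (nat_lit 8) (nat_lit 5) (nat_lit 8) (nat_lit 4) (nat_lit 444) (nat_lit 261) (nat_lit 195))) (XT.nd (nat_lit 78) (nat_lit 0) (nat_lit 0) (XT.lf (nat_lit 0) (nat_lit 25293327683) (nat_lit 76) (nat_lit 26551213970) (nat_lit 76) (nat_lit 17887810153) (nat_lit 7) (nat_lit 4) (nat_lit 8) (nat_lit 5) (nat_lit 8) (nat_lit 4) (nat_lit 445) (nat_lit 261) (nat_lit 194)) (XT.lf (nat_lit 0) (nat_lit 35499660577) (nat_lit 76) (nat_lit 22441460300) (nat_lit 76) (nat_lit 13737657023) (nat_lit 7) (nat_lit 4) (nat_lit 8) (nat_lit 5) (nat_lit 8) (nat_lit 4) (nat_lit 446) (nat_lit 261) (nat_lit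 193))))) (XT.nd (nat_lit 234) (nat_lit 76) (nat_lit 0) (XT.nd (nat_lit 78) (nat_lit 0) (nat_lit 0) (XT.lf (nat_lit 0) (nat_lit 45953342331) (nat_lit 76) (nat_lit 18237093490) (nat_lit 76) (nat_lit 9494067435) (nat_lit 7) (nat_lit 4) (nat_lit 8) (nat_lit 5) (nat_lit 8) (nat_lit 4) (nat_lit 447) (nat_lit 261) (nat_lit 192)) (XT.nd (nat_lit 78) (nat_lit 0) (nat_lit 0) (XT.lf (nat_lit 0) (nat_lit 56663507230) (nat_lit 76) (nat_lit 13934439822) (nat_lit 76) (nat_lit 5153333400) (nat_lit 7) (nat_lit 4) (nat_lit 8) (nat_lit 5) (nat_lit 8) (nat_lit 4) (nat_lit 448) (nat_lit 261) (nat_lit 191)) (XT.lf (nat_lit 0) (nat_lit 67639513670) (nat_lit 76) (nat_lit 9529739694) (nat_lit 76) (nat_lit 711662043) (nat_lit 7) (nat_lit 4) (nat_lit 8) (nat_lit 5) (nat_lit 8) (nat_lit 4) (nat_lit 449) (nat_lit 261) (nat_lit 190)))) (XT.nd (nat_lit 41184) (nat_lit 0) (nat_lit 3268) (XT.nd (nat_lit 41106) (nat_lit 0) (nat_lit 3648)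 (XT.lf (nat_lit 0) (nat_lit 3759996406) (nat_lit 152) (nat_lit 1221179344) (nat_lit 76) (nat_lit 75092987339) (nat_lit 6) (nat_lit 5) (nat_lit 8) (nat_lit 5) (nat_lit 7) (nat_lit 4) (nat_lit 450) (nat_lit 261) (nat_lit 189)) (XT.lf (nat_lit 0) (nat_lit 2866079523) (nat_lit 228) (nat_lit 1199982482) (nat_lit 0) (nat_lit 2866079523) (nat_lit 54) (nat_lit 5) (nat_lit 57) (nat_lit 4) (nat_lit 54) (nat_lit 4) (nat_lit 376) (nat_lit 262) (nat_lit 262))) (XT.nd (nat_lit 78) (nat_lit 228) (nat_lit 0) (XT.lf (nat_lit 0) (nat_lit 7691247485) (nat_lit 152) (nat_lit 3430308586) (nat_lit 152) (nat_lit 2987525759) (nat_lit 52) (nat_lit 4) (nat_lit 54) (nat_lit 5) (nat_lit 54) (nat_lit 4) (nat_lit 377) (nat_lit 262) (nat_lit 261)) (XT.lf (nat_lit 0) (nat_lit 2227939063) (nat_lit 228) (nat_lit 10753099770) (nat_lit 0) (nat_lit 1380687543) (nat_lit 49) (nat_lit 5) (nat_lit 52) (nat_lit 4) (nat_lit 49) (nat_lit 4) (nat_lit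 378) (nat_lit 262) (nat_lit 260))))))))
noncomputable def xc26 : XT := (XT.nd (nat_lit 2106) (nat_lit 912) (nat_lit 0) (XT.nd (nat_lit 1014) (nat_lit 836) (nat_lit 0) (XT.nd (nat_lit 468) (nat_lit 608) (nat_lit 0) (XT.nd (nat_lit 234) (nat_lit 304) (nat_lit 0) (XT.nd (nat_lit 78) (nat_lit 304) (nat_lit 0) (XT.lf (nat_lit 0) (nat_lit 7528529340) (nat_lit 228) (nat_lit 816820335) (nat_lit 0) (nat_lit 6276068809) (nat_lit 49) (nat_lit 5) (nat_lit 52) (nat_lit 4) (nat_lit 49) (nat_lit 4) (nat_lit 379) (nat_lit 262) (nat_lit 259)) (XT.nd (nat_lit 78) (nat_lit 152) (nat_lit 0) (XT.lf (nat_lit 0) (nat_lit 9406866188) (nat_lit 152) (nat_lit 3564215266) (nat_lit 152) (nat_lit 1918347930) (nat_lit 47) (nat_lit 4) (nat_lit 49) (nat_lit 5) (nat_lit 49) (nat_lit 4) (nat_lit 380) (nat_lit 262) (nat_lit 258)) (XT.lf (nat_lit 0) (nat_lit 3303732094) (nat_lit 152) (nat_lit 10527034996) (nat_lit 0) (nat_lit 1334978995) (nat_lit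 45) (nat_lit 5) (nat_lit 47) (nat_lit 4) (nat_lit 45) (nat_lit 4) (nat_lit 381) (nat_lit 262) (nat_lit 257)))) (XT.nd (nat_lit 78) (nat_lit 304) (nat_lit 0) (XT.lf (nat_lit 0) (nat_lit 8628293011) (nat_lit 152) (nat_lit 522456220) (nat_lit 0) (nat_lit 6299516954) (nat_lit 45) (nat_lit 5) (nat_lit 47) (nat_lit 4) (nat_lit 45) (nat_lit 4) (nat_lit 382) (nat_lit 262) (nat_lit 256)) (XT.nd (nat_lit 78) (nat_lit 152) (nat_lit 0) (XT.lf (nat_lit 0) (nat_lit 9783912645) (nat_lit 152) (nat_lit 4319013312) (nat_lit 152) (nat_lit 1640700403) (nat_lit 43) (nat_lit 4) (nat_lit 45) (nat_lit 5) (nat_lit 45) (nat_lit 4) (nat_lit 383) (nat_lit 262) (nat_lit 255)) (XT.lf (nat_lit 0) (nat_lit 3572578189) (nat_lit 152) (nat_lit 11830893907) (nat_lit 0) (nat_lit 642802387) (nat_lit 41) (nat_lit 5) (nat_lit 43) (nat_lit 4) (nat_lit 41) (nat_lit 4) (nat_lit 384) (nat_lit 262) (nat_lit 254))))) (XT.nd (nat_lit 234) (nat_lit 304)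 (nat_lit 0) (XT.nd (nat_lit 78) (nat_lit 304) (nat_lit 0) (XT.lf (nat_lit 0) (nat_lit 8909686911) (nat_lit 152) (nat_lit 1787793476) (nat_lit 0) (nat_lit 5660035374) (nat_lit 41) (nat_lit 5) (nat_lit 43) (nat_lit 4) (nat_lit 41) (nat_lit 4) (nat_lit 385) (nat_lit 262) (nat_lit 253)) (XT.nd (nat_lit 78) (nat_lit 152) (nat_lit 0) (XT.lf (nat_lit 0) (nat_lit 8538864815) (nat_lit 152) (nat_lit 5849997141) (nat_lit 152) (nat_lit 2289786638) (nat_lit 39) (nat_lit 4) (nat_lit 41) (nat_lit 5) (nat_lit 41) (nat_lit 4) (nat_lit 386) (nat_lit 262) (nat_lit 252)) (XT.lf (nat_lit 0) (nat_lit 2028897255) (nat_lit 76) (nat_lit 872886644) (nat_lit 152) (nat_lit 14108638616) (nat_lit 37) (nat_lit 5) (nat_lit 38) (nat_lit 5) (nat_lit 39) (nat_lit 4) (nat_lit 387) (nat_lit 262) (nat_lit 251)))) (XT.nd (nat_lit 156) (nat_lit 152) (nat_lit 0) (XT.nd (nat_lit 78) (nat_lit 152) (nat_lit 0) (XT.lf (nat_lit 0) (nat_lit 8227365925)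 (nat_lit 152) (nat_lit 4929472986) (nat_lit 0) (nat_lit 4193913817) (nat_lit 37) (nat_lit 5) (nat_lit 39) (nat_lit 4) (nat_lit 37) (nat_lit 4) (nat_lit 388) (nat_lit 262) (nat_lit 250)) (XT.lf (nat_lit 0) (nat_lit 5340177384) (nat_lit 152) (nat_lit 8335804335) (nat_lit 152) (nat_lit 4026424608) (nat_lit 35) (nat_lit 4) (nat_lit 37) (nat_lit 5) (nat_lit 37) (nat_lit 4) (nat_lit 389) (nat_lit 262) (nat_lit 249))) (XT.nd (nat_lit 78) (nat_lit 76) (nat_lit 0) (XT.lf (nat_lit 0) (nat_lit 1153284784) (nat_lit 228) (nat_lit 2236102506) (nat_lit 76) (nat_lit 14676268873) (nat_lit 34) (nat_lit 5) (nat_lit 37) (nat_lit 5) (nat_lit 35) (nat_lit 4) (nat_lit 390) (nat_lit 262) (nat_lit 248)) (XT.lf (nat_lit 0) (nat_lit 6408729081) (nat_lit 152) (nat_lit 10317586655) (nat_lit 0) (nat_lit 1712264164) (nat_lit 33) (nat_lit 5) (nat_lit 35) (nat_lit 4) (nat_lit 33) (nat_lit 4) (nat_lit 391) (nat_lit 262) (nat_lit 247))))))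 (XT.nd (nat_lit 546) (nat_lit 304) (nat_lit 0) (XT.nd (nat_lit 234) (nat_lit 228) (nat_lit 0) (XT.nd (nat_lit 78) (nat_lit 304) (nat_lit 0) (XT.lf (nat_lit 0) (nat_lit 11784752599) (nat_lit 152) (nat_lit 195931896) (nat_lit 0) (nat_lit 6843129567) (nat_lit 33) (nat_lit 5) (nat_lit 35) (nat_lit 4) (nat_lit 33) (nat_lit 4) (nat_lit 392) (nat_lit 262) (nat_lit 246)) (XT.nd (nat_lit 78) (nat_lit 152) (nat_lit 0) (XT.lf (nat_lit 0) (nat_lit 10259894687) (nat_lit 152) (nat_lit 7070062039) (nat_lit 152) (nat_lit 1890421419) (nat_lit 31) (nat_lit 4) (nat_lit 33) (nat_lit 5) (nat_lit 33) (nat_lit 4) (nat_lit 393) (nat_lit 262) (nat_lit 245)) (XT.lf (nat_lit 0) (nat_lit 1225895919) (nat_lit 76) (nat_lit 2043375792) (nat_lit 152) (nat_lit 16360896997) (nat_lit 29) (nat_lit 5) (nat_lit 30) (nat_lit 5) (nat_lit 31) (nat_lit 4) (nat_lit 394) (nat_lit 262) (nat_lit 244)))) (XT.nd (nat_lit 156) (nat_lit 152) (nat_lit 0)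 (XT.nd (nat_lit 78) (nat_lit 76) (nat_lit 0) (XT.lf (nat_lit 0) (nat_lit 8576938182) (nat_lit 152) (nat_lit 8367840338) (nat_lit 0) (nat_lit 3105986666) (nat_lit 29) (nat_lit 5) (nat_lit 31) (nat_lit 4) (nat_lit 29) (nat_lit 4) (nat_lit 395) (nat_lit 262) (nat_lit 243)) (XT.lf (nat_lit 0) (nat_lit 1819809590) (nat_lit 76) (nat_lit 12174052498) (nat_lit 76) (nat_lit 6491625439) (nat_lit 28) (nat_lit 4) (nat_lit 29) (nat_lit 5) (nat_lit 29) (nat_lit 4) (nat_lit 396) (nat_lit 262) (nat_lit 242))) (XT.nd (nat_lit 78) (nat_lit 152) (nat_lit 0) (XT.lf (nat_lit 0) (nat_lit 12321085615) (nat_lit 76) (nat_lit 7249992029) (nat_lit 76) (nat_lit 1362248907) (nat_lit 28) (nat_lit 4) (nat_lit 29) (nat_lit 5) (nat_lit 29) (nat_lit 4) (nat_lit 397) (nat_lit 262) (nat_lit 241)) (XT.lf (nat_lit 0) (nat_lit 1575376234) (nat_lit 76) (nat_lit 2199232306) (nat_lit 152) (nat_lit 17620966139) (nat_lit 26) (nat_lit 5) (nat_lit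 27) (nat_lit 5) (nat_lit 28) (nat_lit 4) (nat_lit 398) (nat_lit 262) (nat_lit 240))))) (XT.nd (nat_lit 234) (nat_lit 228) (nat_lit 0) (XT.nd (nat_lit 78) (nat_lit 76) (nat_lit 0) (XT.lf (nat_lit 0) (nat_lit 9070085954) (nat_lit 152) (nat_lit 9827843521) (nat_lit 0) (nat_lit 2972407135) (nat_lit 26) (nat_lit 5) (nat_lit 28) (nat_lit 4) (nat_lit 26) (nat_lit 4) (nat_lit 399) (nat_lit 262) (nat_lit 239)) (XT.nd (nat_lit 78) (nat_lit 0) (nat_lit 0) (XT.lf (nat_lit 0) (nat_lit 292178972) (nat_lit 76) (nat_lit 14174500961) (nat_lit 76) (nat_lit 7894401480) (nat_lit 25) (nat_lit 4) (nat_lit 26) (nat_lit 5) (nat_lit 26) (nat_lit 4) (nat_lit 400) (nat_lit 262) (nat_lit 238)) (XT.lf (nat_lit 0) (nat_lit 10762763039) (nat_lit 76) (nat_lit 9280232543) (nat_lit 76) (nat_lit 2823025624) (nat_lit 25) (nat_lit 4) (nat_lit 26) (nat_lit 5) (nat_lit 26) (nat_lit 4) (nat_lit 401) (nat_lit 262) (nat_lit 237)))) (XT.nd (nat_lit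 156) (nat_lit 76) (nat_lit 0) (XT.nd (nat_lit 78) (nat_lit 76) (nat_lit 0) (XT.lf (nat_lit 0) (nat_lit 2273812925) (nat_lit 152) (nat_lit 2013315649) (nat_lit 76) (nat_lit 19100690398) (nat_lit 24) (nat_lit 5) (nat_lit 26) (nat_lit 5) (nat_lit 25) (nat_lit 4) (nat_lit 402) (nat_lit 262) (nat_lit 236)) (XT.lf (nat_lit 0) (nat_lit 7478368441) (nat_lit 152) (nat_lit 15565507525) (nat_lit 0) (nat_lit 880216366) (nat_lit 23) (nat_lit 5) (nat_lit 25) (nat_lit 4) (nat_lit 23) (nat_lit 4) (nat_lit 403) (nat_lit 262) (nat_lit 235))) (XT.nd (nat_lit 78) (nat_lit 76) (nat_lit 0) (XT.lf (nat_lit 0) (nat_lit 12824720866) (nat_lit 152) (nat_lit 5582958633) (nat_lit 0) (nat_lit 6069211127) (nat_lit 23) (nat_lit 5) (nat_lit 25) (nat_lit 4) (nat_lit 23) (nat_lit 4) (nat_lit 404) (nat_lit 262) (nat_lit 234)) (XT.lf (nat_lit 0) (nat_lit 4646652446) (nat_lit 76) (nat_lit 13654411471) (nat_lit 76) (nat_lit 6746127299) (nat_lit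 22) (nat_lit 4) (nat_lit 23) (nat_lit 5) (nat_lit 23) (nat_lit 4) (nat_lit 405) (nat_lit 262) (nat_lit 233))))))) (XT.nd (nat_lit 1014) (nat_lit 456) (nat_lit 0) (XT.nd (nat_lit 468) (nat_lit 228) (nat_lit 0) (XT.nd (nat_lit 234) (nat_lit 76) (nat_lit 0) (XT.nd (nat_lit 78) (nat_lit 152) (nat_lit 0) (XT.lf (nat_lit 0) (nat_lit 15155912647) (nat_lit 76) (nat_lit 8767919579) (nat_lit 76) (nat_lit 1711310715) (nat_lit 22) (nat_lit 4) (nat_lit 23) (nat_lit 5) (nat_lit 23) (nat_lit 4) (nat_lit 406) (nat_lit 262) (nat_lit 232)) (XT.nd (nat_lit 78) (nat_lit 76) (nat_lit 0) (XT.lf (nat_lit 0) (nat_lit 3333950263) (nat_lit 152) (nat_lit 432694384) (nat_lit 76) (nat_lit 22475276371) (nat_lit 21) (nat_lit 5) (nat_lit 23) (nat_lit 5) (nat_lit 22) (nat_lit 4) (nat_lit 407) (nat_lit 262) (nat_lit 231)) (XT.lf (nat_lit 0) (nat_lit 8535021408) (nat_lit 152) (nat_lit 16921816432) (nat_lit 0) (nat_lit 1408396489) (nat_lit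 20) (nat_lit 5) (nat_lit 22) (nat_lit 4) (nat_lit 20) (nat_lit 4) (nat_lit 408) (nat_lit 262) (nat_lit 230)))) (XT.nd (nat_lit 78) (nat_lit 76) (nat_lit 0) (XT.lf (nat_lit 0) (nat_lit 13863313385) (nat_lit 152) (nat_lit 7039899571) (nat_lit 0) (nat_lit 6604903899) (nat_lit 20) (nat_lit 5) (nat_lit 22) (nat_lit 4) (nat_lit 20) (nat_lit 4) (nat_lit 409) (nat_lit 262) (nat_lit 229)) (XT.nd (nat_lit 78) (nat_lit 0) (nat_lit 0) (XT.lf (nat_lit 0) (nat_lit 3067131202) (nat_lit 76) (nat_lit 16245342527) (nat_lit 76) (nat_lit 8858986859) (nat_lit 19) (nat_lit 4) (nat_lit 20) (nat_lit 5) (nat_lit 20) (nat_lit 4) (nat_lit 410) (nat_lit 262) (nat_lit 228)) (XT.lf (nat_lit 0) (nat_lit 13491775790) (nat_lit 76) (nat_lit 11436704069) (nat_lit 76) (nat_lit 3926128807) (nat_lit 19) (nat_lit 4) (nat_lit 20) (nat_lit 5) (nat_lit 20) (nat_lit 4) (nat_lit 411) (nat_lit 262) (nat_lit 227))))) (XT.nd (nat_lit 234) (nat_lit 76)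 (nat_lit 0) (XT.nd (nat_lit 78) (nat_lit 76) (nat_lit 0) (XT.lf (nat_lit 0) (nat_lit 1065780641) (nat_lit 152) (nat_lit 5467642106) (nat_lit 76) (nat_lit 23026492363) (nat_lit 18) (nat_lit 5) (nat_lit 20) (nat_lit 5) (nat_lit 19) (nat_lit 4) (nat_lit 412) (nat_lit 262) (nat_lit 226)) (XT.nd (nat_lit 78) (nat_lit 0) (nat_lit 0) (XT.lf (nat_lit 0) (nat_lit 4652581804) (nat_lit 76) (nat_lit 1456210064) (nat_lit 152) (nat_lit 24177019753) (nat_lit 17) (nat_lit 5) (nat_lit 18) (nat_lit 5) (nat_lit 19) (nat_lit 4) (nat_lit 413) (nat_lit 262) (nat_lit 225)) (XT.lf (nat_lit 0) (nat_lit 11330791435) (nat_lit 152) (nat_lit 16004031356) (nat_lit 0) (nat_lit 3697835885) (nat_lit 17) (nat_lit 5) (nat_lit 19) (nat_lit 4) (nat_lit 17) (nat_lit 4) (nat_lit 414) (nat_lit 262) (nat_lit 224)))) (XT.nd (nat_lit 156) (nat_lit 0) (nat_lit 0) (XT.nd (nat_lit 78) (nat_lit 76) (nat_lit 0) (XT.lf (nat_lit 0) (nat_lit 16661410101)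 (nat_lit 152) (nat_lit 6220645084) (nat_lit 0) (nat_lit 8921301638) (nat_lit 17) (nat_lit 5) (nat_lit 19) (nat_lit 4) (nat_lit 17) (nat_lit 4) (nat_lit 415) (nat_lit 262) (nat_lit 223)) (XT.lf (nat_lit 0) (nat_lit 3813898465) (nat_lit 76) (nat_lit 18314070766) (nat_lit 76) (nat_lit 10469930349) (nat_lit 16) (nat_lit 4) (nat_lit 17) (nat_lit 5) (nat_lit 17) (nat_lit 4) (nat_lit 416) (nat_lit 262) (nat_lit 222))) (XT.nd (nat_lit 78) (nat_lit 0) (nat_lit 0) (XT.lf (nat_lit 0) (nat_lit 14161373018) (nat_lit 76) (nat_lit 13599983586) (nat_lit 76) (nat_lit 5654841271) (nat_lit 16) (nat_lit 4) (nat_lit 17) (nat_lit 5) (nat_lit 17) (nat_lit 4) (nat_lit 417) (nat_lit 262) (nat_lit 221)) (XT.lf (nat_lit 0) (nat_lit 24707017022) (nat_lit 76) (nat_lit 8798490857) (nat_lit 76) (nat_lit 755288447) (nat_lit 16) (nat_lit 4) (nat_lit 17) (nat_lit 5) (nat_lit 17) (nat_lit 4) (nat_lit 418) (nat_lit 262) (nat_lit 220))))))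 (XT.nd (nat_lit 546) (nat_lit 228) (nat_lit 0) (XT.nd (nat_lit 234) (nat_lit 76) (nat_lit 0) (XT.nd (nat_lit 78) (nat_lit 0) (nat_lit 0) (XT.lf (nat_lit 0) (nat_lit 292632218) (nat_lit 76) (nat_lit 3860588768) (nat_lit 152) (nat_lit 30977906849) (nat_lit 14) (nat_lit 5) (nat_lit 15) (nat_lit 5) (nat_lit 16) (nat_lit 4) (nat_lit 419) (nat_lit 262) (nat_lit 219)) (XT.nd (nat_lit 78) (nat_lit 0) (nat_lit 0) (XT.lf (nat_lit 0) (nat_lit 9246019235) (nat_lit 152) (nat_lit 25524848084) (nat_lit 0) (nat_lit 1254914935) (nat_lit 14) (nat_lit 5) (nat_lit 16) (nat_lit 4) (nat_lit 14) (nat_lit 4) (nat_lit 420) (nat_lit 262) (nat_lit 218)) (XT.lf (nat_lit 0) (nat_lit 14474489812) (nat_lit 152) (nat_lit 16077043076) (nat_lit 0) (nat_lit 6396260387) (nat_lit 14) (nat_lit 5) (nat_lit 16) (nat_lit 4) (nat_lit 14) (nat_lit 4) (nat_lit 421) (nat_lit 262) (nat_lit 217)))) (XT.nd (nat_lit 156) (nat_lit 0) (nat_lit 0) (XT.nd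 (nat_lit 78) (nat_lit 76) (nat_lit 0) (XT.lf (nat_lit 0) (nat_lit 19806090942) (nat_lit 152) (nat_lit 6449714888) (nat_lit 0) (nat_lit 11643274019) (nat_lit 14) (nat_lit 5) (nat_lit 16) (nat_lit 4) (nat_lit 14) (nat_lit 4) (nat_lit 422) (nat_lit 262) (nat_lit 216)) (XT.lf (nat_lit 0) (nat_lit 3432529725) (nat_lit 76) (nat_lit 21845947158) (nat_lit 76) (nat_lit 13601006449) (nat_lit 13) (nat_lit 4) (nat_lit 14) (nat_lit 5) (nat_lit 14) (nat_lit 4) (nat_lit 423) (nat_lit 262) (nat_lit 215))) (XT.nd (nat_lit 78) (nat_lit 0) (nat_lit 0) (XT.lf (nat_lit 0) (nat_lit 13643559135) (nat_lit 76) (nat_lit 17285004875) (nat_lit 76) (nat_lit 8960332335) (nat_lit 13) (nat_lit 4) (nat_lit 14) (nat_lit 5) (nat_lit 14) (nat_lit 4) (nat_lit 424) (nat_lit 262) (nat_lit 214)) (XT.lf (nat_lit 0) (nat_lit 24063933627) (nat_lit 76) (nat_lit 12634123166) (nat_lit 76) (nat_lit 4232041082) (nat_lit 13) (nat_lit 4) (nat_lit 14) (nat_lit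 5) (nat_lit 14) (nat_lit 4) (nat_lit 425) (nat_lit 262) (nat_lit 213))))) (XT.nd (nat_lit 234) (nat_lit 76) (nat_lit 0) (XT.nd (nat_lit 78) (nat_lit 76) (nat_lit 0) (XT.lf (nat_lit 0) (nat_lit 576524851) (nat_lit 152) (nat_lit 7306891531) (nat_lit 76) (nat_lit 34120411759) (nat_lit 12) (nat_lit 5) (nat_lit 14) (nat_lit 5) (nat_lit 13) (nat_lit 4) (nat_lit 426) (nat_lit 262) (nat_lit 212)) (XT.nd (nat_lit 78) (nat_lit 0) (nat_lit 0) (XT.lf (nat_lit 0) (nat_lit 2452749424) (nat_lit 76) (nat_lit 2967424134) (nat_lit 152) (nat_lit 37689066093) (nat_lit 11) (nat_lit 5) (nat_lit 12) (nat_lit 5) (nat_lit 13) (nat_lit 4) (nat_lit 427) (nat_lit 262) (nat_lit 211)) (XT.lf (nat_lit 0) (nat_lit 10456188534) (nat_lit 152) (nat_lit 31703972835) (nat_lit 0) (nat_lit 2086243292) (nat_lit 11) (nat_lit 5) (nat_lit 13) (nat_lit 4) (nat_lit 11) (nat_lit 4) (nat_lit 428) (nat_lit 262) (nat_lit 210)))) (XT.nd (nat_lit 156) (nat_lit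 76) (nat_lit 0) (XT.nd (nat_lit 78) (nat_lit 0) (nat_lit 0) (XT.lf (nat_lit 0) (nat_lit 15626443510) (nat_lit 152) (nat_lit 22602024984) (nat_lit 0) (nat_lit 7189724115) (nat_lit 11) (nat_lit 5) (nat_lit 13) (nat_lit 4) (nat_lit 11) (nat_lit 4) (nat_lit 429) (nat_lit 262) (nat_lit 209)) (XT.lf (nat_lit 0) (nat_lit 20906931489) (nat_lit 152) (nat_lit 13314168822) (nat_lit 0) (nat_lit 12405382819) (nat_lit 11) (nat_lit 5) (nat_lit 13) (nat_lit 4) (nat_lit 11) (nat_lit 4) (nat_lit 430) (nat_lit 262) (nat_lit 208))) (XT.nd (nat_lit 78) (nat_lit 76) (nat_lit 0) (XT.lf (nat_lit 0) (nat_lit 26302266490) (nat_lit 152) (nat_lit 3832288744) (nat_lit 0) (nat_lit 17737776777) (nat_lit 11) (nat_lit 5) (nat_lit 13) (nat_lit 4) (nat_lit 11) (nat_lit 4) (nat_lit 431) (nat_lit 262) (nat_lit 207)) (XT.lf (nat_lit 0) (nat_lit 5968364677) (nat_lit 76) (nat_lit 25906169779) (nat_lit 76) (nat_lit 17280572257) (nat_lit 10) (nat_lit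 4) (nat_lit 11) (nat_lit 5) (nat_lit 11) (nat_lit 4) (nat_lit 432) (nat_lit 262) (nat_lit 206))))))))
noncomputable def xc27 : XT := (XT.nd (nat_lit 42978) (nat_lit 0) (nat_lit 1064) (XT.nd (nat_lit 1014) (nat_lit 76) (nat_lit 0) (XT.nd (nat_lit 468) (nat_lit 76) (nat_lit 0) (XT.nd (nat_lit 234) (nat_lit 152) (nat_lit 0) (XT.nd (nat_lit 78) (nat_lit 0) (nat_lit 0) (XT.lf (nat_lit 0) (nat_lit 16060253879) (nat_lit 76) (nat_lit 21550566615) (nat_lit 76) (nat_lit 12865641123) (nat_lit 10) (nat_lit 4) (nat_lit 11) (nat_lit 5) (nat_lit 11) (nat_lit 4) (nat_lit 433) (nat_lit 262) (nat_lit 205)) (XT.nd (nat_lit 78) (nat_lit 0) (nat_lit 0) (XT.lf (nat_lit 0) (nat_lit 26375926959) (nat_lit 76) (nat_lit 17102638480) (nat_lit 76) (nat_lit 8360113017) (nat_lit 10) (nat_lit 4) (nat_lit 11) (nat_lit 5) (nat_lit 11) (nat_lit 4) (nat_lit 434) (nat_lit 262) (nat_lit 204)) (XT.lf (nat_lit 0) (nat_lit 36924397610) (nat_lit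 76) (nat_lit 12558498834) (nat_lit 76) (nat_lit 3760051069) (nat_lit 10) (nat_lit 4) (nat_lit 11) (nat_lit 5) (nat_lit 11) (nat_lit 4) (nat_lit 435) (nat_lit 262) (nat_lit 203)))) (XT.nd (nat_lit 78) (nat_lit 76) (nat_lit 0) (XT.lf (nat_lit 0) (nat_lit 920249424) (nat_lit 152) (nat_lit 6984634930) (nat_lit 76) (nat_lit 46785340803) (nat_lit 9) (nat_lit 5) (nat_lit 11) (nat_lit 5) (nat_lit 10) (nat_lit 4) (nat_lit 436) (nat_lit 262) (nat_lit 202)) (XT.nd (nat_lit 78) (nat_lit 0) (nat_lit 0) (XT.lf (nat_lit 0) (nat_lit 2569182479) (nat_lit 76) (nat_lit 3083347507) (nat_lit 152) (nat_lit 50527662093) (nat_lit 8) (nat_lit 5) (nat_lit 9) (nat_lit 5) (nat_lit 10) (nat_lit 4) (nat_lit 437) (nat_lit 262) (nat_lit 201)) (XT.lf (nat_lit 0) (nat_lit 10578616000) (nat_lit 152) (nat_lit 45251830463) (nat_lit 0) (nat_lit 1882858502) (nat_lit 8) (nat_lit 5) (nat_lit 10) (nat_lit 4) (nat_lit 8) (nat_lit 4) (nat_lit 438)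 (nat_lit 262) (nat_lit 200))))) (XT.nd (nat_lit 234) (nat_lit 76) (nat_lit 0) (XT.nd (nat_lit 78) (nat_lit 0) (nat_lit 0) (XT.lf (nat_lit 0) (nat_lit 15646613390) (nat_lit 152) (nat_lit 36743359164) (nat_lit 0) (nat_lit 6902616823) (nat_lit 8) (nat_lit 5) (nat_lit 10) (nat_lit 4) (nat_lit 8) (nat_lit 4) (nat_lit 439) (nat_lit 262) (nat_lit 199)) (XT.nd (nat_lit 78) (nat_lit 0) (nat_lit 0) (XT.lf (nat_lit 0) (nat_lit 20831311482) (nat_lit 152) (nat_lit 28048522096) (nat_lit 0) (nat_lit 12040480868) (nat_lit 8) (nat_lit 5) (nat_lit 10) (nat_lit 4) (nat_lit 8) (nat_lit 4) (nat_lit 440) (nat_lit 262) (nat_lit 198)) (XT.lf (nat_lit 0) (nat_lit 26137240594) (nat_lit 152) (nat_lit 19159721828) (nat_lit 0) (nat_lit 17300940032) (nat_lit 8) (nat_lit 5) (nat_lit 10) (nat_lit 4) (nat_lit 8) (nat_lit 4) (nat_lit 441) (nat_lit 262) (nat_lit 197)))) (XT.nd (nat_lit 156) (nat_lit 76) (nat_lit 0) (XT.nd (nat_lit 78) (nat_lit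 0) (nat_lit 0) (XT.lf (nat_lit 0) (nat_lit 31569036976) (nat_lit 152) (nat_lit 10069191447) (nat_lit 0) (nat_lit 22688590832) (nat_lit 8) (nat_lit 5) (nat_lit 10) (nat_lit 4) (nat_lit 8) (nat_lit 4) (nat_lit 442) (nat_lit 262) (nat_lit 196)) (XT.lf (nat_lit 0) (nat_lit 37131446857) (nat_lit 152) (nat_lit 768987771) (nat_lit 0) (nat_lit 28208140925) (nat_lit 8) (nat_lit 5) (nat_lit 10) (nat_lit 4) (nat_lit 8) (nat_lit 4) (nat_lit 443) (nat_lit 262) (nat_lit 195))) (XT.nd (nat_lit 78) (nat_lit 0) (nat_lit 0) (XT.lf (nat_lit 0) (nat_lit 8923138155) (nat_lit 76) (nat_lit 33991967103) (nat_lit 76) (nat_lit 25027049726) (nat_lit 7) (nat_lit 4) (nat_lit 8) (nat_lit 5) (nat_lit 8) (nat_lit 4) (nat_lit 444) (nat_lit 262) (nat_lit 194)) (XT.lf (nat_lit 0) (nat_lit 18861184995) (nat_lit 76) (nat_lit 29987787178) (nat_lit 76) (nat_lit 20982470341) (nat_lit 7) (nat_lit 4) (nat_lit 8) (nat_lit 5) (nat_lit 8) (nat_lit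 4) (nat_lit 445) (nat_lit 262) (nat_lit 193)))))) (XT.nd (nat_lit 41418) (nat_lit 0) (nat_lit 2964) (XT.nd (nat_lit 234) (nat_lit 76) (nat_lit 0) (XT.nd (nat_lit 78) (nat_lit 0) (nat_lit 0) (XT.lf (nat_lit 0) (nat_lit 29038532112) (nat_lit 76) (nat_lit 25892161326) (nat_lit 76) (nat_lit 16847621712) (nat_lit 7) (nat_lit 4) (nat_lit 8) (nat_lit 5) (nat_lit 8) (nat_lit 4) (nat_lit 446) (nat_lit 262) (nat_lit 192)) (XT.nd (nat_lit 78) (nat_lit 0) (nat_lit 0) (XT.lf (nat_lit 0) (nat_lit 39464072335) (nat_lit 76) (nat_lit 21701510844) (nat_lit 76) (nat_lit 12618890863) (nat_lit 7) (nat_lit 4) (nat_lit 8) (nat_lit 5) (nat_lit 8) (nat_lit 4) (nat_lit 447) (nat_lit 262) (nat_lit 191)) (XT.lf (nat_lit 0) (nat_lit 50146915359) (nat_lit 76) (nat_lit 17412173998) (nat_lit 76) (nat_lit 8292582789) (nat_lit 7) (nat_lit 4) (nat_lit 8) (nat_lit 5) (nat_lit 8) (nat_lit 4) (nat_lit 448) (nat_lit 262) (nat_lit 190)))) (XT.nd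 (nat_lit 41028) (nat_lit 0) (nat_lit 3648) (XT.nd (nat_lit 78) (nat_lit 76) (nat_lit 0) (XT.lf (nat_lit 0) (nat_lit 61096395706) (nat_lit 76) (nat_lit 13020402826) (nat_lit 76) (nat_lit 3864917218) (nat_lit 7) (nat_lit 4) (nat_lit 8) (nat_lit 5) (nat_lit 8) (nat_lit 4) (nat_lit 449) (nat_lit 262) (nat_lit 189)) (XT.lf (nat_lit 0) (nat_lit 654940089) (nat_lit 152) (nat_lit 7860806155) (nat_lit 76) (nat_lit 71660527185) (nat_lit 6) (nat_lit 5) (nat_lit 8) (nat_lit 5) (nat_lit 7) (nat_lit 4) (nat_lit 450) (nat_lit 262) (nat_lit 188))) (XT.nd (nat_lit 78) (nat_lit 228) (nat_lit 0) (XT.lf (nat_lit 0) (nat_lit 2488174277) (nat_lit 152) (nat_lit 2104608912) (nat_lit 152) (nat_lit 2104608912) (nat_lit 57) (nat_lit 4) (nat_lit 59) (nat_lit 5) (nat_lit 59) (nat_lit 4) (nat_lit 374) (nat_lit 263) (nat_lit 263)) (XT.lf (nat_lit 0) (nat_lit 919384208) (nat_lit 228) (nat_lit 12245022614) (nat_lit 0) (nat_lit 463317897)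 (nat_lit 54) (nat_lit 5) (nat_lit 57) (nat_lit 4) (nat_lit 54) (nat_lit 4) (nat_lit 375) (nat_lit 263) (nat_lit 262))))) (XT.nd (nat_lit 234) (nat_lit 304) (nat_lit 0) (XT.nd (nat_lit 78) (nat_lit 380) (nat_lit 0) (XT.lf (nat_lit 0) (nat_lit 6133327655) (nat_lit 228) (nat_lit 2498132880) (nat_lit 0) (nat_lit 5234478518) (nat_lit 54) (nat_lit 5) (nat_lit 57) (nat_lit 4) (nat_lit 54) (nat_lit 4) (nat_lit 376) (nat_lit 263) (nat_lit 261)) (XT.nd (nat_lit 78) (nat_lit 228) (nat_lit 0) (XT.lf (nat_lit 0) (nat_lit 7493920349) (nat_lit 152) (nat_lit 3973608762) (nat_lit 152) (nat_lit 2644873385) (nat_lit 52) (nat_lit 4) (nat_lit 54) (nat_lit 5) (nat_lit 54) (nat_lit 4) (nat_lit 377) (nat_lit 263) (nat_lit 260)) (XT.lf (nat_lit 0) (nat_lit 2502161508) (nat_lit 228) (nat_lit 11057729174) (nat_lit 0) (nat_lit 806918151) (nat_lit 49) (nat_lit 5) (nat_lit 52) (nat_lit 4) (nat_lit 49) (nat_lit 4) (nat_lit 378) (nat_lit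 263) (nat_lit 259)))) (XT.nd (nat_lit 156) (nat_lit 152) (nat_lit 0) (XT.nd (nat_lit 78) (nat_lit 152) (nat_lit 0) (XT.lf (nat_lit 0) (nat_lit 7749805764) (nat_lit 228) (nat_lit 1217136012) (nat_lit 0) (nat_lit 5661155601) (nat_lit 49) (nat_lit 5) (nat_lit 52) (nat_lit 4) (nat_lit 49) (nat_lit 4) (nat_lit 379) (nat_lit 263) (nat_lit 258)) (XT.lf (nat_lit 0) (nat_lit 8903835271) (nat_lit 152) (nat_lit 4232283262) (nat_lit 152) (nat_lit 1761684743) (nat_lit 47) (nat_lit 4) (nat_lit 49) (nat_lit 5) (nat_lit 49) (nat_lit 4) (nat_lit 380) (nat_lit 263) (nat_lit 257))) (XT.nd (nat_lit 78) (nat_lit 0) (nat_lit 0) (XT.lf (nat_lit 0) (nat_lit 3393229692) (nat_lit 152) (nat_lit 11148208340) (nat_lit 0) (nat_lit 634567396) (nat_lit 45) (nat_lit 5) (nat_lit 47) (nat_lit 4) (nat_lit 45) (nat_lit 4) (nat_lit 381) (nat_lit 263) (nat_lit 256)) (XT.lf (nat_lit 0) (nat_lit 8666700091) (nat_lit 152) (nat_lit 1236864367) (nat_lit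 0) (nat_lit 5558500943) (nat_lit 45) (nat_lit 5) (nat_lit 47) (nat_lit 4) (nat_lit 45) (nat_lit 4) (nat_lit 382) (nat_lit 263) (nat_lit 255))))))) (XT.nd (nat_lit 1014) (nat_lit 684) (nat_lit 0) (XT.nd (nat_lit 468) (nat_lit 608) (nat_lit 0) (XT.nd (nat_lit 234) (nat_lit 304) (nat_lit 0) (XT.nd (nat_lit 78) (nat_lit 152) (nat_lit 0) (XT.lf (nat_lit 0) (nat_lit 8962965640) (nat_lit 152) (nat_lit 5120873508) (nat_lit 152) (nat_lit 1673318193) (nat_lit 43) (nat_lit 4) (nat_lit 45) (nat_lit 5) (nat_lit 45) (nat_lit 4) (nat_lit 383) (nat_lit 263) (nat_lit 254)) (XT.nd (nat_lit 78) (nat_lit 0) (nat_lit 0) (XT.lf (nat_lit 0) (nat_lit 3278678376) (nat_lit 76) (nat_lit 197038716) (nat_lit 152) (nat_lit 12586050721) (nat_lit 41) (nat_lit 5) (nat_lit 42) (nat_lit 5) (nat_lit 43) (nat_lit 4) (nat_lit 384) (nat_lit 263) (nat_lit 253)) (XT.lf (nat_lit 0) (nat_lit 8761607753) (nat_lit 152) (nat_lit 2828912270) (nat_lit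 0) (nat_lit 4784031970) (nat_lit 41) (nat_lit 5) (nat_lit 43) (nat_lit 4) (nat_lit 41) (nat_lit 4) (nat_lit 385) (nat_lit 263) (nat_lit 252)))) (XT.nd (nat_lit 78) (nat_lit 152) (nat_lit 0) (XT.lf (nat_lit 0) (nat_lit 7387098763) (nat_lit 152) (nat_lit 6794725172) (nat_lit 152) (nat_lit 2515635830) (nat_lit 39) (nat_lit 4) (nat_lit 41) (nat_lit 5) (nat_lit 41) (nat_lit 4) (nat_lit 386) (nat_lit 263) (nat_lit 251)) (XT.nd (nat_lit 78) (nat_lit 0) (nat_lit 0) (XT.lf (nat_lit 0) (nat_lit 747215830) (nat_lit 76) (nat_lit 1872999333) (nat_lit 152) (nat_lit 14410893272) (nat_lit 37) (nat_lit 5) (nat_lit 38) (nat_lit 5) (nat_lit 39) (nat_lit 4) (nat_lit 387) (nat_lit 263) (nat_lit 250)) (XT.lf (nat_lit 0) (nat_lit 7888543501) (nat_lit 152) (nat_lit 6310663644) (nat_lit 0) (nat_lit 3173954763) (nat_lit 37) (nat_lit 5) (nat_lit 39) (nat_lit 4) (nat_lit 37) (nat_lit 4) (nat_lit 388) (nat_lit 263) (nat_lit 249)))))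 (XT.nd (nat_lit 234) (nat_lit 304) (nat_lit 0) (XT.nd (nat_lit 78) (nat_lit 152) (nat_lit 0) (XT.lf (nat_lit 0) (nat_lit 3843928344) (nat_lit 152) (nat_lit 9432595668) (nat_lit 152) (nat_lit 4450116038) (nat_lit 35) (nat_lit 4) (nat_lit 37) (nat_lit 5) (nat_lit 37) (nat_lit 4) (nat_lit 389) (nat_lit 263) (nat_lit 248)) (XT.nd (nat_lit 78) (nat_lit 76) (nat_lit 0) (XT.lf (nat_lit 0) (nat_lit 691680658) (nat_lit 228) (nat_lit 3838456137) (nat_lit 76) (nat_lit 13561265859) (nat_lit 34) (nat_lit 5) (nat_lit 37) (nat_lit 5) (nat_lit 35) (nat_lit 4) (nat_lit 390) (nat_lit 263) (nat_lit 247)) (XT.lf (nat_lit 0) (nat_lit 5874261867) (nat_lit 152) (nat_lit 12053023408) (nat_lit 0) (nat_lit 539232029) (nat_lit 33) (nat_lit 5) (nat_lit 35) (nat_lit 4) (nat_lit 33) (nat_lit 4) (nat_lit 391) (nat_lit 263) (nat_lit 246)))) (XT.nd (nat_lit 156) (nat_lit 152) (nat_lit 0) (XT.nd (nat_lit 78) (nat_lit 152) (nat_lit 0) (XT.lf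 (nat_lit 0) (nat_lit 11205593523) (nat_lit 152) (nat_lit 2014957475) (nat_lit 0) (nat_lit 5632546097) (nat_lit 33) (nat_lit 5) (nat_lit 35) (nat_lit 4) (nat_lit 33) (nat_lit 4) (nat_lit 392) (nat_lit 263) (nat_lit 245)) (XT.lf (nat_lit 0) (nat_lit 8321897604) (nat_lit 152) (nat_lit 8366880675) (nat_lit 152) (nat_lit 2562748212) (nat_lit 31) (nat_lit 4) (nat_lit 33) (nat_lit 5) (nat_lit 33) (nat_lit 4) (nat_lit 393) (nat_lit 263) (nat_lit 244))) (XT.nd (nat_lit 78) (nat_lit 76) (nat_lit 0) (XT.lf (nat_lit 0) (nat_lit 2554952307) (nat_lit 228) (nat_lit 841933681) (nat_lit 76) (nat_lit 16266282774) (nat_lit 30) (nat_lit 5) (nat_lit 33) (nat_lit 5) (nat_lit 31) (nat_lit 4) (nat_lit 394) (nat_lit 263) (nat_lit 243)) (XT.lf (nat_lit 0) (nat_lit 7798071478) (nat_lit 152) (nat_lit 10553938448) (nat_lit 0) (nat_lit 1733696064) (nat_lit 29) (nat_lit 5) (nat_lit 31) (nat_lit 4) (nat_lit 29) (nat_lit 4) (nat_lit 395)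 (nat_lit 263) (nat_lit 242)))))) (XT.nd (nat_lit 546) (nat_lit 304) (nat_lit 0) (XT.nd (nat_lit 234) (nat_lit 228) (nat_lit 0) (XT.nd (nat_lit 78) (nat_lit 152) (nat_lit 0) (XT.lf (nat_lit 0) (nat_lit 13155559976) (nat_lit 152) (nat_lit 480787120) (nat_lit 0) (nat_lit 6885868499) (nat_lit 29) (nat_lit 5) (nat_lit 31) (nat_lit 4) (nat_lit 29) (nat_lit 4) (nat_lit 396) (nat_lit 263) (nat_lit 241)) (XT.nd (nat_lit 78) (nat_lit 76) (nat_lit 0) (XT.lf (nat_lit 0) (nat_lit 9932707125) (nat_lit 76) (nat_lit 8753882310) (nat_lit 76) (nat_lit 2284854851) (nat_lit 28) (nat_lit 4) (nat_lit 29) (nat_lit 5) (nat_lit 29) (nat_lit 4) (nat_lit 397) (nat_lit 263) (nat_lit 240)) (XT.lf (nat_lit 0) (nat_lit 2814195377) (nat_lit 152) (nat_lit 949740923) (nat_lit 76) (nat_lit 17671700338) (nat_lit 27) (nat_lit 5) (nat_lit 29) (nat_lit 5) (nat_lit 28) (nat_lit 4) (nat_lit 398) (nat_lit 263) (nat_lit 239)))) (XT.nd (nat_lit 156)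 (nat_lit 152) (nat_lit 0) (XT.nd (nat_lit 78) (nat_lit 0) (nat_lit 0) (XT.lf (nat_lit 0) (nat_lit 8044671411) (nat_lit 152) (nat_lit 12473932650) (nat_lit 0) (nat_lit 1393748284) (nat_lit 26) (nat_lit 5) (nat_lit 28) (nat_lit 4) (nat_lit 26) (nat_lit 4) (nat_lit 399) (nat_lit 263) (nat_lit 238)) (XT.lf (nat_lit 0) (nat_lit 13399080951) (nat_lit 152) (nat_lit 2434234971) (nat_lit 0) (nat_lit 6571050385) (nat_lit 26) (nat_lit 5) (nat_lit 28) (nat_lit 4) (nat_lit 26) (nat_lit 4) (nat_lit 400) (nat_lit 263) (nat_lit 237))) (XT.nd (nat_lit 78) (nat_lit 76) (nat_lit 0) (XT.lf (nat_lit 0) (nat_lit 7914011297) (nat_lit 76) (nat_lit 10998580995) (nat_lit 76) (nat_lit 3998601459) (nat_lit 25) (nat_lit 4) (nat_lit 26) (nat_lit 5) (nat_lit 26) (nat_lit 4) (nat_lit 401) (nat_lit 263) (nat_lit 236)) (XT.lf (nat_lit 0) (nat_lit 1082994042) (nat_lit 152) (nat_lit 4968442375) (nat_lit 76) (nat_lit 17383042912) (nat_lit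 24) (nat_lit 5) (nat_lit 26) (nat_lit 5) (nat_lit 25) (nat_lit 4) (nat_lit 402) (nat_lit 263) (nat_lit 235))))) (XT.nd (nat_lit 234) (nat_lit 152) (nat_lit 0) (XT.nd (nat_lit 78) (nat_lit 76) (nat_lit 0) (XT.lf (nat_lit 0) (nat_lit 5281741743) (nat_lit 76) (nat_lit 930445656) (nat_lit 152) (nat_lit 17760829377) (nat_lit 23) (nat_lit 5) (nat_lit 24) (nat_lit 5) (nat_lit 25) (nat_lit 4) (nat_lit 403) (nat_lit 263) (nat_lit 234)) (XT.nd (nat_lit 78) (nat_lit 76) (nat_lit 0) (XT.lf (nat_lit 0) (nat_lit 11512617284) (nat_lit 152) (nat_lit 8770268436) (nat_lit 0) (nat_lit 4244310154) (nat_lit 23) (nat_lit 5) (nat_lit 25) (nat_lit 4) (nat_lit 23) (nat_lit 4) (nat_lit 404) (nat_lit 263) (nat_lit 233)) (XT.lf (nat_lit 0) (nat_lit 1326113662) (nat_lit 76) (nat_lit 15595026138) (nat_lit 76) (nat_lit 8178394317) (nat_lit 22) (nat_lit 4) (nat_lit 23) (nat_lit 5) (nat_lit 23) (nat_lit 4) (nat_lit 405) (nat_lit 263) (nat_lit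 232)))) (XT.nd (nat_lit 156) (nat_lit 76) (nat_lit 0) (XT.nd (nat_lit 78) (nat_lit 76) (nat_lit 0) (XT.lf (nat_lit 0) (nat_lit 11767611469) (nat_lit 76) (nat_lit 10740789457) (nat_lit 76) (nat_lit 3180153081) (nat_lit 22) (nat_lit 4) (nat_lit 23) (nat_lit 5) (nat_lit 23) (nat_lit 4) (nat_lit 406) (nat_lit 263) (nat_lit 231)) (XT.lf (nat_lit 0) (nat_lit 1858953185) (nat_lit 152) (nat_lit 3926771656) (nat_lit 76) (nat_lit 20511078117) (nat_lit 21) (nat_lit 5) (nat_lit 23) (nat_lit 5) (nat_lit 22) (nat_lit 4) (nat_lit 407) (nat_lit 263) (nat_lit 230))) (XT.nd (nat_lit 78) (nat_lit 0) (nat_lit 0) (XT.lf (nat_lit 0) (nat_lit 6328191047) (nat_lit 76) (nat_lit 649333964) (nat_lit 152) (nat_lit 19945068935) (nat_lit 20) (nat_lit 5) (nat_lit 21) (nat_lit 5) (nat_lit 22) (nat_lit 4) (nat_lit 408) (nat_lit 263) (nat_lit 229)) (XT.lf (nat_lit 0) (nat_lit 12265849316) (nat_lit 152) (nat_lit 10770872012) (nat_lit 0)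 (nat_lit 4529956796) (nat_lit 20) (nat_lit 5) (nat_lit 22) (nat_lit 4) (nat_lit 20) (nat_lit 4) (nat_lit 409) (nat_lit 263) (nat_lit 228))))))))
noncomputable def xc28 : XT := (XT.nd (nat_lit 2106) (nat_lit 228) (nat_lit 0) (XT.nd (nat_lit 1014) (nat_lit 304) (nat_lit 0) (XT.nd (nat_lit 468) (nat_lit 228) (nat_lit 0) (XT.nd (nat_lit 234) (nat_lit 152) (nat_lit 0) (XT.nd (nat_lit 78) (nat_lit 76) (nat_lit 0) (XT.lf (nat_lit 0) (nat_lit 17652782947) (nat_lit 152) (nat_lit 786437420) (nat_lit 0) (nat_lit 9792670833) (nat_lit 20) (nat_lit 5) (nat_lit 22) (nat_lit 4) (nat_lit 20) (nat_lit 4) (nat_lit 410) (nat_lit 263) (nat_lit 227)) (XT.nd (nat_lit 78) (nat_lit 0) (nat_lit 0) (XT.lf (nat_lit 0) (nat_lit 9560425265) (nat_lit 76) (nat_lit 13668266532) (nat_lit 76) (nat_lit 5687552870) (nat_lit 19) (nat_lit 4) (nat_lit 20) (nat_lit 5) (nat_lit 20) (nat_lit 4) (nat_lit 411) (nat_lit 263) (nat_lit 226)) (XT.lf (nat_lit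 0) (nat_lit 20111364139) (nat_lit 76) (nat_lit 8804624346) (nat_lit 76) (nat_lit 706821803) (nat_lit 19) (nat_lit 4) (nat_lit 20) (nat_lit 5) (nat_lit 20) (nat_lit 4) (nat_lit 412) (nat_lit 263) (nat_lit 225)))) (XT.nd (nat_lit 78) (nat_lit 0) (nat_lit 0) (XT.lf (nat_lit 0) (nat_lit 474870357) (nat_lit 76) (nat_lit 3804120492) (nat_lit 152) (nat_lit 26072051778) (nat_lit 17) (nat_lit 5) (nat_lit 18) (nat_lit 5) (nat_lit 19) (nat_lit 4) (nat_lit 413) (nat_lit 263) (nat_lit 224)) (XT.nd (nat_lit 78) (nat_lit 0) (nat_lit 0) (XT.lf (nat_lit 0) (nat_lit 9447652978) (nat_lit 152) (nat_lit 20283650673) (nat_lit 0) (nat_lit 1368188348) (nat_lit 17) (nat_lit 5) (nat_lit 19) (nat_lit 4) (nat_lit 17) (nat_lit 4) (nat_lit 414) (nat_lit 263) (nat_lit 223)) (XT.lf (nat_lit 0) (nat_lit 14748399910) (nat_lit 152) (nat_lit 10557785192) (nat_lit 0) (nat_lit 6564903325) (nat_lit 17) (nat_lit 5) (nat_lit 19) (nat_lit 4) (nat_lit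 17) (nat_lit 4) (nat_lit 415) (nat_lit 263) (nat_lit 222))))) (XT.nd (nat_lit 234) (nat_lit 152) (nat_lit 0) (XT.nd (nat_lit 78) (nat_lit 76) (nat_lit 0) (XT.lf (nat_lit 0) (nat_lit 20149295833) (nat_lit 152) (nat_lit 653509966) (nat_lit 0) (nat_lit 11864797351) (nat_lit 17) (nat_lit 5) (nat_lit 19) (nat_lit 4) (nat_lit 17) (nat_lit 4) (nat_lit 416) (nat_lit 263) (nat_lit 221)) (XT.nd (nat_lit 78) (nat_lit 0) (nat_lit 0) (XT.lf (nat_lit 0) (nat_lit 9625660532) (nat_lit 76) (nat_lit 16121927181) (nat_lit 76) (nat_lit 7739368604) (nat_lit 16) (nat_lit 4) (nat_lit 17) (nat_lit 5) (nat_lit 17) (nat_lit 4) (nat_lit 417) (nat_lit 263) (nat_lit 220)) (XT.lf (nat_lit 0) (nat_lit 20117617231) (nat_lit 76) (nat_lit 11346268813) (nat_lit 76) (nat_lit 2868506261) (nat_lit 16) (nat_lit 4) (nat_lit 17) (nat_lit 5) (nat_lit 17) (nat_lit 4) (nat_lit 418) (nat_lit 263) (nat_lit 219)))) (XT.nd (nat_lit 156) (nat_lit 0) (nat_lit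 0) (XT.nd (nat_lit 78) (nat_lit 76) (nat_lit 0) (XT.lf (nat_lit 0) (nat_lit 2051115416) (nat_lit 152) (nat_lit 4406429301) (nat_lit 76) (nat_lit 28746694069) (nat_lit 15) (nat_lit 5) (nat_lit 17) (nat_lit 5) (nat_lit 16) (nat_lit 4) (nat_lit 419) (nat_lit 263) (nat_lit 218)) (XT.lf (nat_lit 0) (nat_lit 5674695628) (nat_lit 76) (nat_lit 1386697525) (nat_lit 152) (nat_lit 29039977451) (nat_lit 14) (nat_lit 5) (nat_lit 15) (nat_lit 5) (nat_lit 16) (nat_lit 4) (nat_lit 420) (nat_lit 263) (nat_lit 217))) (XT.nd (nat_lit 78) (nat_lit 0) (nat_lit 0) (XT.lf (nat_lit 0) (nat_lit 12250069135) (nat_lit 152) (nat_lit 21016727854) (nat_lit 0) (nat_lit 3757780206) (nat_lit 14) (nat_lit 5) (nat_lit 16) (nat_lit 4) (nat_lit 14) (nat_lit 4) (nat_lit 421) (nat_lit 263) (nat_lit 216)) (XT.lf (nat_lit 0) (nat_lit 17555976276) (nat_lit 152) (nat_lit 11439096434) (nat_lit 0) (nat_lit 8981563561) (nat_lit 14) (nat_lit 5) (nat_lit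 16) (nat_lit 4) (nat_lit 14) (nat_lit 4) (nat_lit 422) (nat_lit 263) (nat_lit 215)))))) (XT.nd (nat_lit 546) (nat_lit 76) (nat_lit 0) (XT.nd (nat_lit 234) (nat_lit 152) (nat_lit 0) (XT.nd (nat_lit 78) (nat_lit 76) (nat_lit 0) (XT.lf (nat_lit 0) (nat_lit 22970421021) (nat_lit 152) (nat_lit 1672082126) (nat_lit 0) (nat_lit 14316276475) (nat_lit 14) (nat_lit 5) (nat_lit 16) (nat_lit 4) (nat_lit 14) (nat_lit 4) (nat_lit 423) (nat_lit 263) (nat_lit 214)) (XT.nd (nat_lit 78) (nat_lit 0) (nat_lit 0) (XT.lf (nat_lit 0) (nat_lit 8457893313) (nat_lit 76) (nat_lit 20121543567) (nat_lit 76) (nat_lit 11389989477) (nat_lit 13) (nat_lit 4) (nat_lit 14) (nat_lit 5) (nat_lit 14) (nat_lit 4) (nat_lit 424) (nat_lit 263) (nat_lit 213)) (XT.lf (nat_lit 0) (nat_lit 18831883090) (nat_lit 76) (nat_lit 15493087054) (nat_lit 76) (nat_lit 6686378067) (nat_lit 13) (nat_lit 4) (nat_lit 14) (nat_lit 5) (nat_lit 14) (nat_lit 4) (nat_lit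 425) (nat_lit 263) (nat_lit 212)))) (XT.nd (nat_lit 156) (nat_lit 76) (nat_lit 0) (XT.nd (nat_lit 78) (nat_lit 76) (nat_lit 0) (XT.lf (nat_lit 0) (nat_lit 29425674142) (nat_lit 76) (nat_lit 10769974077) (nat_lit 76) (nat_lit 1890299170) (nat_lit 13) (nat_lit 4) (nat_lit 14) (nat_lit 5) (nat_lit 14) (nat_lit 4) (nat_lit 426) (nat_lit 263) (nat_lit 211)) (XT.lf (nat_lit 0) (nat_lit 2943849582) (nat_lit 152) (nat_lit 2974500954) (nat_lit 76) (nat_lit 37274946488) (nat_lit 12) (nat_lit 5) (nat_lit 14) (nat_lit 5) (nat_lit 13) (nat_lit 4) (nat_lit 427) (nat_lit 263) (nat_lit 210))) (XT.nd (nat_lit 78) (nat_lit 0) (nat_lit 0) (XT.lf (nat_lit 0) (nat_lit 7033305726) (nat_lit 76) (nat_lit 874378367) (nat_lit 152) (nat_lit 36424944721) (nat_lit 11) (nat_lit 5) (nat_lit 12) (nat_lit 5) (nat_lit 13) (nat_lit 4) (nat_lit 428) (nat_lit 263) (nat_lit 209)) (XT.lf (nat_lit 0) (nat_lit 13047428272) (nat_lit 152) (nat_lit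 28231901273) (nat_lit 0) (nat_lit 4226003868) (nat_lit 11) (nat_lit 5) (nat_lit 13) (nat_lit 4) (nat_lit 11) (nat_lit 4) (nat_lit 429) (nat_lit 263) (nat_lit 208))))) (XT.nd (nat_lit 234) (nat_lit 0) (nat_lit 0) (XT.nd (nat_lit 78) (nat_lit 76) (nat_lit 0) (XT.lf (nat_lit 0) (nat_lit 18306454371) (nat_lit 152) (nat_lit 18985725785) (nat_lit 0) (nat_lit 9422088924) (nat_lit 11) (nat_lit 5) (nat_lit 13) (nat_lit 4) (nat_lit 11) (nat_lit 4) (nat_lit 430) (nat_lit 263) (nat_lit 207)) (XT.nd (nat_lit 78) (nat_lit 76) (nat_lit 0) (XT.lf (nat_lit 0) (nat_lit 23680952595) (nat_lit 152) (nat_lit 9544312382) (nat_lit 0) (nat_lit 14735479338) (nat_lit 11) (nat_lit 5) (nat_lit 13) (nat_lit 4) (nat_lit 11) (nat_lit 4) (nat_lit 431) (nat_lit 263) (nat_lit 206)) (XT.lf (nat_lit 0) (nat_lit 102590625) (nat_lit 76) (nat_lit 29074014645) (nat_lit 76) (nat_lit 20069213419) (nat_lit 10) (nat_lit 4) (nat_lit 11) (nat_lit 5)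 (nat_lit 11) (nat_lit 4) (nat_lit 432) (nat_lit 263) (nat_lit 205)))) (XT.nd (nat_lit 156) (nat_lit 0) (nat_lit 0) (XT.nd (nat_lit 78) (nat_lit 0) (nat_lit 0) (XT.lf (nat_lit 0) (nat_lit 10155576971) (nat_lit 76) (nat_lit 24737299720) (nat_lit 76) (nat_lit 15674898522) (nat_lit 10) (nat_lit 4) (nat_lit 11) (nat_lit 5) (nat_lit 11) (nat_lit 4) (nat_lit 433) (nat_lit 263) (nat_lit 204)) (XT.lf (nat_lit 0) (nat_lit 20433480287) (nat_lit 76) (nat_lit 20307709680) (nat_lit 76) (nat_lit 11189386180) (nat_lit 10) (nat_lit 4) (nat_lit 11) (nat_lit 5) (nat_lit 11) (nat_lit 4) (nat_lit 434) (nat_lit 263) (nat_lit 203))) (XT.nd (nat_lit 78) (nat_lit 0) (nat_lit 0) (XT.lf (nat_lit 0) (nat_lit 30945281263) (nat_lit 76) (nat_lit 15781374009) (nat_lit 76) (nat_lit 6608757013) (nat_lit 10) (nat_lit 4) (nat_lit 11) (nat_lit 5) (nat_lit 11) (nat_lit 4) (nat_lit 435) (nat_lit 263) (nat_lit 202)) (XT.lf (nat_lit 0) (nat_lit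 41700164971) (nat_lit 76) (nat_lit 11154337658) (nat_lit 76) (nat_lit 1929008529) (nat_lit 10) (nat_lit 4) (nat_lit 11) (nat_lit 5) (nat_lit 11) (nat_lit 4) (nat_lit 436) (nat_lit 263) (nat_lit 201))))))) (XT.nd (nat_lit 1014) (nat_lit 0) (nat_lit 0) (XT.nd (nat_lit 468) (nat_lit 76) (nat_lit 0) (XT.nd (nat_lit 234) (nat_lit 0) (nat_lit 0) (XT.nd (nat_lit 78) (nat_lit 76) (nat_lit 0) (XT.lf (nat_lit 0) (nat_lit 2798257560) (nat_lit 152) (nat_lit 3596043108) (nat_lit 76) (nat_lit 49881014404) (nat_lit 9) (nat_lit 5) (nat_lit 11) (nat_lit 5) (nat_lit 10) (nat_lit 4) (nat_lit 437) (nat_lit 263) (nat_lit 200)) (XT.nd (nat_lit 78) (nat_lit 0) (nat_lit 0) (XT.lf (nat_lit 0) (nat_lit 6209113030) (nat_lit 76) (nat_lit 1443746688) (nat_lit 152) (nat_lit 50157713744) (nat_lit 8) (nat_lit 5) (nat_lit 9) (nat_lit 5) (nat_lit 10) (nat_lit 4) (nat_lit 438) (nat_lit 263) (nat_lit 199)) (XT.lf (nat_lit 0) (nat_lit 12689570449)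 (nat_lit 152) (nat_lit 43113046114) (nat_lit 0) (nat_lit 3588180870) (nat_lit 8) (nat_lit 5) (nat_lit 10) (nat_lit 4) (nat_lit 8) (nat_lit 4) (nat_lit 439) (nat_lit 263) (nat_lit 198)))) (XT.nd (nat_lit 78) (nat_lit 0) (nat_lit 0) (XT.lf (nat_lit 0) (nat_lit 17857367101) (nat_lit 152) (nat_lit 34451155801) (nat_lit 0) (nat_lit 8710507573) (nat_lit 8) (nat_lit 5) (nat_lit 10) (nat_lit 4) (nat_lit 8) (nat_lit 4) (nat_lit 440) (nat_lit 263) (nat_lit 197)) (XT.nd (nat_lit 78) (nat_lit 0) (nat_lit 0) (XT.lf (nat_lit 0) (nat_lit 23146887049) (nat_lit 152) (nat_lit 25594342673) (nat_lit 0) (nat_lit 13955881940) (nat_lit 8) (nat_lit 5) (nat_lit 10) (nat_lit 4) (nat_lit 8) (nat_lit 4) (nat_lit 441) (nat_lit 263) (nat_lit 196)) (XT.lf (nat_lit 0) (nat_lit 28562752203) (nat_lit 152) (nat_lit 16534867768) (nat_lit 0) (nat_lit 19328887306) (nat_lit 8) (nat_lit 5) (nat_lit 10) (nat_lit 4) (nat_lit 8) (nat_lit 4) (nat_lit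 442) (nat_lit 263) (nat_lit 195))))) (XT.nd (nat_lit 234) (nat_lit 0) (nat_lit 0) (XT.nd (nat_lit 78) (nat_lit 76) (nat_lit 0) (XT.lf (nat_lit 0) (nat_lit 34109694873) (nat_lit 152) (nat_lit 7264815040) (nat_lit 0) (nat_lit 24834218531) (nat_lit 8) (nat_lit 5) (nat_lit 10) (nat_lit 4) (nat_lit 8) (nat_lit 4) (nat_lit 443) (nat_lit 263) (nat_lit 194)) (XT.nd (nat_lit 78) (nat_lit 0) (nat_lit 0) (XT.lf (nat_lit 0) (nat_lit 2268175836) (nat_lit 76) (nat_lit 37546189159) (nat_lit 76) (nat_lit 28230313356) (nat_lit 7) (nat_lit 4) (nat_lit 8) (nat_lit 5) (nat_lit 8) (nat_lit 4) (nat_lit 444) (nat_lit 263) (nat_lit 193)) (XT.lf (nat_lit 0) (nat_lit 12177236898) (nat_lit 76) (nat_lit 33556137052) (nat_lit 76) (nat_lit 24201038472) (nat_lit 7) (nat_lit 4) (nat_lit 8) (nat_lit 5) (nat_lit 8) (nat_lit 4) (nat_lit 445) (nat_lit 263) (nat_lit 192)))) (XT.nd (nat_lit 156) (nat_lit 0) (nat_lit 0) (XT.nd (nat_lit 78) (nat_lit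 0) (nat_lit 0) (XT.lf (nat_lit 0) (nat_lit 22326442485) (nat_lit 76) (nat_lit 29474227528) (nat_lit 76) (nat_lit 20081048582) (nat_lit 7) (nat_lit 4) (nat_lit 8) (nat_lit 5) (nat_lit 8) (nat_lit 4) (nat_lit 446) (nat_lit 263) (nat_lit 191)) (XT.lf (nat_lit 0) (nat_lit 32724660833) (nat_lit 76) (nat_lit 25296893869) (nat_lit 76) (nat_lit 15866743693) (nat_lit 7) (nat_lit 4) (nat_lit 8) (nat_lit 5) (nat_lit 8) (nat_lit 4) (nat_lit 447) (nat_lit 263) (nat_lit 190))) (XT.nd (nat_lit 78) (nat_lit 0) (nat_lit 0) (XT.lf (nat_lit 0) (nat_lit 43380977765) (nat_lit 76) (nat_lit 21020485978) (nat_lit 76) (nat_lit 11554441405) (nat_lit 7) (nat_lit 4) (nat_lit 8) (nat_lit 5) (nat_lit 8) (nat_lit 4) (nat_lit 448) (nat_lit 263) (nat_lit 189)) (XT.lf (nat_lit 0) (nat_lit 54304704625) (nat_lit 76) (nat_lit 16641267188) (nat_lit 76) (nat_lit 7140373686) (nat_lit 7) (nat_lit 4) (nat_lit 8) (nat_lit 5) (nat_lit 8) (nat_lit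 4) (nat_lit 449) (nat_lit 263) (nat_lit 188)))))) (XT.nd (nat_lit 41262) (nat_lit 0) (nat_lit 2584) (XT.nd (nat_lit 40950) (nat_lit 0) (nat_lit 3420) (XT.nd (nat_lit 40794) (nat_lit 0) (nat_lit 3952) (XT.lf (nat_lit 0) (nat_lit 65505386418) (nat_lit 76) (nat_lit 12155410998) (nat_lit 76) (nat_lit 2620683583) (nat_lit 7) (nat_lit 4) (nat_lit 8) (nat_lit 5) (nat_lit 8) (nat_lit 4) (nat_lit 450) (nat_lit 263) (nat_lit 187)) (XT.nd (nat_lit 78) (nat_lit 228) (nat_lit 0) (XT.lf (nat_lit 0) (nat_lit 5765169819) (nat_lit 152) (nat_lit 355043380) (nat_lit 152) (nat_lit 355043380) (nat_lit 62) (nat_lit 4) (nat_lit 64) (nat_lit 5) (nat_lit 64) (nat_lit 4) (nat_lit 372) (nat_lit 264) (nat_lit 264)) (XT.lf (nat_lit 0) (nat_lit 4403071562) (nat_lit 228) (nat_lit 4847370240) (nat_lit 0) (nat_lit 3919230812) (nat_lit 59) (nat_lit 5) (nat_lit 62) (nat_lit 4) (nat_lit 59) (nat_lit 4) (nat_lit 373) (nat_lit 264) (nat_lit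 263)))) (XT.nd (nat_lit 156) (nat_lit 152) (nat_lit 0) (XT.nd (nat_lit 78) (nat_lit 228) (nat_lit 0) (XT.lf (nat_lit 0) (nat_lit 4879563914) (nat_lit 152) (nat_lit 4735228698) (nat_lit 152) (nat_lit 3781639648) (nat_lit 57) (nat_lit 4) (nat_lit 59) (nat_lit 5) (nat_lit 59) (nat_lit 4) (nat_lit 374) (nat_lit 264) (nat_lit 262)) (XT.lf (nat_lit 0) (nat_lit 1185864925) (nat_lit 152) (nat_lit 92716496) (nat_lit 228) (nat_lit 12352478234) (nat_lit 54) (nat_lit 5) (nat_lit 56) (nat_lit 5) (nat_lit 57) (nat_lit 4) (nat_lit 375) (nat_lit 264) (nat_lit 261))) (XT.nd (nat_lit 78) (nat_lit 152) (nat_lit 0) (XT.lf (nat_lit 0) (nat_lit 6438334881) (nat_lit 228) (nat_lit 2792722407) (nat_lit 0) (nat_lit 4639851204) (nat_lit 54) (nat_lit 5) (nat_lit 57) (nat_lit 4) (nat_lit 54) (nat_lit 4) (nat_lit 376) (nat_lit 264) (nat_lit 260)) (XT.lf (nat_lit 0) (nat_lit 7099093655) (nat_lit 152) (nat_lit 4617901017) (nat_lit 152)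 (nat_lit 2402052059) (nat_lit 52) (nat_lit 4) (nat_lit 54) (nat_lit 5) (nat_lit 54) (nat_lit 4) (nat_lit 377) (nat_lit 264) (nat_lit 259))))) (XT.nd (nat_lit 234) (nat_lit 456) (nat_lit 0) (XT.nd (nat_lit 78) (nat_lit 152) (nat_lit 0) (XT.lf (nat_lit 0) (nat_lit 2677130204) (nat_lit 228) (nat_lit 11565740595) (nat_lit 0) (nat_lit 132413730) (nat_lit 49) (nat_lit 5) (nat_lit 52) (nat_lit 4) (nat_lit 49) (nat_lit 4) (nat_lit 378) (nat_lit 264) (nat_lit 258)) (XT.nd (nat_lit 78) (nat_lit 152) (nat_lit 0) (XT.lf (nat_lit 0) (nat_lit 7873370556) (nat_lit 228) (nat_lit 1818046728) (nat_lit 0) (nat_lit 4946705726) (nat_lit 49) (nat_lit 5) (nat_lit 52) (nat_lit 4) (nat_lit 49) (nat_lit 4) (nat_lit 379) (nat_lit 264) (nat_lit 257)) (XT.lf (nat_lit 0) (nat_lit 8198976737) (nat_lit 152) (nat_lit 5004024355) (nat_lit 152) (nat_lit 1706535878) (nat_lit 47) (nat_lit 4) (nat_lit 49) (nat_lit 5) (nat_lit 49) (nat_lit 4)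 (nat_lit 380) (nat_lit 264) (nat_lit 256)))) (XT.nd (nat_lit 156) (nat_lit 304) (nat_lit 0) (XT.nd (nat_lit 78) (nat_lit 0) (nat_lit 0) (XT.lf (nat_lit 0) (nat_lit 3210705528) (nat_lit 76) (nat_lit 172652581) (nat_lit 152) (nat_lit 11806290594) (nat_lit 45) (nat_lit 5) (nat_lit 46) (nat_lit 5) (nat_lit 47) (nat_lit 4) (nat_lit 381) (nat_lit 264) (nat_lit 255)) (XT.lf (nat_lit 0) (nat_lit 8605566421) (nat_lit 152) (nat_lit 2156458785) (nat_lit 0) (nat_lit 4715228280) (nat_lit 45) (nat_lit 5) (nat_lit 47) (nat_lit 4) (nat_lit 45) (nat_lit 4) (nat_lit 382) (nat_lit 264) (nat_lit 254))) (XT.nd (nat_lit 78) (nat_lit 152) (nat_lit 0) (XT.lf (nat_lit 0) (nat_lit 7935437707) (nat_lit 152) (nat_lit 6029232831) (nat_lit 152) (nat_lit 1809422683) (nat_lit 43) (nat_lit 4) (nat_lit 45) (nat_lit 5) (nat_lit 45) (nat_lit 4) (nat_lit 383) (nat_lit 264) (nat_lit 253)) (XT.lf (nat_lit 0) (nat_lit 2125026808) (nat_lit 76)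 (nat_lit 1158082892) (nat_lit 152) (nat_lit 12797414367) (nat_lit 41) (nat_lit 5) (nat_lit 42) (nat_lit 5) (nat_lit 43) (nat_lit 4) (nat_lit 384) (nat_lit 264) (nat_lit 252))))))))
noncomputable def xc29 : XT := (XT.nd (nat_lit 2106) (nat_lit 760) (nat_lit 0) (XT.nd (nat_lit 1014) (nat_lit 684) (nat_lit 0) (XT.nd (nat_lit 468) (nat_lit 456) (nat_lit 0) (XT.nd (nat_lit 234) (nat_lit 304) (nat_lit 0) (XT.nd (nat_lit 78) (nat_lit 228) (nat_lit 0) (XT.lf (nat_lit 0) (nat_lit 8511874832) (nat_lit 152) (nat_lit 4080254101) (nat_lit 0) (nat_lit 3802899251) (nat_lit 41) (nat_lit 5) (nat_lit 43) (nat_lit 4) (nat_lit 41) (nat_lit 4) (nat_lit 385) (nat_lit 264) (nat_lit 251)) (XT.nd (nat_lit 78) (nat_lit 76) (nat_lit 0) (XT.lf (nat_lit 0) (nat_lit 6023545053) (nat_lit 152) (nat_lit 7848946044) (nat_lit 152) (nat_lit 2847238852) (nat_lit 39) (nat_lit 4) (nat_lit 41) (nat_lit 5) (nat_lit 41) (nat_lit 4) (nat_lit 386)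 (nat_lit 264) (nat_lit 250)) (XT.lf (nat_lit 0) (nat_lit 2241486264) (nat_lit 228) (nat_lit 735695521) (nat_lit 76) (nat_lit 14077906010) (nat_lit 38) (nat_lit 5) (nat_lit 41) (nat_lit 5) (nat_lit 39) (nat_lit 4) (nat_lit 387) (nat_lit 264) (nat_lit 249)))) (XT.nd (nat_lit 78) (nat_lit 228) (nat_lit 0) (XT.lf (nat_lit 0) (nat_lit 7445663990) (nat_lit 152) (nat_lit 7907588203) (nat_lit 0) (nat_lit 2045819079) (nat_lit 37) (nat_lit 5) (nat_lit 39) (nat_lit 4) (nat_lit 37) (nat_lit 4) (nat_lit 388) (nat_lit 264) (nat_lit 248)) (XT.nd (nat_lit 78) (nat_lit 76) (nat_lit 0) (XT.lf (nat_lit 0) (nat_lit 2130202459) (nat_lit 152) (nat_lit 10642063398) (nat_lit 152) (nat_lit 4982130242) (nat_lit 35) (nat_lit 4) (nat_lit 37) (nat_lit 5) (nat_lit 37) (nat_lit 4) (nat_lit 389) (nat_lit 264) (nat_lit 247)) (XT.lf (nat_lit 0) (nat_lit 125212587) (nat_lit 228) (nat_lit 5658264460) (nat_lit 76) (nat_lit 12337185158) (nat_lit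 34) (nat_lit 5) (nat_lit 37) (nat_lit 5) (nat_lit 35) (nat_lit 4) (nat_lit 390) (nat_lit 264) (nat_lit 246))))) (XT.nd (nat_lit 234) (nat_lit 228) (nat_lit 0) (XT.nd (nat_lit 78) (nat_lit 152) (nat_lit 0) (XT.lf (nat_lit 0) (nat_lit 4480290614) (nat_lit 76) (nat_lit 760051624) (nat_lit 152) (nat_lit 13257463037) (nat_lit 33) (nat_lit 5) (nat_lit 34) (nat_lit 5) (nat_lit 35) (nat_lit 4) (nat_lit 391) (nat_lit 264) (nat_lit 245)) (XT.nd (nat_lit 78) (nat_lit 152) (nat_lit 0) (XT.lf (nat_lit 0) (nat_lit 10520977655) (nat_lit 152) (nat_lit 4053296848) (nat_lit 0) (nat_lit 4311636182) (nat_lit 33) (nat_lit 5) (nat_lit 35) (nat_lit 4) (nat_lit 33) (nat_lit 4) (nat_lit 392) (nat_lit 264) (nat_lit 244)) (XT.lf (nat_lit 0) (nat_lit 6162632710) (nat_lit 152) (nat_lit 9778647159) (nat_lit 152) (nat_lit 3344951282) (nat_lit 31) (nat_lit 4) (nat_lit 33) (nat_lit 5) (nat_lit 33) (nat_lit 4) (nat_lit 393) (nat_lit 264)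 (nat_lit 243)))) (XT.nd (nat_lit 156) (nat_lit 76) (nat_lit 0) (XT.nd (nat_lit 78) (nat_lit 76) (nat_lit 0) (XT.lf (nat_lit 0) (nat_lit 1745946752) (nat_lit 228) (nat_lit 3107243779) (nat_lit 76) (nat_lit 14846174774) (nat_lit 30) (nat_lit 5) (nat_lit 33) (nat_lit 5) (nat_lit 31) (nat_lit 4) (nat_lit 394) (nat_lit 264) (nat_lit 242)) (XT.lf (nat_lit 0) (nat_lit 6910695935) (nat_lit 152) (nat_lit 12965964250) (nat_lit 0) (nat_lit 247597652) (nat_lit 29) (nat_lit 5) (nat_lit 31) (nat_lit 4) (nat_lit 29) (nat_lit 4) (nat_lit 395) (nat_lit 264) (nat_lit 241))) (XT.nd (nat_lit 78) (nat_lit 76) (nat_lit 0) (XT.lf (nat_lit 0) (nat_lit 12227463767) (nat_lit 152) (nat_lit 2969499874) (nat_lit 0) (nat_lit 5365029502) (nat_lit 29) (nat_lit 5) (nat_lit 31) (nat_lit 4) (nat_lit 29) (nat_lit 4) (nat_lit 396) (nat_lit 264) (nat_lit 240)) (XT.lf (nat_lit 0) (nat_lit 7318528987) (nat_lit 76) (nat_lit 10375300533) (nat_lit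 76) (nat_lit 3319336187) (nat_lit 28) (nat_lit 4) (nat_lit 29) (nat_lit 5) (nat_lit 29) (nat_lit 4) (nat_lit 397) (nat_lit 264) (nat_lit 239)))))) (XT.nd (nat_lit 546) (nat_lit 304) (nat_lit 0) (XT.nd (nat_lit 234) (nat_lit 228) (nat_lit 0) (XT.nd (nat_lit 78) (nat_lit 76) (nat_lit 0) (XT.lf (nat_lit 0) (nat_lit 1760417870) (nat_lit 152) (nat_lit 3670209350) (nat_lit 76) (nat_lit 16048217376) (nat_lit 27) (nat_lit 5) (nat_lit 29) (nat_lit 5) (nat_lit 28) (nat_lit 4) (nat_lit 398) (nat_lit 264) (nat_lit 238)) (XT.nd (nat_lit 78) (nat_lit 0) (nat_lit 0) (XT.lf (nat_lit 0) (nat_lit 6604100322) (nat_lit 76) (nat_lit 307416234) (nat_lit 152) (nat_lit 15046428693) (nat_lit 26) (nat_lit 5) (nat_lit 27) (nat_lit 5) (nat_lit 28) (nat_lit 4) (nat_lit 399) (nat_lit 264) (nat_lit 237)) (XT.lf (nat_lit 0) (nat_lit 12224742057) (nat_lit 152) (nat_lit 5383642031) (nat_lit 0) (nat_lit 4842814166) (nat_lit 26) (nat_lit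 5) (nat_lit 28) (nat_lit 4) (nat_lit 26) (nat_lit 4) (nat_lit 400) (nat_lit 264) (nat_lit 236)))) (XT.nd (nat_lit 156) (nat_lit 152) (nat_lit 0) (XT.nd (nat_lit 78) (nat_lit 0) (nat_lit 0) (XT.lf (nat_lit 0) (nat_lit 4834165690) (nat_lit 76) (nat_lit 12837366845) (nat_lit 76) (nat_lit 5288498207) (nat_lit 25) (nat_lit 4) (nat_lit 26) (nat_lit 5) (nat_lit 26) (nat_lit 4) (nat_lit 401) (nat_lit 264) (nat_lit 235)) (XT.lf (nat_lit 0) (nat_lit 15327477404) (nat_lit 76) (nat_lit 7934104458) (nat_lit 76) (nat_lit 223157425) (nat_lit 25) (nat_lit 4) (nat_lit 26) (nat_lit 5) (nat_lit 26) (nat_lit 4) (nat_lit 402) (nat_lit 264) (nat_lit 234))) (XT.nd (nat_lit 78) (nat_lit 0) (nat_lit 0) (XT.lf (nat_lit 0) (nat_lit 1961945339) (nat_lit 76) (nat_lit 2880542364) (nat_lit 152) (nat_lit 19182893597) (nat_lit 23) (nat_lit 5) (nat_lit 24) (nat_lit 5) (nat_lit 25) (nat_lit 4) (nat_lit 403) (nat_lit 264) (nat_lit 233)) (XT.lf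 (nat_lit 0) (nat_lit 10088270581) (nat_lit 152) (nat_lit 12192117151) (nat_lit 0) (nat_lit 2300815114) (nat_lit 23) (nat_lit 5) (nat_lit 25) (nat_lit 4) (nat_lit 23) (nat_lit 4) (nat_lit 404) (nat_lit 264) (nat_lit 232))))) (XT.nd (nat_lit 234) (nat_lit 152) (nat_lit 0) (XT.nd (nat_lit 78) (nat_lit 152) (nat_lit 0) (XT.lf (nat_lit 0) (nat_lit 15449189873) (nat_lit 152) (nat_lit 2188052411) (nat_lit 0) (nat_lit 7517729851) (nat_lit 23) (nat_lit 5) (nat_lit 25) (nat_lit 4) (nat_lit 23) (nat_lit 4) (nat_lit 405) (nat_lit 264) (nat_lit 231)) (XT.nd (nat_lit 78) (nat_lit 76) (nat_lit 0) (XT.lf (nat_lit 0) (nat_lit 8144110130) (nat_lit 76) (nat_lit 12836416380) (nat_lit 76) (nat_lit 4765146110) (nat_lit 22) (nat_lit 4) (nat_lit 23) (nat_lit 5) (nat_lit 23) (nat_lit 4) (nat_lit 406) (nat_lit 264) (nat_lit 230)) (XT.lf (nat_lit 0) (nat_lit 271086052) (nat_lit 152) (nat_lit 7656703687) (nat_lit 76) (nat_lit 18427605700)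 (nat_lit 21) (nat_lit 5) (nat_lit 23) (nat_lit 5) (nat_lit 22) (nat_lit 4) (nat_lit 407) (nat_lit 264) (nat_lit 229)))) (XT.nd (nat_lit 156) (nat_lit 76) (nat_lit 0) (XT.nd (nat_lit 78) (nat_lit 0) (nat_lit 0) (XT.lf (nat_lit 0) (nat_lit 2460110879) (nat_lit 76) (nat_lit 2859546175) (nat_lit 152) (nat_lit 21663632018) (nat_lit 20) (nat_lit 5) (nat_lit 21) (nat_lit 5) (nat_lit 22) (nat_lit 4) (nat_lit 408) (nat_lit 264) (nat_lit 228)) (XT.lf (nat_lit 0) (nat_lit 10553991874) (nat_lit 152) (nat_lit 14741146800) (nat_lit 0) (nat_lit 2333856803) (nat_lit 20) (nat_lit 5) (nat_lit 22) (nat_lit 4) (nat_lit 20) (nat_lit 4) (nat_lit 409) (nat_lit 264) (nat_lit 227))) (XT.nd (nat_lit 78) (nat_lit 76) (nat_lit 0) (XT.lf (nat_lit 0) (nat_lit 15909135631) (nat_lit 152) (nat_lit 4817630077) (nat_lit 0) (nat_lit 7568399012) (nat_lit 20) (nat_lit 5) (nat_lit 22) (nat_lit 4) (nat_lit 20) (nat_lit 4) (nat_lit 410) (nat_lit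 264) (nat_lit 226)) (XT.lf (nat_lit 0) (nat_lit 5388683335) (nat_lit 76) (nat_lit 16025395854) (nat_lit 76) (nat_lit 7567570354) (nat_lit 19) (nat_lit 4) (nat_lit 20) (nat_lit 5) (nat_lit 20) (nat_lit 4) (nat_lit 411) (nat_lit 264) (nat_lit 225))))))) (XT.nd (nat_lit 1014) (nat_lit 304) (nat_lit 0) (XT.nd (nat_lit 468) (nat_lit 228) (nat_lit 0) (XT.nd (nat_lit 234) (nat_lit 76) (nat_lit 0) (XT.nd (nat_lit 78) (nat_lit 152) (nat_lit 0) (XT.lf (nat_lit 0) (nat_lit 15881058484) (nat_lit 76) (nat_lit 11189789435) (nat_lit 76) (nat_lit 2618285409) (nat_lit 19) (nat_lit 4) (nat_lit 20) (nat_lit 5) (nat_lit 20) (nat_lit 4) (nat_lit 412) (nat_lit 264) (nat_lit 224)) (XT.nd (nat_lit 78) (nat_lit 76) (nat_lit 0) (XT.lf (nat_lit 0) (nat_lit 2370327576) (nat_lit 152) (nat_lit 3870106545) (nat_lit 76) (nat_lit 24178519943) (nat_lit 18) (nat_lit 5) (nat_lit 20) (nat_lit 5) (nat_lit 19) (nat_lit 4) (nat_lit 413) (nat_lit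 264) (nat_lit 223)) (XT.lf (nat_lit 0) (nat_lit 6350765096) (nat_lit 76) (nat_lit 1107259305) (nat_lit 152) (nat_lit 23711810124) (nat_lit 17) (nat_lit 5) (nat_lit 18) (nat_lit 5) (nat_lit 19) (nat_lit 4) (nat_lit 414) (nat_lit 264) (nat_lit 222)))) (XT.nd (nat_lit 78) (nat_lit 76) (nat_lit 0) (XT.lf (nat_lit 0) (nat_lit 12719125996) (nat_lit 152) (nat_lit 15138405723) (nat_lit 0) (nat_lit 4085090662) (nat_lit 17) (nat_lit 5) (nat_lit 19) (nat_lit 4) (nat_lit 17) (nat_lit 4) (nat_lit 415) (nat_lit 264) (nat_lit 221)) (XT.nd (nat_lit 78) (nat_lit 76) (nat_lit 0) (XT.lf (nat_lit 0) (nat_lit 18091864945) (nat_lit 152) (nat_lit 5288349359) (nat_lit 0) (nat_lit 9359769516) (nat_lit 17) (nat_lit 5) (nat_lit 19) (nat_lit 4) (nat_lit 17) (nat_lit 4) (nat_lit 416) (nat_lit 264) (nat_lit 220)) (XT.lf (nat_lit 0) (nat_lit 4844891443) (nat_lit 76) (nat_lit 18771972837) (nat_lit 76) (nat_lit 9944673433) (nat_lit 16)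 (nat_lit 4) (nat_lit 17) (nat_lit 5) (nat_lit 17) (nat_lit 4) (nat_lit 417) (nat_lit 264) (nat_lit 219))))) (XT.nd (nat_lit 234) (nat_lit 76) (nat_lit 0) (XT.nd (nat_lit 78) (nat_lit 152) (nat_lit 0) (XT.lf (nat_lit 0) (nat_lit 15284724545) (nat_lit 76) (nat_lit 14021396374) (nat_lit 76) (nat_lit 5101665926) (nat_lit 16) (nat_lit 4) (nat_lit 17) (nat_lit 5) (nat_lit 17) (nat_lit 4) (nat_lit 418) (nat_lit 264) (nat_lit 218)) (XT.nd (nat_lit 78) (nat_lit 152) (nat_lit 0) (XT.lf (nat_lit 0) (nat_lit 25935023609) (nat_lit 76) (nat_lit 9177735886) (nat_lit 76) (nat_lit 168266560) (nat_lit 16) (nat_lit 4) (nat_lit 17) (nat_lit 5) (nat_lit 17) (nat_lit 4) (nat_lit 419) (nat_lit 264) (nat_lit 217)) (XT.lf (nat_lit 0) (nat_lit 587831351) (nat_lit 76) (nat_lit 4182821752) (nat_lit 152) (nat_lit 31409794273) (nat_lit 14) (nat_lit 5) (nat_lit 15) (nat_lit 5) (nat_lit 16) (nat_lit 4) (nat_lit 420) (nat_lit 264) (nat_lit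 216)))) (XT.nd (nat_lit 156) (nat_lit 76) (nat_lit 0) (XT.nd (nat_lit 78) (nat_lit 0) (nat_lit 0) (XT.lf (nat_lit 0) (nat_lit 9906757040) (nat_lit 152) (nat_lit 26205487613) (nat_lit 0) (nat_lit 992988157) (nat_lit 14) (nat_lit 5) (nat_lit 16) (nat_lit 4) (nat_lit 14) (nat_lit 4) (nat_lit 421) (nat_lit 264) (nat_lit 215)) (XT.lf (nat_lit 0) (nat_lit 15187718560) (nat_lit 152) (nat_lit 16676105481) (nat_lit 0) (nat_lit 6194217847) (nat_lit 14) (nat_lit 5) (nat_lit 16) (nat_lit 4) (nat_lit 14) (nat_lit 4) (nat_lit 422) (nat_lit 264) (nat_lit 214))) (XT.nd (nat_lit 78) (nat_lit 76) (nat_lit 0) (XT.lf (nat_lit 0) (nat_lit 20577944254) (nat_lit 152) (nat_lit 6955935143) (nat_lit 0) (nat_lit 11507033997) (nat_lit 14) (nat_lit 5) (nat_lit 16) (nat_lit 4) (nat_lit 14) (nat_lit 4) (nat_lit 423) (nat_lit 264) (nat_lit 213)) (XT.lf (nat_lit 0) (nat_lit 3022496546) (nat_lit 76) (nat_lit 23088701569) (nat_lit 76) (nat_lit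 13942636414) (nat_lit 13) (nat_lit 4) (nat_lit 14) (nat_lit 5) (nat_lit 14) (nat_lit 4) (nat_lit 424) (nat_lit 264) (nat_lit 212)))))) (XT.nd (nat_lit 546) (nat_lit 152) (nat_lit 0) (XT.nd (nat_lit 234) (nat_lit 76) (nat_lit 0) (XT.nd (nat_lit 78) (nat_lit 76) (nat_lit 0) (XT.lf (nat_lit 0) (nat_lit 13351452619) (nat_lit 76) (nat_lit 18482017091) (nat_lit 76) (nat_lit 9262986017) (nat_lit 13) (nat_lit 4) (nat_lit 14) (nat_lit 5) (nat_lit 14) (nat_lit 4) (nat_lit 425) (nat_lit 264) (nat_lit 211)) (XT.nd (nat_lit 78) (nat_lit 76) (nat_lit 0) (XT.lf (nat_lit 0) (nat_lit 23901521628) (nat_lit 76) (nat_lit 13780042012) (nat_lit 76) (nat_lit 4490170239) (nat_lit 13) (nat_lit 4) (nat_lit 14) (nat_lit 5) (nat_lit 14) (nat_lit 4) (nat_lit 426) (nat_lit 264) (nat_lit 210)) (XT.lf (nat_lit 0) (nat_lit 372566534) (nat_lit 152) (nat_lit 8602339085) (nat_lit 76) (nat_lit 34305593353) (nat_lit 12) (nat_lit 5) (nat_lit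 14) (nat_lit 5) (nat_lit 13) (nat_lit 4) (nat_lit 427) (nat_lit 264) (nat_lit 209)))) (XT.nd (nat_lit 156) (nat_lit 0) (nat_lit 0) (XT.nd (nat_lit 78) (nat_lit 0) (nat_lit 0) (XT.lf (nat_lit 0) (nat_lit 1250992401) (nat_lit 76) (nat_lit 4008325679) (nat_lit 152) (nat_lit 39162826499) (nat_lit 11) (nat_lit 5) (nat_lit 12) (nat_lit 5) (nat_lit 13) (nat_lit 4) (nat_lit 428) (nat_lit 264) (nat_lit 208)) (XT.lf (nat_lit 0) (nat_lit 10347474960) (nat_lit 152) (nat_lit 34115285620) (nat_lit 0) (nat_lit 1133637506) (nat_lit 11) (nat_lit 5) (nat_lit 13) (nat_lit 4) (nat_lit 11) (nat_lit 4) (nat_lit 429) (nat_lit 264) (nat_lit 207))) (XT.nd (nat_lit 78) (nat_lit 0) (nat_lit 0) (XT.lf (nat_lit 0) (nat_lit 15585664282) (nat_lit 152) (nat_lit 24909576807) (nat_lit 0) (nat_lit 6310719018) (nat_lit 11) (nat_lit 5) (nat_lit 13) (nat_lit 4) (nat_lit 11) (nat_lit 4) (nat_lit 430) (nat_lit 264) (nat_lit 206)) (XT.lf (nat_lit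 0) (nat_lit 20939932625) (nat_lit 152) (nat_lit 15507451438) (nat_lit 0) (nat_lit 11605659391) (nat_lit 11) (nat_lit 5) (nat_lit 13) (nat_lit 4) (nat_lit 11) (nat_lit 4) (nat_lit 431) (nat_lit 264) (nat_lit 205))))) (XT.nd (nat_lit 234) (nat_lit 76) (nat_lit 0) (XT.nd (nat_lit 78) (nat_lit 76) (nat_lit 0) (XT.lf (nat_lit 0) (nat_lit 26414958476) (nat_lit 152) (nat_lit 5900694064) (nat_lit 0) (nat_lit 17023085272) (nat_lit 11) (nat_lit 5) (nat_lit 13) (nat_lit 4) (nat_lit 11) (nat_lit 4) (nat_lit 432) (nat_lit 264) (nat_lit 204)) (XT.nd (nat_lit 78) (nat_lit 0) (nat_lit 0) (XT.lf (nat_lit 0) (nat_lit 3997087135) (nat_lit 76) (nat_lit 28056861151) (nat_lit 76) (nat_lit 18609065645) (nat_lit 10) (nat_lit 4) (nat_lit 11) (nat_lit 5) (nat_lit 11) (nat_lit 4) (nat_lit 433) (nat_lit 264) (nat_lit 203)) (XT.lf (nat_lit 0) (nat_lit 14238320776) (nat_lit 76) (nat_lit 23645075086) (nat_lit 76) (nat_lit 14142986083)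 (nat_lit 10) (nat_lit 4) (nat_lit 11) (nat_lit 5) (nat_lit 11) (nat_lit 4) (nat_lit 434) (nat_lit 264) (nat_lit 202)))) (XT.nd (nat_lit 156) (nat_lit 76) (nat_lit 0) (XT.nd (nat_lit 78) (nat_lit 0) (nat_lit 0) (XT.lf (nat_lit 0) (nat_lit 24714520128) (nat_lit 76) (nat_lit 19136024829) (nat_lit 76) (nat_lit 9581223693) (nat_lit 10) (nat_lit 4) (nat_lit 11) (nat_lit 5) (nat_lit 11) (nat_lit 4) (nat_lit 435) (nat_lit 264) (nat_lit 201)) (XT.lf (nat_lit 0) (nat_lit 35434839151) (nat_lit 76) (nat_lit 14525770432) (nat_lit 76) (nat_lit 4919792468) (nat_lit 10) (nat_lit 4) (nat_lit 11) (nat_lit 5) (nat_lit 11) (nat_lit 4) (nat_lit 436) (nat_lit 264) (nat_lit 200))) (XT.nd (nat_lit 78) (nat_lit 76) (nat_lit 0) (XT.lf (nat_lit 0) (nat_lit 46408645113) (nat_lit 76) (nat_lit 9810283518) (nat_lit 76) (nat_lit 154619314) (nat_lit 10) (nat_lit 4) (nat_lit 11) (nat_lit 5) (nat_lit 11) (nat_lit 4) (nat_lit 437) (nat_lit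 264) (nat_lit 199)) (XT.lf (nat_lit 0) (nat_lit 4626385373) (nat_lit 152) (nat_lit 312340964) (nat_lit 76) (nat_lit 52972423984) (nat_lit 9) (nat_lit 5) (nat_lit 11) (nat_lit 5) (nat_lit 10) (nat_lit 4) (nat_lit 438) (nat_lit 264) (nat_lit 198))))))))
noncomputable def xc30 : XT := (XT.nd (nat_lit 42666) (nat_lit 0) (nat_lit 912) (XT.nd (nat_lit 41574) (nat_lit 0) (nat_lit 2584) (XT.nd (nat_lit 468) (nat_lit 76) (nat_lit 0) (XT.nd (nat_lit 234) (nat_lit 0) (nat_lit 0) (XT.nd (nat_lit 78) (nat_lit 0) (nat_lit 0) (XT.lf (nat_lit 0) (nat_lit 9609506298) (nat_lit 152) (nat_lit 49740705585) (nat_lit 0) (nat_lit 142771035) (nat_lit 8) (nat_lit 5) (nat_lit 10) (nat_lit 4) (nat_lit 8) (nat_lit 4) (nat_lit 439) (nat_lit 264) (nat_lit 197)) (XT.nd (nat_lit 78) (nat_lit 0) (nat_lit 0) (XT.lf (nat_lit 0) (nat_lit 14760893786) (nat_lit 152) (nat_lit 41110802412) (nat_lit 0) (nat_lit 5250012941) (nat_lit 8) (nat_lit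 5) (nat_lit 10) (nat_lit 4) (nat_lit 8) (nat_lit 4) (nat_lit 440) (nat_lit 264) (nat_lit 196)) (XT.lf (nat_lit 0) (nat_lit 20034482506) (nat_lit 152) (nat_lit 32285044761) (nat_lit 0) (nat_lit 10480741874) (nat_lit 8) (nat_lit 5) (nat_lit 10) (nat_lit 4) (nat_lit 8) (nat_lit 4) (nat_lit 441) (nat_lit 264) (nat_lit 195)))) (XT.nd (nat_lit 78) (nat_lit 0) (nat_lit 0) (XT.lf (nat_lit 0) (nat_lit 25434880449) (nat_lit 152) (nat_lit 23255720804) (nat_lit 0) (nat_lit 15839528372) (nat_lit 8) (nat_lit 5) (nat_lit 10) (nat_lit 4) (nat_lit 8) (nat_lit 4) (nat_lit 442) (nat_lit 264) (nat_lit 194)) (XT.nd (nat_lit 78) (nat_lit 0) (nat_lit 0) (XT.lf (nat_lit 0) (nat_lit 30966806408) (nat_lit 152) (nat_lit 14014940841) (nat_lit 0) (nat_lit 21331054871) (nat_lit 8) (nat_lit 5) (nat_lit 10) (nat_lit 4) (nat_lit 8) (nat_lit 4) (nat_lit 443) (nat_lit 264) (nat_lit 193)) (XT.lf (nat_lit 0) (nat_lit 36635094107) (nat_lit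 152) (nat_lit 4554630403) (nat_lit 0) (nat_lit 26960119792) (nat_lit 8) (nat_lit 5) (nat_lit 10) (nat_lit 4) (nat_lit 8) (nat_lit 4) (nat_lit 444) (nat_lit 264) (nat_lit 192))))) (XT.nd (nat_lit 234) (nat_lit 0) (nat_lit 0) (XT.nd (nat_lit 78) (nat_lit 0) (nat_lit 0) (XT.lf (nat_lit 0) (nat_lit 5235643051) (nat_lit 76) (nat_lit 37259381568) (nat_lit 76) (nat_lit 27546326887) (nat_lit 7) (nat_lit 4) (nat_lit 8) (nat_lit 5) (nat_lit 8) (nat_lit 4) (nat_lit 445) (nat_lit 264) (nat_lit 191)) (XT.nd (nat_lit 78) (nat_lit 0) (nat_lit 0) (XT.lf (nat_lit 0) (nat_lit 15357526763) (nat_lit 76) (nat_lit 33190788867) (nat_lit 76) (nat_lit 23440762957) (nat_lit 7) (nat_lit 4) (nat_lit 8) (nat_lit 5) (nat_lit 8) (nat_lit 4) (nat_lit 446) (nat_lit 264) (nat_lit 190)) (XT.lf (nat_lit 0) (nat_lit 25729219019) (nat_lit 76) (nat_lit 29026384163) (nat_lit 76) (nat_lit 19240463855) (nat_lit 7) (nat_lit 4) (nat_lit 8) (nat_lit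 5) (nat_lit 8) (nat_lit 4) (nat_lit 447) (nat_lit 264) (nat_lit 189)))) (XT.nd (nat_lit 156) (nat_lit 0) (nat_lit 0) (XT.nd (nat_lit 78) (nat_lit 0) (nat_lit 0) (XT.lf (nat_lit 0) (nat_lit 36359782464) (nat_lit 76) (nat_lit 24762528655) (nat_lit 76) (nat_lit 14941759418) (nat_lit 7) (nat_lit 4) (nat_lit 8) (nat_lit 5) (nat_lit 8) (nat_lit 4) (nat_lit 448) (nat_lit 264) (nat_lit 188)) (XT.lf (nat_lit 0) (nat_lit 47258505938) (nat_lit 76) (nat_lit 20395496645) (nat_lit 76) (nat_lit 10540893495) (nat_lit 7) (nat_lit 4) (nat_lit 8) (nat_lit 5) (nat_lit 8) (nat_lit 4) (nat_lit 449) (nat_lit 264) (nat_lit 187))) (XT.nd (nat_lit 40638) (nat_lit 0) (nat_lit 4332) (XT.lf (nat_lit 0) (nat_lit 58434912599) (nat_lit 76) (nat_lit 15921472279) (nat_lit 76) (nat_lit 6034020671) (nat_lit 7) (nat_lit 4) (nat_lit 8) (nat_lit 5) (nat_lit 8) (nat_lit 4) (nat_lit 450) (nat_lit 264) (nat_lit 186)) (XT.lf (nat_lit 0) (nat_lit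 1209927894) (nat_lit 228) (nat_lit 3843916641) (nat_lit 0) (nat_lit 1209927894) (nat_lit 64) (nat_lit 5) (nat_lit 67) (nat_lit 4) (nat_lit 64) (nat_lit 4) (nat_lit 370) (nat_lit 265) (nat_lit 265)))))) (XT.nd (nat_lit 546) (nat_lit 836) (nat_lit 0) (XT.nd (nat_lit 234) (nat_lit 532) (nat_lit 0) (XT.nd (nat_lit 78) (nat_lit 228) (nat_lit 0) (XT.lf (nat_lit 0) (nat_lit 1749065559) (nat_lit 152) (nat_lit 5750236773) (nat_lit 152) (nat_lit 5236930122) (nat_lit 62) (nat_lit 4) (nat_lit 64) (nat_lit 5) (nat_lit 64) (nat_lit 4) (nat_lit 371) (nat_lit 265) (nat_lit 264)) (XT.nd (nat_lit 78) (nat_lit 228) (nat_lit 0) (XT.lf (nat_lit 0) (nat_lit 11436820441) (nat_lit 152) (nat_lit 1263484199) (nat_lit 152) (nat_lit 251821576) (nat_lit 62) (nat_lit 4) (nat_lit 64) (nat_lit 5) (nat_lit 64) (nat_lit 4) (nat_lit 372) (nat_lit 265) (nat_lit 263)) (XT.lf (nat_lit 0) (nat_lit 4792448679) (nat_lit 228) (nat_lit 5040009170)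 (nat_lit 0) (nat_lit 3340503657) (nat_lit 59) (nat_lit 5) (nat_lit 62) (nat_lit 4) (nat_lit 59) (nat_lit 4) (nat_lit 373) (nat_lit 265) (nat_lit 262)))) (XT.nd (nat_lit 156) (nat_lit 152) (nat_lit 0) (XT.nd (nat_lit 78) (nat_lit 228) (nat_lit 0) (XT.lf (nat_lit 0) (nat_lit 4589125421) (nat_lit 152) (nat_lit 5360131887) (nat_lit 152) (nat_lit 3452120554) (nat_lit 57) (nat_lit 4) (nat_lit 59) (nat_lit 5) (nat_lit 59) (nat_lit 4) (nat_lit 374) (nat_lit 265) (nat_lit 261)) (XT.lf (nat_lit 0) (nat_lit 787262653) (nat_lit 152) (nat_lit 758578141) (nat_lit 228) (nat_lit 12091753128) (nat_lit 54) (nat_lit 5) (nat_lit 56) (nat_lit 5) (nat_lit 57) (nat_lit 4) (nat_lit 375) (nat_lit 265) (nat_lit 260))) (XT.nd (nat_lit 78) (nat_lit 152) (nat_lit 0) (XT.lf (nat_lit 0) (nat_lit 6647447236) (nat_lit 228) (nat_lit 3283990952) (nat_lit 0) (nat_lit 3947757528) (nat_lit 54) (nat_lit 5) (nat_lit 57) (nat_lit 4) (nat_lit 54)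 (nat_lit 4) (nat_lit 376) (nat_lit 265) (nat_lit 259)) (XT.lf (nat_lit 0) (nat_lit 6506422409) (nat_lit 152) (nat_lit 5363748324) (nat_lit 152) (nat_lit 2258849606) (nat_lit 52) (nat_lit 4) (nat_lit 54) (nat_lit 5) (nat_lit 54) (nat_lit 4) (nat_lit 377) (nat_lit 265) (nat_lit 258))))) (XT.nd (nat_lit 234) (nat_lit 456) (nat_lit 0) (XT.nd (nat_lit 78) (nat_lit 152) (nat_lit 0) (XT.lf (nat_lit 0) (nat_lit 2103085711) (nat_lit 152) (nat_lit 656220315) (nat_lit 228) (nat_lit 11627665601) (nat_lit 49) (nat_lit 5) (nat_lit 51) (nat_lit 5) (nat_lit 52) (nat_lit 4) (nat_lit 378) (nat_lit 265) (nat_lit 257)) (XT.nd (nat_lit 78) (nat_lit 152) (nat_lit 0) (XT.lf (nat_lit 0) (nat_lit 7899331685) (nat_lit 228) (nat_lit 2620077549) (nat_lit 0) (nat_lit 4132094909) (nat_lit 49) (nat_lit 5) (nat_lit 52) (nat_lit 4) (nat_lit 49) (nat_lit 4) (nat_lit 379) (nat_lit 265) (nat_lit 256)) (XT.lf (nat_lit 0) (nat_lit 7291674690)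 (nat_lit 152) (nat_lit 5880112880) (nat_lit 152) (nat_lit 1752853145) (nat_lit 47) (nat_lit 4) (nat_lit 49) (nat_lit 5) (nat_lit 49) (nat_lit 4) (nat_lit 380) (nat_lit 265) (nat_lit 255)))) (XT.nd (nat_lit 156) (nat_lit 304) (nat_lit 0) (XT.nd (nat_lit 78) (nat_lit 0) (nat_lit 0) (XT.lf (nat_lit 0) (nat_lit 2180973857) (nat_lit 76) (nat_lit 1098716016) (nat_lit 152) (nat_lit 11926830524) (nat_lit 45) (nat_lit 5) (nat_lit 46) (nat_lit 5) (nat_lit 47) (nat_lit 4) (nat_lit 381) (nat_lit 265) (nat_lit 254)) (XT.lf (nat_lit 0) (nat_lit 8444838584) (nat_lit 152) (nat_lit 3282043005) (nat_lit 0) (nat_lit 3768962125) (nat_lit 45) (nat_lit 5) (nat_lit 47) (nat_lit 4) (nat_lit 45) (nat_lit 4) (nat_lit 382) (nat_lit 265) (nat_lit 253))) (XT.nd (nat_lit 78) (nat_lit 152) (nat_lit 0) (XT.lf (nat_lit 0) (nat_lit 6700431007) (nat_lit 152) (nat_lit 7044884994) (nat_lit 152) (nat_lit 2049132799) (nat_lit 43) (nat_lit 4)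 (nat_lit 45) (nat_lit 5) (nat_lit 45) (nat_lit 4) (nat_lit 383) (nat_lit 265) (nat_lit 252)) (XT.lf (nat_lit 0) (nat_lit 759908869) (nat_lit 76) (nat_lit 2228376859) (nat_lit 152) (nat_lit 13114462961) (nat_lit 41) (nat_lit 5) (nat_lit 42) (nat_lit 5) (nat_lit 43) (nat_lit 4) (nat_lit 384) (nat_lit 265) (nat_lit 251))))))) (XT.nd (nat_lit 1014) (nat_lit 684) (nat_lit 0) (XT.nd (nat_lit 468) (nat_lit 532) (nat_lit 0) (XT.nd (nat_lit 234) (nat_lit 228) (nat_lit 0) (XT.nd (nat_lit 78) (nat_lit 228) (nat_lit 0) (XT.lf (nat_lit 0) (nat_lit 8160269935) (nat_lit 152) (nat_lit 5542912377) (nat_lit 0) (nat_lit 2715779917) (nat_lit 41) (nat_lit 5) (nat_lit 43) (nat_lit 4) (nat_lit 41) (nat_lit 4) (nat_lit 385) (nat_lit 265) (nat_lit 250)) (XT.nd (nat_lit 78) (nat_lit 76) (nat_lit 0) (XT.lf (nat_lit 0) (nat_lit 4447012231) (nat_lit 152) (nat_lit 9013580920) (nat_lit 152) (nat_lit 3284885454) (nat_lit 39) (nat_lit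 4) (nat_lit 41) (nat_lit 5) (nat_lit 41) (nat_lit 4) (nat_lit 386) (nat_lit 265) (nat_lit 249)) (XT.lf (nat_lit 0) (nat_lit 1767317635) (nat_lit 228) (nat_lit 2416968284) (nat_lit 76) (nat_lit 12898034088) (nat_lit 38) (nat_lit 5) (nat_lit 41) (nat_lit 5) (nat_lit 39) (nat_lit 4) (nat_lit 387) (nat_lit 265) (nat_lit 248)))) (XT.nd (nat_lit 78) (nat_lit 152) (nat_lit 0) (XT.lf (nat_lit 0) (nat_lit 6898340409) (nat_lit 152) (nat_lit 9721642034) (nat_lit 0) (nat_lit 808521015) (nat_lit 37) (nat_lit 5) (nat_lit 39) (nat_lit 4) (nat_lit 37) (nat_lit 4) (nat_lit 388) (nat_lit 265) (nat_lit 247)) (XT.nd (nat_lit 78) (nat_lit 0) (nat_lit 0) (XT.lf (nat_lit 0) (nat_lit 197502297) (nat_lit 152) (nat_lit 11965264340) (nat_lit 152) (nat_lit 5622932087) (nat_lit 35) (nat_lit 4) (nat_lit 37) (nat_lit 5) (nat_lit 37) (nat_lit 4) (nat_lit 389) (nat_lit 265) (nat_lit 246)) (XT.lf (nat_lit 0) (nat_lit 10450823050) (nat_lit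 152) (nat_lit 7144983466) (nat_lit 152) (nat_lit 557493097) (nat_lit 35) (nat_lit 4) (nat_lit 37) (nat_lit 5) (nat_lit 37) (nat_lit 4) (nat_lit 390) (nat_lit 265) (nat_lit 245))))) (XT.nd (nat_lit 234) (nat_lit 228) (nat_lit 0) (XT.nd (nat_lit 78) (nat_lit 152) (nat_lit 0) (XT.lf (nat_lit 0) (nat_lit 2320644385) (nat_lit 76) (nat_lit 2184849379) (nat_lit 152) (nat_lit 14027005065) (nat_lit 33) (nat_lit 5) (nat_lit 34) (nat_lit 5) (nat_lit 35) (nat_lit 4) (nat_lit 391) (nat_lit 265) (nat_lit 244)) (XT.nd (nat_lit 78) (nat_lit 152) (nat_lit 0) (XT.lf (nat_lit 0) (nat_lit 9730306787) (nat_lit 152) (nat_lit 6312731089) (nat_lit 0) (nat_lit 2879245628) (nat_lit 33) (nat_lit 5) (nat_lit 35) (nat_lit 4) (nat_lit 33) (nat_lit 4) (nat_lit 392) (nat_lit 265) (nat_lit 243)) (XT.lf (nat_lit 0) (nat_lit 3780213267) (nat_lit 152) (nat_lit 11306595075) (nat_lit 152) (nat_lit 4237714107) (nat_lit 31) (nat_lit 4) (nat_lit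 33) (nat_lit 5) (nat_lit 33) (nat_lit 4) (nat_lit 393) (nat_lit 265) (nat_lit 242)))) (XT.nd (nat_lit 156) (nat_lit 76) (nat_lit 0) (XT.nd (nat_lit 78) (nat_lit 76) (nat_lit 0) (XT.lf (nat_lit 0) (nat_lit 829764087) (nat_lit 228) (nat_lit 5595935415) (nat_lit 76) (nat_lit 13313443986) (nat_lit 30) (nat_lit 5) (nat_lit 33) (nat_lit 5) (nat_lit 31) (nat_lit 4) (nat_lit 394) (nat_lit 265) (nat_lit 241)) (XT.lf (nat_lit 0) (nat_lit 4546760296) (nat_lit 76) (nat_lit 1380546536) (nat_lit 152) (nat_lit 14238749461) (nat_lit 29) (nat_lit 5) (nat_lit 30) (nat_lit 5) (nat_lit 31) (nat_lit 4) (nat_lit 395) (nat_lit 265) (nat_lit 240))) (XT.nd (nat_lit 78) (nat_lit 76) (nat_lit 0) (XT.lf (nat_lit 0) (nat_lit 11191269381) (nat_lit 152) (nat_lit 5684014316) (nat_lit 0) (nat_lit 3730096024) (nat_lit 29) (nat_lit 5) (nat_lit 31) (nat_lit 4) (nat_lit 29) (nat_lit 4) (nat_lit 396) (nat_lit 265) (nat_lit 239)) (XT.lf (nat_lit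 0) (nat_lit 4476266968) (nat_lit 76) (nat_lit 12115663471) (nat_lit 76) (nat_lit 4466596834) (nat_lit 28) (nat_lit 4) (nat_lit 29) (nat_lit 5) (nat_lit 29) (nat_lit 4) (nat_lit 397) (nat_lit 265) (nat_lit 238)))))) (XT.nd (nat_lit 546) (nat_lit 304) (nat_lit 0) (XT.nd (nat_lit 234) (nat_lit 228) (nat_lit 0) (XT.nd (nat_lit 78) (nat_lit 76) (nat_lit 0) (XT.lf (nat_lit 0) (nat_lit 597211764) (nat_lit 152) (nat_lit 6619147418) (nat_lit 76) (nat_lit 14309331431) (nat_lit 27) (nat_lit 5) (nat_lit 29) (nat_lit 5) (nat_lit 28) (nat_lit 4) (nat_lit 398) (nat_lit 265) (nat_lit 237)) (XT.nd (nat_lit 78) (nat_lit 0) (nat_lit 0) (XT.lf (nat_lit 0) (nat_lit 3524839192) (nat_lit 76) (nat_lit 2156655354) (nat_lit 152) (nat_lit 16325304718) (nat_lit 26) (nat_lit 5) (nat_lit 27) (nat_lit 5) (nat_lit 28) (nat_lit 4) (nat_lit 399) (nat_lit 265) (nat_lit 236)) (XT.lf (nat_lit 0) (nat_lit 10939828527) (nat_lit 152) (nat_lit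 8564320824) (nat_lit 0) (nat_lit 2997553082) (nat_lit 26) (nat_lit 5) (nat_lit 28) (nat_lit 4) (nat_lit 26) (nat_lit 4) (nat_lit 400) (nat_lit 265) (nat_lit 235)))) (XT.nd (nat_lit 156) (nat_lit 152) (nat_lit 0) (XT.nd (nat_lit 78) (nat_lit 0) (nat_lit 0) (XT.lf (nat_lit 0) (nat_lit 1520535092) (nat_lit 76) (nat_lit 14798196800) (nat_lit 76) (nat_lit 6693842960) (nat_lit 25) (nat_lit 4) (nat_lit 26) (nat_lit 5) (nat_lit 26) (nat_lit 4) (nat_lit 401) (nat_lit 265) (nat_lit 234)) (XT.lf (nat_lit 0) (nat_lit 11946225387) (nat_lit 76) (nat_lit 9926920893) (nat_lit 76) (nat_lit 1665209388) (nat_lit 25) (nat_lit 4) (nat_lit 26) (nat_lit 5) (nat_lit 26) (nat_lit 4) (nat_lit 402) (nat_lit 265) (nat_lit 233))) (XT.nd (nat_lit 78) (nat_lit 76) (nat_lit 0) (XT.lf (nat_lit 0) (nat_lit 3374773309) (nat_lit 152) (nat_lit 1563696119) (nat_lit 76) (nat_lit 19142561208) (nat_lit 24) (nat_lit 5) (nat_lit 26) (nat_lit 5)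 (nat_lit 25) (nat_lit 4) (nat_lit 403) (nat_lit 265) (nat_lit 232)) (XT.lf (nat_lit 0) (nat_lit 8550436184) (nat_lit 152) (nat_lit 15851494741) (nat_lit 0) (nat_lit 237027806) (nat_lit 23) (nat_lit 5) (nat_lit 25) (nat_lit 4) (nat_lit 23) (nat_lit 4) (nat_lit 404) (nat_lit 265) (nat_lit 231))))) (XT.nd (nat_lit 234) (nat_lit 228) (nat_lit 0) (XT.nd (nat_lit 78) (nat_lit 76) (nat_lit 0) (XT.lf (nat_lit 0) (nat_lit 13877514884) (nat_lit 152) (nat_lit 5911934958) (nat_lit 0) (nat_lit 5424296258) (nat_lit 23) (nat_lit 5) (nat_lit 25) (nat_lit 4) (nat_lit 23) (nat_lit 4) (nat_lit 405) (nat_lit 265) (nat_lit 230)) (XT.nd (nat_lit 78) (nat_lit 0) (nat_lit 0) (XT.lf (nat_lit 0) (nat_lit 4282242464) (nat_lit 76) (nat_lit 15056631480) (nat_lit 76) (nat_lit 6467674750) (nat_lit 22) (nat_lit 4) (nat_lit 23) (nat_lit 5) (nat_lit 23) (nat_lit 4) (nat_lit 406) (nat_lit 265) (nat_lit 229)) (XT.lf (nat_lit 0) (nat_lit 14777549334)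 (nat_lit 76) (nat_lit 10180260363) (nat_lit 76) (nat_lit 1459519066) (nat_lit 22) (nat_lit 4) (nat_lit 23) (nat_lit 5) (nat_lit 23) (nat_lit 4) (nat_lit 407) (nat_lit 265) (nat_lit 228)))) (XT.nd (nat_lit 156) (nat_lit 76) (nat_lit 0) (XT.nd (nat_lit 78) (nat_lit 76) (nat_lit 0) (XT.lf (nat_lit 0) (nat_lit 3562021724) (nat_lit 152) (nat_lit 1617783378) (nat_lit 76) (nat_lit 21867506052) (nat_lit 21) (nat_lit 5) (nat_lit 23) (nat_lit 5) (nat_lit 22) (nat_lit 4) (nat_lit 408) (nat_lit 265) (nat_lit 227)) (XT.lf (nat_lit 0) (nat_lit 8726245263) (nat_lit 152) (nat_lit 18954193106) (nat_lit 0) (nat_lit 14684998) (nat_lit 20) (nat_lit 5) (nat_lit 22) (nat_lit 4) (nat_lit 20) (nat_lit 4) (nat_lit 409) (nat_lit 265) (nat_lit 226))) (XT.nd (nat_lit 78) (nat_lit 76) (nat_lit 0) (XT.lf (nat_lit 0) (nat_lit 14050525064) (nat_lit 152) (nat_lit 9089819946) (nat_lit 0) (nat_lit 5221875917) (nat_lit 20) (nat_lit 5) (nat_lit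 22) (nat_lit 4) (nat_lit 20) (nat_lit 4) (nat_lit 410) (nat_lit 265) (nat_lit 225)) (XT.lf (nat_lit 0) (nat_lit 972904787) (nat_lit 76) (nat_lit 18510151663) (nat_lit 76) (nat_lit 9567823991) (nat_lit 19) (nat_lit 4) (nat_lit 20) (nat_lit 5) (nat_lit 20) (nat_lit 4) (nat_lit 411) (nat_lit 265) (nat_lit 224))))))))
noncomputable def xc31 : XT := (XT.nd (nat_lit 2106) (nat_lit 152) (nat_lit 0) (XT.nd (nat_lit 1014) (nat_lit 380) (nat_lit 0) (XT.nd (nat_lit 468) (nat_lit 228) (nat_lit 0) (XT.nd (nat_lit 234) (nat_lit 0) (nat_lit 0) (XT.nd (nat_lit 78) (nat_lit 152) (nat_lit 0) (XT.lf (nat_lit 0) (nat_lit 11408421953) (nat_lit 76) (nat_lit 13701764436) (nat_lit 76) (nat_lit 4649069263) (nat_lit 19) (nat_lit 4) (nat_lit 20) (nat_lit 5) (nat_lit 20) (nat_lit 4) (nat_lit 412) (nat_lit 265) (nat_lit 223)) (XT.nd (nat_lit 78) (nat_lit 76) (nat_lit 0) (XT.lf (nat_lit 0) (nat_lit 350109046) (nat_lit 152) (nat_lit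 8449126722) (nat_lit 76) (nat_lit 21691300261) (nat_lit 18) (nat_lit 5) (nat_lit 20) (nat_lit 5) (nat_lit 19) (nat_lit 4) (nat_lit 413) (nat_lit 265) (nat_lit 222)) (XT.lf (nat_lit 0) (nat_lit 1625377867) (nat_lit 76) (nat_lit 3738788589) (nat_lit 152) (nat_lit 25879461284) (nat_lit 17) (nat_lit 5) (nat_lit 18) (nat_lit 5) (nat_lit 19) (nat_lit 4) (nat_lit 414) (nat_lit 265) (nat_lit 221)))) (XT.nd (nat_lit 78) (nat_lit 0) (nat_lit 0) (XT.lf (nat_lit 0) (nat_lit 10571815208) (nat_lit 152) (nat_lit 19966509160) (nat_lit 0) (nat_lit 1479696822) (nat_lit 17) (nat_lit 5) (nat_lit 19) (nat_lit 4) (nat_lit 17) (nat_lit 4) (nat_lit 415) (nat_lit 265) (nat_lit 220)) (XT.nd (nat_lit 78) (nat_lit 0) (nat_lit 0) (XT.lf (nat_lit 0) (nat_lit 15917217288) (nat_lit 152) (nat_lit 10169092468) (nat_lit 0) (nat_lit 6729894927) (nat_lit 17) (nat_lit 5) (nat_lit 19) (nat_lit 4) (nat_lit 17) (nat_lit 4) (nat_lit 416) (nat_lit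 265) (nat_lit 219)) (XT.lf (nat_lit 0) (nat_lit 21369103915) (nat_lit 152) (nat_lit 181499426) (nat_lit 0) (nat_lit 12089350510) (nat_lit 17) (nat_lit 5) (nat_lit 19) (nat_lit 4) (nat_lit 17) (nat_lit 4) (nat_lit 417) (nat_lit 265) (nat_lit 218))))) (XT.nd (nat_lit 234) (nat_lit 76) (nat_lit 0) (XT.nd (nat_lit 78) (nat_lit 76) (nat_lit 0) (XT.lf (nat_lit 0) (nat_lit 10204116046) (nat_lit 76) (nat_lit 16826211031) (nat_lit 76) (nat_lit 7456718747) (nat_lit 16) (nat_lit 4) (nat_lit 17) (nat_lit 5) (nat_lit 17) (nat_lit 4) (nat_lit 418) (nat_lit 265) (nat_lit 217)) (XT.nd (nat_lit 78) (nat_lit 76) (nat_lit 0) (XT.lf (nat_lit 0) (nat_lit 20805283621) (nat_lit 76) (nat_lit 12006192643) (nat_lit 76) (nat_lit 2549575235) (nat_lit 16) (nat_lit 4) (nat_lit 17) (nat_lit 5) (nat_lit 17) (nat_lit 4) (nat_lit 419) (nat_lit 265) (nat_lit 216)) (XT.lf (nat_lit 0) (nat_lit 2405168046) (nat_lit 152) (nat_lit 4658713771)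 (nat_lit 76) (nat_lit 29198198731) (nat_lit 15) (nat_lit 5) (nat_lit 17) (nat_lit 5) (nat_lit 16) (nat_lit 4) (nat_lit 420) (nat_lit 265) (nat_lit 215)))) (XT.nd (nat_lit 156) (nat_lit 0) (nat_lit 0) (XT.nd (nat_lit 78) (nat_lit 0) (nat_lit 0) (XT.lf (nat_lit 0) (nat_lit 5522782733) (nat_lit 76) (nat_lit 1938355899) (nat_lit 152) (nat_lit 29728132984) (nat_lit 14) (nat_lit 5) (nat_lit 15) (nat_lit 5) (nat_lit 16) (nat_lit 4) (nat_lit 421) (nat_lit 265) (nat_lit 214)) (XT.lf (nat_lit 0) (nat_lit 12699248440) (nat_lit 152) (nat_lit 22165318058) (nat_lit 0) (nat_lit 3278801331) (nat_lit 14) (nat_lit 5) (nat_lit 16) (nat_lit 4) (nat_lit 14) (nat_lit 4) (nat_lit 422) (nat_lit 265) (nat_lit 213))) (XT.nd (nat_lit 78) (nat_lit 0) (nat_lit 0) (XT.lf (nat_lit 0) (nat_lit 18065960494) (nat_lit 152) (nat_lit 12490627303) (nat_lit 0) (nat_lit 8570358488) (nat_lit 14) (nat_lit 5) (nat_lit 16) (nat_lit 4) (nat_lit 14)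 (nat_lit 4) (nat_lit 423) (nat_lit 265) (nat_lit 212)) (XT.lf (nat_lit 0) (nat_lit 23547331492) (nat_lit 152) (nat_lit 2615330341) (nat_lit 0) (nat_lit 13978763566) (nat_lit 14) (nat_lit 5) (nat_lit 16) (nat_lit 4) (nat_lit 14) (nat_lit 4) (nat_lit 424) (nat_lit 265) (nat_lit 211)))))) (XT.nd (nat_lit 546) (nat_lit 152) (nat_lit 0) (XT.nd (nat_lit 234) (nat_lit 152) (nat_lit 0) (XT.nd (nat_lit 78) (nat_lit 0) (nat_lit 0) (XT.lf (nat_lit 0) (nat_lit 7617853487) (nat_lit 76) (nat_lit 21603524962) (nat_lit 76) (nat_lit 11964116337) (nat_lit 13) (nat_lit 4) (nat_lit 14) (nat_lit 5) (nat_lit 14) (nat_lit 4) (nat_lit 425) (nat_lit 265) (nat_lit 210)) (XT.nd (nat_lit 78) (nat_lit 0) (nat_lit 0) (XT.lf (nat_lit 0) (nat_lit 18125473911) (nat_lit 76) (nat_lit 16922072115) (nat_lit 76) (nat_lit 7213886113) (nat_lit 13) (nat_lit 4) (nat_lit 14) (nat_lit 5) (nat_lit 14) (nat_lit 4) (nat_lit 426) (nat_lit 265) (nat_lit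 209)) (XT.lf (nat_lit 0) (nat_lit 28864662144) (nat_lit 76) (nat_lit 12140622410) (nat_lit 76) (nat_lit 2365662255) (nat_lit 13) (nat_lit 4) (nat_lit 14) (nat_lit 5) (nat_lit 14) (nat_lit 4) (nat_lit 427) (nat_lit 265) (nat_lit 208)))) (XT.nd (nat_lit 156) (nat_lit 0) (nat_lit 0) (XT.nd (nat_lit 78) (nat_lit 76) (nat_lit 0) (XT.lf (nat_lit 0) (nat_lit 2534352955) (nat_lit 152) (nat_lit 4695052931) (nat_lit 76) (nat_lit 37284856992) (nat_lit 12) (nat_lit 5) (nat_lit 14) (nat_lit 5) (nat_lit 13) (nat_lit 4) (nat_lit 428) (nat_lit 265) (nat_lit 207)) (XT.lf (nat_lit 0) (nat_lit 5413041673) (nat_lit 76) (nat_lit 2131673669) (nat_lit 152) (nat_lit 38146136129) (nat_lit 11) (nat_lit 5) (nat_lit 12) (nat_lit 5) (nat_lit 13) (nat_lit 4) (nat_lit 429) (nat_lit 265) (nat_lit 206))) (XT.nd (nat_lit 78) (nat_lit 0) (nat_lit 0) (XT.lf (nat_lit 0) (nat_lit 12742183832) (nat_lit 152) (nat_lit 31090898068) (nat_lit 0)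 (nat_lit 3068554431) (nat_lit 11) (nat_lit 5) (nat_lit 13) (nat_lit 4) (nat_lit 11) (nat_lit 4) (nat_lit 430) (nat_lit 265) (nat_lit 205)) (XT.lf (nat_lit 0) (nat_lit 18076811514) (nat_lit 152) (nat_lit 21726916422) (nat_lit 0) (nat_lit 8345582143) (nat_lit 11) (nat_lit 5) (nat_lit 13) (nat_lit 4) (nat_lit 11) (nat_lit 4) (nat_lit 431) (nat_lit 265) (nat_lit 204))))) (XT.nd (nat_lit 234) (nat_lit 76) (nat_lit 0) (XT.nd (nat_lit 78) (nat_lit 76) (nat_lit 0) (XT.lf (nat_lit 0) (nat_lit 23532768762) (nat_lit 152) (nat_lit 12157191788) (nat_lit 0) (nat_lit 13745617089) (nat_lit 11) (nat_lit 5) (nat_lit 13) (nat_lit 4) (nat_lit 11) (nat_lit 4) (nat_lit 432) (nat_lit 265) (nat_lit 203)) (XT.nd (nat_lit 78) (nat_lit 76) (nat_lit 0) (XT.lf (nat_lit 0) (nat_lit 29114822918) (nat_lit 152) (nat_lit 2373362271) (nat_lit 0) (nat_lit 19273377749) (nat_lit 11) (nat_lit 5) (nat_lit 13) (nat_lit 4) (nat_lit 11) (nat_lit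 4) (nat_lit 433) (nat_lit 265) (nat_lit 202)) (XT.lf (nat_lit 0) (nat_lit 7785035182) (nat_lit 76) (nat_lit 27117650844) (nat_lit 76) (nat_lit 17223493541) (nat_lit 10) (nat_lit 4) (nat_lit 11) (nat_lit 5) (nat_lit 11) (nat_lit 4) (nat_lit 434) (nat_lit 265) (nat_lit 201)))) (XT.nd (nat_lit 156) (nat_lit 76) (nat_lit 0) (XT.nd (nat_lit 78) (nat_lit 0) (nat_lit 0) (XT.lf (nat_lit 0) (nat_lit 18226669849) (nat_lit 76) (nat_lit 22625382542) (nat_lit 76) (nat_lit 12680048411) (nat_lit 10) (nat_lit 4) (nat_lit 11) (nat_lit 5) (nat_lit 11) (nat_lit 4) (nat_lit 435) (nat_lit 265) (nat_lit 200)) (XT.lf (nat_lit 0) (nat_lit 28913430925) (nat_lit 76) (nat_lit 18031421305) (nat_lit 76) (nat_lit 8036400933) (nat_lit 10) (nat_lit 4) (nat_lit 11) (nat_lit 5) (nat_lit 11) (nat_lit 4) (nat_lit 436) (nat_lit 265) (nat_lit 199))) (XT.nd (nat_lit 78) (nat_lit 76) (nat_lit 0) (XT.lf (nat_lit 0) (nat_lit 39854656358) (nat_lit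 76) (nat_lit 13331752993) (nat_lit 76) (nat_lit 3288493552) (nat_lit 10) (nat_lit 4) (nat_lit 11) (nat_lit 5) (nat_lit 11) (nat_lit 4) (nat_lit 437) (nat_lit 265) (nat_lit 198)) (XT.lf (nat_lit 0) (nat_lit 1537228526) (nat_lit 152) (nat_lit 6969519579) (nat_lit 76) (nat_lit 49507154920) (nat_lit 9) (nat_lit 5) (nat_lit 11) (nat_lit 5) (nat_lit 10) (nat_lit 4) (nat_lit 438) (nat_lit 265) (nat_lit 197))))))) (XT.nd (nat_lit 41418) (nat_lit 0) (nat_lit 2888) (XT.nd (nat_lit 468) (nat_lit 76) (nat_lit 0) (XT.nd (nat_lit 234) (nat_lit 0) (nat_lit 0) (XT.nd (nat_lit 78) (nat_lit 0) (nat_lit 0) (XT.lf (nat_lit 0) (nat_lit 2932403229) (nat_lit 76) (nat_lit 3505018773) (nat_lit 152) (nat_lit 53160802347) (nat_lit 8) (nat_lit 5) (nat_lit 9) (nat_lit 5) (nat_lit 10) (nat_lit 4) (nat_lit 439) (nat_lit 265) (nat_lit 196)) (XT.nd (nat_lit 78) (nat_lit 0) (nat_lit 0) (XT.lf (nat_lit 0) (nat_lit 11539185878) (nat_lit 152)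 (nat_lit 48033281038) (nat_lit 0) (nat_lit 1655973239) (nat_lit 8) (nat_lit 5) (nat_lit 10) (nat_lit 4) (nat_lit 8) (nat_lit 4) (nat_lit 440) (nat_lit 265) (nat_lit 195)) (XT.lf (nat_lit 0) (nat_lit 16797307387) (nat_lit 152) (nat_lit 39237674335) (nat_lit 0) (nat_lit 6872483304) (nat_lit 8) (nat_lit 5) (nat_lit 10) (nat_lit 4) (nat_lit 8) (nat_lit 4) (nat_lit 441) (nat_lit 265) (nat_lit 194)))) (XT.nd (nat_lit 78) (nat_lit 0) (nat_lit 0) (XT.lf (nat_lit 0) (nat_lit 22182688620) (nat_lit 152) (nat_lit 30237623143) (nat_lit 0) (nat_lit 12217465076) (nat_lit 8) (nat_lit 5) (nat_lit 10) (nat_lit 4) (nat_lit 8) (nat_lit 4) (nat_lit 442) (nat_lit 265) (nat_lit 193)) (XT.nd (nat_lit 78) (nat_lit 0) (nat_lit 0) (XT.lf (nat_lit 0) (nat_lit 27700035249) (nat_lit 152) (nat_lit 21025263340) (nat_lit 0) (nat_lit 17695588928) (nat_lit 8) (nat_lit 5) (nat_lit 10) (nat_lit 4) (nat_lit 8) (nat_lit 4) (nat_lit 443) (nat_lit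 265) (nat_lit 192)) (XT.lf (nat_lit 0) (nat_lit 33354168258) (nat_lit 152) (nat_lit 11592545291) (nat_lit 0) (nat_lit 23311641570) (nat_lit 8) (nat_lit 5) (nat_lit 10) (nat_lit 4) (nat_lit 8) (nat_lit 4) (nat_lit 444) (nat_lit 265) (nat_lit 191))))) (XT.nd (nat_lit 234) (nat_lit 0) (nat_lit 0) (XT.nd (nat_lit 78) (nat_lit 76) (nat_lit 0) (XT.lf (nat_lit 0) (nat_lit 39150028151) (nat_lit 152) (nat_lit 1931226816) (nat_lit 0) (nat_lit 29070530234) (nat_lit 8) (nat_lit 5) (nat_lit 10) (nat_lit 4) (nat_lit 8) (nat_lit 4) (nat_lit 445) (nat_lit 265) (nat_lit 190)) (XT.nd (nat_lit 78) (nat_lit 0) (nat_lit 0) (XT.lf (nat_lit 0) (nat_lit 8125695603) (nat_lit 76) (nat_lit 37045092824) (nat_lit 76) (nat_lit 26929700510) (nat_lit 7) (nat_lit 4) (nat_lit 8) (nat_lit 5) (nat_lit 8) (nat_lit 4) (nat_lit 446) (nat_lit 265) (nat_lit 189)) (XT.lf (nat_lit 0) (nat_lit 18471634372) (nat_lit 76) (nat_lit 32893240503) (nat_lit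 76) (nat_lit 22742999259) (nat_lit 7) (nat_lit 4) (nat_lit 8) (nat_lit 5) (nat_lit 8) (nat_lit 4) (nat_lit 447) (nat_lit 265) (nat_lit 188)))) (XT.nd (nat_lit 156) (nat_lit 0) (nat_lit 0) (XT.nd (nat_lit 78) (nat_lit 0) (nat_lit 0) (XT.lf (nat_lit 0) (nat_lit 29077194430) (nat_lit 76) (nat_lit 28641571775) (nat_lit 76) (nat_lit 18457496619) (nat_lit 7) (nat_lit 4) (nat_lit 8) (nat_lit 5) (nat_lit 8) (nat_lit 4) (nat_lit 448) (nat_lit 265) (nat_lit 187)) (XT.lf (nat_lit 0) (nat_lit 39951642773) (nat_lit 76) (nat_lit 24286371590) (nat_lit 76) (nat_lit 14069447975) (nat_lit 7) (nat_lit 4) (nat_lit 8) (nat_lit 5) (nat_lit 8) (nat_lit 4) (nat_lit 449) (nat_lit 265) (nat_lit 186))) (XT.nd (nat_lit 40482) (nat_lit 0) (nat_lit 4788) (XT.lf (nat_lit 0) (nat_lit 51104481345) (nat_lit 76) (nat_lit 19823834433) (nat_lit 76) (nat_lit 9575019111) (nat_lit 7) (nat_lit 4) (nat_lit 8) (nat_lit 5) (nat_lit 8) (nat_lit 4)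 (nat_lit 450) (nat_lit 265) (nat_lit 185)) (XT.lf (nat_lit 0) (nat_lit 2604807492) (nat_lit 228) (nat_lit 853695436) (nat_lit 0) (nat_lit 2604807492) (nat_lit 70) (nat_lit 5) (nat_lit 73) (nat_lit 4) (nat_lit 70) (nat_lit 4) (nat_lit 368) (nat_lit 266) (nat_lit 266)))))) (XT.nd (nat_lit 546) (nat_lit 684) (nat_lit 0) (XT.nd (nat_lit 234) (nat_lit 608) (nat_lit 0) (XT.nd (nat_lit 78) (nat_lit 380) (nat_lit 0) (XT.lf (nat_lit 0) (nat_lit 7695582562) (nat_lit 228) (nat_lit 2586969998) (nat_lit 228) (nat_lit 2042402971) (nat_lit 67) (nat_lit 4) (nat_lit 70) (nat_lit 5) (nat_lit 70) (nat_lit 4) (nat_lit 369) (nat_lit 266) (nat_lit 265)) (XT.nd (nat_lit 78) (nat_lit 152) (nat_lit 0) (XT.lf (nat_lit 0) (nat_lit 2894456310) (nat_lit 228) (nat_lit 7782278413) (nat_lit 0) (nat_lit 1852443808) (nat_lit 64) (nat_lit 5) (nat_lit 67) (nat_lit 4) (nat_lit 64) (nat_lit 4) (nat_lit 370) (nat_lit 266) (nat_lit 264)) (XT.lf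 (nat_lit 0) (nat_lit 1559221588) (nat_lit 152) (nat_lit 6360326922) (nat_lit 152) (nat_lit 4819958448) (nat_lit 62) (nat_lit 4) (nat_lit 64) (nat_lit 5) (nat_lit 64) (nat_lit 4) (nat_lit 371) (nat_lit 266) (nat_lit 263)))) (XT.nd (nat_lit 156) (nat_lit 380) (nat_lit 0) (XT.nd (nat_lit 78) (nat_lit 152) (nat_lit 0) (XT.lf (nat_lit 0) (nat_lit 109531880) (nat_lit 228) (nat_lit 1801859505) (nat_lit 76) (nat_lit 11045543195) (nat_lit 61) (nat_lit 5) (nat_lit 64) (nat_lit 5) (nat_lit 62) (nat_lit 4) (nat_lit 372) (nat_lit 266) (nat_lit 262)) (XT.lf (nat_lit 0) (nat_lit 5087702396) (nat_lit 228) (nat_lit 5425455354) (nat_lit 0) (nat_lit 2666384411) (nat_lit 59) (nat_lit 5) (nat_lit 62) (nat_lit 4) (nat_lit 59) (nat_lit 4) (nat_lit 373) (nat_lit 266) (nat_lit 261))) (XT.nd (nat_lit 78) (nat_lit 228) (nat_lit 0) (XT.lf (nat_lit 0) (nat_lit 4104779294) (nat_lit 152) (nat_lit 6084473425) (nat_lit 152) (nat_lit 3220372614)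 (nat_lit 57) (nat_lit 4) (nat_lit 59) (nat_lit 5) (nat_lit 59) (nat_lit 4) (nat_lit 374) (nat_lit 266) (nat_lit 260)) (XT.lf (nat_lit 0) (nat_lit 191225599) (nat_lit 152) (nat_lit 1525627922) (nat_lit 228) (nat_lit 11930615976) (nat_lit 54) (nat_lit 5) (nat_lit 56) (nat_lit 5) (nat_lit 57) (nat_lit 4) (nat_lit 375) (nat_lit 266) (nat_lit 259))))) (XT.nd (nat_lit 234) (nat_lit 304) (nat_lit 0) (XT.nd (nat_lit 78) (nat_lit 380) (nat_lit 0) (XT.lf (nat_lit 0) (nat_lit 6760847437) (nat_lit 228) (nat_lit 3972367780) (nat_lit 0) (nat_lit 3157592747) (nat_lit 54) (nat_lit 5) (nat_lit 57) (nat_lit 4) (nat_lit 54) (nat_lit 4) (nat_lit 376) (nat_lit 266) (nat_lit 258)) (XT.nd (nat_lit 78) (nat_lit 228) (nat_lit 0) (XT.lf (nat_lit 0) (nat_lit 5715388744) (nat_lit 152) (nat_lit 6211802395) (nat_lit 152) (nat_lit 2215140898) (nat_lit 52) (nat_lit 4) (nat_lit 54) (nat_lit 5) (nat_lit 54) (nat_lit 4) (nat_lit 377) (nat_lit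 266) (nat_lit 257)) (XT.lf (nat_lit 0) (nat_lit 1193223464) (nat_lit 152) (nat_lit 1551522011) (nat_lit 228) (nat_lit 11657255329) (nat_lit 49) (nat_lit 5) (nat_lit 51) (nat_lit 5) (nat_lit 52) (nat_lit 4) (nat_lit 378) (nat_lit 266) (nat_lit 256)))) (XT.nd (nat_lit 156) (nat_lit 152) (nat_lit 0) (XT.nd (nat_lit 78) (nat_lit 152) (nat_lit 0) (XT.lf (nat_lit 0) (nat_lit 7827711837) (nat_lit 228) (nat_lit 3623929280) (nat_lit 0) (nat_lit 3216611353) (nat_lit 49) (nat_lit 5) (nat_lit 52) (nat_lit 4) (nat_lit 49) (nat_lit 4) (nat_lit 379) (nat_lit 266) (nat_lit 255)) (XT.lf (nat_lit 0) (nat_lit 6181136341) (nat_lit 152) (nat_lit 6861314352) (nat_lit 152) (nat_lit 1900677016) (nat_lit 47) (nat_lit 4) (nat_lit 49) (nat_lit 5) (nat_lit 49) (nat_lit 4) (nat_lit 380) (nat_lit 266) (nat_lit 254))) (XT.nd (nat_lit 78) (nat_lit 0) (nat_lit 0) (XT.lf (nat_lit 0) (nat_lit 944110196) (nat_lit 76) (nat_lit 2131802956)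 (nat_lit 152) (nat_lit 12150908738) (nat_lit 45) (nat_lit 5) (nat_lit 46) (nat_lit 5) (nat_lit 47) (nat_lit 4) (nat_lit 381) (nat_lit 266) (nat_lit 253)) (XT.lf (nat_lit 0) (nat_lit 8184376138) (nat_lit 152) (nat_lit 4614600547) (nat_lit 0) (nat_lit 2718875643) (nat_lit 45) (nat_lit 5) (nat_lit 47) (nat_lit 4) (nat_lit 45) (nat_lit 4) (nat_lit 382) (nat_lit 266) (nat_lit 252))))))))
noncomputable def xc32 : XT := (XT.nd (nat_lit 2028) (nat_lit 836) (nat_lit 0) (XT.nd (nat_lit 1014) (nat_lit 608) (nat_lit 0) (XT.nd (nat_lit 468) (nat_lit 608) (nat_lit 0) (XT.nd (nat_lit 234) (nat_lit 304) (nat_lit 0) (XT.nd (nat_lit 78) (nat_lit 152) (nat_lit 0) (XT.lf (nat_lit 0) (nat_lit 5256866406) (nat_lit 152) (nat_lit 8168717459) (nat_lit 152) (nat_lit 2392657998) (nat_lit 43) (nat_lit 4) (nat_lit 45) (nat_lit 5) (nat_lit 45) (nat_lit 4) (nat_lit 383) (nat_lit 266) (nat_lit 251)) (XT.nd (nat_lit 78) (nat_lit 76) (nat_lit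 0) (XT.lf (nat_lit 0) (nat_lit 2598849415) (nat_lit 228) (nat_lit 801908705) (nat_lit 76) (nat_lit 12727467127) (nat_lit 42) (nat_lit 5) (nat_lit 45) (nat_lit 5) (nat_lit 43) (nat_lit 4) (nat_lit 384) (nat_lit 266) (nat_lit 250)) (XT.lf (nat_lit 0) (nat_lit 7706485835) (nat_lit 152) (nat_lit 7218165148) (nat_lit 0) (nat_lit 1521724058) (nat_lit 41) (nat_lit 5) (nat_lit 43) (nat_lit 4) (nat_lit 41) (nat_lit 4) (nat_lit 385) (nat_lit 266) (nat_lit 249)))) (XT.nd (nat_lit 78) (nat_lit 152) (nat_lit 0) (XT.lf (nat_lit 0) (nat_lit 2656122743) (nat_lit 152) (nat_lit 10289647442) (nat_lit 152) (nat_lit 3828958047) (nat_lit 39) (nat_lit 4) (nat_lit 41) (nat_lit 5) (nat_lit 41) (nat_lit 4) (nat_lit 386) (nat_lit 266) (nat_lit 248)) (XT.nd (nat_lit 78) (nat_lit 76) (nat_lit 0) (XT.lf (nat_lit 0) (nat_lit 1190112258) (nat_lit 228) (nat_lit 4312652402) (nat_lit 76) (nat_lit 11610279686) (nat_lit 38) (nat_lit 5) (nat_lit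 41) (nat_lit 5) (nat_lit 39) (nat_lit 4) (nat_lit 387) (nat_lit 266) (nat_lit 247)) (XT.lf (nat_lit 0) (nat_lit 5701630901) (nat_lit 76) (nat_lit 549748129) (nat_lit 152) (nat_lit 11209946617) (nat_lit 37) (nat_lit 5) (nat_lit 38) (nat_lit 5) (nat_lit 39) (nat_lit 4) (nat_lit 388) (nat_lit 266) (nat_lit 246))))) (XT.nd (nat_lit 234) (nat_lit 380) (nat_lit 0) (XT.nd (nat_lit 78) (nat_lit 228) (nat_lit 0) (XT.lf (nat_lit 0) (nat_lit 11466294714) (nat_lit 152) (nat_lit 1917695017) (nat_lit 0) (nat_lit 4436021519) (nat_lit 37) (nat_lit 5) (nat_lit 39) (nat_lit 4) (nat_lit 37) (nat_lit 4) (nat_lit 389) (nat_lit 266) (nat_lit 245)) (XT.nd (nat_lit 78) (nat_lit 76) (nat_lit 0) (XT.lf (nat_lit 0) (nat_lit 8219655052) (nat_lit 152) (nat_lit 8619036025) (nat_lit 152) (nat_lit 1350745242) (nat_lit 35) (nat_lit 4) (nat_lit 37) (nat_lit 5) (nat_lit 37) (nat_lit 4) (nat_lit 390) (nat_lit 266) (nat_lit 244)) (XT.lf (nat_lit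 0) (nat_lit 3664382649) (nat_lit 228) (nat_lit 60679041) (nat_lit 76) (nat_lit 14845707339) (nat_lit 34) (nat_lit 5) (nat_lit 37) (nat_lit 5) (nat_lit 35) (nat_lit 4) (nat_lit 391) (nat_lit 266) (nat_lit 243)))) (XT.nd (nat_lit 156) (nat_lit 152) (nat_lit 0) (XT.nd (nat_lit 78) (nat_lit 152) (nat_lit 0) (XT.lf (nat_lit 0) (nat_lit 8832890041) (nat_lit 152) (nat_lit 8795234459) (nat_lit 0) (nat_lit 1334122833) (nat_lit 33) (nat_lit 5) (nat_lit 35) (nat_lit 4) (nat_lit 33) (nat_lit 4) (nat_lit 392) (nat_lit 266) (nat_lit 242)) (XT.lf (nat_lit 0) (nat_lit 1172557552) (nat_lit 152) (nat_lit 12952059522) (nat_lit 152) (nat_lit 5241816771) (nat_lit 31) (nat_lit 4) (nat_lit 33) (nat_lit 5) (nat_lit 33) (nat_lit 4) (nat_lit 393) (nat_lit 266) (nat_lit 241))) (XT.nd (nat_lit 78) (nat_lit 152) (nat_lit 0) (XT.lf (nat_lit 0) (nat_lit 11470391872) (nat_lit 152) (nat_lit 8113823916) (nat_lit 152) (nat_lit 198265102)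 (nat_lit 31) (nat_lit 4) (nat_lit 33) (nat_lit 5) (nat_lit 33) (nat_lit 4) (nat_lit 394) (nat_lit 266) (nat_lit 240)) (XT.lf (nat_lit 0) (nat_lit 1704889740) (nat_lit 76) (nat_lit 3132442543) (nat_lit 152) (nat_lit 15374096977) (nat_lit 29) (nat_lit 5) (nat_lit 30) (nat_lit 5) (nat_lit 31) (nat_lit 4) (nat_lit 395) (nat_lit 266) (nat_lit 239)))))) (XT.nd (nat_lit 468) (nat_lit 380) (nat_lit 0) (XT.nd (nat_lit 234) (nat_lit 152) (nat_lit 0) (XT.nd (nat_lit 78) (nat_lit 76) (nat_lit 0) (XT.lf (nat_lit 0) (nat_lit 10046071403) (nat_lit 152) (nat_lit 8626702351) (nat_lit 0) (nat_lit 1979639485) (nat_lit 29) (nat_lit 5) (nat_lit 31) (nat_lit 4) (nat_lit 29) (nat_lit 4) (nat_lit 396) (nat_lit 266) (nat_lit 238)) (XT.nd (nat_lit 78) (nat_lit 0) (nat_lit 0) (XT.lf (nat_lit 0) (nat_lit 1403437538) (nat_lit 76) (nat_lit 13976491831) (nat_lit 76) (nat_lit 5727639250) (nat_lit 28) (nat_lit 4) (nat_lit 29) (nat_lit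 5) (nat_lit 29) (nat_lit 4) (nat_lit 397) (nat_lit 266) (nat_lit 237)) (XT.lf (nat_lit 0) (nat_lit 11770253041) (nat_lit 76) (nat_lit 9115861823) (nat_lit 76) (nat_lit 689901804) (nat_lit 28) (nat_lit 4) (nat_lit 29) (nat_lit 5) (nat_lit 29) (nat_lit 4) (nat_lit 398) (nat_lit 266) (nat_lit 236)))) (XT.nd (nat_lit 78) (nat_lit 0) (nat_lit 0) (XT.lf (nat_lit 0) (nat_lit 212019812) (nat_lit 76) (nat_lit 4127846592) (nat_lit 152) (nat_lit 17719500599) (nat_lit 26) (nat_lit 5) (nat_lit 27) (nat_lit 5) (nat_lit 28) (nat_lit 4) (nat_lit 399) (nat_lit 266) (nat_lit 235)) (XT.nd (nat_lit 78) (nat_lit 0) (nat_lit 0) (XT.lf (nat_lit 0) (nat_lit 9543217620) (nat_lit 152) (nat_lit 11979050583) (nat_lit 0) (nat_lit 1033654769) (nat_lit 26) (nat_lit 5) (nat_lit 28) (nat_lit 4) (nat_lit 26) (nat_lit 4) (nat_lit 400) (nat_lit 266) (nat_lit 234)) (XT.lf (nat_lit 0) (nat_lit 14872519751) (nat_lit 152) (nat_lit 1990167664)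 (nat_lit 0) (nat_lit 6205599236) (nat_lit 26) (nat_lit 5) (nat_lit 28) (nat_lit 4) (nat_lit 26) (nat_lit 4) (nat_lit 401) (nat_lit 266) (nat_lit 233))))) (XT.nd (nat_lit 234) (nat_lit 152) (nat_lit 0) (XT.nd (nat_lit 78) (nat_lit 152) (nat_lit 0) (XT.lf (nat_lit 0) (nat_lit 8330262529) (nat_lit 76) (nat_lit 12042563134) (nat_lit 76) (nat_lit 3222868186) (nat_lit 25) (nat_lit 4) (nat_lit 26) (nat_lit 5) (nat_lit 26) (nat_lit 4) (nat_lit 402) (nat_lit 266) (nat_lit 232)) (XT.nd (nat_lit 78) (nat_lit 76) (nat_lit 0) (XT.lf (nat_lit 0) (nat_lit 1813585151) (nat_lit 152) (nat_lit 5286441781) (nat_lit 76) (nat_lit 17039811775) (nat_lit 24) (nat_lit 5) (nat_lit 26) (nat_lit 5) (nat_lit 25) (nat_lit 4) (nat_lit 403) (nat_lit 266) (nat_lit 231)) (XT.lf (nat_lit 0) (nat_lit 4929235659) (nat_lit 76) (nat_lit 1987641115) (nat_lit 152) (nat_lit 17783064027) (nat_lit 23) (nat_lit 5) (nat_lit 24) (nat_lit 5) (nat_lit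 25) (nat_lit 4) (nat_lit 404) (nat_lit 266) (nat_lit 230)))) (XT.nd (nat_lit 156) (nat_lit 76) (nat_lit 0) (XT.nd (nat_lit 78) (nat_lit 76) (nat_lit 0) (XT.lf (nat_lit 0) (nat_lit 12191994109) (nat_lit 152) (nat_lit 9874665110) (nat_lit 0) (nat_lit 3209630573) (nat_lit 23) (nat_lit 5) (nat_lit 25) (nat_lit 4) (nat_lit 23) (nat_lit 4) (nat_lit 405) (nat_lit 266) (nat_lit 229)) (XT.lf (nat_lit 0) (nat_lit 178634022) (nat_lit 76) (nat_lit 17403374749) (nat_lit 76) (nat_lit 8289226645) (nat_lit 22) (nat_lit 4) (nat_lit 23) (nat_lit 5) (nat_lit 23) (nat_lit 4) (nat_lit 406) (nat_lit 266) (nat_lit 228))) (XT.nd (nat_lit 78) (nat_lit 76) (nat_lit 0) (XT.lf (nat_lit 0) (nat_lit 10613734883) (nat_lit 76) (nat_lit 12555661969) (nat_lit 76) (nat_lit 3313567684) (nat_lit 22) (nat_lit 4) (nat_lit 23) (nat_lit 5) (nat_lit 23) (nat_lit 4) (nat_lit 407) (nat_lit 266) (nat_lit 227)) (XT.lf (nat_lit 0) (nat_lit 1713217715)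 (nat_lit 152) (nat_lit 5888481916) (nat_lit 76) (nat_lit 19512712469) (nat_lit 21) (nat_lit 5) (nat_lit 23) (nat_lit 5) (nat_lit 22) (nat_lit 4) (nat_lit 408) (nat_lit 266) (nat_lit 226))))))) (XT.nd (nat_lit 1014) (nat_lit 380) (nat_lit 0) (XT.nd (nat_lit 468) (nat_lit 228) (nat_lit 0) (XT.nd (nat_lit 234) (nat_lit 152) (nat_lit 0) (XT.nd (nat_lit 78) (nat_lit 0) (nat_lit 0) (XT.lf (nat_lit 0) (nat_lit 4326893298) (nat_lit 76) (nat_lit 2477938586) (nat_lit 152) (nat_lit 20959573108) (nat_lit 20) (nat_lit 5) (nat_lit 21) (nat_lit 5) (nat_lit 22) (nat_lit 4) (nat_lit 409) (nat_lit 266) (nat_lit 225)) (XT.nd (nat_lit 78) (nat_lit 0) (nat_lit 0) (XT.lf (nat_lit 0) (nat_lit 12075327216) (nat_lit 152) (nat_lit 13606740008) (nat_lit 0) (nat_lit 2751051189) (nat_lit 20) (nat_lit 5) (nat_lit 22) (nat_lit 4) (nat_lit 20) (nat_lit 4) (nat_lit 410) (nat_lit 266) (nat_lit 224)) (XT.lf (nat_lit 0) (nat_lit 17469414209)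 (nat_lit 152) (nat_lit 3618748631) (nat_lit 0) (nat_lit 8034770681) (nat_lit 20) (nat_lit 5) (nat_lit 22) (nat_lit 4) (nat_lit 20) (nat_lit 4) (nat_lit 411) (nat_lit 266) (nat_lit 223)))) (XT.nd (nat_lit 78) (nat_lit 76) (nat_lit 0) (XT.lf (nat_lit 0) (nat_lit 6689546414) (nat_lit 76) (nat_lit 16342744277) (nat_lit 76) (nat_lit 6800947836) (nat_lit 19) (nat_lit 4) (nat_lit 20) (nat_lit 5) (nat_lit 20) (nat_lit 4) (nat_lit 412) (nat_lit 266) (nat_lit 222)) (XT.nd (nat_lit 78) (nat_lit 76) (nat_lit 0) (XT.lf (nat_lit 0) (nat_lit 17272475080) (nat_lit 76) (nat_lit 11469407723) (nat_lit 76) (nat_lit 1823579327) (nat_lit 19) (nat_lit 4) (nat_lit 20) (nat_lit 5) (nat_lit 20) (nat_lit 4) (nat_lit 413) (nat_lit 266) (nat_lit 221)) (XT.lf (nat_lit 0) (nat_lit 3183044284) (nat_lit 152) (nat_lit 3285250395) (nat_lit 76) (nat_lit 24852077602) (nat_lit 18) (nat_lit 5) (nat_lit 20) (nat_lit 5) (nat_lit 19) (nat_lit 4)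 (nat_lit 414) (nat_lit 266) (nat_lit 220))))) (XT.nd (nat_lit 234) (nat_lit 152) (nat_lit 0) (XT.nd (nat_lit 78) (nat_lit 0) (nat_lit 0) (XT.lf (nat_lit 0) (nat_lit 7038378055) (nat_lit 76) (nat_lit 1278502951) (nat_lit 152) (nat_lit 23780101036) (nat_lit 17) (nat_lit 5) (nat_lit 18) (nat_lit 5) (nat_lit 19) (nat_lit 4) (nat_lit 415) (nat_lit 266) (nat_lit 219)) (XT.nd (nat_lit 78) (nat_lit 0) (nat_lit 0) (XT.lf (nat_lit 0) (nat_lit 13623452686) (nat_lit 152) (nat_lit 15300004021) (nat_lit 0) (nat_lit 3972875634) (nat_lit 17) (nat_lit 5) (nat_lit 19) (nat_lit 4) (nat_lit 17) (nat_lit 4) (nat_lit 416) (nat_lit 266) (nat_lit 218)) (XT.lf (nat_lit 0) (nat_lit 19049571692) (nat_lit 152) (nat_lit 5362028918) (nat_lit 0) (nat_lit 9309255763) (nat_lit 17) (nat_lit 5) (nat_lit 19) (nat_lit 4) (nat_lit 17) (nat_lit 4) (nat_lit 417) (nat_lit 266) (nat_lit 217)))) (XT.nd (nat_lit 156) (nat_lit 76) (nat_lit 0) (XT.nd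 (nat_lit 78) (nat_lit 0) (nat_lit 0) (XT.lf (nat_lit 0) (nat_lit 4871352370) (nat_lit 76) (nat_lit 19763163591) (nat_lit 76) (nat_lit 9935722537) (nat_lit 16) (nat_lit 4) (nat_lit 17) (nat_lit 5) (nat_lit 17) (nat_lit 4) (nat_lit 418) (nat_lit 266) (nat_lit 216)) (XT.lf (nat_lit 0) (nat_lit 15424819470) (nat_lit 76) (nat_lit 14966098698) (nat_lit 76) (nat_lit 5054070146) (nat_lit 16) (nat_lit 4) (nat_lit 17) (nat_lit 5) (nat_lit 17) (nat_lit 4) (nat_lit 419) (nat_lit 266) (nat_lit 215))) (XT.nd (nat_lit 78) (nat_lit 76) (nat_lit 0) (XT.lf (nat_lit 0) (nat_lit 26200878967) (nat_lit 76) (nat_lit 10070360302) (nat_lit 76) (nat_lit 76207964) (nat_lit 16) (nat_lit 4) (nat_lit 17) (nat_lit 5) (nat_lit 17) (nat_lit 4) (nat_lit 420) (nat_lit 266) (nat_lit 214)) (XT.lf (nat_lit 0) (nat_lit 4904602391) (nat_lit 152) (nat_lit 117541314) (nat_lit 76) (nat_lit 32254817577) (nat_lit 15) (nat_lit 5) (nat_lit 17) (nat_lit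 5) (nat_lit 16) (nat_lit 4) (nat_lit 421) (nat_lit 266) (nat_lit 213)))))) (XT.nd (nat_lit 546) (nat_lit 228) (nat_lit 0) (XT.nd (nat_lit 234) (nat_lit 76) (nat_lit 0) (XT.nd (nat_lit 78) (nat_lit 0) (nat_lit 0) (XT.lf (nat_lit 0) (nat_lit 10088391527) (nat_lit 152) (nat_lit 27911530564) (nat_lit 0) (nat_lit 232766563) (nat_lit 14) (nat_lit 5) (nat_lit 16) (nat_lit 4) (nat_lit 14) (nat_lit 4) (nat_lit 422) (nat_lit 266) (nat_lit 212)) (XT.nd (nat_lit 78) (nat_lit 0) (nat_lit 0) (XT.lf (nat_lit 0) (nat_lit 15432274804) (nat_lit 152) (nat_lit 18280994743) (nat_lit 0) (nat_lit 5503683920) (nat_lit 14) (nat_lit 5) (nat_lit 16) (nat_lit 4) (nat_lit 14) (nat_lit 4) (nat_lit 423) (nat_lit 266) (nat_lit 211)) (XT.lf (nat_lit 0) (nat_lit 20891481941) (nat_lit 152) (nat_lit 8448566649) (nat_lit 0) (nat_lit 10892050358) (nat_lit 14) (nat_lit 5) (nat_lit 16) (nat_lit 4) (nat_lit 14) (nat_lit 4) (nat_lit 424) (nat_lit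 266) (nat_lit 210)))) (XT.nd (nat_lit 156) (nat_lit 0) (nat_lit 0) (XT.nd (nat_lit 78) (nat_lit 0) (nat_lit 0) (XT.lf (nat_lit 0) (nat_lit 1626075753) (nat_lit 76) (nat_lit 24860338199) (nat_lit 76) (nat_lit 14792129239) (nat_lit 13) (nat_lit 4) (nat_lit 14) (nat_lit 5) (nat_lit 14) (nat_lit 4) (nat_lit 425) (nat_lit 266) (nat_lit 209)) (XT.lf (nat_lit 0) (nat_lit 12092483959) (nat_lit 76) (nat_lit 20198809848) (nat_lit 76) (nat_lit 10063826736) (nat_lit 13) (nat_lit 4) (nat_lit 14) (nat_lit 5) (nat_lit 14) (nat_lit 4) (nat_lit 426) (nat_lit 266) (nat_lit 208))) (XT.nd (nat_lit 78) (nat_lit 0) (nat_lit 0) (XT.lf (nat_lit 0) (nat_lit 22791660329) (nat_lit 76) (nat_lit 15436704315) (nat_lit 76) (nat_lit 5236891927) (nat_lit 13) (nat_lit 4) (nat_lit 14) (nat_lit 5) (nat_lit 14) (nat_lit 4) (nat_lit 427) (nat_lit 266) (nat_lit 207)) (XT.lf (nat_lit 0) (nat_lit 33732953660) (nat_lit 76) (nat_lit 10569860535)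 (nat_lit 76) (nat_lit 307107104) (nat_lit 13) (nat_lit 4) (nat_lit 14) (nat_lit 5) (nat_lit 14) (nat_lit 4) (nat_lit 428) (nat_lit 266) (nat_lit 206))))) (XT.nd (nat_lit 234) (nat_lit 76) (nat_lit 0) (XT.nd (nat_lit 78) (nat_lit 76) (nat_lit 0) (XT.lf (nat_lit 0) (nat_lit 4637539189) (nat_lit 152) (nat_lit 909656685) (nat_lit 76) (nat_lit 40241555062) (nat_lit 12) (nat_lit 5) (nat_lit 14) (nat_lit 5) (nat_lit 13) (nat_lit 4) (nat_lit 429) (nat_lit 266) (nat_lit 205)) (XT.nd (nat_lit 78) (nat_lit 0) (nat_lit 0) (XT.lf (nat_lit 0) (nat_lit 9463188131) (nat_lit 76) (nat_lit 313352430) (nat_lit 152) (nat_lit 37224750428) (nat_lit 11) (nat_lit 5) (nat_lit 12) (nat_lit 5) (nat_lit 13) (nat_lit 4) (nat_lit 430) (nat_lit 266) (nat_lit 204)) (XT.lf (nat_lit 0) (nat_lit 15089087505) (nat_lit 152) (nat_lit 28208141817) (nat_lit 0) (nat_lit 4952398980) (nat_lit 11) (nat_lit 5) (nat_lit 13) (nat_lit 4) (nat_lit 11)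 (nat_lit 4) (nat_lit 431) (nat_lit 266) (nat_lit 203)))) (XT.nd (nat_lit 156) (nat_lit 76) (nat_lit 0) (XT.nd (nat_lit 78) (nat_lit 0) (nat_lit 0) (XT.lf (nat_lit 0) (nat_lit 20526531547) (nat_lit 152) (nat_lit 18674371299) (nat_lit 0) (nat_lit 10335549525) (nat_lit 11) (nat_lit 5) (nat_lit 13) (nat_lit 4) (nat_lit 11) (nat_lit 4) (nat_lit 432) (nat_lit 266) (nat_lit 202)) (XT.lf (nat_lit 0) (nat_lit 26090611716) (nat_lit 152) (nat_lit 8925448691) (nat_lit 0) (nat_lit 15846917562) (nat_lit 11) (nat_lit 5) (nat_lit 13) (nat_lit 4) (nat_lit 11) (nat_lit 4) (nat_lit 433) (nat_lit 266) (nat_lit 201))) (XT.nd (nat_lit 78) (nat_lit 0) (nat_lit 0) (XT.lf (nat_lit 0) (nat_lit 1067984710) (nat_lit 76) (nat_lit 30728471243) (nat_lit 76) (nat_lit 20433600260) (nat_lit 10) (nat_lit 4) (nat_lit 11) (nat_lit 5) (nat_lit 11) (nat_lit 4) (nat_lit 434) (nat_lit 266) (nat_lit 200)) (XT.lf (nat_lit 0) (nat_lit 11476061431)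 (nat_lit 76) (nat_lit 26252496100) (nat_lit 76) (nat_lit 15907938877) (nat_lit 10) (nat_lit 4) (nat_lit 11) (nat_lit 5) (nat_lit 11) (nat_lit 4) (nat_lit 435) (nat_lit 266) (nat_lit 199))))))))
noncomputable def xc33 : XT := (XT.nd (nat_lit 42354) (nat_lit 0) (nat_lit 1216) (XT.nd (nat_lit 1014) (nat_lit 0) (nat_lit 0) (XT.nd (nat_lit 468) (nat_lit 76) (nat_lit 0) (XT.nd (nat_lit 234) (nat_lit 152) (nat_lit 0) (XT.nd (nat_lit 78) (nat_lit 0) (nat_lit 0) (XT.lf (nat_lit 0) (nat_lit 22130241977) (nat_lit 76) (nat_lit 21674353465) (nat_lit 76) (nat_lit 11281557173) (nat_lit 10) (nat_lit 4) (nat_lit 11) (nat_lit 5) (nat_lit 11) (nat_lit 4) (nat_lit 436) (nat_lit 266) (nat_lit 198)) (XT.nd (nat_lit 78) (nat_lit 0) (nat_lit 0) (XT.lf (nat_lit 0) (nat_lit 33039835827) (nat_lit 76) (nat_lit 16990043019) (nat_lit 76) (nat_lit 6550412680) (nat_lit 10) (nat_lit 4) (nat_lit 11) (nat_lit 5) (nat_lit 11) (nat_lit 4)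 (nat_lit 437) (nat_lit 266) (nat_lit 197)) (XT.lf (nat_lit 0) (nat_lit 44214375634) (nat_lit 76) (nat_lit 12195471675) (nat_lit 76) (nat_lit 1710371386) (nat_lit 10) (nat_lit 4) (nat_lit 11) (nat_lit 5) (nat_lit 11) (nat_lit 4) (nat_lit 438) (nat_lit 266) (nat_lit 196)))) (XT.nd (nat_lit 78) (nat_lit 76) (nat_lit 0) (XT.lf (nat_lit 0) (nat_lit 3179517240) (nat_lit 152) (nat_lit 4074825871) (nat_lit 76) (nat_lit 52452001431) (nat_lit 9) (nat_lit 5) (nat_lit 11) (nat_lit 5) (nat_lit 10) (nat_lit 4) (nat_lit 439) (nat_lit 266) (nat_lit 195)) (XT.nd (nat_lit 78) (nat_lit 0) (nat_lit 0) (XT.lf (nat_lit 0) (nat_lit 6093725413) (nat_lit 76) (nat_lit 2116043587) (nat_lit 152) (nat_lit 53128937566) (nat_lit 8) (nat_lit 5) (nat_lit 9) (nat_lit 5) (nat_lit 10) (nat_lit 4) (nat_lit 440) (nat_lit 266) (nat_lit 194)) (XT.lf (nat_lit 0) (nat_lit 13432533093) (nat_lit 152) (nat_lit 46458306509) (nat_lit 0) (nat_lit 3127953382)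 (nat_lit 8) (nat_lit 5) (nat_lit 10) (nat_lit 4) (nat_lit 8) (nat_lit 4) (nat_lit 441) (nat_lit 266) (nat_lit 193))))) (XT.nd (nat_lit 234) (nat_lit 76) (nat_lit 0) (XT.nd (nat_lit 78) (nat_lit 0) (nat_lit 0) (XT.lf (nat_lit 0) (nat_lit 18803334996) (nat_lit 152) (nat_lit 37486675477) (nat_lit 0) (nat_lit 8459532508) (nat_lit 8) (nat_lit 5) (nat_lit 10) (nat_lit 4) (nat_lit 8) (nat_lit 4) (nat_lit 442) (nat_lit 266) (nat_lit 192)) (XT.nd (nat_lit 78) (nat_lit 0) (nat_lit 0) (XT.lf (nat_lit 0) (nat_lit 24306526936) (nat_lit 152) (nat_lit 28301908062) (nat_lit 0) (nat_lit 13924644081) (nat_lit 8) (nat_lit 5) (nat_lit 10) (nat_lit 4) (nat_lit 8) (nat_lit 4) (nat_lit 443) (nat_lit 266) (nat_lit 191)) (XT.lf (nat_lit 0) (nat_lit 29946917528) (nat_lit 152) (nat_lit 18895978740) (nat_lit 0) (nat_lit 19528063444) (nat_lit 8) (nat_lit 5) (nat_lit 10) (nat_lit 4) (nat_lit 8) (nat_lit 4) (nat_lit 444) (nat_lit 266)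 (nat_lit 190)))) (XT.nd (nat_lit 156) (nat_lit 0) (nat_lit 0) (XT.nd (nat_lit 78) (nat_lit 76) (nat_lit 0) (XT.lf (nat_lit 0) (nat_lit 35729435268) (nat_lit 152) (nat_lit 9260668737) (nat_lit 0) (nat_lit 25274686786) (nat_lit 8) (nat_lit 5) (nat_lit 10) (nat_lit 4) (nat_lit 8) (nat_lit 4) (nat_lit 445) (nat_lit 266) (nat_lit 189)) (XT.lf (nat_lit 0) (nat_lit 624629928) (nat_lit 76) (nat_lit 41040507238) (nat_lit 76) (nat_lit 30550909827) (nat_lit 7) (nat_lit 4) (nat_lit 8) (nat_lit 5) (nat_lit 8) (nat_lit 4) (nat_lit 446) (nat_lit 266) (nat_lit 188))) (XT.nd (nat_lit 78) (nat_lit 0) (nat_lit 0) (XT.lf (nat_lit 0) (nat_lit 10945565311) (nat_lit 76) (nat_lit 36900841696) (nat_lit 76) (nat_lit 26377410373) (nat_lit 7) (nat_lit 4) (nat_lit 8) (nat_lit 5) (nat_lit 8) (nat_lit 4) (nat_lit 447) (nat_lit 266) (nat_lit 187)) (XT.lf (nat_lit 0) (nat_lit 21526850238) (nat_lit 76) (nat_lit 32661004793) (nat_lit 76)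 (nat_lit 22104725011) (nat_lit 7) (nat_lit 4) (nat_lit 8) (nat_lit 5) (nat_lit 8) (nat_lit 4) (nat_lit 448) (nat_lit 266) (nat_lit 186)))))) (XT.nd (nat_lit 40794) (nat_lit 0) (nat_lit 3420) (XT.nd (nat_lit 40482) (nat_lit 0) (nat_lit 4332) (XT.nd (nat_lit 78) (nat_lit 0) (nat_lit 0) (XT.lf (nat_lit 0) (nat_lit 32377730492) (nat_lit 76) (nat_lit 28317291817) (nat_lit 76) (nat_lit 17729120328) (nat_lit 7) (nat_lit 4) (nat_lit 8) (nat_lit 5) (nat_lit 8) (nat_lit 4) (nat_lit 449) (nat_lit 266) (nat_lit 185)) (XT.nd (nat_lit 40326) (nat_lit 0) (nat_lit 5016) (XT.lf (nat_lit 0) (nat_lit 43507687424) (nat_lit 76) (nat_lit 23865907290) (nat_lit 76) (nat_lit 13246772978) (nat_lit 7) (nat_lit 4) (nat_lit 8) (nat_lit 5) (nat_lit 8) (nat_lit 4) (nat_lit 450) (nat_lit 266) (nat_lit 184)) (XT.lf (nat_lit 0) (nat_lit 1859134154) (nat_lit 228) (nat_lit 2006929066) (nat_lit 228) (nat_lit 2006929066) (nat_lit 73) (nat_lit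 4) (nat_lit 76) (nat_lit 5) (nat_lit 76) (nat_lit 4) (nat_lit 366) (nat_lit 267) (nat_lit 267)))) (XT.nd (nat_lit 156) (nat_lit 456) (nat_lit 0) (XT.nd (nat_lit 78) (nat_lit 0) (nat_lit 0) (XT.lf (nat_lit 0) (nat_lit 812747432) (nat_lit 228) (nat_lit 10870471723) (nat_lit 0) (nat_lit 251843395) (nat_lit 70) (nat_lit 5) (nat_lit 73) (nat_lit 4) (nat_lit 70) (nat_lit 4) (nat_lit 367) (nat_lit 267) (nat_lit 266)) (XT.lf (nat_lit 0) (nat_lit 5717542761) (nat_lit 228) (nat_lit 1798606820) (nat_lit 0) (nat_lit 4612071698) (nat_lit 70) (nat_lit 5) (nat_lit 73) (nat_lit 4) (nat_lit 70) (nat_lit 4) (nat_lit 368) (nat_lit 267) (nat_lit 265))) (XT.nd (nat_lit 78) (nat_lit 228) (nat_lit 0) (XT.lf (nat_lit 0) (nat_lit 7512229565) (nat_lit 228) (nat_lit 3225055008) (nat_lit 228) (nat_lit 1590878094) (nat_lit 67) (nat_lit 4) (nat_lit 70) (nat_lit 5) (nat_lit 70) (nat_lit 4) (nat_lit 369) (nat_lit 267) (nat_lit 264)) (XT.lf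 (nat_lit 0) (nat_lit 3276660070) (nat_lit 228) (nat_lit 8065696328) (nat_lit 0) (nat_lit 1191724570) (nat_lit 64) (nat_lit 5) (nat_lit 67) (nat_lit 4) (nat_lit 64) (nat_lit 4) (nat_lit 370) (nat_lit 267) (nat_lit 263))))) (XT.nd (nat_lit 234) (nat_lit 532) (nat_lit 0) (XT.nd (nat_lit 78) (nat_lit 228) (nat_lit 0) (XT.lf (nat_lit 0) (nat_lit 1179367763) (nat_lit 152) (nat_lit 7067733657) (nat_lit 152) (nat_lit 4498957408) (nat_lit 62) (nat_lit 4) (nat_lit 64) (nat_lit 5) (nat_lit 64) (nat_lit 4) (nat_lit 371) (nat_lit 267) (nat_lit 262)) (XT.nd (nat_lit 78) (nat_lit 152) (nat_lit 0) (XT.lf (nat_lit 0) (nat_lit 373399575) (nat_lit 228) (nat_lit 2280523412) (nat_lit 76) (nat_lit 10311006316) (nat_lit 61) (nat_lit 5) (nat_lit 64) (nat_lit 5) (nat_lit 62) (nat_lit 4) (nat_lit 372) (nat_lit 267) (nat_lit 261)) (XT.lf (nat_lit 0) (nat_lit 5289090701) (nat_lit 228) (nat_lit 6004045591) (nat_lit 0) (nat_lit 1896284040)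 (nat_lit 59) (nat_lit 5) (nat_lit 62) (nat_lit 4) (nat_lit 59) (nat_lit 4) (nat_lit 373) (nat_lit 267) (nat_lit 260)))) (XT.nd (nat_lit 156) (nat_lit 304) (nat_lit 0) (XT.nd (nat_lit 78) (nat_lit 76) (nat_lit 0) (XT.lf (nat_lit 0) (nat_lit 3426102320) (nat_lit 152) (nat_lit 6908886231) (nat_lit 152) (nat_lit 3086193330) (nat_lit 57) (nat_lit 4) (nat_lit 59) (nat_lit 5) (nat_lit 59) (nat_lit 4) (nat_lit 374) (nat_lit 267) (nat_lit 259)) (XT.lf (nat_lit 0) (nat_lit 1797563197) (nat_lit 228) (nat_lit 591004890) (nat_lit 76) (nat_lit 11271953099) (nat_lit 56) (nat_lit 5) (nat_lit 59) (nat_lit 5) (nat_lit 57) (nat_lit 4) (nat_lit 375) (nat_lit 267) (nat_lit 258))) (XT.nd (nat_lit 78) (nat_lit 152) (nat_lit 0) (XT.lf (nat_lit 0) (nat_lit 6778634574) (nat_lit 228) (nat_lit 4858454384) (nat_lit 0) (nat_lit 2268666426) (nat_lit 54) (nat_lit 5) (nat_lit 57) (nat_lit 4) (nat_lit 54) (nat_lit 4) (nat_lit 376) (nat_lit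 267) (nat_lit 257)) (XT.lf (nat_lit 0) (nat_lit 4725301464) (nat_lit 152) (nat_lit 7162804247) (nat_lit 152) (nat_lit 2270887744) (nat_lit 52) (nat_lit 4) (nat_lit 54) (nat_lit 5) (nat_lit 54) (nat_lit 4) (nat_lit 377) (nat_lit 267) (nat_lit 256))))))) (XT.nd (nat_lit 1014) (nat_lit 912) (nat_lit 0) (XT.nd (nat_lit 468) (nat_lit 608) (nat_lit 0) (XT.nd (nat_lit 234) (nat_lit 304) (nat_lit 0) (XT.nd (nat_lit 78) (nat_lit 152) (nat_lit 0) (XT.lf (nat_lit 0) (nat_lit 80499285) (nat_lit 152) (nat_lit 2551638367) (nat_lit 228) (nat_lit 11788286481) (nat_lit 49) (nat_lit 5) (nat_lit 51) (nat_lit 5) (nat_lit 52) (nat_lit 4) (nat_lit 378) (nat_lit 267) (nat_lit 255)) (XT.nd (nat_lit 78) (nat_lit 152) (nat_lit 0) (XT.lf (nat_lit 0) (nat_lit 7658448430) (nat_lit 228) (nat_lit 4830479072) (nat_lit 0) (nat_lit 2199455122) (nat_lit 49) (nat_lit 5) (nat_lit 52) (nat_lit 4) (nat_lit 49) (nat_lit 4) (nat_lit 379) (nat_lit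 267) (nat_lit 254)) (XT.lf (nat_lit 0) (nat_lit 4866391318) (nat_lit 152) (nat_lit 7948486132) (nat_lit 152) (nat_lit 2150136657) (nat_lit 47) (nat_lit 4) (nat_lit 49) (nat_lit 5) (nat_lit 49) (nat_lit 4) (nat_lit 380) (nat_lit 267) (nat_lit 253)))) (XT.nd (nat_lit 78) (nat_lit 228) (nat_lit 0) (XT.lf (nat_lit 0) (nat_lit 2776665481) (nat_lit 228) (nat_lit 491190553) (nat_lit 76) (nat_lit 11982570417) (nat_lit 46) (nat_lit 5) (nat_lit 49) (nat_lit 5) (nat_lit 47) (nat_lit 4) (nat_lit 381) (nat_lit 267) (nat_lit 252)) (XT.nd (nat_lit 78) (nat_lit 152) (nat_lit 0) (XT.lf (nat_lit 0) (nat_lit 7823951494) (nat_lit 152) (nat_lit 6155295780) (nat_lit 0) (nat_lit 1564051284) (nat_lit 45) (nat_lit 5) (nat_lit 47) (nat_lit 4) (nat_lit 45) (nat_lit 4) (nat_lit 382) (nat_lit 267) (nat_lit 251)) (XT.lf (nat_lit 0) (nat_lit 3603482539) (nat_lit 152) (nat_lit 9401712216) (nat_lit 152) (nat_lit 2840298447) (nat_lit 43)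 (nat_lit 4) (nat_lit 45) (nat_lit 5) (nat_lit 45) (nat_lit 4) (nat_lit 383) (nat_lit 267) (nat_lit 250))))) (XT.nd (nat_lit 234) (nat_lit 304) (nat_lit 0) (XT.nd (nat_lit 78) (nat_lit 228) (nat_lit 0) (XT.lf (nat_lit 0) (nat_lit 2115953929) (nat_lit 228) (nat_lit 2558758903) (nat_lit 76) (nat_lit 11482218367) (nat_lit 42) (nat_lit 5) (nat_lit 45) (nat_lit 5) (nat_lit 43) (nat_lit 4) (nat_lit 384) (nat_lit 267) (nat_lit 249)) (XT.nd (nat_lit 78) (nat_lit 152) (nat_lit 0) (XT.lf (nat_lit 0) (nat_lit 7150126020) (nat_lit 152) (nat_lit 9107476227) (nat_lit 0) (nat_lit 219688324) (nat_lit 41) (nat_lit 5) (nat_lit 43) (nat_lit 4) (nat_lit 41) (nat_lit 4) (nat_lit 385) (nat_lit 267) (nat_lit 248)) (XT.lf (nat_lit 0) (nat_lit 649311735) (nat_lit 152) (nat_lit 11678260621) (nat_lit 152) (nat_lit 4479932033) (nat_lit 39) (nat_lit 4) (nat_lit 41) (nat_lit 5) (nat_lit 41) (nat_lit 4) (nat_lit 386) (nat_lit 267) (nat_lit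 247)))) (XT.nd (nat_lit 156) (nat_lit 152) (nat_lit 0) (XT.nd (nat_lit 78) (nat_lit 76) (nat_lit 0) (XT.lf (nat_lit 0) (nat_lit 509365779) (nat_lit 228) (nat_lit 6424404300) (nat_lit 76) (nat_lit 10213517581) (nat_lit 38) (nat_lit 5) (nat_lit 41) (nat_lit 5) (nat_lit 39) (nat_lit 4) (nat_lit 387) (nat_lit 267) (nat_lit 246)) (XT.lf (nat_lit 0) (nat_lit 3470197553) (nat_lit 76) (nat_lit 2037746902) (nat_lit 152) (nat_lit 11989510169) (nat_lit 37) (nat_lit 5) (nat_lit 38) (nat_lit 5) (nat_lit 39) (nat_lit 4) (nat_lit 388) (nat_lit 267) (nat_lit 245))) (XT.nd (nat_lit 78) (nat_lit 152) (nat_lit 0) (XT.lf (nat_lit 0) (nat_lit 10667461907) (nat_lit 152) (nat_lit 4247240327) (nat_lit 0) (nat_lit 2943104813) (nat_lit 37) (nat_lit 5) (nat_lit 39) (nat_lit 4) (nat_lit 37) (nat_lit 4) (nat_lit 389) (nat_lit 267) (nat_lit 244)) (XT.lf (nat_lit 0) (nat_lit 5768208590) (nat_lit 152) (nat_lit 10208187132) (nat_lit 152)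 (nat_lit 2252745001) (nat_lit 35) (nat_lit 4) (nat_lit 37) (nat_lit 5) (nat_lit 37) (nat_lit 4) (nat_lit 390) (nat_lit 267) (nat_lit 243)))))) (XT.nd (nat_lit 546) (nat_lit 456) (nat_lit 0) (XT.nd (nat_lit 234) (nat_lit 304) (nat_lit 0) (XT.nd (nat_lit 78) (nat_lit 76) (nat_lit 0) (XT.lf (nat_lit 0) (nat_lit 2740148499) (nat_lit 228) (nat_lit 2617295081) (nat_lit 76) (nat_lit 13254489501) (nat_lit 34) (nat_lit 5) (nat_lit 37) (nat_lit 5) (nat_lit 35) (nat_lit 4) (nat_lit 391) (nat_lit 267) (nat_lit 242)) (XT.nd (nat_lit 78) (nat_lit 0) (nat_lit 0) (XT.lf (nat_lit 0) (nat_lit 7499578263) (nat_lit 76) (nat_lit 331552085) (nat_lit 152) (nat_lit 11174611134) (nat_lit 33) (nat_lit 5) (nat_lit 34) (nat_lit 5) (nat_lit 35) (nat_lit 4) (nat_lit 392) (nat_lit 267) (nat_lit 241)) (XT.lf (nat_lit 0) (nat_lit 13069847368) (nat_lit 152) (nat_lit 1630169403) (nat_lit 0) (nat_lit 4711505728) (nat_lit 33) (nat_lit 5) (nat_lit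 35) (nat_lit 4) (nat_lit 33) (nat_lit 4) (nat_lit 393) (nat_lit 267) (nat_lit 240)))) (XT.nd (nat_lit 156) (nat_lit 76) (nat_lit 0) (XT.nd (nat_lit 78) (nat_lit 76) (nat_lit 0) (XT.lf (nat_lit 0) (nat_lit 8563823799) (nat_lit 152) (nat_lit 9911525180) (nat_lit 152) (nat_lit 1353847558) (nat_lit 31) (nat_lit 4) (nat_lit 33) (nat_lit 5) (nat_lit 33) (nat_lit 4) (nat_lit 394) (nat_lit 267) (nat_lit 239)) (XT.lf (nat_lit 0) (nat_lit 3650535790) (nat_lit 228) (nat_lit 1340620048) (nat_lit 76) (nat_lit 15268939071) (nat_lit 30) (nat_lit 5) (nat_lit 33) (nat_lit 5) (nat_lit 31) (nat_lit 4) (nat_lit 395) (nat_lit 267) (nat_lit 238))) (XT.nd (nat_lit 78) (nat_lit 0) (nat_lit 0) (XT.lf (nat_lit 0) (nat_lit 8790869177) (nat_lit 152) (nat_lit 11800135260) (nat_lit 0) (nat_lit 112130357) (nat_lit 29) (nat_lit 5) (nat_lit 31) (nat_lit 4) (nat_lit 29) (nat_lit 4) (nat_lit 396) (nat_lit 267) (nat_lit 237)) (XT.lf (nat_lit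 0) (nat_lit 14075056659) (nat_lit 152) (nat_lit 1865516855) (nat_lit 0) (nat_lit 5219210401) (nat_lit 29) (nat_lit 5) (nat_lit 31) (nat_lit 4) (nat_lit 29) (nat_lit 4) (nat_lit 397) (nat_lit 267) (nat_lit 236))))) (XT.nd (nat_lit 234) (nat_lit 228) (nat_lit 0) (XT.nd (nat_lit 78) (nat_lit 152) (nat_lit 0) (XT.lf (nat_lit 0) (nat_lit 8396703834) (nat_lit 76) (nat_lit 11130474399) (nat_lit 76) (nat_lit 2102679171) (nat_lit 28) (nat_lit 4) (nat_lit 29) (nat_lit 5) (nat_lit 29) (nat_lit 4) (nat_lit 398) (nat_lit 267) (nat_lit 235)) (XT.nd (nat_lit 78) (nat_lit 76) (nat_lit 0) (XT.lf (nat_lit 0) (nat_lit 2917539545) (nat_lit 152) (nat_lit 3272130696) (nat_lit 76) (nat_lit 15925061764) (nat_lit 27) (nat_lit 5) (nat_lit 29) (nat_lit 5) (nat_lit 28) (nat_lit 4) (nat_lit 399) (nat_lit 267) (nat_lit 234)) (XT.lf (nat_lit 0) (nat_lit 6972483230) (nat_lit 76) (nat_lit 1071505735) (nat_lit 152) (nat_lit 14569609287)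 (nat_lit 26) (nat_lit 5) (nat_lit 27) (nat_lit 5) (nat_lit 28) (nat_lit 4) (nat_lit 400) (nat_lit 267) (nat_lit 233)))) (XT.nd (nat_lit 156) (nat_lit 152) (nat_lit 0) (XT.nd (nat_lit 78) (nat_lit 76) (nat_lit 0) (XT.lf (nat_lit 0) (nat_lit 13329025186) (nat_lit 152) (nat_lit 5706302892) (nat_lit 0) (nat_lit 4091964957) (nat_lit 26) (nat_lit 5) (nat_lit 28) (nat_lit 4) (nat_lit 26) (nat_lit 4) (nat_lit 401) (nat_lit 267) (nat_lit 232)) (XT.lf (nat_lit 0) (nat_lit 4476429251) (nat_lit 76) (nat_lit 14282879801) (nat_lit 76) (nat_lit 4897494880) (nat_lit 25) (nat_lit 4) (nat_lit 26) (nat_lit 5) (nat_lit 26) (nat_lit 4) (nat_lit 402) (nat_lit 267) (nat_lit 231))) (XT.nd (nat_lit 78) (nat_lit 76) (nat_lit 0) (XT.lf (nat_lit 0) (nat_lit 138699666) (nat_lit 152) (nat_lit 9247829153) (nat_lit 76) (nat_lit 14815893865) (nat_lit 24) (nat_lit 5) (nat_lit 26) (nat_lit 5) (nat_lit 25) (nat_lit 4) (nat_lit 403) (nat_lit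 267) (nat_lit 230)) (XT.lf (nat_lit 0) (nat_lit 827080518) (nat_lit 76) (nat_lit 4343500881) (nat_lit 152) (nat_lit 19594088455) (nat_lit 23) (nat_lit 5) (nat_lit 24) (nat_lit 5) (nat_lit 25) (nat_lit 4) (nat_lit 404) (nat_lit 267) (nat_lit 229))))))))
noncomputable def xc34 : XT := (XT.nd (nat_lit 2106) (nat_lit 304) (nat_lit 0) (XT.nd (nat_lit 1014) (nat_lit 456) (nat_lit 0) (XT.nd (nat_lit 468) (nat_lit 228) (nat_lit 0) (XT.nd (nat_lit 234) (nat_lit 152) (nat_lit 0) (XT.nd (nat_lit 78) (nat_lit 76) (nat_lit 0) (XT.lf (nat_lit 0) (nat_lit 10391154765) (nat_lit 152) (nat_lit 14079705446) (nat_lit 0) (nat_lit 871797650) (nat_lit 23) (nat_lit 5) (nat_lit 25) (nat_lit 4) (nat_lit 23) (nat_lit 4) (nat_lit 405) (nat_lit 267) (nat_lit 228)) (XT.nd (nat_lit 78) (nat_lit 76) (nat_lit 0) (XT.lf (nat_lit 0) (nat_lit 15748483351) (nat_lit 152) (nat_lit 4088923280) (nat_lit 0) (nat_lit 6101180055) (nat_lit 23) (nat_lit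 5) (nat_lit 25) (nat_lit 4) (nat_lit 23) (nat_lit 4) (nat_lit 406) (nat_lit 267) (nat_lit 227)) (XT.lf (nat_lit 0) (nat_lit 6206347553) (nat_lit 76) (nat_lit 15058807588) (nat_lit 76) (nat_lit 5287284698) (nat_lit 22) (nat_lit 4) (nat_lit 23) (nat_lit 5) (nat_lit 23) (nat_lit 4) (nat_lit 407) (nat_lit 267) (nat_lit 226)))) (XT.nd (nat_lit 78) (nat_lit 152) (nat_lit 0) (XT.lf (nat_lit 0) (nat_lit 16779093056) (nat_lit 76) (nat_lit 10149158622) (nat_lit 76) (nat_lit 257034184) (nat_lit 22) (nat_lit 4) (nat_lit 23) (nat_lit 5) (nat_lit 23) (nat_lit 4) (nat_lit 408) (nat_lit 267) (nat_lit 225)) (XT.nd (nat_lit 78) (nat_lit 76) (nat_lit 0) (XT.lf (nat_lit 0) (nat_lit 4768844114) (nat_lit 152) (nat_lit 328459767) (nat_lit 76) (nat_lit 22740173870) (nat_lit 21) (nat_lit 5) (nat_lit 23) (nat_lit 5) (nat_lit 22) (nat_lit 4) (nat_lit 409) (nat_lit 267) (nat_lit 224)) (XT.lf (nat_lit 0) (nat_lit 9981816188) (nat_lit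 152) (nat_lit 18372337086) (nat_lit 0) (nat_lit 153765854) (nat_lit 20) (nat_lit 5) (nat_lit 22) (nat_lit 4) (nat_lit 20) (nat_lit 4) (nat_lit 410) (nat_lit 267) (nat_lit 223))))) (XT.nd (nat_lit 234) (nat_lit 152) (nat_lit 0) (XT.nd (nat_lit 78) (nat_lit 76) (nat_lit 0) (XT.lf (nat_lit 0) (nat_lit 15347658288) (nat_lit 152) (nat_lit 8438470447) (nat_lit 0) (nat_lit 5412455041) (nat_lit 20) (nat_lit 5) (nat_lit 22) (nat_lit 4) (nat_lit 20) (nat_lit 4) (nat_lit 411) (nat_lit 267) (nat_lit 222)) (XT.nd (nat_lit 78) (nat_lit 0) (nat_lit 0) (XT.lf (nat_lit 0) (nat_lit 1720308579) (nat_lit 76) (nat_lit 19115036612) (nat_lit 76) (nat_lit 9075801410) (nat_lit 19) (nat_lit 4) (nat_lit 20) (nat_lit 5) (nat_lit 20) (nat_lit 4) (nat_lit 412) (nat_lit 267) (nat_lit 221)) (XT.lf (nat_lit 0) (nat_lit 12251204135) (nat_lit 76) (nat_lit 14266609473) (nat_lit 76) (nat_lit 4126372374) (nat_lit 19) (nat_lit 4) (nat_lit 20)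 (nat_lit 5) (nat_lit 20) (nat_lit 4) (nat_lit 413) (nat_lit 267) (nat_lit 220)))) (XT.nd (nat_lit 156) (nat_lit 0) (nat_lit 0) (XT.nd (nat_lit 78) (nat_lit 76) (nat_lit 0) (XT.lf (nat_lit 0) (nat_lit 898590642) (nat_lit 152) (nat_lit 8414158189) (nat_lit 76) (nat_lit 22087811220) (nat_lit 18) (nat_lit 5) (nat_lit 20) (nat_lit 5) (nat_lit 19) (nat_lit 4) (nat_lit 414) (nat_lit 267) (nat_lit 219)) (XT.lf (nat_lit 0) (nat_lit 1756846566) (nat_lit 76) (nat_lit 4198989756) (nat_lit 152) (nat_lit 26223633113) (nat_lit 17) (nat_lit 5) (nat_lit 18) (nat_lit 5) (nat_lit 19) (nat_lit 4) (nat_lit 415) (nat_lit 267) (nat_lit 218))) (XT.nd (nat_lit 78) (nat_lit 0) (nat_lit 0) (XT.lf (nat_lit 0) (nat_lit 11208566876) (nat_lit 152) (nat_lit 20685567338) (nat_lit 0) (nat_lit 1086302591) (nat_lit 17) (nat_lit 5) (nat_lit 19) (nat_lit 4) (nat_lit 17) (nat_lit 4) (nat_lit 416) (nat_lit 267) (nat_lit 217)) (XT.lf (nat_lit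 0) (nat_lit 16609668776) (nat_lit 152) (nat_lit 10795764992) (nat_lit 0) (nat_lit 6400279367) (nat_lit 17) (nat_lit 5) (nat_lit 19) (nat_lit 4) (nat_lit 17) (nat_lit 4) (nat_lit 417) (nat_lit 267) (nat_lit 216)))))) (XT.nd (nat_lit 546) (nat_lit 228) (nat_lit 0) (XT.nd (nat_lit 234) (nat_lit 152) (nat_lit 0) (XT.nd (nat_lit 78) (nat_lit 76) (nat_lit 0) (XT.lf (nat_lit 0) (nat_lit 22123498173) (nat_lit 152) (nat_lit 704211000) (nat_lit 0) (nat_lit 11829521265) (nat_lit 17) (nat_lit 5) (nat_lit 19) (nat_lit 4) (nat_lit 17) (nat_lit 4) (nat_lit 418) (nat_lit 267) (nat_lit 215)) (XT.nd (nat_lit 78) (nat_lit 0) (nat_lit 0) (XT.lf (nat_lit 0) (nat_lit 9788929778) (nat_lit 76) (nat_lit 18060040379) (nat_lit 76) (nat_lit 7683939685) (nat_lit 16) (nat_lit 4) (nat_lit 17) (nat_lit 5) (nat_lit 17) (nat_lit 4) (nat_lit 419) (nat_lit 267) (nat_lit 214)) (XT.lf (nat_lit 0) (nat_lit 20520027003) (nat_lit 76) (nat_lit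 13185937854) (nat_lit 76) (nat_lit 2730105330) (nat_lit 16) (nat_lit 4) (nat_lit 17) (nat_lit 5) (nat_lit 17) (nat_lit 4) (nat_lit 420) (nat_lit 267) (nat_lit 213)))) (XT.nd (nat_lit 156) (nat_lit 0) (nat_lit 0) (XT.nd (nat_lit 78) (nat_lit 76) (nat_lit 0) (XT.lf (nat_lit 0) (nat_lit 2279619348) (nat_lit 152) (nat_lit 5905614790) (nat_lit 76) (nat_lit 29181803145) (nat_lit 15) (nat_lit 5) (nat_lit 17) (nat_lit 5) (nat_lit 16) (nat_lit 4) (nat_lit 421) (nat_lit 267) (nat_lit 212)) (XT.lf (nat_lit 0) (nat_lit 4376564091) (nat_lit 76) (nat_lit 3005190123) (nat_lit 152) (nat_lit 30943461564) (nat_lit 14) (nat_lit 5) (nat_lit 15) (nat_lit 5) (nat_lit 16) (nat_lit 4) (nat_lit 422) (nat_lit 267) (nat_lit 211))) (XT.nd (nat_lit 78) (nat_lit 0) (nat_lit 0) (XT.lf (nat_lit 0) (nat_lit 12674585905) (nat_lit 152) (nat_lit 24332097008) (nat_lit 0) (nat_lit 2304330676) (nat_lit 14) (nat_lit 5) (nat_lit 16) (nat_lit 4)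 (nat_lit 14) (nat_lit 4) (nat_lit 423) (nat_lit 267) (nat_lit 210)) (XT.lf (nat_lit 0) (nat_lit 18112274730) (nat_lit 152) (nat_lit 14541289175) (nat_lit 0) (nat_lit 7673242123) (nat_lit 14) (nat_lit 5) (nat_lit 16) (nat_lit 4) (nat_lit 14) (nat_lit 4) (nat_lit 424) (nat_lit 267) (nat_lit 209))))) (XT.nd (nat_lit 234) (nat_lit 152) (nat_lit 0) (XT.nd (nat_lit 78) (nat_lit 76) (nat_lit 0) (XT.lf (nat_lit 0) (nat_lit 23670684342) (nat_lit 152) (nat_lit 4538785386) (nat_lit 0) (nat_lit 13164877583) (nat_lit 14) (nat_lit 5) (nat_lit 16) (nat_lit 4) (nat_lit 14) (nat_lit 4) (nat_lit 425) (nat_lit 267) (nat_lit 208)) (XT.nd (nat_lit 78) (nat_lit 0) (nat_lit 0) (XT.lf (nat_lit 0) (nat_lit 5797280227) (nat_lit 76) (nat_lit 23613118381) (nat_lit 76) (nat_lit 13042482348) (nat_lit 13) (nat_lit 4) (nat_lit 14) (nat_lit 5) (nat_lit 14) (nat_lit 4) (nat_lit 426) (nat_lit 267) (nat_lit 207)) (XT.lf (nat_lit 0) (nat_lit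 16457610129) (nat_lit 76) (nat_lit 18869793596) (nat_lit 76) (nat_lit 8236216519) (nat_lit 13) (nat_lit 4) (nat_lit 14) (nat_lit 5) (nat_lit 14) (nat_lit 4) (nat_lit 427) (nat_lit 267) (nat_lit 206)))) (XT.nd (nat_lit 156) (nat_lit 76) (nat_lit 0) (XT.nd (nat_lit 78) (nat_lit 76) (nat_lit 0) (XT.lf (nat_lit 0) (nat_lit 27361188442) (nat_lit 76) (nat_lit 14021183553) (nat_lit 76) (nat_lit 3326498667) (nat_lit 13) (nat_lit 4) (nat_lit 14) (nat_lit 5) (nat_lit 14) (nat_lit 4) (nat_lit 428) (nat_lit 267) (nat_lit 205)) (XT.lf (nat_lit 0) (nat_lit 1657964508) (nat_lit 152) (nat_lit 7388344903) (nat_lit 76) (nat_lit 36842835864) (nat_lit 12) (nat_lit 5) (nat_lit 14) (nat_lit 5) (nat_lit 13) (nat_lit 4) (nat_lit 429) (nat_lit 267) (nat_lit 204))) (XT.nd (nat_lit 78) (nat_lit 0) (nat_lit 0) (XT.lf (nat_lit 0) (nat_lit 2818926163) (nat_lit 76) (nat_lit 3895625063) (nat_lit 152) (nat_lit 40389607688) (nat_lit 11)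 (nat_lit 5) (nat_lit 12) (nat_lit 5) (nat_lit 13) (nat_lit 4) (nat_lit 430) (nat_lit 267) (nat_lit 203)) (XT.lf (nat_lit 0) (nat_lit 11974149967) (nat_lit 152) (nat_lit 34956790830) (nat_lit 0) (nat_lit 1423144988) (nat_lit 11) (nat_lit 5) (nat_lit 13) (nat_lit 4) (nat_lit 11) (nat_lit 4) (nat_lit 431) (nat_lit 267) (nat_lit 202))))))) (XT.nd (nat_lit 1014) (nat_lit 76) (nat_lit 0) (XT.nd (nat_lit 468) (nat_lit 152) (nat_lit 0) (XT.nd (nat_lit 234) (nat_lit 76) (nat_lit 0) (XT.nd (nat_lit 78) (nat_lit 0) (nat_lit 0) (XT.lf (nat_lit 0) (nat_lit 17393620022) (nat_lit 152) (nat_lit 25457927221) (nat_lit 0) (nat_lit 6789902910) (nat_lit 11) (nat_lit 5) (nat_lit 13) (nat_lit 4) (nat_lit 11) (nat_lit 4) (nat_lit 432) (nat_lit 267) (nat_lit 201)) (XT.nd (nat_lit 78) (nat_lit 0) (nat_lit 0) (XT.lf (nat_lit 0) (nat_lit 22940249718) (nat_lit 152) (nat_lit 15742894817) (nat_lit 0) (nat_lit 12285355778) (nat_lit 11)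 (nat_lit 5) (nat_lit 13) (nat_lit 4) (nat_lit 11) (nat_lit 4) (nat_lit 433) (nat_lit 267) (nat_lit 200)) (XT.lf (nat_lit 0) (nat_lit 28618885626) (nat_lit 152) (nat_lit 5803204753) (nat_lit 0) (nat_lit 17914305445) (nat_lit 11) (nat_lit 5) (nat_lit 13) (nat_lit 4) (nat_lit 11) (nat_lit 4) (nat_lit 434) (nat_lit 267) (nat_lit 199)))) (XT.nd (nat_lit 78) (nat_lit 0) (nat_lit 0) (XT.lf (nat_lit 0) (nat_lit 4456796283) (nat_lit 76) (nat_lit 30020534828) (nat_lit 76) (nat_lit 19267715578) (nat_lit 10) (nat_lit 4) (nat_lit 11) (nat_lit 5) (nat_lit 11) (nat_lit 4) (nat_lit 435) (nat_lit 267) (nat_lit 198)) (XT.nd (nat_lit 78) (nat_lit 0) (nat_lit 0) (XT.lf (nat_lit 0) (nat_lit 15079345247) (nat_lit 76) (nat_lit 25457750059) (nat_lit 76) (nat_lit 14658096761) (nat_lit 10) (nat_lit 4) (nat_lit 11) (nat_lit 5) (nat_lit 11) (nat_lit 4) (nat_lit 436) (nat_lit 267) (nat_lit 197)) (XT.lf (nat_lit 0) (nat_lit 25958228822)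 (nat_lit 76) (nat_lit 20788350162) (nat_lit 76) (nat_lit 9943226916) (nat_lit 10) (nat_lit 4) (nat_lit 11) (nat_lit 5) (nat_lit 11) (nat_lit 4) (nat_lit 437) (nat_lit 267) (nat_lit 196))))) (XT.nd (nat_lit 234) (nat_lit 76) (nat_lit 0) (XT.nd (nat_lit 78) (nat_lit 76) (nat_lit 0) (XT.lf (nat_lit 0) (nat_lit 37102952829) (nat_lit 76) (nat_lit 16008255079) (nat_lit 76) (nat_lit 5118986252) (nat_lit 10) (nat_lit 4) (nat_lit 11) (nat_lit 5) (nat_lit 11) (nat_lit 4) (nat_lit 438) (nat_lit 267) (nat_lit 195)) (XT.nd (nat_lit 78) (nat_lit 76) (nat_lit 0) (XT.lf (nat_lit 0) (nat_lit 48523255377) (nat_lit 76) (nat_lit 11113288029) (nat_lit 76) (nat_lit 181159413) (nat_lit 10) (nat_lit 4) (nat_lit 11) (nat_lit 5) (nat_lit 11) (nat_lit 4) (nat_lit 439) (nat_lit 267) (nat_lit 194)) (XT.lf (nat_lit 0) (nat_lit 4779447821) (nat_lit 152) (nat_lit 1271460981) (nat_lit 76) (nat_lit 55401404497) (nat_lit 9) (nat_lit 5) (nat_lit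 11) (nat_lit 5) (nat_lit 10) (nat_lit 4) (nat_lit 440) (nat_lit 267) (nat_lit 193)))) (XT.nd (nat_lit 156) (nat_lit 0) (nat_lit 0) (XT.nd (nat_lit 78) (nat_lit 0) (nat_lit 0) (XT.lf (nat_lit 0) (nat_lit 9173464394) (nat_lit 76) (nat_lit 771168076) (nat_lit 152) (nat_lit 53189495436) (nat_lit 8) (nat_lit 5) (nat_lit 9) (nat_lit 5) (nat_lit 10) (nat_lit 4) (nat_lit 441) (nat_lit 267) (nat_lit 192)) (XT.lf (nat_lit 0) (nat_lit 15293866744) (nat_lit 152) (nat_lit 45009211929) (nat_lit 0) (nat_lit 4562447037) (nat_lit 8) (nat_lit 5) (nat_lit 10) (nat_lit 4) (nat_lit 8) (nat_lit 4) (nat_lit 442) (nat_lit 267) (nat_lit 191))) (XT.nd (nat_lit 78) (nat_lit 0) (nat_lit 0) (XT.lf (nat_lit 0) (nat_lit 20783316267) (nat_lit 152) (nat_lit 35851233241) (nat_lit 0) (nat_lit 10014925331) (nat_lit 8) (nat_lit 5) (nat_lit 10) (nat_lit 4) (nat_lit 8) (nat_lit 4) (nat_lit 443) (nat_lit 267) (nat_lit 190)) (XT.lf (nat_lit 0)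 (nat_lit 26410364706) (nat_lit 152) (nat_lit 26471312391) (nat_lit 0) (nat_lit 15606079372) (nat_lit 8) (nat_lit 5) (nat_lit 10) (nat_lit 4) (nat_lit 8) (nat_lit 4) (nat_lit 444) (nat_lit 267) (nat_lit 189)))))) (XT.nd (nat_lit 40638) (nat_lit 0) (nat_lit 4180) (XT.nd (nat_lit 234) (nat_lit 0) (nat_lit 0) (XT.nd (nat_lit 78) (nat_lit 76) (nat_lit 0) (XT.lf (nat_lit 0) (nat_lit 32179928900) (nat_lit 152) (nat_lit 16861253332) (nat_lit 0) (nat_lit 21340794637) (nat_lit 8) (nat_lit 5) (nat_lit 10) (nat_lit 4) (nat_lit 8) (nat_lit 4) (nat_lit 445) (nat_lit 267) (nat_lit 188)) (XT.nd (nat_lit 78) (nat_lit 76) (nat_lit 0) (XT.lf (nat_lit 0) (nat_lit 38097050216) (nat_lit 152) (nat_lit 7012658926) (nat_lit 0) (nat_lit 27224082040) (nat_lit 8) (nat_lit 5) (nat_lit 10) (nat_lit 4) (nat_lit 8) (nat_lit 4) (nat_lit 446) (nat_lit 267) (nat_lit 187)) (XT.lf (nat_lit 0) (nat_lit 3144435662) (nat_lit 76) (nat_lit 41052689530)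 (nat_lit 76) (nat_lit 30146872896) (nat_lit 7) (nat_lit 4) (nat_lit 8) (nat_lit 5) (nat_lit 8) (nat_lit 4) (nat_lit 447) (nat_lit 267) (nat_lit 186)))) (XT.nd (nat_lit 156) (nat_lit 0) (nat_lit 0) (XT.nd (nat_lit 78) (nat_lit 0) (nat_lit 0) (XT.lf (nat_lit 0) (nat_lit 13702152499) (nat_lit 76) (nat_lit 36824339836) (nat_lit 76) (nat_lit 25886631495) (nat_lit 7) (nat_lit 4) (nat_lit 8) (nat_lit 5) (nat_lit 8) (nat_lit 4) (nat_lit 448) (nat_lit 267) (nat_lit 185)) (XT.lf (nat_lit 0) (nat_lit 24530151113) (nat_lit 76) (nat_lit 32491779489) (nat_lit 76) (nat_lit 21523108325) (nat_lit 7) (nat_lit 4) (nat_lit 8) (nat_lit 5) (nat_lit 8) (nat_lit 4) (nat_lit 449) (nat_lit 267) (nat_lit 184))) (XT.nd (nat_lit 40170) (nat_lit 0) (nat_lit 5472) (XT.lf (nat_lit 0) (nat_lit 35637892860) (nat_lit 76) (nat_lit 28051222758) (nat_lit 76) (nat_lit 17052490601) (nat_lit 7) (nat_lit 4) (nat_lit 8) (nat_lit 5) (nat_lit 8) (nat_lit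 4) (nat_lit 450) (nat_lit 267) (nat_lit 183)) (XT.lf (nat_lit 0) (nat_lit 4309990754) (nat_lit 228) (nat_lit 691257139) (nat_lit 228) (nat_lit 691257139) (nat_lit 79) (nat_lit 4) (nat_lit 82) (nat_lit 5) (nat_lit 82) (nat_lit 4) (nat_lit 364) (nat_lit 268) (nat_lit 268))))) (XT.nd (nat_lit 234) (nat_lit 608) (nat_lit 0) (XT.nd (nat_lit 78) (nat_lit 456) (nat_lit 0) (XT.lf (nat_lit 0) (nat_lit 3402375938) (nat_lit 228) (nat_lit 5353694624) (nat_lit 0) (nat_lit 2807312845) (nat_lit 76) (nat_lit 5) (nat_lit 79) (nat_lit 4) (nat_lit 76) (nat_lit 4) (nat_lit 365) (nat_lit 268) (nat_lit 267)) (XT.nd (nat_lit 78) (nat_lit 228) (nat_lit 0) (XT.lf (nat_lit 0) (nat_lit 3628464220) (nat_lit 228) (nat_lit 4645954775) (nat_lit 228) (nat_lit 3473160524) (nat_lit 73) (nat_lit 4) (nat_lit 76) (nat_lit 5) (nat_lit 76) (nat_lit 4) (nat_lit 366) (nat_lit 268) (nat_lit 266)) (XT.lf (nat_lit 0) (nat_lit 878629447) (nat_lit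 152) (nat_lit 408231505) (nat_lit 228) (nat_lit 10651332761) (nat_lit 70) (nat_lit 5) (nat_lit 72) (nat_lit 5) (nat_lit 73) (nat_lit 4) (nat_lit 367) (nat_lit 268) (nat_lit 265)))) (XT.nd (nat_lit 156) (nat_lit 380) (nat_lit 0) (XT.nd (nat_lit 78) (nat_lit 228) (nat_lit 0) (XT.lf (nat_lit 0) (nat_lit 6136298849) (nat_lit 228) (nat_lit 2072334366) (nat_lit 0) (nat_lit 3924390777) (nat_lit 70) (nat_lit 5) (nat_lit 73) (nat_lit 4) (nat_lit 70) (nat_lit 4) (nat_lit 368) (nat_lit 268) (nat_lit 264)) (XT.lf (nat_lit 0) (nat_lit 7145363360) (nat_lit 228) (nat_lit 3957215554) (nat_lit 228) (nat_lit 1232000830) (nat_lit 67) (nat_lit 4) (nat_lit 70) (nat_lit 5) (nat_lit 70) (nat_lit 4) (nat_lit 369) (nat_lit 268) (nat_lit 263))) (XT.nd (nat_lit 78) (nat_lit 152) (nat_lit 0) (XT.lf (nat_lit 0) (nat_lit 3566801035) (nat_lit 228) (nat_lit 8538334675) (nat_lit 0) (nat_lit 437120748) (nat_lit 64) (nat_lit 5) (nat_lit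 67) (nat_lit 4) (nat_lit 64) (nat_lit 4) (nat_lit 370) (nat_lit 268) (nat_lit 262)) (XT.lf (nat_lit 0) (nat_lit 609172173) (nat_lit 152) (nat_lit 7873075102) (nat_lit 152) (nat_lit 4273646514) (nat_lit 62) (nat_lit 4) (nat_lit 64) (nat_lit 5) (nat_lit 64) (nat_lit 4) (nat_lit 371) (nat_lit 268) (nat_lit 261))))))))
noncomputable def xc35 : XT := (XT.nd (nat_lit 2106) (nat_lit 1064) (nat_lit 0) (XT.nd (nat_lit 1014) (nat_lit 1064) (nat_lit 0) (XT.nd (nat_lit 468) (nat_lit 760) (nat_lit 0) (XT.nd (nat_lit 234) (nat_lit 380) (nat_lit 0) (XT.nd (nat_lit 78) (nat_lit 304) (nat_lit 0) (XT.lf (nat_lit 0) (nat_lit 544926016) (nat_lit 228) (nat_lit 2949295084) (nat_lit 76) (nat_lit 9481968890) (nat_lit 61) (nat_lit 5) (nat_lit 64) (nat_lit 5) (nat_lit 62) (nat_lit 4) (nat_lit 372) (nat_lit 268) (nat_lit 260)) (XT.nd (nat_lit 78) (nat_lit 152) (nat_lit 0) (XT.lf (nat_lit 0) (nat_lit 5396789566) (nat_lit 228) (nat_lit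 6776285444) (nat_lit 0) (nat_lit 1029529639) (nat_lit 59) (nat_lit 5) (nat_lit 62) (nat_lit 4) (nat_lit 59) (nat_lit 4) (nat_lit 373) (nat_lit 268) (nat_lit 259)) (XT.lf (nat_lit 0) (nat_lit 2552501479) (nat_lit 152) (nat_lit 7834090665) (nat_lit 152) (nat_lit 3049465457) (nat_lit 57) (nat_lit 4) (nat_lit 59) (nat_lit 5) (nat_lit 59) (nat_lit 4) (nat_lit 374) (nat_lit 268) (nat_lit 258)))) (XT.nd (nat_lit 78) (nat_lit 304) (nat_lit 0) (XT.lf (nat_lit 0) (nat_lit 1785988833) (nat_lit 228) (nat_lit 1564276886) (nat_lit 76) (nat_lit 10326556218) (nat_lit 56) (nat_lit 5) (nat_lit 59) (nat_lit 5) (nat_lit 57) (nat_lit 4) (nat_lit 375) (nat_lit 268) (nat_lit 257)) (XT.nd (nat_lit 78) (nat_lit 152) (nat_lit 0) (XT.lf (nat_lit 0) (nat_lit 6700824187) (nat_lit 228) (nat_lit 5943025015) (nat_lit 0) (nat_lit 1280201833) (nat_lit 54) (nat_lit 5) (nat_lit 57) (nat_lit 4) (nat_lit 54) (nat_lit 4) (nat_lit 376) (nat_lit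 268) (nat_lit 256)) (XT.lf (nat_lit 0) (nat_lit 3535295444) (nat_lit 152) (nat_lit 8217584854) (nat_lit 152) (nat_lit 2426138853) (nat_lit 52) (nat_lit 4) (nat_lit 54) (nat_lit 5) (nat_lit 54) (nat_lit 4) (nat_lit 377) (nat_lit 268) (nat_lit 255))))) (XT.nd (nat_lit 234) (nat_lit 380) (nat_lit 0) (XT.nd (nat_lit 78) (nat_lit 304) (nat_lit 0) (XT.lf (nat_lit 0) (nat_lit 2433265919) (nat_lit 228) (nat_lit 1211939142) (nat_lit 76) (nat_lit 10796696201) (nat_lit 51) (nat_lit 5) (nat_lit 54) (nat_lit 5) (nat_lit 52) (nat_lit 4) (nat_lit 378) (nat_lit 268) (nat_lit 254)) (XT.nd (nat_lit 78) (nat_lit 152) (nat_lit 0) (XT.lf (nat_lit 0) (nat_lit 7391393564) (nat_lit 228) (nat_lit 6240781193) (nat_lit 0) (nat_lit 1079737437) (nat_lit 49) (nat_lit 5) (nat_lit 52) (nat_lit 4) (nat_lit 49) (nat_lit 4) (nat_lit 379) (nat_lit 268) (nat_lit 253)) (XT.lf (nat_lit 0) (nat_lit 3346290814) (nat_lit 152) (nat_lit 9142578175)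 (nat_lit 152) (nat_lit 2501450042) (nat_lit 47) (nat_lit 4) (nat_lit 49) (nat_lit 5) (nat_lit 49) (nat_lit 4) (nat_lit 380) (nat_lit 268) (nat_lit 252)))) (XT.nd (nat_lit 156) (nat_lit 228) (nat_lit 0) (XT.nd (nat_lit 78) (nat_lit 76) (nat_lit 0) (XT.lf (nat_lit 0) (nat_lit 2387954552) (nat_lit 228) (nat_lit 2113456125) (nat_lit 76) (nat_lit 10775755957) (nat_lit 46) (nat_lit 5) (nat_lit 49) (nat_lit 5) (nat_lit 47) (nat_lit 4) (nat_lit 381) (nat_lit 268) (nat_lit 251)) (XT.lf (nat_lit 0) (nat_lit 7363249719) (nat_lit 152) (nat_lit 7905474945) (nat_lit 0) (nat_lit 303479978) (nat_lit 45) (nat_lit 5) (nat_lit 47) (nat_lit 4) (nat_lit 45) (nat_lit 4) (nat_lit 382) (nat_lit 268) (nat_lit 250))) (XT.nd (nat_lit 78) (nat_lit 76) (nat_lit 0) (XT.lf (nat_lit 0) (nat_lit 1738834700) (nat_lit 152) (nat_lit 10744946639) (nat_lit 152) (nat_lit 3392445288) (nat_lit 43) (nat_lit 4) (nat_lit 45) (nat_lit 5) (nat_lit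 45) (nat_lit 4) (nat_lit 383) (nat_lit 268) (nat_lit 249)) (XT.lf (nat_lit 0) (nat_lit 1531872612) (nat_lit 228) (nat_lit 4527005396) (nat_lit 76) (nat_lit 10130232758) (nat_lit 42) (nat_lit 5) (nat_lit 45) (nat_lit 5) (nat_lit 43) (nat_lit 4) (nat_lit 384) (nat_lit 268) (nat_lit 248)))))) (XT.nd (nat_lit 546) (nat_lit 456) (nat_lit 0) (XT.nd (nat_lit 234) (nat_lit 380) (nat_lit 0) (XT.nd (nat_lit 78) (nat_lit 152) (nat_lit 0) (XT.lf (nat_lit 0) (nat_lit 5287207906) (nat_lit 76) (nat_lit 1215177474) (nat_lit 152) (nat_lit 10009000023) (nat_lit 41) (nat_lit 5) (nat_lit 42) (nat_lit 5) (nat_lit 43) (nat_lit 4) (nat_lit 385) (nat_lit 268) (nat_lit 247)) (XT.nd (nat_lit 78) (nat_lit 152) (nat_lit 0) (XT.lf (nat_lit 0) (nat_lit 11620601028) (nat_lit 152) (nat_lit 1544436992) (nat_lit 0) (nat_lit 3678343446) (nat_lit 41) (nat_lit 5) (nat_lit 43) (nat_lit 4) (nat_lit 41) (nat_lit 4) (nat_lit 386) (nat_lit 268)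 (nat_lit 246)) (XT.lf (nat_lit 0) (nat_lit 8428228496) (nat_lit 152) (nat_lit 8475770390) (nat_lit 152) (nat_lit 280999949) (nat_lit 39) (nat_lit 4) (nat_lit 41) (nat_lit 5) (nat_lit 41) (nat_lit 4) (nat_lit 387) (nat_lit 268) (nat_lit 245)))) (XT.nd (nat_lit 156) (nat_lit 228) (nat_lit 0) (XT.nd (nat_lit 78) (nat_lit 0) (nat_lit 0) (XT.lf (nat_lit 0) (nat_lit 1018776061) (nat_lit 76) (nat_lit 3640684341) (nat_lit 152) (nat_lit 12877699354) (nat_lit 37) (nat_lit 5) (nat_lit 38) (nat_lit 5) (nat_lit 39) (nat_lit 4) (nat_lit 388) (nat_lit 268) (nat_lit 244)) (XT.lf (nat_lit 0) (nat_lit 9763671694) (nat_lit 152) (nat_lit 6797023138) (nat_lit 0) (nat_lit 1338481263) (nat_lit 37) (nat_lit 5) (nat_lit 39) (nat_lit 4) (nat_lit 37) (nat_lit 4) (nat_lit 389) (nat_lit 268) (nat_lit 243))) (XT.nd (nat_lit 78) (nat_lit 76) (nat_lit 0) (XT.lf (nat_lit 0) (nat_lit 3094341623) (nat_lit 152) (nat_lit 11913825367) (nat_lit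 152) (nat_lit 3264280531) (nat_lit 35) (nat_lit 4) (nat_lit 37) (nat_lit 5) (nat_lit 37) (nat_lit 4) (nat_lit 390) (nat_lit 268) (nat_lit 242)) (XT.lf (nat_lit 0) (nat_lit 1709676278) (nat_lit 228) (nat_lit 5396721800) (nat_lit 76) (nat_lit 11550298097) (nat_lit 34) (nat_lit 5) (nat_lit 37) (nat_lit 5) (nat_lit 35) (nat_lit 4) (nat_lit 391) (nat_lit 268) (nat_lit 241))))) (XT.nd (nat_lit 234) (nat_lit 228) (nat_lit 0) (XT.nd (nat_lit 78) (nat_lit 152) (nat_lit 0) (XT.lf (nat_lit 0) (nat_lit 4593564701) (nat_lit 76) (nat_lit 2141610121) (nat_lit 152) (nat_lit 12317298457) (nat_lit 33) (nat_lit 5) (nat_lit 34) (nat_lit 5) (nat_lit 35) (nat_lit 4) (nat_lit 392) (nat_lit 268) (nat_lit 240)) (XT.nd (nat_lit 78) (nat_lit 152) (nat_lit 0) (XT.lf (nat_lit 0) (nat_lit 11919063726) (nat_lit 152) (nat_lit 4635519703) (nat_lit 0) (nat_lit 2905319792) (nat_lit 33) (nat_lit 5) (nat_lit 35) (nat_lit 4) (nat_lit 33) (nat_lit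 4) (nat_lit 393) (nat_lit 268) (nat_lit 239)) (XT.lf (nat_lit 0) (nat_lit 5429343126) (nat_lit 152) (nat_lit 11828753092) (nat_lit 152) (nat_lit 2621479078) (nat_lit 31) (nat_lit 4) (nat_lit 33) (nat_lit 5) (nat_lit 33) (nat_lit 4) (nat_lit 394) (nat_lit 268) (nat_lit 238)))) (XT.nd (nat_lit 156) (nat_lit 76) (nat_lit 0) (XT.nd (nat_lit 78) (nat_lit 76) (nat_lit 0) (XT.lf (nat_lit 0) (nat_lit 2371353752) (nat_lit 228) (nat_lit 4581319178) (nat_lit 76) (nat_lit 13359258628) (nat_lit 30) (nat_lit 5) (nat_lit 33) (nat_lit 5) (nat_lit 31) (nat_lit 4) (nat_lit 395) (nat_lit 268) (nat_lit 237)) (XT.lf (nat_lit 0) (nat_lit 5531578398) (nat_lit 76) (nat_lit 1911360693) (nat_lit 152) (nat_lit 13314098420) (nat_lit 29) (nat_lit 5) (nat_lit 30) (nat_lit 5) (nat_lit 31) (nat_lit 4) (nat_lit 396) (nat_lit 268) (nat_lit 236))) (XT.nd (nat_lit 78) (nat_lit 76) (nat_lit 0) (XT.lf (nat_lit 0) (nat_lit 12673627402) (nat_lit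 152) (nat_lit 5338618379) (nat_lit 0) (nat_lit 3203049347) (nat_lit 29) (nat_lit 5) (nat_lit 31) (nat_lit 4) (nat_lit 29) (nat_lit 4) (nat_lit 397) (nat_lit 268) (nat_lit 235)) (XT.lf (nat_lit 0) (nat_lit 4788978478) (nat_lit 76) (nat_lit 13267987918) (nat_lit 76) (nat_lit 3630469116) (nat_lit 28) (nat_lit 4) (nat_lit 29) (nat_lit 5) (nat_lit 29) (nat_lit 4) (nat_lit 398) (nat_lit 268) (nat_lit 234))))))) (XT.nd (nat_lit 1014) (nat_lit 456) (nat_lit 0) (XT.nd (nat_lit 468) (nat_lit 304) (nat_lit 0) (XT.nd (nat_lit 234) (nat_lit 152) (nat_lit 0) (XT.nd (nat_lit 78) (nat_lit 76) (nat_lit 0) (XT.lf (nat_lit 0) (nat_lit 1385504224) (nat_lit 152) (nat_lit 6987023621) (nat_lit 76) (nat_lit 13801247815) (nat_lit 27) (nat_lit 5) (nat_lit 29) (nat_lit 5) (nat_lit 28) (nat_lit 4) (nat_lit 399) (nat_lit 268) (nat_lit 233)) (XT.nd (nat_lit 78) (nat_lit 0) (nat_lit 0) (XT.lf (nat_lit 0) (nat_lit 3120011293) (nat_lit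 76) (nat_lit 3321843955) (nat_lit 152) (nat_lit 16232892738) (nat_lit 26) (nat_lit 5) (nat_lit 27) (nat_lit 5) (nat_lit 28) (nat_lit 4) (nat_lit 400) (nat_lit 268) (nat_lit 232)) (XT.lf (nat_lit 0) (nat_lit 11672283199) (nat_lit 152) (nat_lit 9660788818) (nat_lit 0) (nat_lit 1857012039) (nat_lit 26) (nat_lit 5) (nat_lit 28) (nat_lit 4) (nat_lit 26) (nat_lit 4) (nat_lit 401) (nat_lit 268) (nat_lit 231)))) (XT.nd (nat_lit 78) (nat_lit 76) (nat_lit 0) (XT.lf (nat_lit 0) (nat_lit 381358125) (nat_lit 76) (nat_lit 16649828452) (nat_lit 76) (nat_lit 6690552737) (nat_lit 25) (nat_lit 4) (nat_lit 26) (nat_lit 5) (nat_lit 26) (nat_lit 4) (nat_lit 402) (nat_lit 268) (nat_lit 230)) (XT.nd (nat_lit 78) (nat_lit 76) (nat_lit 0) (XT.lf (nat_lit 0) (nat_lit 10800842246) (nat_lit 76) (nat_lit 11783297637) (nat_lit 76) (nat_lit 1684211675) (nat_lit 25) (nat_lit 4) (nat_lit 26) (nat_lit 5) (nat_lit 26) (nat_lit 4) (nat_lit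 403) (nat_lit 268) (nat_lit 229)) (XT.lf (nat_lit 0) (nat_lit 3341538606) (nat_lit 152) (nat_lit 3451500694) (nat_lit 76) (nat_lit 18039217711) (nat_lit 24) (nat_lit 5) (nat_lit 26) (nat_lit 5) (nat_lit 25) (nat_lit 4) (nat_lit 404) (nat_lit 268) (nat_lit 228))))) (XT.nd (nat_lit 234) (nat_lit 152) (nat_lit 0) (XT.nd (nat_lit 78) (nat_lit 76) (nat_lit 0) (XT.lf (nat_lit 0) (nat_lit 6866109567) (nat_lit 76) (nat_lit 1622914176) (nat_lit 152) (nat_lit 16923416542) (nat_lit 23) (nat_lit 5) (nat_lit 24) (nat_lit 5) (nat_lit 25) (nat_lit 4) (nat_lit 405) (nat_lit 268) (nat_lit 227)) (XT.nd (nat_lit 78) (nat_lit 76) (nat_lit 0) (XT.lf (nat_lit 0) (nat_lit 13800684959) (nat_lit 152) (nat_lit 8597259928) (nat_lit 0) (nat_lit 3611796789) (nat_lit 23) (nat_lit 5) (nat_lit 25) (nat_lit 4) (nat_lit 23) (nat_lit 4) (nat_lit 406) (nat_lit 268) (nat_lit 226)) (XT.lf (nat_lit 0) (nat_lit 1551536228) (nat_lit 76) (nat_lit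 17691884435) (nat_lit 76) (nat_lit 7382394717) (nat_lit 22) (nat_lit 4) (nat_lit 23) (nat_lit 5) (nat_lit 23) (nat_lit 4) (nat_lit 407) (nat_lit 268) (nat_lit 225)))) (XT.nd (nat_lit 156) (nat_lit 76) (nat_lit 0) (XT.nd (nat_lit 78) (nat_lit 76) (nat_lit 0) (XT.lf (nat_lit 0) (nat_lit 12069184704) (nat_lit 76) (nat_lit 12808461907) (nat_lit 76) (nat_lit 2381883307) (nat_lit 22) (nat_lit 4) (nat_lit 23) (nat_lit 5) (nat_lit 23) (nat_lit 4) (nat_lit 408) (nat_lit 268) (nat_lit 224)) (XT.lf (nat_lit 0) (nat_lit 2657148948) (nat_lit 152) (nat_lit 5146244759) (nat_lit 76) (nat_lit 20109792404) (nat_lit 21) (nat_lit 5) (nat_lit 23) (nat_lit 5) (nat_lit 22) (nat_lit 4) (nat_lit 409) (nat_lit 268) (nat_lit 223))) (XT.nd (nat_lit 78) (nat_lit 0) (nat_lit 0) (XT.lf (nat_lit 0) (nat_lit 5169938462) (nat_lit 76) (nat_lit 2623442369) (nat_lit 152) (nat_lit 20792551059) (nat_lit 20) (nat_lit 5) (nat_lit 21) (nat_lit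 5) (nat_lit 22) (nat_lit 4) (nat_lit 410) (nat_lit 268) (nat_lit 222)) (XT.lf (nat_lit 0) (nat_lit 13106582573) (nat_lit 152) (nat_lit 13509456946) (nat_lit 0) (nat_lit 2662138360) (nat_lit 20) (nat_lit 5) (nat_lit 22) (nat_lit 4) (nat_lit 20) (nat_lit 4) (nat_lit 411) (nat_lit 268) (nat_lit 221)))))) (XT.nd (nat_lit 546) (nat_lit 228) (nat_lit 0) (XT.nd (nat_lit 234) (nat_lit 152) (nat_lit 0) (XT.nd (nat_lit 78) (nat_lit 76) (nat_lit 0) (XT.lf (nat_lit 0) (nat_lit 18551109298) (nat_lit 152) (nat_lit 3435265092) (nat_lit 0) (nat_lit 8005663188) (nat_lit 20) (nat_lit 5) (nat_lit 22) (nat_lit 4) (nat_lit 20) (nat_lit 4) (nat_lit 412) (nat_lit 268) (nat_lit 220)) (XT.nd (nat_lit 78) (nat_lit 0) (nat_lit 0) (XT.lf (nat_lit 0) (nat_lit 6976744370) (nat_lit 76) (nat_lit 17196820592) (nat_lit 76) (nat_lit 6553314387) (nat_lit 19) (nat_lit 4) (nat_lit 20) (nat_lit 5) (nat_lit 20) (nat_lit 4) (nat_lit 413) (nat_lit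 268) (nat_lit 219)) (XT.lf (nat_lit 0) (nat_lit 17671969903) (nat_lit 76) (nat_lit 12275513468) (nat_lit 76) (nat_lit 1536803287) (nat_lit 19) (nat_lit 4) (nat_lit 20) (nat_lit 5) (nat_lit 20) (nat_lit 4) (nat_lit 414) (nat_lit 268) (nat_lit 218)))) (XT.nd (nat_lit 156) (nat_lit 0) (nat_lit 0) (XT.nd (nat_lit 78) (nat_lit 76) (nat_lit 0) (XT.lf (nat_lit 0) (nat_lit 3508473435) (nat_lit 152) (nat_lit 3708940150) (nat_lit 76) (nat_lit 25047486202) (nat_lit 18) (nat_lit 5) (nat_lit 20) (nat_lit 5) (nat_lit 19) (nat_lit 4) (nat_lit 415) (nat_lit 268) (nat_lit 217)) (XT.lf (nat_lit 0) (nat_lit 6718590407) (nat_lit 76) (nat_lit 1970803932) (nat_lit 152) (nat_lit 24378628892) (nat_lit 17) (nat_lit 5) (nat_lit 18) (nat_lit 5) (nat_lit 19) (nat_lit 4) (nat_lit 416) (nat_lit 268) (nat_lit 216))) (XT.nd (nat_lit 78) (nat_lit 0) (nat_lit 0) (XT.lf (nat_lit 0) (nat_lit 14047263213) (nat_lit 152) (nat_lit 16487455572)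 (nat_lit 0) (nat_lit 3359879498) (nat_lit 17) (nat_lit 5) (nat_lit 19) (nat_lit 4) (nat_lit 17) (nat_lit 4) (nat_lit 417) (nat_lit 268) (nat_lit 215)) (XT.lf (nat_lit 0) (nat_lit 19537511587) (nat_lit 152) (nat_lit 6441309024) (nat_lit 0) (nat_lit 8768004087) (nat_lit 17) (nat_lit 5) (nat_lit 19) (nat_lit 4) (nat_lit 17) (nat_lit 4) (nat_lit 418) (nat_lit 268) (nat_lit 214))))) (XT.nd (nat_lit 234) (nat_lit 152) (nat_lit 0) (XT.nd (nat_lit 78) (nat_lit 0) (nat_lit 0) (XT.lf (nat_lit 0) (nat_lit 3892689982) (nat_lit 76) (nat_lit 21290721129) (nat_lit 76) (nat_lit 10441481798) (nat_lit 16) (nat_lit 4) (nat_lit 17) (nat_lit 5) (nat_lit 17) (nat_lit 4) (nat_lit 419) (nat_lit 268) (nat_lit 213)) (XT.nd (nat_lit 78) (nat_lit 0) (nat_lit 0) (XT.lf (nat_lit 0) (nat_lit 14580134515) (nat_lit 76) (nat_lit 16437624304) (nat_lit 76) (nat_lit 5510975429) (nat_lit 16) (nat_lit 4) (nat_lit 17) (nat_lit 5) (nat_lit 17)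 (nat_lit 4) (nat_lit 420) (nat_lit 268) (nat_lit 212)) (XT.lf (nat_lit 0) (nat_lit 25502168437) (nat_lit 76) (nat_lit 11480334158) (nat_lit 76) (nat_lit 478530386) (nat_lit 16) (nat_lit 4) (nat_lit 17) (nat_lit 5) (nat_lit 17) (nat_lit 4) (nat_lit 421) (nat_lit 268) (nat_lit 211)))) (XT.nd (nat_lit 156) (nat_lit 0) (nat_lit 0) (XT.nd (nat_lit 78) (nat_lit 76) (nat_lit 0) (XT.lf (nat_lit 0) (nat_lit 4569312338) (nat_lit 152) (nat_lit 1799065645) (nat_lit 76) (nat_lit 32052881841) (nat_lit 15) (nat_lit 5) (nat_lit 17) (nat_lit 5) (nat_lit 16) (nat_lit 4) (nat_lit 422) (nat_lit 268) (nat_lit 210)) (XT.lf (nat_lit 0) (nat_lit 8749581372) (nat_lit 76) (nat_lit 1051005702) (nat_lit 152) (nat_lit 29608318677) (nat_lit 14) (nat_lit 5) (nat_lit 15) (nat_lit 5) (nat_lit 16) (nat_lit 4) (nat_lit 423) (nat_lit 268) (nat_lit 209))) (XT.nd (nat_lit 78) (nat_lit 0) (nat_lit 0) (XT.lf (nat_lit 0) (nat_lit 15207281425)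 (nat_lit 152) (nat_lit 20898821656) (nat_lit 0) (nat_lit 4319526310) (nat_lit 14) (nat_lit 5) (nat_lit 16) (nat_lit 4) (nat_lit 14) (nat_lit 4) (nat_lit 424) (nat_lit 268) (nat_lit 208)) (XT.lf (nat_lit 0) (nat_lit 20745407965) (nat_lit 152) (nat_lit 10935548954) (nat_lit 0) (nat_lit 9792823575) (nat_lit 14) (nat_lit 5) (nat_lit 16) (nat_lit 4) (nat_lit 14) (nat_lit 4) (nat_lit 425) (nat_lit 268) (nat_lit 207))))))))
noncomputable def xc36 : XT := (XT.nd (nat_lit 41964) (nat_lit 0) (nat_lit 2280) (XT.nd (nat_lit 1014) (nat_lit 228) (nat_lit 0) (XT.nd (nat_lit 468) (nat_lit 76) (nat_lit 0) (XT.nd (nat_lit 234) (nat_lit 152) (nat_lit 0) (XT.nd (nat_lit 78) (nat_lit 76) (nat_lit 0) (XT.lf (nat_lit 0) (nat_lit 26409702924) (nat_lit 152) (nat_lit 750697592) (nat_lit 0) (nat_lit 15394177491) (nat_lit 14) (nat_lit 5) (nat_lit 16) (nat_lit 4) (nat_lit 14) (nat_lit 4) (nat_lit 426) (nat_lit 268) (nat_lit 206)) (XT.nd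 (nat_lit 78) (nat_lit 0) (nat_lit 0) (XT.lf (nat_lit 0) (nat_lit 9856976937) (nat_lit 76) (nat_lit 22442890042) (nat_lit 76) (nat_lit 11366256800) (nat_lit 13) (nat_lit 4) (nat_lit 14) (nat_lit 5) (nat_lit 14) (nat_lit 4) (nat_lit 427) (nat_lit 268) (nat_lit 205)) (XT.lf (nat_lit 0) (nat_lit 20723938727) (nat_lit 76) (nat_lit 17611982656) (nat_lit 76) (nat_lit 6476021444) (nat_lit 13) (nat_lit 4) (nat_lit 14) (nat_lit 5) (nat_lit 14) (nat_lit 4) (nat_lit 428) (nat_lit 268) (nat_lit 204)))) (XT.nd (nat_lit 78) (nat_lit 152) (nat_lit 0) (XT.lf (nat_lit 0) (nat_lit 31844742827) (nat_lit 76) (nat_lit 12671037751) (nat_lit 76) (nat_lit 1477476568) (nat_lit 13) (nat_lit 4) (nat_lit 14) (nat_lit 5) (nat_lit 14) (nat_lit 4) (nat_lit 429) (nat_lit 268) (nat_lit 203)) (XT.nd (nat_lit 78) (nat_lit 76) (nat_lit 0) (XT.lf (nat_lit 0) (nat_lit 3562838025) (nat_lit 152) (nat_lit 4016922293) (nat_lit 76) (nat_lit 39630290741)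 (nat_lit 12) (nat_lit 5) (nat_lit 14) (nat_lit 5) (nat_lit 13) (nat_lit 4) (nat_lit 430) (nat_lit 268) (nat_lit 202)) (XT.lf (nat_lit 0) (nat_lit 6461340700) (nat_lit 76) (nat_lit 2289948798) (nat_lit 152) (nat_lit 39710823930) (nat_lit 11) (nat_lit 5) (nat_lit 12) (nat_lit 5) (nat_lit 13) (nat_lit 4) (nat_lit 431) (nat_lit 268) (nat_lit 201))))) (XT.nd (nat_lit 234) (nat_lit 76) (nat_lit 0) (XT.nd (nat_lit 78) (nat_lit 0) (nat_lit 0) (XT.lf (nat_lit 0) (nat_lit 14131296691) (nat_lit 152) (nat_lit 32513786934) (nat_lit 0) (nat_lit 3105579104) (nat_lit 11) (nat_lit 5) (nat_lit 13) (nat_lit 4) (nat_lit 11) (nat_lit 4) (nat_lit 432) (nat_lit 268) (nat_lit 200)) (XT.nd (nat_lit 78) (nat_lit 0) (nat_lit 0) (XT.lf (nat_lit 0) (nat_lit 19660984180) (nat_lit 152) (nat_lit 22831657639) (nat_lit 0) (nat_lit 8585580353) (nat_lit 11) (nat_lit 5) (nat_lit 13) (nat_lit 4) (nat_lit 11) (nat_lit 4) (nat_lit 433) (nat_lit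 268) (nat_lit 199)) (XT.lf (nat_lit 0) (nat_lit 25323171343) (nat_lit 152) (nat_lit 12923912342) (nat_lit 0) (nat_lit 14199528447) (nat_lit 11) (nat_lit 5) (nat_lit 13) (nat_lit 4) (nat_lit 11) (nat_lit 4) (nat_lit 434) (nat_lit 268) (nat_lit 198)))) (XT.nd (nat_lit 156) (nat_lit 0) (nat_lit 0) (XT.nd (nat_lit 78) (nat_lit 76) (nat_lit 0) (XT.lf (nat_lit 0) (nat_lit 31122805722) (nat_lit 152) (nat_lit 2781893789) (nat_lit 0) (nat_lit 19952328779) (nat_lit 11) (nat_lit 5) (nat_lit 13) (nat_lit 4) (nat_lit 11) (nat_lit 4) (nat_lit 435) (nat_lit 268) (nat_lit 197)) (XT.lf (nat_lit 0) (nat_lit 7754579758) (nat_lit 76) (nat_lit 29384916965) (nat_lit 76) (nat_lit 18168970073) (nat_lit 10) (nat_lit 4) (nat_lit 11) (nat_lit 5) (nat_lit 11) (nat_lit 4) (nat_lit 436) (nat_lit 268) (nat_lit 196))) (XT.nd (nat_lit 78) (nat_lit 0) (nat_lit 0) (XT.lf (nat_lit 0) (nat_lit 18603647532) (nat_lit 76) (nat_lit 24729993330)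 (nat_lit 76) (nat_lit 13469900856) (nat_lit 10) (nat_lit 4) (nat_lit 11) (nat_lit 5) (nat_lit 11) (nat_lit 4) (nat_lit 437) (nat_lit 268) (nat_lit 195)) (XT.lf (nat_lit 0) (nat_lit 29719424160) (nat_lit 76) (nat_lit 19963952870) (nat_lit 76) (nat_lit 8661000608) (nat_lit 10) (nat_lit 4) (nat_lit 11) (nat_lit 5) (nat_lit 11) (nat_lit 4) (nat_lit 438) (nat_lit 268) (nat_lit 194)))))) (XT.nd (nat_lit 468) (nat_lit 76) (nat_lit 0) (XT.nd (nat_lit 234) (nat_lit 0) (nat_lit 0) (XT.nd (nat_lit 78) (nat_lit 152) (nat_lit 0) (XT.lf (nat_lit 0) (nat_lit 41111622457) (nat_lit 76) (nat_lit 15082631084) (nat_lit 76) (nat_lit 3738067378) (nat_lit 10) (nat_lit 4) (nat_lit 11) (nat_lit 5) (nat_lit 11) (nat_lit 4) (nat_lit 439) (nat_lit 268) (nat_lit 193)) (XT.nd (nat_lit 78) (nat_lit 76) (nat_lit 0) (XT.lf (nat_lit 0) (nat_lit 1277770291) (nat_lit 152) (nat_lit 8791089474) (nat_lit 76) (nat_lit 51499523503) (nat_lit 9)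 (nat_lit 5) (nat_lit 11) (nat_lit 5) (nat_lit 10) (nat_lit 4) (nat_lit 440) (nat_lit 268) (nat_lit 192)) (XT.lf (nat_lit 0) (nat_lit 1476882183) (nat_lit 76) (nat_lit 4878323790) (nat_lit 152) (nat_lit 56897625149) (nat_lit 8) (nat_lit 5) (nat_lit 9) (nat_lit 5) (nat_lit 10) (nat_lit 4) (nat_lit 441) (nat_lit 268) (nat_lit 191)))) (XT.nd (nat_lit 78) (nat_lit 0) (nat_lit 0) (XT.lf (nat_lit 0) (nat_lit 11651217337) (nat_lit 152) (nat_lit 52811805590) (nat_lit 0) (nat_lit 522803444) (nat_lit 8) (nat_lit 5) (nat_lit 10) (nat_lit 4) (nat_lit 8) (nat_lit 4) (nat_lit 442) (nat_lit 268) (nat_lit 190)) (XT.nd (nat_lit 78) (nat_lit 0) (nat_lit 0) (XT.lf (nat_lit 0) (nat_lit 17127324708) (nat_lit 152) (nat_lit 43679835374) (nat_lit 0) (nat_lit 5963016417) (nat_lit 8) (nat_lit 5) (nat_lit 10) (nat_lit 4) (nat_lit 8) (nat_lit 4) (nat_lit 443) (nat_lit 268) (nat_lit 189)) (XT.lf (nat_lit 0) (nat_lit 22741419601) (nat_lit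 152) (nat_lit 34325165469) (nat_lit 0) (nat_lit 11542262380) (nat_lit 8) (nat_lit 5) (nat_lit 10) (nat_lit 4) (nat_lit 8) (nat_lit 4) (nat_lit 444) (nat_lit 268) (nat_lit 188))))) (XT.nd (nat_lit 234) (nat_lit 76) (nat_lit 0) (XT.nd (nat_lit 78) (nat_lit 0) (nat_lit 0) (XT.lf (nat_lit 0) (nat_lit 28498407537) (nat_lit 152) (nat_lit 24739621889) (nat_lit 0) (nat_lit 17265416404) (nat_lit 8) (nat_lit 5) (nat_lit 10) (nat_lit 4) (nat_lit 8) (nat_lit 4) (nat_lit 445) (nat_lit 268) (nat_lit 187)) (XT.nd (nat_lit 78) (nat_lit 0) (nat_lit 0) (XT.lf (nat_lit 0) (nat_lit 34403318893) (nat_lit 152) (nat_lit 14914828919) (nat_lit 0) (nat_lit 23137479302) (nat_lit 8) (nat_lit 5) (nat_lit 10) (nat_lit 4) (nat_lit 8) (nat_lit 4) (nat_lit 446) (nat_lit 268) (nat_lit 186)) (XT.lf (nat_lit 0) (nat_lit 40461313301) (nat_lit 152) (nat_lit 4842201788) (nat_lit 0) (nat_lit 29163582002) (nat_lit 8) (nat_lit 5) (nat_lit 10) (nat_lit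 4) (nat_lit 8) (nat_lit 4) (nat_lit 447) (nat_lit 268) (nat_lit 185)))) (XT.nd (nat_lit 156) (nat_lit 0) (nat_lit 0) (XT.nd (nat_lit 78) (nat_lit 0) (nat_lit 0) (XT.lf (nat_lit 0) (nat_lit 5596264099) (nat_lit 76) (nat_lit 41135214768) (nat_lit 76) (nat_lit 29806520647) (nat_lit 7) (nat_lit 4) (nat_lit 8) (nat_lit 5) (nat_lit 8) (nat_lit 4) (nat_lit 448) (nat_lit 268) (nat_lit 184)) (XT.lf (nat_lit 0) (nat_lit 16402047528) (nat_lit 76) (nat_lit 36813482217) (nat_lit 76) (nat_lit 25454727103) (nat_lit 7) (nat_lit 4) (nat_lit 8) (nat_lit 5) (nat_lit 8) (nat_lit 4) (nat_lit 449) (nat_lit 268) (nat_lit 183))) (XT.nd (nat_lit 40014) (nat_lit 0) (nat_lit 5700) (XT.lf (nat_lit 0) (nat_lit 27488221135) (nat_lit 76) (nat_lit 32383437909) (nat_lit 76) (nat_lit 20995497365) (nat_lit 7) (nat_lit 4) (nat_lit 8) (nat_lit 5) (nat_lit 8) (nat_lit 4) (nat_lit 450) (nat_lit 268) (nat_lit 182)) (XT.lf (nat_lit 0) (nat_lit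 503429921) (nat_lit 228) (nat_lit 4514038449) (nat_lit 0) (nat_lit 503429921) (nat_lit 82) (nat_lit 5) (nat_lit 85) (nat_lit 4) (nat_lit 82) (nat_lit 4) (nat_lit 362) (nat_lit 269) (nat_lit 269))))))) (XT.nd (nat_lit 1014) (nat_lit 1444) (nat_lit 0) (XT.nd (nat_lit 468) (nat_lit 1064) (nat_lit 0) (XT.nd (nat_lit 234) (nat_lit 456) (nat_lit 0) (XT.nd (nat_lit 78) (nat_lit 456) (nat_lit 0) (XT.lf (nat_lit 0) (nat_lit 5734201276) (nat_lit 228) (nat_lit 374210562) (nat_lit 0) (nat_lit 5102898840) (nat_lit 82) (nat_lit 5) (nat_lit 85) (nat_lit 4) (nat_lit 82) (nat_lit 4) (nat_lit 363) (nat_lit 269) (nat_lit 268)) (XT.nd (nat_lit 78) (nat_lit 228) (nat_lit 0) (XT.lf (nat_lit 0) (nat_lit 8533342180) (nat_lit 228) (nat_lit 2048724895) (nat_lit 228) (nat_lit 804507474) (nat_lit 79) (nat_lit 4) (nat_lit 82) (nat_lit 5) (nat_lit 82) (nat_lit 4) (nat_lit 364) (nat_lit 269) (nat_lit 267)) (XT.lf (nat_lit 0) (nat_lit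 3909919132) (nat_lit 228) (nat_lit 5532439548) (nat_lit 0) (nat_lit 2124209895) (nat_lit 76) (nat_lit 5) (nat_lit 79) (nat_lit 4) (nat_lit 76) (nat_lit 4) (nat_lit 365) (nat_lit 269) (nat_lit 266)))) (XT.nd (nat_lit 78) (nat_lit 228) (nat_lit 0) (XT.lf (nat_lit 0) (nat_lit 3358973487) (nat_lit 228) (nat_lit 5370002768) (nat_lit 228) (nat_lit 3023389494) (nat_lit 73) (nat_lit 4) (nat_lit 76) (nat_lit 5) (nat_lit 76) (nat_lit 4) (nat_lit 366) (nat_lit 269) (nat_lit 265)) (XT.nd (nat_lit 78) (nat_lit 0) (nat_lit 0) (XT.lf (nat_lit 0) (nat_lit 507119757) (nat_lit 152) (nat_lit 1166919679) (nat_lit 228) (nat_lit 10270436106) (nat_lit 70) (nat_lit 5) (nat_lit 72) (nat_lit 5) (nat_lit 73) (nat_lit 4) (nat_lit 367) (nat_lit 269) (nat_lit 264)) (XT.lf (nat_lit 0) (nat_lit 6466249152) (nat_lit 228) (nat_lit 2528812688) (nat_lit 0) (nat_lit 3145971336) (nat_lit 70) (nat_lit 5) (nat_lit 73) (nat_lit 4) (nat_lit 70)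 (nat_lit 4) (nat_lit 368) (nat_lit 269) (nat_lit 263))))) (XT.nd (nat_lit 234) (nat_lit 608) (nat_lit 0) (XT.nd (nat_lit 78) (nat_lit 228) (nat_lit 0) (XT.lf (nat_lit 0) (nat_lit 6594663384) (nat_lit 228) (nat_lit 4784091385) (nat_lit 228) (nat_lit 965457597) (nat_lit 67) (nat_lit 4) (nat_lit 70) (nat_lit 5) (nat_lit 70) (nat_lit 4) (nat_lit 369) (nat_lit 269) (nat_lit 262)) (XT.nd (nat_lit 78) (nat_lit 0) (nat_lit 0) (XT.lf (nat_lit 0) (nat_lit 3348945039) (nat_lit 152) (nat_lit 420227165) (nat_lit 228) (nat_lit 8784418754) (nat_lit 64) (nat_lit 5) (nat_lit 66) (nat_lit 5) (nat_lit 67) (nat_lit 4) (nat_lit 370) (nat_lit 269) (nat_lit 261)) (XT.lf (nat_lit 0) (nat_lit 8626651345) (nat_lit 228) (nat_lit 148900008) (nat_lit 0) (nat_lit 3993425288) (nat_lit 64) (nat_lit 5) (nat_lit 67) (nat_lit 4) (nat_lit 64) (nat_lit 4) (nat_lit 371) (nat_lit 269) (nat_lit 260)))) (XT.nd (nat_lit 156) (nat_lit 228) (nat_lit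 0) (XT.nd (nat_lit 78) (nat_lit 152) (nat_lit 0) (XT.lf (nat_lit 0) (nat_lit 624261083) (nat_lit 228) (nat_lit 3808758884) (nat_lit 76) (nat_lit 8557706516) (nat_lit 61) (nat_lit 5) (nat_lit 64) (nat_lit 5) (nat_lit 62) (nat_lit 4) (nat_lit 372) (nat_lit 269) (nat_lit 259)) (XT.lf (nat_lit 0) (nat_lit 5410893095) (nat_lit 228) (nat_lit 7742849687) (nat_lit 0) (nat_lit 65363850) (nat_lit 59) (nat_lit 5) (nat_lit 62) (nat_lit 4) (nat_lit 59) (nat_lit 4) (nat_lit 373) (nat_lit 269) (nat_lit 258))) (XT.nd (nat_lit 78) (nat_lit 76) (nat_lit 0) (XT.lf (nat_lit 0) (nat_lit 1483213430) (nat_lit 152) (nat_lit 8860895160) (nat_lit 152) (nat_lit 3110156904) (nat_lit 57) (nat_lit 4) (nat_lit 59) (nat_lit 5) (nat_lit 59) (nat_lit 4) (nat_lit 374) (nat_lit 269) (nat_lit 257)) (XT.lf (nat_lit 0) (nat_lit 1680282138) (nat_lit 228) (nat_lit 2733172320) (nat_lit 76) (nat_lit 9282986682) (nat_lit 56) (nat_lit 5) (nat_lit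 59) (nat_lit 5) (nat_lit 57) (nat_lit 4) (nat_lit 375) (nat_lit 269) (nat_lit 256)))))) (XT.nd (nat_lit 546) (nat_lit 608) (nat_lit 0) (XT.nd (nat_lit 234) (nat_lit 456) (nat_lit 0) (XT.nd (nat_lit 78) (nat_lit 228) (nat_lit 0) (XT.lf (nat_lit 0) (nat_lit 6527348289) (nat_lit 228) (nat_lit 7227027357) (nat_lit 0) (nat_lit 191335262) (nat_lit 54) (nat_lit 5) (nat_lit 57) (nat_lit 4) (nat_lit 54) (nat_lit 4) (nat_lit 376) (nat_lit 269) (nat_lit 255)) (XT.nd (nat_lit 78) (nat_lit 76) (nat_lit 0) (XT.lf (nat_lit 0) (nat_lit 2144330874) (nat_lit 152) (nat_lit 9377065867) (nat_lit 152) (nat_lit 2681029883) (nat_lit 52) (nat_lit 4) (nat_lit 54) (nat_lit 5) (nat_lit 54) (nat_lit 4) (nat_lit 377) (nat_lit 269) (nat_lit 254)) (XT.lf (nat_lit 0) (nat_lit 2138808610) (nat_lit 228) (nat_lit 2703791356) (nat_lit 76) (nat_lit 9624125426) (nat_lit 51) (nat_lit 5) (nat_lit 54) (nat_lit 5) (nat_lit 52) (nat_lit 4) (nat_lit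 378) (nat_lit 269) (nat_lit 253)))) (XT.nd (nat_lit 156) (nat_lit 152) (nat_lit 0) (XT.nd (nat_lit 78) (nat_lit 152) (nat_lit 0) (XT.lf (nat_lit 0) (nat_lit 6881344526) (nat_lit 152) (nat_lit 146376424) (nat_lit 228) (nat_lit 7711098580) (nat_lit 49) (nat_lit 5) (nat_lit 51) (nat_lit 5) (nat_lit 52) (nat_lit 4) (nat_lit 379) (nat_lit 269) (nat_lit 252)) (XT.lf (nat_lit 0) (nat_lit 1619506585) (nat_lit 152) (nat_lit 10444633864) (nat_lit 152) (nat_lit 2954924145) (nat_lit 47) (nat_lit 4) (nat_lit 49) (nat_lit 5) (nat_lit 49) (nat_lit 4) (nat_lit 380) (nat_lit 269) (nat_lit 251))) (XT.nd (nat_lit 78) (nat_lit 76) (nat_lit 0) (XT.lf (nat_lit 0) (nat_lit 1900365349) (nat_lit 228) (nat_lit 3942527023) (nat_lit 76) (nat_lit 9464445691) (nat_lit 46) (nat_lit 5) (nat_lit 49) (nat_lit 5) (nat_lit 47) (nat_lit 4) (nat_lit 381) (nat_lit 269) (nat_lit 250)) (XT.lf (nat_lit 0) (nat_lit 5727184805) (nat_lit 76) (nat_lit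 1085114233) (nat_lit 152) (nat_lit 8791983871) (nat_lit 45) (nat_lit 5) (nat_lit 46) (nat_lit 5) (nat_lit 47) (nat_lit 4) (nat_lit 382) (nat_lit 269) (nat_lit 249))))) (XT.nd (nat_lit 234) (nat_lit 304) (nat_lit 0) (XT.nd (nat_lit 78) (nat_lit 304) (nat_lit 0) (XT.lf (nat_lit 0) (nat_lit 11864143868) (nat_lit 152) (nat_lit 332097031) (nat_lit 0) (nat_lit 3714130418) (nat_lit 45) (nat_lit 5) (nat_lit 47) (nat_lit 4) (nat_lit 45) (nat_lit 4) (nat_lit 383) (nat_lit 269) (nat_lit 248)) (XT.nd (nat_lit 78) (nat_lit 76) (nat_lit 0) (XT.lf (nat_lit 0) (nat_lit 846095102) (nat_lit 228) (nat_lit 6708368011) (nat_lit 76) (nat_lit 8670328956) (nat_lit 42) (nat_lit 5) (nat_lit 45) (nat_lit 5) (nat_lit 43) (nat_lit 4) (nat_lit 384) (nat_lit 269) (nat_lit 247)) (XT.lf (nat_lit 0) (nat_lit 2987280051) (nat_lit 76) (nat_lit 2766962319) (nat_lit 152) (nat_lit 10794700627) (nat_lit 41) (nat_lit 5) (nat_lit 42) (nat_lit 5)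 (nat_lit 43) (nat_lit 4) (nat_lit 385) (nat_lit 269) (nat_lit 246)))) (XT.nd (nat_lit 156) (nat_lit 152) (nat_lit 0) (XT.nd (nat_lit 78) (nat_lit 152) (nat_lit 0) (XT.lf (nat_lit 0) (nat_lit 10817436383) (nat_lit 152) (nat_lit 3940848526) (nat_lit 0) (nat_lit 2124309970) (nat_lit 41) (nat_lit 5) (nat_lit 43) (nat_lit 4) (nat_lit 41) (nat_lit 4) (nat_lit 386) (nat_lit 269) (nat_lit 245)) (XT.lf (nat_lit 0) (nat_lit 5911004831) (nat_lit 152) (nat_lit 10126695491) (nat_lit 152) (nat_lit 1188410963) (nat_lit 39) (nat_lit 4) (nat_lit 41) (nat_lit 5) (nat_lit 41) (nat_lit 4) (nat_lit 387) (nat_lit 269) (nat_lit 244))) (XT.nd (nat_lit 78) (nat_lit 76) (nat_lit 0) (XT.lf (nat_lit 0) (nat_lit 3721092194) (nat_lit 228) (nat_lit 1622484961) (nat_lit 76) (nat_lit 12236421381) (nat_lit 38) (nat_lit 5) (nat_lit 41) (nat_lit 5) (nat_lit 39) (nat_lit 4) (nat_lit 388) (nat_lit 269) (nat_lit 243)) (XT.lf (nat_lit 0) (nat_lit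 8371053434) (nat_lit 76) (nat_lit 386799071) (nat_lit 152) (nat_lit 9186190494) (nat_lit 37) (nat_lit 5) (nat_lit 38) (nat_lit 5) (nat_lit 39) (nat_lit 4) (nat_lit 389) (nat_lit 269) (nat_lit 242))))))))
noncomputable def xc37 : XT := (XT.nd (nat_lit 2106) (nat_lit 684) (nat_lit 0) (XT.nd (nat_lit 1014) (nat_lit 684) (nat_lit 0) (XT.nd (nat_lit 468) (nat_lit 304) (nat_lit 0) (XT.nd (nat_lit 234) (nat_lit 228) (nat_lit 0) (XT.nd (nat_lit 78) (nat_lit 152) (nat_lit 0) (XT.lf (nat_lit 0) (nat_lit 195717762) (nat_lit 152) (nat_lit 13737441093) (nat_lit 152) (nat_lit 4386235698) (nat_lit 35) (nat_lit 4) (nat_lit 37) (nat_lit 5) (nat_lit 37) (nat_lit 4) (nat_lit 390) (nat_lit 269) (nat_lit 241)) (XT.nd (nat_lit 78) (nat_lit 76) (nat_lit 0) (XT.lf (nat_lit 0) (nat_lit 572065573) (nat_lit 228) (nat_lit 8401387824) (nat_lit 76) (nat_lit 9731644029) (nat_lit 34) (nat_lit 5) (nat_lit 37) (nat_lit 5) (nat_lit 35) (nat_lit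 4) (nat_lit 391) (nat_lit 269) (nat_lit 240)) (XT.lf (nat_lit 0) (nat_lit 1459904980) (nat_lit 76) (nat_lit 4071081217) (nat_lit 152) (nat_lit 13571889753) (nat_lit 33) (nat_lit 5) (nat_lit 34) (nat_lit 5) (nat_lit 35) (nat_lit 4) (nat_lit 392) (nat_lit 269) (nat_lit 239)))) (XT.nd (nat_lit 78) (nat_lit 228) (nat_lit 0) (XT.lf (nat_lit 0) (nat_lit 10659989270) (nat_lit 152) (nat_lit 7869000204) (nat_lit 0) (nat_lit 982966955) (nat_lit 33) (nat_lit 5) (nat_lit 35) (nat_lit 4) (nat_lit 33) (nat_lit 4) (nat_lit 393) (nat_lit 269) (nat_lit 238)) (XT.nd (nat_lit 78) (nat_lit 76) (nat_lit 0) (XT.lf (nat_lit 0) (nat_lit 2064210985) (nat_lit 152) (nat_lit 13867182900) (nat_lit 152) (nat_lit 4002267304) (nat_lit 31) (nat_lit 4) (nat_lit 33) (nat_lit 5) (nat_lit 33) (nat_lit 4) (nat_lit 394) (nat_lit 269) (nat_lit 237)) (XT.lf (nat_lit 0) (nat_lit 982279994) (nat_lit 228) (nat_lit 8053307868) (nat_lit 76) (nat_lit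 11331888293) (nat_lit 30) (nat_lit 5) (nat_lit 33) (nat_lit 5) (nat_lit 31) (nat_lit 4) (nat_lit 395) (nat_lit 269) (nat_lit 236))))) (XT.nd (nat_lit 234) (nat_lit 152) (nat_lit 0) (XT.nd (nat_lit 78) (nat_lit 76) (nat_lit 0) (XT.lf (nat_lit 0) (nat_lit 1925094174) (nat_lit 76) (nat_lit 4059899850) (nat_lit 152) (nat_lit 14829657745) (nat_lit 29) (nat_lit 5) (nat_lit 30) (nat_lit 5) (nat_lit 31) (nat_lit 4) (nat_lit 396) (nat_lit 269) (nat_lit 235)) (XT.nd (nat_lit 78) (nat_lit 76) (nat_lit 0) (XT.lf (nat_lit 0) (nat_lit 11160926347) (nat_lit 152) (nat_lit 9046287904) (nat_lit 0) (nat_lit 1067341234) (nat_lit 29) (nat_lit 5) (nat_lit 31) (nat_lit 4) (nat_lit 29) (nat_lit 4) (nat_lit 397) (nat_lit 269) (nat_lit 234)) (XT.lf (nat_lit 0) (nat_lit 943924592) (nat_lit 76) (nat_lit 15530270110) (nat_lit 76) (nat_lit 5274606602) (nat_lit 28) (nat_lit 4) (nat_lit 29) (nat_lit 5) (nat_lit 29) (nat_lit 4) (nat_lit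 398) (nat_lit 269) (nat_lit 233)))) (XT.nd (nat_lit 156) (nat_lit 76) (nat_lit 0) (XT.nd (nat_lit 78) (nat_lit 76) (nat_lit 0) (XT.lf (nat_lit 0) (nat_lit 11293946829) (nat_lit 76) (nat_lit 10677804342) (nat_lit 76) (nat_lit 264783169) (nat_lit 28) (nat_lit 4) (nat_lit 29) (nat_lit 5) (nat_lit 29) (nat_lit 4) (nat_lit 399) (nat_lit 269) (nat_lit 232)) (XT.lf (nat_lit 0) (nat_lit 4734640282) (nat_lit 152) (nat_lit 954475831) (nat_lit 76) (nat_lit 17050332780) (nat_lit 27) (nat_lit 5) (nat_lit 29) (nat_lit 5) (nat_lit 28) (nat_lit 4) (nat_lit 400) (nat_lit 269) (nat_lit 231))) (XT.nd (nat_lit 78) (nat_lit 0) (nat_lit 0) (XT.lf (nat_lit 0) (nat_lit 9394572497) (nat_lit 76) (nat_lit 511187499) (nat_lit 152) (nat_lit 13350807162) (nat_lit 26) (nat_lit 5) (nat_lit 27) (nat_lit 5) (nat_lit 28) (nat_lit 4) (nat_lit 401) (nat_lit 269) (nat_lit 230)) (XT.lf (nat_lit 0) (nat_lit 15225000033) (nat_lit 152) (nat_lit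 3881283905) (nat_lit 0) (nat_lit 4683131244) (nat_lit 26) (nat_lit 5) (nat_lit 28) (nat_lit 4) (nat_lit 26) (nat_lit 4) (nat_lit 402) (nat_lit 269) (nat_lit 229)))))) (XT.nd (nat_lit 546) (nat_lit 304) (nat_lit 0) (XT.nd (nat_lit 234) (nat_lit 152) (nat_lit 0) (XT.nd (nat_lit 78) (nat_lit 152) (nat_lit 0) (XT.lf (nat_lit 0) (nat_lit 6402624225) (nat_lit 76) (nat_lit 14306538298) (nat_lit 76) (nat_lit 3628931405) (nat_lit 25) (nat_lit 4) (nat_lit 26) (nat_lit 5) (nat_lit 26) (nat_lit 4) (nat_lit 403) (nat_lit 269) (nat_lit 228)) (XT.nd (nat_lit 78) (nat_lit 76) (nat_lit 0) (XT.lf (nat_lit 0) (nat_lit 1404625535) (nat_lit 152) (nat_lit 7958001624) (nat_lit 76) (nat_lit 15540839913) (nat_lit 24) (nat_lit 5) (nat_lit 26) (nat_lit 5) (nat_lit 25) (nat_lit 4) (nat_lit 404) (nat_lit 269) (nat_lit 227)) (XT.lf (nat_lit 0) (nat_lit 2213247180) (nat_lit 76) (nat_lit 4264873422) (nat_lit 152) (nat_lit 19007751990)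 (nat_lit 23) (nat_lit 5) (nat_lit 24) (nat_lit 5) (nat_lit 25) (nat_lit 4) (nat_lit 405) (nat_lit 269) (nat_lit 226)))) (XT.nd (nat_lit 156) (nat_lit 152) (nat_lit 0) (XT.nd (nat_lit 78) (nat_lit 0) (nat_lit 0) (XT.lf (nat_lit 0) (nat_lit 11735194497) (nat_lit 152) (nat_lit 13353801035) (nat_lit 0) (nat_lit 995818539) (nat_lit 23) (nat_lit 5) (nat_lit 25) (nat_lit 4) (nat_lit 23) (nat_lit 4) (nat_lit 406) (nat_lit 269) (nat_lit 225)) (XT.lf (nat_lit 0) (nat_lit 17134674923) (nat_lit 152) (nat_lit 3289302825) (nat_lit 0) (nat_lit 6278210084) (nat_lit 23) (nat_lit 5) (nat_lit 25) (nat_lit 4) (nat_lit 23) (nat_lit 4) (nat_lit 407) (nat_lit 269) (nat_lit 224))) (XT.nd (nat_lit 78) (nat_lit 76) (nat_lit 0) (XT.lf (nat_lit 0) (nat_lit 7109389815) (nat_lit 76) (nat_lit 15599233290) (nat_lit 76) (nat_lit 4629089925) (nat_lit 22) (nat_lit 4) (nat_lit 23) (nat_lit 5) (nat_lit 23) (nat_lit 4) (nat_lit 408) (nat_lit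 269) (nat_lit 223)) (XT.lf (nat_lit 0) (nat_lit 426308472) (nat_lit 152) (nat_lit 10215104666) (nat_lit 76) (nat_lit 17351430874) (nat_lit 21) (nat_lit 5) (nat_lit 23) (nat_lit 5) (nat_lit 22) (nat_lit 4) (nat_lit 409) (nat_lit 269) (nat_lit 222))))) (XT.nd (nat_lit 234) (nat_lit 228) (nat_lit 0) (XT.nd (nat_lit 78) (nat_lit 76) (nat_lit 0) (XT.lf (nat_lit 0) (nat_lit 5486159322) (nat_lit 152) (nat_lit 50760352) (nat_lit 76) (nat_lit 23130963676) (nat_lit 21) (nat_lit 5) (nat_lit 23) (nat_lit 5) (nat_lit 22) (nat_lit 4) (nat_lit 410) (nat_lit 269) (nat_lit 221)) (XT.nd (nat_lit 78) (nat_lit 0) (nat_lit 0) (XT.lf (nat_lit 0) (nat_lit 10523439034) (nat_lit 76) (nat_lit 222932771) (nat_lit 152) (nat_lit 18615349280) (nat_lit 20) (nat_lit 5) (nat_lit 21) (nat_lit 5) (nat_lit 22) (nat_lit 4) (nat_lit 411) (nat_lit 269) (nat_lit 220)) (XT.lf (nat_lit 0) (nat_lit 16162907488) (nat_lit 152) (nat_lit 8811479034)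 (nat_lit 0) (nat_lit 5102036002) (nat_lit 20) (nat_lit 5) (nat_lit 22) (nat_lit 4) (nat_lit 20) (nat_lit 4) (nat_lit 412) (nat_lit 269) (nat_lit 219)))) (XT.nd (nat_lit 156) (nat_lit 152) (nat_lit 0) (XT.nd (nat_lit 78) (nat_lit 0) (nat_lit 0) (XT.lf (nat_lit 0) (nat_lit 1444487032) (nat_lit 76) (nat_lit 20262601456) (nat_lit 76) (nat_lit 9106525996) (nat_lit 19) (nat_lit 4) (nat_lit 20) (nat_lit 5) (nat_lit 20) (nat_lit 4) (nat_lit 413) (nat_lit 269) (nat_lit 218)) (XT.lf (nat_lit 0) (nat_lit 12092094899) (nat_lit 76) (nat_lit 15364089977) (nat_lit 76) (nat_lit 4115583471) (nat_lit 19) (nat_lit 4) (nat_lit 20) (nat_lit 5) (nat_lit 20) (nat_lit 4) (nat_lit 414) (nat_lit 269) (nat_lit 217))) (XT.nd (nat_lit 78) (nat_lit 76) (nat_lit 0) (XT.lf (nat_lit 0) (nat_lit 955675084) (nat_lit 152) (nat_lit 9398224961) (nat_lit 76) (nat_lit 21999957062) (nat_lit 18) (nat_lit 5) (nat_lit 20) (nat_lit 5) (nat_lit 19)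 (nat_lit 4) (nat_lit 415) (nat_lit 269) (nat_lit 216)) (XT.lf (nat_lit 0) (nat_lit 869818750) (nat_lit 76) (nat_lit 5186924725) (nat_lit 152) (nat_lit 27102634382) (nat_lit 17) (nat_lit 5) (nat_lit 18) (nat_lit 5) (nat_lit 19) (nat_lit 4) (nat_lit 416) (nat_lit 269) (nat_lit 215))))))) (XT.nd (nat_lit 1014) (nat_lit 380) (nat_lit 0) (XT.nd (nat_lit 468) (nat_lit 152) (nat_lit 0) (XT.nd (nat_lit 234) (nat_lit 152) (nat_lit 0) (XT.nd (nat_lit 78) (nat_lit 0) (nat_lit 0) (XT.lf (nat_lit 0) (nat_lit 11360116007) (nat_lit 152) (nat_lit 22442073980) (nat_lit 0) (nat_lit 185399496) (nat_lit 17) (nat_lit 5) (nat_lit 19) (nat_lit 4) (nat_lit 17) (nat_lit 4) (nat_lit 417) (nat_lit 269) (nat_lit 214)) (XT.nd (nat_lit 78) (nat_lit 0) (nat_lit 0) (XT.lf (nat_lit 0) (nat_lit 16827470185) (nat_lit 152) (nat_lit 12440012328) (nat_lit 0) (nat_lit 5573021843) (nat_lit 17) (nat_lit 5) (nat_lit 19) (nat_lit 4) (nat_lit 17)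 (nat_lit 4) (nat_lit 418) (nat_lit 269) (nat_lit 213)) (XT.lf (nat_lit 0) (nat_lit 22413723416) (nat_lit 152) (nat_lit 2224774594) (nat_lit 0) (nat_lit 11081865530) (nat_lit 17) (nat_lit 5) (nat_lit 19) (nat_lit 4) (nat_lit 17) (nat_lit 4) (nat_lit 419) (nat_lit 269) (nat_lit 212)))) (XT.nd (nat_lit 78) (nat_lit 76) (nat_lit 0) (XT.lf (nat_lit 0) (nat_lit 8376011306) (nat_lit 76) (nat_lit 19828260931) (nat_lit 76) (nat_lit 8421248148) (nat_lit 16) (nat_lit 4) (nat_lit 17) (nat_lit 5) (nat_lit 17) (nat_lit 4) (nat_lit 420) (nat_lit 269) (nat_lit 211)) (XT.nd (nat_lit 78) (nat_lit 76) (nat_lit 0) (XT.lf (nat_lit 0) (nat_lit 19256898380) (nat_lit 76) (nat_lit 14890770672) (nat_lit 76) (nat_lit 3410791969) (nat_lit 16) (nat_lit 4) (nat_lit 17) (nat_lit 5) (nat_lit 17) (nat_lit 4) (nat_lit 421) (nat_lit 269) (nat_lit 210)) (XT.lf (nat_lit 0) (nat_lit 1673337911) (nat_lit 152) (nat_lit 8153943440) (nat_lit 76)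 (nat_lit 28692881477) (nat_lit 15) (nat_lit 5) (nat_lit 17) (nat_lit 5) (nat_lit 16) (nat_lit 4) (nat_lit 422) (nat_lit 269) (nat_lit 209))))) (XT.nd (nat_lit 234) (nat_lit 76) (nat_lit 0) (XT.nd (nat_lit 78) (nat_lit 0) (nat_lit 0) (XT.lf (nat_lit 0) (nat_lit 2228258408) (nat_lit 76) (nat_lit 4593345132) (nat_lit 152) (nat_lit 32688696856) (nat_lit 14) (nat_lit 5) (nat_lit 15) (nat_lit 5) (nat_lit 16) (nat_lit 4) (nat_lit 423) (nat_lit 269) (nat_lit 208)) (XT.nd (nat_lit 78) (nat_lit 0) (nat_lit 0) (XT.lf (nat_lit 0) (nat_lit 12173963683) (nat_lit 152) (nat_lit 27526719218) (nat_lit 0) (nat_lit 827972488) (nat_lit 14) (nat_lit 5) (nat_lit 16) (nat_lit 4) (nat_lit 14) (nat_lit 4) (nat_lit 424) (nat_lit 269) (nat_lit 207)) (XT.lf (nat_lit 0) (nat_lit 17692397919) (nat_lit 152) (nat_lit 17601534950) (nat_lit 0) (nat_lit 6283465680) (nat_lit 14) (nat_lit 5) (nat_lit 16) (nat_lit 4) (nat_lit 14) (nat_lit 4)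 (nat_lit 425) (nat_lit 269) (nat_lit 206)))) (XT.nd (nat_lit 156) (nat_lit 0) (nat_lit 0) (XT.nd (nat_lit 78) (nat_lit 76) (nat_lit 0) (XT.lf (nat_lit 0) (nat_lit 23337574137) (nat_lit 152) (nat_lit 7453662651) (nat_lit 0) (nat_lit 11867534089) (nat_lit 14) (nat_lit 5) (nat_lit 16) (nat_lit 4) (nat_lit 14) (nat_lit 4) (nat_lit 426) (nat_lit 269) (nat_lit 205)) (XT.lf (nat_lit 0) (nat_lit 2983993208) (nat_lit 76) (nat_lit 26159115775) (nat_lit 76) (nat_lit 14629747757) (nat_lit 13) (nat_lit 4) (nat_lit 14) (nat_lit 5) (nat_lit 14) (nat_lit 4) (nat_lit 427) (nat_lit 269) (nat_lit 204))) (XT.nd (nat_lit 78) (nat_lit 0) (nat_lit 0) (XT.lf (nat_lit 0) (nat_lit 13815404977) (nat_lit 76) (nat_lit 21345395434) (nat_lit 76) (nat_lit 9758427445) (nat_lit 13) (nat_lit 4) (nat_lit 14) (nat_lit 5) (nat_lit 14) (nat_lit 4) (nat_lit 428) (nat_lit 269) (nat_lit 203)) (XT.lf (nat_lit 0) (nat_lit 24901694493) (nat_lit 76)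 (nat_lit 16421136981) (nat_lit 76) (nat_lit 4778246690) (nat_lit 13) (nat_lit 4) (nat_lit 14) (nat_lit 5) (nat_lit 14) (nat_lit 4) (nat_lit 429) (nat_lit 269) (nat_lit 202)))))) (XT.nd (nat_lit 546) (nat_lit 152) (nat_lit 0) (XT.nd (nat_lit 234) (nat_lit 76) (nat_lit 0) (XT.nd (nat_lit 78) (nat_lit 76) (nat_lit 0) (XT.lf (nat_lit 0) (nat_lit 308996485) (nat_lit 152) (nat_lit 11069920921) (nat_lit 76) (nat_lit 35940432060) (nat_lit 12) (nat_lit 5) (nat_lit 14) (nat_lit 5) (nat_lit 13) (nat_lit 4) (nat_lit 430) (nat_lit 269) (nat_lit 201)) (XT.nd (nat_lit 78) (nat_lit 76) (nat_lit 0) (XT.lf (nat_lit 0) (nat_lit 5418365433) (nat_lit 152) (nat_lit 750614090) (nat_lit 76) (nat_lit 42404805836) (nat_lit 12) (nat_lit 5) (nat_lit 14) (nat_lit 5) (nat_lit 13) (nat_lit 4) (nat_lit 431) (nat_lit 269) (nat_lit 200)) (XT.lf (nat_lit 0) (nat_lit 10008792715) (nat_lit 76) (nat_lit 734983375) (nat_lit 152) (nat_lit 39120197484)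 (nat_lit 11) (nat_lit 5) (nat_lit 12) (nat_lit 5) (nat_lit 13) (nat_lit 4) (nat_lit 432) (nat_lit 269) (nat_lit 199)))) (XT.nd (nat_lit 156) (nat_lit 76) (nat_lit 0) (XT.nd (nat_lit 78) (nat_lit 0) (nat_lit 0) (XT.lf (nat_lit 0) (nat_lit 16249949725) (nat_lit 152) (nat_lit 30197931222) (nat_lit 0) (nat_lit 4744358474) (nat_lit 11) (nat_lit 5) (nat_lit 13) (nat_lit 4) (nat_lit 11) (nat_lit 4) (nat_lit 433) (nat_lit 269) (nat_lit 198)) (XT.lf (nat_lit 0) (nat_lit 21896167234) (nat_lit 152) (nat_lit 20321200261) (nat_lit 0) (nat_lit 10343741935) (nat_lit 11) (nat_lit 5) (nat_lit 13) (nat_lit 4) (nat_lit 11) (nat_lit 4) (nat_lit 434) (nat_lit 269) (nat_lit 197))) (XT.nd (nat_lit 78) (nat_lit 76) (nat_lit 0) (XT.lf (nat_lit 0) (nat_lit 27680297093) (nat_lit 152) (nat_lit 10209292715) (nat_lit 0) (nat_lit 16082401845) (nat_lit 11) (nat_lit 5) (nat_lit 13) (nat_lit 4) (nat_lit 11) (nat_lit 4) (nat_lit 435) (nat_lit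 269) (nat_lit 196)) (XT.lf (nat_lit 0) (nat_lit 149545229) (nat_lit 76) (nat_lit 33459285690) (nat_lit 76) (nat_lit 21817244860) (nat_lit 10) (nat_lit 4) (nat_lit 11) (nat_lit 5) (nat_lit 11) (nat_lit 4) (nat_lit 436) (nat_lit 269) (nat_lit 195))))) (XT.nd (nat_lit 234) (nat_lit 152) (nat_lit 0) (XT.nd (nat_lit 78) (nat_lit 0) (nat_lit 0) (XT.lf (nat_lit 0) (nat_lit 10969665624) (nat_lit 76) (nat_lit 28818416677) (nat_lit 76) (nat_lit 17133516060) (nat_lit 10) (nat_lit 4) (nat_lit 11) (nat_lit 5) (nat_lit 11) (nat_lit 4) (nat_lit 437) (nat_lit 269) (nat_lit 194)) (XT.nd (nat_lit 78) (nat_lit 0) (nat_lit 0) (XT.lf (nat_lit 0) (nat_lit 22057338001) (nat_lit 76) (nat_lit 24066021482) (nat_lit 76) (nat_lit 12339509421) (nat_lit 10) (nat_lit 4) (nat_lit 11) (nat_lit 5) (nat_lit 11) (nat_lit 4) (nat_lit 438) (nat_lit 269) (nat_lit 193)) (XT.lf (nat_lit 0) (nat_lit 33422250616) (nat_lit 76) (nat_lit 19197947527)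 (nat_lit 76) (nat_lit 7431036004) (nat_lit 10) (nat_lit 4) (nat_lit 11) (nat_lit 5) (nat_lit 11) (nat_lit 4) (nat_lit 439) (nat_lit 269) (nat_lit 192)))) (XT.nd (nat_lit 156) (nat_lit 76) (nat_lit 0) (XT.nd (nat_lit 78) (nat_lit 76) (nat_lit 0) (XT.lf (nat_lit 0) (nat_lit 45074333976) (nat_lit 76) (nat_lit 14209941153) (nat_lit 76) (nat_lit 2403806854) (nat_lit 10) (nat_lit 4) (nat_lit 11) (nat_lit 5) (nat_lit 11) (nat_lit 4) (nat_lit 440) (nat_lit 269) (nat_lit 191)) (XT.lf (nat_lit 0) (nat_lit 2692975267) (nat_lit 152) (nat_lit 6377474873) (nat_lit 76) (nat_lit 54303600475) (nat_lit 9) (nat_lit 5) (nat_lit 11) (nat_lit 5) (nat_lit 10) (nat_lit 4) (nat_lit 441) (nat_lit 269) (nat_lit 190))) (XT.nd (nat_lit 78) (nat_lit 0) (nat_lit 0) (XT.lf (nat_lit 0) (nat_lit 4172287431) (nat_lit 76) (nat_lit 3735827508) (nat_lit 152) (nat_lit 57201357811) (nat_lit 8) (nat_lit 5) (nat_lit 9) (nat_lit 5) (nat_lit 10)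 (nat_lit 4) (nat_lit 442) (nat_lit 269) (nat_lit 189)) (XT.lf (nat_lit 0) (nat_lit 13335357704) (nat_lit 152) (nat_lit 51794554988) (nat_lit 0) (nat_lit 1765376837) (nat_lit 8) (nat_lit 5) (nat_lit 10) (nat_lit 4) (nat_lit 8) (nat_lit 4) (nat_lit 443) (nat_lit 269) (nat_lit 188))))))))
noncomputable def xc38 : XT := (XT.nd (nat_lit 41886) (nat_lit 0) (nat_lit 1216) (XT.nd (nat_lit 40794) (nat_lit 0) (nat_lit 3192) (XT.nd (nat_lit 468) (nat_lit 0) (nat_lit 0) (XT.nd (nat_lit 234) (nat_lit 76) (nat_lit 0) (XT.nd (nat_lit 78) (nat_lit 0) (nat_lit 0) (XT.lf (nat_lit 0) (nat_lit 18936876339) (nat_lit 152) (nat_lit 42464400562) (nat_lit 0) (nat_lit 7333061560) (nat_lit 8) (nat_lit 5) (nat_lit 10) (nat_lit 4) (nat_lit 8) (nat_lit 4) (nat_lit 444) (nat_lit 269) (nat_lit 187)) (XT.nd (nat_lit 78) (nat_lit 0) (nat_lit 0) (XT.lf (nat_lit 0) (nat_lit 24681654315) (nat_lit 152) (nat_lit 32902658420) (nat_lit 0) (nat_lit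 13044991078) (nat_lit 8) (nat_lit 5) (nat_lit 10) (nat_lit 4) (nat_lit 8) (nat_lit 4) (nat_lit 445) (nat_lit 269) (nat_lit 186)) (XT.lf (nat_lit 0) (nat_lit 30574711342) (nat_lit 152) (nat_lit 23100973640) (nat_lit 0) (nat_lit 18906156397) (nat_lit 8) (nat_lit 5) (nat_lit 10) (nat_lit 4) (nat_lit 8) (nat_lit 4) (nat_lit 446) (nat_lit 269) (nat_lit 185)))) (XT.nd (nat_lit 78) (nat_lit 76) (nat_lit 0) (XT.lf (nat_lit 0) (nat_lit 36621196692) (nat_lit 152) (nat_lit 13050781645) (nat_lit 0) (nat_lit 24921678924) (nat_lit 8) (nat_lit 5) (nat_lit 10) (nat_lit 4) (nat_lit 8) (nat_lit 4) (nat_lit 447) (nat_lit 269) (nat_lit 184)) (XT.nd (nat_lit 78) (nat_lit 76) (nat_lit 0) (XT.lf (nat_lit 0) (nat_lit 42826393702) (nat_lit 152) (nat_lit 2743300714) (nat_lit 0) (nat_lit 31096814941) (nat_lit 8) (nat_lit 5) (nat_lit 10) (nat_lit 4) (nat_lit 8) (nat_lit 4) (nat_lit 448) (nat_lit 269) (nat_lit 183)) (XT.lf (nat_lit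 0) (nat_lit 7986317511) (nat_lit 76) (nat_lit 41286176246) (nat_lit 76) (nat_lit 29527412056) (nat_lit 7) (nat_lit 4) (nat_lit 8) (nat_lit 5) (nat_lit 8) (nat_lit 4) (nat_lit 449) (nat_lit 269) (nat_lit 182))))) (XT.nd (nat_lit 40014) (nat_lit 0) (nat_lit 5244) (XT.nd (nat_lit 39858) (nat_lit 0) (nat_lit 5928) (XT.lf (nat_lit 0) (nat_lit 19051551176) (nat_lit 76) (nat_lit 36866338174) (nat_lit 76) (nat_lit 25079238615) (nat_lit 7) (nat_lit 4) (nat_lit 8) (nat_lit 5) (nat_lit 8) (nat_lit 4) (nat_lit 450) (nat_lit 269) (nat_lit 181)) (XT.nd (nat_lit 78) (nat_lit 228) (nat_lit 0) (XT.lf (nat_lit 0) (nat_lit 1594597880) (nat_lit 304) (nat_lit 2168325931) (nat_lit 0) (nat_lit 1594597880) (nat_lit 88) (nat_lit 5) (nat_lit 92) (nat_lit 4) (nat_lit 88) (nat_lit 4) (nat_lit 360) (nat_lit 270) (nat_lit 270)) (XT.lf (nat_lit 0) (nat_lit 4220360583) (nat_lit 228) (nat_lit 3662918310) (nat_lit 228) (nat_lit 2993169556)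 (nat_lit 85) (nat_lit 4) (nat_lit 88) (nat_lit 5) (nat_lit 88) (nat_lit 4) (nat_lit 361) (nat_lit 270) (nat_lit 269)))) (XT.nd (nat_lit 156) (nat_lit 456) (nat_lit 0) (XT.nd (nat_lit 78) (nat_lit 0) (nat_lit 0) (XT.lf (nat_lit 0) (nat_lit 1604676084) (nat_lit 228) (nat_lit 9115574043) (nat_lit 0) (nat_lit 323132141) (nat_lit 82) (nat_lit 5) (nat_lit 85) (nat_lit 4) (nat_lit 82) (nat_lit 4) (nat_lit 362) (nat_lit 270) (nat_lit 268)) (XT.lf (nat_lit 0) (nat_lit 6281119201) (nat_lit 228) (nat_lit 546656389) (nat_lit 0) (nat_lit 4386660272) (nat_lit 82) (nat_lit 5) (nat_lit 85) (nat_lit 4) (nat_lit 82) (nat_lit 4) (nat_lit 363) (nat_lit 270) (nat_lit 267))) (XT.nd (nat_lit 78) (nat_lit 228) (nat_lit 0) (XT.lf (nat_lit 0) (nat_lit 8273348490) (nat_lit 228) (nat_lit 2803721450) (nat_lit 228) (nat_lit 314199428) (nat_lit 79) (nat_lit 4) (nat_lit 82) (nat_lit 5) (nat_lit 82) (nat_lit 4) (nat_lit 364) (nat_lit 270)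 (nat_lit 266)) (XT.lf (nat_lit 0) (nat_lit 4330385911) (nat_lit 228) (nat_lit 5890085581) (nat_lit 0) (nat_lit 1352470202) (nat_lit 76) (nat_lit 5) (nat_lit 79) (nat_lit 4) (nat_lit 76) (nat_lit 4) (nat_lit 365) (nat_lit 270) (nat_lit 265)))))) (XT.nd (nat_lit 546) (nat_lit 912) (nat_lit 0) (XT.nd (nat_lit 234) (nat_lit 684) (nat_lit 0) (XT.nd (nat_lit 78) (nat_lit 228) (nat_lit 0) (XT.lf (nat_lit 0) (nat_lit 2909560631) (nat_lit 228) (nat_lit 6186634776) (nat_lit 228) (nat_lit 2664152040) (nat_lit 73) (nat_lit 4) (nat_lit 76) (nat_lit 5) (nat_lit 76) (nat_lit 4) (nat_lit 366) (nat_lit 270) (nat_lit 264)) (XT.nd (nat_lit 78) (nat_lit 152) (nat_lit 0) (XT.lf (nat_lit 0) (nat_lit 1972610853) (nat_lit 304) (nat_lit 46788554) (nat_lit 76) (nat_lit 9934574428) (nat_lit 72) (nat_lit 5) (nat_lit 76) (nat_lit 5) (nat_lit 73) (nat_lit 4) (nat_lit 367) (nat_lit 270) (nat_lit 263)) (XT.lf (nat_lit 0) (nat_lit 6707681976)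 (nat_lit 228) (nat_lit 3168440653) (nat_lit 0) (nat_lit 2276133202) (nat_lit 70) (nat_lit 5) (nat_lit 73) (nat_lit 4) (nat_lit 70) (nat_lit 4) (nat_lit 368) (nat_lit 270) (nat_lit 262)))) (XT.nd (nat_lit 156) (nat_lit 228) (nat_lit 0) (XT.nd (nat_lit 78) (nat_lit 228) (nat_lit 0) (XT.lf (nat_lit 0) (nat_lit 5859648443) (nat_lit 228) (nat_lit 5706405016) (nat_lit 228) (nat_lit 791015492) (nat_lit 67) (nat_lit 4) (nat_lit 70) (nat_lit 5) (nat_lit 70) (nat_lit 4) (nat_lit 369) (nat_lit 270) (nat_lit 261)) (XT.lf (nat_lit 0) (nat_lit 2501670136) (nat_lit 152) (nat_lit 1383456937) (nat_lit 228) (nat_lit 8682932001) (nat_lit 64) (nat_lit 5) (nat_lit 66) (nat_lit 5) (nat_lit 67) (nat_lit 4) (nat_lit 370) (nat_lit 270) (nat_lit 260))) (XT.nd (nat_lit 78) (nat_lit 228) (nat_lit 0) (XT.lf (nat_lit 0) (nat_lit 8686675327) (nat_lit 228) (nat_lit 1082853072) (nat_lit 0) (nat_lit 3015603351) (nat_lit 64) (nat_lit 5)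 (nat_lit 67) (nat_lit 4) (nat_lit 64) (nat_lit 4) (nat_lit 371) (nat_lit 270) (nat_lit 259)) (XT.lf (nat_lit 0) (nat_lit 611474095) (nat_lit 228) (nat_lit 4859665801) (nat_lit 76) (nat_lit 7537411584) (nat_lit 61) (nat_lit 5) (nat_lit 64) (nat_lit 5) (nat_lit 62) (nat_lit 4) (nat_lit 372) (nat_lit 270) (nat_lit 258))))) (XT.nd (nat_lit 234) (nat_lit 532) (nat_lit 0) (XT.nd (nat_lit 78) (nat_lit 228) (nat_lit 0) (XT.lf (nat_lit 0) (nat_lit 4324289504) (nat_lit 152) (nat_lit 1016899165) (nat_lit 228) (nat_lit 7897458782) (nat_lit 59) (nat_lit 5) (nat_lit 61) (nat_lit 5) (nat_lit 62) (nat_lit 4) (nat_lit 373) (nat_lit 270) (nat_lit 257)) (XT.nd (nat_lit 78) (nat_lit 76) (nat_lit 0) (XT.lf (nat_lit 0) (nat_lit 217303845) (nat_lit 152) (nat_lit 9990196923) (nat_lit 152) (nat_lit 3268320702) (nat_lit 57) (nat_lit 4) (nat_lit 59) (nat_lit 5) (nat_lit 59) (nat_lit 4) (nat_lit 374) (nat_lit 270) (nat_lit 256)) (XT.lf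 (nat_lit 0) (nat_lit 1480350747) (nat_lit 228) (nat_lit 4098712557) (nat_lit 76) (nat_lit 8140332632) (nat_lit 56) (nat_lit 5) (nat_lit 59) (nat_lit 5) (nat_lit 57) (nat_lit 4) (nat_lit 375) (nat_lit 270) (nat_lit 255)))) (XT.nd (nat_lit 156) (nat_lit 228) (nat_lit 0) (XT.nd (nat_lit 78) (nat_lit 152) (nat_lit 0) (XT.lf (nat_lit 0) (nat_lit 5249083795) (nat_lit 152) (nat_lit 1018764488) (nat_lit 228) (nat_lit 7702611851) (nat_lit 54) (nat_lit 5) (nat_lit 56) (nat_lit 5) (nat_lit 57) (nat_lit 4) (nat_lit 376) (nat_lit 270) (nat_lit 254)) (XT.lf (nat_lit 0) (nat_lit 551192348) (nat_lit 152) (nat_lit 10642260426) (nat_lit 152) (nat_lit 3035783553) (nat_lit 52) (nat_lit 4) (nat_lit 54) (nat_lit 5) (nat_lit 54) (nat_lit 4) (nat_lit 377) (nat_lit 270) (nat_lit 253))) (XT.nd (nat_lit 78) (nat_lit 152) (nat_lit 0) (XT.lf (nat_lit 0) (nat_lit 1747734626) (nat_lit 228) (nat_lit 4397931747) (nat_lit 76) (nat_lit 8349275056)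 (nat_lit 51) (nat_lit 5) (nat_lit 54) (nat_lit 5) (nat_lit 52) (nat_lit 4) (nat_lit 378) (nat_lit 270) (nat_lit 252)) (XT.lf (nat_lit 0) (nat_lit 5076645954) (nat_lit 152) (nat_lit 1500669810) (nat_lit 228) (nat_lit 8191506290) (nat_lit 49) (nat_lit 5) (nat_lit 51) (nat_lit 5) (nat_lit 52) (nat_lit 4) (nat_lit 379) (nat_lit 270) (nat_lit 251))))))) (XT.nd (nat_lit 1014) (nat_lit 836) (nat_lit 0) (XT.nd (nat_lit 468) (nat_lit 532) (nat_lit 0) (XT.nd (nat_lit 234) (nat_lit 304) (nat_lit 0) (XT.nd (nat_lit 78) (nat_lit 304) (nat_lit 0) (XT.lf (nat_lit 0) (nat_lit 11543353201) (nat_lit 228) (nat_lit 309314247) (nat_lit 0) (nat_lit 3198517490) (nat_lit 49) (nat_lit 5) (nat_lit 52) (nat_lit 4) (nat_lit 49) (nat_lit 4) (nat_lit 380) (nat_lit 270) (nat_lit 250)) (XT.nd (nat_lit 78) (nat_lit 76) (nat_lit 0) (XT.lf (nat_lit 0) (nat_lit 1313471824) (nat_lit 228) (nat_lit 5980001464) (nat_lit 76) (nat_lit 8047493814)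 (nat_lit 46) (nat_lit 5) (nat_lit 49) (nat_lit 5) (nat_lit 47) (nat_lit 4) (nat_lit 381) (nat_lit 270) (nat_lit 249)) (XT.lf (nat_lit 0) (nat_lit 3574270870) (nat_lit 76) (nat_lit 2589941814) (nat_lit 152) (nat_lit 9475540868) (nat_lit 45) (nat_lit 5) (nat_lit 46) (nat_lit 5) (nat_lit 47) (nat_lit 4) (nat_lit 382) (nat_lit 270) (nat_lit 248)))) (XT.nd (nat_lit 78) (nat_lit 304) (nat_lit 0) (XT.lf (nat_lit 0) (nat_lit 11161260865) (nat_lit 152) (nat_lit 2579616700) (nat_lit 0) (nat_lit 2206613945) (nat_lit 45) (nat_lit 5) (nat_lit 47) (nat_lit 4) (nat_lit 45) (nat_lit 4) (nat_lit 383) (nat_lit 270) (nat_lit 247)) (XT.nd (nat_lit 78) (nat_lit 76) (nat_lit 0) (XT.lf (nat_lit 0) (nat_lit 58022176) (nat_lit 228) (nat_lit 9104752792) (nat_lit 76) (nat_lit 7101231315) (nat_lit 42) (nat_lit 5) (nat_lit 45) (nat_lit 5) (nat_lit 43) (nat_lit 4) (nat_lit 384) (nat_lit 270) (nat_lit 246)) (XT.lf (nat_lit 0) (nat_lit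 470239556) (nat_lit 76) (nat_lit 4432649907) (nat_lit 152) (nat_lit 11687171318) (nat_lit 41) (nat_lit 5) (nat_lit 42) (nat_lit 5) (nat_lit 43) (nat_lit 4) (nat_lit 385) (nat_lit 270) (nat_lit 245))))) (XT.nd (nat_lit 234) (nat_lit 304) (nat_lit 0) (XT.nd (nat_lit 78) (nat_lit 228) (nat_lit 0) (XT.lf (nat_lit 0) (nat_lit 9911135044) (nat_lit 152) (nat_lit 6554687229) (nat_lit 0) (nat_lit 459543864) (nat_lit 41) (nat_lit 5) (nat_lit 43) (nat_lit 4) (nat_lit 41) (nat_lit 4) (nat_lit 386) (nat_lit 270) (nat_lit 244)) (XT.nd (nat_lit 78) (nat_lit 76) (nat_lit 0) (XT.lf (nat_lit 0) (nat_lit 3174156445) (nat_lit 152) (nat_lit 11893131534) (nat_lit 152) (nat_lit 2203522767) (nat_lit 39) (nat_lit 4) (nat_lit 41) (nat_lit 5) (nat_lit 41) (nat_lit 4) (nat_lit 387) (nat_lit 270) (nat_lit 243)) (XT.lf (nat_lit 0) (nat_lit 2688050088) (nat_lit 228) (nat_lit 4463952124) (nat_lit 76) (nat_lit 10474125279) (nat_lit 38)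 (nat_lit 5) (nat_lit 41) (nat_lit 5) (nat_lit 39) (nat_lit 4) (nat_lit 388) (nat_lit 270) (nat_lit 242)))) (XT.nd (nat_lit 156) (nat_lit 228) (nat_lit 0) (XT.nd (nat_lit 78) (nat_lit 0) (nat_lit 0) (XT.lf (nat_lit 0) (nat_lit 5404041421) (nat_lit 76) (nat_lit 2255608642) (nat_lit 152) (nat_lit 10332481161) (nat_lit 37) (nat_lit 5) (nat_lit 38) (nat_lit 5) (nat_lit 39) (nat_lit 4) (nat_lit 389) (nat_lit 270) (nat_lit 241)) (XT.lf (nat_lit 0) (nat_lit 12778598826) (nat_lit 152) (nat_lit 2873017095) (nat_lit 0) (nat_lit 2717561915) (nat_lit 37) (nat_lit 5) (nat_lit 39) (nat_lit 4) (nat_lit 37) (nat_lit 4) (nat_lit 390) (nat_lit 270) (nat_lit 240))) (XT.nd (nat_lit 78) (nat_lit 76) (nat_lit 0) (XT.lf (nat_lit 0) (nat_lit 7116457715) (nat_lit 152) (nat_lit 10953438122) (nat_lit 152) (nat_lit 687085149) (nat_lit 35) (nat_lit 4) (nat_lit 37) (nat_lit 5) (nat_lit 37) (nat_lit 4) (nat_lit 391) (nat_lit 270) (nat_lit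 239)) (XT.lf (nat_lit 0) (nat_lit 4235816017) (nat_lit 228) (nat_lit 1866982439) (nat_lit 76) (nat_lit 13053645965) (nat_lit 34) (nat_lit 5) (nat_lit 37) (nat_lit 5) (nat_lit 35) (nat_lit 4) (nat_lit 392) (nat_lit 270) (nat_lit 238)))))) (XT.nd (nat_lit 546) (nat_lit 380) (nat_lit 0) (XT.nd (nat_lit 234) (nat_lit 228) (nat_lit 0) (XT.nd (nat_lit 78) (nat_lit 152) (nat_lit 0) (XT.lf (nat_lit 0) (nat_lit 8223615354) (nat_lit 76) (nat_lit 1078273507) (nat_lit 152) (nat_lit 10265527793) (nat_lit 33) (nat_lit 5) (nat_lit 34) (nat_lit 5) (nat_lit 35) (nat_lit 4) (nat_lit 393) (nat_lit 270) (nat_lit 237)) (XT.nd (nat_lit 78) (nat_lit 152) (nat_lit 0) (XT.lf (nat_lit 0) (nat_lit 14508833403) (nat_lit 152) (nat_lit 1504569153) (nat_lit 0) (nat_lit 3977656396) (nat_lit 33) (nat_lit 5) (nat_lit 35) (nat_lit 4) (nat_lit 33) (nat_lit 4) (nat_lit 394) (nat_lit 270) (nat_lit 236)) (XT.lf (nat_lit 0) (nat_lit 8661927577)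 (nat_lit 152) (nat_lit 11236490891) (nat_lit 152) (nat_lit 528206445) (nat_lit 31) (nat_lit 4) (nat_lit 33) (nat_lit 5) (nat_lit 33) (nat_lit 4) (nat_lit 395) (nat_lit 270) (nat_lit 235)))) (XT.nd (nat_lit 156) (nat_lit 76) (nat_lit 0) (XT.nd (nat_lit 78) (nat_lit 76) (nat_lit 0) (XT.lf (nat_lit 0) (nat_lit 4433102256) (nat_lit 228) (nat_lit 1881035834) (nat_lit 76) (nat_lit 14561369554) (nat_lit 30) (nat_lit 5) (nat_lit 33) (nat_lit 5) (nat_lit 31) (nat_lit 4) (nat_lit 396) (nat_lit 270) (nat_lit 234)) (XT.lf (nat_lit 0) (nat_lit 8333837179) (nat_lit 76) (nat_lit 1213459048) (nat_lit 152) (nat_lit 11789970602) (nat_lit 29) (nat_lit 5) (nat_lit 30) (nat_lit 5) (nat_lit 31) (nat_lit 4) (nat_lit 397) (nat_lit 270) (nat_lit 233))) (XT.nd (nat_lit 78) (nat_lit 76) (nat_lit 0) (XT.lf (nat_lit 0) (nat_lit 14807681223) (nat_lit 152) (nat_lit 3080509400) (nat_lit 0) (nat_lit 3924911749) (nat_lit 29) (nat_lit 5)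 (nat_lit 31) (nat_lit 4) (nat_lit 29) (nat_lit 4) (nat_lit 398) (nat_lit 270) (nat_lit 232)) (XT.lf (nat_lit 0) (nat_lit 7148260774) (nat_lit 76) (nat_lit 13094990628) (nat_lit 76) (nat_lit 2059446722) (nat_lit 28) (nat_lit 4) (nat_lit 29) (nat_lit 5) (nat_lit 29) (nat_lit 4) (nat_lit 399) (nat_lit 270) (nat_lit 231))))) (XT.nd (nat_lit 234) (nat_lit 228) (nat_lit 0) (XT.nd (nat_lit 78) (nat_lit 76) (nat_lit 0) (XT.lf (nat_lit 0) (nat_lit 2943829129) (nat_lit 152) (nat_lit 5207895465) (nat_lit 76) (nat_lit 14655343614) (nat_lit 27) (nat_lit 5) (nat_lit 29) (nat_lit 5) (nat_lit 28) (nat_lit 4) (nat_lit 400) (nat_lit 270) (nat_lit 230)) (XT.nd (nat_lit 78) (nat_lit 0) (nat_lit 0) (XT.lf (nat_lit 0) (nat_lit 4998256953) (nat_lit 76) (nat_lit 3044171670) (nat_lit 152) (nat_lit 15283936319) (nat_lit 26) (nat_lit 5) (nat_lit 27) (nat_lit 5) (nat_lit 28) (nat_lit 4) (nat_lit 401) (nat_lit 270) (nat_lit 229)) (XT.lf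 (nat_lit 0) (nat_lit 13307141766) (nat_lit 152) (nat_lit 8380241223) (nat_lit 0) (nat_lit 2173468561) (nat_lit 26) (nat_lit 5) (nat_lit 28) (nat_lit 4) (nat_lit 26) (nat_lit 4) (nat_lit 402) (nat_lit 270) (nat_lit 228)))) (XT.nd (nat_lit 156) (nat_lit 152) (nat_lit 0) (XT.nd (nat_lit 78) (nat_lit 0) (nat_lit 0) (XT.lf (nat_lit 0) (nat_lit 1757496962) (nat_lit 76) (nat_lit 16959856170) (nat_lit 76) (nat_lit 5694398398) (nat_lit 25) (nat_lit 4) (nat_lit 26) (nat_lit 5) (nat_lit 26) (nat_lit 4) (nat_lit 403) (nat_lit 270) (nat_lit 227)) (XT.lf (nat_lit 0) (nat_lit 12259539747) (nat_lit 76) (nat_lit 12056136929) (nat_lit 76) (nat_lit 662732975) (nat_lit 25) (nat_lit 4) (nat_lit 26) (nat_lit 5) (nat_lit 26) (nat_lit 4) (nat_lit 404) (nat_lit 270) (nat_lit 226))) (XT.nd (nat_lit 78) (nat_lit 76) (nat_lit 0) (XT.lf (nat_lit 0) (nat_lit 4374007748) (nat_lit 152) (nat_lit 2638387817) (nat_lit 76) (nat_lit 18550103793)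 (nat_lit 24) (nat_lit 5) (nat_lit 26) (nat_lit 5) (nat_lit 25) (nat_lit 4) (nat_lit 405) (nat_lit 270) (nat_lit 225)) (XT.lf (nat_lit 0) (nat_lit 7783504785) (nat_lit 76) (nat_lit 1783849835) (nat_lit 152) (nat_lit 16596000425) (nat_lit 23) (nat_lit 5) (nat_lit 24) (nat_lit 5) (nat_lit 25) (nat_lit 4) (nat_lit 406) (nat_lit 270) (nat_lit 224))))))))
noncomputable def xc39 : XT := (XT.nd (nat_lit 2106) (nat_lit 304) (nat_lit 0) (XT.nd (nat_lit 1014) (nat_lit 456) (nat_lit 0) (XT.nd (nat_lit 468) (nat_lit 228) (nat_lit 0) (XT.nd (nat_lit 234) (nat_lit 152) (nat_lit 0) (XT.nd (nat_lit 78) (nat_lit 76) (nat_lit 0) (XT.lf (nat_lit 0) (nat_lit 14922172093) (nat_lit 152) (nat_lit 8350653027) (nat_lit 0) (nat_lit 3509245902) (nat_lit 23) (nat_lit 5) (nat_lit 25) (nat_lit 4) (nat_lit 23) (nat_lit 4) (nat_lit 407) (nat_lit 270) (nat_lit 223)) (XT.nd (nat_lit 78) (nat_lit 0) (nat_lit 0) (XT.lf (nat_lit 0) (nat_lit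 1895374587) (nat_lit 76) (nat_lit 18523911308) (nat_lit 76) (nat_lit 7000617617) (nat_lit 22) (nat_lit 4) (nat_lit 23) (nat_lit 5) (nat_lit 23) (nat_lit 4) (nat_lit 408) (nat_lit 270) (nat_lit 222)) (XT.lf (nat_lit 0) (nat_lit 12517607413) (nat_lit 76) (nat_lit 13594396943) (nat_lit 76) (nat_lit 1963950338) (nat_lit 22) (nat_lit 4) (nat_lit 23) (nat_lit 5) (nat_lit 23) (nat_lit 4) (nat_lit 409) (nat_lit 270) (nat_lit 221)))) (XT.nd (nat_lit 78) (nat_lit 76) (nat_lit 0) (XT.lf (nat_lit 0) (nat_lit 3108317052) (nat_lit 152) (nat_lit 5424594943) (nat_lit 76) (nat_lit 20219427683) (nat_lit 21) (nat_lit 5) (nat_lit 23) (nat_lit 5) (nat_lit 22) (nat_lit 4) (nat_lit 410) (nat_lit 270) (nat_lit 220)) (XT.nd (nat_lit 78) (nat_lit 0) (nat_lit 0) (XT.lf (nat_lit 0) (nat_lit 4993668938) (nat_lit 76) (nat_lit 3296552438) (nat_lit 152) (nat_lit 21158307289) (nat_lit 20) (nat_lit 5) (nat_lit 21) (nat_lit 5) (nat_lit 22)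 (nat_lit 4) (nat_lit 411) (nat_lit 270) (nat_lit 219)) (XT.lf (nat_lit 0) (nat_lit 13652116324) (nat_lit 152) (nat_lit 14446600326) (nat_lit 0) (nat_lit 2066154624) (nat_lit 20) (nat_lit 5) (nat_lit 22) (nat_lit 4) (nat_lit 20) (nat_lit 4) (nat_lit 412) (nat_lit 270) (nat_lit 218))))) (XT.nd (nat_lit 234) (nat_lit 152) (nat_lit 0) (XT.nd (nat_lit 78) (nat_lit 76) (nat_lit 0) (XT.lf (nat_lit 0) (nat_lit 19158047740) (nat_lit 152) (nat_lit 4265509878) (nat_lit 0) (nat_lit 7479654996) (nat_lit 20) (nat_lit 5) (nat_lit 22) (nat_lit 4) (nat_lit 20) (nat_lit 4) (nat_lit 413) (nat_lit 270) (nat_lit 217)) (XT.nd (nat_lit 78) (nat_lit 0) (nat_lit 0) (XT.lf (nat_lit 0) (nat_lit 6250975233) (nat_lit 76) (nat_lit 18590251119) (nat_lit 76) (nat_lit 6822119497) (nat_lit 19) (nat_lit 4) (nat_lit 20) (nat_lit 5) (nat_lit 20) (nat_lit 4) (nat_lit 414) (nat_lit 270) (nat_lit 216)) (XT.lf (nat_lit 0) (nat_lit 17079278707)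 (nat_lit 76) (nat_lit 13611198713) (nat_lit 76) (nat_lit 1755941967) (nat_lit 19) (nat_lit 4) (nat_lit 20) (nat_lit 5) (nat_lit 20) (nat_lit 4) (nat_lit 415) (nat_lit 270) (nat_lit 215)))) (XT.nd (nat_lit 156) (nat_lit 0) (nat_lit 0) (XT.nd (nat_lit 78) (nat_lit 76) (nat_lit 0) (XT.lf (nat_lit 0) (nat_lit 3348087674) (nat_lit 152) (nat_lit 5143226265) (nat_lit 76) (nat_lit 24762073362) (nat_lit 18) (nat_lit 5) (nat_lit 20) (nat_lit 5) (nat_lit 19) (nat_lit 4) (nat_lit 416) (nat_lit 270) (nat_lit 214)) (XT.lf (nat_lit 0) (nat_lit 5388378901) (nat_lit 76) (nat_lit 3188146680) (nat_lit 152) (nat_lit 25507323015) (nat_lit 17) (nat_lit 5) (nat_lit 18) (nat_lit 5) (nat_lit 19) (nat_lit 4) (nat_lit 417) (nat_lit 270) (nat_lit 213))) (XT.nd (nat_lit 78) (nat_lit 0) (nat_lit 0) (XT.lf (nat_lit 0) (nat_lit 13991005968) (nat_lit 152) (nat_lit 18705562499) (nat_lit 0) (nat_lit 2241782802) (nat_lit 17) (nat_lit 5) (nat_lit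 19) (nat_lit 4) (nat_lit 17) (nat_lit 4) (nat_lit 418) (nat_lit 270) (nat_lit 212)) (XT.lf (nat_lit 0) (nat_lit 19555679223) (nat_lit 152) (nat_lit 8531879009) (nat_lit 0) (nat_lit 7731301160) (nat_lit 17) (nat_lit 5) (nat_lit 19) (nat_lit 4) (nat_lit 17) (nat_lit 4) (nat_lit 419) (nat_lit 270) (nat_lit 211)))))) (XT.nd (nat_lit 546) (nat_lit 228) (nat_lit 0) (XT.nd (nat_lit 234) (nat_lit 152) (nat_lit 0) (XT.nd (nat_lit 78) (nat_lit 0) (nat_lit 0) (XT.lf (nat_lit 0) (nat_lit 1902236298) (nat_lit 76) (nat_lit 23360810427) (nat_lit 76) (nat_lit 11463466444) (nat_lit 16) (nat_lit 4) (nat_lit 17) (nat_lit 5) (nat_lit 17) (nat_lit 4) (nat_lit 420) (nat_lit 270) (nat_lit 210)) (XT.nd (nat_lit 78) (nat_lit 0) (nat_lit 0) (XT.lf (nat_lit 0) (nat_lit 12743174975) (nat_lit 76) (nat_lit 18442543359) (nat_lit 76) (nat_lit 6474358677) (nat_lit 16) (nat_lit 4) (nat_lit 17) (nat_lit 5) (nat_lit 17) (nat_lit 4) (nat_lit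 421) (nat_lit 270) (nat_lit 209)) (XT.lf (nat_lit 0) (nat_lit 23830608564) (nat_lit 76) (nat_lit 13414614764) (nat_lit 76) (nat_lit 1377652704) (nat_lit 16) (nat_lit 4) (nat_lit 17) (nat_lit 5) (nat_lit 17) (nat_lit 4) (nat_lit 422) (nat_lit 270) (nat_lit 208)))) (XT.nd (nat_lit 156) (nat_lit 0) (nat_lit 0) (XT.nd (nat_lit 78) (nat_lit 76) (nat_lit 0) (XT.lf (nat_lit 0) (nat_lit 3756346252) (nat_lit 152) (nat_lit 4478353320) (nat_lit 76) (nat_lit 31379947130) (nat_lit 15) (nat_lit 5) (nat_lit 17) (nat_lit 5) (nat_lit 16) (nat_lit 4) (nat_lit 423) (nat_lit 270) (nat_lit 207)) (XT.lf (nat_lit 0) (nat_lit 6176881167) (nat_lit 76) (nat_lit 2860284672) (nat_lit 152) (nat_lit 31597983362) (nat_lit 14) (nat_lit 5) (nat_lit 15) (nat_lit 5) (nat_lit 16) (nat_lit 4) (nat_lit 424) (nat_lit 270) (nat_lit 206))) (XT.nd (nat_lit 78) (nat_lit 0) (nat_lit 0) (XT.lf (nat_lit 0) (nat_lit 14508986528) (nat_lit 152) (nat_lit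 24542568023) (nat_lit 0) (nat_lit 2633737469) (nat_lit 14) (nat_lit 5) (nat_lit 16) (nat_lit 4) (nat_lit 14) (nat_lit 4) (nat_lit 425) (nat_lit 270) (nat_lit 205)) (XT.lf (nat_lit 0) (nat_lit 20135600861) (nat_lit 152) (nat_lit 14430597725) (nat_lit 0) (nat_lit 8201023832) (nat_lit 14) (nat_lit 5) (nat_lit 16) (nat_lit 4) (nat_lit 14) (nat_lit 4) (nat_lit 426) (nat_lit 270) (nat_lit 204))))) (XT.nd (nat_lit 234) (nat_lit 152) (nat_lit 0) (XT.nd (nat_lit 78) (nat_lit 76) (nat_lit 0) (XT.lf (nat_lit 0) (nat_lit 25894430491) (nat_lit 152) (nat_lit 4086026633) (nat_lit 0) (nat_lit 13902253492) (nat_lit 14) (nat_lit 5) (nat_lit 16) (nat_lit 4) (nat_lit 14) (nat_lit 4) (nat_lit 427) (nat_lit 270) (nat_lit 203)) (XT.nd (nat_lit 78) (nat_lit 0) (nat_lit 0) (XT.lf (nat_lit 0) (nat_lit 6629550608) (nat_lit 76) (nat_lit 25224684094) (nat_lit 76) (nat_lit 13176584792) (nat_lit 13) (nat_lit 4) (nat_lit 14) (nat_lit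 5) (nat_lit 14) (nat_lit 4) (nat_lit 428) (nat_lit 270) (nat_lit 202)) (XT.lf (nat_lit 0) (nat_lit 17682330819) (nat_lit 76) (nat_lit 20316626079) (nat_lit 76) (nat_lit 8214233281) (nat_lit 13) (nat_lit 4) (nat_lit 14) (nat_lit 5) (nat_lit 14) (nat_lit 4) (nat_lit 429) (nat_lit 270) (nat_lit 201)))) (XT.nd (nat_lit 156) (nat_lit 76) (nat_lit 0) (XT.nd (nat_lit 78) (nat_lit 76) (nat_lit 0) (XT.lf (nat_lit 0) (nat_lit 29000651826) (nat_lit 76) (nat_lit 15293255345) (nat_lit 76) (nat_lit 3138150414) (nat_lit 13) (nat_lit 4) (nat_lit 14) (nat_lit 5) (nat_lit 14) (nat_lit 4) (nat_lit 430) (nat_lit 270) (nat_lit 200)) (XT.lf (nat_lit 0) (nat_lit 2015977319) (nat_lit 152) (nat_lit 8113847800) (nat_lit 76) (nat_lit 38558068685) (nat_lit 12) (nat_lit 5) (nat_lit 14) (nat_lit 5) (nat_lit 13) (nat_lit 4) (nat_lit 431) (nat_lit 270) (nat_lit 199))) (XT.nd (nat_lit 78) (nat_lit 0) (nat_lit 0) (XT.lf (nat_lit 0) (nat_lit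 2467414414) (nat_lit 76) (nat_lit 4785483326) (nat_lit 152) (nat_lit 42727839974) (nat_lit 11) (nat_lit 5) (nat_lit 12) (nat_lit 5) (nat_lit 13) (nat_lit 4) (nat_lit 432) (nat_lit 270) (nat_lit 198)) (XT.lf (nat_lit 0) (nat_lit 12704165837) (nat_lit 152) (nat_lit 37848152116) (nat_lit 0) (nat_lit 758333732) (nat_lit 11) (nat_lit 5) (nat_lit 13) (nat_lit 4) (nat_lit 11) (nat_lit 4) (nat_lit 433) (nat_lit 270) (nat_lit 197))))))) (XT.nd (nat_lit 1014) (nat_lit 76) (nat_lit 0) (XT.nd (nat_lit 468) (nat_lit 152) (nat_lit 0) (XT.nd (nat_lit 234) (nat_lit 76) (nat_lit 0) (XT.nd (nat_lit 78) (nat_lit 0) (nat_lit 0) (XT.lf (nat_lit 0) (nat_lit 18334878827) (nat_lit 152) (nat_lit 28001532162) (nat_lit 0) (nat_lit 6343576772) (nat_lit 11) (nat_lit 5) (nat_lit 13) (nat_lit 4) (nat_lit 11) (nat_lit 4) (nat_lit 434) (nat_lit 270) (nat_lit 196)) (XT.nd (nat_lit 78) (nat_lit 0) (nat_lit 0) (XT.lf (nat_lit 0) (nat_lit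 24103955755) (nat_lit 152) (nat_lit 17918858603) (nat_lit 0) (nat_lit 12068508120) (nat_lit 11) (nat_lit 5) (nat_lit 13) (nat_lit 4) (nat_lit 11) (nat_lit 4) (nat_lit 435) (nat_lit 270) (nat_lit 195)) (XT.lf (nat_lit 0) (nat_lit 30016437564) (nat_lit 152) (nat_lit 7591321335) (nat_lit 0) (nat_lit 17938130141) (nat_lit 11) (nat_lit 5) (nat_lit 13) (nat_lit 4) (nat_lit 11) (nat_lit 4) (nat_lit 436) (nat_lit 270) (nat_lit 194)))) (XT.nd (nat_lit 78) (nat_lit 0) (nat_lit 0) (XT.lf (nat_lit 0) (nat_lit 3049612628) (nat_lit 76) (nat_lit 33057192613) (nat_lit 76) (nat_lit 20937273745) (nat_lit 10) (nat_lit 4) (nat_lit 11) (nat_lit 5) (nat_lit 11) (nat_lit 4) (nat_lit 437) (nat_lit 270) (nat_lit 193)) (XT.nd (nat_lit 78) (nat_lit 0) (nat_lit 0) (XT.lf (nat_lit 0) (nat_lit 14109999324) (nat_lit 76) (nat_lit 28318045248) (nat_lit 76) (nat_lit 16157726920) (nat_lit 10) (nat_lit 4) (nat_lit 11) (nat_lit 5) (nat_lit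 11) (nat_lit 4) (nat_lit 438) (nat_lit 270) (nat_lit 192)) (XT.lf (nat_lit 0) (nat_lit 25448420986) (nat_lit 76) (nat_lit 23462833263) (nat_lit 76) (nat_lit 11263292157) (nat_lit 10) (nat_lit 4) (nat_lit 11) (nat_lit 5) (nat_lit 11) (nat_lit 4) (nat_lit 439) (nat_lit 270) (nat_lit 191))))) (XT.nd (nat_lit 234) (nat_lit 76) (nat_lit 0) (XT.nd (nat_lit 78) (nat_lit 76) (nat_lit 0) (XT.lf (nat_lit 0) (nat_lit 37074784974) (nat_lit 76) (nat_lit 18487314240) (nat_lit 76) (nat_lit 6249692768) (nat_lit 10) (nat_lit 4) (nat_lit 11) (nat_lit 5) (nat_lit 11) (nat_lit 4) (nat_lit 440) (nat_lit 270) (nat_lit 190)) (XT.nd (nat_lit 78) (nat_lit 76) (nat_lit 0) (XT.lf (nat_lit 0) (nat_lit 48999250247) (nat_lit 76) (nat_lit 13387140638) (nat_lit 76) (nat_lit 1112547937) (nat_lit 10) (nat_lit 4) (nat_lit 11) (nat_lit 5) (nat_lit 11) (nat_lit 4) (nat_lit 441) (nat_lit 270) (nat_lit 189)) (XT.lf (nat_lit 0) (nat_lit 4071598314)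 (nat_lit 152) (nat_lit 4045142521) (nat_lit 76) (nat_lit 57119522767) (nat_lit 9) (nat_lit 5) (nat_lit 11) (nat_lit 5) (nat_lit 10) (nat_lit 4) (nat_lit 442) (nat_lit 270) (nat_lit 188)))) (XT.nd (nat_lit 156) (nat_lit 0) (nat_lit 0) (XT.nd (nat_lit 78) (nat_lit 0) (nat_lit 0) (XT.lf (nat_lit 0) (nat_lit 6796370920) (nat_lit 76) (nat_lit 2633041369) (nat_lit 152) (nat_lit 57594751649) (nat_lit 8) (nat_lit 5) (nat_lit 9) (nat_lit 5) (nat_lit 10) (nat_lit 4) (nat_lit 443) (nat_lit 270) (nat_lit 187)) (XT.lf (nat_lit 0) (nat_lit 14993410561) (nat_lit 152) (nat_lit 50896129625) (nat_lit 0) (nat_lit 2974798968) (nat_lit 8) (nat_lit 5) (nat_lit 10) (nat_lit 4) (nat_lit 8) (nat_lit 4) (nat_lit 444) (nat_lit 270) (nat_lit 186))) (XT.nd (nat_lit 78) (nat_lit 0) (nat_lit 0) (XT.lf (nat_lit 0) (nat_lit 20726334208) (nat_lit 152) (nat_lit 41357495673) (nat_lit 0) (nat_lit 8675830907) (nat_lit 8) (nat_lit 5) (nat_lit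 10) (nat_lit 4) (nat_lit 8) (nat_lit 4) (nat_lit 445) (nat_lit 270) (nat_lit 185)) (XT.lf (nat_lit 0) (nat_lit 26607882176) (nat_lit 152) (nat_lit 31578246031) (nat_lit 0) (nat_lit 14526416053) (nat_lit 8) (nat_lit 5) (nat_lit 10) (nat_lit 4) (nat_lit 8) (nat_lit 4) (nat_lit 446) (nat_lit 270) (nat_lit 184)))))) (XT.nd (nat_lit 40170) (nat_lit 0) (nat_lit 4940) (XT.nd (nat_lit 234) (nat_lit 76) (nat_lit 0) (XT.nd (nat_lit 78) (nat_lit 0) (nat_lit 0) (XT.lf (nat_lit 0) (nat_lit 32643193684) (nat_lit 152) (nat_lit 21549835722) (nat_lit 0) (nat_lit 20531666568) (nat_lit 8) (nat_lit 5) (nat_lit 10) (nat_lit 4) (nat_lit 8) (nat_lit 4) (nat_lit 447) (nat_lit 270) (nat_lit 183)) (XT.nd (nat_lit 78) (nat_lit 0) (nat_lit 0) (XT.lf (nat_lit 0) (nat_lit 38837542303) (nat_lit 152) (nat_lit 11263502058) (nat_lit 0) (nat_lit 26696829757) (nat_lit 8) (nat_lit 5) (nat_lit 10) (nat_lit 4) (nat_lit 8) (nat_lit 4) (nat_lit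 448) (nat_lit 270) (nat_lit 182)) (XT.lf (nat_lit 0) (nat_lit 45196340571) (nat_lit 152) (nat_lit 710256981) (nat_lit 0) (nat_lit 33027292656) (nat_lit 8) (nat_lit 5) (nat_lit 10) (nat_lit 4) (nat_lit 8) (nat_lit 4) (nat_lit 449) (nat_lit 270) (nat_lit 181)))) (XT.nd (nat_lit 39780) (nat_lit 0) (nat_lit 6156) (XT.nd (nat_lit 39702) (nat_lit 0) (nat_lit 6688) (XT.lf (nat_lit 0) (nat_lit 10320511136) (nat_lit 76) (nat_lit 41503840651) (nat_lit 76) (nat_lit 29307282669) (nat_lit 7) (nat_lit 4) (nat_lit 8) (nat_lit 5) (nat_lit 8) (nat_lit 4) (nat_lit 450) (nat_lit 270) (nat_lit 180)) (XT.lf (nat_lit 0) (nat_lit 2590453308) (nat_lit 304) (nat_lit 21766560) (nat_lit 0) (nat_lit 2590453308) (nat_lit 95) (nat_lit 5) (nat_lit 99) (nat_lit 4) (nat_lit 95) (nat_lit 4) (nat_lit 358) (nat_lit 271) (nat_lit 271))) (XT.nd (nat_lit 78) (nat_lit 304) (nat_lit 0) (XT.lf (nat_lit 0) (nat_lit 8409736086) (nat_lit 228) (nat_lit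 1429884481) (nat_lit 228) (nat_lit 719348028) (nat_lit 92) (nat_lit 4) (nat_lit 95) (nat_lit 5) (nat_lit 95) (nat_lit 4) (nat_lit 359) (nat_lit 271) (nat_lit 270)) (XT.lf (nat_lit 0) (nat_lit 3827589136) (nat_lit 304) (nat_lit 4421012232) (nat_lit 0) (nat_lit 2467999167) (nat_lit 88) (nat_lit 5) (nat_lit 92) (nat_lit 4) (nat_lit 88) (nat_lit 4) (nat_lit 360) (nat_lit 271) (nat_lit 269))))) (XT.nd (nat_lit 234) (nat_lit 760) (nat_lit 0) (XT.nd (nat_lit 78) (nat_lit 228) (nat_lit 0) (XT.lf (nat_lit 0) (nat_lit 4050787972) (nat_lit 228) (nat_lit 4419304900) (nat_lit 228) (nat_lit 2409473422) (nat_lit 85) (nat_lit 4) (nat_lit 88) (nat_lit 5) (nat_lit 88) (nat_lit 4) (nat_lit 361) (nat_lit 271) (nat_lit 268)) (XT.nd (nat_lit 78) (nat_lit 0) (nat_lit 0) (XT.lf (nat_lit 0) (nat_lit 1665483901) (nat_lit 152) (nat_lit 456002706) (nat_lit 228) (nat_lit 8926522598) (nat_lit 82) (nat_lit 5) (nat_lit 84) (nat_lit 5)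 (nat_lit 85) (nat_lit 4) (nat_lit 362) (nat_lit 271) (nat_lit 267)) (XT.lf (nat_lit 0) (nat_lit 6744130507) (nat_lit 228) (nat_lit 891698723) (nat_lit 0) (nat_lit 3584859731) (nat_lit 82) (nat_lit 5) (nat_lit 85) (nat_lit 4) (nat_lit 82) (nat_lit 4) (nat_lit 363) (nat_lit 271) (nat_lit 266)))) (XT.nd (nat_lit 156) (nat_lit 304) (nat_lit 0) (XT.nd (nat_lit 78) (nat_lit 152) (nat_lit 0) (XT.lf (nat_lit 0) (nat_lit 87104729) (nat_lit 304) (nat_lit 3560179334) (nat_lit 76) (nat_lit 7751788944) (nat_lit 78) (nat_lit 5) (nat_lit 82) (nat_lit 5) (nat_lit 79) (nat_lit 4) (nat_lit 364) (nat_lit 271) (nat_lit 265)) (XT.lf (nat_lit 0) (nat_lit 4664143673) (nat_lit 228) (nat_lit 6426945229) (nat_lit 0) (nat_lit 491419429) (nat_lit 76) (nat_lit 5) (nat_lit 79) (nat_lit 4) (nat_lit 76) (nat_lit 4) (nat_lit 365) (nat_lit 271) (nat_lit 264))) (XT.nd (nat_lit 78) (nat_lit 76) (nat_lit 0) (XT.lf (nat_lit 0) (nat_lit 2279832962)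 (nat_lit 228) (nat_lit 7096564359) (nat_lit 228) (nat_lit 2395134265) (nat_lit 73) (nat_lit 4) (nat_lit 76) (nat_lit 5) (nat_lit 76) (nat_lit 4) (nat_lit 366) (nat_lit 271) (nat_lit 263)) (XT.lf (nat_lit 0) (nat_lit 2189018660) (nat_lit 304) (nat_lit 771028865) (nat_lit 76) (nat_lit 9006463888) (nat_lit 72) (nat_lit 5) (nat_lit 76) (nat_lit 5) (nat_lit 73) (nat_lit 4) (nat_lit 367) (nat_lit 271) (nat_lit 262))))))))
noncomputable def xc40 : XT := (XT.nd (nat_lit 2028) (nat_lit 1216) (nat_lit 0) (XT.nd (nat_lit 1014) (nat_lit 1216) (nat_lit 0) (XT.nd (nat_lit 468) (nat_lit 760) (nat_lit 0) (XT.nd (nat_lit 234) (nat_lit 380) (nat_lit 0) (XT.nd (nat_lit 78) (nat_lit 456) (nat_lit 0) (XT.lf (nat_lit 0) (nat_lit 6860808281) (nat_lit 228) (nat_lit 3991777157) (nat_lit 0) (nat_lit 1314116322) (nat_lit 70) (nat_lit 5) (nat_lit 73) (nat_lit 4) (nat_lit 70) (nat_lit 4) (nat_lit 368) (nat_lit 271) (nat_lit 261)) (XT.nd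 (nat_lit 78) (nat_lit 228) (nat_lit 0) (XT.lf (nat_lit 0) (nat_lit 4939676290) (nat_lit 228) (nat_lit 6724962351) (nat_lit 228) (nat_lit 708522091) (nat_lit 67) (nat_lit 4) (nat_lit 70) (nat_lit 5) (nat_lit 70) (nat_lit 4) (nat_lit 369) (nat_lit 271) (nat_lit 260)) (XT.lf (nat_lit 0) (nat_lit 1465770799) (nat_lit 152) (nat_lit 2444710663) (nat_lit 228) (nat_lit 8675320549) (nat_lit 64) (nat_lit 5) (nat_lit 66) (nat_lit 5) (nat_lit 67) (nat_lit 4) (nat_lit 370) (nat_lit 271) (nat_lit 259)))) (XT.nd (nat_lit 78) (nat_lit 380) (nat_lit 0) (XT.lf (nat_lit 0) (nat_lit 8656515934) (nat_lit 228) (nat_lit 2205390236) (nat_lit 0) (nat_lit 1942642733) (nat_lit 64) (nat_lit 5) (nat_lit 67) (nat_lit 4) (nat_lit 64) (nat_lit 4) (nat_lit 371) (nat_lit 271) (nat_lit 258)) (XT.nd (nat_lit 78) (nat_lit 152) (nat_lit 0) (XT.lf (nat_lit 0) (nat_lit 506553881) (nat_lit 228) (nat_lit 6102934101) (nat_lit 76) (nat_lit 6420192577)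 (nat_lit 61) (nat_lit 5) (nat_lit 64) (nat_lit 5) (nat_lit 62) (nat_lit 4) (nat_lit 372) (nat_lit 271) (nat_lit 257)) (XT.lf (nat_lit 0) (nat_lit 2977825819) (nat_lit 152) (nat_lit 2201619161) (nat_lit 228) (nat_lit 8082044309) (nat_lit 59) (nat_lit 5) (nat_lit 61) (nat_lit 5) (nat_lit 62) (nat_lit 4) (nat_lit 373) (nat_lit 271) (nat_lit 256))))) (XT.nd (nat_lit 234) (nat_lit 380) (nat_lit 0) (XT.nd (nat_lit 78) (nat_lit 380) (nat_lit 0) (XT.lf (nat_lit 0) (nat_lit 9988629830) (nat_lit 228) (nat_lit 1222012956) (nat_lit 0) (nat_lit 2289742161) (nat_lit 59) (nat_lit 5) (nat_lit 62) (nat_lit 4) (nat_lit 59) (nat_lit 4) (nat_lit 374) (nat_lit 271) (nat_lit 255)) (XT.nd (nat_lit 78) (nat_lit 152) (nat_lit 0) (XT.lf (nat_lit 0) (nat_lit 1186019963) (nat_lit 228) (nat_lit 5662090789) (nat_lit 76) (nat_lit 6897595634) (nat_lit 56) (nat_lit 5) (nat_lit 59) (nat_lit 5) (nat_lit 57) (nat_lit 4) (nat_lit 375) (nat_lit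 271) (nat_lit 254)) (XT.lf (nat_lit 0) (nat_lit 3578072144) (nat_lit 152) (nat_lit 2337103430) (nat_lit 228) (nat_lit 8083352425) (nat_lit 54) (nat_lit 5) (nat_lit 56) (nat_lit 5) (nat_lit 57) (nat_lit 4) (nat_lit 376) (nat_lit 271) (nat_lit 253)))) (XT.nd (nat_lit 156) (nat_lit 152) (nat_lit 0) (XT.nd (nat_lit 78) (nat_lit 228) (nat_lit 0) (XT.lf (nat_lit 0) (nat_lit 10780734469) (nat_lit 228) (nat_lit 1221207767) (nat_lit 0) (nat_lit 2257170271) (nat_lit 54) (nat_lit 5) (nat_lit 57) (nat_lit 4) (nat_lit 54) (nat_lit 4) (nat_lit 377) (nat_lit 271) (nat_lit 252)) (XT.lf (nat_lit 0) (nat_lit 1259702252) (nat_lit 228) (nat_lit 6295840633) (nat_lit 76) (nat_lit 6971031145) (nat_lit 51) (nat_lit 5) (nat_lit 54) (nat_lit 5) (nat_lit 52) (nat_lit 4) (nat_lit 378) (nat_lit 271) (nat_lit 251))) (XT.nd (nat_lit 78) (nat_lit 0) (nat_lit 0) (XT.lf (nat_lit 0) (nat_lit 3066361596) (nat_lit 152) (nat_lit 2962837190)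 (nat_lit 228) (nat_lit 8773064765) (nat_lit 49) (nat_lit 5) (nat_lit 51) (nat_lit 5) (nat_lit 52) (nat_lit 4) (nat_lit 379) (nat_lit 271) (nat_lit 250)) (XT.lf (nat_lit 0) (nat_lit 10940602259) (nat_lit 228) (nat_lit 2412320416) (nat_lit 0) (nat_lit 1733348953) (nat_lit 49) (nat_lit 5) (nat_lit 52) (nat_lit 4) (nat_lit 49) (nat_lit 4) (nat_lit 380) (nat_lit 271) (nat_lit 249)))))) (XT.nd (nat_lit 468) (nat_lit 608) (nat_lit 0) (XT.nd (nat_lit 234) (nat_lit 304) (nat_lit 0) (XT.nd (nat_lit 78) (nat_lit 76) (nat_lit 0) (XT.lf (nat_lit 0) (nat_lit 626761157) (nat_lit 228) (nat_lit 8227659766) (nat_lit 76) (nat_lit 6523662213) (nat_lit 46) (nat_lit 5) (nat_lit 49) (nat_lit 5) (nat_lit 47) (nat_lit 4) (nat_lit 381) (nat_lit 271) (nat_lit 248)) (XT.nd (nat_lit 78) (nat_lit 0) (nat_lit 0) (XT.lf (nat_lit 0) (nat_lit 1209171259) (nat_lit 76) (nat_lit 4206277816) (nat_lit 152) (nat_lit 10263287748) (nat_lit 45)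 (nat_lit 5) (nat_lit 46) (nat_lit 5) (nat_lit 47) (nat_lit 4) (nat_lit 382) (nat_lit 271) (nat_lit 247)) (XT.lf (nat_lit 0) (nat_lit 10357803418) (nat_lit 152) (nat_lit 5039619085) (nat_lit 0) (nat_lit 590698580) (nat_lit 45) (nat_lit 5) (nat_lit 47) (nat_lit 4) (nat_lit 45) (nat_lit 4) (nat_lit 383) (nat_lit 271) (nat_lit 246)))) (XT.nd (nat_lit 78) (nat_lit 152) (nat_lit 0) (XT.lf (nat_lit 0) (nat_lit 4580121989) (nat_lit 152) (nat_lit 10876806879) (nat_lit 152) (nat_lit 849613797) (nat_lit 43) (nat_lit 4) (nat_lit 45) (nat_lit 5) (nat_lit 45) (nat_lit 4) (nat_lit 384) (nat_lit 271) (nat_lit 245)) (XT.nd (nat_lit 78) (nat_lit 76) (nat_lit 0) (XT.lf (nat_lit 0) (nat_lit 3969366025) (nat_lit 228) (nat_lit 2221892909) (nat_lit 76) (nat_lit 10442862254) (nat_lit 42) (nat_lit 5) (nat_lit 45) (nat_lit 5) (nat_lit 43) (nat_lit 4) (nat_lit 385) (nat_lit 271) (nat_lit 244)) (XT.lf (nat_lit 0) (nat_lit 7570192322)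 (nat_lit 76) (nat_lit 1343628553) (nat_lit 152) (nat_lit 8057524263) (nat_lit 41) (nat_lit 5) (nat_lit 42) (nat_lit 5) (nat_lit 43) (nat_lit 4) (nat_lit 386) (nat_lit 271) (nat_lit 243))))) (XT.nd (nat_lit 234) (nat_lit 304) (nat_lit 0) (XT.nd (nat_lit 78) (nat_lit 152) (nat_lit 0) (XT.lf (nat_lit 0) (nat_lit 215291918) (nat_lit 152) (nat_lit 13776622006) (nat_lit 152) (nat_lit 3327222352) (nat_lit 39) (nat_lit 4) (nat_lit 41) (nat_lit 5) (nat_lit 41) (nat_lit 4) (nat_lit 387) (nat_lit 271) (nat_lit 242)) (XT.nd (nat_lit 78) (nat_lit 76) (nat_lit 0) (XT.lf (nat_lit 0) (nat_lit 1549638327) (nat_lit 228) (nat_lit 7527988253) (nat_lit 76) (nat_lit 8598254139) (nat_lit 38) (nat_lit 5) (nat_lit 41) (nat_lit 5) (nat_lit 39) (nat_lit 4) (nat_lit 388) (nat_lit 271) (nat_lit 241)) (XT.lf (nat_lit 0) (nat_lit 2212040419) (nat_lit 76) (nat_lit 4242941988) (nat_lit 152) (nat_lit 11588894053) (nat_lit 37) (nat_lit 5)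 (nat_lit 38) (nat_lit 5) (nat_lit 39) (nat_lit 4) (nat_lit 389) (nat_lit 271) (nat_lit 240)))) (XT.nd (nat_lit 156) (nat_lit 152) (nat_lit 0) (XT.nd (nat_lit 78) (nat_lit 152) (nat_lit 0) (XT.lf (nat_lit 0) (nat_lit 11519379077) (nat_lit 152) (nat_lit 6163465308) (nat_lit 0) (nat_lit 739719453) (nat_lit 37) (nat_lit 5) (nat_lit 39) (nat_lit 4) (nat_lit 37) (nat_lit 4) (nat_lit 390) (nat_lit 271) (nat_lit 239)) (XT.lf (nat_lit 0) (nat_lit 3695362843) (nat_lit 152) (nat_lit 13048011445) (nat_lit 152) (nat_lit 2069015837) (nat_lit 35) (nat_lit 4) (nat_lit 37) (nat_lit 5) (nat_lit 37) (nat_lit 4) (nat_lit 391) (nat_lit 271) (nat_lit 238))) (XT.nd (nat_lit 78) (nat_lit 76) (nat_lit 0) (XT.lf (nat_lit 0) (nat_lit 2846489189) (nat_lit 228) (nat_lit 5394152632) (nat_lit 76) (nat_lit 10972644983) (nat_lit 34) (nat_lit 5) (nat_lit 37) (nat_lit 5) (nat_lit 35) (nat_lit 4) (nat_lit 392) (nat_lit 271) (nat_lit 237))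 (XT.lf (nat_lit 0) (nat_lit 4562924374) (nat_lit 76) (nat_lit 3281087124) (nat_lit 152) (nat_lit 11782307790) (nat_lit 33) (nat_lit 5) (nat_lit 34) (nat_lit 5) (nat_lit 35) (nat_lit 4) (nat_lit 393) (nat_lit 271) (nat_lit 236))))))) (XT.nd (nat_lit 1014) (nat_lit 456) (nat_lit 0) (XT.nd (nat_lit 468) (nat_lit 380) (nat_lit 0) (XT.nd (nat_lit 234) (nat_lit 152) (nat_lit 0) (XT.nd (nat_lit 78) (nat_lit 228) (nat_lit 0) (XT.lf (nat_lit 0) (nat_lit 12996526305) (nat_lit 152) (nat_lit 5265185911) (nat_lit 0) (nat_lit 1789885887) (nat_lit 33) (nat_lit 5) (nat_lit 35) (nat_lit 4) (nat_lit 33) (nat_lit 4) (nat_lit 394) (nat_lit 271) (nat_lit 235)) (XT.nd (nat_lit 78) (nat_lit 76) (nat_lit 0) (XT.lf (nat_lit 0) (nat_lit 4764879018) (nat_lit 152) (nat_lit 13551485185) (nat_lit 152) (nat_lit 2172895797) (nat_lit 31) (nat_lit 4) (nat_lit 33) (nat_lit 5) (nat_lit 33) (nat_lit 4) (nat_lit 395) (nat_lit 271) (nat_lit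 234)) (XT.lf (nat_lit 0) (nat_lit 2788266566) (nat_lit 228) (nat_lit 5885349005) (nat_lit 76) (nat_lit 12265971977) (nat_lit 30) (nat_lit 5) (nat_lit 33) (nat_lit 5) (nat_lit 31) (nat_lit 4) (nat_lit 396) (nat_lit 271) (nat_lit 233)))) (XT.nd (nat_lit 78) (nat_lit 76) (nat_lit 0) (XT.lf (nat_lit 0) (nat_lit 4189983582) (nat_lit 76) (nat_lit 3641342581) (nat_lit 152) (nat_lit 13572157822) (nat_lit 29) (nat_lit 5) (nat_lit 30) (nat_lit 5) (nat_lit 31) (nat_lit 4) (nat_lit 397) (nat_lit 271) (nat_lit 232)) (XT.nd (nat_lit 78) (nat_lit 76) (nat_lit 0) (XT.lf (nat_lit 0) (nat_lit 13037163859) (nat_lit 152) (nat_lit 7326016015) (nat_lit 0) (nat_lit 1517779203) (nat_lit 29) (nat_lit 5) (nat_lit 31) (nat_lit 4) (nat_lit 29) (nat_lit 4) (nat_lit 398) (nat_lit 271) (nat_lit 231)) (XT.lf (nat_lit 0) (nat_lit 2760062306) (nat_lit 76) (nat_lit 15640189684) (nat_lit 76) (nat_lit 3972480336) (nat_lit 28) (nat_lit 4) (nat_lit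 29) (nat_lit 5) (nat_lit 29) (nat_lit 4) (nat_lit 399) (nat_lit 271) (nat_lit 230))))) (XT.nd (nat_lit 234) (nat_lit 228) (nat_lit 0) (XT.nd (nat_lit 78) (nat_lit 76) (nat_lit 0) (XT.lf (nat_lit 0) (nat_lit 1037865545) (nat_lit 152) (nat_lit 9704846845) (nat_lit 76) (nat_lit 12135852364) (nat_lit 27) (nat_lit 5) (nat_lit 29) (nat_lit 5) (nat_lit 28) (nat_lit 4) (nat_lit 400) (nat_lit 271) (nat_lit 229)) (XT.nd (nat_lit 78) (nat_lit 0) (nat_lit 0) (XT.lf (nat_lit 0) (nat_lit 355259345) (nat_lit 76) (nat_lit 5707195578) (nat_lit 152) (nat_lit 17337629648) (nat_lit 26) (nat_lit 5) (nat_lit 27) (nat_lit 5) (nat_lit 28) (nat_lit 4) (nat_lit 401) (nat_lit 271) (nat_lit 228)) (XT.lf (nat_lit 0) (nat_lit 10804659445) (nat_lit 76) (nat_lit 472149273) (nat_lit 152) (nat_lit 12659275941) (nat_lit 26) (nat_lit 5) (nat_lit 27) (nat_lit 5) (nat_lit 28) (nat_lit 4) (nat_lit 402) (nat_lit 271) (nat_lit 227)))) (XT.nd (nat_lit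 156) (nat_lit 152) (nat_lit 0) (XT.nd (nat_lit 78) (nat_lit 76) (nat_lit 0) (XT.lf (nat_lit 0) (nat_lit 16637141419) (nat_lit 152) (nat_lit 3077353034) (nat_lit 0) (nat_lit 4773989165) (nat_lit 26) (nat_lit 5) (nat_lit 28) (nat_lit 4) (nat_lit 26) (nat_lit 4) (nat_lit 403) (nat_lit 271) (nat_lit 226)) (XT.lf (nat_lit 0) (nat_lit 7310063419) (nat_lit 76) (nat_lit 14867100866) (nat_lit 76) (nat_lit 2879729018) (nat_lit 25) (nat_lit 4) (nat_lit 26) (nat_lit 5) (nat_lit 26) (nat_lit 4) (nat_lit 404) (nat_lit 271) (nat_lit 225))) (XT.nd (nat_lit 78) (nat_lit 76) (nat_lit 0) (XT.lf (nat_lit 0) (nat_lit 2172689241) (nat_lit 152) (nat_lit 7697414235) (nat_lit 76) (nat_lit 15772348786) (nat_lit 24) (nat_lit 5) (nat_lit 26) (nat_lit 5) (nat_lit 25) (nat_lit 4) (nat_lit 405) (nat_lit 271) (nat_lit 224)) (XT.lf (nat_lit 0) (nat_lit 2571929767) (nat_lit 76) (nat_lit 4717228875) (nat_lit 152) (nat_lit 18956457960) (nat_lit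 23) (nat_lit 5) (nat_lit 24) (nat_lit 5) (nat_lit 25) (nat_lit 4) (nat_lit 406) (nat_lit 271) (nat_lit 223)))))) (XT.nd (nat_lit 546) (nat_lit 228) (nat_lit 0) (XT.nd (nat_lit 234) (nat_lit 152) (nat_lit 0) (XT.nd (nat_lit 78) (nat_lit 76) (nat_lit 0) (XT.lf (nat_lit 0) (nat_lit 12589064605) (nat_lit 152) (nat_lit 13667212977) (nat_lit 0) (nat_lit 609704602) (nat_lit 23) (nat_lit 5) (nat_lit 25) (nat_lit 4) (nat_lit 23) (nat_lit 4) (nat_lit 407) (nat_lit 271) (nat_lit 222)) (XT.nd (nat_lit 78) (nat_lit 76) (nat_lit 0) (XT.lf (nat_lit 0) (nat_lit 18042022911) (nat_lit 152) (nat_lit 3507608625) (nat_lit 0) (nat_lit 5955509996) (nat_lit 23) (nat_lit 5) (nat_lit 25) (nat_lit 4) (nat_lit 23) (nat_lit 4) (nat_lit 408) (nat_lit 271) (nat_lit 221)) (XT.lf (nat_lit 0) (nat_lit 6995862915) (nat_lit 76) (nat_lit 16678838991) (nat_lit 76) (nat_lit 4488294121) (nat_lit 22) (nat_lit 4) (nat_lit 23) (nat_lit 5) (nat_lit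 23) (nat_lit 4) (nat_lit 409) (nat_lit 271) (nat_lit 220)))) (XT.nd (nat_lit 156) (nat_lit 76) (nat_lit 0) (XT.nd (nat_lit 78) (nat_lit 0) (nat_lit 0) (XT.lf (nat_lit 0) (nat_lit 608079682) (nat_lit 152) (nat_lit 11057145012) (nat_lit 76) (nat_lit 17175640871) (nat_lit 21) (nat_lit 5) (nat_lit 23) (nat_lit 5) (nat_lit 22) (nat_lit 4) (nat_lit 410) (nat_lit 271) (nat_lit 219)) (XT.lf (nat_lit 0) (nat_lit 5717561780) (nat_lit 152) (nat_lit 782956447) (nat_lit 76) (nat_lit 23038710941) (nat_lit 21) (nat_lit 5) (nat_lit 23) (nat_lit 5) (nat_lit 22) (nat_lit 4) (nat_lit 411) (nat_lit 271) (nat_lit 218))) (XT.nd (nat_lit 78) (nat_lit 0) (nat_lit 0) (XT.lf (nat_lit 0) (nat_lit 9900753622) (nat_lit 76) (nat_lit 1126618033) (nat_lit 152) (nat_lit 19229764568) (nat_lit 20) (nat_lit 5) (nat_lit 21) (nat_lit 5) (nat_lit 22) (nat_lit 4) (nat_lit 412) (nat_lit 271) (nat_lit 217)) (XT.lf (nat_lit 0) (nat_lit 16498818676)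 (nat_lit 152) (nat_lit 10209791028) (nat_lit 0) (nat_lit 4287904228) (nat_lit 20) (nat_lit 5) (nat_lit 22) (nat_lit 4) (nat_lit 20) (nat_lit 4) (nat_lit 413) (nat_lit 271) (nat_lit 216))))) (XT.nd (nat_lit 234) (nat_lit 76) (nat_lit 0) (XT.nd (nat_lit 78) (nat_lit 76) (nat_lit 0) (XT.lf (nat_lit 0) (nat_lit 143507015) (nat_lit 76) (nat_lit 21956815869) (nat_lit 76) (nat_lit 9658776297) (nat_lit 19) (nat_lit 4) (nat_lit 20) (nat_lit 5) (nat_lit 20) (nat_lit 4) (nat_lit 414) (nat_lit 271) (nat_lit 215)) (XT.nd (nat_lit 78) (nat_lit 76) (nat_lit 0) (XT.lf (nat_lit 0) (nat_lit 10928233579) (nat_lit 76) (nat_lit 16998624708) (nat_lit 76) (nat_lit 4615997636) (nat_lit 19) (nat_lit 4) (nat_lit 20) (nat_lit 5) (nat_lit 20) (nat_lit 4) (nat_lit 415) (nat_lit 271) (nat_lit 214)) (XT.lf (nat_lit 0) (nat_lit 521567942) (nat_lit 152) (nat_lit 11405967934) (nat_lit 76) (nat_lit 21423782593) (nat_lit 18) (nat_lit 5) (nat_lit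 20) (nat_lit 5) (nat_lit 19) (nat_lit 4) (nat_lit 416) (nat_lit 271) (nat_lit 213)))) (XT.nd (nat_lit 156) (nat_lit 0) (nat_lit 0) (XT.nd (nat_lit 78) (nat_lit 76) (nat_lit 0) (XT.lf (nat_lit 0) (nat_lit 5676584163) (nat_lit 152) (nat_lit 1021016836) (nat_lit 76) (nat_lit 27486383001) (nat_lit 18) (nat_lit 5) (nat_lit 20) (nat_lit 5) (nat_lit 19) (nat_lit 4) (nat_lit 417) (nat_lit 271) (nat_lit 212)) (XT.lf (nat_lit 0) (nat_lit 9784609953) (nat_lit 76) (nat_lit 1253075852) (nat_lit 152) (nat_lit 24002403769) (nat_lit 17) (nat_lit 5) (nat_lit 18) (nat_lit 5) (nat_lit 19) (nat_lit 4) (nat_lit 418) (nat_lit 271) (nat_lit 211))) (XT.nd (nat_lit 78) (nat_lit 0) (nat_lit 0) (XT.lf (nat_lit 0) (nat_lit 16569362295) (nat_lit 152) (nat_lit 15110094724) (nat_lit 0) (nat_lit 4242132073) (nat_lit 17) (nat_lit 5) (nat_lit 19) (nat_lit 4) (nat_lit 17) (nat_lit 4) (nat_lit 419) (nat_lit 271) (nat_lit 210)) (XT.lf (nat_lit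 0) (nat_lit 22238103142) (nat_lit 152) (nat_lit 4752267758) (nat_lit 0) (nat_lit 9840032221) (nat_lit 17) (nat_lit 5) (nat_lit 19) (nat_lit 4) (nat_lit 17) (nat_lit 4) (nat_lit 420) (nat_lit 271) (nat_lit 209))))))))
noncomputable def xc41 : XT := (XT.nd (nat_lit 2106) (nat_lit 0) (nat_lit 0) (XT.nd (nat_lit 1014) (nat_lit 228) (nat_lit 0) (XT.nd (nat_lit 468) (nat_lit 228) (nat_lit 0) (XT.nd (nat_lit 234) (nat_lit 76) (nat_lit 0) (XT.nd (nat_lit 78) (nat_lit 76) (nat_lit 0) (XT.lf (nat_lit 0) (nat_lit 5955306620) (nat_lit 76) (nat_lit 22138755711) (nat_lit 76) (nat_lit 9671907413) (nat_lit 16) (nat_lit 4) (nat_lit 17) (nat_lit 5) (nat_lit 17) (nat_lit 4) (nat_lit 421) (nat_lit 271) (nat_lit 208)) (XT.nd (nat_lit 78) (nat_lit 76) (nat_lit 0) (XT.lf (nat_lit 0) (nat_lit 17005085014) (nat_lit 76) (nat_lit 17128946817) (nat_lit 76) (nat_lit 4595324366) (nat_lit 16) (nat_lit 4) (nat_lit 17) (nat_lit 5) (nat_lit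 17) (nat_lit 4) (nat_lit 422) (nat_lit 271) (nat_lit 207)) (XT.lf (nat_lit 0) (nat_lit 582307366) (nat_lit 152) (nat_lit 11416367772) (nat_lit 76) (nat_lit 27723955592) (nat_lit 15) (nat_lit 5) (nat_lit 17) (nat_lit 5) (nat_lit 16) (nat_lit 4) (nat_lit 423) (nat_lit 271) (nat_lit 206)))) (XT.nd (nat_lit 78) (nat_lit 76) (nat_lit 0) (XT.lf (nat_lit 0) (nat_lit 5785153335) (nat_lit 152) (nat_lit 917531498) (nat_lit 76) (nat_lit 34042788856) (nat_lit 15) (nat_lit 5) (nat_lit 17) (nat_lit 5) (nat_lit 16) (nat_lit 4) (nat_lit 424) (nat_lit 271) (nat_lit 205)) (XT.nd (nat_lit 78) (nat_lit 0) (nat_lit 0) (XT.lf (nat_lit 0) (nat_lit 10021132844) (nat_lit 76) (nat_lit 1182627462) (nat_lit 152) (nat_lit 30593453827) (nat_lit 14) (nat_lit 5) (nat_lit 15) (nat_lit 5) (nat_lit 16) (nat_lit 4) (nat_lit 425) (nat_lit 271) (nat_lit 204)) (XT.lf (nat_lit 0) (nat_lit 16800985253) (nat_lit 152) (nat_lit 21687599167) (nat_lit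 0) (nat_lit 4391442973) (nat_lit 14) (nat_lit 5) (nat_lit 16) (nat_lit 4) (nat_lit 14) (nat_lit 4) (nat_lit 426) (nat_lit 271) (nat_lit 203))))) (XT.nd (nat_lit 234) (nat_lit 152) (nat_lit 0) (XT.nd (nat_lit 78) (nat_lit 76) (nat_lit 0) (XT.lf (nat_lit 0) (nat_lit 22542318527) (nat_lit 152) (nat_lit 11376869155) (nat_lit 0) (nat_lit 10076853945) (nat_lit 14) (nat_lit 5) (nat_lit 16) (nat_lit 4) (nat_lit 14) (nat_lit 4) (nat_lit 427) (nat_lit 271) (nat_lit 202)) (XT.nd (nat_lit 78) (nat_lit 76) (nat_lit 0) (XT.lf (nat_lit 0) (nat_lit 28421408688) (nat_lit 152) (nat_lit 823513741) (nat_lit 0) (nat_lit 15901650609) (nat_lit 14) (nat_lit 5) (nat_lit 16) (nat_lit 4) (nat_lit 14) (nat_lit 4) (nat_lit 428) (nat_lit 271) (nat_lit 201)) (XT.lf (nat_lit 0) (nat_lit 10180343625) (nat_lit 76) (nat_lit 24360908871) (nat_lit 76) (nat_lit 11788438659) (nat_lit 13) (nat_lit 4) (nat_lit 14) (nat_lit 5) (nat_lit 14) (nat_lit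 4) (nat_lit 429) (nat_lit 271) (nat_lit 200)))) (XT.nd (nat_lit 156) (nat_lit 152) (nat_lit 0) (XT.nd (nat_lit 78) (nat_lit 0) (nat_lit 0) (XT.lf (nat_lit 0) (nat_lit 21467078897) (nat_lit 76) (nat_lit 19352808604) (nat_lit 76) (nat_lit 6729161564) (nat_lit 13) (nat_lit 4) (nat_lit 14) (nat_lit 5) (nat_lit 14) (nat_lit 4) (nat_lit 430) (nat_lit 271) (nat_lit 199)) (XT.lf (nat_lit 0) (nat_lit 33030164733) (nat_lit 76) (nat_lit 14224561493) (nat_lit 76) (nat_lit 1551228212) (nat_lit 13) (nat_lit 4) (nat_lit 14) (nat_lit 5) (nat_lit 14) (nat_lit 4) (nat_lit 431) (nat_lit 271) (nat_lit 198))) (XT.nd (nat_lit 78) (nat_lit 76) (nat_lit 0) (XT.lf (nat_lit 0) (nat_lit 3676712025) (nat_lit 152) (nat_lit 5257846938) (nat_lit 76) (nat_lit 41165865192) (nat_lit 12) (nat_lit 5) (nat_lit 14) (nat_lit 5) (nat_lit 13) (nat_lit 4) (nat_lit 432) (nat_lit 271) (nat_lit 197)) (XT.lf (nat_lit 0) (nat_lit 5610466708) (nat_lit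 76) (nat_lit 3443165363) (nat_lit 152) (nat_lit 42378937429) (nat_lit 11) (nat_lit 5) (nat_lit 12) (nat_lit 5) (nat_lit 13) (nat_lit 4) (nat_lit 433) (nat_lit 271) (nat_lit 196)))))) (XT.nd (nat_lit 546) (nat_lit 152) (nat_lit 0) (XT.nd (nat_lit 234) (nat_lit 76) (nat_lit 0) (XT.nd (nat_lit 78) (nat_lit 0) (nat_lit 0) (XT.lf (nat_lit 0) (nat_lit 14636194317) (nat_lit 152) (nat_lit 35971619013) (nat_lit 0) (nat_lit 2195537671) (nat_lit 11) (nat_lit 5) (nat_lit 13) (nat_lit 4) (nat_lit 11) (nat_lit 4) (nat_lit 434) (nat_lit 271) (nat_lit 195)) (XT.nd (nat_lit 78) (nat_lit 0) (nat_lit 0) (XT.lf (nat_lit 0) (nat_lit 20390656749) (nat_lit 152) (nat_lit 25917327965) (nat_lit 0) (nat_lit 7907140315) (nat_lit 11) (nat_lit 5) (nat_lit 13) (nat_lit 4) (nat_lit 11) (nat_lit 4) (nat_lit 435) (nat_lit 271) (nat_lit 194)) (XT.lf (nat_lit 0) (nat_lit 26288949727) (nat_lit 152) (nat_lit 15617346534) (nat_lit 0) (nat_lit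 13763821848) (nat_lit 11) (nat_lit 5) (nat_lit 13) (nat_lit 4) (nat_lit 11) (nat_lit 4) (nat_lit 436) (nat_lit 271) (nat_lit 193)))) (XT.nd (nat_lit 156) (nat_lit 0) (nat_lit 0) (XT.nd (nat_lit 78) (nat_lit 76) (nat_lit 0) (XT.lf (nat_lit 0) (nat_lit 32336227098) (nat_lit 152) (nat_lit 5062674736) (nat_lit 0) (nat_lit 19770699759) (nat_lit 11) (nat_lit 5) (nat_lit 13) (nat_lit 4) (nat_lit 11) (nat_lit 4) (nat_lit 437) (nat_lit 271) (nat_lit 192)) (XT.lf (nat_lit 0) (nat_lit 5870463852) (nat_lit 76) (nat_lit 32723739528) (nat_lit 76) (nat_lit 20118989411) (nat_lit 10) (nat_lit 4) (nat_lit 11) (nat_lit 5) (nat_lit 11) (nat_lit 4) (nat_lit 438) (nat_lit 271) (nat_lit 191))) (XT.nd (nat_lit 78) (nat_lit 0) (nat_lit 0) (XT.lf (nat_lit 0) (nat_lit 17183166143) (nat_lit 76) (nat_lit 27881014893) (nat_lit 76) (nat_lit 15238184411) (nat_lit 10) (nat_lit 4) (nat_lit 11) (nat_lit 5) (nat_lit 11) (nat_lit 4) (nat_lit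 439) (nat_lit 271) (nat_lit 190)) (XT.lf (nat_lit 0) (nat_lit 28784559868) (nat_lit 76) (nat_lit 22917619512) (nat_lit 76) (nat_lit 10237817799) (nat_lit 10) (nat_lit 4) (nat_lit 11) (nat_lit 5) (nat_lit 11) (nat_lit 4) (nat_lit 440) (nat_lit 271) (nat_lit 189))))) (XT.nd (nat_lit 234) (nat_lit 76) (nat_lit 0) (XT.nd (nat_lit 78) (nat_lit 76) (nat_lit 0) (XT.lf (nat_lit 0) (nat_lit 40684782167) (nat_lit 76) (nat_lit 17829216435) (nat_lit 76) (nat_lit 5113520325) (nat_lit 10) (nat_lit 4) (nat_lit 11) (nat_lit 5) (nat_lit 11) (nat_lit 4) (nat_lit 441) (nat_lit 271) (nat_lit 188)) (XT.nd (nat_lit 78) (nat_lit 0) (nat_lit 0) (XT.lf (nat_lit 0) (nat_lit 136469541) (nat_lit 152) (nat_lit 12473511870) (nat_lit 76) (nat_lit 52756383676) (nat_lit 9) (nat_lit 5) (nat_lit 11) (nat_lit 5) (nat_lit 10) (nat_lit 4) (nat_lit 442) (nat_lit 271) (nat_lit 187)) (XT.lf (nat_lit 0) (nat_lit 5417079083) (nat_lit 152) (nat_lit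 1787708412) (nat_lit 76) (nat_lit 59951794733) (nat_lit 9) (nat_lit 5) (nat_lit 11) (nat_lit 5) (nat_lit 10) (nat_lit 4) (nat_lit 443) (nat_lit 271) (nat_lit 186)))) (XT.nd (nat_lit 156) (nat_lit 0) (nat_lit 0) (XT.nd (nat_lit 78) (nat_lit 0) (nat_lit 0) (XT.lf (nat_lit 0) (nat_lit 9355728978) (nat_lit 76) (nat_lit 1566909636) (nat_lit 152) (nat_lit 58075872644) (nat_lit 8) (nat_lit 5) (nat_lit 9) (nat_lit 5) (nat_lit 10) (nat_lit 4) (nat_lit 444) (nat_lit 271) (nat_lit 185)) (XT.lf (nat_lit 0) (nat_lit 16628991110) (nat_lit 152) (nat_lit 50111521372) (nat_lit 0) (nat_lit 4154118180) (nat_lit 8) (nat_lit 5) (nat_lit 10) (nat_lit 4) (nat_lit 8) (nat_lit 4) (nat_lit 445) (nat_lit 271) (nat_lit 184))) (XT.nd (nat_lit 78) (nat_lit 0) (nat_lit 0) (XT.lf (nat_lit 0) (nat_lit 22499365236) (nat_lit 152) (nat_lit 40354053416) (nat_lit 0) (nat_lit 9994431313) (nat_lit 8) (nat_lit 5) (nat_lit 10) (nat_lit 4) (nat_lit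 8) (nat_lit 4) (nat_lit 446) (nat_lit 271) (nat_lit 183)) (XT.lf (nat_lit 0) (nat_lit 28523828352) (nat_lit 152) (nat_lit 30346790375) (nat_lit 0) (nat_lit 15989709000) (nat_lit 8) (nat_lit 5) (nat_lit 10) (nat_lit 4) (nat_lit 8) (nat_lit 4) (nat_lit 447) (nat_lit 271) (nat_lit 182))))))) (XT.nd (nat_lit 40560) (nat_lit 0) (nat_lit 3116) (XT.nd (nat_lit 40014) (nat_lit 0) (nat_lit 4940) (XT.nd (nat_lit 39780) (nat_lit 0) (nat_lit 6384) (XT.nd (nat_lit 78) (nat_lit 0) (nat_lit 0) (XT.lf (nat_lit 0) (nat_lit 34707644553) (nat_lit 152) (nat_lit 20080988040) (nat_lit 0) (nat_lit 22145189832) (nat_lit 8) (nat_lit 5) (nat_lit 10) (nat_lit 4) (nat_lit 8) (nat_lit 4) (nat_lit 448) (nat_lit 271) (nat_lit 181)) (XT.nd (nat_lit 39624) (nat_lit 0) (nat_lit 6916) (XT.lf (nat_lit 0) (nat_lit 41056217172) (nat_lit 152) (nat_lit 9547676291) (nat_lit 0) (nat_lit 28466252384) (nat_lit 8) (nat_lit 5) (nat_lit 10) (nat_lit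 4) (nat_lit 8) (nat_lit 4) (nat_lit 449) (nat_lit 271) (nat_lit 180)) (XT.lf (nat_lit 0) (nat_lit 1991969691) (nat_lit 304) (nat_lit 1531675977) (nat_lit 304) (nat_lit 1531675977) (nat_lit 99) (nat_lit 4) (nat_lit 103) (nat_lit 5) (nat_lit 103) (nat_lit 4) (nat_lit 356) (nat_lit 272) (nat_lit 272)))) (XT.nd (nat_lit 78) (nat_lit 228) (nat_lit 0) (XT.lf (nat_lit 0) (nat_lit 1368628003) (nat_lit 304) (nat_lit 8251456997) (nat_lit 0) (nat_lit 636775457) (nat_lit 95) (nat_lit 5) (nat_lit 99) (nat_lit 4) (nat_lit 95) (nat_lit 4) (nat_lit 357) (nat_lit 272) (nat_lit 271)) (XT.nd (nat_lit 78) (nat_lit 228) (nat_lit 0) (XT.lf (nat_lit 0) (nat_lit 5862226812) (nat_lit 304) (nat_lit 124812247) (nat_lit 0) (nat_lit 4419837813) (nat_lit 95) (nat_lit 5) (nat_lit 99) (nat_lit 4) (nat_lit 95) (nat_lit 4) (nat_lit 358) (nat_lit 272) (nat_lit 270)) (XT.lf (nat_lit 0) (nat_lit 8246357072) (nat_lit 228) (nat_lit 2223952657)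 (nat_lit 228) (nat_lit 91722441) (nat_lit 92) (nat_lit 4) (nat_lit 95) (nat_lit 5) (nat_lit 95) (nat_lit 4) (nat_lit 359) (nat_lit 272) (nat_lit 269))))) (XT.nd (nat_lit 234) (nat_lit 684) (nat_lit 0) (XT.nd (nat_lit 78) (nat_lit 456) (nat_lit 0) (XT.lf (nat_lit 0) (nat_lit 4383737112) (nat_lit 304) (nat_lit 4674167049) (nat_lit 0) (nat_lit 1663369181) (nat_lit 88) (nat_lit 5) (nat_lit 92) (nat_lit 4) (nat_lit 88) (nat_lit 4) (nat_lit 360) (nat_lit 272) (nat_lit 268)) (XT.nd (nat_lit 78) (nat_lit 228) (nat_lit 0) (XT.lf (nat_lit 0) (nat_lit 3711494580) (nat_lit 228) (nat_lit 5262990247) (nat_lit 228) (nat_lit 1911319881) (nat_lit 85) (nat_lit 4) (nat_lit 88) (nat_lit 5) (nat_lit 88) (nat_lit 4) (nat_lit 361) (nat_lit 272) (nat_lit 267)) (XT.lf (nat_lit 0) (nat_lit 1226892952) (nat_lit 152) (nat_lit 1330485522) (nat_lit 228) (nat_lit 8498313900) (nat_lit 82) (nat_lit 5) (nat_lit 84) (nat_lit 5) (nat_lit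 85) (nat_lit 4) (nat_lit 362) (nat_lit 272) (nat_lit 266)))) (XT.nd (nat_lit 156) (nat_lit 380) (nat_lit 0) (XT.nd (nat_lit 78) (nat_lit 304) (nat_lit 0) (XT.lf (nat_lit 0) (nat_lit 7123639764) (nat_lit 228) (nat_lit 1409639058) (nat_lit 0) (nat_lit 2696796614) (nat_lit 82) (nat_lit 5) (nat_lit 85) (nat_lit 4) (nat_lit 82) (nat_lit 4) (nat_lit 363) (nat_lit 272) (nat_lit 265)) (XT.lf (nat_lit 0) (nat_lit 397055645) (nat_lit 304) (nat_lit 4181724227) (nat_lit 76) (nat_lit 6831172510) (nat_lit 78) (nat_lit 5) (nat_lit 82) (nat_lit 5) (nat_lit 79) (nat_lit 4) (nat_lit 364) (nat_lit 272) (nat_lit 264))) (XT.nd (nat_lit 78) (nat_lit 228) (nat_lit 0) (XT.lf (nat_lit 0) (nat_lit 4447147240) (nat_lit 152) (nat_lit 468843623) (nat_lit 228) (nat_lit 6679150780) (nat_lit 76) (nat_lit 5) (nat_lit 78) (nat_lit 5) (nat_lit 79) (nat_lit 4) (nat_lit 365) (nat_lit 272) (nat_lit 263)) (XT.lf (nat_lit 0) (nat_lit 1469240231)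 (nat_lit 228) (nat_lit 8100586603) (nat_lit 228) (nat_lit 2216101104) (nat_lit 73) (nat_lit 4) (nat_lit 76) (nat_lit 5) (nat_lit 76) (nat_lit 4) (nat_lit 366) (nat_lit 272) (nat_lit 262)))))) (XT.nd (nat_lit 546) (nat_lit 760) (nat_lit 0) (XT.nd (nat_lit 234) (nat_lit 608) (nat_lit 0) (XT.nd (nat_lit 78) (nat_lit 380) (nat_lit 0) (XT.lf (nat_lit 0) (nat_lit 2318577207) (nat_lit 304) (nat_lit 1676129739) (nat_lit 76) (nat_lit 7987538527) (nat_lit 72) (nat_lit 5) (nat_lit 76) (nat_lit 5) (nat_lit 73) (nat_lit 4) (nat_lit 367) (nat_lit 272) (nat_lit 261)) (XT.nd (nat_lit 78) (nat_lit 228) (nat_lit 0) (XT.lf (nat_lit 0) (nat_lit 6925761867) (nat_lit 228) (nat_lit 4999541622) (nat_lit 0) (nat_lit 259080099) (nat_lit 70) (nat_lit 5) (nat_lit 73) (nat_lit 4) (nat_lit 70) (nat_lit 4) (nat_lit 368) (nat_lit 272) (nat_lit 260)) (XT.lf (nat_lit 0) (nat_lit 3833943068) (nat_lit 228) (nat_lit 7840653392) (nat_lit 228)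 (nat_lit 717905313) (nat_lit 67) (nat_lit 4) (nat_lit 70) (nat_lit 5) (nat_lit 70) (nat_lit 4) (nat_lit 369) (nat_lit 272) (nat_lit 259)))) (XT.nd (nat_lit 156) (nat_lit 380) (nat_lit 0) (XT.nd (nat_lit 78) (nat_lit 0) (nat_lit 0) (XT.lf (nat_lit 0) (nat_lit 240341873) (nat_lit 152) (nat_lit 3604915653) (nat_lit 228) (nat_lit 8761577748) (nat_lit 64) (nat_lit 5) (nat_lit 66) (nat_lit 5) (nat_lit 67) (nat_lit 4) (nat_lit 370) (nat_lit 272) (nat_lit 258)) (XT.lf (nat_lit 0) (nat_lit 8536146813) (nat_lit 228) (nat_lit 3517492358) (nat_lit 0) (nat_lit 773605896) (nat_lit 64) (nat_lit 5) (nat_lit 67) (nat_lit 4) (nat_lit 64) (nat_lit 4) (nat_lit 371) (nat_lit 272) (nat_lit 257))) (XT.nd (nat_lit 78) (nat_lit 152) (nat_lit 0) (XT.lf (nat_lit 0) (nat_lit 309408763) (nat_lit 228) (nat_lit 7539650137) (nat_lit 76) (nat_lit 5205073281) (nat_lit 61) (nat_lit 5) (nat_lit 64) (nat_lit 5) (nat_lit 62) (nat_lit 4) (nat_lit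 372) (nat_lit 272) (nat_lit 256)) (XT.lf (nat_lit 0) (nat_lit 1436349417) (nat_lit 152) (nat_lit 3488530460) (nat_lit 228) (nat_lit 8362791456) (nat_lit 59) (nat_lit 5) (nat_lit 61) (nat_lit 5) (nat_lit 62) (nat_lit 4) (nat_lit 373) (nat_lit 272) (nat_lit 255))))) (XT.nd (nat_lit 234) (nat_lit 380) (nat_lit 0) (XT.nd (nat_lit 78) (nat_lit 380) (nat_lit 0) (XT.lf (nat_lit 0) (nat_lit 9679315372) (nat_lit 228) (nat_lit 2852212621) (nat_lit 0) (nat_lit 996689071) (nat_lit 59) (nat_lit 5) (nat_lit 62) (nat_lit 4) (nat_lit 59) (nat_lit 4) (nat_lit 374) (nat_lit 272) (nat_lit 254)) (XT.nd (nat_lit 78) (nat_lit 152) (nat_lit 0) (XT.lf (nat_lit 0) (nat_lit 797032603) (nat_lit 228) (nat_lit 7424673073) (nat_lit 76) (nat_lit 5553689801) (nat_lit 56) (nat_lit 5) (nat_lit 59) (nat_lit 5) (nat_lit 57) (nat_lit 4) (nat_lit 375) (nat_lit 272) (nat_lit 253)) (XT.lf (nat_lit 0) (nat_lit 1706120602) (nat_lit 152) (nat_lit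 3761025561) (nat_lit 228) (nat_lit 8562849137) (nat_lit 54) (nat_lit 5) (nat_lit 56) (nat_lit 5) (nat_lit 57) (nat_lit 4) (nat_lit 376) (nat_lit 272) (nat_lit 252)))) (XT.nd (nat_lit 156) (nat_lit 152) (nat_lit 0) (XT.nd (nat_lit 78) (nat_lit 228) (nat_lit 0) (XT.lf (nat_lit 0) (nat_lit 10278168402) (nat_lit 228) (nat_lit 3183985149) (nat_lit 0) (nat_lit 830069104) (nat_lit 54) (nat_lit 5) (nat_lit 57) (nat_lit 4) (nat_lit 54) (nat_lit 4) (nat_lit 377) (nat_lit 272) (nat_lit 251)) (XT.lf (nat_lit 0) (nat_lit 674285050) (nat_lit 228) (nat_lit 8399176380) (nat_lit 76) (nat_lit 5488189401) (nat_lit 51) (nat_lit 5) (nat_lit 54) (nat_lit 5) (nat_lit 52) (nat_lit 4) (nat_lit 378) (nat_lit 272) (nat_lit 250))) (XT.nd (nat_lit 78) (nat_lit 0) (nat_lit 0) (XT.lf (nat_lit 0) (nat_lit 848734893) (nat_lit 152) (nat_lit 4534156186) (nat_lit 228) (nat_lit 9456282162) (nat_lit 49) (nat_lit 5) (nat_lit 51) (nat_lit 5)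 (nat_lit 52) (nat_lit 4) (nat_lit 379) (nat_lit 272) (nat_lit 249)) (XT.lf (nat_lit 0) (nat_lit 10239793261) (nat_lit 228) (nat_lit 4722951904) (nat_lit 0) (nat_lit 162077186) (nat_lit 49) (nat_lit 5) (nat_lit 52) (nat_lit 4) (nat_lit 49) (nat_lit 4) (nat_lit 380) (nat_lit 272) (nat_lit 248))))))))
noncomputable def xc42 : XT := (XT.nd (nat_lit 2106) (nat_lit 912) (nat_lit 0) (XT.nd (nat_lit 1014) (nat_lit 760) (nat_lit 0) (XT.nd (nat_lit 468) (nat_lit 608) (nat_lit 0) (XT.nd (nat_lit 234) (nat_lit 304) (nat_lit 0) (XT.nd (nat_lit 78) (nat_lit 152) (nat_lit 0) (XT.lf (nat_lit 0) (nat_lit 4729633306) (nat_lit 152) (nat_lit 10525479823) (nat_lit 152) (nat_lit 163558301) (nat_lit 47) (nat_lit 4) (nat_lit 49) (nat_lit 5) (nat_lit 49) (nat_lit 4) (nat_lit 381) (nat_lit 272) (nat_lit 247)) (XT.nd (nat_lit 78) (nat_lit 76) (nat_lit 0) (XT.lf (nat_lit 0) (nat_lit 4578524965) (nat_lit 228) (nat_lit 1343443460) (nat_lit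 76) (nat_lit 9798903231) (nat_lit 46) (nat_lit 5) (nat_lit 49) (nat_lit 5) (nat_lit 47) (nat_lit 4) (nat_lit 382) (nat_lit 272) (nat_lit 246)) (XT.lf (nat_lit 0) (nat_lit 8306580280) (nat_lit 76) (nat_lit 1157616918) (nat_lit 152) (nat_lit 6567764506) (nat_lit 45) (nat_lit 5) (nat_lit 46) (nat_lit 5) (nat_lit 47) (nat_lit 4) (nat_lit 383) (nat_lit 272) (nat_lit 245)))) (XT.nd (nat_lit 78) (nat_lit 152) (nat_lit 0) (XT.lf (nat_lit 0) (nat_lit 1783561601) (nat_lit 152) (nat_lit 12704842200) (nat_lit 152) (nat_lit 1864232222) (nat_lit 43) (nat_lit 4) (nat_lit 45) (nat_lit 5) (nat_lit 45) (nat_lit 4) (nat_lit 384) (nat_lit 272) (nat_lit 244)) (XT.nd (nat_lit 78) (nat_lit 76) (nat_lit 0) (XT.lf (nat_lit 0) (nat_lit 2937705430) (nat_lit 228) (nat_lit 5122226068) (nat_lit 76) (nat_lit 8621685745) (nat_lit 42) (nat_lit 5) (nat_lit 45) (nat_lit 5) (nat_lit 43) (nat_lit 4) (nat_lit 385) (nat_lit 272) (nat_lit 243))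 (XT.lf (nat_lit 0) (nat_lit 4545365404) (nat_lit 76) (nat_lit 3271950401) (nat_lit 152) (nat_lit 9203475455) (nat_lit 41) (nat_lit 5) (nat_lit 42) (nat_lit 5) (nat_lit 43) (nat_lit 4) (nat_lit 386) (nat_lit 272) (nat_lit 242))))) (XT.nd (nat_lit 234) (nat_lit 380) (nat_lit 0) (XT.nd (nat_lit 78) (nat_lit 228) (nat_lit 0) (XT.lf (nat_lit 0) (nat_lit 12839170417) (nat_lit 152) (nat_lit 2910254397) (nat_lit 0) (nat_lit 1620849331) (nat_lit 41) (nat_lit 5) (nat_lit 43) (nat_lit 4) (nat_lit 41) (nat_lit 4) (nat_lit 387) (nat_lit 272) (nat_lit 241)) (XT.nd (nat_lit 78) (nat_lit 0) (nat_lit 0) (XT.lf (nat_lit 0) (nat_lit 304862184) (nat_lit 228) (nat_lit 10817270661) (nat_lit 76) (nat_lit 6607168852) (nat_lit 38) (nat_lit 5) (nat_lit 41) (nat_lit 5) (nat_lit 39) (nat_lit 4) (nat_lit 388) (nat_lit 272) (nat_lit 240)) (XT.lf (nat_lit 0) (nat_lit 5154406440) (nat_lit 228) (nat_lit 1184171365) (nat_lit 76) (nat_lit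 11760397831) (nat_lit 38) (nat_lit 5) (nat_lit 41) (nat_lit 5) (nat_lit 39) (nat_lit 4) (nat_lit 389) (nat_lit 272) (nat_lit 239)))) (XT.nd (nat_lit 156) (nat_lit 152) (nat_lit 0) (XT.nd (nat_lit 78) (nat_lit 152) (nat_lit 0) (XT.lf (nat_lit 0) (nat_lit 8783649771) (nat_lit 76) (nat_lit 1382154303) (nat_lit 152) (nat_lit 8313452992) (nat_lit 37) (nat_lit 5) (nat_lit 38) (nat_lit 5) (nat_lit 39) (nat_lit 4) (nat_lit 390) (nat_lit 272) (nat_lit 238)) (XT.lf (nat_lit 0) (nat_lit 43212420) (nat_lit 152) (nat_lit 15264780315) (nat_lit 152) (nat_lit 3563548777) (nat_lit 35) (nat_lit 4) (nat_lit 37) (nat_lit 5) (nat_lit 37) (nat_lit 4) (nat_lit 391) (nat_lit 272) (nat_lit 237))) (XT.nd (nat_lit 78) (nat_lit 76) (nat_lit 0) (XT.lf (nat_lit 0) (nat_lit 1347758237) (nat_lit 228) (nat_lit 9153175598) (nat_lit 76) (nat_lit 8772939935) (nat_lit 34) (nat_lit 5) (nat_lit 37) (nat_lit 5) (nat_lit 35) (nat_lit 4) (nat_lit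 392) (nat_lit 272) (nat_lit 236)) (XT.lf (nat_lit 0) (nat_lit 667610663) (nat_lit 76) (nat_lit 5607835713) (nat_lit 152) (nat_lit 13413558529) (nat_lit 33) (nat_lit 5) (nat_lit 34) (nat_lit 5) (nat_lit 35) (nat_lit 4) (nat_lit 393) (nat_lit 272) (nat_lit 235)))))) (XT.nd (nat_lit 546) (nat_lit 380) (nat_lit 0) (XT.nd (nat_lit 234) (nat_lit 152) (nat_lit 0) (XT.nd (nat_lit 78) (nat_lit 228) (nat_lit 0) (XT.lf (nat_lit 0) (nat_lit 10849484645) (nat_lit 76) (nat_lit 528908243) (nat_lit 152) (nat_lit 8737381401) (nat_lit 33) (nat_lit 5) (nat_lit 34) (nat_lit 5) (nat_lit 35) (nat_lit 4) (nat_lit 394) (nat_lit 272) (nat_lit 234)) (XT.nd (nat_lit 78) (nat_lit 76) (nat_lit 0) (XT.lf (nat_lit 0) (nat_lit 629536526) (nat_lit 152) (nat_lit 15992512657) (nat_lit 152) (nat_lit 3933675871) (nat_lit 31) (nat_lit 4) (nat_lit 33) (nat_lit 5) (nat_lit 33) (nat_lit 4) (nat_lit 395) (nat_lit 272) (nat_lit 233)) (XT.lf (nat_lit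 0) (nat_lit 1030544536) (nat_lit 228) (nat_lit 10128909772) (nat_lit 76) (nat_lit 9848048319) (nat_lit 30) (nat_lit 5) (nat_lit 33) (nat_lit 5) (nat_lit 31) (nat_lit 4) (nat_lit 396) (nat_lit 272) (nat_lit 232)))) (XT.nd (nat_lit 156) (nat_lit 76) (nat_lit 0) (XT.nd (nat_lit 78) (nat_lit 76) (nat_lit 0) (XT.lf (nat_lit 0) (nat_lit 6002938013) (nat_lit 228) (nat_lit 192308678) (nat_lit 76) (nat_lit 15278275485) (nat_lit 30) (nat_lit 5) (nat_lit 33) (nat_lit 5) (nat_lit 31) (nat_lit 4) (nat_lit 397) (nat_lit 272) (nat_lit 231)) (XT.lf (nat_lit 0) (nat_lit 10127738780) (nat_lit 76) (nat_lit 1034224795) (nat_lit 152) (nat_lit 10790441093) (nat_lit 29) (nat_lit 5) (nat_lit 30) (nat_lit 5) (nat_lit 31) (nat_lit 4) (nat_lit 398) (nat_lit 272) (nat_lit 230))) (XT.nd (nat_lit 78) (nat_lit 76) (nat_lit 0) (XT.lf (nat_lit 0) (nat_lit 16459161224) (nat_lit 152) (nat_lit 1837905008) (nat_lit 0) (nat_lit 4149091349)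 (nat_lit 29) (nat_lit 5) (nat_lit 31) (nat_lit 4) (nat_lit 29) (nat_lit 4) (nat_lit 399) (nat_lit 272) (nat_lit 229)) (XT.lf (nat_lit 0) (nat_lit 8494795942) (nat_lit 76) (nat_lit 13454397753) (nat_lit 76) (nat_lit 1004517631) (nat_lit 28) (nat_lit 4) (nat_lit 29) (nat_lit 5) (nat_lit 29) (nat_lit 4) (nat_lit 400) (nat_lit 272) (nat_lit 228))))) (XT.nd (nat_lit 234) (nat_lit 228) (nat_lit 0) (XT.nd (nat_lit 78) (nat_lit 76) (nat_lit 0) (XT.lf (nat_lit 0) (nat_lit 4007735444) (nat_lit 152) (nat_lit 4449915274) (nat_lit 76) (nat_lit 15018830947) (nat_lit 27) (nat_lit 5) (nat_lit 29) (nat_lit 5) (nat_lit 28) (nat_lit 4) (nat_lit 401) (nat_lit 272) (nat_lit 227)) (XT.nd (nat_lit 78) (nat_lit 0) (nat_lit 0) (XT.lf (nat_lit 0) (nat_lit 5857620798) (nat_lit 76) (nat_lit 3292637128) (nat_lit 152) (nat_lit 14864381385) (nat_lit 26) (nat_lit 5) (nat_lit 27) (nat_lit 5) (nat_lit 28) (nat_lit 4) (nat_lit 402) (nat_lit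 272) (nat_lit 226)) (XT.lf (nat_lit 0) (nat_lit 14455860954) (nat_lit 152) (nat_lit 8128173395) (nat_lit 0) (nat_lit 1984648356) (nat_lit 26) (nat_lit 5) (nat_lit 28) (nat_lit 4) (nat_lit 26) (nat_lit 4) (nat_lit 403) (nat_lit 272) (nat_lit 225)))) (XT.nd (nat_lit 156) (nat_lit 152) (nat_lit 0) (XT.nd (nat_lit 78) (nat_lit 0) (nat_lit 0) (XT.lf (nat_lit 0) (nat_lit 2106895643) (nat_lit 76) (nat_lit 17812159117) (nat_lit 76) (nat_lit 5220344971) (nat_lit 25) (nat_lit 4) (nat_lit 26) (nat_lit 5) (nat_lit 26) (nat_lit 4) (nat_lit 404) (nat_lit 272) (nat_lit 224)) (XT.lf (nat_lit 0) (nat_lit 12713493467) (nat_lit 76) (nat_lit 12860902573) (nat_lit 76) (nat_lit 151999546) (nat_lit 25) (nat_lit 4) (nat_lit 26) (nat_lit 5) (nat_lit 26) (nat_lit 4) (nat_lit 405) (nat_lit 272) (nat_lit 223))) (XT.nd (nat_lit 78) (nat_lit 76) (nat_lit 0) (XT.lf (nat_lit 0) (nat_lit 4916712344) (nat_lit 152) (nat_lit 2841655492) (nat_lit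 76) (nat_lit 18572759889) (nat_lit 24) (nat_lit 5) (nat_lit 26) (nat_lit 5) (nat_lit 25) (nat_lit 4) (nat_lit 406) (nat_lit 272) (nat_lit 222)) (XT.lf (nat_lit 0) (nat_lit 7685899407) (nat_lit 76) (nat_lit 2471168799) (nat_lit 152) (nat_lit 16796213799) (nat_lit 23) (nat_lit 5) (nat_lit 24) (nat_lit 5) (nat_lit 25) (nat_lit 4) (nat_lit 407) (nat_lit 272) (nat_lit 221))))))) (XT.nd (nat_lit 1014) (nat_lit 456) (nat_lit 0) (XT.nd (nat_lit 468) (nat_lit 228) (nat_lit 0) (XT.nd (nat_lit 234) (nat_lit 152) (nat_lit 0) (XT.nd (nat_lit 78) (nat_lit 76) (nat_lit 0) (XT.lf (nat_lit 0) (nat_lit 15561091548) (nat_lit 152) (nat_lit 9132021606) (nat_lit 0) (nat_lit 2900798378) (nat_lit 23) (nat_lit 5) (nat_lit 25) (nat_lit 4) (nat_lit 23) (nat_lit 4) (nat_lit 408) (nat_lit 272) (nat_lit 220)) (XT.nd (nat_lit 78) (nat_lit 0) (nat_lit 0) (XT.lf (nat_lit 0) (nat_lit 1211985907) (nat_lit 76) (nat_lit 19901739308) (nat_lit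 76) (nat_lit 7140444240) (nat_lit 22) (nat_lit 4) (nat_lit 23) (nat_lit 5) (nat_lit 23) (nat_lit 4) (nat_lit 409) (nat_lit 272) (nat_lit 219)) (XT.lf (nat_lit 0) (nat_lit 11959841065) (nat_lit 76) (nat_lit 14916229652) (nat_lit 76) (nat_lit 2056874490) (nat_lit 22) (nat_lit 4) (nat_lit 23) (nat_lit 5) (nat_lit 23) (nat_lit 4) (nat_lit 410) (nat_lit 272) (nat_lit 218)))) (XT.nd (nat_lit 78) (nat_lit 76) (nat_lit 0) (XT.lf (nat_lit 0) (nat_lit 3069035875) (nat_lit 152) (nat_lit 6724416310) (nat_lit 76) (nat_lit 19839162939) (nat_lit 21) (nat_lit 5) (nat_lit 23) (nat_lit 5) (nat_lit 22) (nat_lit 4) (nat_lit 411) (nat_lit 272) (nat_lit 217)) (XT.nd (nat_lit 78) (nat_lit 0) (nat_lit 0) (XT.lf (nat_lit 0) (nat_lit 3796218238) (nat_lit 76) (nat_lit 4500928766) (nat_lit 152) (nat_lit 22055827973) (nat_lit 20) (nat_lit 5) (nat_lit 21) (nat_lit 5) (nat_lit 22) (nat_lit 4) (nat_lit 412) (nat_lit 272) (nat_lit 216))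 (XT.lf (nat_lit 0) (nat_lit 13713192406) (nat_lit 152) (nat_lit 16421737593) (nat_lit 0) (nat_lit 959086522) (nat_lit 20) (nat_lit 5) (nat_lit 22) (nat_lit 4) (nat_lit 20) (nat_lit 4) (nat_lit 413) (nat_lit 272) (nat_lit 215))))) (XT.nd (nat_lit 234) (nat_lit 152) (nat_lit 0) (XT.nd (nat_lit 78) (nat_lit 76) (nat_lit 0) (XT.lf (nat_lit 0) (nat_lit 19291020358) (nat_lit 152) (nat_lit 6113966456) (nat_lit 0) (nat_lit 6452326976) (nat_lit 20) (nat_lit 5) (nat_lit 22) (nat_lit 4) (nat_lit 20) (nat_lit 4) (nat_lit 414) (nat_lit 272) (nat_lit 214)) (XT.nd (nat_lit 78) (nat_lit 0) (nat_lit 0) (XT.lf (nat_lit 0) (nat_lit 4506772506) (nat_lit 76) (nat_lit 20528788361) (nat_lit 76) (nat_lit 7607971192) (nat_lit 19) (nat_lit 4) (nat_lit 20) (nat_lit 5) (nat_lit 20) (nat_lit 4) (nat_lit 415) (nat_lit 272) (nat_lit 213)) (XT.lf (nat_lit 0) (nat_lit 15488080858) (nat_lit 76) (nat_lit 15482630066) (nat_lit 76) (nat_lit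 2482081067) (nat_lit 19) (nat_lit 4) (nat_lit 20) (nat_lit 5) (nat_lit 20) (nat_lit 4) (nat_lit 416) (nat_lit 272) (nat_lit 212)))) (XT.nd (nat_lit 156) (nat_lit 0) (nat_lit 0) (XT.nd (nat_lit 78) (nat_lit 76) (nat_lit 0) (XT.lf (nat_lit 0) (nat_lit 2700374065) (nat_lit 152) (nat_lit 7596199189) (nat_lit 76) (nat_lit 23990231448) (nat_lit 18) (nat_lit 5) (nat_lit 20) (nat_lit 5) (nat_lit 19) (nat_lit 4) (nat_lit 417) (nat_lit 272) (nat_lit 211)) (XT.lf (nat_lit 0) (nat_lit 3038665226) (nat_lit 76) (nat_lit 4937580422) (nat_lit 152) (nat_lit 27169223024) (nat_lit 17) (nat_lit 5) (nat_lit 18) (nat_lit 5) (nat_lit 19) (nat_lit 4) (nat_lit 418) (nat_lit 272) (nat_lit 210))) (XT.nd (nat_lit 78) (nat_lit 0) (nat_lit 0) (XT.lf (nat_lit 0) (nat_lit 13452163230) (nat_lit 152) (nat_lit 21965169697) (nat_lit 0) (nat_lit 611309482) (nat_lit 17) (nat_lit 5) (nat_lit 19) (nat_lit 4) (nat_lit 17) (nat_lit 4) (nat_lit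 419) (nat_lit 272) (nat_lit 209)) (XT.lf (nat_lit 0) (nat_lit 19101155341) (nat_lit 152) (nat_lit 11645370749) (nat_lit 0) (nat_lit 6191524216) (nat_lit 17) (nat_lit 5) (nat_lit 19) (nat_lit 4) (nat_lit 17) (nat_lit 4) (nat_lit 420) (nat_lit 272) (nat_lit 208)))))) (XT.nd (nat_lit 546) (nat_lit 228) (nat_lit 0) (XT.nd (nat_lit 234) (nat_lit 152) (nat_lit 0) (XT.nd (nat_lit 78) (nat_lit 76) (nat_lit 0) (XT.lf (nat_lit 0) (nat_lit 24880694952) (nat_lit 152) (nat_lit 1090926260) (nat_lit 0) (nat_lit 11904289674) (nat_lit 17) (nat_lit 5) (nat_lit 19) (nat_lit 4) (nat_lit 17) (nat_lit 4) (nat_lit 421) (nat_lit 272) (nat_lit 207)) (XT.nd (nat_lit 78) (nat_lit 0) (nat_lit 0) (XT.lf (nat_lit 0) (nat_lit 9900582119) (nat_lit 76) (nat_lit 20990420477) (nat_lit 76) (nat_lit 7949185924) (nat_lit 16) (nat_lit 4) (nat_lit 17) (nat_lit 5) (nat_lit 17) (nat_lit 4) (nat_lit 422) (nat_lit 272) (nat_lit 206)) (XT.lf (nat_lit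 0) (nat_lit 21172146593) (nat_lit 76) (nat_lit 15883108517) (nat_lit 76) (nat_lit 2778932921) (nat_lit 16) (nat_lit 4) (nat_lit 17) (nat_lit 5) (nat_lit 17) (nat_lit 4) (nat_lit 423) (nat_lit 272) (nat_lit 205)))) (XT.nd (nat_lit 156) (nat_lit 0) (nat_lit 0) (XT.nd (nat_lit 78) (nat_lit 76) (nat_lit 0) (XT.lf (nat_lit 0) (nat_lit 2460084059) (nat_lit 152) (nat_lit 8171312764) (nat_lit 76) (nat_lit 30226978446) (nat_lit 15) (nat_lit 5) (nat_lit 17) (nat_lit 5) (nat_lit 16) (nat_lit 4) (nat_lit 424) (nat_lit 272) (nat_lit 204)) (XT.lf (nat_lit 0) (nat_lit 2588508081) (nat_lit 76) (nat_lit 5201205936) (nat_lit 152) (nat_lit 34123072186) (nat_lit 14) (nat_lit 5) (nat_lit 15) (nat_lit 5) (nat_lit 16) (nat_lit 4) (nat_lit 425) (nat_lit 272) (nat_lit 203))) (XT.nd (nat_lit 78) (nat_lit 0) (nat_lit 0) (XT.lf (nat_lit 0) (nat_lit 13330813573) (nat_lit 152) (nat_lit 29231008044) (nat_lit 0) (nat_lit 435462752) (nat_lit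 14) (nat_lit 5) (nat_lit 16) (nat_lit 4) (nat_lit 14) (nat_lit 4) (nat_lit 426) (nat_lit 272) (nat_lit 202)) (XT.lf (nat_lit 0) (nat_lit 19055160093) (nat_lit 152) (nat_lit 18953133450) (nat_lit 0) (nat_lit 6105515775) (nat_lit 14) (nat_lit 5) (nat_lit 16) (nat_lit 4) (nat_lit 14) (nat_lit 4) (nat_lit 427) (nat_lit 272) (nat_lit 201))))) (XT.nd (nat_lit 234) (nat_lit 152) (nat_lit 0) (XT.nd (nat_lit 78) (nat_lit 76) (nat_lit 0) (XT.lf (nat_lit 0) (nat_lit 24917758259) (nat_lit 152) (nat_lit 8431676500) (nat_lit 0) (nat_lit 11915401808) (nat_lit 14) (nat_lit 5) (nat_lit 16) (nat_lit 4) (nat_lit 14) (nat_lit 4) (nat_lit 428) (nat_lit 272) (nat_lit 200)) (XT.nd (nat_lit 78) (nat_lit 0) (nat_lit 0) (XT.lf (nat_lit 0) (nat_lit 2389177775) (nat_lit 76) (nat_lit 28557519195) (nat_lit 76) (nat_lit 15503985916) (nat_lit 13) (nat_lit 4) (nat_lit 14) (nat_lit 5) (nat_lit 14) (nat_lit 4) (nat_lit 429) (nat_lit 272)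 (nat_lit 199)) (XT.lf (nat_lit 0) (nat_lit 13645247286) (nat_lit 76) (nat_lit 23564244624) (nat_lit 76) (nat_lit 10461025105) (nat_lit 13) (nat_lit 4) (nat_lit 14) (nat_lit 5) (nat_lit 14) (nat_lit 4) (nat_lit 430) (nat_lit 272) (nat_lit 198)))) (XT.nd (nat_lit 156) (nat_lit 152) (nat_lit 0) (XT.nd (nat_lit 78) (nat_lit 0) (nat_lit 0) (XT.lf (nat_lit 0) (nat_lit 25178560539) (nat_lit 76) (nat_lit 18450391393) (nat_lit 76) (nat_lit 5298932805) (nat_lit 13) (nat_lit 4) (nat_lit 14) (nat_lit 5) (nat_lit 14) (nat_lit 4) (nat_lit 431) (nat_lit 272) (nat_lit 197)) (XT.lf (nat_lit 0) (nat_lit 36999195185) (nat_lit 76) (nat_lit 13211491087) (nat_lit 76) (nat_lit 13198451) (nat_lit 13) (nat_lit 4) (nat_lit 14) (nat_lit 5) (nat_lit 14) (nat_lit 4) (nat_lit 432) (nat_lit 272) (nat_lit 196))) (XT.nd (nat_lit 78) (nat_lit 76) (nat_lit 0) (XT.lf (nat_lit 0) (nat_lit 5295407566) (nat_lit 152) (nat_lit 2494085224) (nat_lit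 76) (nat_lit 43768599134) (nat_lit 12) (nat_lit 5) (nat_lit 14) (nat_lit 5) (nat_lit 13) (nat_lit 4) (nat_lit 433) (nat_lit 272) (nat_lit 195)) (XT.lf (nat_lit 0) (nat_lit 8671635702) (nat_lit 76) (nat_lit 2145873592) (nat_lit 152) (nat_lit 42113178825) (nat_lit 11) (nat_lit 5) (nat_lit 12) (nat_lit 5) (nat_lit 13) (nat_lit 4) (nat_lit 434) (nat_lit 272) (nat_lit 194))))))))
noncomputable def xc43 : XT := (XT.nd (nat_lit 41496) (nat_lit 0) (nat_lit 2052) (XT.nd (nat_lit 1014) (nat_lit 0) (nat_lit 0) (XT.nd (nat_lit 468) (nat_lit 152) (nat_lit 0) (XT.nd (nat_lit 234) (nat_lit 76) (nat_lit 0) (XT.nd (nat_lit 78) (nat_lit 0) (nat_lit 0) (XT.lf (nat_lit 0) (nat_lit 16537155446) (nat_lit 152) (nat_lit 34211689756) (nat_lit 0) (nat_lit 3594662286) (nat_lit 11) (nat_lit 5) (nat_lit 13) (nat_lit 4) (nat_lit 11) (nat_lit 4) (nat_lit 435) (nat_lit 272) (nat_lit 193)) (XT.nd (nat_lit 78) (nat_lit 0) (nat_lit 0) (XT.lf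 (nat_lit 0) (nat_lit 22421672858) (nat_lit 152) (nat_lit 23938461564) (nat_lit 0) (nat_lit 9438780239) (nat_lit 11) (nat_lit 5) (nat_lit 13) (nat_lit 4) (nat_lit 11) (nat_lit 4) (nat_lit 436) (nat_lit 272) (nat_lit 192)) (XT.lf (nat_lit 0) (nat_lit 28455575895) (nat_lit 152) (nat_lit 13409763785) (nat_lit 0) (nat_lit 15433460498) (nat_lit 11) (nat_lit 5) (nat_lit 13) (nat_lit 4) (nat_lit 11) (nat_lit 4) (nat_lit 437) (nat_lit 272) (nat_lit 191)))) (XT.nd (nat_lit 78) (nat_lit 76) (nat_lit 0) (XT.lf (nat_lit 0) (nat_lit 34644136897) (nat_lit 152) (nat_lit 2616396584) (nat_lit 0) (nat_lit 21583941134) (nat_lit 11) (nat_lit 5) (nat_lit 13) (nat_lit 4) (nat_lit 11) (nat_lit 4) (nat_lit 438) (nat_lit 272) (nat_lit 190)) (XT.nd (nat_lit 78) (nat_lit 0) (nat_lit 0) (XT.lf (nat_lit 0) (nat_lit 8619264020) (nat_lit 76) (nat_lit 32456352964) (nat_lit 76) (nat_lit 19359185971) (nat_lit 10) (nat_lit 4) (nat_lit 11)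 (nat_lit 5) (nat_lit 11) (nat_lit 4) (nat_lit 439) (nat_lit 272) (nat_lit 189)) (XT.lf (nat_lit 0) (nat_lit 20196414771) (nat_lit 76) (nat_lit 27504728108) (nat_lit 76) (nat_lit 14371666717) (nat_lit 10) (nat_lit 4) (nat_lit 11) (nat_lit 5) (nat_lit 11) (nat_lit 4) (nat_lit 440) (nat_lit 272) (nat_lit 188))))) (XT.nd (nat_lit 234) (nat_lit 76) (nat_lit 0) (XT.nd (nat_lit 78) (nat_lit 76) (nat_lit 0) (XT.lf (nat_lit 0) (nat_lit 32073100201) (nat_lit 76) (nat_lit 22427752725) (nat_lit 76) (nat_lit 9259842405) (nat_lit 10) (nat_lit 4) (nat_lit 11) (nat_lit 5) (nat_lit 11) (nat_lit 4) (nat_lit 441) (nat_lit 272) (nat_lit 187)) (XT.nd (nat_lit 78) (nat_lit 76) (nat_lit 0) (XT.lf (nat_lit 0) (nat_lit 44259697998) (nat_lit 76) (nat_lit 17220990626) (nat_lit 76) (nat_lit 4019246393) (nat_lit 10) (nat_lit 4) (nat_lit 11) (nat_lit 5) (nat_lit 11) (nat_lit 4) (nat_lit 442) (nat_lit 272) (nat_lit 186)) (XT.lf (nat_lit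 0) (nat_lit 1328265394) (nat_lit 152) (nat_lit 10538213939) (nat_lit 76) (nat_lit 55425178373) (nat_lit 9) (nat_lit 5) (nat_lit 11) (nat_lit 5) (nat_lit 10) (nat_lit 4) (nat_lit 443) (nat_lit 272) (nat_lit 185)))) (XT.nd (nat_lit 156) (nat_lit 0) (nat_lit 0) (XT.nd (nat_lit 78) (nat_lit 0) (nat_lit 0) (XT.lf (nat_lit 0) (nat_lit 408875163) (nat_lit 76) (nat_lit 6327755162) (nat_lit 152) (nat_lit 62399872884) (nat_lit 8) (nat_lit 5) (nat_lit 9) (nat_lit 5) (nat_lit 10) (nat_lit 4) (nat_lit 444) (nat_lit 272) (nat_lit 184)) (XT.lf (nat_lit 0) (nat_lit 11856654341) (nat_lit 76) (nat_lit 534528694) (nat_lit 152) (nat_lit 58642994187) (nat_lit 8) (nat_lit 5) (nat_lit 9) (nat_lit 5) (nat_lit 10) (nat_lit 4) (nat_lit 445) (nat_lit 272) (nat_lit 183))) (XT.nd (nat_lit 78) (nat_lit 0) (nat_lit 0) (XT.lf (nat_lit 0) (nat_lit 18245570553) (nat_lit 152) (nat_lit 49436063976) (nat_lit 0) (nat_lit 5306242191) (nat_lit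 8) (nat_lit 5) (nat_lit 10) (nat_lit 4) (nat_lit 8) (nat_lit 4) (nat_lit 446) (nat_lit 272) (nat_lit 182)) (XT.lf (nat_lit 0) (nat_lit 24259501251) (nat_lit 152) (nat_lit 39449332264) (nat_lit 0) (nat_lit 11291837520) (nat_lit 8) (nat_lit 5) (nat_lit 10) (nat_lit 4) (nat_lit 8) (nat_lit 4) (nat_lit 447) (nat_lit 272) (nat_lit 181)))))) (XT.nd (nat_lit 39936) (nat_lit 0) (nat_lit 5168) (XT.nd (nat_lit 39624) (nat_lit 0) (nat_lit 6612) (XT.nd (nat_lit 78) (nat_lit 0) (nat_lit 0) (XT.lf (nat_lit 0) (nat_lit 30433091803) (nat_lit 152) (nat_lit 29203463257) (nat_lit 0) (nat_lit 17437918005) (nat_lit 8) (nat_lit 5) (nat_lit 10) (nat_lit 4) (nat_lit 8) (nat_lit 4) (nat_lit 448) (nat_lit 272) (nat_lit 180)) (XT.nd (nat_lit 39468) (nat_lit 0) (nat_lit 7524) (XT.lf (nat_lit 0) (nat_lit 36771736609) (nat_lit 152) (nat_lit 18689504254) (nat_lit 0) (nat_lit 23749854007) (nat_lit 8) (nat_lit 5) (nat_lit 10) (nat_lit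 4) (nat_lit 8) (nat_lit 4) (nat_lit 449) (nat_lit 272) (nat_lit 179)) (XT.lf (nat_lit 0) (nat_lit 3856194572) (nat_lit 304) (nat_lit 529738295) (nat_lit 304) (nat_lit 529738295) (nat_lit 107) (nat_lit 4) (nat_lit 111) (nat_lit 5) (nat_lit 111) (nat_lit 4) (nat_lit 354) (nat_lit 273) (nat_lit 273)))) (XT.nd (nat_lit 156) (nat_lit 304) (nat_lit 0) (XT.nd (nat_lit 78) (nat_lit 304) (nat_lit 0) (XT.lf (nat_lit 0) (nat_lit 3317498319) (nat_lit 304) (nat_lit 4110786049) (nat_lit 0) (nat_lit 2541075953) (nat_lit 103) (nat_lit 5) (nat_lit 107) (nat_lit 4) (nat_lit 103) (nat_lit 4) (nat_lit 355) (nat_lit 273) (nat_lit 272)) (XT.lf (nat_lit 0) (nat_lit 3904132441) (nat_lit 304) (nat_lit 3869135079) (nat_lit 304) (nat_lit 2338904590) (nat_lit 99) (nat_lit 4) (nat_lit 103) (nat_lit 5) (nat_lit 103) (nat_lit 4) (nat_lit 356) (nat_lit 273) (nat_lit 271))) (XT.nd (nat_lit 78) (nat_lit 0) (nat_lit 0) (XT.lf (nat_lit 0)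 (nat_lit 1841733082) (nat_lit 228) (nat_lit 179851212) (nat_lit 304) (nat_lit 8238331253) (nat_lit 95) (nat_lit 5) (nat_lit 98) (nat_lit 5) (nat_lit 99) (nat_lit 4) (nat_lit 357) (nat_lit 273) (nat_lit 270)) (XT.lf (nat_lit 0) (nat_lit 6464393728) (nat_lit 304) (nat_lit 368720649) (nat_lit 0) (nat_lit 3578355391) (nat_lit 95) (nat_lit 5) (nat_lit 99) (nat_lit 4) (nat_lit 95) (nat_lit 4) (nat_lit 358) (nat_lit 273) (nat_lit 269))))) (XT.nd (nat_lit 234) (nat_lit 684) (nat_lit 0) (XT.nd (nat_lit 78) (nat_lit 456) (nat_lit 0) (XT.lf (nat_lit 0) (nat_lit 444690476) (nat_lit 304) (nat_lit 2653065423) (nat_lit 76) (nat_lit 7470275307) (nat_lit 91) (nat_lit 5) (nat_lit 95) (nat_lit 5) (nat_lit 92) (nat_lit 4) (nat_lit 359) (nat_lit 273) (nat_lit 268)) (XT.nd (nat_lit 78) (nat_lit 228) (nat_lit 0) (XT.lf (nat_lit 0) (nat_lit 4858125641) (nat_lit 304) (nat_lit 5096337520) (nat_lit 0) (nat_lit 774602729) (nat_lit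 88) (nat_lit 5) (nat_lit 92) (nat_lit 4) (nat_lit 88) (nat_lit 4) (nat_lit 360) (nat_lit 273) (nat_lit 267)) (XT.lf (nat_lit 0) (nat_lit 3202183937) (nat_lit 228) (nat_lit 6194711552) (nat_lit 228) (nat_lit 1498273654) (nat_lit 85) (nat_lit 4) (nat_lit 88) (nat_lit 5) (nat_lit 88) (nat_lit 4) (nat_lit 361) (nat_lit 273) (nat_lit 266)))) (XT.nd (nat_lit 156) (nat_lit 456) (nat_lit 0) (XT.nd (nat_lit 78) (nat_lit 0) (nat_lit 0) (XT.lf (nat_lit 0) (nat_lit 614915145) (nat_lit 152) (nat_lit 2294649453) (nat_lit 228) (nat_lit 8156968928) (nat_lit 82) (nat_lit 5) (nat_lit 84) (nat_lit 5) (nat_lit 85) (nat_lit 4) (nat_lit 362) (nat_lit 273) (nat_lit 265)) (XT.lf (nat_lit 0) (nat_lit 7419978585) (nat_lit 228) (nat_lit 2100929963) (nat_lit 0) (nat_lit 1721694945) (nat_lit 82) (nat_lit 5) (nat_lit 85) (nat_lit 4) (nat_lit 82) (nat_lit 4) (nat_lit 363) (nat_lit 273) (nat_lit 264))) (XT.nd (nat_lit 78) (nat_lit 152)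 (nat_lit 0) (XT.lf (nat_lit 0) (nat_lit 622055314) (nat_lit 304) (nat_lit 4980078378) (nat_lit 76) (nat_lit 5821873915) (nat_lit 78) (nat_lit 5) (nat_lit 82) (nat_lit 5) (nat_lit 79) (nat_lit 4) (nat_lit 364) (nat_lit 273) (nat_lit 263)) (XT.lf (nat_lit 0) (nat_lit 3555755362) (nat_lit 152) (nat_lit 1531590390) (nat_lit 228) (nat_lit 6523470970) (nat_lit 76) (nat_lit 5) (nat_lit 78) (nat_lit 5) (nat_lit 79) (nat_lit 4) (nat_lit 365) (nat_lit 273) (nat_lit 262))))))) (XT.nd (nat_lit 1014) (nat_lit 1292) (nat_lit 0) (XT.nd (nat_lit 468) (nat_lit 912) (nat_lit 0) (XT.nd (nat_lit 234) (nat_lit 456) (nat_lit 0) (XT.nd (nat_lit 78) (nat_lit 228) (nat_lit 0) (XT.lf (nat_lit 0) (nat_lit 477074155) (nat_lit 228) (nat_lit 9199578808) (nat_lit 228) (nat_lit 2126896121) (nat_lit 73) (nat_lit 4) (nat_lit 76) (nat_lit 5) (nat_lit 76) (nat_lit 4) (nat_lit 366) (nat_lit 273) (nat_lit 261)) (XT.nd (nat_lit 78) (nat_lit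 152) (nat_lit 0) (XT.lf (nat_lit 0) (nat_lit 2361399702) (nat_lit 304) (nat_lit 2762882041) (nat_lit 76) (nat_lit 6876908023) (nat_lit 72) (nat_lit 5) (nat_lit 76) (nat_lit 5) (nat_lit 73) (nat_lit 4) (nat_lit 367) (nat_lit 273) (nat_lit 260)) (XT.lf (nat_lit 0) (nat_lit 6003715930) (nat_lit 152) (nat_lit 907608044) (nat_lit 228) (nat_lit 5293731058) (nat_lit 70) (nat_lit 5) (nat_lit 72) (nat_lit 5) (nat_lit 73) (nat_lit 4) (nat_lit 368) (nat_lit 273) (nat_lit 259)))) (XT.nd (nat_lit 78) (nat_lit 228) (nat_lit 0) (XT.lf (nat_lit 0) (nat_lit 2541482600) (nat_lit 228) (nat_lit 9054453014) (nat_lit 228) (nat_lit 819173355) (nat_lit 67) (nat_lit 4) (nat_lit 70) (nat_lit 5) (nat_lit 70) (nat_lit 4) (nat_lit 369) (nat_lit 273) (nat_lit 258)) (XT.nd (nat_lit 78) (nat_lit 152) (nat_lit 0) (XT.lf (nat_lit 0) (nat_lit 3700699699) (nat_lit 304) (nat_lit 1152745509) (nat_lit 76) (nat_lit 7777392990) (nat_lit 66) (nat_lit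 5) (nat_lit 70) (nat_lit 5) (nat_lit 67) (nat_lit 4) (nat_lit 370) (nat_lit 273) (nat_lit 257)) (XT.lf (nat_lit 0) (nat_lit 7827960564) (nat_lit 152) (nat_lit 502330934) (nat_lit 228) (nat_lit 4522803712) (nat_lit 64) (nat_lit 5) (nat_lit 66) (nat_lit 5) (nat_lit 67) (nat_lit 4) (nat_lit 371) (nat_lit 273) (nat_lit 256))))) (XT.nd (nat_lit 234) (nat_lit 532) (nat_lit 0) (XT.nd (nat_lit 78) (nat_lit 152) (nat_lit 0) (XT.lf (nat_lit 0) (nat_lit 19866477) (nat_lit 228) (nat_lit 9171069292) (nat_lit 76) (nat_lit 3890991944) (nat_lit 61) (nat_lit 5) (nat_lit 64) (nat_lit 5) (nat_lit 62) (nat_lit 4) (nat_lit 372) (nat_lit 273) (nat_lit 255)) (XT.nd (nat_lit 78) (nat_lit 152) (nat_lit 0) (XT.lf (nat_lit 0) (nat_lit 4580168997) (nat_lit 228) (nat_lit 295603533) (nat_lit 76) (nat_lit 8441356985) (nat_lit 61) (nat_lit 5) (nat_lit 64) (nat_lit 5) (nat_lit 62) (nat_lit 4) (nat_lit 373) (nat_lit 273) (nat_lit 254))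 (XT.lf (nat_lit 0) (nat_lit 8876438399) (nat_lit 152) (nat_lit 404649602) (nat_lit 228) (nat_lit 4278200111) (nat_lit 59) (nat_lit 5) (nat_lit 61) (nat_lit 5) (nat_lit 62) (nat_lit 4) (nat_lit 374) (nat_lit 273) (nat_lit 253)))) (XT.nd (nat_lit 156) (nat_lit 304) (nat_lit 0) (XT.nd (nat_lit 78) (nat_lit 0) (nat_lit 0) (XT.lf (nat_lit 0) (nat_lit 313048775) (nat_lit 228) (nat_lit 9387999530) (nat_lit 76) (nat_lit 4107440846) (nat_lit 56) (nat_lit 5) (nat_lit 59) (nat_lit 5) (nat_lit 57) (nat_lit 4) (nat_lit 375) (nat_lit 273) (nat_lit 252)) (XT.lf (nat_lit 0) (nat_lit 4926909917) (nat_lit 228) (nat_lit 361217579) (nat_lit 76) (nat_lit 8776655797) (nat_lit 56) (nat_lit 5) (nat_lit 59) (nat_lit 5) (nat_lit 57) (nat_lit 4) (nat_lit 376) (nat_lit 273) (nat_lit 251))) (XT.nd (nat_lit 78) (nat_lit 152) (nat_lit 0) (XT.lf (nat_lit 0) (nat_lit 8972066616) (nat_lit 152) (nat_lit 714821726) (nat_lit 228) (nat_lit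 4641660170) (nat_lit 54) (nat_lit 5) (nat_lit 56) (nat_lit 5) (nat_lit 57) (nat_lit 4) (nat_lit 377) (nat_lit 273) (nat_lit 250)) (XT.lf (nat_lit 0) (nat_lit 3890334461) (nat_lit 152) (nat_lit 10700657176) (nat_lit 152) (nat_lit 9208192) (nat_lit 52) (nat_lit 4) (nat_lit 54) (nat_lit 5) (nat_lit 54) (nat_lit 4) (nat_lit 378) (nat_lit 273) (nat_lit 249)))))) (XT.nd (nat_lit 546) (nat_lit 532) (nat_lit 0) (XT.nd (nat_lit 234) (nat_lit 380) (nat_lit 0) (XT.nd (nat_lit 78) (nat_lit 304) (nat_lit 0) (XT.lf (nat_lit 0) (nat_lit 4652998263) (nat_lit 228) (nat_lit 1547376068) (nat_lit 76) (nat_lit 8678753935) (nat_lit 51) (nat_lit 5) (nat_lit 54) (nat_lit 5) (nat_lit 52) (nat_lit 4) (nat_lit 379) (nat_lit 273) (nat_lit 248)) (XT.nd (nat_lit 78) (nat_lit 152) (nat_lit 0) (XT.lf (nat_lit 0) (nat_lit 7908327684) (nat_lit 152) (nat_lit 1546855487) (nat_lit 228) (nat_lit 5711241544) (nat_lit 49) (nat_lit 5) (nat_lit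 51) (nat_lit 5) (nat_lit 52) (nat_lit 4) (nat_lit 380) (nat_lit 273) (nat_lit 247)) (XT.lf (nat_lit 0) (nat_lit 2090750973) (nat_lit 152) (nat_lit 12302380919) (nat_lit 152) (nat_lit 1069468685) (nat_lit 47) (nat_lit 4) (nat_lit 49) (nat_lit 5) (nat_lit 49) (nat_lit 4) (nat_lit 381) (nat_lit 273) (nat_lit 246)))) (XT.nd (nat_lit 156) (nat_lit 228) (nat_lit 0) (XT.nd (nat_lit 78) (nat_lit 76) (nat_lit 0) (XT.lf (nat_lit 0) (nat_lit 3653231021) (nat_lit 228) (nat_lit 4084744152) (nat_lit 76) (nat_lit 8028204035) (nat_lit 46) (nat_lit 5) (nat_lit 49) (nat_lit 5) (nat_lit 47) (nat_lit 4) (nat_lit 382) (nat_lit 273) (nat_lit 245)) (XT.lf (nat_lit 0) (nat_lit 5444183750) (nat_lit 76) (nat_lit 3031222713) (nat_lit 152) (nat_lit 7603772867) (nat_lit 45) (nat_lit 5) (nat_lit 46) (nat_lit 5) (nat_lit 47) (nat_lit 4) (nat_lit 383) (nat_lit 273) (nat_lit 244))) (XT.nd (nat_lit 78) (nat_lit 228) (nat_lit 0) (XT.lf (nat_lit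 0) (nat_lit 13428624275) (nat_lit 152) (nat_lit 1208239034) (nat_lit 0) (nat_lit 1765125023) (nat_lit 45) (nat_lit 5) (nat_lit 47) (nat_lit 4) (nat_lit 45) (nat_lit 4) (nat_lit 384) (nat_lit 273) (nat_lit 243)) (XT.lf (nat_lit 0) (nat_lit 1802485999) (nat_lit 228) (nat_lit 8242470259) (nat_lit 76) (nat_lit 6687769798) (nat_lit 42) (nat_lit 5) (nat_lit 45) (nat_lit 5) (nat_lit 43) (nat_lit 4) (nat_lit 385) (nat_lit 273) (nat_lit 242))))) (XT.nd (nat_lit 234) (nat_lit 304) (nat_lit 0) (XT.nd (nat_lit 78) (nat_lit 152) (nat_lit 0) (XT.lf (nat_lit 0) (nat_lit 1298195592) (nat_lit 76) (nat_lit 5317960795) (nat_lit 152) (nat_lit 10457726479) (nat_lit 41) (nat_lit 5) (nat_lit 42) (nat_lit 5) (nat_lit 43) (nat_lit 4) (nat_lit 386) (nat_lit 273) (nat_lit 241)) (XT.nd (nat_lit 78) (nat_lit 152) (nat_lit 0) (XT.lf (nat_lit 0) (nat_lit 11166278848) (nat_lit 76) (nat_lit 421521707) (nat_lit 152) (nat_lit 5837075969)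 (nat_lit 41) (nat_lit 5) (nat_lit 42) (nat_lit 5) (nat_lit 43) (nat_lit 4) (nat_lit 387) (nat_lit 273) (nat_lit 240)) (XT.lf (nat_lit 0) (nat_lit 3441187279) (nat_lit 152) (nat_lit 13276731124) (nat_lit 152) (nat_lit 1068210648) (nat_lit 39) (nat_lit 4) (nat_lit 41) (nat_lit 5) (nat_lit 41) (nat_lit 4) (nat_lit 388) (nat_lit 273) (nat_lit 239)))) (XT.nd (nat_lit 156) (nat_lit 152) (nat_lit 0) (XT.nd (nat_lit 78) (nat_lit 76) (nat_lit 0) (XT.lf (nat_lit 0) (nat_lit 3768647819) (nat_lit 228) (nat_lit 4763481464) (nat_lit 76) (nat_lit 9624991750) (nat_lit 38) (nat_lit 5) (nat_lit 41) (nat_lit 5) (nat_lit 39) (nat_lit 4) (nat_lit 389) (nat_lit 273) (nat_lit 238)) (XT.lf (nat_lit 0) (nat_lit 5071804034) (nat_lit 76) (nat_lit 3640007076) (nat_lit 152) (nat_lit 9827642347) (nat_lit 37) (nat_lit 5) (nat_lit 38) (nat_lit 5) (nat_lit 39) (nat_lit 4) (nat_lit 390) (nat_lit 273) (nat_lit 237))) (XT.nd (nat_lit 78)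 (nat_lit 152) (nat_lit 0) (XT.lf (nat_lit 0) (nat_lit 13799440007) (nat_lit 152) (nat_lit 3768190374) (nat_lit 0) (nat_lit 1365748161) (nat_lit 37) (nat_lit 5) (nat_lit 39) (nat_lit 4) (nat_lit 37) (nat_lit 4) (nat_lit 391) (nat_lit 273) (nat_lit 236)) (XT.lf (nat_lit 0) (nat_lit 6188279822) (nat_lit 152) (nat_lit 12883006989) (nat_lit 152) (nat_lit 266894481) (nat_lit 35) (nat_lit 4) (nat_lit 37) (nat_lit 5) (nat_lit 37) (nat_lit 4) (nat_lit 392) (nat_lit 273) (nat_lit 235))))))))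
noncomputable def xc44 : XT := (XT.nd (nat_lit 2106) (nat_lit 684) (nat_lit 0) (XT.nd (nat_lit 1014) (nat_lit 608) (nat_lit 0) (XT.nd (nat_lit 468) (nat_lit 304) (nat_lit 0) (XT.nd (nat_lit 234) (nat_lit 304) (nat_lit 0) (XT.nd (nat_lit 78) (nat_lit 76) (nat_lit 0) (XT.lf (nat_lit 0) (nat_lit 4628137615) (nat_lit 228) (nat_lit 3398100587) (nat_lit 76) (nat_lit 11728290636) (nat_lit 34) (nat_lit 5) (nat_lit 37) (nat_lit 5) (nat_lit 35) (nat_lit 4) (nat_lit 393) (nat_lit 273) (nat_lit 234)) (XT.nd (nat_lit 78) (nat_lit 0) (nat_lit 0) (XT.lf (nat_lit 0) (nat_lit 6658194846) (nat_lit 76) (nat_lit 3008486809) (nat_lit 152) (nat_lit 10516552060) (nat_lit 33) (nat_lit 5) (nat_lit 34) (nat_lit 5) (nat_lit 35) (nat_lit 4) (nat_lit 394) (nat_lit 273) (nat_lit 233)) (XT.lf (nat_lit 0) (nat_lit 14850018250) (nat_lit 152) (nat_lit 3674581920) (nat_lit 0) (nat_lit 2100397218) (nat_lit 33) (nat_lit 5) (nat_lit 35) (nat_lit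 4) (nat_lit 33) (nat_lit 4) (nat_lit 395) (nat_lit 273) (nat_lit 232)))) (XT.nd (nat_lit 78) (nat_lit 152) (nat_lit 0) (XT.lf (nat_lit 0) (nat_lit 6455387618) (nat_lit 152) (nat_lit 13765327888) (nat_lit 152) (nat_lit 858349190) (nat_lit 31) (nat_lit 4) (nat_lit 33) (nat_lit 5) (nat_lit 33) (nat_lit 4) (nat_lit 396) (nat_lit 273) (nat_lit 231)) (XT.nd (nat_lit 78) (nat_lit 76) (nat_lit 0) (XT.lf (nat_lit 0) (nat_lit 4101289465) (nat_lit 228) (nat_lit 4734135515) (nat_lit 76) (nat_lit 12710794961) (nat_lit 30) (nat_lit 5) (nat_lit 33) (nat_lit 5) (nat_lit 31) (nat_lit 4) (nat_lit 397) (nat_lit 273) (nat_lit 230)) (XT.lf (nat_lit 0) (nat_lit 5440752437) (nat_lit 76) (nat_lit 3745863453) (nat_lit 152) (nat_lit 12840700466) (nat_lit 29) (nat_lit 5) (nat_lit 30) (nat_lit 5) (nat_lit 31) (nat_lit 4) (nat_lit 398) (nat_lit 273) (nat_lit 229))))) (XT.nd (nat_lit 234) (nat_lit 152) (nat_lit 0) (XT.nd (nat_lit 78)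 (nat_lit 152) (nat_lit 0) (XT.lf (nat_lit 0) (nat_lit 14429186954) (nat_lit 152) (nat_lit 6627523795) (nat_lit 0) (nat_lit 1466000180) (nat_lit 29) (nat_lit 5) (nat_lit 31) (nat_lit 4) (nat_lit 29) (nat_lit 4) (nat_lit 399) (nat_lit 273) (nat_lit 228)) (XT.nd (nat_lit 78) (nat_lit 76) (nat_lit 0) (XT.lf (nat_lit 0) (nat_lit 3556594984) (nat_lit 76) (nat_lit 16287426640) (nat_lit 76) (nat_lit 3188501763) (nat_lit 28) (nat_lit 4) (nat_lit 29) (nat_lit 5) (nat_lit 29) (nat_lit 4) (nat_lit 400) (nat_lit 273) (nat_lit 227)) (XT.lf (nat_lit 0) (nat_lit 1838676389) (nat_lit 152) (nat_lit 9498196374) (nat_lit 76) (nat_lit 12219884166) (nat_lit 27) (nat_lit 5) (nat_lit 29) (nat_lit 5) (nat_lit 28) (nat_lit 4) (nat_lit 401) (nat_lit 273) (nat_lit 226)))) (XT.nd (nat_lit 156) (nat_lit 76) (nat_lit 0) (XT.nd (nat_lit 78) (nat_lit 0) (nat_lit 0) (XT.lf (nat_lit 0) (nat_lit 657119505) (nat_lit 76) (nat_lit 6247203219)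 (nat_lit 152) (nat_lit 17192900679) (nat_lit 26) (nat_lit 5) (nat_lit 27) (nat_lit 5) (nat_lit 28) (nat_lit 4) (nat_lit 402) (nat_lit 273) (nat_lit 225)) (XT.lf (nat_lit 0) (nat_lit 11209806839) (nat_lit 76) (nat_lit 954075949) (nat_lit 152) (nat_lit 12488767767) (nat_lit 26) (nat_lit 5) (nat_lit 27) (nat_lit 5) (nat_lit 28) (nat_lit 4) (nat_lit 403) (nat_lit 273) (nat_lit 224))) (XT.nd (nat_lit 78) (nat_lit 76) (nat_lit 0) (XT.lf (nat_lit 0) (nat_lit 17571620597) (nat_lit 152) (nat_lit 3289051465) (nat_lit 0) (nat_lit 4364361598) (nat_lit 26) (nat_lit 5) (nat_lit 28) (nat_lit 4) (nat_lit 26) (nat_lit 4) (nat_lit 404) (nat_lit 273) (nat_lit 223)) (XT.lf (nat_lit 0) (nat_lit 7203236634) (nat_lit 76) (nat_lit 15965736202) (nat_lit 76) (nat_lit 2644798677) (nat_lit 25) (nat_lit 4) (nat_lit 26) (nat_lit 5) (nat_lit 26) (nat_lit 4) (nat_lit 405) (nat_lit 273) (nat_lit 222)))))) (XT.nd (nat_lit 546) (nat_lit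 304) (nat_lit 0) (XT.nd (nat_lit 234) (nat_lit 152) (nat_lit 0) (XT.nd (nat_lit 78) (nat_lit 76) (nat_lit 0) (XT.lf (nat_lit 0) (nat_lit 2447313396) (nat_lit 152) (nat_lit 8463258829) (nat_lit 76) (nat_lit 15509409789) (nat_lit 24) (nat_lit 5) (nat_lit 26) (nat_lit 5) (nat_lit 25) (nat_lit 4) (nat_lit 406) (nat_lit 273) (nat_lit 221)) (XT.nd (nat_lit 78) (nat_lit 0) (nat_lit 0) (XT.lf (nat_lit 0) (nat_lit 1904952183) (nat_lit 76) (nat_lit 5702639009) (nat_lit 152) (nat_lit 19436949574) (nat_lit 23) (nat_lit 5) (nat_lit 24) (nat_lit 5) (nat_lit 25) (nat_lit 4) (nat_lit 407) (nat_lit 273) (nat_lit 220)) (XT.lf (nat_lit 0) (nat_lit 12664154537) (nat_lit 76) (nat_lit 294783605) (nat_lit 152) (nat_lit 14727814511) (nat_lit 23) (nat_lit 5) (nat_lit 24) (nat_lit 5) (nat_lit 25) (nat_lit 4) (nat_lit 408) (nat_lit 273) (nat_lit 219)))) (XT.nd (nat_lit 156) (nat_lit 76) (nat_lit 0) (XT.nd (nat_lit 78) (nat_lit 76)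 (nat_lit 0) (XT.lf (nat_lit 0) (nat_lit 18473352710) (nat_lit 152) (nat_lit 4744649651) (nat_lit 0) (nat_lit 5130156797) (nat_lit 23) (nat_lit 5) (nat_lit 25) (nat_lit 4) (nat_lit 23) (nat_lit 4) (nat_lit 409) (nat_lit 273) (nat_lit 218)) (XT.lf (nat_lit 0) (nat_lit 5863978749) (nat_lit 76) (nat_lit 18301728858) (nat_lit 76) (nat_lit 4863328970) (nat_lit 22) (nat_lit 4) (nat_lit 23) (nat_lit 5) (nat_lit 23) (nat_lit 4) (nat_lit 410) (nat_lit 273) (nat_lit 217))) (XT.nd (nat_lit 78) (nat_lit 0) (nat_lit 0) (XT.lf (nat_lit 0) (nat_lit 294327215) (nat_lit 152) (nat_lit 12933346685) (nat_lit 76) (nat_lit 16502534299) (nat_lit 21) (nat_lit 5) (nat_lit 23) (nat_lit 5) (nat_lit 22) (nat_lit 4) (nat_lit 411) (nat_lit 273) (nat_lit 216)) (XT.lf (nat_lit 0) (nat_lit 5463598990) (nat_lit 152) (nat_lit 2529463859) (nat_lit 76) (nat_lit 22459272168) (nat_lit 21) (nat_lit 5) (nat_lit 23) (nat_lit 5) (nat_lit 22) (nat_lit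 4) (nat_lit 412) (nat_lit 273) (nat_lit 215))))) (XT.nd (nat_lit 234) (nat_lit 228) (nat_lit 0) (XT.nd (nat_lit 78) (nat_lit 0) (nat_lit 0) (XT.lf (nat_lit 0) (nat_lit 8263684971) (nat_lit 76) (nat_lit 2559654883) (nat_lit 152) (nat_lit 20371727574) (nat_lit 20) (nat_lit 5) (nat_lit 21) (nat_lit 5) (nat_lit 22) (nat_lit 4) (nat_lit 413) (nat_lit 273) (nat_lit 214)) (XT.nd (nat_lit 78) (nat_lit 0) (nat_lit 0) (XT.lf (nat_lit 0) (nat_lit 16354915480) (nat_lit 152) (nat_lit 12640488456) (nat_lit 0) (nat_lit 2964350012) (nat_lit 20) (nat_lit 5) (nat_lit 22) (nat_lit 4) (nat_lit 20) (nat_lit 4) (nat_lit 414) (nat_lit 273) (nat_lit 213)) (XT.lf (nat_lit 0) (nat_lit 22035117282) (nat_lit 152) (nat_lit 2147966746) (nat_lit 0) (nat_lit 8564819983) (nat_lit 20) (nat_lit 5) (nat_lit 22) (nat_lit 4) (nat_lit 20) (nat_lit 4) (nat_lit 415) (nat_lit 273) (nat_lit 212)))) (XT.nd (nat_lit 156) (nat_lit 152) (nat_lit 0)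 (XT.nd (nat_lit 78) (nat_lit 0) (nat_lit 0) (XT.lf (nat_lit 0) (nat_lit 8750713809) (nat_lit 76) (nat_lit 19177706979) (nat_lit 76) (nat_lit 5630000135) (nat_lit 19) (nat_lit 4) (nat_lit 20) (nat_lit 5) (nat_lit 20) (nat_lit 4) (nat_lit 416) (nat_lit 273) (nat_lit 211)) (XT.lf (nat_lit 0) (nat_lit 19941789428) (nat_lit 76) (nat_lit 14037453596) (nat_lit 76) (nat_lit 414591855) (nat_lit 19) (nat_lit 4) (nat_lit 20) (nat_lit 5) (nat_lit 20) (nat_lit 4) (nat_lit 417) (nat_lit 273) (nat_lit 210))) (XT.nd (nat_lit 78) (nat_lit 76) (nat_lit 0) (XT.lf (nat_lit 0) (nat_lit 4820370192) (nat_lit 152) (nat_lit 3910476169) (nat_lit 76) (nat_lit 26523243489) (nat_lit 18) (nat_lit 5) (nat_lit 20) (nat_lit 5) (nat_lit 19) (nat_lit 4) (nat_lit 418) (nat_lit 273) (nat_lit 209)) (XT.lf (nat_lit 0) (nat_lit 7005065463) (nat_lit 76) (nat_lit 3227315730) (nat_lit 152) (nat_lit 25906801000) (nat_lit 17) (nat_lit 5) (nat_lit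 18) (nat_lit 5) (nat_lit 19) (nat_lit 4) (nat_lit 419) (nat_lit 273) (nat_lit 208))))))) (XT.nd (nat_lit 1014) (nat_lit 380) (nat_lit 0) (XT.nd (nat_lit 468) (nat_lit 152) (nat_lit 0) (XT.nd (nat_lit 234) (nat_lit 76) (nat_lit 0) (XT.nd (nat_lit 78) (nat_lit 76) (nat_lit 0) (XT.lf (nat_lit 0) (nat_lit 15831176842) (nat_lit 152) (nat_lit 18820215257) (nat_lit 0) (nat_lit 2398705253) (nat_lit 17) (nat_lit 5) (nat_lit 19) (nat_lit 4) (nat_lit 17) (nat_lit 4) (nat_lit 420) (nat_lit 273) (nat_lit 207)) (XT.nd (nat_lit 78) (nat_lit 76) (nat_lit 0) (XT.lf (nat_lit 0) (nat_lit 21592101376) (nat_lit 152) (nat_lit 8301615823) (nat_lit 0) (nat_lit 8094800512) (nat_lit 17) (nat_lit 5) (nat_lit 19) (nat_lit 4) (nat_lit 17) (nat_lit 4) (nat_lit 421) (nat_lit 273) (nat_lit 206)) (XT.lf (nat_lit 0) (nat_lit 2510892062) (nat_lit 76) (nat_lit 25002409846) (nat_lit 76) (nat_lit 11442167939) (nat_lit 16) (nat_lit 4) (nat_lit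 17) (nat_lit 5) (nat_lit 17) (nat_lit 4) (nat_lit 422) (nat_lit 273) (nat_lit 205)))) (XT.nd (nat_lit 78) (nat_lit 76) (nat_lit 0) (XT.lf (nat_lit 0) (nat_lit 13747996698) (nat_lit 76) (nat_lit 19911679980) (nat_lit 76) (nat_lit 6290330264) (nat_lit 16) (nat_lit 4) (nat_lit 17) (nat_lit 5) (nat_lit 17) (nat_lit 4) (nat_lit 423) (nat_lit 273) (nat_lit 204)) (XT.nd (nat_lit 78) (nat_lit 76) (nat_lit 0) (XT.lf (nat_lit 0) (nat_lit 25254298482) (nat_lit 76) (nat_lit 14700909432) (nat_lit 76) (nat_lit 1020231745) (nat_lit 16) (nat_lit 4) (nat_lit 17) (nat_lit 5) (nat_lit 17) (nat_lit 4) (nat_lit 424) (nat_lit 273) (nat_lit 203)) (XT.lf (nat_lit 0) (nat_lit 4287404794) (nat_lit 152) (nat_lit 5034845925) (nat_lit 76) (nat_lit 32709152288) (nat_lit 15) (nat_lit 5) (nat_lit 17) (nat_lit 5) (nat_lit 16) (nat_lit 4) (nat_lit 425) (nat_lit 273) (nat_lit 202))))) (XT.nd (nat_lit 234) (nat_lit 76) (nat_lit 0) (XT.nd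 (nat_lit 78) (nat_lit 0) (nat_lit 0) (XT.lf (nat_lit 0) (nat_lit 6014616544) (nat_lit 76) (nat_lit 3743421142) (nat_lit 152) (nat_lit 33359978598) (nat_lit 14) (nat_lit 5) (nat_lit 15) (nat_lit 5) (nat_lit 16) (nat_lit 4) (nat_lit 426) (nat_lit 273) (nat_lit 201)) (XT.nd (nat_lit 78) (nat_lit 0) (nat_lit 0) (XT.lf (nat_lit 0) (nat_lit 15429908157) (nat_lit 152) (nat_lit 26821439556) (nat_lit 0) (nat_lit 1984768880) (nat_lit 14) (nat_lit 5) (nat_lit 16) (nat_lit 4) (nat_lit 14) (nat_lit 4) (nat_lit 427) (nat_lit 273) (nat_lit 200)) (XT.lf (nat_lit 0) (nat_lit 21276494679) (nat_lit 152) (nat_lit 16330951989) (nat_lit 0) (nat_lit 7780178573) (nat_lit 14) (nat_lit 5) (nat_lit 16) (nat_lit 4) (nat_lit 14) (nat_lit 4) (nat_lit 428) (nat_lit 273) (nat_lit 199)))) (XT.nd (nat_lit 156) (nat_lit 0) (nat_lit 0) (XT.nd (nat_lit 78) (nat_lit 76) (nat_lit 0) (XT.lf (nat_lit 0) (nat_lit 27266921865) (nat_lit 152) (nat_lit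 5586786538) (nat_lit 0) (nat_lit 13720919518) (nat_lit 14) (nat_lit 5) (nat_lit 16) (nat_lit 4) (nat_lit 14) (nat_lit 4) (nat_lit 429) (nat_lit 273) (nat_lit 198)) (XT.lf (nat_lit 0) (nat_lit 5528322383) (nat_lit 76) (nat_lit 27931243302) (nat_lit 76) (nat_lit 14337001887) (nat_lit 13) (nat_lit 4) (nat_lit 14) (nat_lit 5) (nat_lit 14) (nat_lit 4) (nat_lit 430) (nat_lit 273) (nat_lit 197))) (XT.nd (nat_lit 78) (nat_lit 0) (nat_lit 0) (XT.lf (nat_lit 0) (nat_lit 17032730214) (nat_lit 76) (nat_lit 22831364712) (nat_lit 76) (nat_lit 9190289250) (nat_lit 13) (nat_lit 4) (nat_lit 14) (nat_lit 5) (nat_lit 14) (nat_lit 4) (nat_lit 431) (nat_lit 273) (nat_lit 196)) (XT.lf (nat_lit 0) (nat_lit 28825301345) (nat_lit 76) (nat_lit 17606032018) (nat_lit 76) (nat_lit 3919486607) (nat_lit 13) (nat_lit 4) (nat_lit 14) (nat_lit 5) (nat_lit 14) (nat_lit 4) (nat_lit 432) (nat_lit 273) (nat_lit 195)))))) (XT.nd (nat_lit 546)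 (nat_lit 228) (nat_lit 0) (XT.nd (nat_lit 234) (nat_lit 0) (nat_lit 0) (XT.nd (nat_lit 78) (nat_lit 76) (nat_lit 0) (XT.lf (nat_lit 0) (nat_lit 1451131240) (nat_lit 152) (nat_lit 10784894574) (nat_lit 76) (nat_lit 39450555141) (nat_lit 12) (nat_lit 5) (nat_lit 14) (nat_lit 5) (nat_lit 13) (nat_lit 4) (nat_lit 433) (nat_lit 273) (nat_lit 194)) (XT.nd (nat_lit 78) (nat_lit 0) (nat_lit 0) (XT.lf (nat_lit 0) (nat_lit 188562997) (nat_lit 76) (nat_lit 6689325563) (nat_lit 152) (nat_lit 46184149775) (nat_lit 11) (nat_lit 5) (nat_lit 12) (nat_lit 5) (nat_lit 13) (nat_lit 4) (nat_lit 434) (nat_lit 273) (nat_lit 193)) (XT.lf (nat_lit 0) (nat_lit 11658578055) (nat_lit 76) (nat_lit 890062476) (nat_lit 152) (nat_lit 41927684825) (nat_lit 11) (nat_lit 5) (nat_lit 12) (nat_lit 5) (nat_lit 13) (nat_lit 4) (nat_lit 435) (nat_lit 273) (nat_lit 192)))) (XT.nd (nat_lit 156) (nat_lit 0) (nat_lit 0) (XT.nd (nat_lit 78) (nat_lit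 0) (nat_lit 0) (XT.lf (nat_lit 0) (nat_lit 18411227785) (nat_lit 152) (nat_lit 32561937304) (nat_lit 0) (nat_lit 4959226149) (nat_lit 11) (nat_lit 5) (nat_lit 13) (nat_lit 4) (nat_lit 11) (nat_lit 4) (nat_lit 436) (nat_lit 273) (nat_lit 191)) (XT.lf (nat_lit 0) (nat_lit 24432146031) (nat_lit 152) (nat_lit 22058457018) (nat_lit 0) (nat_lit 10942064028) (nat_lit 11) (nat_lit 5) (nat_lit 13) (nat_lit 4) (nat_lit 11) (nat_lit 4) (nat_lit 437) (nat_lit 273) (nat_lit 190))) (XT.nd (nat_lit 78) (nat_lit 0) (nat_lit 0) (XT.lf (nat_lit 0) (nat_lit 30608100440) (nat_lit 152) (nat_lit 11289572821) (nat_lit 0) (nat_lit 17081047208) (nat_lit 11) (nat_lit 5) (nat_lit 13) (nat_lit 4) (nat_lit 11) (nat_lit 4) (nat_lit 438) (nat_lit 273) (nat_lit 189)) (XT.lf (nat_lit 0) (nat_lit 36944487479) (nat_lit 152) (nat_lit 245875009) (nat_lit 0) (nat_lit 23381539849) (nat_lit 11) (nat_lit 5) (nat_lit 13) (nat_lit 4) (nat_lit 11)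 (nat_lit 4) (nat_lit 439) (nat_lit 273) (nat_lit 188))))) (XT.nd (nat_lit 234) (nat_lit 152) (nat_lit 0) (XT.nd (nat_lit 78) (nat_lit 0) (nat_lit 0) (XT.lf (nat_lit 0) (nat_lit 11302845478) (nat_lit 76) (nat_lit 32252648181) (nat_lit 76) (nat_lit 18654851622) (nat_lit 10) (nat_lit 4) (nat_lit 11) (nat_lit 5) (nat_lit 11) (nat_lit 4) (nat_lit 440) (nat_lit 273) (nat_lit 187)) (XT.nd (nat_lit 78) (nat_lit 0) (nat_lit 0) (XT.lf (nat_lit 0) (nat_lit 23156679580) (nat_lit 76) (nat_lit 27186767648) (nat_lit 76) (nat_lit 13555137177) (nat_lit 10) (nat_lit 4) (nat_lit 11) (nat_lit 5) (nat_lit 11) (nat_lit 4) (nat_lit 441) (nat_lit 273) (nat_lit 186)) (XT.lf (nat_lit 0) (nat_lit 35321091621) (nat_lit 76) (nat_lit 21990777247) (nat_lit 76) (nat_lit 8326298316) (nat_lit 10) (nat_lit 4) (nat_lit 11) (nat_lit 5) (nat_lit 11) (nat_lit 4) (nat_lit 442) (nat_lit 273) (nat_lit 185)))) (XT.nd (nat_lit 156) (nat_lit 76) (nat_lit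 0) (XT.nd (nat_lit 78) (nat_lit 76) (nat_lit 0) (XT.lf (nat_lit 0) (nat_lit 47806710699) (nat_lit 76) (nat_lit 16660136790) (nat_lit 76) (nat_lit 2963766153) (nat_lit 10) (nat_lit 4) (nat_lit 11) (nat_lit 5) (nat_lit 11) (nat_lit 4) (nat_lit 443) (nat_lit 273) (nat_lit 184)) (XT.lf (nat_lit 0) (nat_lit 2487636183) (nat_lit 152) (nat_lit 8677432007) (nat_lit 76) (nat_lit 58111690146) (nat_lit 9) (nat_lit 5) (nat_lit 11) (nat_lit 5) (nat_lit 10) (nat_lit 4) (nat_lit 444) (nat_lit 273) (nat_lit 183))) (XT.nd (nat_lit 78) (nat_lit 0) (nat_lit 0) (XT.lf (nat_lit 0) (nat_lit 2576727333) (nat_lit 76) (nat_lit 5469638078) (nat_lit 152) (nat_lit 63130942239) (nat_lit 8) (nat_lit 5) (nat_lit 9) (nat_lit 5) (nat_lit 10) (nat_lit 4) (nat_lit 445) (nat_lit 273) (nat_lit 182)) (XT.lf (nat_lit 0) (nat_lit 13842781221) (nat_lit 152) (nat_lit 58832213451) (nat_lit 0) (nat_lit 457752209) (nat_lit 8) (nat_lit 5) (nat_lit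 10) (nat_lit 4) (nat_lit 8) (nat_lit 4) (nat_lit 446) (nat_lit 273) (nat_lit 181))))))))
noncomputable def xc45 : XT := (XT.nd (nat_lit 41340) (nat_lit 0) (nat_lit 1444) (XT.nd (nat_lit 40248) (nat_lit 0) (nat_lit 3724) (XT.nd (nat_lit 39702) (nat_lit 0) (nat_lit 5852) (XT.nd (nat_lit 39468) (nat_lit 0) (nat_lit 7524) (XT.nd (nat_lit 78) (nat_lit 0) (nat_lit 0) (XT.lf (nat_lit 0) (nat_lit 19846486271) (nat_lit 152) (nat_lit 48865415067) (nat_lit 0) (nat_lit 6433947191) (nat_lit 8) (nat_lit 5) (nat_lit 10) (nat_lit 4) (nat_lit 8) (nat_lit 4) (nat_lit 447) (nat_lit 273) (nat_lit 180)) (XT.nd (nat_lit 78) (nat_lit 0) (nat_lit 0) (XT.lf (nat_lit 0) (nat_lit 26010149008) (nat_lit 152) (nat_lit 38638898806) (nat_lit 0) (nat_lit 12570901126) (nat_lit 8) (nat_lit 5) (nat_lit 10) (nat_lit 4) (nat_lit 8) (nat_lit 4) (nat_lit 448) (nat_lit 273) (nat_lit 179)) (XT.lf (nat_lit 0) (nat_lit 32339155158) (nat_lit 152)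 (nat_lit 28143728877) (nat_lit 0) (nat_lit 18873976400) (nat_lit 8) (nat_lit 5) (nat_lit 10) (nat_lit 4) (nat_lit 8) (nat_lit 4) (nat_lit 449) (nat_lit 273) (nat_lit 178)))) (XT.nd (nat_lit 78) (nat_lit 304) (nat_lit 0) (XT.lf (nat_lit 0) (nat_lit 408897347) (nat_lit 380) (nat_lit 3965090392) (nat_lit 0) (nat_lit 408897347) (nat_lit 111) (nat_lit 5) (nat_lit 116) (nat_lit 4) (nat_lit 111) (nat_lit 4) (nat_lit 352) (nat_lit 274) (nat_lit 274)) (XT.nd (nat_lit 78) (nat_lit 304) (nat_lit 0) (XT.lf (nat_lit 0) (nat_lit 5130108094) (nat_lit 380) (nat_lit 260427333) (nat_lit 0) (nat_lit 4306401606) (nat_lit 111) (nat_lit 5) (nat_lit 116) (nat_lit 4) (nat_lit 111) (nat_lit 4) (nat_lit 353) (nat_lit 274) (nat_lit 273)) (XT.lf (nat_lit 0) (nat_lit 7635623136) (nat_lit 304) (nat_lit 1910322937) (nat_lit 304) (nat_lit 286901411) (nat_lit 107) (nat_lit 4) (nat_lit 111) (nat_lit 5) (nat_lit 111) (nat_lit 4) (nat_lit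 354) (nat_lit 274) (nat_lit 272))))) (XT.nd (nat_lit 234) (nat_lit 760) (nat_lit 0) (XT.nd (nat_lit 78) (nat_lit 608) (nat_lit 0) (XT.lf (nat_lit 0) (nat_lit 4016364927) (nat_lit 304) (nat_lit 4269632779) (nat_lit 0) (nat_lit 1686419401) (nat_lit 103) (nat_lit 5) (nat_lit 107) (nat_lit 4) (nat_lit 103) (nat_lit 4) (nat_lit 355) (nat_lit 274) (nat_lit 271)) (XT.nd (nat_lit 78) (nat_lit 304) (nat_lit 0) (XT.lf (nat_lit 0) (nat_lit 3664641883) (nat_lit 304) (nat_lit 4756958048) (nat_lit 304) (nat_lit 1695159976) (nat_lit 99) (nat_lit 4) (nat_lit 103) (nat_lit 5) (nat_lit 103) (nat_lit 4) (nat_lit 356) (nat_lit 274) (nat_lit 270)) (XT.lf (nat_lit 0) (nat_lit 1508773601) (nat_lit 228) (nat_lit 1092757495) (nat_lit 304) (nat_lit 7664337811) (nat_lit 95) (nat_lit 5) (nat_lit 98) (nat_lit 5) (nat_lit 99) (nat_lit 4) (nat_lit 357) (nat_lit 274) (nat_lit 269)))) (XT.nd (nat_lit 156) (nat_lit 456) (nat_lit 0) (XT.nd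 (nat_lit 78) (nat_lit 304) (nat_lit 0) (XT.lf (nat_lit 0) (nat_lit 6987933530) (nat_lit 304) (nat_lit 775471449) (nat_lit 0) (nat_lit 2655724073) (nat_lit 95) (nat_lit 5) (nat_lit 99) (nat_lit 4) (nat_lit 95) (nat_lit 4) (nat_lit 358) (nat_lit 274) (nat_lit 268)) (XT.lf (nat_lit 0) (nat_lit 899025439) (nat_lit 304) (nat_lit 3157429323) (nat_lit 76) (nat_lit 6520644252) (nat_lit 91) (nat_lit 5) (nat_lit 95) (nat_lit 5) (nat_lit 92) (nat_lit 4) (nat_lit 359) (nat_lit 274) (nat_lit 267))) (XT.nd (nat_lit 78) (nat_lit 228) (nat_lit 0) (XT.lf (nat_lit 0) (nat_lit 5050082174) (nat_lit 228) (nat_lit 203038798) (nat_lit 304) (nat_lit 5486805464) (nat_lit 88) (nat_lit 5) (nat_lit 91) (nat_lit 5) (nat_lit 92) (nat_lit 4) (nat_lit 360) (nat_lit 274) (nat_lit 266)) (XT.lf (nat_lit 0) (nat_lit 2522411014) (nat_lit 228) (nat_lit 7215282939) (nat_lit 228) (nat_lit 1169973826) (nat_lit 85) (nat_lit 4) (nat_lit 88) (nat_lit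 5) (nat_lit 88) (nat_lit 4) (nat_lit 361) (nat_lit 274) (nat_lit 265)))))) (XT.nd (nat_lit 546) (nat_lit 988) (nat_lit 0) (XT.nd (nat_lit 234) (nat_lit 608) (nat_lit 0) (XT.nd (nat_lit 78) (nat_lit 456) (nat_lit 0) (XT.lf (nat_lit 0) (nat_lit 3179996321) (nat_lit 304) (nat_lit 167647738) (nat_lit 76) (nat_lit 7732848768) (nat_lit 84) (nat_lit 5) (nat_lit 88) (nat_lit 5) (nat_lit 85) (nat_lit 4) (nat_lit 362) (nat_lit 274) (nat_lit 264)) (XT.nd (nat_lit 78) (nat_lit 304) (nat_lit 0) (XT.lf (nat_lit 0) (nat_lit 7633405905) (nat_lit 228) (nat_lit 2966175478) (nat_lit 0) (nat_lit 658702693) (nat_lit 82) (nat_lit 5) (nat_lit 85) (nat_lit 4) (nat_lit 82) (nat_lit 4) (nat_lit 363) (nat_lit 274) (nat_lit 263)) (XT.lf (nat_lit 0) (nat_lit 762300337) (nat_lit 304) (nat_lit 5955939378) (nat_lit 76) (nat_lit 4723011248) (nat_lit 78) (nat_lit 5) (nat_lit 82) (nat_lit 5) (nat_lit 79) (nat_lit 4) (nat_lit 364) (nat_lit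 274) (nat_lit 262)))) (XT.nd (nat_lit 156) (nat_lit 456) (nat_lit 0) (XT.nd (nat_lit 78) (nat_lit 0) (nat_lit 0) (XT.lf (nat_lit 0) (nat_lit 2485570957) (nat_lit 152) (nat_lit 2687969275) (nat_lit 228) (nat_lit 6456151568) (nat_lit 76) (nat_lit 5) (nat_lit 78) (nat_lit 5) (nat_lit 79) (nat_lit 4) (nat_lit 365) (nat_lit 274) (nat_lit 261)) (XT.lf (nat_lit 0) (nat_lit 9703674157) (nat_lit 228) (nat_lit 683920842) (nat_lit 0) (nat_lit 1436614267) (nat_lit 76) (nat_lit 5) (nat_lit 79) (nat_lit 4) (nat_lit 76) (nat_lit 4) (nat_lit 366) (nat_lit 274) (nat_lit 260))) (XT.nd (nat_lit 78) (nat_lit 152) (nat_lit 0) (XT.lf (nat_lit 0) (nat_lit 2317523561) (nat_lit 304) (nat_lit 4032235361) (nat_lit 76) (nat_lit 5673601922) (nat_lit 72) (nat_lit 5) (nat_lit 76) (nat_lit 5) (nat_lit 73) (nat_lit 4) (nat_lit 367) (nat_lit 274) (nat_lit 259)) (XT.lf (nat_lit 0) (nat_lit 4635933549) (nat_lit 152) (nat_lit 2176287165) (nat_lit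 228) (nat_lit 5416671275) (nat_lit 70) (nat_lit 5) (nat_lit 72) (nat_lit 5) (nat_lit 73) (nat_lit 4) (nat_lit 368) (nat_lit 274) (nat_lit 258))))) (XT.nd (nat_lit 234) (nat_lit 532) (nat_lit 0) (XT.nd (nat_lit 78) (nat_lit 228) (nat_lit 0) (XT.lf (nat_lit 0) (nat_lit 1061165553) (nat_lit 228) (nat_lit 10367421820) (nat_lit 228) (nat_lit 1012414706) (nat_lit 67) (nat_lit 4) (nat_lit 70) (nat_lit 5) (nat_lit 70) (nat_lit 4) (nat_lit 369) (nat_lit 274) (nat_lit 257)) (XT.nd (nat_lit 78) (nat_lit 152) (nat_lit 0) (XT.lf (nat_lit 0) (nat_lit 3469524740) (nat_lit 304) (nat_lit 2729237171) (nat_lit 76) (nat_lit 6459284552) (nat_lit 66) (nat_lit 5) (nat_lit 70) (nat_lit 5) (nat_lit 67) (nat_lit 4) (nat_lit 370) (nat_lit 274) (nat_lit 256)) (XT.lf (nat_lit 0) (nat_lit 6148661813) (nat_lit 152) (nat_lit 1893822531) (nat_lit 228) (nat_lit 4839526155) (nat_lit 64) (nat_lit 5) (nat_lit 66) (nat_lit 5) (nat_lit 67) (nat_lit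 4) (nat_lit 371) (nat_lit 274) (nat_lit 255)))) (XT.nd (nat_lit 156) (nat_lit 304) (nat_lit 0) (XT.nd (nat_lit 78) (nat_lit 76) (nat_lit 0) (XT.lf (nat_lit 0) (nat_lit 2110815584) (nat_lit 152) (nat_lit 10632632321) (nat_lit 152) (nat_lit 369536970) (nat_lit 62) (nat_lit 4) (nat_lit 64) (nat_lit 5) (nat_lit 64) (nat_lit 4) (nat_lit 372) (nat_lit 274) (nat_lit 254)) (XT.lf (nat_lit 0) (nat_lit 4157819725) (nat_lit 228) (nat_lit 2193544955) (nat_lit 76) (nat_lit 6998140639) (nat_lit 61) (nat_lit 5) (nat_lit 64) (nat_lit 5) (nat_lit 62) (nat_lit 4) (nat_lit 373) (nat_lit 274) (nat_lit 253))) (XT.nd (nat_lit 78) (nat_lit 152) (nat_lit 0) (XT.lf (nat_lit 0) (nat_lit 6871020718) (nat_lit 152) (nat_lit 1929453504) (nat_lit 228) (nat_lit 4792944786) (nat_lit 59) (nat_lit 5) (nat_lit 61) (nat_lit 5) (nat_lit 62) (nat_lit 4) (nat_lit 374) (nat_lit 274) (nat_lit 252)) (XT.lf (nat_lit 0) (nat_lit 2288540981) (nat_lit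 152) (nat_lit 11284741613) (nat_lit 152) (nat_lit 271655392) (nat_lit 57) (nat_lit 4) (nat_lit 59) (nat_lit 5) (nat_lit 59) (nat_lit 4) (nat_lit 375) (nat_lit 274) (nat_lit 251))))))) (XT.nd (nat_lit 1014) (nat_lit 1064) (nat_lit 0) (XT.nd (nat_lit 468) (nat_lit 608) (nat_lit 0) (XT.nd (nat_lit 234) (nat_lit 228) (nat_lit 0) (XT.nd (nat_lit 78) (nat_lit 304) (nat_lit 0) (XT.lf (nat_lit 0) (nat_lit 4308815323) (nat_lit 228) (nat_lit 2595663121) (nat_lit 76) (nat_lit 7197999316) (nat_lit 56) (nat_lit 5) (nat_lit 59) (nat_lit 5) (nat_lit 57) (nat_lit 4) (nat_lit 376) (nat_lit 274) (nat_lit 250)) (XT.nd (nat_lit 78) (nat_lit 152) (nat_lit 0) (XT.lf (nat_lit 0) (nat_lit 6625164972) (nat_lit 152) (nat_lit 2383504453) (nat_lit 228) (nat_lit 5359383642) (nat_lit 54) (nat_lit 5) (nat_lit 56) (nat_lit 5) (nat_lit 57) (nat_lit 4) (nat_lit 377) (nat_lit 274) (nat_lit 249)) (XT.lf (nat_lit 0) (nat_lit 1404615762) (nat_lit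 152) (nat_lit 12430839647) (nat_lit 152) (nat_lit 806574669) (nat_lit 52) (nat_lit 4) (nat_lit 54) (nat_lit 5) (nat_lit 54) (nat_lit 4) (nat_lit 378) (nat_lit 274) (nat_lit 248)))) (XT.nd (nat_lit 78) (nat_lit 152) (nat_lit 0) (XT.lf (nat_lit 0) (nat_lit 3833889628) (nat_lit 228) (nat_lit 4134200642) (nat_lit 76) (nat_lit 6954223056) (nat_lit 51) (nat_lit 5) (nat_lit 54) (nat_lit 5) (nat_lit 52) (nat_lit 4) (nat_lit 379) (nat_lit 274) (nat_lit 247)) (XT.nd (nat_lit 78) (nat_lit 0) (nat_lit 0) (XT.lf (nat_lit 0) (nat_lit 5203736106) (nat_lit 152) (nat_lit 3370125047) (nat_lit 228) (nat_lit 6637620673) (nat_lit 49) (nat_lit 5) (nat_lit 51) (nat_lit 5) (nat_lit 52) (nat_lit 4) (nat_lit 380) (nat_lit 274) (nat_lit 246)) (XT.lf (nat_lit 0) (nat_lit 13438132252) (nat_lit 228) (nat_lit 747327111) (nat_lit 0) (nat_lit 1324414140) (nat_lit 49) (nat_lit 5) (nat_lit 52) (nat_lit 4) (nat_lit 49) (nat_lit 4) (nat_lit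 381) (nat_lit 274) (nat_lit 245))))) (XT.nd (nat_lit 234) (nat_lit 304) (nat_lit 0) (XT.nd (nat_lit 78) (nat_lit 76) (nat_lit 0) (XT.lf (nat_lit 0) (nat_lit 2627135439) (nat_lit 228) (nat_lit 7040721413) (nat_lit 76) (nat_lit 6147190914) (nat_lit 46) (nat_lit 5) (nat_lit 49) (nat_lit 5) (nat_lit 47) (nat_lit 4) (nat_lit 382) (nat_lit 274) (nat_lit 244)) (XT.nd (nat_lit 78) (nat_lit 0) (nat_lit 0) (XT.lf (nat_lit 0) (nat_lit 2364776184) (nat_lit 76) (nat_lit 5019999874) (nat_lit 152) (nat_lit 8745212895) (nat_lit 45) (nat_lit 5) (nat_lit 46) (nat_lit 5) (nat_lit 47) (nat_lit 4) (nat_lit 383) (nat_lit 274) (nat_lit 243)) (XT.lf (nat_lit 0) (nat_lit 12069447041) (nat_lit 76) (nat_lit 216722599) (nat_lit 152) (nat_lit 4168187915) (nat_lit 45) (nat_lit 5) (nat_lit 46) (nat_lit 5) (nat_lit 47) (nat_lit 4) (nat_lit 384) (nat_lit 274) (nat_lit 242)))) (XT.nd (nat_lit 156) (nat_lit 76) (nat_lit 0) (XT.nd (nat_lit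 78) (nat_lit 0) (nat_lit 0) (XT.lf (nat_lit 0) (nat_lit 562715792) (nat_lit 228) (nat_lit 11585351909) (nat_lit 76) (nat_lit 4639424584) (nat_lit 42) (nat_lit 5) (nat_lit 45) (nat_lit 5) (nat_lit 43) (nat_lit 4) (nat_lit 385) (nat_lit 274) (nat_lit 241)) (XT.lf (nat_lit 0) (nat_lit 5330192370) (nat_lit 228) (nat_lit 2131728861) (nat_lit 76) (nat_lit 9668118139) (nat_lit 42) (nat_lit 5) (nat_lit 45) (nat_lit 5) (nat_lit 43) (nat_lit 4) (nat_lit 386) (nat_lit 274) (nat_lit 240))) (XT.nd (nat_lit 78) (nat_lit 0) (nat_lit 0) (XT.lf (nat_lit 0) (nat_lit 7632823481) (nat_lit 76) (nat_lit 2614793595) (nat_lit 152) (nat_lit 7235046866) (nat_lit 41) (nat_lit 5) (nat_lit 42) (nat_lit 5) (nat_lit 43) (nat_lit 4) (nat_lit 387) (nat_lit 274) (nat_lit 239)) (XT.lf (nat_lit 0) (nat_lit 15290964078) (nat_lit 152) (nat_lit 256163338) (nat_lit 0) (nat_lit 2299396381) (nat_lit 41) (nat_lit 5) (nat_lit 43) (nat_lit 4) (nat_lit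 41) (nat_lit 4) (nat_lit 388) (nat_lit 274) (nat_lit 238)))))) (XT.nd (nat_lit 546) (nat_lit 456) (nat_lit 0) (XT.nd (nat_lit 234) (nat_lit 304) (nat_lit 0) (XT.nd (nat_lit 78) (nat_lit 76) (nat_lit 0) (XT.lf (nat_lit 0) (nat_lit 2275232202) (nat_lit 228) (nat_lit 8572182307) (nat_lit 76) (nat_lit 7371586855) (nat_lit 38) (nat_lit 5) (nat_lit 41) (nat_lit 5) (nat_lit 39) (nat_lit 4) (nat_lit 389) (nat_lit 274) (nat_lit 237)) (XT.nd (nat_lit 78) (nat_lit 0) (nat_lit 0) (XT.lf (nat_lit 0) (nat_lit 1127787675) (nat_lit 76) (nat_lit 6021089878) (nat_lit 152) (nat_lit 11454545621) (nat_lit 37) (nat_lit 5) (nat_lit 38) (nat_lit 5) (nat_lit 39) (nat_lit 4) (nat_lit 390) (nat_lit 274) (nat_lit 236)) (XT.lf (nat_lit 0) (nat_lit 11177181731) (nat_lit 76) (nat_lit 1014694511) (nat_lit 152) (nat_lit 6806814659) (nat_lit 37) (nat_lit 5) (nat_lit 38) (nat_lit 5) (nat_lit 39) (nat_lit 4) (nat_lit 391) (nat_lit 274) (nat_lit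 235)))) (XT.nd (nat_lit 156) (nat_lit 76) (nat_lit 0) (XT.nd (nat_lit 78) (nat_lit 76) (nat_lit 0) (XT.lf (nat_lit 0) (nat_lit 2006345947) (nat_lit 152) (nat_lit 15376845628) (nat_lit 152) (nat_lit 2022721645) (nat_lit 35) (nat_lit 4) (nat_lit 37) (nat_lit 5) (nat_lit 37) (nat_lit 4) (nat_lit 392) (nat_lit 274) (nat_lit 234)) (XT.lf (nat_lit 0) (nat_lit 2876042251) (nat_lit 228) (nat_lit 7687707181) (nat_lit 76) (nat_lit 9259937016) (nat_lit 34) (nat_lit 5) (nat_lit 37) (nat_lit 5) (nat_lit 35) (nat_lit 4) (nat_lit 393) (nat_lit 274) (nat_lit 233))) (XT.nd (nat_lit 78) (nat_lit 0) (nat_lit 0) (XT.lf (nat_lit 0) (nat_lit 2226954842) (nat_lit 76) (nat_lit 5615394193) (nat_lit 152) (nat_lit 12412212728) (nat_lit 33) (nat_lit 5) (nat_lit 34) (nat_lit 5) (nat_lit 35) (nat_lit 4) (nat_lit 394) (nat_lit 274) (nat_lit 232)) (XT.lf (nat_lit 0) (nat_lit 12485762224) (nat_lit 76) (nat_lit 490028081) (nat_lit 152)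 (nat_lit 7722035213) (nat_lit 33) (nat_lit 5) (nat_lit 34) (nat_lit 5) (nat_lit 35) (nat_lit 4) (nat_lit 395) (nat_lit 274) (nat_lit 231))))) (XT.nd (nat_lit 234) (nat_lit 152) (nat_lit 0) (XT.nd (nat_lit 78) (nat_lit 152) (nat_lit 0) (XT.lf (nat_lit 0) (nat_lit 1777685388) (nat_lit 152) (nat_lit 16490440782) (nat_lit 152) (nat_lit 2886120625) (nat_lit 31) (nat_lit 4) (nat_lit 33) (nat_lit 5) (nat_lit 33) (nat_lit 4) (nat_lit 396) (nat_lit 274) (nat_lit 230)) (XT.nd (nat_lit 78) (nat_lit 76) (nat_lit 0) (XT.lf (nat_lit 0) (nat_lit 2084442198) (nat_lit 228) (nat_lit 9521227185) (nat_lit 76) (nat_lit 10017179719) (nat_lit 30) (nat_lit 5) (nat_lit 33) (nat_lit 5) (nat_lit 31) (nat_lit 4) (nat_lit 397) (nat_lit 274) (nat_lit 229)) (XT.lf (nat_lit 0) (nat_lit 505215200) (nat_lit 76) (nat_lit 6589299382) (nat_lit 152) (nat_lit 15011691419) (nat_lit 29) (nat_lit 5) (nat_lit 30) (nat_lit 5) (nat_lit 31) (nat_lit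 4) (nat_lit 398) (nat_lit 274) (nat_lit 228)))) (XT.nd (nat_lit 156) (nat_lit 152) (nat_lit 0) (XT.nd (nat_lit 78) (nat_lit 0) (nat_lit 0) (XT.lf (nat_lit 0) (nat_lit 10922829299) (nat_lit 76) (nat_lit 1372386931) (nat_lit 152) (nat_lit 10307643206) (nat_lit 29) (nat_lit 5) (nat_lit 30) (nat_lit 5) (nat_lit 31) (nat_lit 4) (nat_lit 399) (nat_lit 274) (nat_lit 227)) (XT.lf (nat_lit 0) (nat_lit 17635749356) (nat_lit 152) (nat_lit 1602820222) (nat_lit 0) (nat_lit 3876334060) (nat_lit 29) (nat_lit 5) (nat_lit 31) (nat_lit 4) (nat_lit 29) (nat_lit 4) (nat_lit 400) (nat_lit 274) (nat_lit 226))) (XT.nd (nat_lit 78) (nat_lit 76) (nat_lit 0) (XT.lf (nat_lit 0) (nat_lit 8835611049) (nat_lit 76) (nat_lit 14346350511) (nat_lit 76) (nat_lit 458989033) (nat_lit 28) (nat_lit 4) (nat_lit 29) (nat_lit 5) (nat_lit 29) (nat_lit 4) (nat_lit 401) (nat_lit 274) (nat_lit 225)) (XT.lf (nat_lit 0) (nat_lit 4583194528) (nat_lit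 152) (nat_lit 4707696178) (nat_lit 76) (nat_lit 14891633773) (nat_lit 27) (nat_lit 5) (nat_lit 29) (nat_lit 5) (nat_lit 28) (nat_lit 4) (nat_lit 402) (nat_lit 274) (nat_lit 224))))))))
noncomputable def xc46 : XT := (XT.nd (nat_lit 2106) (nat_lit 456) (nat_lit 0) (XT.nd (nat_lit 1014) (nat_lit 456) (nat_lit 0) (XT.nd (nat_lit 468) (nat_lit 228) (nat_lit 0) (XT.nd (nat_lit 234) (nat_lit 152) (nat_lit 0) (XT.nd (nat_lit 78) (nat_lit 76) (nat_lit 0) (XT.lf (nat_lit 0) (nat_lit 5702519902) (nat_lit 76) (nat_lit 4068269517) (nat_lit 152) (nat_lit 14969323564) (nat_lit 26) (nat_lit 5) (nat_lit 27) (nat_lit 5) (nat_lit 28) (nat_lit 4) (nat_lit 403) (nat_lit 274) (nat_lit 223)) (XT.nd (nat_lit 78) (nat_lit 76) (nat_lit 0) (XT.lf (nat_lit 0) (nat_lit 15123317843) (nat_lit 152) (nat_lit 8901763186) (nat_lit 0) (nat_lit 1289073668) (nat_lit 26) (nat_lit 5) (nat_lit 28) (nat_lit 4) (nat_lit 26) (nat_lit 4) (nat_lit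 404) (nat_lit 274) (nat_lit 222)) (XT.lf (nat_lit 0) (nat_lit 1431392642) (nat_lit 76) (nat_lit 19209257226) (nat_lit 76) (nat_lit 5264645549) (nat_lit 25) (nat_lit 4) (nat_lit 26) (nat_lit 5) (nat_lit 26) (nat_lit 4) (nat_lit 405) (nat_lit 274) (nat_lit 221)))) (XT.nd (nat_lit 78) (nat_lit 152) (nat_lit 0) (XT.lf (nat_lit 0) (nat_lit 12163545365) (nat_lit 76) (nat_lit 14200587552) (nat_lit 76) (nat_lit 148822963) (nat_lit 25) (nat_lit 4) (nat_lit 26) (nat_lit 5) (nat_lit 26) (nat_lit 4) (nat_lit 406) (nat_lit 274) (nat_lit 220)) (XT.nd (nat_lit 78) (nat_lit 76) (nat_lit 0) (XT.lf (nat_lit 0) (nat_lit 4972253101) (nat_lit 152) (nat_lit 4062122747) (nat_lit 76) (nat_lit 18104446943) (nat_lit 24) (nat_lit 5) (nat_lit 26) (nat_lit 5) (nat_lit 25) (nat_lit 4) (nat_lit 407) (nat_lit 274) (nat_lit 219)) (XT.lf (nat_lit 0) (nat_lit 6571497009) (nat_lit 76) (nat_lit 3688747054) (nat_lit 152) (nat_lit 17522693303)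 (nat_lit 23) (nat_lit 5) (nat_lit 24) (nat_lit 5) (nat_lit 25) (nat_lit 4) (nat_lit 408) (nat_lit 274) (nat_lit 218))))) (XT.nd (nat_lit 234) (nat_lit 152) (nat_lit 0) (XT.nd (nat_lit 78) (nat_lit 76) (nat_lit 0) (XT.lf (nat_lit 0) (nat_lit 15718989982) (nat_lit 152) (nat_lit 10944791776) (nat_lit 0) (nat_lit 1782234122) (nat_lit 23) (nat_lit 5) (nat_lit 25) (nat_lit 4) (nat_lit 23) (nat_lit 4) (nat_lit 409) (nat_lit 274) (nat_lit 217)) (XT.nd (nat_lit 78) (nat_lit 76) (nat_lit 0) (XT.lf (nat_lit 0) (nat_lit 21332604111) (nat_lit 152) (nat_lit 493236097) (nat_lit 0) (nat_lit 7303417207) (nat_lit 23) (nat_lit 5) (nat_lit 25) (nat_lit 4) (nat_lit 23) (nat_lit 4) (nat_lit 410) (nat_lit 274) (nat_lit 216)) (XT.lf (nat_lit 0) (nat_lit 10390575145) (nat_lit 76) (nat_lit 16779838476) (nat_lit 76) (nat_lit 2660912694) (nat_lit 22) (nat_lit 4) (nat_lit 23) (nat_lit 5) (nat_lit 23) (nat_lit 4) (nat_lit 411) (nat_lit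 274) (nat_lit 215)))) (XT.nd (nat_lit 156) (nat_lit 0) (nat_lit 0) (XT.nd (nat_lit 78) (nat_lit 76) (nat_lit 0) (XT.lf (nat_lit 0) (nat_lit 2538586194) (nat_lit 152) (nat_lit 9052720930) (nat_lit 76) (nat_lit 18963565998) (nat_lit 21) (nat_lit 5) (nat_lit 23) (nat_lit 5) (nat_lit 22) (nat_lit 4) (nat_lit 412) (nat_lit 274) (nat_lit 214)) (XT.lf (nat_lit 0) (nat_lit 1569577574) (nat_lit 76) (nat_lit 6243336701) (nat_lit 152) (nat_lit 23487255324) (nat_lit 20) (nat_lit 5) (nat_lit 21) (nat_lit 5) (nat_lit 22) (nat_lit 4) (nat_lit 413) (nat_lit 274) (nat_lit 213))) (XT.nd (nat_lit 78) (nat_lit 0) (nat_lit 0) (XT.lf (nat_lit 0) (nat_lit 12615262393) (nat_lit 76) (nat_lit 679330997) (nat_lit 152) (nat_lit 18771761257) (nat_lit 20) (nat_lit 5) (nat_lit 21) (nat_lit 5) (nat_lit 22) (nat_lit 4) (nat_lit 414) (nat_lit 274) (nat_lit 212)) (XT.lf (nat_lit 0) (nat_lit 18947860336) (nat_lit 152) (nat_lit 8991141261)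 (nat_lit 0) (nat_lit 4916312743) (nat_lit 20) (nat_lit 5) (nat_lit 22) (nat_lit 4) (nat_lit 20) (nat_lit 4) (nat_lit 415) (nat_lit 274) (nat_lit 211)))))) (XT.nd (nat_lit 546) (nat_lit 228) (nat_lit 0) (XT.nd (nat_lit 234) (nat_lit 76) (nat_lit 0) (XT.nd (nat_lit 78) (nat_lit 76) (nat_lit 0) (XT.lf (nat_lit 0) (nat_lit 1732629182) (nat_lit 76) (nat_lit 23021262138) (nat_lit 76) (nat_lit 8914559648) (nat_lit 19) (nat_lit 4) (nat_lit 20) (nat_lit 5) (nat_lit 20) (nat_lit 4) (nat_lit 416) (nat_lit 274) (nat_lit 210)) (XT.nd (nat_lit 78) (nat_lit 76) (nat_lit 0) (XT.lf (nat_lit 0) (nat_lit 12886114975) (nat_lit 76) (nat_lit 17899003847) (nat_lit 76) (nat_lit 3719335437) (nat_lit 19) (nat_lit 4) (nat_lit 20) (nat_lit 5) (nat_lit 20) (nat_lit 4) (nat_lit 417) (nat_lit 274) (nat_lit 209)) (XT.lf (nat_lit 0) (nat_lit 1560900269) (nat_lit 152) (nat_lit 11081881562) (nat_lit 76) (nat_lit 22723458238) (nat_lit 18)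 (nat_lit 5) (nat_lit 20) (nat_lit 5) (nat_lit 19) (nat_lit 4) (nat_lit 418) (nat_lit 274) (nat_lit 208)))) (XT.nd (nat_lit 156) (nat_lit 0) (nat_lit 0) (XT.nd (nat_lit 78) (nat_lit 76) (nat_lit 0) (XT.lf (nat_lit 0) (nat_lit 6886920128) (nat_lit 152) (nat_lit 338838625) (nat_lit 76) (nat_lit 29028154760) (nat_lit 18) (nat_lit 5) (nat_lit 20) (nat_lit 5) (nat_lit 19) (nat_lit 4) (nat_lit 419) (nat_lit 274) (nat_lit 207)) (XT.lf (nat_lit 0) (nat_lit 10868003061) (nat_lit 76) (nat_lit 1572422406) (nat_lit 152) (nat_lit 24725763241) (nat_lit 17) (nat_lit 5) (nat_lit 18) (nat_lit 5) (nat_lit 19) (nat_lit 4) (nat_lit 420) (nat_lit 274) (nat_lit 206))) (XT.nd (nat_lit 78) (nat_lit 0) (nat_lit 0) (XT.lf (nat_lit 0) (nat_lit 18168162025) (nat_lit 152) (nat_lit 15799272152) (nat_lit 0) (nat_lit 4138171818) (nat_lit 17) (nat_lit 5) (nat_lit 19) (nat_lit 4) (nat_lit 17) (nat_lit 4) (nat_lit 421) (nat_lit 274) (nat_lit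 205)) (XT.lf (nat_lit 0) (nat_lit 24047679833) (nat_lit 152) (nat_lit 5069548217) (nat_lit 0) (nat_lit 9956581816) (nat_lit 17) (nat_lit 5) (nat_lit 19) (nat_lit 4) (nat_lit 17) (nat_lit 4) (nat_lit 422) (nat_lit 274) (nat_lit 204))))) (XT.nd (nat_lit 234) (nat_lit 76) (nat_lit 0) (XT.nd (nat_lit 78) (nat_lit 76) (nat_lit 0) (XT.lf (nat_lit 0) (nat_lit 6033206315) (nat_lit 76) (nat_lit 24093789801) (nat_lit 76) (nat_lit 9943363814) (nat_lit 16) (nat_lit 4) (nat_lit 17) (nat_lit 5) (nat_lit 17) (nat_lit 4) (nat_lit 423) (nat_lit 274) (nat_lit 203)) (XT.nd (nat_lit 78) (nat_lit 76) (nat_lit 0) (XT.lf (nat_lit 0) (nat_lit 17507026396) (nat_lit 76) (nat_lit 18898649466) (nat_lit 76) (nat_lit 4690623508) (nat_lit 16) (nat_lit 4) (nat_lit 17) (nat_lit 5) (nat_lit 17) (nat_lit 4) (nat_lit 424) (nat_lit 274) (nat_lit 202)) (XT.lf (nat_lit 0) (nat_lit 672111816) (nat_lit 152) (nat_lit 12899561271) (nat_lit 76) (nat_lit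 28582144916) (nat_lit 15) (nat_lit 5) (nat_lit 17) (nat_lit 5) (nat_lit 16) (nat_lit 4) (nat_lit 425) (nat_lit 274) (nat_lit 201)))) (XT.nd (nat_lit 156) (nat_lit 0) (nat_lit 0) (XT.nd (nat_lit 78) (nat_lit 76) (nat_lit 0) (XT.lf (nat_lit 0) (nat_lit 6068886031) (nat_lit 152) (nat_lit 1998403111) (nat_lit 76) (nat_lit 35175358979) (nat_lit 15) (nat_lit 5) (nat_lit 17) (nat_lit 5) (nat_lit 16) (nat_lit 4) (nat_lit 426) (nat_lit 274) (nat_lit 200)) (XT.lf (nat_lit 0) (nat_lit 9351293347) (nat_lit 76) (nat_lit 2334542729) (nat_lit 152) (nat_lit 32676561015) (nat_lit 14) (nat_lit 5) (nat_lit 15) (nat_lit 5) (nat_lit 16) (nat_lit 4) (nat_lit 427) (nat_lit 274) (nat_lit 199))) (XT.nd (nat_lit 78) (nat_lit 0) (nat_lit 0) (XT.lf (nat_lit 0) (nat_lit 17494436259) (nat_lit 152) (nat_lit 24528242486) (nat_lit 0) (nat_lit 3492367602) (nat_lit 14) (nat_lit 5) (nat_lit 16) (nat_lit 4) (nat_lit 14) (nat_lit 4) (nat_lit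 428) (nat_lit 274) (nat_lit 198)) (XT.lf (nat_lit 0) (nat_lit 23469770934) (nat_lit 152) (nat_lit 13813268648) (nat_lit 0) (nat_lit 9419463208) (nat_lit 14) (nat_lit 5) (nat_lit 16) (nat_lit 4) (nat_lit 14) (nat_lit 4) (nat_lit 429) (nat_lit 274) (nat_lit 197))))))) (XT.nd (nat_lit 1014) (nat_lit 152) (nat_lit 0) (XT.nd (nat_lit 468) (nat_lit 76) (nat_lit 0) (XT.nd (nat_lit 234) (nat_lit 152) (nat_lit 0) (XT.nd (nat_lit 78) (nat_lit 76) (nat_lit 0) (XT.lf (nat_lit 0) (nat_lit 29594620215) (nat_lit 152) (nat_lit 2834378580) (nat_lit 0) (nat_lit 15497478441) (nat_lit 14) (nat_lit 5) (nat_lit 16) (nat_lit 4) (nat_lit 14) (nat_lit 4) (nat_lit 430) (nat_lit 274) (nat_lit 196)) (XT.nd (nat_lit 78) (nat_lit 0) (nat_lit 0) (XT.lf (nat_lit 0) (nat_lit 8585556044) (nat_lit 76) (nat_lit 27371309484) (nat_lit 76) (nat_lit 13228697762) (nat_lit 13) (nat_lit 4) (nat_lit 14) (nat_lit 5) (nat_lit 14) (nat_lit 4) (nat_lit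 431) (nat_lit 274) (nat_lit 195)) (XT.lf (nat_lit 0) (nat_lit 20350881043) (nat_lit 76) (nat_lit 22159149229) (nat_lit 76) (nat_lit 7972391925) (nat_lit 13) (nat_lit 4) (nat_lit 14) (nat_lit 5) (nat_lit 14) (nat_lit 4) (nat_lit 432) (nat_lit 274) (nat_lit 194)))) (XT.nd (nat_lit 78) (nat_lit 152) (nat_lit 0) (XT.lf (nat_lit 0) (nat_lit 32415467105) (nat_lit 76) (nat_lit 16816585382) (nat_lit 76) (nat_lit 2586968290) (nat_lit 13) (nat_lit 4) (nat_lit 14) (nat_lit 5) (nat_lit 14) (nat_lit 4) (nat_lit 433) (nat_lit 274) (nat_lit 193)) (XT.nd (nat_lit 78) (nat_lit 76) (nat_lit 0) (XT.lf (nat_lit 0) (nat_lit 2875059531) (nat_lit 152) (nat_lit 8434857688) (nat_lit 76) (nat_lit 41885764108) (nat_lit 12) (nat_lit 5) (nat_lit 14) (nat_lit 5) (nat_lit 13) (nat_lit 4) (nat_lit 434) (nat_lit 274) (nat_lit 192)) (XT.lf (nat_lit 0) (nat_lit 2841592005) (nat_lit 76) (nat_lit 5608270064) (nat_lit 152) (nat_lit 46162985565)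 (nat_lit 11) (nat_lit 5) (nat_lit 12) (nat_lit 5) (nat_lit 13) (nat_lit 4) (nat_lit 435) (nat_lit 274) (nat_lit 191))))) (XT.nd (nat_lit 234) (nat_lit 76) (nat_lit 0) (XT.nd (nat_lit 78) (nat_lit 0) (nat_lit 0) (XT.lf (nat_lit 0) (nat_lit 14254110235) (nat_lit 152) (nat_lit 41495308828) (nat_lit 0) (nat_lit 321245405) (nat_lit 11) (nat_lit 5) (nat_lit 13) (nat_lit 4) (nat_lit 11) (nat_lit 4) (nat_lit 436) (nat_lit 274) (nat_lit 190)) (XT.nd (nat_lit 78) (nat_lit 0) (nat_lit 0) (XT.lf (nat_lit 0) (nat_lit 20262421887) (nat_lit 152) (nat_lit 31016311546) (nat_lit 0) (nat_lit 6292585829) (nat_lit 11) (nat_lit 5) (nat_lit 13) (nat_lit 4) (nat_lit 11) (nat_lit 4) (nat_lit 437) (nat_lit 274) (nat_lit 189)) (XT.lf (nat_lit 0) (nat_lit 26426136886) (nat_lit 152) (nat_lit 20271197255) (nat_lit 0) (nat_lit 12420406430) (nat_lit 11) (nat_lit 5) (nat_lit 13) (nat_lit 4) (nat_lit 11) (nat_lit 4) (nat_lit 438) (nat_lit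 274) (nat_lit 188)))) (XT.nd (nat_lit 156) (nat_lit 0) (nat_lit 0) (XT.nd (nat_lit 78) (nat_lit 76) (nat_lit 0) (XT.lf (nat_lit 0) (nat_lit 32750641002) (nat_lit 152) (nat_lit 9250577022) (nat_lit 0) (nat_lit 18710061616) (nat_lit 11) (nat_lit 5) (nat_lit 13) (nat_lit 4) (nat_lit 11) (nat_lit 4) (nat_lit 439) (nat_lit 274) (nat_lit 187)) (XT.lf (nat_lit 0) (nat_lit 2096080910) (nat_lit 76) (nat_lit 37165528401) (nat_lit 76) (nat_lit 23091115103) (nat_lit 10) (nat_lit 4) (nat_lit 11) (nat_lit 5) (nat_lit 11) (nat_lit 4) (nat_lit 440) (nat_lit 274) (nat_lit 186))) (XT.nd (nat_lit 78) (nat_lit 0) (nat_lit 0) (XT.lf (nat_lit 0) (nat_lit 13927729256) (nat_lit 76) (nat_lit 32110419566) (nat_lit 76) (nat_lit 18003157810) (nat_lit 10) (nat_lit 4) (nat_lit 11) (nat_lit 5) (nat_lit 11) (nat_lit 4) (nat_lit 441) (nat_lit 274) (nat_lit 185)) (XT.lf (nat_lit 0) (nat_lit 26070601728) (nat_lit 76) (nat_lit 26924887124)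 (nat_lit 76) (nat_lit 12785733660) (nat_lit 10) (nat_lit 4) (nat_lit 11) (nat_lit 5) (nat_lit 11) (nat_lit 4) (nat_lit 442) (nat_lit 274) (nat_lit 184)))))) (XT.nd (nat_lit 39624) (nat_lit 0) (nat_lit 6916) (XT.nd (nat_lit 234) (nat_lit 76) (nat_lit 0) (XT.nd (nat_lit 78) (nat_lit 76) (nat_lit 0) (XT.lf (nat_lit 0) (nat_lit 38535308603) (nat_lit 76) (nat_lit 21604400026) (nat_lit 76) (nat_lit 7434283740) (nat_lit 10) (nat_lit 4) (nat_lit 11) (nat_lit 5) (nat_lit 11) (nat_lit 4) (nat_lit 443) (nat_lit 274) (nat_lit 183)) (XT.nd (nat_lit 78) (nat_lit 76) (nat_lit 0) (XT.lf (nat_lit 0) (nat_lit 51332741373) (nat_lit 76) (nat_lit 16144309304) (nat_lit 76) (nat_lit 1944132025) (nat_lit 10) (nat_lit 4) (nat_lit 11) (nat_lit 5) (nat_lit 11) (nat_lit 4) (nat_lit 444) (nat_lit 274) (nat_lit 182)) (XT.lf (nat_lit 0) (nat_lit 3617522905) (nat_lit 152) (nat_lit 6885791210) (nat_lit 76) (nat_lit 60820029465) (nat_lit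 9) (nat_lit 5) (nat_lit 11) (nat_lit 5) (nat_lit 10) (nat_lit 4) (nat_lit 445) (nat_lit 274) (nat_lit 181)))) (XT.nd (nat_lit 156) (nat_lit 0) (nat_lit 0) (XT.nd (nat_lit 78) (nat_lit 0) (nat_lit 0) (XT.lf (nat_lit 0) (nat_lit 4685875619) (nat_lit 76) (nat_lit 4645934083) (nat_lit 152) (nat_lit 63949437542) (nat_lit 8) (nat_lit 5) (nat_lit 9) (nat_lit 5) (nat_lit 10) (nat_lit 4) (nat_lit 446) (nat_lit 274) (nat_lit 180)) (XT.lf (nat_lit 0) (nat_lit 15280927377) (nat_lit 152) (nat_lit 58603266428) (nat_lit 0) (nat_lit 1411793256) (nat_lit 8) (nat_lit 5) (nat_lit 10) (nat_lit 4) (nat_lit 8) (nat_lit 4) (nat_lit 447) (nat_lit 274) (nat_lit 179))) (XT.nd (nat_lit 78) (nat_lit 0) (nat_lit 0) (XT.lf (nat_lit 0) (nat_lit 21434951460) (nat_lit 152) (nat_lit 48395539241) (nat_lit 0) (nat_lit 7539886462) (nat_lit 8) (nat_lit 5) (nat_lit 10) (nat_lit 4) (nat_lit 8) (nat_lit 4) (nat_lit 448) (nat_lit 274) (nat_lit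 178)) (XT.lf (nat_lit 0) (nat_lit 27754599693) (nat_lit 152) (nat_lit 37918611131) (nat_lit 0) (nat_lit 13834359087) (nat_lit 8) (nat_lit 5) (nat_lit 10) (nat_lit 4) (nat_lit 8) (nat_lit 4) (nat_lit 449) (nat_lit 274) (nat_lit 177))))) (XT.nd (nat_lit 234) (nat_lit 912) (nat_lit 0) (XT.nd (nat_lit 78) (nat_lit 684) (nat_lit 0) (XT.lf (nat_lit 0) (nat_lit 1295295153) (nat_lit 380) (nat_lit 2065965842) (nat_lit 0) (nat_lit 1295295153) (nat_lit 120) (nat_lit 5) (nat_lit 125) (nat_lit 4) (nat_lit 120) (nat_lit 4) (nat_lit 350) (nat_lit 275) (nat_lit 275)) (XT.nd (nat_lit 78) (nat_lit 380) (nat_lit 0) (XT.lf (nat_lit 0) (nat_lit 3409687392) (nat_lit 304) (nat_lit 3451044048) (nat_lit 304) (nat_lit 2577173835) (nat_lit 116) (nat_lit 4) (nat_lit 120) (nat_lit 5) (nat_lit 120) (nat_lit 4) (nat_lit 351) (nat_lit 275) (nat_lit 274)) (XT.lf (nat_lit 0) (nat_lit 1559022651) (nat_lit 304) (nat_lit 57386485) (nat_lit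 380) (nat_lit 7950872001) (nat_lit 111) (nat_lit 5) (nat_lit 115) (nat_lit 5) (nat_lit 116) (nat_lit 4) (nat_lit 352) (nat_lit 275) (nat_lit 273)))) (XT.nd (nat_lit 156) (nat_lit 532) (nat_lit 0) (XT.nd (nat_lit 78) (nat_lit 380) (nat_lit 0) (XT.lf (nat_lit 0) (nat_lit 5879282674) (nat_lit 380) (nat_lit 413221427) (nat_lit 0) (nat_lit 3407443466) (nat_lit 111) (nat_lit 5) (nat_lit 116) (nat_lit 4) (nat_lit 111) (nat_lit 4) (nat_lit 353) (nat_lit 275) (nat_lit 272)) (XT.lf (nat_lit 0) (nat_lit 400114601) (nat_lit 380) (nat_lit 2436028934) (nat_lit 76) (nat_lit 7001103061) (nat_lit 106) (nat_lit 5) (nat_lit 111) (nat_lit 5) (nat_lit 107) (nat_lit 4) (nat_lit 354) (nat_lit 275) (nat_lit 271))) (XT.nd (nat_lit 78) (nat_lit 304) (nat_lit 0) (XT.lf (nat_lit 0) (nat_lit 4638286437) (nat_lit 304) (nat_lit 4587465036) (nat_lit 0) (nat_lit 752781876) (nat_lit 103) (nat_lit 5) (nat_lit 107) (nat_lit 4) (nat_lit 103)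 (nat_lit 4) (nat_lit 355) (nat_lit 275) (nat_lit 270)) (XT.lf (nat_lit 0) (nat_lit 3265258445) (nat_lit 304) (nat_lit 5727596629) (nat_lit 304) (nat_lit 1131555615) (nat_lit 99) (nat_lit 4) (nat_lit 103) (nat_lit 5) (nat_lit 103) (nat_lit 4) (nat_lit 356) (nat_lit 275) (nat_lit 269))))))))
noncomputable def xc47 : XT := (XT.nd (nat_lit 2106) (nat_lit 1748) (nat_lit 0) (XT.nd (nat_lit 1014) (nat_lit 1824) (nat_lit 0) (XT.nd (nat_lit 468) (nat_lit 1064) (nat_lit 0) (XT.nd (nat_lit 234) (nat_lit 532) (nat_lit 0) (XT.nd (nat_lit 78) (nat_lit 304) (nat_lit 0) (XT.lf (nat_lit 0) (nat_lit 1012664266) (nat_lit 228) (nat_lit 2090067997) (nat_lit 304) (nat_lit 7172180765) (nat_lit 95) (nat_lit 5) (nat_lit 98) (nat_lit 5) (nat_lit 99) (nat_lit 4) (nat_lit 357) (nat_lit 275) (nat_lit 268)) (XT.nd (nat_lit 78) (nat_lit 304) (nat_lit 0) (XT.lf (nat_lit 0) (nat_lit 7433303680) (nat_lit 304) (nat_lit 1345420061) (nat_lit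 0) (nat_lit 1651137677) (nat_lit 95) (nat_lit 5) (nat_lit 99) (nat_lit 4) (nat_lit 95) (nat_lit 4) (nat_lit 358) (nat_lit 275) (nat_lit 267)) (XT.lf (nat_lit 0) (nat_lit 1273469273) (nat_lit 304) (nat_lit 3828325813) (nat_lit 76) (nat_lit 5487474882) (nat_lit 91) (nat_lit 5) (nat_lit 95) (nat_lit 5) (nat_lit 92) (nat_lit 4) (nat_lit 359) (nat_lit 275) (nat_lit 266)))) (XT.nd (nat_lit 78) (nat_lit 304) (nat_lit 0) (XT.lf (nat_lit 0) (nat_lit 4291982620) (nat_lit 228) (nat_lit 1283567155) (nat_lit 304) (nat_lit 5178120251) (nat_lit 88) (nat_lit 5) (nat_lit 91) (nat_lit 5) (nat_lit 92) (nat_lit 4) (nat_lit 360) (nat_lit 275) (nat_lit 265)) (XT.nd (nat_lit 78) (nat_lit 76) (nat_lit 0) (XT.lf (nat_lit 0) (nat_lit 1671581835) (nat_lit 228) (nat_lit 8325596172) (nat_lit 228) (nat_lit 926133533) (nat_lit 85) (nat_lit 4) (nat_lit 88) (nat_lit 5) (nat_lit 88) (nat_lit 4) (nat_lit 361) (nat_lit 275) (nat_lit 264))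 (XT.lf (nat_lit 0) (nat_lit 3374854282) (nat_lit 304) (nat_lit 1109412481) (nat_lit 76) (nat_lit 6613137381) (nat_lit 84) (nat_lit 5) (nat_lit 88) (nat_lit 5) (nat_lit 85) (nat_lit 4) (nat_lit 362) (nat_lit 275) (nat_lit 263))))) (XT.nd (nat_lit 234) (nat_lit 456) (nat_lit 0) (XT.nd (nat_lit 78) (nat_lit 456) (nat_lit 0) (XT.lf (nat_lit 0) (nat_lit 7266019811) (nat_lit 152) (nat_lit 502922805) (nat_lit 228) (nat_lit 3508043240) (nat_lit 82) (nat_lit 5) (nat_lit 84) (nat_lit 5) (nat_lit 85) (nat_lit 4) (nat_lit 363) (nat_lit 275) (nat_lit 262)) (XT.nd (nat_lit 78) (nat_lit 152) (nat_lit 0) (XT.lf (nat_lit 0) (nat_lit 817913258) (nat_lit 304) (nat_lit 7110159921) (nat_lit 76) (nat_lit 3533624339) (nat_lit 78) (nat_lit 5) (nat_lit 82) (nat_lit 5) (nat_lit 79) (nat_lit 4) (nat_lit 364) (nat_lit 275) (nat_lit 261)) (XT.lf (nat_lit 0) (nat_lit 1235658911) (nat_lit 152) (nat_lit 3938990704) (nat_lit 228) (nat_lit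 6477133753) (nat_lit 76) (nat_lit 5) (nat_lit 78) (nat_lit 5) (nat_lit 79) (nat_lit 4) (nat_lit 365) (nat_lit 275) (nat_lit 260)))) (XT.nd (nat_lit 156) (nat_lit 152) (nat_lit 0) (XT.nd (nat_lit 78) (nat_lit 304) (nat_lit 0) (XT.lf (nat_lit 0) (nat_lit 9650552583) (nat_lit 228) (nat_lit 2015492952) (nat_lit 0) (nat_lit 181891847) (nat_lit 76) (nat_lit 5) (nat_lit 79) (nat_lit 4) (nat_lit 76) (nat_lit 4) (nat_lit 366) (nat_lit 275) (nat_lit 259)) (XT.lf (nat_lit 0) (nat_lit 2186910446) (nat_lit 304) (nat_lit 5485298842) (nat_lit 76) (nat_lit 4376568791) (nat_lit 72) (nat_lit 5) (nat_lit 76) (nat_lit 5) (nat_lit 73) (nat_lit 4) (nat_lit 367) (nat_lit 275) (nat_lit 258))) (XT.nd (nat_lit 78) (nat_lit 0) (nat_lit 0) (XT.lf (nat_lit 0) (nat_lit 3082915876) (nat_lit 152) (nat_lit 3542909616) (nat_lit 228) (nat_lit 5630165997) (nat_lit 70) (nat_lit 5) (nat_lit 72) (nat_lit 5) (nat_lit 73) (nat_lit 4) (nat_lit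 368) (nat_lit 275) (nat_lit 257)) (XT.lf (nat_lit 0) (nat_lit 11178252876) (nat_lit 228) (nat_lit 596431399) (nat_lit 0) (nat_lit 695344029) (nat_lit 70) (nat_lit 5) (nat_lit 73) (nat_lit 4) (nat_lit 70) (nat_lit 4) (nat_lit 369) (nat_lit 275) (nat_lit 256)))))) (XT.nd (nat_lit 546) (nat_lit 760) (nat_lit 0) (XT.nd (nat_lit 234) (nat_lit 456) (nat_lit 0) (XT.nd (nat_lit 78) (nat_lit 304) (nat_lit 0) (XT.lf (nat_lit 0) (nat_lit 3149220341) (nat_lit 304) (nat_lit 4495200565) (nat_lit 76) (nat_lit 5044132249) (nat_lit 66) (nat_lit 5) (nat_lit 70) (nat_lit 5) (nat_lit 67) (nat_lit 4) (nat_lit 370) (nat_lit 275) (nat_lit 255)) (XT.nd (nat_lit 78) (nat_lit 152) (nat_lit 0) (XT.lf (nat_lit 0) (nat_lit 4278201008) (nat_lit 152) (nat_lit 3386688485) (nat_lit 228) (nat_lit 5249354231) (nat_lit 64) (nat_lit 5) (nat_lit 66) (nat_lit 5) (nat_lit 67) (nat_lit 4) (nat_lit 371) (nat_lit 275) (nat_lit 254)) (XT.lf (nat_lit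 0) (nat_lit 115303086) (nat_lit 152) (nat_lit 12177930700) (nat_lit 152) (nat_lit 854170486) (nat_lit 62) (nat_lit 4) (nat_lit 64) (nat_lit 5) (nat_lit 64) (nat_lit 4) (nat_lit 372) (nat_lit 275) (nat_lit 253)))) (XT.nd (nat_lit 156) (nat_lit 228) (nat_lit 0) (XT.nd (nat_lit 78) (nat_lit 152) (nat_lit 0) (XT.lf (nat_lit 0) (nat_lit 3643655949) (nat_lit 228) (nat_lit 4287161593) (nat_lit 76) (nat_lit 5454423705) (nat_lit 61) (nat_lit 5) (nat_lit 64) (nat_lit 5) (nat_lit 62) (nat_lit 4) (nat_lit 373) (nat_lit 275) (nat_lit 252)) (XT.lf (nat_lit 0) (nat_lit 4668063700) (nat_lit 152) (nat_lit 3559218922) (nat_lit 228) (nat_lit 5403650098) (nat_lit 59) (nat_lit 5) (nat_lit 61) (nat_lit 5) (nat_lit 62) (nat_lit 4) (nat_lit 374) (nat_lit 275) (nat_lit 251))) (XT.nd (nat_lit 78) (nat_lit 228) (nat_lit 0) (XT.lf (nat_lit 0) (nat_lit 12924772843) (nat_lit 228) (nat_lit 47479285) (nat_lit 0) (nat_lit 912465862) (nat_lit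 59) (nat_lit 5) (nat_lit 62) (nat_lit 4) (nat_lit 59) (nat_lit 4) (nat_lit 375) (nat_lit 275) (nat_lit 250)) (XT.lf (nat_lit 0) (nat_lit 3595922021) (nat_lit 228) (nat_lit 5032461011) (nat_lit 76) (nat_lit 5515220613) (nat_lit 56) (nat_lit 5) (nat_lit 59) (nat_lit 5) (nat_lit 57) (nat_lit 4) (nat_lit 376) (nat_lit 275) (nat_lit 249))))) (XT.nd (nat_lit 234) (nat_lit 380) (nat_lit 0) (XT.nd (nat_lit 78) (nat_lit 228) (nat_lit 0) (XT.lf (nat_lit 0) (nat_lit 4073863955) (nat_lit 152) (nat_lit 4160917146) (nat_lit 228) (nat_lit 6176233876) (nat_lit 54) (nat_lit 5) (nat_lit 56) (nat_lit 5) (nat_lit 57) (nat_lit 4) (nat_lit 377) (nat_lit 275) (nat_lit 248)) (XT.nd (nat_lit 78) (nat_lit 228) (nat_lit 0) (XT.lf (nat_lit 0) (nat_lit 12994685634) (nat_lit 228) (nat_lit 1264871256) (nat_lit 0) (nat_lit 427447536) (nat_lit 54) (nat_lit 5) (nat_lit 57) (nat_lit 4) (nat_lit 54) (nat_lit 4) (nat_lit 378) (nat_lit 275)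 (nat_lit 247)) (XT.lf (nat_lit 0) (nat_lit 2916690891) (nat_lit 228) (nat_lit 6930561035) (nat_lit 76) (nat_lit 5121758988) (nat_lit 51) (nat_lit 5) (nat_lit 54) (nat_lit 5) (nat_lit 52) (nat_lit 4) (nat_lit 379) (nat_lit 275) (nat_lit 246)))) (XT.nd (nat_lit 156) (nat_lit 228) (nat_lit 0) (XT.nd (nat_lit 78) (nat_lit 0) (nat_lit 0) (XT.lf (nat_lit 0) (nat_lit 2287369141) (nat_lit 152) (nat_lit 5306098989) (nat_lit 228) (nat_lit 7666612597) (nat_lit 49) (nat_lit 5) (nat_lit 51) (nat_lit 5) (nat_lit 52) (nat_lit 4) (nat_lit 380) (nat_lit 275) (nat_lit 245)) (XT.lf (nat_lit 0) (nat_lit 11797074270) (nat_lit 152) (nat_lit 612943624) (nat_lit 228) (nat_lit 3149891475) (nat_lit 49) (nat_lit 5) (nat_lit 51) (nat_lit 5) (nat_lit 52) (nat_lit 4) (nat_lit 381) (nat_lit 275) (nat_lit 244))) (XT.nd (nat_lit 78) (nat_lit 0) (nat_lit 0) (XT.lf (nat_lit 0) (nat_lit 1499341632) (nat_lit 228) (nat_lit 10213958136) (nat_lit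 76) (nat_lit 4154220265) (nat_lit 46) (nat_lit 5) (nat_lit 49) (nat_lit 5) (nat_lit 47) (nat_lit 4) (nat_lit 382) (nat_lit 275) (nat_lit 243)) (XT.lf (nat_lit 0) (nat_lit 6200334387) (nat_lit 228) (nat_lit 916100958) (nat_lit 76) (nat_lit 9067730183) (nat_lit 46) (nat_lit 5) (nat_lit 49) (nat_lit 5) (nat_lit 47) (nat_lit 4) (nat_lit 383) (nat_lit 275) (nat_lit 242))))))) (XT.nd (nat_lit 1014) (nat_lit 760) (nat_lit 0) (XT.nd (nat_lit 468) (nat_lit 380) (nat_lit 0) (XT.nd (nat_lit 234) (nat_lit 304) (nat_lit 0) (XT.nd (nat_lit 78) (nat_lit 228) (nat_lit 0) (XT.lf (nat_lit 0) (nat_lit 8709445467) (nat_lit 76) (nat_lit 2349787449) (nat_lit 152) (nat_lit 5450580798) (nat_lit 45) (nat_lit 5) (nat_lit 46) (nat_lit 5) (nat_lit 47) (nat_lit 4) (nat_lit 384) (nat_lit 275) (nat_lit 241)) (XT.nd (nat_lit 78) (nat_lit 76) (nat_lit 0) (XT.lf (nat_lit 0) (nat_lit 1684268183) (nat_lit 152) (nat_lit 14363199879) (nat_lit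 152) (nat_lit 798265520) (nat_lit 43) (nat_lit 4) (nat_lit 45) (nat_lit 5) (nat_lit 45) (nat_lit 4) (nat_lit 385) (nat_lit 275) (nat_lit 240)) (XT.lf (nat_lit 0) (nat_lit 3952055315) (nat_lit 228) (nat_lit 5760081878) (nat_lit 76) (nat_lit 7477359988) (nat_lit 42) (nat_lit 5) (nat_lit 45) (nat_lit 5) (nat_lit 43) (nat_lit 4) (nat_lit 386) (nat_lit 275) (nat_lit 239)))) (XT.nd (nat_lit 78) (nat_lit 228) (nat_lit 0) (XT.lf (nat_lit 0) (nat_lit 3872933563) (nat_lit 76) (nat_lit 4928624701) (nat_lit 152) (nat_lit 8742605347) (nat_lit 41) (nat_lit 5) (nat_lit 42) (nat_lit 5) (nat_lit 43) (nat_lit 4) (nat_lit 387) (nat_lit 275) (nat_lit 238)) (XT.nd (nat_lit 78) (nat_lit 228) (nat_lit 0) (XT.lf (nat_lit 0) (nat_lit 13791004104) (nat_lit 152) (nat_lit 4113603147) (nat_lit 0) (nat_lit 5037332) (nat_lit 41) (nat_lit 5) (nat_lit 43) (nat_lit 4) (nat_lit 41) (nat_lit 4) (nat_lit 388) (nat_lit 275) (nat_lit 237)) (XT.lf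 (nat_lit 0) (nat_lit 672854663) (nat_lit 228) (nat_lit 12613601884) (nat_lit 76) (nat_lit 4998214151) (nat_lit 38) (nat_lit 5) (nat_lit 41) (nat_lit 5) (nat_lit 39) (nat_lit 4) (nat_lit 389) (nat_lit 275) (nat_lit 236))))) (XT.nd (nat_lit 234) (nat_lit 304) (nat_lit 0) (XT.nd (nat_lit 78) (nat_lit 76) (nat_lit 0) (XT.lf (nat_lit 0) (nat_lit 5504973940) (nat_lit 228) (nat_lit 2992293035) (nat_lit 76) (nat_lit 10173075051) (nat_lit 38) (nat_lit 5) (nat_lit 41) (nat_lit 5) (nat_lit 39) (nat_lit 4) (nat_lit 390) (nat_lit 275) (nat_lit 235)) (XT.nd (nat_lit 78) (nat_lit 0) (nat_lit 0) (XT.lf (nat_lit 0) (nat_lit 6941450020) (nat_lit 76) (nat_lit 3546855800) (nat_lit 152) (nat_lit 8579097563) (nat_lit 37) (nat_lit 5) (nat_lit 38) (nat_lit 5) (nat_lit 39) (nat_lit 4) (nat_lit 391) (nat_lit 275) (nat_lit 234)) (XT.lf (nat_lit 0) (nat_lit 15606306577) (nat_lit 152) (nat_lit 2368019618) (nat_lit 0) (nat_lit 1502502466)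 (nat_lit 37) (nat_lit 5) (nat_lit 39) (nat_lit 4) (nat_lit 37) (nat_lit 4) (nat_lit 392) (nat_lit 275) (nat_lit 233)))) (XT.nd (nat_lit 156) (nat_lit 76) (nat_lit 0) (XT.nd (nat_lit 78) (nat_lit 0) (nat_lit 0) (XT.lf (nat_lit 0) (nat_lit 1011211847) (nat_lit 228) (nat_lit 12217984807) (nat_lit 76) (nat_lit 6667534035) (nat_lit 34) (nat_lit 5) (nat_lit 37) (nat_lit 5) (nat_lit 35) (nat_lit 4) (nat_lit 393) (nat_lit 275) (nat_lit 232)) (XT.lf (nat_lit 0) (nat_lit 5927333655) (nat_lit 228) (nat_lit 2400335933) (nat_lit 76) (nat_lit 12001445187) (nat_lit 34) (nat_lit 5) (nat_lit 37) (nat_lit 5) (nat_lit 35) (nat_lit 4) (nat_lit 394) (nat_lit 275) (nat_lit 231))) (XT.nd (nat_lit 78) (nat_lit 0) (nat_lit 0) (XT.lf (nat_lit 0) (nat_lit 7757667887) (nat_lit 76) (nat_lit 3251124627) (nat_lit 152) (nat_lit 9765148616) (nat_lit 33) (nat_lit 5) (nat_lit 34) (nat_lit 5) (nat_lit 35) (nat_lit 4) (nat_lit 395) (nat_lit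 275) (nat_lit 230)) (XT.lf (nat_lit 0) (nat_lit 16229648341) (nat_lit 152) (nat_lit 3086762049) (nat_lit 0) (nat_lit 1916099456) (nat_lit 33) (nat_lit 5) (nat_lit 35) (nat_lit 4) (nat_lit 33) (nat_lit 4) (nat_lit 396) (nat_lit 275) (nat_lit 229)))))) (XT.nd (nat_lit 546) (nat_lit 304) (nat_lit 0) (XT.nd (nat_lit 234) (nat_lit 152) (nat_lit 0) (XT.nd (nat_lit 78) (nat_lit 152) (nat_lit 0) (XT.lf (nat_lit 0) (nat_lit 7145211532) (nat_lit 152) (nat_lit 14507902003) (nat_lit 152) (nat_lit 50348563) (nat_lit 31) (nat_lit 4) (nat_lit 33) (nat_lit 5) (nat_lit 33) (nat_lit 4) (nat_lit 397) (nat_lit 275) (nat_lit 228)) (XT.nd (nat_lit 78) (nat_lit 76) (nat_lit 0) (XT.lf (nat_lit 0) (nat_lit 4928849246) (nat_lit 228) (nat_lit 4591799716) (nat_lit 76) (nat_lit 12667143045) (nat_lit 30) (nat_lit 5) (nat_lit 33) (nat_lit 5) (nat_lit 31) (nat_lit 4) (nat_lit 398) (nat_lit 275) (nat_lit 227)) (XT.lf (nat_lit 0) (nat_lit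 5684307859) (nat_lit 76) (nat_lit 4373529407) (nat_lit 152) (nat_lit 12628762284) (nat_lit 29) (nat_lit 5) (nat_lit 30) (nat_lit 5) (nat_lit 31) (nat_lit 4) (nat_lit 399) (nat_lit 275) (nat_lit 226)))) (XT.nd (nat_lit 156) (nat_lit 76) (nat_lit 0) (XT.nd (nat_lit 78) (nat_lit 76) (nat_lit 0) (XT.lf (nat_lit 0) (nat_lit 15343384529) (nat_lit 152) (nat_lit 6945455395) (nat_lit 0) (nat_lit 911456025) (nat_lit 29) (nat_lit 5) (nat_lit 31) (nat_lit 4) (nat_lit 29) (nat_lit 4) (nat_lit 400) (nat_lit 275) (nat_lit 225)) (XT.lf (nat_lit 0) (nat_lit 3337907097) (nat_lit 76) (nat_lit 17473466570) (nat_lit 76) (nat_lit 2917318471) (nat_lit 28) (nat_lit 4) (nat_lit 29) (nat_lit 5) (nat_lit 29) (nat_lit 4) (nat_lit 401) (nat_lit 275) (nat_lit 224))) (XT.nd (nat_lit 78) (nat_lit 0) (nat_lit 0) (XT.lf (nat_lit 0) (nat_lit 2147493556) (nat_lit 152) (nat_lit 10317337725) (nat_lit 76) (nat_lit 11806906341) (nat_lit 27) (nat_lit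 5) (nat_lit 29) (nat_lit 5) (nat_lit 28) (nat_lit 4) (nat_lit 402) (nat_lit 275) (nat_lit 223)) (XT.lf (nat_lit 0) (nat_lit 7255668070) (nat_lit 152) (nat_lit 64832344) (nat_lit 76) (nat_lit 17511210651) (nat_lit 27) (nat_lit 5) (nat_lit 29) (nat_lit 5) (nat_lit 28) (nat_lit 4) (nat_lit 403) (nat_lit 275) (nat_lit 222))))) (XT.nd (nat_lit 234) (nat_lit 152) (nat_lit 0) (XT.nd (nat_lit 78) (nat_lit 76) (nat_lit 0) (XT.lf (nat_lit 0) (nat_lit 10610787328) (nat_lit 76) (nat_lit 1959805962) (nat_lit 152) (nat_lit 12836289844) (nat_lit 26) (nat_lit 5) (nat_lit 27) (nat_lit 5) (nat_lit 28) (nat_lit 4) (nat_lit 404) (nat_lit 275) (nat_lit 221)) (XT.nd (nat_lit 78) (nat_lit 76) (nat_lit 0) (XT.lf (nat_lit 0) (nat_lit 18031504011) (nat_lit 152) (nat_lit 4517181105) (nat_lit 0) (nat_lit 3451033571) (nat_lit 26) (nat_lit 5) (nat_lit 28) (nat_lit 4) (nat_lit 26) (nat_lit 4) (nat_lit 405) (nat_lit 275) (nat_lit 220))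 (XT.lf (nat_lit 0) (nat_lit 6080365133) (nat_lit 76) (nat_lit 17606776946) (nat_lit 76) (nat_lit 2922274552) (nat_lit 25) (nat_lit 4) (nat_lit 26) (nat_lit 5) (nat_lit 26) (nat_lit 4) (nat_lit 406) (nat_lit 275) (nat_lit 219)))) (XT.nd (nat_lit 156) (nat_lit 0) (nat_lit 0) (XT.nd (nat_lit 78) (nat_lit 76) (nat_lit 0) (XT.lf (nat_lit 0) (nat_lit 2229820340) (nat_lit 152) (nat_lit 10258968999) (nat_lit 76) (nat_lit 14747989049) (nat_lit 24) (nat_lit 5) (nat_lit 26) (nat_lit 5) (nat_lit 25) (nat_lit 4) (nat_lit 407) (nat_lit 275) (nat_lit 218)) (XT.lf (nat_lit 0) (nat_lit 207886036) (nat_lit 76) (nat_lit 7226325994) (nat_lit 152) (nat_lit 20449190861) (nat_lit 23) (nat_lit 5) (nat_lit 24) (nat_lit 5) (nat_lit 25) (nat_lit 4) (nat_lit 408) (nat_lit 275) (nat_lit 217))) (XT.nd (nat_lit 78) (nat_lit 0) (nat_lit 0) (XT.lf (nat_lit 0) (nat_lit 11113439978) (nat_lit 76) (nat_lit 1739864622) (nat_lit 152) (nat_lit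 15694368297) (nat_lit 23) (nat_lit 5) (nat_lit 24) (nat_lit 5) (nat_lit 25) (nat_lit 4) (nat_lit 409) (nat_lit 275) (nat_lit 216)) (XT.lf (nat_lit 0) (nat_lit 18428473098) (nat_lit 152) (nat_lit 7007355875) (nat_lit 0) (nat_lit 3796240665) (nat_lit 23) (nat_lit 5) (nat_lit 25) (nat_lit 4) (nat_lit 23) (nat_lit 4) (nat_lit 410) (nat_lit 275) (nat_lit 215))))))))
noncomputable def xc48 : XT := (XT.nd (nat_lit 2028) (nat_lit 228) (nat_lit 0) (XT.nd (nat_lit 1014) (nat_lit 456) (nat_lit 0) (XT.nd (nat_lit 468) (nat_lit 228) (nat_lit 0) (XT.nd (nat_lit 234) (nat_lit 76) (nat_lit 0) (XT.nd (nat_lit 78) (nat_lit 76) (nat_lit 0) (XT.lf (nat_lit 0) (nat_lit 3705814248) (nat_lit 76) (nat_lit 20475122012) (nat_lit 76) (nat_lit 5755764455) (nat_lit 22) (nat_lit 4) (nat_lit 23) (nat_lit 5) (nat_lit 23) (nat_lit 4) (nat_lit 411) (nat_lit 275) (nat_lit 214)) (XT.nd (nat_lit 78) (nat_lit 76) (nat_lit 0) (XT.lf (nat_lit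 0) (nat_lit 14803222773) (nat_lit 76) (nat_lit 15331171941) (nat_lit 76) (nat_lit 527226884) (nat_lit 22) (nat_lit 4) (nat_lit 23) (nat_lit 5) (nat_lit 23) (nat_lit 4) (nat_lit 412) (nat_lit 275) (nat_lit 213)) (XT.lf (nat_lit 0) (nat_lit 4721850164) (nat_lit 152) (nat_lit 5300713007) (nat_lit 76) (nat_lit 21385574751) (nat_lit 21) (nat_lit 5) (nat_lit 23) (nat_lit 5) (nat_lit 22) (nat_lit 4) (nat_lit 413) (nat_lit 275) (nat_lit 212)))) (XT.nd (nat_lit 78) (nat_lit 0) (nat_lit 0) (XT.lf (nat_lit 0) (nat_lit 5600807496) (nat_lit 76) (nat_lit 4530526576) (nat_lit 152) (nat_lit 22045156339) (nat_lit 20) (nat_lit 5) (nat_lit 21) (nat_lit 5) (nat_lit 22) (nat_lit 4) (nat_lit 414) (nat_lit 275) (nat_lit 211)) (XT.nd (nat_lit 78) (nat_lit 0) (nat_lit 0) (XT.lf (nat_lit 0) (nat_lit 15727770571) (nat_lit 152) (nat_lit 16116673877) (nat_lit 0) (nat_lit 1122712109) (nat_lit 20) (nat_lit 5) (nat_lit 22) (nat_lit 4)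 (nat_lit 20) (nat_lit 4) (nat_lit 415) (nat_lit 275) (nat_lit 210)) (XT.lf (nat_lit 0) (nat_lit 21497913067) (nat_lit 152) (nat_lit 5463569581) (nat_lit 0) (nat_lit 6819888685) (nat_lit 20) (nat_lit 5) (nat_lit 22) (nat_lit 4) (nat_lit 20) (nat_lit 4) (nat_lit 416) (nat_lit 275) (nat_lit 209))))) (XT.nd (nat_lit 234) (nat_lit 76) (nat_lit 0) (XT.nd (nat_lit 78) (nat_lit 76) (nat_lit 0) (XT.lf (nat_lit 0) (nat_lit 5544685486) (nat_lit 76) (nat_lit 21911866661) (nat_lit 76) (nat_lit 7163001580) (nat_lit 19) (nat_lit 4) (nat_lit 20) (nat_lit 5) (nat_lit 20) (nat_lit 4) (nat_lit 417) (nat_lit 275) (nat_lit 208)) (XT.nd (nat_lit 78) (nat_lit 76) (nat_lit 0) (XT.lf (nat_lit 0) (nat_lit 16923259035) (nat_lit 76) (nat_lit 16688368778) (nat_lit 76) (nat_lit 1870726319) (nat_lit 19) (nat_lit 4) (nat_lit 20) (nat_lit 5) (nat_lit 20) (nat_lit 4) (nat_lit 418) (nat_lit 275) (nat_lit 207)) (XT.lf (nat_lit 0) (nat_lit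 3473687306) (nat_lit 152) (nat_lit 7832831379) (nat_lit 76) (nat_lit 25064593021) (nat_lit 18) (nat_lit 5) (nat_lit 20) (nat_lit 5) (nat_lit 19) (nat_lit 4) (nat_lit 419) (nat_lit 275) (nat_lit 206)))) (XT.nd (nat_lit 156) (nat_lit 0) (nat_lit 0) (XT.nd (nat_lit 78) (nat_lit 0) (nat_lit 0) (XT.lf (nat_lit 0) (nat_lit 3190444175) (nat_lit 76) (nat_lit 5745363736) (nat_lit 152) (nat_lit 28350321821) (nat_lit 17) (nat_lit 5) (nat_lit 18) (nat_lit 5) (nat_lit 19) (nat_lit 4) (nat_lit 420) (nat_lit 275) (nat_lit 205)) (XT.lf (nat_lit 0) (nat_lit 14605885109) (nat_lit 152) (nat_lit 23590446599) (nat_lit 0) (nat_lit 30946343) (nat_lit 17) (nat_lit 5) (nat_lit 19) (nat_lit 4) (nat_lit 17) (nat_lit 4) (nat_lit 421) (nat_lit 275) (nat_lit 204))) (XT.nd (nat_lit 78) (nat_lit 0) (nat_lit 0) (XT.lf (nat_lit 0) (nat_lit 20468367484) (nat_lit 152) (nat_lit 12893525967) (nat_lit 0) (nat_lit 5834100747) (nat_lit 17) (nat_lit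 5) (nat_lit 19) (nat_lit 4) (nat_lit 17) (nat_lit 4) (nat_lit 422) (nat_lit 275) (nat_lit 203)) (XT.lf (nat_lit 0) (nat_lit 26473149643) (nat_lit 152) (nat_lit 1940348888) (nat_lit 0) (nat_lit 11781282935) (nat_lit 17) (nat_lit 5) (nat_lit 19) (nat_lit 4) (nat_lit 17) (nat_lit 4) (nat_lit 423) (nat_lit 275) (nat_lit 202)))))) (XT.nd (nat_lit 468) (nat_lit 228) (nat_lit 0) (XT.nd (nat_lit 234) (nat_lit 76) (nat_lit 0) (XT.nd (nat_lit 78) (nat_lit 76) (nat_lit 0) (XT.lf (nat_lit 0) (nat_lit 9463318812) (nat_lit 76) (nat_lit 23253126880) (nat_lit 76) (nat_lit 8505337871) (nat_lit 16) (nat_lit 4) (nat_lit 17) (nat_lit 5) (nat_lit 17) (nat_lit 4) (nat_lit 424) (nat_lit 275) (nat_lit 201)) (XT.nd (nat_lit 78) (nat_lit 76) (nat_lit 0) (XT.lf (nat_lit 0) (nat_lit 21186719040) (nat_lit 76) (nat_lit 17947670489) (nat_lit 76) (nat_lit 3145587983) (nat_lit 16) (nat_lit 4) (nat_lit 17) (nat_lit 5) (nat_lit 17) (nat_lit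 4) (nat_lit 425) (nat_lit 275) (nat_lit 200)) (XT.lf (nat_lit 0) (nat_lit 2296992737) (nat_lit 152) (nat_lit 10191899380) (nat_lit 76) (nat_lit 30881290936) (nat_lit 15) (nat_lit 5) (nat_lit 17) (nat_lit 5) (nat_lit 16) (nat_lit 4) (nat_lit 426) (nat_lit 275) (nat_lit 199)))) (XT.nd (nat_lit 78) (nat_lit 0) (nat_lit 0) (XT.lf (nat_lit 0) (nat_lit 964988526) (nat_lit 76) (nat_lit 6853218366) (nat_lit 152) (nat_lit 36674598226) (nat_lit 14) (nat_lit 5) (nat_lit 15) (nat_lit 5) (nat_lit 16) (nat_lit 4) (nat_lit 427) (nat_lit 275) (nat_lit 198)) (XT.nd (nat_lit 78) (nat_lit 0) (nat_lit 0) (XT.lf (nat_lit 0) (nat_lit 12606889464) (nat_lit 76) (nat_lit 970719979) (nat_lit 152) (nat_lit 32069321846) (nat_lit 14) (nat_lit 5) (nat_lit 15) (nat_lit 5) (nat_lit 16) (nat_lit 4) (nat_lit 428) (nat_lit 275) (nat_lit 197)) (XT.lf (nat_lit 0) (nat_lit 19528960041) (nat_lit 152) (nat_lit 22344078206) (nat_lit 0) (nat_lit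 4962069967) (nat_lit 14) (nat_lit 5) (nat_lit 16) (nat_lit 4) (nat_lit 14) (nat_lit 4) (nat_lit 429) (nat_lit 275) (nat_lit 196))))) (XT.nd (nat_lit 234) (nat_lit 152) (nat_lit 0) (XT.nd (nat_lit 78) (nat_lit 76) (nat_lit 0) (XT.lf (nat_lit 0) (nat_lit 25639583183) (nat_lit 152) (nat_lit 11392704034) (nat_lit 0) (nat_lit 11027223160) (nat_lit 14) (nat_lit 5) (nat_lit 16) (nat_lit 4) (nat_lit 14) (nat_lit 4) (nat_lit 430) (nat_lit 275) (nat_lit 195)) (XT.nd (nat_lit 78) (nat_lit 76) (nat_lit 0) (XT.lf (nat_lit 0) (nat_lit 31905487094) (nat_lit 152) (nat_lit 167018992) (nat_lit 0) (nat_lit 17248981489) (nat_lit 14) (nat_lit 5) (nat_lit 16) (nat_lit 4) (nat_lit 14) (nat_lit 4) (nat_lit 431) (nat_lit 275) (nat_lit 194)) (XT.lf (nat_lit 0) (nat_lit 11568529445) (nat_lit 76) (nat_lit 26874821172) (nat_lit 76) (nat_lit 12175455780) (nat_lit 13) (nat_lit 4) (nat_lit 14) (nat_lit 5) (nat_lit 14) (nat_lit 4) (nat_lit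 432) (nat_lit 275) (nat_lit 193)))) (XT.nd (nat_lit 156) (nat_lit 152) (nat_lit 0) (XT.nd (nat_lit 78) (nat_lit 0) (nat_lit 0) (XT.lf (nat_lit 0) (nat_lit 23607433416) (nat_lit 76) (nat_lit 21544673612) (nat_lit 76) (nat_lit 6803696775) (nat_lit 13) (nat_lit 4) (nat_lit 14) (nat_lit 5) (nat_lit 14) (nat_lit 4) (nat_lit 433) (nat_lit 275) (nat_lit 192)) (XT.lf (nat_lit 0) (nat_lit 35956888344) (nat_lit 76) (nat_lit 16079092561) (nat_lit 76) (nat_lit 1297716263) (nat_lit 13) (nat_lit 4) (nat_lit 14) (nat_lit 5) (nat_lit 14) (nat_lit 4) (nat_lit 434) (nat_lit 275) (nat_lit 191))) (XT.nd (nat_lit 78) (nat_lit 76) (nat_lit 0) (XT.lf (nat_lit 0) (nat_lit 4262465387) (nat_lit 152) (nat_lit 6167794338) (nat_lit 76) (nat_lit 44322177085) (nat_lit 12) (nat_lit 5) (nat_lit 14) (nat_lit 5) (nat_lit 13) (nat_lit 4) (nat_lit 435) (nat_lit 275) (nat_lit 190)) (XT.lf (nat_lit 0) (nat_lit 5422241894) (nat_lit 76) (nat_lit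 4568359748) (nat_lit 152) (nat_lit 46221936115) (nat_lit 11) (nat_lit 5) (nat_lit 12) (nat_lit 5) (nat_lit 13) (nat_lit 4) (nat_lit 436) (nat_lit 275) (nat_lit 189))))))) (XT.nd (nat_lit 39936) (nat_lit 0) (nat_lit 5852) (XT.nd (nat_lit 468) (nat_lit 152) (nat_lit 0) (XT.nd (nat_lit 234) (nat_lit 76) (nat_lit 0) (XT.nd (nat_lit 78) (nat_lit 0) (nat_lit 0) (XT.lf (nat_lit 0) (nat_lit 15942760016) (nat_lit 152) (nat_lit 40291154620) (nat_lit 0) (nat_lit 1480963249) (nat_lit 11) (nat_lit 5) (nat_lit 13) (nat_lit 4) (nat_lit 11) (nat_lit 4) (nat_lit 437) (nat_lit 275) (nat_lit 188)) (XT.nd (nat_lit 78) (nat_lit 0) (nat_lit 0) (XT.lf (nat_lit 0) (nat_lit 22094592092) (nat_lit 152) (nat_lit 29569117909) (nat_lit 0) (nat_lit 7597946395) (nat_lit 11) (nat_lit 5) (nat_lit 13) (nat_lit 4) (nat_lit 11) (nat_lit 4) (nat_lit 438) (nat_lit 275) (nat_lit 187)) (XT.lf (nat_lit 0) (nat_lit 28407559389) (nat_lit 152) (nat_lit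 18570903092) (nat_lit 0) (nat_lit 13877079780) (nat_lit 11) (nat_lit 5) (nat_lit 13) (nat_lit 4) (nat_lit 11) (nat_lit 4) (nat_lit 439) (nat_lit 275) (nat_lit 186)))) (XT.nd (nat_lit 78) (nat_lit 76) (nat_lit 0) (XT.lf (nat_lit 0) (nat_lit 34887178092) (nat_lit 152) (nat_lit 7286900079) (nat_lit 0) (nat_lit 20323850024) (nat_lit 11) (nat_lit 5) (nat_lit 13) (nat_lit 4) (nat_lit 11) (nat_lit 4) (nat_lit 440) (nat_lit 275) (nat_lit 185)) (XT.nd (nat_lit 78) (nat_lit 0) (nat_lit 0) (XT.lf (nat_lit 0) (nat_lit 4378185098) (nat_lit 76) (nat_lit 37203010699) (nat_lit 76) (nat_lit 22607790924) (nat_lit 10) (nat_lit 4) (nat_lit 11) (nat_lit 5) (nat_lit 11) (nat_lit 4) (nat_lit 441) (nat_lit 275) (nat_lit 184)) (XT.lf (nat_lit 0) (nat_lit 16500145367) (nat_lit 76) (nat_lit 32027631615) (nat_lit 76) (nat_lit 17401449018) (nat_lit 10) (nat_lit 4) (nat_lit 11) (nat_lit 5) (nat_lit 11) (nat_lit 4) (nat_lit 442) (nat_lit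 275) (nat_lit 183))))) (XT.nd (nat_lit 234) (nat_lit 152) (nat_lit 0) (XT.nd (nat_lit 78) (nat_lit 0) (nat_lit 0) (XT.lf (nat_lit 0) (nat_lit 28944549133) (nat_lit 76) (nat_lit 26717002147) (nat_lit 76) (nat_lit 12060758557) (nat_lit 10) (nat_lit 4) (nat_lit 11) (nat_lit 5) (nat_lit 11) (nat_lit 4) (nat_lit 443) (nat_lit 275) (nat_lit 182)) (XT.nd (nat_lit 78) (nat_lit 0) (nat_lit 0) (XT.lf (nat_lit 0) (nat_lit 41722270146) (nat_lit 76) (nat_lit 21266481939) (nat_lit 76) (nat_lit 6581052919) (nat_lit 10) (nat_lit 4) (nat_lit 11) (nat_lit 5) (nat_lit 11) (nat_lit 4) (nat_lit 444) (nat_lit 275) (nat_lit 181)) (XT.lf (nat_lit 0) (nat_lit 54844473405) (nat_lit 76) (nat_lit 15671308401) (nat_lit 76) (nat_lit 957544012) (nat_lit 10) (nat_lit 4) (nat_lit 11) (nat_lit 5) (nat_lit 11) (nat_lit 4) (nat_lit 445) (nat_lit 275) (nat_lit 180)))) (XT.nd (nat_lit 156) (nat_lit 0) (nat_lit 0) (XT.nd (nat_lit 78) (nat_lit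 76) (nat_lit 0) (XT.lf (nat_lit 0) (nat_lit 4720730124) (nat_lit 152) (nat_lit 5158192303) (nat_lit 76) (nat_lit 63554224670) (nat_lit 9) (nat_lit 5) (nat_lit 11) (nat_lit 5) (nat_lit 10) (nat_lit 4) (nat_lit 446) (nat_lit 275) (nat_lit 179)) (XT.lf (nat_lit 0) (nat_lit 6741662054) (nat_lit 76) (nat_lit 3854222336) (nat_lit 152) (nat_lit 64854221956) (nat_lit 8) (nat_lit 5) (nat_lit 9) (nat_lit 5) (nat_lit 10) (nat_lit 4) (nat_lit 447) (nat_lit 275) (nat_lit 178))) (XT.nd (nat_lit 78) (nat_lit 0) (nat_lit 0) (XT.lf (nat_lit 0) (nat_lit 16703501413) (nat_lit 152) (nat_lit 58481909782) (nat_lit 0) (nat_lit 2340477980) (nat_lit 8) (nat_lit 5) (nat_lit 10) (nat_lit 4) (nat_lit 8) (nat_lit 4) (nat_lit 448) (nat_lit 275) (nat_lit 177)) (XT.lf (nat_lit 0) (nat_lit 23014064290) (nat_lit 152) (nat_lit 48022692176) (nat_lit 0) (nat_lit 8626598519) (nat_lit 8) (nat_lit 5) (nat_lit 10) (nat_lit 4) (nat_lit 8) (nat_lit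 4) (nat_lit 449) (nat_lit 275) (nat_lit 176)))))) (XT.nd (nat_lit 546) (nat_lit 1596) (nat_lit 0) (XT.nd (nat_lit 234) (nat_lit 1064) (nat_lit 0) (XT.nd (nat_lit 78) (nat_lit 684) (nat_lit 0) (XT.lf (nat_lit 0) (nat_lit 2133706585) (nat_lit 380) (nat_lit 269590181) (nat_lit 0) (nat_lit 2133706585) (nat_lit 129) (nat_lit 5) (nat_lit 134) (nat_lit 4) (nat_lit 129) (nat_lit 4) (nat_lit 348) (nat_lit 276) (nat_lit 276)) (XT.nd (nat_lit 78) (nat_lit 380) (nat_lit 0) (XT.lf (nat_lit 0) (nat_lit 6873414475) (nat_lit 304) (nat_lit 1623142207) (nat_lit 304) (nat_lit 696053297) (nat_lit 125) (nat_lit 4) (nat_lit 129) (nat_lit 5) (nat_lit 129) (nat_lit 4) (nat_lit 349) (nat_lit 276) (nat_lit 275)) (XT.lf (nat_lit 0) (nat_lit 3441071393) (nat_lit 380) (nat_lit 4206432093) (nat_lit 0) (nat_lit 1667114859) (nat_lit 120) (nat_lit 5) (nat_lit 125) (nat_lit 4) (nat_lit 120) (nat_lit 4) (nat_lit 350) (nat_lit 276) (nat_lit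 274)))) (XT.nd (nat_lit 156) (nat_lit 380) (nat_lit 0) (XT.nd (nat_lit 78) (nat_lit 380) (nat_lit 0) (XT.lf (nat_lit 0) (nat_lit 3259934265) (nat_lit 304) (nat_lit 4401678323) (nat_lit 304) (nat_lit 1779304107) (nat_lit 116) (nat_lit 4) (nat_lit 120) (nat_lit 5) (nat_lit 120) (nat_lit 4) (nat_lit 351) (nat_lit 276) (nat_lit 273)) (XT.lf (nat_lit 0) (nat_lit 1321359125) (nat_lit 304) (nat_lit 1027133402) (nat_lit 380) (nat_lit 7223092828) (nat_lit 111) (nat_lit 5) (nat_lit 115) (nat_lit 5) (nat_lit 116) (nat_lit 4) (nat_lit 352) (nat_lit 276) (nat_lit 272))) (XT.nd (nat_lit 78) (nat_lit 380) (nat_lit 0) (XT.lf (nat_lit 0) (nat_lit 6554579965) (nat_lit 380) (nat_lit 718943125) (nat_lit 0) (nat_lit 2432448176) (nat_lit 111) (nat_lit 5) (nat_lit 116) (nat_lit 4) (nat_lit 111) (nat_lit 4) (nat_lit 353) (nat_lit 276) (nat_lit 271)) (XT.lf (nat_lit 0) (nat_lit 1006045625) (nat_lit 380) (nat_lit 2833667292) (nat_lit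 76) (nat_lit 6004887838) (nat_lit 106) (nat_lit 5) (nat_lit 111) (nat_lit 5) (nat_lit 107) (nat_lit 4) (nat_lit 354) (nat_lit 276) (nat_lit 270))))) (XT.nd (nat_lit 234) (nat_lit 760) (nat_lit 0) (XT.nd (nat_lit 78) (nat_lit 608) (nat_lit 0) (XT.lf (nat_lit 0) (nat_lit 4920521776) (nat_lit 228) (nat_lit 265839914) (nat_lit 304) (nat_lit 4801276038) (nat_lit 103) (nat_lit 5) (nat_lit 106) (nat_lit 5) (nat_lit 107) (nat_lit 4) (nat_lit 355) (nat_lit 276) (nat_lit 269)) (XT.nd (nat_lit 78) (nat_lit 304) (nat_lit 0) (XT.lf (nat_lit 0) (nat_lit 2705633150) (nat_lit 304) (nat_lit 6781898952) (nat_lit 304) (nat_lit 647599039) (nat_lit 99) (nat_lit 4) (nat_lit 103) (nat_lit 5) (nat_lit 103) (nat_lit 4) (nat_lit 356) (nat_lit 276) (nat_lit 268)) (XT.lf (nat_lit 0) (nat_lit 352971585) (nat_lit 228) (nat_lit 3172654154) (nat_lit 304) (nat_lit 6761430074) (nat_lit 95) (nat_lit 5) (nat_lit 98) (nat_lit 5) (nat_lit 99)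 (nat_lit 4) (nat_lit 357) (nat_lit 276) (nat_lit 267)))) (XT.nd (nat_lit 156) (nat_lit 456) (nat_lit 0) (XT.nd (nat_lit 78) (nat_lit 304) (nat_lit 0) (XT.lf (nat_lit 0) (nat_lit 7800893336) (nat_lit 304) (nat_lit 2079064499) (nat_lit 0) (nat_lit 563718409) (nat_lit 95) (nat_lit 5) (nat_lit 99) (nat_lit 4) (nat_lit 95) (nat_lit 4) (nat_lit 358) (nat_lit 276) (nat_lit 266)) (XT.lf (nat_lit 0) (nat_lit 1568349162) (nat_lit 304) (nat_lit 4666341113) (nat_lit 76) (nat_lit 4369864427) (nat_lit 91) (nat_lit 5) (nat_lit 95) (nat_lit 5) (nat_lit 92) (nat_lit 4) (nat_lit 359) (nat_lit 276) (nat_lit 265))) (XT.nd (nat_lit 78) (nat_lit 228) (nat_lit 0) (XT.lf (nat_lit 0) (nat_lit 3365589262) (nat_lit 228) (nat_lit 2452510376) (nat_lit 304) (nat_lit 4952436851) (nat_lit 88) (nat_lit 5) (nat_lit 91) (nat_lit 5) (nat_lit 92) (nat_lit 4) (nat_lit 360) (nat_lit 276) (nat_lit 264)) (XT.lf (nat_lit 0) (nat_lit 648952956)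 (nat_lit 228) (nat_lit 9526621425) (nat_lit 228) (nat_lit 766539712) (nat_lit 85) (nat_lit 4) (nat_lit 88) (nat_lit 5) (nat_lit 88) (nat_lit 4) (nat_lit 361) (nat_lit 276) (nat_lit 263))))))))
noncomputable def xc49 : XT := (XT.nd (nat_lit 2106) (nat_lit 1596) (nat_lit 0) (XT.nd (nat_lit 1014) (nat_lit 1368) (nat_lit 0) (XT.nd (nat_lit 468) (nat_lit 988) (nat_lit 0) (XT.nd (nat_lit 234) (nat_lit 456) (nat_lit 0) (XT.nd (nat_lit 78) (nat_lit 456) (nat_lit 0) (XT.lf (nat_lit 0) (nat_lit 3488397805) (nat_lit 304) (nat_lit 2223201192) (nat_lit 76) (nat_lit 5405860584) (nat_lit 84) (nat_lit 5) (nat_lit 88) (nat_lit 5) (nat_lit 85) (nat_lit 4) (nat_lit 362) (nat_lit 276) (nat_lit 262)) (XT.nd (nat_lit 78) (nat_lit 304) (nat_lit 0) (XT.lf (nat_lit 0) (nat_lit 6059935700) (nat_lit 152) (nat_lit 1769271339) (nat_lit 228) (nat_lit 3469443139) (nat_lit 82) (nat_lit 5) (nat_lit 84) (nat_lit 5) (nat_lit 85) (nat_lit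 4) (nat_lit 363) (nat_lit 276) (nat_lit 261)) (XT.lf (nat_lit 0) (nat_lit 788942672) (nat_lit 304) (nat_lit 8443748550) (nat_lit 76) (nat_lit 2252673917) (nat_lit 78) (nat_lit 5) (nat_lit 82) (nat_lit 5) (nat_lit 79) (nat_lit 4) (nat_lit 364) (nat_lit 276) (nat_lit 260)))) (XT.nd (nat_lit 78) (nat_lit 456) (nat_lit 0) (XT.lf (nat_lit 0) (nat_lit 5092550034) (nat_lit 304) (nat_lit 191266354) (nat_lit 76) (nat_lit 6393238088) (nat_lit 78) (nat_lit 5) (nat_lit 82) (nat_lit 5) (nat_lit 79) (nat_lit 4) (nat_lit 365) (nat_lit 276) (nat_lit 259)) (XT.nd (nat_lit 78) (nat_lit 304) (nat_lit 0) (XT.lf (nat_lit 0) (nat_lit 8335003529) (nat_lit 152) (nat_lit 1189082556) (nat_lit 228) (nat_lit 2350462752) (nat_lit 76) (nat_lit 5) (nat_lit 78) (nat_lit 5) (nat_lit 79) (nat_lit 4) (nat_lit 366) (nat_lit 276) (nat_lit 258)) (XT.lf (nat_lit 0) (nat_lit 1969446229) (nat_lit 304) (nat_lit 7123342151) (nat_lit 76) (nat_lit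 2984675301) (nat_lit 72) (nat_lit 5) (nat_lit 76) (nat_lit 5) (nat_lit 73) (nat_lit 4) (nat_lit 367) (nat_lit 276) (nat_lit 257))))) (XT.nd (nat_lit 234) (nat_lit 532) (nat_lit 0) (XT.nd (nat_lit 78) (nat_lit 304) (nat_lit 0) (XT.lf (nat_lit 0) (nat_lit 1343305905) (nat_lit 152) (nat_lit 5008669533) (nat_lit 228) (nat_lit 5934401774) (nat_lit 70) (nat_lit 5) (nat_lit 72) (nat_lit 5) (nat_lit 73) (nat_lit 4) (nat_lit 368) (nat_lit 276) (nat_lit 256)) (XT.nd (nat_lit 78) (nat_lit 304) (nat_lit 0) (XT.lf (nat_lit 0) (nat_lit 10074050887) (nat_lit 152) (nat_lit 784382809) (nat_lit 228) (nat_lit 1643367701) (nat_lit 70) (nat_lit 5) (nat_lit 72) (nat_lit 5) (nat_lit 73) (nat_lit 4) (nat_lit 369) (nat_lit 276) (nat_lit 255)) (XT.lf (nat_lit 0) (nat_lit 2739506622) (nat_lit 304) (nat_lit 6452178767) (nat_lit 76) (nat_lit 3530699540) (nat_lit 66) (nat_lit 5) (nat_lit 70) (nat_lit 5) (nat_lit 67) (nat_lit 4) (nat_lit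 370) (nat_lit 276) (nat_lit 254)))) (XT.nd (nat_lit 156) (nat_lit 380) (nat_lit 0) (XT.nd (nat_lit 78) (nat_lit 0) (nat_lit 0) (XT.lf (nat_lit 0) (nat_lit 2214943767) (nat_lit 152) (nat_lit 4982233244) (nat_lit 228) (nat_lit 5752646043) (nat_lit 64) (nat_lit 5) (nat_lit 66) (nat_lit 5) (nat_lit 67) (nat_lit 4) (nat_lit 371) (nat_lit 276) (nat_lit 253)) (XT.lf (nat_lit 0) (nat_lit 11141641751) (nat_lit 152) (nat_lit 635595176) (nat_lit 228) (nat_lit 1407202578) (nat_lit 64) (nat_lit 5) (nat_lit 66) (nat_lit 5) (nat_lit 67) (nat_lit 4) (nat_lit 372) (nat_lit 276) (nat_lit 252))) (XT.nd (nat_lit 78) (nat_lit 152) (nat_lit 0) (XT.lf (nat_lit 0) (nat_lit 3037228401) (nat_lit 228) (nat_lit 6578282821) (nat_lit 76) (nat_lit 3808857302) (nat_lit 61) (nat_lit 5) (nat_lit 64) (nat_lit 5) (nat_lit 62) (nat_lit 4) (nat_lit 373) (nat_lit 276) (nat_lit 251)) (XT.lf (nat_lit 0) (nat_lit 2265642430) (nat_lit 152) (nat_lit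 5295369921) (nat_lit 228) (nat_lit 6110849674) (nat_lit 59) (nat_lit 5) (nat_lit 61) (nat_lit 5) (nat_lit 62) (nat_lit 4) (nat_lit 374) (nat_lit 276) (nat_lit 250)))))) (XT.nd (nat_lit 546) (nat_lit 608) (nat_lit 0) (XT.nd (nat_lit 234) (nat_lit 380) (nat_lit 0) (XT.nd (nat_lit 78) (nat_lit 380) (nat_lit 0) (XT.lf (nat_lit 0) (nat_lit 11380242971) (nat_lit 152) (nat_lit 833021866) (nat_lit 228) (nat_lit 1713746138) (nat_lit 59) (nat_lit 5) (nat_lit 61) (nat_lit 5) (nat_lit 62) (nat_lit 4) (nat_lit 375) (nat_lit 276) (nat_lit 249)) (XT.nd (nat_lit 78) (nat_lit 152) (nat_lit 0) (XT.lf (nat_lit 0) (nat_lit 2787607097) (nat_lit 228) (nat_lit 7673740490) (nat_lit 76) (nat_lit 3726849298) (nat_lit 56) (nat_lit 5) (nat_lit 59) (nat_lit 5) (nat_lit 57) (nat_lit 4) (nat_lit 376) (nat_lit 276) (nat_lit 248)) (XT.lf (nat_lit 0) (nat_lit 1315934271) (nat_lit 152) (nat_lit 6048612885) (nat_lit 228) (nat_lit 7092924625)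 (nat_lit 54) (nat_lit 5) (nat_lit 56) (nat_lit 5) (nat_lit 57) (nat_lit 4) (nat_lit 377) (nat_lit 276) (nat_lit 247)))) (XT.nd (nat_lit 156) (nat_lit 152) (nat_lit 0) (XT.nd (nat_lit 78) (nat_lit 228) (nat_lit 0) (XT.lf (nat_lit 0) (nat_lit 10606302816) (nat_lit 152) (nat_lit 1478983333) (nat_lit 228) (nat_lit 2649355866) (nat_lit 54) (nat_lit 5) (nat_lit 56) (nat_lit 5) (nat_lit 57) (nat_lit 4) (nat_lit 378) (nat_lit 276) (nat_lit 246)) (XT.lf (nat_lit 0) (nat_lit 1900600614) (nat_lit 228) (nat_lit 9938900669) (nat_lit 76) (nat_lit 3179760548) (nat_lit 51) (nat_lit 5) (nat_lit 54) (nat_lit 5) (nat_lit 52) (nat_lit 4) (nat_lit 379) (nat_lit 276) (nat_lit 245))) (XT.nd (nat_lit 78) (nat_lit 152) (nat_lit 0) (XT.lf (nat_lit 0) (nat_lit 6521253968) (nat_lit 228) (nat_lit 826865252) (nat_lit 76) (nat_lit 7963901465) (nat_lit 51) (nat_lit 5) (nat_lit 54) (nat_lit 5) (nat_lit 52) (nat_lit 4) (nat_lit 380) (nat_lit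 276) (nat_lit 244)) (XT.lf (nat_lit 0) (nat_lit 8605724274) (nat_lit 152) (nat_lit 2690247808) (nat_lit 228) (nat_lit 4317137366) (nat_lit 49) (nat_lit 5) (nat_lit 51) (nat_lit 5) (nat_lit 52) (nat_lit 4) (nat_lit 381) (nat_lit 276) (nat_lit 243))))) (XT.nd (nat_lit 234) (nat_lit 304) (nat_lit 0) (XT.nd (nat_lit 78) (nat_lit 76) (nat_lit 0) (XT.lf (nat_lit 0) (nat_lit 268864148) (nat_lit 228) (nat_lit 13607227051) (nat_lit 76) (nat_lit 2047550657) (nat_lit 46) (nat_lit 5) (nat_lit 49) (nat_lit 5) (nat_lit 47) (nat_lit 4) (nat_lit 382) (nat_lit 276) (nat_lit 242)) (XT.nd (nat_lit 78) (nat_lit 76) (nat_lit 0) (XT.lf (nat_lit 0) (nat_lit 4936928565) (nat_lit 228) (nat_lit 4369073873) (nat_lit 76) (nat_lit 6935277496) (nat_lit 46) (nat_lit 5) (nat_lit 49) (nat_lit 5) (nat_lit 47) (nat_lit 4) (nat_lit 383) (nat_lit 276) (nat_lit 241)) (XT.lf (nat_lit 0) (nat_lit 5128632956) (nat_lit 76) (nat_lit 4600803918)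 (nat_lit 152) (nat_lit 6839487547) (nat_lit 45) (nat_lit 5) (nat_lit 46) (nat_lit 5) (nat_lit 47) (nat_lit 4) (nat_lit 384) (nat_lit 276) (nat_lit 240)))) (XT.nd (nat_lit 156) (nat_lit 76) (nat_lit 0) (XT.nd (nat_lit 78) (nat_lit 228) (nat_lit 0) (XT.lf (nat_lit 0) (nat_lit 14648005735) (nat_lit 152) (nat_lit 2024983871) (nat_lit 0) (nat_lit 233949130) (nat_lit 45) (nat_lit 5) (nat_lit 47) (nat_lit 4) (nat_lit 45) (nat_lit 4) (nat_lit 385) (nat_lit 276) (nat_lit 239)) (XT.lf (nat_lit 0) (nat_lit 2468061976) (nat_lit 228) (nat_lit 9615366335) (nat_lit 76) (nat_lit 5169254315) (nat_lit 42) (nat_lit 5) (nat_lit 45) (nat_lit 5) (nat_lit 43) (nat_lit 4) (nat_lit 386) (nat_lit 276) (nat_lit 238))) (XT.nd (nat_lit 78) (nat_lit 76) (nat_lit 0) (XT.lf (nat_lit 0) (nat_lit 7249482136) (nat_lit 228) (nat_lit 114399473) (nat_lit 76) (nat_lit 10245514012) (nat_lit 42) (nat_lit 5) (nat_lit 45) (nat_lit 5) (nat_lit 43)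 (nat_lit 4) (nat_lit 387) (nat_lit 276) (nat_lit 237)) (XT.lf (nat_lit 0) (nat_lit 9750562461) (nat_lit 76) (nat_lit 2456701900) (nat_lit 152) (nat_lit 5768566104) (nat_lit 41) (nat_lit 5) (nat_lit 42) (nat_lit 5) (nat_lit 43) (nat_lit 4) (nat_lit 388) (nat_lit 276) (nat_lit 236))))))) (XT.nd (nat_lit 1014) (nat_lit 684) (nat_lit 0) (XT.nd (nat_lit 468) (nat_lit 380) (nat_lit 0) (XT.nd (nat_lit 234) (nat_lit 228) (nat_lit 0) (XT.nd (nat_lit 78) (nat_lit 152) (nat_lit 0) (XT.lf (nat_lit 0) (nat_lit 1452414085) (nat_lit 152) (nat_lit 15840885802) (nat_lit 152) (nat_lit 1060580682) (nat_lit 39) (nat_lit 4) (nat_lit 41) (nat_lit 5) (nat_lit 41) (nat_lit 4) (nat_lit 389) (nat_lit 276) (nat_lit 235)) (XT.nd (nat_lit 78) (nat_lit 76) (nat_lit 0) (XT.lf (nat_lit 0) (nat_lit 3762442994) (nat_lit 228) (nat_lit 7324966502) (nat_lit 76) (nat_lit 7653345615) (nat_lit 38) (nat_lit 5) (nat_lit 41) (nat_lit 5) (nat_lit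 39) (nat_lit 4) (nat_lit 390) (nat_lit 276) (nat_lit 234)) (XT.lf (nat_lit 0) (nat_lit 2468083289) (nat_lit 76) (nat_lit 6205767207) (nat_lit 152) (nat_lit 10466127224) (nat_lit 37) (nat_lit 5) (nat_lit 38) (nat_lit 5) (nat_lit 39) (nat_lit 4) (nat_lit 391) (nat_lit 276) (nat_lit 233)))) (XT.nd (nat_lit 78) (nat_lit 228) (nat_lit 0) (XT.lf (nat_lit 0) (nat_lit 12597736423) (nat_lit 76) (nat_lit 1150794913) (nat_lit 152) (nat_lit 5802174679) (nat_lit 37) (nat_lit 5) (nat_lit 38) (nat_lit 5) (nat_lit 39) (nat_lit 4) (nat_lit 392) (nat_lit 276) (nat_lit 232)) (XT.nd (nat_lit 78) (nat_lit 76) (nat_lit 0) (XT.lf (nat_lit 0) (nat_lit 2971058697) (nat_lit 152) (nat_lit 16015134167) (nat_lit 152) (nat_lit 987247821) (nat_lit 35) (nat_lit 4) (nat_lit 37) (nat_lit 5) (nat_lit 37) (nat_lit 4) (nat_lit 393) (nat_lit 276) (nat_lit 231)) (XT.lf (nat_lit 0) (nat_lit 3920198820) (nat_lit 228) (nat_lit 7227240406) (nat_lit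 76) (nat_lit 9259511571) (nat_lit 34) (nat_lit 5) (nat_lit 37) (nat_lit 5) (nat_lit 35) (nat_lit 4) (nat_lit 394) (nat_lit 276) (nat_lit 230))))) (XT.nd (nat_lit 234) (nat_lit 152) (nat_lit 0) (XT.nd (nat_lit 78) (nat_lit 152) (nat_lit 0) (XT.lf (nat_lit 0) (nat_lit 2783211008) (nat_lit 76) (nat_lit 6143503007) (nat_lit 152) (nat_lit 11927314485) (nat_lit 33) (nat_lit 5) (nat_lit 34) (nat_lit 5) (nat_lit 35) (nat_lit 4) (nat_lit 395) (nat_lit 276) (nat_lit 229)) (XT.nd (nat_lit 78) (nat_lit 152) (nat_lit 0) (XT.lf (nat_lit 0) (nat_lit 13140651859) (nat_lit 76) (nat_lit 961316118) (nat_lit 152) (nat_lit 7212000243) (nat_lit 33) (nat_lit 5) (nat_lit 34) (nat_lit 5) (nat_lit 35) (nat_lit 4) (nat_lit 396) (nat_lit 276) (nat_lit 228)) (XT.lf (nat_lit 0) (nat_lit 1916772679) (nat_lit 152) (nat_lit 17522909023) (nat_lit 152) (nat_lit 2347814177) (nat_lit 31) (nat_lit 4) (nat_lit 33) (nat_lit 5) (nat_lit 33) (nat_lit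 4) (nat_lit 397) (nat_lit 276) (nat_lit 227)))) (XT.nd (nat_lit 156) (nat_lit 0) (nat_lit 0) (XT.nd (nat_lit 78) (nat_lit 76) (nat_lit 0) (XT.lf (nat_lit 0) (nat_lit 2650001268) (nat_lit 228) (nat_lit 9931330374) (nat_lit 76) (nat_lit 9691945809) (nat_lit 30) (nat_lit 5) (nat_lit 33) (nat_lit 5) (nat_lit 31) (nat_lit 4) (nat_lit 398) (nat_lit 276) (nat_lit 226)) (XT.lf (nat_lit 0) (nat_lit 189849193) (nat_lit 76) (nat_lit 7510873324) (nat_lit 152) (nat_lit 15073713100) (nat_lit 29) (nat_lit 5) (nat_lit 30) (nat_lit 5) (nat_lit 31) (nat_lit 4) (nat_lit 399) (nat_lit 276) (nat_lit 225))) (XT.nd (nat_lit 78) (nat_lit 0) (nat_lit 0) (XT.lf (nat_lit 0) (nat_lit 10722342235) (nat_lit 76) (nat_lit 2229828175) (nat_lit 152) (nat_lit 10336987130) (nat_lit 29) (nat_lit 5) (nat_lit 30) (nat_lit 5) (nat_lit 31) (nat_lit 4) (nat_lit 400) (nat_lit 276) (nat_lit 224)) (XT.lf (nat_lit 0) (nat_lit 18342002400) (nat_lit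 152) (nat_lit 2373549797) (nat_lit 0) (nat_lit 3104348717) (nat_lit 29) (nat_lit 5) (nat_lit 31) (nat_lit 4) (nat_lit 29) (nat_lit 4) (nat_lit 401) (nat_lit 276) (nat_lit 223)))))) (XT.nd (nat_lit 546) (nat_lit 304) (nat_lit 0) (XT.nd (nat_lit 234) (nat_lit 152) (nat_lit 0) (XT.nd (nat_lit 78) (nat_lit 152) (nat_lit 0) (XT.lf (nat_lit 0) (nat_lit 8171448185) (nat_lit 76) (nat_lit 15774151858) (nat_lit 76) (nat_lit 419409293) (nat_lit 28) (nat_lit 4) (nat_lit 29) (nat_lit 5) (nat_lit 29) (nat_lit 4) (nat_lit 402) (nat_lit 276) (nat_lit 222)) (XT.nd (nat_lit 78) (nat_lit 76) (nat_lit 0) (XT.lf (nat_lit 0) (nat_lit 4673061766) (nat_lit 152) (nat_lit 5982105703) (nat_lit 76) (nat_lit 14270655147) (nat_lit 27) (nat_lit 5) (nat_lit 29) (nat_lit 5) (nat_lit 28) (nat_lit 4) (nat_lit 403) (nat_lit 276) (nat_lit 221)) (XT.lf (nat_lit 0) (nat_lit 4531109053) (nat_lit 76) (nat_lit 5375244465) (nat_lit 152) (nat_lit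 15597092366) (nat_lit 26) (nat_lit 5) (nat_lit 27) (nat_lit 5) (nat_lit 28) (nat_lit 4) (nat_lit 404) (nat_lit 276) (nat_lit 220)))) (XT.nd (nat_lit 156) (nat_lit 152) (nat_lit 0) (XT.nd (nat_lit 78) (nat_lit 0) (nat_lit 0) (XT.lf (nat_lit 0) (nat_lit 15311303801) (nat_lit 152) (nat_lit 10704424199) (nat_lit 0) (nat_lit 82234380) (nat_lit 26) (nat_lit 5) (nat_lit 28) (nat_lit 4) (nat_lit 26) (nat_lit 4) (nat_lit 405) (nat_lit 276) (nat_lit 219)) (XT.lf (nat_lit 0) (nat_lit 20886038190) (nat_lit 152) (nat_lit 268084439) (nat_lit 0) (nat_lit 5555966872) (nat_lit 26) (nat_lit 5) (nat_lit 28) (nat_lit 4) (nat_lit 26) (nat_lit 4) (nat_lit 406) (nat_lit 276) (nat_lit 218))) (XT.nd (nat_lit 78) (nat_lit 76) (nat_lit 0) (XT.lf (nat_lit 0) (nat_lit 10604401792) (nat_lit 76) (nat_lit 16081291881) (nat_lit 76) (nat_lit 653160468) (nat_lit 25) (nat_lit 4) (nat_lit 26) (nat_lit 5) (nat_lit 26) (nat_lit 4) (nat_lit 407)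 (nat_lit 276) (nat_lit 217)) (XT.lf (nat_lit 0) (nat_lit 4540203309) (nat_lit 152) (nat_lit 6306722670) (nat_lit 76) (nat_lit 17139456118) (nat_lit 24) (nat_lit 5) (nat_lit 26) (nat_lit 5) (nat_lit 25) (nat_lit 4) (nat_lit 408) (nat_lit 276) (nat_lit 216))))) (XT.nd (nat_lit 234) (nat_lit 228) (nat_lit 0) (XT.nd (nat_lit 78) (nat_lit 0) (nat_lit 0) (XT.lf (nat_lit 0) (nat_lit 4432373160) (nat_lit 76) (nat_lit 5443557673) (nat_lit 152) (nat_lit 18777224058) (nat_lit 23) (nat_lit 5) (nat_lit 24) (nat_lit 5) (nat_lit 25) (nat_lit 4) (nat_lit 409) (nat_lit 276) (nat_lit 215)) (XT.nd (nat_lit 78) (nat_lit 0) (nat_lit 0) (XT.lf (nat_lit 0) (nat_lit 15394408829) (nat_lit 152) (nat_lit 13798499880) (nat_lit 0) (nat_lit 146345422) (nat_lit 23) (nat_lit 5) (nat_lit 25) (nat_lit 4) (nat_lit 23) (nat_lit 4) (nat_lit 410) (nat_lit 276) (nat_lit 214)) (XT.lf (nat_lit 0) (nat_lit 21090775324) (nat_lit 152) (nat_lit 3196670100)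 (nat_lit 0) (nat_lit 5758124417) (nat_lit 23) (nat_lit 5) (nat_lit 25) (nat_lit 4) (nat_lit 23) (nat_lit 4) (nat_lit 411) (nat_lit 276) (nat_lit 213)))) (XT.nd (nat_lit 156) (nat_lit 76) (nat_lit 0) (XT.nd (nat_lit 78) (nat_lit 76) (nat_lit 0) (XT.lf (nat_lit 0) (nat_lit 7798474475) (nat_lit 76) (nat_lit 19194170148) (nat_lit 76) (nat_lit 3779395456) (nat_lit 22) (nat_lit 4) (nat_lit 23) (nat_lit 5) (nat_lit 23) (nat_lit 4) (nat_lit 412) (nat_lit 276) (nat_lit 212)) (XT.lf (nat_lit 0) (nat_lit 1513287400) (nat_lit 152) (nat_lit 12422533099) (nat_lit 76) (nat_lit 17584271014) (nat_lit 21) (nat_lit 5) (nat_lit 23) (nat_lit 5) (nat_lit 22) (nat_lit 4) (nat_lit 413) (nat_lit 276) (nat_lit 211))) (XT.nd (nat_lit 78) (nat_lit 76) (nat_lit 0) (XT.lf (nat_lit 0) (nat_lit 6849655527) (nat_lit 152) (nat_lit 1667115346) (nat_lit 76) (nat_lit 23773868143) (nat_lit 21) (nat_lit 5) (nat_lit 23) (nat_lit 5) (nat_lit 22)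 (nat_lit 4) (nat_lit 414) (nat_lit 276) (nat_lit 210)) (XT.lf (nat_lit 0) (nat_lit 9524268232) (nat_lit 76) (nat_lit 2875406248) (nat_lit 152) (nat_lit 20683024702) (nat_lit 20) (nat_lit 5) (nat_lit 21) (nat_lit 5) (nat_lit 22) (nat_lit 4) (nat_lit 415) (nat_lit 276) (nat_lit 209))))))))
noncomputable def xc50 : XT := (XT.nd (nat_lit 2106) (nat_lit 152) (nat_lit 0) (XT.nd (nat_lit 1014) (nat_lit 304) (nat_lit 0) (XT.nd (nat_lit 468) (nat_lit 228) (nat_lit 0) (XT.nd (nat_lit 234) (nat_lit 152) (nat_lit 0) (XT.nd (nat_lit 78) (nat_lit 76) (nat_lit 0) (XT.lf (nat_lit 0) (nat_lit 18123503612) (nat_lit 152) (nat_lit 12913469319) (nat_lit 0) (nat_lit 2861331879) (nat_lit 20) (nat_lit 5) (nat_lit 22) (nat_lit 4) (nat_lit 20) (nat_lit 4) (nat_lit 416) (nat_lit 276) (nat_lit 208)) (XT.nd (nat_lit 78) (nat_lit 76) (nat_lit 0) (XT.lf (nat_lit 0) (nat_lit 24010714462) (nat_lit 152) (nat_lit 2048151645) (nat_lit 0)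 (nat_lit 8679765353) (nat_lit 20) (nat_lit 5) (nat_lit 22) (nat_lit 4) (nat_lit 20) (nat_lit 4) (nat_lit 417) (nat_lit 276) (nat_lit 207)) (XT.lf (nat_lit 0) (nat_lit 9255259653) (nat_lit 76) (nat_lit 20872518598) (nat_lit 76) (nat_lit 5474795335) (nat_lit 19) (nat_lit 4) (nat_lit 20) (nat_lit 5) (nat_lit 20) (nat_lit 4) (nat_lit 418) (nat_lit 276) (nat_lit 206)))) (XT.nd (nat_lit 78) (nat_lit 152) (nat_lit 0) (XT.lf (nat_lit 0) (nat_lit 20871960303) (nat_lit 76) (nat_lit 15541734342) (nat_lit 76) (nat_lit 79181805) (nat_lit 19) (nat_lit 4) (nat_lit 20) (nat_lit 5) (nat_lit 20) (nat_lit 4) (nat_lit 419) (nat_lit 276) (nat_lit 205)) (XT.nd (nat_lit 78) (nat_lit 76) (nat_lit 0) (XT.lf (nat_lit 0) (nat_lit 5336744215) (nat_lit 152) (nat_lit 4691902822) (nat_lit 76) (nat_lit 27380703717) (nat_lit 18) (nat_lit 5) (nat_lit 20) (nat_lit 5) (nat_lit 19) (nat_lit 4) (nat_lit 420) (nat_lit 276) (nat_lit 204)) (XT.lf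 (nat_lit 0) (nat_lit 6628973808) (nat_lit 76) (nat_lit 4314659294) (nat_lit 152) (nat_lit 27408762835) (nat_lit 17) (nat_lit 5) (nat_lit 18) (nat_lit 5) (nat_lit 19) (nat_lit 4) (nat_lit 421) (nat_lit 276) (nat_lit 203))))) (XT.nd (nat_lit 234) (nat_lit 152) (nat_lit 0) (XT.nd (nat_lit 78) (nat_lit 76) (nat_lit 0) (XT.lf (nat_lit 0) (nat_lit 16748101077) (nat_lit 152) (nat_lit 21016874221) (nat_lit 0) (nat_lit 1557878398) (nat_lit 17) (nat_lit 5) (nat_lit 19) (nat_lit 4) (nat_lit 17) (nat_lit 4) (nat_lit 422) (nat_lit 276) (nat_lit 202)) (XT.nd (nat_lit 78) (nat_lit 76) (nat_lit 0) (XT.lf (nat_lit 0) (nat_lit 22736825707) (nat_lit 152) (nat_lit 10094617400) (nat_lit 0) (nat_lit 7490680726) (nat_lit 17) (nat_lit 5) (nat_lit 19) (nat_lit 4) (nat_lit 17) (nat_lit 4) (nat_lit 423) (nat_lit 276) (nat_lit 201)) (XT.lf (nat_lit 0) (nat_lit 1116147247) (nat_lit 76) (nat_lit 27768146556) (nat_lit 76) (nat_lit 12467708078)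 (nat_lit 16) (nat_lit 4) (nat_lit 17) (nat_lit 5) (nat_lit 17) (nat_lit 4) (nat_lit 424) (nat_lit 276) (nat_lit 200)))) (XT.nd (nat_lit 156) (nat_lit 152) (nat_lit 0) (XT.nd (nat_lit 78) (nat_lit 0) (nat_lit 0) (XT.lf (nat_lit 0) (nat_lit 12809822117) (nat_lit 76) (nat_lit 22476994025) (nat_lit 76) (nat_lit 7123843414) (nat_lit 16) (nat_lit 4) (nat_lit 17) (nat_lit 5) (nat_lit 17) (nat_lit 4) (nat_lit 425) (nat_lit 276) (nat_lit 199)) (XT.lf (nat_lit 0) (nat_lit 24795722301) (nat_lit 76) (nat_lit 17055298019) (nat_lit 76) (nat_lit 1650970580) (nat_lit 16) (nat_lit 4) (nat_lit 17) (nat_lit 5) (nat_lit 17) (nat_lit 4) (nat_lit 426) (nat_lit 276) (nat_lit 198))) (XT.nd (nat_lit 78) (nat_lit 76) (nat_lit 0) (XT.lf (nat_lit 0) (nat_lit 3878502734) (nat_lit 152) (nat_lit 7580653129) (nat_lit 76) (nat_lit 33166652911) (nat_lit 15) (nat_lit 5) (nat_lit 17) (nat_lit 5) (nat_lit 16) (nat_lit 4) (nat_lit 427) (nat_lit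 276) (nat_lit 197)) (XT.lf (nat_lit 0) (nat_lit 3882343343) (nat_lit 76) (nat_lit 5666718770) (nat_lit 152) (nat_lit 36233539086) (nat_lit 14) (nat_lit 5) (nat_lit 15) (nat_lit 5) (nat_lit 16) (nat_lit 4) (nat_lit 428) (nat_lit 276) (nat_lit 196)))))) (XT.nd (nat_lit 546) (nat_lit 228) (nat_lit 0) (XT.nd (nat_lit 234) (nat_lit 76) (nat_lit 0) (XT.nd (nat_lit 78) (nat_lit 0) (nat_lit 0) (XT.lf (nat_lit 0) (nat_lit 15441045759) (nat_lit 152) (nat_lit 31186669318) (nat_lit 0) (nat_lit 344844986) (nat_lit 14) (nat_lit 5) (nat_lit 16) (nat_lit 4) (nat_lit 14) (nat_lit 4) (nat_lit 429) (nat_lit 276) (nat_lit 195)) (XT.nd (nat_lit 78) (nat_lit 0) (nat_lit 0) (XT.lf (nat_lit 0) (nat_lit 21537857115) (nat_lit 152) (nat_lit 20262009607) (nat_lit 0) (nat_lit 6397510761) (nat_lit 14) (nat_lit 5) (nat_lit 16) (nat_lit 4) (nat_lit 14) (nat_lit 4) (nat_lit 430) (nat_lit 276) (nat_lit 194)) (XT.lf (nat_lit 0) (nat_lit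 27790351525) (nat_lit 152) (nat_lit 9062260936) (nat_lit 0) (nat_lit 12607145383) (nat_lit 14) (nat_lit 5) (nat_lit 16) (nat_lit 4) (nat_lit 14) (nat_lit 4) (nat_lit 431) (nat_lit 276) (nat_lit 193)))) (XT.nd (nat_lit 156) (nat_lit 0) (nat_lit 0) (XT.nd (nat_lit 78) (nat_lit 0) (nat_lit 0) (XT.lf (nat_lit 0) (nat_lit 2470572653) (nat_lit 76) (nat_lit 31757168336) (nat_lit 76) (nat_lit 16532350750) (nat_lit 13) (nat_lit 4) (nat_lit 14) (nat_lit 5) (nat_lit 14) (nat_lit 4) (nat_lit 432) (nat_lit 276) (nat_lit 192)) (XT.lf (nat_lit 0) (nat_lit 14484542554) (nat_lit 76) (nat_lit 26439075425) (nat_lit 76) (nat_lit 11173858378) (nat_lit 13) (nat_lit 4) (nat_lit 14) (nat_lit 5) (nat_lit 14) (nat_lit 4) (nat_lit 433) (nat_lit 276) (nat_lit 191))) (XT.nd (nat_lit 78) (nat_lit 0) (nat_lit 0) (XT.lf (nat_lit 0) (nat_lit 26809789647) (nat_lit 76) (nat_lit 20985197915) (nat_lit 76) (nat_lit 5680758091) (nat_lit 13)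 (nat_lit 4) (nat_lit 14) (nat_lit 5) (nat_lit 14) (nat_lit 4) (nat_lit 434) (nat_lit 276) (nat_lit 190)) (XT.lf (nat_lit 0) (nat_lit 39457083566) (nat_lit 76) (nat_lit 15390770284) (nat_lit 76) (nat_lit 48250093) (nat_lit 13) (nat_lit 4) (nat_lit 14) (nat_lit 5) (nat_lit 14) (nat_lit 4) (nat_lit 435) (nat_lit 276) (nat_lit 189))))) (XT.nd (nat_lit 234) (nat_lit 76) (nat_lit 0) (XT.nd (nat_lit 78) (nat_lit 76) (nat_lit 0) (XT.lf (nat_lit 0) (nat_lit 5616801852) (nat_lit 152) (nat_lit 3977383658) (nat_lit 76) (nat_lit 46763954805) (nat_lit 12) (nat_lit 5) (nat_lit 14) (nat_lit 5) (nat_lit 13) (nat_lit 4) (nat_lit 436) (nat_lit 276) (nat_lit 188)) (XT.nd (nat_lit 78) (nat_lit 0) (nat_lit 0) (XT.lf (nat_lit 0) (nat_lit 7937064989) (nat_lit 76) (nat_lit 3566605358) (nat_lit 152) (nat_lit 46358769505) (nat_lit 11) (nat_lit 5) (nat_lit 12) (nat_lit 5) (nat_lit 13) (nat_lit 4) (nat_lit 437) (nat_lit 276) (nat_lit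 187)) (XT.lf (nat_lit 0) (nat_lit 17609681213) (nat_lit 152) (nat_lit 39191459177) (nat_lit 0) (nat_lit 2609453303) (nat_lit 11) (nat_lit 5) (nat_lit 13) (nat_lit 4) (nat_lit 11) (nat_lit 4) (nat_lit 438) (nat_lit 276) (nat_lit 186)))) (XT.nd (nat_lit 156) (nat_lit 76) (nat_lit 0) (XT.nd (nat_lit 78) (nat_lit 0) (nat_lit 0) (XT.lf (nat_lit 0) (nat_lit 23911447715) (nat_lit 152) (nat_lit 28214997192) (nat_lit 0) (nat_lit 8878371347) (nat_lit 11) (nat_lit 5) (nat_lit 13) (nat_lit 4) (nat_lit 11) (nat_lit 4) (nat_lit 439) (nat_lit 276) (nat_lit 185)) (XT.lf (nat_lit 0) (nat_lit 30380191860) (nat_lit 152) (nat_lit 16952113434) (nat_lit 0) (nat_lit 15315223785) (nat_lit 11) (nat_lit 5) (nat_lit 13) (nat_lit 4) (nat_lit 11) (nat_lit 4) (nat_lit 440) (nat_lit 276) (nat_lit 184))) (XT.nd (nat_lit 78) (nat_lit 76) (nat_lit 0) (XT.lf (nat_lit 0) (nat_lit 37021565949) (nat_lit 152) (nat_lit 5392966547) (nat_lit 0)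 (nat_lit 21925635051) (nat_lit 11) (nat_lit 5) (nat_lit 13) (nat_lit 4) (nat_lit 11) (nat_lit 4) (nat_lit 441) (nat_lit 276) (nat_lit 183)) (XT.lf (nat_lit 0) (nat_lit 6601360004) (nat_lit 76) (nat_lit 37303469430) (nat_lit 76) (nat_lit 22177477539) (nat_lit 10) (nat_lit 4) (nat_lit 11) (nat_lit 5) (nat_lit 11) (nat_lit 4) (nat_lit 442) (nat_lit 276) (nat_lit 182))))))) (XT.nd (nat_lit 39780) (nat_lit 0) (nat_lit 5320) (XT.nd (nat_lit 468) (nat_lit 0) (nat_lit 0) (XT.nd (nat_lit 234) (nat_lit 152) (nat_lit 0) (XT.nd (nat_lit 78) (nat_lit 0) (nat_lit 0) (XT.lf (nat_lit 0) (nat_lit 19026052013) (nat_lit 76) (nat_lit 32002410476) (nat_lit 76) (nat_lit 16847233155) (nat_lit 10) (nat_lit 4) (nat_lit 11) (nat_lit 5) (nat_lit 11) (nat_lit 4) (nat_lit 443) (nat_lit 276) (nat_lit 181)) (XT.nd (nat_lit 78) (nat_lit 0) (nat_lit 0) (XT.lf (nat_lit 0) (nat_lit 31784635398) (nat_lit 76) (nat_lit 26561182030) (nat_lit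 76) (nat_lit 11377669340) (nat_lit 10) (nat_lit 4) (nat_lit 11) (nat_lit 5) (nat_lit 11) (nat_lit 4) (nat_lit 444) (nat_lit 276) (nat_lit 180)) (XT.lf (nat_lit 0) (nat_lit 44888258436) (nat_lit 76) (nat_lit 20975029619) (nat_lit 76) (nat_lit 5764006862) (nat_lit 10) (nat_lit 4) (nat_lit 11) (nat_lit 5) (nat_lit 11) (nat_lit 4) (nat_lit 445) (nat_lit 276) (nat_lit 179)))) (XT.nd (nat_lit 78) (nat_lit 152) (nat_lit 0) (XT.lf (nat_lit 0) (nat_lit 58348370894) (nat_lit 76) (nat_lit 15239072140) (nat_lit 76) (nat_lit 1340580) (nat_lit 10) (nat_lit 4) (nat_lit 11) (nat_lit 5) (nat_lit 11) (nat_lit 4) (nat_lit 446) (nat_lit 276) (nat_lit 178)) (XT.nd (nat_lit 78) (nat_lit 76) (nat_lit 0) (XT.lf (nat_lit 0) (nat_lit 5799934770) (nat_lit 152) (nat_lit 3489794851) (nat_lit 76) (nat_lit 66318231296) (nat_lit 9) (nat_lit 5) (nat_lit 11) (nat_lit 5) (nat_lit 10) (nat_lit 4) (nat_lit 447) (nat_lit 276) (nat_lit 177))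 (XT.lf (nat_lit 0) (nat_lit 8749181184) (nat_lit 76) (nat_lit 3092207598) (nat_lit 152) (nat_lit 65844340355) (nat_lit 8) (nat_lit 5) (nat_lit 9) (nat_lit 5) (nat_lit 10) (nat_lit 4) (nat_lit 448) (nat_lit 276) (nat_lit 176))))) (XT.nd (nat_lit 39000) (nat_lit 0) (nat_lit 8208) (XT.nd (nat_lit 38844) (nat_lit 0) (nat_lit 9196) (XT.lf (nat_lit 0) (nat_lit 18113406733) (nat_lit 152) (nat_lit 58464800821) (nat_lit 0) (nat_lit 3246144226) (nat_lit 8) (nat_lit 5) (nat_lit 10) (nat_lit 4) (nat_lit 8) (nat_lit 4) (nat_lit 449) (nat_lit 276) (nat_lit 175)) (XT.nd (nat_lit 78) (nat_lit 380) (nat_lit 0) (XT.lf (nat_lit 0) (nat_lit 1470232533) (nat_lit 380) (nat_lit 1476652114) (nat_lit 380) (nat_lit 1476652114) (nat_lit 134) (nat_lit 4) (nat_lit 139) (nat_lit 5) (nat_lit 139) (nat_lit 4) (nat_lit 346) (nat_lit 277) (nat_lit 277)) (XT.lf (nat_lit 0) (nat_lit 1084079931) (nat_lit 380) (nat_lit 7746605128) (nat_lit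 0) (nat_lit 129178354) (nat_lit 129) (nat_lit 5) (nat_lit 134) (nat_lit 4) (nat_lit 129) (nat_lit 4) (nat_lit 347) (nat_lit 277) (nat_lit 276)))) (XT.nd (nat_lit 156) (nat_lit 608) (nat_lit 0) (XT.nd (nat_lit 78) (nat_lit 380) (nat_lit 0) (XT.lf (nat_lit 0) (nat_lit 5173393657) (nat_lit 380) (nat_lit 610696492) (nat_lit 0) (nat_lit 3291403171) (nat_lit 129) (nat_lit 5) (nat_lit 134) (nat_lit 4) (nat_lit 129) (nat_lit 4) (nat_lit 348) (nat_lit 277) (nat_lit 275)) (XT.lf (nat_lit 0) (nat_lit 154993075) (nat_lit 380) (nat_lit 2467440863) (nat_lit 76) (nat_lit 6573101843) (nat_lit 124) (nat_lit 5) (nat_lit 129) (nat_lit 5) (nat_lit 125) (nat_lit 4) (nat_lit 349) (nat_lit 277) (nat_lit 274))) (XT.nd (nat_lit 78) (nat_lit 304) (nat_lit 0) (XT.lf (nat_lit 0) (nat_lit 4219301260) (nat_lit 380) (nat_lit 4429998418) (nat_lit 0) (nat_lit 669838133) (nat_lit 120) (nat_lit 5) (nat_lit 125) (nat_lit 4) (nat_lit 120)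 (nat_lit 4) (nat_lit 350) (nat_lit 277) (nat_lit 273)) (XT.lf (nat_lit 0) (nat_lit 2960297160) (nat_lit 304) (nat_lit 5429907311) (nat_lit 304) (nat_lit 1056737696) (nat_lit 116) (nat_lit 4) (nat_lit 120) (nat_lit 5) (nat_lit 120) (nat_lit 4) (nat_lit 351) (nat_lit 277) (nat_lit 272)))))) (XT.nd (nat_lit 546) (nat_lit 1292) (nat_lit 0) (XT.nd (nat_lit 234) (nat_lit 836) (nat_lit 0) (XT.nd (nat_lit 78) (nat_lit 380) (nat_lit 0) (XT.lf (nat_lit 0) (nat_lit 930649265) (nat_lit 304) (nat_lit 2076017688) (nat_lit 380) (nat_lit 6572260161) (nat_lit 111) (nat_lit 5) (nat_lit 115) (nat_lit 5) (nat_lit 116) (nat_lit 4) (nat_lit 352) (nat_lit 277) (nat_lit 271)) (XT.nd (nat_lit 78) (nat_lit 380) (nat_lit 0) (XT.lf (nat_lit 0) (nat_lit 7156590031) (nat_lit 380) (nat_lit 1177859561) (nat_lit 0) (nat_lit 1380563799) (nat_lit 111) (nat_lit 5) (nat_lit 116) (nat_lit 4) (nat_lit 111) (nat_lit 4) (nat_lit 353) (nat_lit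 277) (nat_lit 270)) (XT.lf (nat_lit 0) (nat_lit 1537019595) (nat_lit 380) (nat_lit 3387728999) (nat_lit 76) (nat_lit 4930250527) (nat_lit 106) (nat_lit 5) (nat_lit 111) (nat_lit 5) (nat_lit 107) (nat_lit 4) (nat_lit 354) (nat_lit 277) (nat_lit 269)))) (XT.nd (nat_lit 156) (nat_lit 304) (nat_lit 0) (XT.nd (nat_lit 78) (nat_lit 304) (nat_lit 0) (XT.lf (nat_lit 0) (nat_lit 4284951583) (nat_lit 228) (nat_lit 1381731575) (nat_lit 304) (nat_lit 4332886637) (nat_lit 103) (nat_lit 5) (nat_lit 106) (nat_lit 5) (nat_lit 107) (nat_lit 4) (nat_lit 355) (nat_lit 277) (nat_lit 268)) (XT.lf (nat_lit 0) (nat_lit 1985277007) (nat_lit 304) (nat_lit 7920786252) (nat_lit 304) (nat_lit 242867372) (nat_lit 99) (nat_lit 4) (nat_lit 103) (nat_lit 5) (nat_lit 103) (nat_lit 4) (nat_lit 356) (nat_lit 277) (nat_lit 267))) (XT.nd (nat_lit 78) (nat_lit 228) (nat_lit 0) (XT.lf (nat_lit 0) (nat_lit 3875107436) (nat_lit 380) (nat_lit 461692292)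 (nat_lit 76) (nat_lit 5965372350) (nat_lit 98) (nat_lit 5) (nat_lit 103) (nat_lit 5) (nat_lit 99) (nat_lit 4) (nat_lit 357) (nat_lit 277) (nat_lit 266)) (XT.lf (nat_lit 0) (nat_lit 7477405393) (nat_lit 228) (nat_lit 619574023) (nat_lit 304) (nat_lit 2363427511) (nat_lit 95) (nat_lit 5) (nat_lit 98) (nat_lit 5) (nat_lit 99) (nat_lit 4) (nat_lit 358) (nat_lit 277) (nat_lit 265))))) (XT.nd (nat_lit 234) (nat_lit 760) (nat_lit 0) (XT.nd (nat_lit 78) (nat_lit 228) (nat_lit 0) (XT.lf (nat_lit 0) (nat_lit 1783922767) (nat_lit 304) (nat_lit 5672207469) (nat_lit 76) (nat_lit 3166836335) (nat_lit 91) (nat_lit 5) (nat_lit 95) (nat_lit 5) (nat_lit 92) (nat_lit 4) (nat_lit 359) (nat_lit 277) (nat_lit 264)) (XT.nd (nat_lit 78) (nat_lit 0) (nat_lit 0) (XT.lf (nat_lit 0) (nat_lit 2270092629) (nat_lit 228) (nat_lit 3710889871) (nat_lit 304) (nat_lit 4809558068) (nat_lit 88) (nat_lit 5) (nat_lit 91) (nat_lit 5) (nat_lit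 92) (nat_lit 4) (nat_lit 360) (nat_lit 277) (nat_lit 263)) (XT.lf (nat_lit 0) (nat_lit 10278290994) (nat_lit 304) (nat_lit 535707549) (nat_lit 0) (nat_lit 149935766) (nat_lit 88) (nat_lit 5) (nat_lit 92) (nat_lit 4) (nat_lit 88) (nat_lit 4) (nat_lit 361) (nat_lit 277) (nat_lit 262)))) (XT.nd (nat_lit 156) (nat_lit 304) (nat_lit 0) (XT.nd (nat_lit 78) (nat_lit 152) (nat_lit 0) (XT.lf (nat_lit 0) (nat_lit 3520726104) (nat_lit 304) (nat_lit 3509987086) (nat_lit 76) (nat_lit 4109963475) (nat_lit 84) (nat_lit 5) (nat_lit 88) (nat_lit 5) (nat_lit 85) (nat_lit 4) (nat_lit 362) (nat_lit 277) (nat_lit 261)) (XT.lf (nat_lit 0) (nat_lit 4679454010) (nat_lit 152) (nat_lit 3128339950) (nat_lit 228) (nat_lit 3515695746) (nat_lit 82) (nat_lit 5) (nat_lit 84) (nat_lit 5) (nat_lit 85) (nat_lit 4) (nat_lit 363) (nat_lit 277) (nat_lit 260))) (XT.nd (nat_lit 78) (nat_lit 0) (nat_lit 0) (XT.lf (nat_lit 0) (nat_lit 675363264)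 (nat_lit 304) (nat_lit 9957870536) (nat_lit 76) (nat_lit 879040705) (nat_lit 78) (nat_lit 5) (nat_lit 82) (nat_lit 5) (nat_lit 79) (nat_lit 4) (nat_lit 364) (nat_lit 277) (nat_lit 259)) (XT.lf (nat_lit 0) (nat_lit 4938921028) (nat_lit 304) (nat_lit 1772596575) (nat_lit 76) (nat_lit 4993657065) (nat_lit 78) (nat_lit 5) (nat_lit 82) (nat_lit 5) (nat_lit 79) (nat_lit 4) (nat_lit 365) (nat_lit 277) (nat_lit 258))))))))
noncomputable def xc51 : XT := (XT.nd (nat_lit 2106) (nat_lit 1368) (nat_lit 0) (XT.nd (nat_lit 1014) (nat_lit 1292) (nat_lit 0) (XT.nd (nat_lit 468) (nat_lit 912) (nat_lit 0) (XT.nd (nat_lit 234) (nat_lit 456) (nat_lit 0) (XT.nd (nat_lit 78) (nat_lit 304) (nat_lit 0) (XT.lf (nat_lit 0) (nat_lit 6655652406) (nat_lit 152) (nat_lit 2659778618) (nat_lit 228) (nat_lit 2588897853) (nat_lit 76) (nat_lit 5) (nat_lit 78) (nat_lit 5) (nat_lit 79) (nat_lit 4) (nat_lit 366) (nat_lit 277) (nat_lit 257))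 (XT.nd (nat_lit 78) (nat_lit 0) (nat_lit 0) (XT.lf (nat_lit 0) (nat_lit 1664940893) (nat_lit 304) (nat_lit 8947796589) (nat_lit 76) (nat_lit 1496705233) (nat_lit 72) (nat_lit 5) (nat_lit 76) (nat_lit 5) (nat_lit 73) (nat_lit 4) (nat_lit 367) (nat_lit 277) (nat_lit 256)) (XT.lf (nat_lit 0) (nat_lit 5996049035) (nat_lit 304) (nat_lit 573012342) (nat_lit 76) (nat_lit 5750845799) (nat_lit 72) (nat_lit 5) (nat_lit 76) (nat_lit 5) (nat_lit 73) (nat_lit 4) (nat_lit 368) (nat_lit 277) (nat_lit 255)))) (XT.nd (nat_lit 78) (nat_lit 304) (nat_lit 0) (XT.lf (nat_lit 0) (nat_lit 8081321136) (nat_lit 152) (nat_lit 2377556711) (nat_lit 228) (nat_lit 2077770453) (nat_lit 70) (nat_lit 5) (nat_lit 72) (nat_lit 5) (nat_lit 73) (nat_lit 4) (nat_lit 369) (nat_lit 277) (nat_lit 254)) (XT.nd (nat_lit 78) (nat_lit 0) (nat_lit 0) (XT.lf (nat_lit 0) (nat_lit 2240025582) (nat_lit 304) (nat_lit 8601881757) (nat_lit 76) (nat_lit 1917664008)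 (nat_lit 66) (nat_lit 5) (nat_lit 70) (nat_lit 5) (nat_lit 67) (nat_lit 4) (nat_lit 370) (nat_lit 277) (nat_lit 253)) (XT.lf (nat_lit 0) (nat_lit 6639350719) (nat_lit 304) (nat_lit 42075374) (nat_lit 76) (nat_lit 6307341108) (nat_lit 66) (nat_lit 5) (nat_lit 70) (nat_lit 5) (nat_lit 67) (nat_lit 4) (nat_lit 371) (nat_lit 277) (nat_lit 252))))) (XT.nd (nat_lit 234) (nat_lit 532) (nat_lit 0) (XT.nd (nat_lit 78) (nat_lit 228) (nat_lit 0) (XT.lf (nat_lit 0) (nat_lit 8820318985) (nat_lit 152) (nat_lit 2362094452) (nat_lit 228) (nat_lit 2042087288) (nat_lit 64) (nat_lit 5) (nat_lit 66) (nat_lit 5) (nat_lit 67) (nat_lit 4) (nat_lit 372) (nat_lit 277) (nat_lit 251)) (XT.nd (nat_lit 78) (nat_lit 0) (nat_lit 0) (XT.lf (nat_lit 0) (nat_lit 2338007191) (nat_lit 228) (nat_lit 9068910590) (nat_lit 76) (nat_lit 2060003558) (nat_lit 61) (nat_lit 5) (nat_lit 64) (nat_lit 5) (nat_lit 62) (nat_lit 4) (nat_lit 373) (nat_lit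 277) (nat_lit 250)) (XT.lf (nat_lit 0) (nat_lit 6804333585) (nat_lit 228) (nat_lit 331740017) (nat_lit 76) (nat_lit 6580071514) (nat_lit 61) (nat_lit 5) (nat_lit 64) (nat_lit 5) (nat_lit 62) (nat_lit 4) (nat_lit 374) (nat_lit 277) (nat_lit 249)))) (XT.nd (nat_lit 156) (nat_lit 152) (nat_lit 0) (XT.nd (nat_lit 78) (nat_lit 228) (nat_lit 0) (XT.lf (nat_lit 0) (nat_lit 8714327587) (nat_lit 152) (nat_lit 2703771190) (nat_lit 228) (nat_lit 2554356269) (nat_lit 59) (nat_lit 5) (nat_lit 61) (nat_lit 5) (nat_lit 62) (nat_lit 4) (nat_lit 375) (nat_lit 277) (nat_lit 248)) (XT.lf (nat_lit 0) (nat_lit 1883164254) (nat_lit 228) (nat_lit 10521809471) (nat_lit 76) (nat_lit 1831322718) (nat_lit 56) (nat_lit 5) (nat_lit 59) (nat_lit 5) (nat_lit 57) (nat_lit 4) (nat_lit 376) (nat_lit 277) (nat_lit 247))) (XT.nd (nat_lit 78) (nat_lit 152) (nat_lit 0) (XT.lf (nat_lit 0) (nat_lit 6413077940) (nat_lit 228) (nat_lit 1618816301)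 (nat_lit 76) (nat_lit 6475093709) (nat_lit 56) (nat_lit 5) (nat_lit 59) (nat_lit 5) (nat_lit 57) (nat_lit 4) (nat_lit 377) (nat_lit 277) (nat_lit 246)) (XT.lf (nat_lit 0) (nat_lit 7578929719) (nat_lit 152) (nat_lit 3505060273) (nat_lit 228) (nat_lit 3701668649) (nat_lit 54) (nat_lit 5) (nat_lit 56) (nat_lit 5) (nat_lit 57) (nat_lit 4) (nat_lit 378) (nat_lit 277) (nat_lit 245)))))) (XT.nd (nat_lit 546) (nat_lit 608) (nat_lit 0) (XT.nd (nat_lit 234) (nat_lit 304) (nat_lit 0) (XT.nd (nat_lit 78) (nat_lit 152) (nat_lit 0) (XT.lf (nat_lit 0) (nat_lit 784730953) (nat_lit 228) (nat_lit 13161848189) (nat_lit 76) (nat_lit 1126530844) (nat_lit 51) (nat_lit 5) (nat_lit 54) (nat_lit 5) (nat_lit 52) (nat_lit 4) (nat_lit 379) (nat_lit 277) (nat_lit 244)) (XT.nd (nat_lit 78) (nat_lit 152) (nat_lit 0) (XT.lf (nat_lit 0) (nat_lit 5372242274) (nat_lit 228) (nat_lit 4109288452) (nat_lit 76) (nat_lit 5885337546) (nat_lit 51)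 (nat_lit 5) (nat_lit 54) (nat_lit 5) (nat_lit 52) (nat_lit 4) (nat_lit 380) (nat_lit 277) (nat_lit 243)) (XT.lf (nat_lit 0) (nat_lit 5199081833) (nat_lit 152) (nat_lit 4882955093) (nat_lit 228) (nat_lit 5587872832) (nat_lit 49) (nat_lit 5) (nat_lit 51) (nat_lit 5) (nat_lit 52) (nat_lit 4) (nat_lit 381) (nat_lit 277) (nat_lit 242)))) (XT.nd (nat_lit 156) (nat_lit 76) (nat_lit 0) (XT.nd (nat_lit 78) (nat_lit 228) (nat_lit 0) (XT.lf (nat_lit 0) (nat_lit 14754869760) (nat_lit 152) (nat_lit 155219404) (nat_lit 228) (nat_lit 1072654305) (nat_lit 49) (nat_lit 5) (nat_lit 51) (nat_lit 5) (nat_lit 52) (nat_lit 4) (nat_lit 382) (nat_lit 277) (nat_lit 241)) (XT.lf (nat_lit 0) (nat_lit 3570722970) (nat_lit 228) (nat_lit 8043305021) (nat_lit 76) (nat_lit 4688036034) (nat_lit 46) (nat_lit 5) (nat_lit 49) (nat_lit 5) (nat_lit 47) (nat_lit 4) (nat_lit 383) (nat_lit 277) (nat_lit 240))) (XT.nd (nat_lit 78) (nat_lit 0) (nat_lit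 0) (XT.lf (nat_lit 0) (nat_lit 1323880640) (nat_lit 76) (nat_lit 6971738914) (nat_lit 152) (nat_lit 8336121769) (nat_lit 45) (nat_lit 5) (nat_lit 46) (nat_lit 5) (nat_lit 47) (nat_lit 4) (nat_lit 384) (nat_lit 277) (nat_lit 239)) (XT.lf (nat_lit 0) (nat_lit 11023839965) (nat_lit 76) (nat_lit 2157385075) (nat_lit 152) (nat_lit 3789523831) (nat_lit 45) (nat_lit 5) (nat_lit 46) (nat_lit 5) (nat_lit 47) (nat_lit 4) (nat_lit 385) (nat_lit 277) (nat_lit 238))))) (XT.nd (nat_lit 234) (nat_lit 304) (nat_lit 0) (XT.nd (nat_lit 78) (nat_lit 76) (nat_lit 0) (XT.lf (nat_lit 0) (nat_lit 876915659) (nat_lit 228) (nat_lit 13700950929) (nat_lit 76) (nat_lit 2741784328) (nat_lit 42) (nat_lit 5) (nat_lit 45) (nat_lit 5) (nat_lit 43) (nat_lit 4) (nat_lit 386) (nat_lit 277) (nat_lit 237)) (XT.nd (nat_lit 78) (nat_lit 76) (nat_lit 0) (XT.lf (nat_lit 0) (nat_lit 5628380691) (nat_lit 228) (nat_lit 4254812898) (nat_lit 76) (nat_lit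 7794072939) (nat_lit 42) (nat_lit 5) (nat_lit 45) (nat_lit 5) (nat_lit 43) (nat_lit 4) (nat_lit 387) (nat_lit 277) (nat_lit 236)) (XT.lf (nat_lit 0) (nat_lit 5473455398) (nat_lit 76) (nat_lit 5042510700) (nat_lit 152) (nat_lit 7529845025) (nat_lit 41) (nat_lit 5) (nat_lit 42) (nat_lit 5) (nat_lit 43) (nat_lit 4) (nat_lit 388) (nat_lit 277) (nat_lit 235)))) (XT.nd (nat_lit 156) (nat_lit 76) (nat_lit 0) (XT.nd (nat_lit 78) (nat_lit 228) (nat_lit 0) (XT.lf (nat_lit 0) (nat_lit 15473789950) (nat_lit 76) (nat_lit 61007593) (nat_lit 152) (nat_lit 2891083542) (nat_lit 41) (nat_lit 5) (nat_lit 42) (nat_lit 5) (nat_lit 43) (nat_lit 4) (nat_lit 389) (nat_lit 277) (nat_lit 234)) (XT.lf (nat_lit 0) (nat_lit 1908921131) (nat_lit 228) (nat_lit 11896025758) (nat_lit 76) (nat_lit 5010102297) (nat_lit 38) (nat_lit 5) (nat_lit 41) (nat_lit 5) (nat_lit 39) (nat_lit 4) (nat_lit 390) (nat_lit 277) (nat_lit 233))) (XT.nd (nat_lit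 78) (nat_lit 76) (nat_lit 0) (XT.lf (nat_lit 0) (nat_lit 6768522704) (nat_lit 228) (nat_lit 2202983535) (nat_lit 76) (nat_lit 10244323153) (nat_lit 38) (nat_lit 5) (nat_lit 41) (nat_lit 5) (nat_lit 39) (nat_lit 4) (nat_lit 391) (nat_lit 277) (nat_lit 232)) (XT.lf (nat_lit 0) (nat_lit 7831487829) (nat_lit 76) (nat_lit 3962361038) (nat_lit 152) (nat_lit 7834192777) (nat_lit 37) (nat_lit 5) (nat_lit 38) (nat_lit 5) (nat_lit 39) (nat_lit 4) (nat_lit 392) (nat_lit 277) (nat_lit 231))))))) (XT.nd (nat_lit 1014) (nat_lit 532) (nat_lit 0) (XT.nd (nat_lit 468) (nat_lit 304) (nat_lit 0) (XT.nd (nat_lit 234) (nat_lit 304) (nat_lit 0) (XT.nd (nat_lit 78) (nat_lit 228) (nat_lit 0) (XT.lf (nat_lit 0) (nat_lit 16948755846) (nat_lit 152) (nat_lit 1953909479) (nat_lit 0) (nat_lit 1150596849) (nat_lit 37) (nat_lit 5) (nat_lit 39) (nat_lit 4) (nat_lit 37) (nat_lit 4) (nat_lit 393) (nat_lit 277) (nat_lit 230)) (XT.nd (nat_lit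 78) (nat_lit 0) (nat_lit 0) (XT.lf (nat_lit 0) (nat_lit 1797783872) (nat_lit 228) (nat_lit 12301432169) (nat_lit 76) (nat_lit 6389564007) (nat_lit 34) (nat_lit 5) (nat_lit 37) (nat_lit 5) (nat_lit 35) (nat_lit 4) (nat_lit 394) (nat_lit 277) (nat_lit 229)) (XT.lf (nat_lit 0) (nat_lit 6751209080) (nat_lit 228) (nat_lit 2394303687) (nat_lit 76) (nat_lit 11791940631) (nat_lit 34) (nat_lit 5) (nat_lit 37) (nat_lit 5) (nat_lit 35) (nat_lit 4) (nat_lit 395) (nat_lit 277) (nat_lit 228)))) (XT.nd (nat_lit 78) (nat_lit 228) (nat_lit 0) (XT.lf (nat_lit 0) (nat_lit 7866953878) (nat_lit 76) (nat_lit 4010000089) (nat_lit 152) (nat_lit 9521927287) (nat_lit 33) (nat_lit 5) (nat_lit 34) (nat_lit 5) (nat_lit 35) (nat_lit 4) (nat_lit 396) (nat_lit 277) (nat_lit 227)) (XT.nd (nat_lit 78) (nat_lit 228) (nat_lit 0) (XT.lf (nat_lit 0) (nat_lit 17141449540) (nat_lit 152) (nat_lit 3497605199) (nat_lit 0) (nat_lit 1235553497) (nat_lit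 33) (nat_lit 5) (nat_lit 35) (nat_lit 4) (nat_lit 33) (nat_lit 4) (nat_lit 397) (nat_lit 277) (nat_lit 226)) (XT.lf (nat_lit 0) (nat_lit 251122984) (nat_lit 228) (nat_lit 15527900951) (nat_lit 76) (nat_lit 6583858788) (nat_lit 30) (nat_lit 5) (nat_lit 33) (nat_lit 5) (nat_lit 31) (nat_lit 4) (nat_lit 398) (nat_lit 277) (nat_lit 225))))) (XT.nd (nat_lit 234) (nat_lit 228) (nat_lit 0) (XT.nd (nat_lit 78) (nat_lit 76) (nat_lit 0) (XT.lf (nat_lit 0) (nat_lit 5275309895) (nat_lit 228) (nat_lit 5456747703) (nat_lit 76) (nat_lit 12132781864) (nat_lit 30) (nat_lit 5) (nat_lit 33) (nat_lit 5) (nat_lit 31) (nat_lit 4) (nat_lit 399) (nat_lit 277) (nat_lit 224)) (XT.nd (nat_lit 78) (nat_lit 0) (nat_lit 0) (XT.lf (nat_lit 0) (nat_lit 4921277815) (nat_lit 76) (nat_lit 5527551840) (nat_lit 152) (nat_lit 12933072044) (nat_lit 29) (nat_lit 5) (nat_lit 30) (nat_lit 5) (nat_lit 31) (nat_lit 4) (nat_lit 400) (nat_lit 277)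 (nat_lit 223)) (XT.lf (nat_lit 0) (nat_lit 15632102935) (nat_lit 76) (nat_lit 152404882) (nat_lit 152) (nat_lit 8129764269) (nat_lit 29) (nat_lit 5) (nat_lit 30) (nat_lit 5) (nat_lit 31) (nat_lit 4) (nat_lit 401) (nat_lit 277) (nat_lit 222)))) (XT.nd (nat_lit 156) (nat_lit 76) (nat_lit 0) (XT.nd (nat_lit 78) (nat_lit 76) (nat_lit 0) (XT.lf (nat_lit 0) (nat_lit 2102126006) (nat_lit 76) (nat_lit 19202949980) (nat_lit 76) (nat_lit 3156797732) (nat_lit 28) (nat_lit 4) (nat_lit 29) (nat_lit 5) (nat_lit 29) (nat_lit 4) (nat_lit 402) (nat_lit 277) (nat_lit 221)) (XT.lf (nat_lit 0) (nat_lit 1965897753) (nat_lit 152) (nat_lit 12165747308) (nat_lit 76) (nat_lit 10892529292) (nat_lit 27) (nat_lit 5) (nat_lit 29) (nat_lit 5) (nat_lit 28) (nat_lit 4) (nat_lit 403) (nat_lit 277) (nat_lit 220))) (XT.nd (nat_lit 78) (nat_lit 76) (nat_lit 0) (XT.lf (nat_lit 0) (nat_lit 7133117323) (nat_lit 152) (nat_lit 1783444494) (nat_lit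 76) (nat_lit 16687220099) (nat_lit 27) (nat_lit 5) (nat_lit 29) (nat_lit 5) (nat_lit 28) (nat_lit 4) (nat_lit 404) (nat_lit 277) (nat_lit 219)) (XT.lf (nat_lit 0) (nat_lit 9002243916) (nat_lit 76) (nat_lit 3495267675) (nat_lit 152) (nat_lit 13702005570) (nat_lit 26) (nat_lit 5) (nat_lit 27) (nat_lit 5) (nat_lit 28) (nat_lit 4) (nat_lit 405) (nat_lit 277) (nat_lit 218)))))) (XT.nd (nat_lit 546) (nat_lit 228) (nat_lit 0) (XT.nd (nat_lit 234) (nat_lit 152) (nat_lit 0) (XT.nd (nat_lit 78) (nat_lit 152) (nat_lit 0) (XT.lf (nat_lit 0) (nat_lit 18016845884) (nat_lit 152) (nat_lit 6768651975) (nat_lit 0) (nat_lit 2027810435) (nat_lit 26) (nat_lit 5) (nat_lit 28) (nat_lit 4) (nat_lit 26) (nat_lit 4) (nat_lit 406) (nat_lit 277) (nat_lit 217)) (XT.nd (nat_lit 78) (nat_lit 76) (nat_lit 0) (XT.lf (nat_lit 0) (nat_lit 3933548147) (nat_lit 76) (nat_lit 19797662442) (nat_lit 76) (nat_lit 3713423017) (nat_lit 25) (nat_lit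 4) (nat_lit 26) (nat_lit 5) (nat_lit 26) (nat_lit 4) (nat_lit 407) (nat_lit 277) (nat_lit 216)) (XT.lf (nat_lit 0) (nat_lit 1518516633) (nat_lit 152) (nat_lit 13094081704) (nat_lit 76) (nat_lit 13481081802) (nat_lit 24) (nat_lit 5) (nat_lit 26) (nat_lit 5) (nat_lit 25) (nat_lit 4) (nat_lit 408) (nat_lit 277) (nat_lit 215)))) (XT.nd (nat_lit 156) (nat_lit 76) (nat_lit 0) (XT.nd (nat_lit 78) (nat_lit 76) (nat_lit 0) (XT.lf (nat_lit 0) (nat_lit 6791112356) (nat_lit 152) (nat_lit 2480451262) (nat_lit 76) (nat_lit 19490785052) (nat_lit 24) (nat_lit 5) (nat_lit 26) (nat_lit 5) (nat_lit 25) (nat_lit 4) (nat_lit 409) (nat_lit 277) (nat_lit 214)) (XT.lf (nat_lit 0) (nat_lit 8541450059) (nat_lit 76) (nat_lit 3722089117) (nat_lit 152) (nat_lit 17186292002) (nat_lit 23) (nat_lit 5) (nat_lit 24) (nat_lit 5) (nat_lit 25) (nat_lit 4) (nat_lit 410) (nat_lit 277) (nat_lit 213))) (XT.nd (nat_lit 78) (nat_lit 76) (nat_lit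 0) (XT.lf (nat_lit 0) (nat_lit 17904248893) (nat_lit 152) (nat_lit 10308662206) (nat_lit 0) (nat_lit 1944907174) (nat_lit 23) (nat_lit 5) (nat_lit 25) (nat_lit 4) (nat_lit 23) (nat_lit 4) (nat_lit 411) (nat_lit 277) (nat_lit 212)) (XT.lf (nat_lit 0) (nat_lit 507421387) (nat_lit 76) (nat_lit 23209311926) (nat_lit 76) (nat_lit 7170238377) (nat_lit 22) (nat_lit 4) (nat_lit 23) (nat_lit 5) (nat_lit 23) (nat_lit 4) (nat_lit 412) (nat_lit 277) (nat_lit 211))))) (XT.nd (nat_lit 234) (nat_lit 76) (nat_lit 0) (XT.nd (nat_lit 78) (nat_lit 152) (nat_lit 0) (XT.lf (nat_lit 0) (nat_lit 11785360936) (nat_lit 76) (nat_lit 17983582279) (nat_lit 76) (nat_lit 1867099185) (nat_lit 22) (nat_lit 4) (nat_lit 23) (nat_lit 5) (nat_lit 23) (nat_lit 4) (nat_lit 413) (nat_lit 277) (nat_lit 210)) (XT.nd (nat_lit 78) (nat_lit 76) (nat_lit 0) (XT.lf (nat_lit 0) (nat_lit 3486986855) (nat_lit 152) (nat_lit 9113054674) (nat_lit 76) (nat_lit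 19807649776) (nat_lit 21) (nat_lit 5) (nat_lit 23) (nat_lit 5) (nat_lit 22) (nat_lit 4) (nat_lit 414) (nat_lit 277) (nat_lit 209)) (XT.lf (nat_lit 0) (nat_lit 1894751828) (nat_lit 76) (nat_lit 7050743609) (nat_lit 152) (nat_lit 24257002796) (nat_lit 20) (nat_lit 5) (nat_lit 21) (nat_lit 5) (nat_lit 22) (nat_lit 4) (nat_lit 415) (nat_lit 277) (nat_lit 208)))) (XT.nd (nat_lit 156) (nat_lit 76) (nat_lit 0) (XT.nd (nat_lit 78) (nat_lit 0) (nat_lit 0) (XT.lf (nat_lit 0) (nat_lit 13349855372) (nat_lit 76) (nat_lit 1273445111) (nat_lit 152) (nat_lit 19396185508) (nat_lit 20) (nat_lit 5) (nat_lit 21) (nat_lit 5) (nat_lit 22) (nat_lit 4) (nat_lit 416) (nat_lit 277) (nat_lit 207)) (XT.lf (nat_lit 0) (nat_lit 20480668917) (nat_lit 152) (nat_lit 9825800559) (nat_lit 0) (nat_lit 4554239804) (nat_lit 20) (nat_lit 5) (nat_lit 22) (nat_lit 4) (nat_lit 20) (nat_lit 4) (nat_lit 417) (nat_lit 277) (nat_lit 206))) (XT.nd (nat_lit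 78) (nat_lit 0) (nat_lit 0) (XT.lf (nat_lit 0) (nat_lit 1289422201) (nat_lit 76) (nat_lit 25214649378) (nat_lit 76) (nat_lit 9223390990) (nat_lit 19) (nat_lit 4) (nat_lit 20) (nat_lit 5) (nat_lit 20) (nat_lit 4) (nat_lit 418) (nat_lit 277) (nat_lit 205)) (XT.lf (nat_lit 0) (nat_lit 12873697537) (nat_lit 76) (nat_lit 19899387847) (nat_lit 76) (nat_lit 3845188415) (nat_lit 19) (nat_lit 4) (nat_lit 20) (nat_lit 5) (nat_lit 20) (nat_lit 4) (nat_lit 419) (nat_lit 277) (nat_lit 204))))))))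
noncomputable def xc52 : XT := (XT.nd (nat_lit 2106) (nat_lit 152) (nat_lit 0) (XT.nd (nat_lit 1014) (nat_lit 304) (nat_lit 0) (XT.nd (nat_lit 468) (nat_lit 152) (nat_lit 0) (XT.nd (nat_lit 234) (nat_lit 76) (nat_lit 0) (XT.nd (nat_lit 78) (nat_lit 76) (nat_lit 0) (XT.lf (nat_lit 0) (nat_lit 1627651973) (nat_lit 152) (nat_lit 12811173734) (nat_lit 76) (nat_lit 23097506865) (nat_lit 18) (nat_lit 5) (nat_lit 20) (nat_lit 5) (nat_lit 19) (nat_lit 4) (nat_lit 420) (nat_lit 277) (nat_lit 203)) (XT.nd (nat_lit 78) (nat_lit 76) (nat_lit 0) (XT.lf (nat_lit 0) (nat_lit 7154727860) (nat_lit 152) (nat_lit 1650537654) (nat_lit 76) (nat_lit 29676507810) (nat_lit 18) (nat_lit 5) (nat_lit 20) (nat_lit 5) (nat_lit 19) (nat_lit 4) (nat_lit 421) (nat_lit 277) (nat_lit 202)) (XT.lf (nat_lit 0) (nat_lit 9978767998) (nat_lit 76) (nat_lit 2933056228) (nat_lit 152) (nat_lit 26541829151) (nat_lit 17) (nat_lit 5) (nat_lit 18) (nat_lit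 5) (nat_lit 19) (nat_lit 4) (nat_lit 422) (nat_lit 277) (nat_lit 201)))) (XT.nd (nat_lit 78) (nat_lit 76) (nat_lit 0) (XT.lf (nat_lit 0) (nat_lit 18856764691) (nat_lit 152) (nat_lit 18554453898) (nat_lit 0) (nat_lit 3043019562) (nat_lit 17) (nat_lit 5) (nat_lit 19) (nat_lit 4) (nat_lit 17) (nat_lit 4) (nat_lit 423) (nat_lit 277) (nat_lit 200)) (XT.nd (nat_lit 78) (nat_lit 76) (nat_lit 0) (XT.lf (nat_lit 0) (nat_lit 24978367936) (nat_lit 152) (nat_lit 7394614612) (nat_lit 0) (nat_lit 9111910674) (nat_lit 17) (nat_lit 5) (nat_lit 19) (nat_lit 4) (nat_lit 17) (nat_lit 4) (nat_lit 424) (nat_lit 277) (nat_lit 199)) (XT.lf (nat_lit 0) (nat_lit 4123033354) (nat_lit 76) (nat_lit 27170388369) (nat_lit 76) (nat_lit 11252754279) (nat_lit 16) (nat_lit 4) (nat_lit 17) (nat_lit 5) (nat_lit 17) (nat_lit 4) (nat_lit 425) (nat_lit 277) (nat_lit 198))))) (XT.nd (nat_lit 234) (nat_lit 76) (nat_lit 0) (XT.nd (nat_lit 78) (nat_lit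 76) (nat_lit 0) (XT.lf (nat_lit 0) (nat_lit 16080914537) (nat_lit 76) (nat_lit 21762175123) (nat_lit 76) (nat_lit 5794854792) (nat_lit 16) (nat_lit 4) (nat_lit 17) (nat_lit 5) (nat_lit 17) (nat_lit 4) (nat_lit 426) (nat_lit 277) (nat_lit 197)) (XT.nd (nat_lit 78) (nat_lit 76) (nat_lit 0) (XT.lf (nat_lit 0) (nat_lit 28342310239) (nat_lit 76) (nat_lit 16218288297) (nat_lit 76) (nat_lit 202728898) (nat_lit 16) (nat_lit 4) (nat_lit 17) (nat_lit 5) (nat_lit 17) (nat_lit 4) (nat_lit 427) (nat_lit 277) (nat_lit 196)) (XT.lf (nat_lit 0) (nat_lit 5420628589) (nat_lit 152) (nat_lit 5058517409) (nat_lit 76) (nat_lit 35442567991) (nat_lit 15) (nat_lit 5) (nat_lit 17) (nat_lit 5) (nat_lit 16) (nat_lit 4) (nat_lit 428) (nat_lit 277) (nat_lit 195)))) (XT.nd (nat_lit 156) (nat_lit 0) (nat_lit 0) (XT.nd (nat_lit 78) (nat_lit 0) (nat_lit 0) (XT.lf (nat_lit 0) (nat_lit 6721412533) (nat_lit 76) (nat_lit 4524536200) (nat_lit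 152) (nat_lit 35867724930) (nat_lit 14) (nat_lit 5) (nat_lit 15) (nat_lit 5) (nat_lit 16) (nat_lit 4) (nat_lit 429) (nat_lit 277) (nat_lit 194)) (XT.lf (nat_lit 0) (nat_lit 17285857979) (nat_lit 152) (nat_lit 29450045179) (nat_lit 0) (nat_lit 1604295865) (nat_lit 14) (nat_lit 5) (nat_lit 16) (nat_lit 4) (nat_lit 14) (nat_lit 4) (nat_lit 430) (nat_lit 277) (nat_lit 193))) (XT.nd (nat_lit 78) (nat_lit 0) (nat_lit 0) (XT.lf (nat_lit 0) (nat_lit 23525333456) (nat_lit 152) (nat_lit 18275477450) (nat_lit 0) (nat_lit 7802159898) (nat_lit 14) (nat_lit 5) (nat_lit 16) (nat_lit 4) (nat_lit 14) (nat_lit 4) (nat_lit 431) (nat_lit 277) (nat_lit 192)) (XT.lf (nat_lit 0) (nat_lit 29926334525) (nat_lit 152) (nat_lit 6815301147) (nat_lit 0) (nat_lit 14162761506) (nat_lit 14) (nat_lit 5) (nat_lit 16) (nat_lit 4) (nat_lit 14) (nat_lit 4) (nat_lit 432) (nat_lit 277) (nat_lit 191)))))) (XT.nd (nat_lit 546) (nat_lit 76) (nat_lit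 0) (XT.nd (nat_lit 234) (nat_lit 152) (nat_lit 0) (XT.nd (nat_lit 78) (nat_lit 0) (nat_lit 0) (XT.lf (nat_lit 0) (nat_lit 5038823062) (nat_lit 76) (nat_lit 31504067481) (nat_lit 76) (nat_lit 15701271685) (nat_lit 13) (nat_lit 4) (nat_lit 14) (nat_lit 5) (nat_lit 14) (nat_lit 4) (nat_lit 433) (nat_lit 277) (nat_lit 190)) (XT.nd (nat_lit 78) (nat_lit 0) (nat_lit 0) (XT.lf (nat_lit 0) (nat_lit 17340567402) (nat_lit 76) (nat_lit 26061552634) (nat_lit 76) (nat_lit 10220676471) (nat_lit 13) (nat_lit 4) (nat_lit 14) (nat_lit 5) (nat_lit 14) (nat_lit 4) (nat_lit 434) (nat_lit 277) (nat_lit 189)) (XT.lf (nat_lit 0) (nat_lit 29965043114) (nat_lit 76) (nat_lit 20478156713) (nat_lit 76) (nat_lit 4600309321) (nat_lit 13) (nat_lit 4) (nat_lit 14) (nat_lit 5) (nat_lit 14) (nat_lit 4) (nat_lit 435) (nat_lit 277) (nat_lit 188)))) (XT.nd (nat_lit 156) (nat_lit 76) (nat_lit 0) (XT.nd (nat_lit 78) (nat_lit 0) (nat_lit 0) (XT.lf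 (nat_lit 0) (nat_lit 1142012477) (nat_lit 152) (nat_lit 13595456460) (nat_lit 76) (nat_lit 41769736730) (nat_lit 12) (nat_lit 5) (nat_lit 14) (nat_lit 5) (nat_lit 13) (nat_lit 4) (nat_lit 436) (nat_lit 277) (nat_lit 187)) (XT.lf (nat_lit 0) (nat_lit 6941364447) (nat_lit 152) (nat_lit 1857620890) (nat_lit 76) (nat_lit 49215146055) (nat_lit 12) (nat_lit 5) (nat_lit 14) (nat_lit 5) (nat_lit 13) (nat_lit 4) (nat_lit 437) (nat_lit 277) (nat_lit 186))) (XT.nd (nat_lit 78) (nat_lit 0) (nat_lit 0) (XT.lf (nat_lit 0) (nat_lit 10392309409) (nat_lit 76) (nat_lit 2600170413) (nat_lit 152) (nat_lit 46571452947) (nat_lit 11) (nat_lit 5) (nat_lit 12) (nat_lit 5) (nat_lit 13) (nat_lit 4) (nat_lit 438) (nat_lit 277) (nat_lit 185)) (XT.lf (nat_lit 0) (nat_lit 19258377339) (nat_lit 152) (nat_lit 38191286201) (nat_lit 0) (nat_lit 3709568514) (nat_lit 11) (nat_lit 5) (nat_lit 13) (nat_lit 4) (nat_lit 11) (nat_lit 4) (nat_lit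 439) (nat_lit 277) (nat_lit 184))))) (XT.nd (nat_lit 234) (nat_lit 76) (nat_lit 0) (XT.nd (nat_lit 78) (nat_lit 0) (nat_lit 0) (XT.lf (nat_lit 0) (nat_lit 25716563661) (nat_lit 152) (nat_lit 26948906573) (nat_lit 0) (nat_lit 10136792013) (nat_lit 11) (nat_lit 5) (nat_lit 13) (nat_lit 4) (nat_lit 11) (nat_lit 4) (nat_lit 440) (nat_lit 277) (nat_lit 183)) (XT.nd (nat_lit 78) (nat_lit 0) (nat_lit 0) (XT.lf (nat_lit 0) (nat_lit 32347687436) (nat_lit 152) (nat_lit 15409666609) (nat_lit 0) (nat_lit 16737854795) (nat_lit 11) (nat_lit 5) (nat_lit 13) (nat_lit 4) (nat_lit 11) (nat_lit 4) (nat_lit 441) (nat_lit 277) (nat_lit 182)) (XT.lf (nat_lit 0) (nat_lit 39157542849) (nat_lit 152) (nat_lit 3563483477) (nat_lit 0) (nat_lit 23518524779) (nat_lit 11) (nat_lit 5) (nat_lit 13) (nat_lit 4) (nat_lit 11) (nat_lit 4) (nat_lit 442) (nat_lit 277) (nat_lit 181)))) (XT.nd (nat_lit 156) (nat_lit 0) (nat_lit 0) (XT.nd (nat_lit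 78) (nat_lit 0) (nat_lit 0) (XT.lf (nat_lit 0) (nat_lit 8771150595) (nat_lit 76) (nat_lit 37465243331) (nat_lit 76) (nat_lit 21797889891) (nat_lit 10) (nat_lit 4) (nat_lit 11) (nat_lit 5) (nat_lit 11) (nat_lit 4) (nat_lit 443) (nat_lit 277) (nat_lit 180)) (XT.lf (nat_lit 0) (nat_lit 21511153759) (nat_lit 76) (nat_lit 32033036012) (nat_lit 76) (nat_lit 16338172506) (nat_lit 10) (nat_lit 4) (nat_lit 11) (nat_lit 5) (nat_lit 11) (nat_lit 4) (nat_lit 444) (nat_lit 277) (nat_lit 179))) (XT.nd (nat_lit 78) (nat_lit 0) (nat_lit 0) (XT.lf (nat_lit 0) (nat_lit 34596737747) (nat_lit 76) (nat_lit 26455641977) (nat_lit 76) (nat_lit 10734069668) (nat_lit 10) (nat_lit 4) (nat_lit 11) (nat_lit 5) (nat_lit 11) (nat_lit 4) (nat_lit 445) (nat_lit 277) (nat_lit 178)) (XT.lf (nat_lit 0) (nat_lit 48039336564) (nat_lit 76) (nat_lit 20728187776) (nat_lit 76) (nat_lit 4980684590) (nat_lit 10) (nat_lit 4) (nat_lit 11) (nat_lit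 5) (nat_lit 11) (nat_lit 4) (nat_lit 446) (nat_lit 277) (nat_lit 177))))))) (XT.nd (nat_lit 39624) (nat_lit 0) (nat_lit 4864) (XT.nd (nat_lit 39078) (nat_lit 0) (nat_lit 7828) (XT.nd (nat_lit 38844) (nat_lit 0) (nat_lit 9576) (XT.nd (nat_lit 78) (nat_lit 76) (nat_lit 0) (XT.lf (nat_lit 0) (nat_lit 908920653) (nat_lit 152) (nat_lit 13927569866) (nat_lit 76) (nat_lit 60932597201) (nat_lit 9) (nat_lit 5) (nat_lit 11) (nat_lit 5) (nat_lit 10) (nat_lit 4) (nat_lit 447) (nat_lit 277) (nat_lit 176)) (XT.nd (nat_lit 78) (nat_lit 76) (nat_lit 0) (XT.lf (nat_lit 0) (nat_lit 6857694471) (nat_lit 152) (nat_lit 1876001354) (nat_lit 76) (nat_lit 69115941007) (nat_lit 9) (nat_lit 5) (nat_lit 11) (nat_lit 5) (nat_lit 10) (nat_lit 4) (nat_lit 448) (nat_lit 277) (nat_lit 175)) (XT.lf (nat_lit 0) (nat_lit 10713296046) (nat_lit 76) (nat_lit 2357712625) (nat_lit 152) (nat_lit 66919012389) (nat_lit 8) (nat_lit 5) (nat_lit 9)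 (nat_lit 5) (nat_lit 10) (nat_lit 4) (nat_lit 449) (nat_lit 277) (nat_lit 174)))) (XT.nd (nat_lit 78) (nat_lit 760) (nat_lit 0) (XT.lf (nat_lit 0) (nat_lit 3144738686) (nat_lit 380) (nat_lit 585774528) (nat_lit 380) (nat_lit 585774528) (nat_lit 144) (nat_lit 4) (nat_lit 149) (nat_lit 5) (nat_lit 149) (nat_lit 4) (nat_lit 344) (nat_lit 278) (nat_lit 278)) (XT.nd (nat_lit 78) (nat_lit 380) (nat_lit 0) (XT.lf (nat_lit 0) (nat_lit 2812644392) (nat_lit 380) (nat_lit 4126374055) (nat_lit 0) (nat_lit 1799589309) (nat_lit 139) (nat_lit 5) (nat_lit 144) (nat_lit 4) (nat_lit 139) (nat_lit 4) (nat_lit 345) (nat_lit 278) (nat_lit 277)) (XT.lf (nat_lit 0) (nat_lit 2870531231) (nat_lit 380) (nat_lit 3987317701) (nat_lit 380) (nat_lit 1990713994) (nat_lit 134) (nat_lit 4) (nat_lit 139) (nat_lit 5) (nat_lit 139) (nat_lit 4) (nat_lit 346) (nat_lit 278) (nat_lit 276))))) (XT.nd (nat_lit 234) (nat_lit 988) (nat_lit 0) (XT.nd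 (nat_lit 78) (nat_lit 380) (nat_lit 0) (XT.lf (nat_lit 0) (nat_lit 1062038206) (nat_lit 304) (nat_lit 915076813) (nat_lit 380) (nat_lit 6985502335) (nat_lit 129) (nat_lit 5) (nat_lit 133) (nat_lit 5) (nat_lit 134) (nat_lit 4) (nat_lit 347) (nat_lit 278) (nat_lit 275)) (XT.nd (nat_lit 78) (nat_lit 380) (nat_lit 0) (XT.lf (nat_lit 0) (nat_lit 6010136263) (nat_lit 380) (nat_lit 825307370) (nat_lit 0) (nat_lit 2244510833) (nat_lit 129) (nat_lit 5) (nat_lit 134) (nat_lit 4) (nat_lit 129) (nat_lit 4) (nat_lit 348) (nat_lit 278) (nat_lit 274)) (XT.lf (nat_lit 0) (nat_lit 921654506) (nat_lit 380) (nat_lit 2768536995) (nat_lit 76) (nat_lit 5511064162) (nat_lit 124) (nat_lit 5) (nat_lit 129) (nat_lit 5) (nat_lit 125) (nat_lit 4) (nat_lit 349) (nat_lit 278) (nat_lit 273)))) (XT.nd (nat_lit 156) (nat_lit 380) (nat_lit 0) (XT.nd (nat_lit 78) (nat_lit 304) (nat_lit 0) (XT.lf (nat_lit 0) (nat_lit 4519788099) (nat_lit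 304) (nat_lit 410114081) (nat_lit 380) (nat_lit 4396654195) (nat_lit 120) (nat_lit 5) (nat_lit 124) (nat_lit 5) (nat_lit 125) (nat_lit 4) (nat_lit 350) (nat_lit 278) (nat_lit 272)) (XT.lf (nat_lit 0) (nat_lit 2510514257) (nat_lit 304) (nat_lit 6536629464) (nat_lit 304) (nat_lit 408843235) (nat_lit 116) (nat_lit 4) (nat_lit 120) (nat_lit 5) (nat_lit 120) (nat_lit 4) (nat_lit 351) (nat_lit 278) (nat_lit 271))) (XT.nd (nat_lit 78) (nat_lit 0) (nat_lit 0) (XT.lf (nat_lit 0) (nat_lit 386551676) (nat_lit 304) (nat_lit 3204955846) (nat_lit 380) (nat_lit 5997805311) (nat_lit 111) (nat_lit 5) (nat_lit 115) (nat_lit 5) (nat_lit 116) (nat_lit 4) (nat_lit 352) (nat_lit 278) (nat_lit 270)) (XT.lf (nat_lit 0) (nat_lit 7685838901) (nat_lit 380) (nat_lit 1790371731) (nat_lit 0) (nat_lit 250871214) (nat_lit 111) (nat_lit 5) (nat_lit 116) (nat_lit 4) (nat_lit 111) (nat_lit 4) (nat_lit 353) (nat_lit 278) (nat_lit 269))))))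 (XT.nd (nat_lit 546) (nat_lit 1216) (nat_lit 0) (XT.nd (nat_lit 234) (nat_lit 760) (nat_lit 0) (XT.nd (nat_lit 78) (nat_lit 608) (nat_lit 0) (XT.lf (nat_lit 0) (nat_lit 1993500468) (nat_lit 380) (nat_lit 4098698188) (nat_lit 76) (nat_lit 3776252125) (nat_lit 106) (nat_lit 5) (nat_lit 111) (nat_lit 5) (nat_lit 107) (nat_lit 4) (nat_lit 354) (nat_lit 278) (nat_lit 268)) (XT.nd (nat_lit 78) (nat_lit 380) (nat_lit 0) (XT.lf (nat_lit 0) (nat_lit 3491404003) (nat_lit 228) (nat_lit 2580886321) (nat_lit 304) (nat_lit 3942271057) (nat_lit 103) (nat_lit 5) (nat_lit 106) (nat_lit 5) (nat_lit 107) (nat_lit 4) (nat_lit 355) (nat_lit 278) (nat_lit 267)) (XT.lf (nat_lit 0) (nat_lit 81373541) (nat_lit 380) (nat_lit 9063058418) (nat_lit 76) (nat_lit 1021365322) (nat_lit 98) (nat_lit 5) (nat_lit 103) (nat_lit 5) (nat_lit 99) (nat_lit 4) (nat_lit 356) (nat_lit 278) (nat_lit 266)))) (XT.nd (nat_lit 156) (nat_lit 532) (nat_lit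 0) (XT.nd (nat_lit 78) (nat_lit 228) (nat_lit 0) (XT.lf (nat_lit 0) (nat_lit 4151930279) (nat_lit 380) (nat_lit 1431130676) (nat_lit 76) (nat_lit 4737200652) (nat_lit 98) (nat_lit 5) (nat_lit 103) (nat_lit 5) (nat_lit 99) (nat_lit 4) (nat_lit 357) (nat_lit 278) (nat_lit 265)) (XT.lf (nat_lit 0) (nat_lit 6421638001) (nat_lit 228) (nat_lit 1900579797) (nat_lit 304) (nat_lit 2157838377) (nat_lit 95) (nat_lit 5) (nat_lit 98) (nat_lit 5) (nat_lit 99) (nat_lit 4) (nat_lit 358) (nat_lit 278) (nat_lit 264))) (XT.nd (nat_lit 78) (nat_lit 228) (nat_lit 0) (XT.lf (nat_lit 0) (nat_lit 1920378455) (nat_lit 304) (nat_lit 6846803795) (nat_lit 76) (nat_lit 1877339417) (nat_lit 91) (nat_lit 5) (nat_lit 95) (nat_lit 5) (nat_lit 92) (nat_lit 4) (nat_lit 359) (nat_lit 278) (nat_lit 263)) (XT.lf (nat_lit 0) (nat_lit 1004535491) (nat_lit 228) (nat_lit 5059805192) (nat_lit 304) (nat_lit 4749359054) (nat_lit 88) (nat_lit 5) (nat_lit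 91) (nat_lit 5) (nat_lit 92) (nat_lit 4) (nat_lit 360) (nat_lit 278) (nat_lit 262))))) (XT.nd (nat_lit 234) (nat_lit 760) (nat_lit 0) (XT.nd (nat_lit 78) (nat_lit 456) (nat_lit 0) (XT.lf (nat_lit 0) (nat_lit 9098568105) (nat_lit 228) (nat_lit 1221240381) (nat_lit 304) (nat_lit 668551039) (nat_lit 88) (nat_lit 5) (nat_lit 91) (nat_lit 5) (nat_lit 92) (nat_lit 4) (nat_lit 361) (nat_lit 278) (nat_lit 261)) (XT.nd (nat_lit 78) (nat_lit 152) (nat_lit 0) (XT.lf (nat_lit 0) (nat_lit 3471867425) (nat_lit 304) (nat_lit 4970894538) (nat_lit 76) (nat_lit 2724313716) (nat_lit 84) (nat_lit 5) (nat_lit 88) (nat_lit 5) (nat_lit 85) (nat_lit 4) (nat_lit 362) (nat_lit 278) (nat_lit 260)) (XT.lf (nat_lit 0) (nat_lit 3123368495) (nat_lit 152) (nat_lit 4581316174) (nat_lit 228) (nat_lit 3646841476) (nat_lit 82) (nat_lit 5) (nat_lit 84) (nat_lit 5) (nat_lit 85) (nat_lit 4) (nat_lit 363) (nat_lit 278) (nat_lit 259)))) (XT.nd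 (nat_lit 156) (nat_lit 456) (nat_lit 0) (XT.nd (nat_lit 78) (nat_lit 228) (nat_lit 0) (XT.lf (nat_lit 0) (nat_lit 483973123) (nat_lit 228) (nat_lit 115052448) (nat_lit 76) (nat_lit 10943216637) (nat_lit 81) (nat_lit 5) (nat_lit 84) (nat_lit 5) (nat_lit 82) (nat_lit 5) (nat_lit 364) (nat_lit 278) (nat_lit 258)) (XT.lf (nat_lit 0) (nat_lit 4701750449) (nat_lit 304) (nat_lit 3533825650) (nat_lit 76) (nat_lit 3500948752) (nat_lit 78) (nat_lit 5) (nat_lit 82) (nat_lit 5) (nat_lit 79) (nat_lit 4) (nat_lit 365) (nat_lit 278) (nat_lit 257))) (XT.nd (nat_lit 78) (nat_lit 304) (nat_lit 0) (XT.lf (nat_lit 0) (nat_lit 4794760418) (nat_lit 152) (nat_lit 4227861407) (nat_lit 228) (nat_lit 2914735195) (nat_lit 76) (nat_lit 5) (nat_lit 78) (nat_lit 5) (nat_lit 79) (nat_lit 4) (nat_lit 366) (nat_lit 278) (nat_lit 256)) (XT.lf (nat_lit 0) (nat_lit 1183591679) (nat_lit 228) (nat_lit 90405720) (nat_lit 304) (nat_lit 10870719652)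 (nat_lit 72) (nat_lit 5) (nat_lit 75) (nat_lit 5) (nat_lit 76) (nat_lit 5) (nat_lit 367) (nat_lit 278) (nat_lit 255))))))))
noncomputable def xc53 : XT := (XT.nd (nat_lit 2106) (nat_lit 1292) (nat_lit 0) (XT.nd (nat_lit 1014) (nat_lit 1216) (nat_lit 0) (XT.nd (nat_lit 468) (nat_lit 760) (nat_lit 0) (XT.nd (nat_lit 234) (nat_lit 380) (nat_lit 0) (XT.nd (nat_lit 78) (nat_lit 456) (nat_lit 0) (XT.lf (nat_lit 0) (nat_lit 5566849720) (nat_lit 304) (nat_lit 2649210997) (nat_lit 76) (nat_lit 4140276525) (nat_lit 72) (nat_lit 5) (nat_lit 76) (nat_lit 5) (nat_lit 73) (nat_lit 4) (nat_lit 368) (nat_lit 278) (nat_lit 254)) (XT.nd (nat_lit 78) (nat_lit 304) (nat_lit 0) (XT.lf (nat_lit 0) (nat_lit 5900688041) (nat_lit 152) (nat_lit 4071731061) (nat_lit 228) (nat_lit 2602384868) (nat_lit 70) (nat_lit 5) (nat_lit 72) (nat_lit 5) (nat_lit 73) (nat_lit 4) (nat_lit 369) (nat_lit 278) (nat_lit 253)) (XT.lf (nat_lit 0) (nat_lit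 1650340780) (nat_lit 304) (nat_lit 10946187916) (nat_lit 76) (nat_lit 203616206) (nat_lit 66) (nat_lit 5) (nat_lit 70) (nat_lit 5) (nat_lit 67) (nat_lit 4) (nat_lit 370) (nat_lit 278) (nat_lit 252)))) (XT.nd (nat_lit 78) (nat_lit 380) (nat_lit 0) (XT.lf (nat_lit 0) (nat_lit 6013691299) (nat_lit 304) (nat_lit 2448609320) (nat_lit 76) (nat_lit 4568126533) (nat_lit 66) (nat_lit 5) (nat_lit 70) (nat_lit 5) (nat_lit 67) (nat_lit 4) (nat_lit 371) (nat_lit 278) (nat_lit 251)) (XT.nd (nat_lit 78) (nat_lit 228) (nat_lit 0) (XT.lf (nat_lit 0) (nat_lit 6304272584) (nat_lit 152) (nat_lit 4193368842) (nat_lit 228) (nat_lit 2770299577) (nat_lit 64) (nat_lit 5) (nat_lit 66) (nat_lit 5) (nat_lit 67) (nat_lit 4) (nat_lit 372) (nat_lit 278) (nat_lit 250)) (XT.lf (nat_lit 0) (nat_lit 1545381350) (nat_lit 228) (nat_lit 11761221176) (nat_lit 76) (nat_lit 206334348) (nat_lit 61) (nat_lit 5) (nat_lit 64) (nat_lit 5) (nat_lit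 62) (nat_lit 4) (nat_lit 373) (nat_lit 278) (nat_lit 249))))) (XT.nd (nat_lit 234) (nat_lit 380) (nat_lit 0) (XT.nd (nat_lit 78) (nat_lit 380) (nat_lit 0) (XT.lf (nat_lit 0) (nat_lit 5977068118) (nat_lit 228) (nat_lit 3084772773) (nat_lit 76) (nat_lit 4701365309) (nat_lit 61) (nat_lit 5) (nat_lit 64) (nat_lit 5) (nat_lit 62) (nat_lit 4) (nat_lit 374) (nat_lit 278) (nat_lit 248)) (XT.nd (nat_lit 78) (nat_lit 228) (nat_lit 0) (XT.lf (nat_lit 0) (nat_lit 5846377226) (nat_lit 152) (nat_lit 4683256884) (nat_lit 228) (nat_lit 3491724167) (nat_lit 59) (nat_lit 5) (nat_lit 61) (nat_lit 5) (nat_lit 62) (nat_lit 4) (nat_lit 375) (nat_lit 278) (nat_lit 247)) (XT.lf (nat_lit 0) (nat_lit 707040674) (nat_lit 152) (nat_lit 176458760) (nat_lit 228) (nat_lit 13404394029) (nat_lit 56) (nat_lit 5) (nat_lit 58) (nat_lit 5) (nat_lit 59) (nat_lit 5) (nat_lit 376) (nat_lit 278) (nat_lit 246)))) (XT.nd (nat_lit 156) (nat_lit 228)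 (nat_lit 0) (XT.nd (nat_lit 78) (nat_lit 152) (nat_lit 0) (XT.lf (nat_lit 0) (nat_lit 5378341347) (nat_lit 228) (nat_lit 4735389577) (nat_lit 76) (nat_lit 4445911848) (nat_lit 56) (nat_lit 5) (nat_lit 59) (nat_lit 5) (nat_lit 57) (nat_lit 4) (nat_lit 377) (nat_lit 278) (nat_lit 245)) (XT.lf (nat_lit 0) (nat_lit 4341684984) (nat_lit 152) (nat_lit 5644046599) (nat_lit 228) (nat_lit 4854493020) (nat_lit 54) (nat_lit 5) (nat_lit 56) (nat_lit 5) (nat_lit 57) (nat_lit 4) (nat_lit 378) (nat_lit 278) (nat_lit 244))) (XT.nd (nat_lit 78) (nat_lit 228) (nat_lit 0) (XT.lf (nat_lit 0) (nat_lit 13672559671) (nat_lit 152) (nat_lit 1041627863) (nat_lit 228) (nat_lit 415561847) (nat_lit 54) (nat_lit 5) (nat_lit 56) (nat_lit 5) (nat_lit 57) (nat_lit 4) (nat_lit 379) (nat_lit 278) (nat_lit 243)) (XT.lf (nat_lit 0) (nat_lit 4123441466) (nat_lit 228) (nat_lit 7607403405) (nat_lit 76) (nat_lit 3694486169) (nat_lit 51) (nat_lit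 5) (nat_lit 54) (nat_lit 5) (nat_lit 52) (nat_lit 4) (nat_lit 380) (nat_lit 278) (nat_lit 242)))))) (XT.nd (nat_lit 546) (nat_lit 532) (nat_lit 0) (XT.nd (nat_lit 234) (nat_lit 304) (nat_lit 0) (XT.nd (nat_lit 78) (nat_lit 228) (nat_lit 0) (XT.lf (nat_lit 0) (nat_lit 1574170267) (nat_lit 152) (nat_lit 7192981439) (nat_lit 228) (nat_lit 6963208226) (nat_lit 49) (nat_lit 5) (nat_lit 51) (nat_lit 5) (nat_lit 52) (nat_lit 4) (nat_lit 381) (nat_lit 278) (nat_lit 241)) (XT.nd (nat_lit 78) (nat_lit 228) (nat_lit 0) (XT.lf (nat_lit 0) (nat_lit 11074446285) (nat_lit 152) (nat_lit 2489894389) (nat_lit 228) (nat_lit 2479783598) (nat_lit 49) (nat_lit 5) (nat_lit 51) (nat_lit 5) (nat_lit 52) (nat_lit 4) (nat_lit 382) (nat_lit 278) (nat_lit 240)) (XT.lf (nat_lit 0) (nat_lit 2100523830) (nat_lit 228) (nat_lit 11942004897) (nat_lit 76) (nat_lit 2324042187) (nat_lit 46) (nat_lit 5) (nat_lit 49) (nat_lit 5) (nat_lit 47)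 (nat_lit 4) (nat_lit 383) (nat_lit 278) (nat_lit 239)))) (XT.nd (nat_lit 156) (nat_lit 228) (nat_lit 0) (XT.nd (nat_lit 78) (nat_lit 76) (nat_lit 0) (XT.lf (nat_lit 0) (nat_lit 6782560370) (nat_lit 228) (nat_lit 2655290531) (nat_lit 76) (nat_lit 7259687443) (nat_lit 46) (nat_lit 5) (nat_lit 49) (nat_lit 5) (nat_lit 47) (nat_lit 4) (nat_lit 384) (nat_lit 278) (nat_lit 238)) (XT.lf (nat_lit 0) (nat_lit 6937721351) (nat_lit 76) (nat_lit 4674635780) (nat_lit 152) (nat_lit 5425867225) (nat_lit 45) (nat_lit 5) (nat_lit 46) (nat_lit 5) (nat_lit 47) (nat_lit 4) (nat_lit 385) (nat_lit 278) (nat_lit 237))) (XT.nd (nat_lit 78) (nat_lit 228) (nat_lit 0) (XT.lf (nat_lit 0) (nat_lit 16557205086) (nat_lit 152) (nat_lit 625798799) (nat_lit 0) (nat_lit 207030631) (nat_lit 45) (nat_lit 5) (nat_lit 47) (nat_lit 4) (nat_lit 45) (nat_lit 4) (nat_lit 386) (nat_lit 278) (nat_lit 236)) (XT.lf (nat_lit 0) (nat_lit 3899608426) (nat_lit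 228) (nat_lit 8627499430) (nat_lit 76) (nat_lit 5221844648) (nat_lit 42) (nat_lit 5) (nat_lit 45) (nat_lit 5) (nat_lit 43) (nat_lit 4) (nat_lit 387) (nat_lit 278) (nat_lit 235))))) (XT.nd (nat_lit 234) (nat_lit 304) (nat_lit 0) (XT.nd (nat_lit 78) (nat_lit 152) (nat_lit 0) (XT.lf (nat_lit 0) (nat_lit 961033837) (nat_lit 76) (nat_lit 7754548258) (nat_lit 152) (nat_lit 9404067092) (nat_lit 41) (nat_lit 5) (nat_lit 42) (nat_lit 5) (nat_lit 43) (nat_lit 4) (nat_lit 388) (nat_lit 278) (nat_lit 234)) (XT.nd (nat_lit 78) (nat_lit 152) (nat_lit 0) (XT.lf (nat_lit 0) (nat_lit 10910193638) (nat_lit 76) (nat_lit 2796314793) (nat_lit 152) (nat_lit 4794051497) (nat_lit 41) (nat_lit 5) (nat_lit 42) (nat_lit 5) (nat_lit 43) (nat_lit 4) (nat_lit 389) (nat_lit 278) (nat_lit 233)) (XT.lf (nat_lit 0) (nat_lit 2183246514) (nat_lit 152) (nat_lit 16651675980) (nat_lit 152) (nat_lit 58349846) (nat_lit 39) (nat_lit 4) (nat_lit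 41) (nat_lit 5) (nat_lit 41) (nat_lit 4) (nat_lit 390) (nat_lit 278) (nat_lit 232)))) (XT.nd (nat_lit 156) (nat_lit 152) (nat_lit 0) (XT.nd (nat_lit 78) (nat_lit 76) (nat_lit 0) (XT.lf (nat_lit 0) (nat_lit 4775127036) (nat_lit 228) (nat_lit 7066758995) (nat_lit 76) (nat_lit 7453004560) (nat_lit 38) (nat_lit 5) (nat_lit 41) (nat_lit 5) (nat_lit 39) (nat_lit 4) (nat_lit 391) (nat_lit 278) (nat_lit 231)) (XT.lf (nat_lit 0) (nat_lit 2821070907) (nat_lit 76) (nat_lit 6904749872) (nat_lit 152) (nat_lit 9983524259) (nat_lit 37) (nat_lit 5) (nat_lit 38) (nat_lit 5) (nat_lit 39) (nat_lit 4) (nat_lit 392) (nat_lit 278) (nat_lit 230))) (XT.nd (nat_lit 78) (nat_lit 152) (nat_lit 0) (XT.lf (nat_lit 0) (nat_lit 13052163485) (nat_lit 76) (nat_lit 1791120468) (nat_lit 152) (nat_lit 5292408057) (nat_lit 37) (nat_lit 5) (nat_lit 38) (nat_lit 5) (nat_lit 39) (nat_lit 4) (nat_lit 393) (nat_lit 278) (nat_lit 229)) (XT.lf (nat_lit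 0) (nat_lit 2942868079) (nat_lit 152) (nat_lit 17181118287) (nat_lit 152) (nat_lit 450557730) (nat_lit 35) (nat_lit 4) (nat_lit 37) (nat_lit 5) (nat_lit 37) (nat_lit 4) (nat_lit 394) (nat_lit 278) (nat_lit 228))))))) (XT.nd (nat_lit 1014) (nat_lit 608) (nat_lit 0) (XT.nd (nat_lit 468) (nat_lit 304) (nat_lit 0) (XT.nd (nat_lit 234) (nat_lit 228) (nat_lit 0) (XT.nd (nat_lit 78) (nat_lit 76) (nat_lit 0) (XT.lf (nat_lit 0) (nat_lit 4486090491) (nat_lit 228) (nat_lit 7767801415) (nat_lit 76) (nat_lit 8770225406) (nat_lit 34) (nat_lit 5) (nat_lit 37) (nat_lit 5) (nat_lit 35) (nat_lit 4) (nat_lit 395) (nat_lit 278) (nat_lit 227)) (XT.nd (nat_lit 78) (nat_lit 0) (nat_lit 0) (XT.lf (nat_lit 0) (nat_lit 2339394614) (nat_lit 76) (nat_lit 7194482220) (nat_lit 152) (nat_lit 11954009868) (nat_lit 33) (nat_lit 5) (nat_lit 34) (nat_lit 5) (nat_lit 35) (nat_lit 4) (nat_lit 396) (nat_lit 278) (nat_lit 226)) (XT.lf (nat_lit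 0) (nat_lit 12816174427) (nat_lit 76) (nat_lit 1945543745) (nat_lit 152) (nat_lit 7202997838) (nat_lit 33) (nat_lit 5) (nat_lit 34) (nat_lit 5) (nat_lit 35) (nat_lit 4) (nat_lit 397) (nat_lit 278) (nat_lit 225)))) (XT.nd (nat_lit 78) (nat_lit 76) (nat_lit 0) (XT.lf (nat_lit 0) (nat_lit 1047363112) (nat_lit 152) (nat_lit 19093598586) (nat_lit 152) (nat_lit 2315056808) (nat_lit 31) (nat_lit 4) (nat_lit 33) (nat_lit 5) (nat_lit 33) (nat_lit 4) (nat_lit 398) (nat_lit 278) (nat_lit 224)) (XT.nd (nat_lit 78) (nat_lit 0) (nat_lit 0) (XT.lf (nat_lit 0) (nat_lit 2730315498) (nat_lit 228) (nat_lit 11360220909) (nat_lit 76) (nat_lit 8868828611) (nat_lit 30) (nat_lit 5) (nat_lit 33) (nat_lit 5) (nat_lit 31) (nat_lit 4) (nat_lit 399) (nat_lit 278) (nat_lit 223)) (XT.lf (nat_lit 0) (nat_lit 7833237954) (nat_lit 228) (nat_lit 1121889871) (nat_lit 76) (nat_lit 14523419746) (nat_lit 30) (nat_lit 5) (nat_lit 33) (nat_lit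 5) (nat_lit 31) (nat_lit 4) (nat_lit 400) (nat_lit 278) (nat_lit 222))))) (XT.nd (nat_lit 234) (nat_lit 152) (nat_lit 0) (XT.nd (nat_lit 78) (nat_lit 76) (nat_lit 0) (XT.lf (nat_lit 0) (nat_lit 9523372880) (nat_lit 76) (nat_lit 3611516125) (nat_lit 152) (nat_lit 10877052094) (nat_lit 29) (nat_lit 5) (nat_lit 30) (nat_lit 5) (nat_lit 31) (nat_lit 4) (nat_lit 401) (nat_lit 278) (nat_lit 221)) (XT.nd (nat_lit 78) (nat_lit 76) (nat_lit 0) (XT.lf (nat_lit 0) (nat_lit 18579453115) (nat_lit 152) (nat_lit 4154501724) (nat_lit 0) (nat_lit 1827870274) (nat_lit 29) (nat_lit 5) (nat_lit 31) (nat_lit 4) (nat_lit 29) (nat_lit 4) (nat_lit 402) (nat_lit 278) (nat_lit 220)) (XT.lf (nat_lit 0) (nat_lit 6496924862) (nat_lit 76) (nat_lit 17744203879) (nat_lit 76) (nat_lit 885468124) (nat_lit 28) (nat_lit 4) (nat_lit 29) (nat_lit 5) (nat_lit 29) (nat_lit 4) (nat_lit 403) (nat_lit 278) (nat_lit 219)))) (XT.nd (nat_lit 156) (nat_lit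 0) (nat_lit 0) (XT.nd (nat_lit 78) (nat_lit 76) (nat_lit 0) (XT.lf (nat_lit 0) (nat_lit 4277169544) (nat_lit 152) (nat_lit 8280113533) (nat_lit 76) (nat_lit 13149834586) (nat_lit 27) (nat_lit 5) (nat_lit 29) (nat_lit 5) (nat_lit 28) (nat_lit 4) (nat_lit 404) (nat_lit 278) (nat_lit 218)) (XT.lf (nat_lit 0) (nat_lit 2335426890) (nat_lit 76) (nat_lit 7220827541) (nat_lit 152) (nat_lit 16749159767) (nat_lit 26) (nat_lit 5) (nat_lit 27) (nat_lit 5) (nat_lit 28) (nat_lit 4) (nat_lit 405) (nat_lit 278) (nat_lit 217))) (XT.nd (nat_lit 78) (nat_lit 0) (nat_lit 0) (XT.lf (nat_lit 0) (nat_lit 13358654519) (nat_lit 76) (nat_lit 1676066771) (nat_lit 152) (nat_lit 11885712013) (nat_lit 26) (nat_lit 5) (nat_lit 27) (nat_lit 5) (nat_lit 28) (nat_lit 4) (nat_lit 406) (nat_lit 278) (nat_lit 216)) (XT.lf (nat_lit 0) (nat_lit 20674612991) (nat_lit 152) (nat_lit 2959170342) (nat_lit 0) (nat_lit 3920211364) (nat_lit 26) (nat_lit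 5) (nat_lit 28) (nat_lit 4) (nat_lit 26) (nat_lit 4) (nat_lit 407) (nat_lit 278) (nat_lit 215)))))) (XT.nd (nat_lit 546) (nat_lit 304) (nat_lit 0) (XT.nd (nat_lit 234) (nat_lit 76) (nat_lit 0) (XT.nd (nat_lit 78) (nat_lit 152) (nat_lit 0) (XT.lf (nat_lit 0) (nat_lit 8024757144) (nat_lit 76) (nat_lit 18512176529) (nat_lit 76) (nat_lit 1668036024) (nat_lit 25) (nat_lit 4) (nat_lit 26) (nat_lit 5) (nat_lit 26) (nat_lit 4) (nat_lit 408) (nat_lit 278) (nat_lit 214)) (XT.nd (nat_lit 78) (nat_lit 76) (nat_lit 0) (XT.lf (nat_lit 0) (nat_lit 3617181790) (nat_lit 152) (nat_lit 9588386593) (nat_lit 76) (nat_lit 15669150422) (nat_lit 24) (nat_lit 5) (nat_lit 26) (nat_lit 5) (nat_lit 25) (nat_lit 4) (nat_lit 409) (nat_lit 278) (nat_lit 213)) (XT.lf (nat_lit 0) (nat_lit 1254585181) (nat_lit 76) (nat_lit 7745630734) (nat_lit 152) (nat_lit 20564668861) (nat_lit 23) (nat_lit 5) (nat_lit 24) (nat_lit 5) (nat_lit 25) (nat_lit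 4) (nat_lit 410) (nat_lit 278) (nat_lit 212)))) (XT.nd (nat_lit 156) (nat_lit 76) (nat_lit 0) (XT.nd (nat_lit 78) (nat_lit 0) (nat_lit 0) (XT.lf (nat_lit 0) (nat_lit 12545554533) (nat_lit 76) (nat_lit 2057170317) (nat_lit 152) (nat_lit 15671294676) (nat_lit 23) (nat_lit 5) (nat_lit 24) (nat_lit 5) (nat_lit 25) (nat_lit 4) (nat_lit 411) (nat_lit 278) (nat_lit 211)) (XT.lf (nat_lit 0) (nat_lit 20371820132) (nat_lit 152) (nat_lit 6938223070) (nat_lit 0) (nat_lit 3694433001) (nat_lit 23) (nat_lit 5) (nat_lit 25) (nat_lit 4) (nat_lit 23) (nat_lit 4) (nat_lit 412) (nat_lit 278) (nat_lit 210))) (XT.nd (nat_lit 78) (nat_lit 0) (nat_lit 0) (XT.lf (nat_lit 0) (nat_lit 4166267550) (nat_lit 76) (nat_lit 22171209756) (nat_lit 76) (nat_lit 5418667728) (nat_lit 22) (nat_lit 4) (nat_lit 23) (nat_lit 5) (nat_lit 23) (nat_lit 4) (nat_lit 413) (nat_lit 278) (nat_lit 209)) (XT.lf (nat_lit 0) (nat_lit 15676420329) (nat_lit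 76) (nat_lit 16839224185) (nat_lit 76) (nat_lit 13716238) (nat_lit 22) (nat_lit 4) (nat_lit 23) (nat_lit 5) (nat_lit 23) (nat_lit 4) (nat_lit 414) (nat_lit 278) (nat_lit 208))))) (XT.nd (nat_lit 234) (nat_lit 152) (nat_lit 0) (XT.nd (nat_lit 78) (nat_lit 76) (nat_lit 0) (XT.lf (nat_lit 0) (nat_lit 5409204937) (nat_lit 152) (nat_lit 5915662622) (nat_lit 76) (nat_lit 22000381137) (nat_lit 21) (nat_lit 5) (nat_lit 23) (nat_lit 5) (nat_lit 22) (nat_lit 4) (nat_lit 415) (nat_lit 278) (nat_lit 207)) (XT.nd (nat_lit 78) (nat_lit 0) (nat_lit 0) (XT.lf (nat_lit 0) (nat_lit 5388350784) (nat_lit 76) (nat_lit 5623214145) (nat_lit 152) (nat_lit 23132936244) (nat_lit 20) (nat_lit 5) (nat_lit 21) (nat_lit 5) (nat_lit 22) (nat_lit 4) (nat_lit 416) (nat_lit 278) (nat_lit 206)) (XT.lf (nat_lit 0) (nat_lit 16810032099) (nat_lit 152) (nat_lit 17903254046) (nat_lit 0) (nat_lit 274206684) (nat_lit 20) (nat_lit 5) (nat_lit 22)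 (nat_lit 4) (nat_lit 20) (nat_lit 4) (nat_lit 417) (nat_lit 278) (nat_lit 205)))) (XT.nd (nat_lit 156) (nat_lit 76) (nat_lit 0) (XT.nd (nat_lit 78) (nat_lit 76) (nat_lit 0) (XT.lf (nat_lit 0) (nat_lit 22804449148) (nat_lit 152) (nat_lit 6844985134) (nat_lit 0) (nat_lit 6205682691) (nat_lit 20) (nat_lit 5) (nat_lit 22) (nat_lit 4) (nat_lit 20) (nat_lit 4) (nat_lit 418) (nat_lit 278) (nat_lit 204)) (XT.lf (nat_lit 0) (nat_lit 4571580687) (nat_lit 76) (nat_lit 24418364287) (nat_lit 76) (nat_lit 7758490020) (nat_lit 19) (nat_lit 4) (nat_lit 20) (nat_lit 5) (nat_lit 20) (nat_lit 4) (nat_lit 419) (nat_lit 278) (nat_lit 203))) (XT.nd (nat_lit 78) (nat_lit 76) (nat_lit 0) (XT.lf (nat_lit 0) (nat_lit 16408914114) (nat_lit 76) (nat_lit 18988869898) (nat_lit 76) (nat_lit 2269667661) (nat_lit 19) (nat_lit 4) (nat_lit 20) (nat_lit 5) (nat_lit 20) (nat_lit 4) (nat_lit 420) (nat_lit 278) (nat_lit 202)) (XT.lf (nat_lit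 0) (nat_lit 3286075044) (nat_lit 152) (nat_lit 10106069866) (nat_lit 76) (nat_lit 25221871859) (nat_lit 18) (nat_lit 5) (nat_lit 20) (nat_lit 5) (nat_lit 19) (nat_lit 4) (nat_lit 421) (nat_lit 278) (nat_lit 201))))))))
noncomputable def xc54 : XT := (XT.nd (nat_lit 2106) (nat_lit 0) (nat_lit 0) (XT.nd (nat_lit 1014) (nat_lit 304) (nat_lit 0) (XT.nd (nat_lit 468) (nat_lit 228) (nat_lit 0) (XT.nd (nat_lit 234) (nat_lit 76) (nat_lit 0) (XT.nd (nat_lit 78) (nat_lit 0) (nat_lit 0) (XT.lf (nat_lit 0) (nat_lit 1325262274) (nat_lit 76) (nat_lit 7619558801) (nat_lit 152) (nat_lit 30644027369) (nat_lit 17) (nat_lit 5) (nat_lit 18) (nat_lit 5) (nat_lit 19) (nat_lit 4) (nat_lit 422) (nat_lit 278) (nat_lit 200)) (XT.nd (nat_lit 78) (nat_lit 0) (nat_lit 0) (XT.lf (nat_lit 0) (nat_lit 13248180030) (nat_lit 76) (nat_lit 1596745110) (nat_lit 152) (nat_lit 25745854250) (nat_lit 17) (nat_lit 5) (nat_lit 18) (nat_lit 5) (nat_lit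 19) (nat_lit 4) (nat_lit 423) (nat_lit 278) (nat_lit 199)) (XT.lf (nat_lit 0) (nat_lit 20936484581) (nat_lit 152) (nat_lit 16195707602) (nat_lit 0) (nat_lit 4490144641) (nat_lit 17) (nat_lit 5) (nat_lit 19) (nat_lit 4) (nat_lit 17) (nat_lit 4) (nat_lit 424) (nat_lit 278) (nat_lit 198)))) (XT.nd (nat_lit 78) (nat_lit 76) (nat_lit 0) (XT.lf (nat_lit 0) (nat_lit 27197638343) (nat_lit 152) (nat_lit 4785987116) (nat_lit 0) (nat_lit 10701612161) (nat_lit 17) (nat_lit 5) (nat_lit 19) (nat_lit 4) (nat_lit 17) (nat_lit 4) (nat_lit 425) (nat_lit 278) (nat_lit 197)) (XT.nd (nat_lit 78) (nat_lit 0) (nat_lit 0) (XT.lf (nat_lit 0) (nat_lit 7049440623) (nat_lit 76) (nat_lit 26636831357) (nat_lit 76) (nat_lit 10092566107) (nat_lit 16) (nat_lit 4) (nat_lit 17) (nat_lit 5) (nat_lit 17) (nat_lit 4) (nat_lit 426) (nat_lit 278) (nat_lit 196)) (XT.lf (nat_lit 0) (nat_lit 19284425729) (nat_lit 76) (nat_lit 21105653326) (nat_lit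 76) (nat_lit 4514554028) (nat_lit 16) (nat_lit 4) (nat_lit 17) (nat_lit 5) (nat_lit 17) (nat_lit 4) (nat_lit 427) (nat_lit 278) (nat_lit 195))))) (XT.nd (nat_lit 234) (nat_lit 76) (nat_lit 0) (XT.nd (nat_lit 78) (nat_lit 76) (nat_lit 0) (XT.lf (nat_lit 0) (nat_lit 1179507354) (nat_lit 152) (nat_lit 14242169316) (nat_lit 76) (nat_lit 30642990369) (nat_lit 15) (nat_lit 5) (nat_lit 17) (nat_lit 5) (nat_lit 16) (nat_lit 4) (nat_lit 428) (nat_lit 278) (nat_lit 194)) (XT.nd (nat_lit 78) (nat_lit 76) (nat_lit 0) (XT.lf (nat_lit 0) (nat_lit 6927173146) (nat_lit 152) (nat_lit 2618553341) (nat_lit 76) (nat_lit 37713230734) (nat_lit 15) (nat_lit 5) (nat_lit 17) (nat_lit 5) (nat_lit 16) (nat_lit 4) (nat_lit 429) (nat_lit 278) (nat_lit 193)) (XT.lf (nat_lit 0) (nat_lit 9489365484) (nat_lit 76) (nat_lit 3423412889) (nat_lit 152) (nat_lit 35574334180) (nat_lit 14) (nat_lit 5) (nat_lit 15) (nat_lit 5) (nat_lit 16) (nat_lit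 4) (nat_lit 430) (nat_lit 278) (nat_lit 192)))) (XT.nd (nat_lit 156) (nat_lit 76) (nat_lit 0) (XT.nd (nat_lit 78) (nat_lit 0) (nat_lit 0) (XT.lf (nat_lit 0) (nat_lit 19106706173) (nat_lit 152) (nat_lit 27814718918) (nat_lit 0) (nat_lit 2829826502) (nat_lit 14) (nat_lit 5) (nat_lit 16) (nat_lit 4) (nat_lit 14) (nat_lit 4) (nat_lit 431) (nat_lit 278) (nat_lit 191)) (XT.lf (nat_lit 0) (nat_lit 25495435649) (nat_lit 152) (nat_lit 16378278068) (nat_lit 0) (nat_lit 9179333201) (nat_lit 14) (nat_lit 5) (nat_lit 16) (nat_lit 4) (nat_lit 14) (nat_lit 4) (nat_lit 432) (nat_lit 278) (nat_lit 190))) (XT.nd (nat_lit 78) (nat_lit 76) (nat_lit 0) (XT.lf (nat_lit 0) (nat_lit 32051641249) (nat_lit 152) (nat_lit 4645523574) (nat_lit 0) (nat_lit 15697458436) (nat_lit 14) (nat_lit 5) (nat_lit 16) (nat_lit 4) (nat_lit 14) (nat_lit 4) (nat_lit 433) (nat_lit 278) (nat_lit 189)) (XT.lf (nat_lit 0) (nat_lit 7540947531) (nat_lit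 76) (nat_lit 31312592366) (nat_lit 76) (nat_lit 14921438323) (nat_lit 13) (nat_lit 4) (nat_lit 14) (nat_lit 5) (nat_lit 14) (nat_lit 4) (nat_lit 434) (nat_lit 278) (nat_lit 188)))))) (XT.nd (nat_lit 546) (nat_lit 152) (nat_lit 0) (XT.nd (nat_lit 234) (nat_lit 76) (nat_lit 0) (XT.nd (nat_lit 78) (nat_lit 76) (nat_lit 0) (XT.lf (nat_lit 0) (nat_lit 20143269646) (nat_lit 76) (nat_lit 25739906844) (nat_lit 76) (nat_lit 9312858403) (nat_lit 13) (nat_lit 4) (nat_lit 14) (nat_lit 5) (nat_lit 14) (nat_lit 4) (nat_lit 435) (nat_lit 278) (nat_lit 187)) (XT.nd (nat_lit 78) (nat_lit 76) (nat_lit 0) (XT.lf (nat_lit 0) (nat_lit 33079999477) (nat_lit 76) (nat_lit 20021149600) (nat_lit 76) (nat_lit 3559252230) (nat_lit 13) (nat_lit 4) (nat_lit 14) (nat_lit 5) (nat_lit 14) (nat_lit 4) (nat_lit 436) (nat_lit 278) (nat_lit 186)) (XT.lf (nat_lit 0) (nat_lit 2298659782) (nat_lit 152) (nat_lit 11829451923) (nat_lit 76) (nat_lit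 44040569226) (nat_lit 12) (nat_lit 5) (nat_lit 14) (nat_lit 5) (nat_lit 13) (nat_lit 4) (nat_lit 437) (nat_lit 278) (nat_lit 185)))) (XT.nd (nat_lit 156) (nat_lit 0) (nat_lit 0) (XT.nd (nat_lit 78) (nat_lit 0) (nat_lit 0) (XT.lf (nat_lit 0) (nat_lit 201126872) (nat_lit 76) (nat_lit 8040107912) (nat_lit 152) (nat_lit 51480504389) (nat_lit 11) (nat_lit 5) (nat_lit 12) (nat_lit 5) (nat_lit 13) (nat_lit 4) (nat_lit 438) (nat_lit 278) (nat_lit 184)) (XT.lf (nat_lit 0) (nat_lit 12793938689) (nat_lit 76) (nat_lit 1666361871) (nat_lit 152) (nat_lit 46858143484) (nat_lit 11) (nat_lit 5) (nat_lit 12) (nat_lit 5) (nat_lit 13) (nat_lit 4) (nat_lit 439) (nat_lit 278) (nat_lit 183))) (XT.nd (nat_lit 78) (nat_lit 0) (nat_lit 0) (XT.lf (nat_lit 0) (nat_lit 20892218479) (nat_lit 152) (nat_lit 37286014559) (nat_lit 0) (nat_lit 4784029866) (nat_lit 11) (nat_lit 5) (nat_lit 13) (nat_lit 4) (nat_lit 11) (nat_lit 4) (nat_lit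 440) (nat_lit 278) (nat_lit 182)) (XT.lf (nat_lit 0) (nat_lit 27513390493) (nat_lit 152) (nat_lit 25766101704) (nat_lit 0) (nat_lit 11376016450) (nat_lit 11) (nat_lit 5) (nat_lit 13) (nat_lit 4) (nat_lit 11) (nat_lit 4) (nat_lit 441) (nat_lit 278) (nat_lit 181))))) (XT.nd (nat_lit 234) (nat_lit 76) (nat_lit 0) (XT.nd (nat_lit 78) (nat_lit 76) (nat_lit 0) (XT.lf (nat_lit 0) (nat_lit 34313584003) (nat_lit 152) (nat_lit 13938682756) (nat_lit 0) (nat_lit 18147874591) (nat_lit 11) (nat_lit 5) (nat_lit 13) (nat_lit 4) (nat_lit 11) (nat_lit 4) (nat_lit 442) (nat_lit 278) (nat_lit 180)) (XT.nd (nat_lit 78) (nat_lit 76) (nat_lit 0) (XT.lf (nat_lit 0) (nat_lit 41298740925) (nat_lit 152) (nat_lit 1793423078) (nat_lit 0) (nat_lit 25105521446) (nat_lit 11) (nat_lit 5) (nat_lit 13) (nat_lit 4) (nat_lit 11) (nat_lit 4) (nat_lit 443) (nat_lit 278) (nat_lit 179)) (XT.lf (nat_lit 0) (nat_lit 10892848399) (nat_lit 76) (nat_lit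 37686825117) (nat_lit 76) (nat_lit 21466896836) (nat_lit 10) (nat_lit 4) (nat_lit 11) (nat_lit 5) (nat_lit 11) (nat_lit 4) (nat_lit 444) (nat_lit 278) (nat_lit 178)))) (XT.nd (nat_lit 156) (nat_lit 76) (nat_lit 0) (XT.nd (nat_lit 78) (nat_lit 0) (nat_lit 0) (XT.lf (nat_lit 0) (nat_lit 23960918747) (nat_lit 76) (nat_lit 32117934361) (nat_lit 76) (nat_lit 15872075203) (nat_lit 10) (nat_lit 4) (nat_lit 11) (nat_lit 5) (nat_lit 11) (nat_lit 4) (nat_lit 445) (nat_lit 278) (nat_lit 177)) (XT.lf (nat_lit 0) (nat_lit 37386514030) (nat_lit 76) (nat_lit 26398735769) (nat_lit 76) (nat_lit 10127701003) (nat_lit 10) (nat_lit 4) (nat_lit 11) (nat_lit 5) (nat_lit 11) (nat_lit 4) (nat_lit 446) (nat_lit 278) (nat_lit 176))) (XT.nd (nat_lit 78) (nat_lit 76) (nat_lit 0) (XT.lf (nat_lit 0) (nat_lit 51181365352) (nat_lit 76) (nat_lit 20524231985) (nat_lit 76) (nat_lit 4228754881) (nat_lit 10) (nat_lit 4) (nat_lit 11) (nat_lit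 5) (nat_lit 11) (nat_lit 4) (nat_lit 447) (nat_lit 278) (nat_lit 175)) (XT.lf (nat_lit 0) (nat_lit 1794209300) (nat_lit 152) (nat_lit 12676962650) (nat_lit 76) (nat_lit 63545199169) (nat_lit 9) (nat_lit 5) (nat_lit 11) (nat_lit 5) (nat_lit 10) (nat_lit 4) (nat_lit 448) (nat_lit 278) (nat_lit 174))))))) (XT.nd (nat_lit 39468) (nat_lit 0) (nat_lit 5016) (XT.nd (nat_lit 38922) (nat_lit 0) (nat_lit 7752) (XT.nd (nat_lit 38688) (nat_lit 0) (nat_lit 9500) (XT.nd (nat_lit 38532) (nat_lit 0) (nat_lit 10640) (XT.lf (nat_lit 0) (nat_lit 7896455428) (nat_lit 152) (nat_lit 312442256) (nat_lit 76) (nat_lit 71951190161) (nat_lit 9) (nat_lit 5) (nat_lit 11) (nat_lit 5) (nat_lit 10) (nat_lit 4) (nat_lit 449) (nat_lit 278) (nat_lit 173)) (XT.nd (nat_lit 78) (nat_lit 0) (nat_lit 0) (XT.lf (nat_lit 0) (nat_lit 276862620) (nat_lit 456) (nat_lit 3661080975) (nat_lit 0) (nat_lit 276862620) (nat_lit 149) (nat_lit 5) (nat_lit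 155) (nat_lit 4) (nat_lit 149) (nat_lit 4) (nat_lit 342) (nat_lit 279) (nat_lit 279)) (XT.lf (nat_lit 0) (nat_lit 4480216889) (nat_lit 456) (nat_lit 644066350) (nat_lit 0) (nat_lit 3405466752) (nat_lit 149) (nat_lit 5) (nat_lit 155) (nat_lit 4) (nat_lit 149) (nat_lit 4) (nat_lit 343) (nat_lit 279) (nat_lit 278)))) (XT.nd (nat_lit 78) (nat_lit 760) (nat_lit 0) (XT.lf (nat_lit 0) (nat_lit 6222515260) (nat_lit 380) (nat_lit 2264865173) (nat_lit 380) (nat_lit 146668300) (nat_lit 144) (nat_lit 4) (nat_lit 149) (nat_lit 5) (nat_lit 149) (nat_lit 4) (nat_lit 344) (nat_lit 279) (nat_lit 277)) (XT.nd (nat_lit 78) (nat_lit 380) (nat_lit 0) (XT.lf (nat_lit 0) (nat_lit 3758035632) (nat_lit 380) (nat_lit 4265569481) (nat_lit 0) (nat_lit 717985190) (nat_lit 139) (nat_lit 5) (nat_lit 144) (nat_lit 4) (nat_lit 139) (nat_lit 4) (nat_lit 345) (nat_lit 279) (nat_lit 276)) (XT.lf (nat_lit 0) (nat_lit 2660668615) (nat_lit 380)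 (nat_lit 5093657919) (nat_lit 380) (nat_lit 1098705900) (nat_lit 134) (nat_lit 4) (nat_lit 139) (nat_lit 5) (nat_lit 139) (nat_lit 4) (nat_lit 346) (nat_lit 279) (nat_lit 275))))) (XT.nd (nat_lit 234) (nat_lit 988) (nat_lit 0) (XT.nd (nat_lit 78) (nat_lit 380) (nat_lit 0) (XT.lf (nat_lit 0) (nat_lit 766498511) (nat_lit 304) (nat_lit 2035737665) (nat_lit 380) (nat_lit 6166096299) (nat_lit 129) (nat_lit 5) (nat_lit 133) (nat_lit 5) (nat_lit 134) (nat_lit 4) (nat_lit 347) (nat_lit 279) (nat_lit 274)) (XT.nd (nat_lit 78) (nat_lit 380) (nat_lit 0) (XT.lf (nat_lit 0) (nat_lit 6778372123) (nat_lit 380) (nat_lit 1183200519) (nat_lit 0) (nat_lit 1125821396) (nat_lit 129) (nat_lit 5) (nat_lit 134) (nat_lit 4) (nat_lit 129) (nat_lit 4) (nat_lit 348) (nat_lit 279) (nat_lit 273)) (XT.lf (nat_lit 0) (nat_lit 1618183401) (nat_lit 380) (nat_lit 3216056105) (nat_lit 76) (nat_lit 4375735845) (nat_lit 124) (nat_lit 5) (nat_lit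 129) (nat_lit 5) (nat_lit 125) (nat_lit 4) (nat_lit 349) (nat_lit 279) (nat_lit 272)))) (XT.nd (nat_lit 156) (nat_lit 304) (nat_lit 0) (XT.nd (nat_lit 78) (nat_lit 380) (nat_lit 0) (XT.lf (nat_lit 0) (nat_lit 3996346161) (nat_lit 304) (nat_lit 1580511503) (nat_lit 380) (nat_lit 3759921976) (nat_lit 120) (nat_lit 5) (nat_lit 124) (nat_lit 5) (nat_lit 125) (nat_lit 4) (nat_lit 350) (nat_lit 279) (nat_lit 271)) (XT.lf (nat_lit 0) (nat_lit 161726719) (nat_lit 380) (nat_lit 7559451978) (nat_lit 76) (nat_lit 1746832699) (nat_lit 115) (nat_lit 5) (nat_lit 120) (nat_lit 5) (nat_lit 116) (nat_lit 4) (nat_lit 351) (nat_lit 279) (nat_lit 270))) (XT.nd (nat_lit 78) (nat_lit 304) (nat_lit 0) (XT.lf (nat_lit 0) (nat_lit 4106518712) (nat_lit 380) (nat_lit 305332354) (nat_lit 76) (nat_lit 5190810714) (nat_lit 115) (nat_lit 5) (nat_lit 120) (nat_lit 5) (nat_lit 116) (nat_lit 4) (nat_lit 352) (nat_lit 279) (nat_lit 269))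 (XT.lf (nat_lit 0) (nat_lit 7175502284) (nat_lit 304) (nat_lit 976675140) (nat_lit 380) (nat_lit 1589728098) (nat_lit 111) (nat_lit 5) (nat_lit 115) (nat_lit 5) (nat_lit 116) (nat_lit 4) (nat_lit 353) (nat_lit 279) (nat_lit 268)))))) (XT.nd (nat_lit 546) (nat_lit 1216) (nat_lit 0) (XT.nd (nat_lit 234) (nat_lit 532) (nat_lit 0) (XT.nd (nat_lit 78) (nat_lit 608) (nat_lit 0) (XT.lf (nat_lit 0) (nat_lit 2375887112) (nat_lit 380) (nat_lit 4967196095) (nat_lit 76) (nat_lit 2541884284) (nat_lit 106) (nat_lit 5) (nat_lit 111) (nat_lit 5) (nat_lit 107) (nat_lit 4) (nat_lit 354) (nat_lit 279) (nat_lit 267)) (XT.nd (nat_lit 78) (nat_lit 380) (nat_lit 0) (XT.lf (nat_lit 0) (nat_lit 2539185644) (nat_lit 228) (nat_lit 3864351956) (nat_lit 304) (nat_lit 3629087984) (nat_lit 103) (nat_lit 5) (nat_lit 106) (nat_lit 5) (nat_lit 107) (nat_lit 4) (nat_lit 355) (nat_lit 279) (nat_lit 266)) (XT.lf (nat_lit 0) (nat_lit 53743458)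 (nat_lit 304) (nat_lit 272700118) (nat_lit 380) (nat_lit 9859200195) (nat_lit 98) (nat_lit 5) (nat_lit 102) (nat_lit 5) (nat_lit 103) (nat_lit 5) (nat_lit 356) (nat_lit 279) (nat_lit 265)))) (XT.nd (nat_lit 156) (nat_lit 304) (nat_lit 0) (XT.nd (nat_lit 78) (nat_lit 228) (nat_lit 0) (XT.lf (nat_lit 0) (nat_lit 4352943173) (nat_lit 380) (nat_lit 2563078395) (nat_lit 76) (nat_lit 3425420427) (nat_lit 98) (nat_lit 5) (nat_lit 103) (nat_lit 5) (nat_lit 99) (nat_lit 4) (nat_lit 357) (nat_lit 279) (nat_lit 264)) (XT.lf (nat_lit 0) (nat_lit 5202079502) (nat_lit 228) (nat_lit 3269199134) (nat_lit 304) (nat_lit 2031528317) (nat_lit 95) (nat_lit 5) (nat_lit 98) (nat_lit 5) (nat_lit 99) (nat_lit 4) (nat_lit 358) (nat_lit 279) (nat_lit 263))) (XT.nd (nat_lit 78) (nat_lit 0) (nat_lit 0) (XT.lf (nat_lit 0) (nat_lit 1977835458) (nat_lit 304) (nat_lit 8191156435) (nat_lit 76) (nat_lit 500246926) (nat_lit 91) (nat_lit 5)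 (nat_lit 95) (nat_lit 5) (nat_lit 92) (nat_lit 4) (nat_lit 359) (nat_lit 279) (nat_lit 262)) (XT.lf (nat_lit 0) (nat_lit 6072401482) (nat_lit 304) (nat_lit 423754433) (nat_lit 76) (nat_lit 4343753687) (nat_lit 91) (nat_lit 5) (nat_lit 95) (nat_lit 5) (nat_lit 92) (nat_lit 4) (nat_lit 360) (nat_lit 279) (nat_lit 261))))) (XT.nd (nat_lit 234) (nat_lit 532) (nat_lit 0) (XT.nd (nat_lit 78) (nat_lit 456) (nat_lit 0) (XT.lf (nat_lit 0) (nat_lit 7598140194) (nat_lit 228) (nat_lit 2686379750) (nat_lit 304) (nat_lit 731360437) (nat_lit 88) (nat_lit 5) (nat_lit 91) (nat_lit 5) (nat_lit 92) (nat_lit 4) (nat_lit 361) (nat_lit 279) (nat_lit 260)) (XT.nd (nat_lit 78) (nat_lit 152) (nat_lit 0) (XT.lf (nat_lit 0) (nat_lit 3341779078) (nat_lit 304) (nat_lit 6607200069) (nat_lit 76) (nat_lit 1247700545) (nat_lit 84) (nat_lit 5) (nat_lit 88) (nat_lit 5) (nat_lit 85) (nat_lit 4) (nat_lit 362) (nat_lit 279) (nat_lit 259)) (XT.lf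 (nat_lit 0) (nat_lit 1390319470) (nat_lit 152) (nat_lit 6129469602) (nat_lit 228) (nat_lit 3862994922) (nat_lit 82) (nat_lit 5) (nat_lit 84) (nat_lit 5) (nat_lit 85) (nat_lit 4) (nat_lit 363) (nat_lit 279) (nat_lit 258)))) (XT.nd (nat_lit 156) (nat_lit 228) (nat_lit 0) (XT.nd (nat_lit 78) (nat_lit 228) (nat_lit 0) (XT.lf (nat_lit 0) (nat_lit 234019860) (nat_lit 228) (nat_lit 1940355766) (nat_lit 76) (nat_lit 9400336364) (nat_lit 81) (nat_lit 5) (nat_lit 84) (nat_lit 5) (nat_lit 82) (nat_lit 5) (nat_lit 364) (nat_lit 279) (nat_lit 257)) (XT.lf (nat_lit 0) (nat_lit 4380831060) (nat_lit 304) (nat_lit 5476492518) (nat_lit 76) (nat_lit 1913808840) (nat_lit 78) (nat_lit 5) (nat_lit 82) (nat_lit 5) (nat_lit 79) (nat_lit 4) (nat_lit 365) (nat_lit 279) (nat_lit 256))) (XT.nd (nat_lit 78) (nat_lit 76) (nat_lit 0) (XT.lf (nat_lit 0) (nat_lit 2750701544) (nat_lit 152) (nat_lit 5894701093) (nat_lit 228) (nat_lit 3328259491)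 (nat_lit 76) (nat_lit 5) (nat_lit 78) (nat_lit 5) (nat_lit 79) (nat_lit 4) (nat_lit 366) (nat_lit 279) (nat_lit 255)) (XT.lf (nat_lit 0) (nat_lit 820629825) (nat_lit 228) (nat_lit 977530633) (nat_lit 76) (nat_lit 10384426388) (nat_lit 75) (nat_lit 5) (nat_lit 78) (nat_lit 5) (nat_lit 76) (nat_lit 5) (nat_lit 367) (nat_lit 279) (nat_lit 254))))))))
noncomputable def xc55 : XT := (XT.nd (nat_lit 2106) (nat_lit 1368) (nat_lit 0) (XT.nd (nat_lit 1014) (nat_lit 1064) (nat_lit 0) (XT.nd (nat_lit 468) (nat_lit 912) (nat_lit 0) (XT.nd (nat_lit 234) (nat_lit 456) (nat_lit 0) (XT.nd (nat_lit 78) (nat_lit 228) (nat_lit 0) (XT.lf (nat_lit 0) (nat_lit 5051089790) (nat_lit 304) (nat_lit 4913316951) (nat_lit 76) (nat_lit 2431679886) (nat_lit 72) (nat_lit 5) (nat_lit 76) (nat_lit 5) (nat_lit 73) (nat_lit 4) (nat_lit 368) (nat_lit 279) (nat_lit 253)) (XT.nd (nat_lit 78) (nat_lit 76) (nat_lit 0) (XT.lf (nat_lit 0) (nat_lit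 3530246197) (nat_lit 152) (nat_lit 5868386206) (nat_lit 228) (nat_lit 3217669348) (nat_lit 70) (nat_lit 5) (nat_lit 72) (nat_lit 5) (nat_lit 73) (nat_lit 4) (nat_lit 369) (nat_lit 279) (nat_lit 252)) (XT.lf (nat_lit 0) (nat_lit 992087632) (nat_lit 228) (nat_lit 646427002) (nat_lit 76) (nat_lit 11204961894) (nat_lit 69) (nat_lit 5) (nat_lit 72) (nat_lit 5) (nat_lit 70) (nat_lit 5) (nat_lit 370) (nat_lit 279) (nat_lit 251)))) (XT.nd (nat_lit 78) (nat_lit 228) (nat_lit 0) (XT.lf (nat_lit 0) (nat_lit 5298360664) (nat_lit 304) (nat_lit 5049982399) (nat_lit 76) (nat_lit 2727134987) (nat_lit 66) (nat_lit 5) (nat_lit 70) (nat_lit 5) (nat_lit 67) (nat_lit 4) (nat_lit 371) (nat_lit 279) (nat_lit 250)) (XT.nd (nat_lit 78) (nat_lit 76) (nat_lit 0) (XT.lf (nat_lit 0) (nat_lit 3591304060) (nat_lit 152) (nat_lit 6131018489) (nat_lit 228) (nat_lit 3592475745) (nat_lit 64) (nat_lit 5) (nat_lit 66) (nat_lit 5) (nat_lit 67)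 (nat_lit 4) (nat_lit 372) (nat_lit 279) (nat_lit 249)) (XT.lf (nat_lit 0) (nat_lit 686549236) (nat_lit 228) (nat_lit 1091106231) (nat_lit 76) (nat_lit 11783963143) (nat_lit 63) (nat_lit 5) (nat_lit 66) (nat_lit 5) (nat_lit 64) (nat_lit 5) (nat_lit 373) (nat_lit 279) (nat_lit 248))))) (XT.nd (nat_lit 234) (nat_lit 608) (nat_lit 0) (XT.nd (nat_lit 78) (nat_lit 152) (nat_lit 0) (XT.lf (nat_lit 0) (nat_lit 5056714355) (nat_lit 228) (nat_lit 6040072244) (nat_lit 76) (nat_lit 2716953159) (nat_lit 61) (nat_lit 5) (nat_lit 64) (nat_lit 5) (nat_lit 62) (nat_lit 4) (nat_lit 374) (nat_lit 279) (nat_lit 247)) (XT.nd (nat_lit 78) (nat_lit 0) (nat_lit 0) (XT.lf (nat_lit 0) (nat_lit 2773885915) (nat_lit 152) (nat_lit 6773208597) (nat_lit 228) (nat_lit 4526668894) (nat_lit 59) (nat_lit 5) (nat_lit 61) (nat_lit 5) (nat_lit 62) (nat_lit 4) (nat_lit 375) (nat_lit 279) (nat_lit 246)) (XT.lf (nat_lit 0) (nat_lit 11861027465)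 (nat_lit 152) (nat_lit 2306694219) (nat_lit 228) (nat_lit 174011823) (nat_lit 59) (nat_lit 5) (nat_lit 61) (nat_lit 5) (nat_lit 62) (nat_lit 4) (nat_lit 376) (nat_lit 279) (nat_lit 245)))) (XT.nd (nat_lit 156) (nat_lit 228) (nat_lit 0) (XT.nd (nat_lit 78) (nat_lit 152) (nat_lit 0) (XT.lf (nat_lit 0) (nat_lit 4246783675) (nat_lit 228) (nat_lit 8062187393) (nat_lit 76) (nat_lit 2306890675) (nat_lit 56) (nat_lit 5) (nat_lit 59) (nat_lit 5) (nat_lit 57) (nat_lit 4) (nat_lit 377) (nat_lit 279) (nat_lit 244)) (XT.lf (nat_lit 0) (nat_lit 891739952) (nat_lit 152) (nat_lit 7897811328) (nat_lit 228) (nat_lit 6108836300) (nat_lit 54) (nat_lit 5) (nat_lit 56) (nat_lit 5) (nat_lit 57) (nat_lit 4) (nat_lit 378) (nat_lit 279) (nat_lit 243))) (XT.nd (nat_lit 78) (nat_lit 228) (nat_lit 0) (XT.lf (nat_lit 0) (nat_lit 10167335593) (nat_lit 152) (nat_lit 3319596911) (nat_lit 228) (nat_lit 1701917265) (nat_lit 54) (nat_lit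 5) (nat_lit 56) (nat_lit 5) (nat_lit 57) (nat_lit 4) (nat_lit 379) (nat_lit 279) (nat_lit 242)) (XT.lf (nat_lit 0) (nat_lit 2773760357) (nat_lit 228) (nat_lit 11324266716) (nat_lit 76) (nat_lit 1389432998) (nat_lit 51) (nat_lit 5) (nat_lit 54) (nat_lit 5) (nat_lit 52) (nat_lit 4) (nat_lit 380) (nat_lit 279) (nat_lit 241)))))) (XT.nd (nat_lit 546) (nat_lit 380) (nat_lit 0) (XT.nd (nat_lit 234) (nat_lit 304) (nat_lit 0) (XT.nd (nat_lit 78) (nat_lit 380) (nat_lit 0) (XT.lf (nat_lit 0) (nat_lit 7372009055) (nat_lit 228) (nat_lit 2227839447) (nat_lit 76) (nat_lit 6194009038) (nat_lit 51) (nat_lit 5) (nat_lit 54) (nat_lit 5) (nat_lit 52) (nat_lit 4) (nat_lit 381) (nat_lit 279) (nat_lit 240)) (XT.nd (nat_lit 78) (nat_lit 228) (nat_lit 0) (XT.lf (nat_lit 0) (nat_lit 7174203139) (nat_lit 152) (nat_lit 4943188981) (nat_lit 228) (nat_lit 3991788532) (nat_lit 49) (nat_lit 5) (nat_lit 51) (nat_lit 5) (nat_lit 52) (nat_lit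 4) (nat_lit 382) (nat_lit 279) (nat_lit 239)) (XT.lf (nat_lit 0) (nat_lit 364673574) (nat_lit 152) (nat_lit 161929496) (nat_lit 228) (nat_lit 15908207199) (nat_lit 46) (nat_lit 5) (nat_lit 48) (nat_lit 5) (nat_lit 49) (nat_lit 5) (nat_lit 383) (nat_lit 279) (nat_lit 238)))) (XT.nd (nat_lit 156) (nat_lit 228) (nat_lit 0) (XT.nd (nat_lit 78) (nat_lit 76) (nat_lit 0) (XT.lf (nat_lit 0) (nat_lit 5177826642) (nat_lit 228) (nat_lit 6834911994) (nat_lit 76) (nat_lit 4753967655) (nat_lit 46) (nat_lit 5) (nat_lit 49) (nat_lit 5) (nat_lit 47) (nat_lit 4) (nat_lit 384) (nat_lit 279) (nat_lit 237)) (XT.lf (nat_lit 0) (nat_lit 2622391057) (nat_lit 76) (nat_lit 7315346479) (nat_lit 152) (nat_lit 7171755426) (nat_lit 45) (nat_lit 5) (nat_lit 46) (nat_lit 5) (nat_lit 47) (nat_lit 4) (nat_lit 385) (nat_lit 279) (nat_lit 236))) (XT.nd (nat_lit 78) (nat_lit 228) (nat_lit 0) (XT.lf (nat_lit 0) (nat_lit 12399999746) (nat_lit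 76) (nat_lit 2452488859) (nat_lit 152) (nat_lit 2609721385) (nat_lit 45) (nat_lit 5) (nat_lit 46) (nat_lit 5) (nat_lit 47) (nat_lit 4) (nat_lit 386) (nat_lit 279) (nat_lit 235)) (XT.lf (nat_lit 0) (nat_lit 2061654762) (nat_lit 228) (nat_lit 13236279864) (nat_lit 76) (nat_lit 2526581562) (nat_lit 42) (nat_lit 5) (nat_lit 45) (nat_lit 5) (nat_lit 43) (nat_lit 4) (nat_lit 387) (nat_lit 279) (nat_lit 234))))) (XT.nd (nat_lit 234) (nat_lit 304) (nat_lit 0) (XT.nd (nat_lit 78) (nat_lit 76) (nat_lit 0) (XT.lf (nat_lit 0) (nat_lit 6840977201) (nat_lit 228) (nat_lit 3716675975) (nat_lit 76) (nat_lit 7638662859) (nat_lit 42) (nat_lit 5) (nat_lit 45) (nat_lit 5) (nat_lit 43) (nat_lit 4) (nat_lit 388) (nat_lit 279) (nat_lit 233)) (XT.nd (nat_lit 78) (nat_lit 0) (nat_lit 0) (XT.lf (nat_lit 0) (nat_lit 6108830461) (nat_lit 76) (nat_lit 5659542738) (nat_lit 152) (nat_lit 6810763009) (nat_lit 41) (nat_lit 5) (nat_lit 42)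 (nat_lit 5) (nat_lit 43) (nat_lit 4) (nat_lit 389) (nat_lit 279) (nat_lit 232)) (XT.lf (nat_lit 0) (nat_lit 16207368971) (nat_lit 76) (nat_lit 620357666) (nat_lit 152) (nat_lit 2146197221) (nat_lit 41) (nat_lit 5) (nat_lit 42) (nat_lit 5) (nat_lit 43) (nat_lit 4) (nat_lit 390) (nat_lit 279) (nat_lit 231)))) (XT.nd (nat_lit 156) (nat_lit 76) (nat_lit 0) (XT.nd (nat_lit 78) (nat_lit 0) (nat_lit 0) (XT.lf (nat_lit 0) (nat_lit 2668196967) (nat_lit 228) (nat_lit 12175654185) (nat_lit 76) (nat_lit 4534090991) (nat_lit 38) (nat_lit 5) (nat_lit 41) (nat_lit 5) (nat_lit 39) (nat_lit 4) (nat_lit 391) (nat_lit 279) (nat_lit 230)) (XT.lf (nat_lit 0) (nat_lit 7566074571) (nat_lit 228) (nat_lit 2390320313) (nat_lit 76) (nat_lit 9837589318) (nat_lit 38) (nat_lit 5) (nat_lit 41) (nat_lit 5) (nat_lit 39) (nat_lit 4) (nat_lit 392) (nat_lit 279) (nat_lit 229))) (XT.nd (nat_lit 78) (nat_lit 0) (nat_lit 0) (XT.lf (nat_lit 0)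 (nat_lit 7746218590) (nat_lit 76) (nat_lit 4888483240) (nat_lit 152) (nat_lit 7587097459) (nat_lit 37) (nat_lit 5) (nat_lit 38) (nat_lit 5) (nat_lit 39) (nat_lit 4) (nat_lit 393) (nat_lit 279) (nat_lit 228)) (XT.lf (nat_lit 0) (nat_lit 17832478894) (nat_lit 152) (nat_lit 2522990916) (nat_lit 0) (nat_lit 307672274) (nat_lit 37) (nat_lit 5) (nat_lit 39) (nat_lit 4) (nat_lit 37) (nat_lit 4) (nat_lit 394) (nat_lit 279) (nat_lit 227))))))) (XT.nd (nat_lit 1014) (nat_lit 532) (nat_lit 0) (XT.nd (nat_lit 468) (nat_lit 304) (nat_lit 0) (XT.nd (nat_lit 234) (nat_lit 228) (nat_lit 0) (XT.nd (nat_lit 78) (nat_lit 76) (nat_lit 0) (XT.lf (nat_lit 0) (nat_lit 2102625090) (nat_lit 228) (nat_lit 13396287934) (nat_lit 76) (nat_lit 5615985556) (nat_lit 34) (nat_lit 5) (nat_lit 37) (nat_lit 5) (nat_lit 35) (nat_lit 4) (nat_lit 395) (nat_lit 279) (nat_lit 226)) (XT.nd (nat_lit 78) (nat_lit 76) (nat_lit 0) (XT.lf (nat_lit 0)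 (nat_lit 7103822515) (nat_lit 228) (nat_lit 3379595265) (nat_lit 76) (nat_lit 11096650556) (nat_lit 34) (nat_lit 5) (nat_lit 37) (nat_lit 5) (nat_lit 35) (nat_lit 4) (nat_lit 396) (nat_lit 279) (nat_lit 225)) (XT.lf (nat_lit 0) (nat_lit 6985510367) (nat_lit 76) (nat_lit 5289194020) (nat_lit 152) (nat_lit 9783904662) (nat_lit 33) (nat_lit 5) (nat_lit 34) (nat_lit 5) (nat_lit 35) (nat_lit 4) (nat_lit 397) (nat_lit 279) (nat_lit 224)))) (XT.nd (nat_lit 78) (nat_lit 228) (nat_lit 0) (XT.lf (nat_lit 0) (nat_lit 17588414459) (nat_lit 152) (nat_lit 4909114982) (nat_lit 0) (nat_lit 54350652) (nat_lit 33) (nat_lit 5) (nat_lit 35) (nat_lit 4) (nat_lit 33) (nat_lit 4) (nat_lit 398) (nat_lit 279) (nat_lit 223)) (XT.nd (nat_lit 78) (nat_lit 0) (nat_lit 0) (XT.lf (nat_lit 0) (nat_lit 61690598) (nat_lit 228) (nat_lit 17529433440) (nat_lit 76) (nat_lit 5467025590) (nat_lit 30) (nat_lit 5) (nat_lit 33) (nat_lit 5) (nat_lit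 31) (nat_lit 4) (nat_lit 399) (nat_lit 279) (nat_lit 222)) (XT.lf (nat_lit 0) (nat_lit 5142000460) (nat_lit 228) (nat_lit 7333493300) (nat_lit 76) (nat_lit 11102519126) (nat_lit 30) (nat_lit 5) (nat_lit 33) (nat_lit 5) (nat_lit 31) (nat_lit 4) (nat_lit 400) (nat_lit 279) (nat_lit 221))))) (XT.nd (nat_lit 234) (nat_lit 228) (nat_lit 0) (XT.nd (nat_lit 78) (nat_lit 0) (nat_lit 0) (XT.lf (nat_lit 0) (nat_lit 3146171062) (nat_lit 76) (nat_lit 7214224910) (nat_lit 152) (nat_lit 13753510368) (nat_lit 29) (nat_lit 5) (nat_lit 30) (nat_lit 5) (nat_lit 31) (nat_lit 4) (nat_lit 401) (nat_lit 279) (nat_lit 220)) (XT.nd (nat_lit 78) (nat_lit 0) (nat_lit 0) (XT.lf (nat_lit 0) (nat_lit 14007826758) (nat_lit 76) (nat_lit 1757506749) (nat_lit 152) (nat_lit 8899647839) (nat_lit 29) (nat_lit 5) (nat_lit 30) (nat_lit 5) (nat_lit 31) (nat_lit 4) (nat_lit 402) (nat_lit 279) (nat_lit 219)) (XT.lf (nat_lit 0) (nat_lit 21326410677)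 (nat_lit 152) (nat_lit 155634521) (nat_lit 0) (nat_lit 3750727983) (nat_lit 29) (nat_lit 5) (nat_lit 31) (nat_lit 4) (nat_lit 29) (nat_lit 4) (nat_lit 403) (nat_lit 279) (nat_lit 218)))) (XT.nd (nat_lit 156) (nat_lit 76) (nat_lit 0) (XT.nd (nat_lit 78) (nat_lit 0) (nat_lit 0) (XT.lf (nat_lit 0) (nat_lit 1292458900) (nat_lit 152) (nat_lit 15052993023) (nat_lit 76) (nat_lit 9469398169) (nat_lit 27) (nat_lit 5) (nat_lit 29) (nat_lit 5) (nat_lit 28) (nat_lit 4) (nat_lit 404) (nat_lit 279) (nat_lit 217)) (XT.lf (nat_lit 0) (nat_lit 6528488549) (nat_lit 152) (nat_lit 4521912930) (nat_lit 76) (nat_lit 15364038753) (nat_lit 27) (nat_lit 5) (nat_lit 29) (nat_lit 5) (nat_lit 28) (nat_lit 4) (nat_lit 405) (nat_lit 279) (nat_lit 216))) (XT.nd (nat_lit 78) (nat_lit 0) (nat_lit 0) (XT.lf (nat_lit 0) (nat_lit 6372813275) (nat_lit 76) (nat_lit 5569433984) (nat_lit 152) (nat_lit 15089155215) (nat_lit 26) (nat_lit 5) (nat_lit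 27) (nat_lit 5) (nat_lit 28) (nat_lit 4) (nat_lit 406) (nat_lit 279) (nat_lit 215)) (XT.lf (nat_lit 0) (nat_lit 17524762122) (nat_lit 152) (nat_lit 10056366367) (nat_lit 0) (nat_lit 85558523) (nat_lit 26) (nat_lit 5) (nat_lit 28) (nat_lit 4) (nat_lit 26) (nat_lit 4) (nat_lit 407) (nat_lit 279) (nat_lit 214)))))) (XT.nd (nat_lit 546) (nat_lit 228) (nat_lit 0) (XT.nd (nat_lit 234) (nat_lit 152) (nat_lit 0) (XT.nd (nat_lit 78) (nat_lit 76) (nat_lit 0) (XT.lf (nat_lit 0) (nat_lit 748872662) (nat_lit 76) (nat_lit 22548899586) (nat_lit 76) (nat_lit 5022570864) (nat_lit 25) (nat_lit 4) (nat_lit 26) (nat_lit 5) (nat_lit 26) (nat_lit 4) (nat_lit 408) (nat_lit 279) (nat_lit 213)) (XT.nd (nat_lit 78) (nat_lit 0) (nat_lit 0) (XT.lf (nat_lit 0) (nat_lit 308759115) (nat_lit 152) (nat_lit 16984135216) (nat_lit 76) (nat_lit 11698747353) (nat_lit 24) (nat_lit 5) (nat_lit 26) (nat_lit 5) (nat_lit 25) (nat_lit 4) (nat_lit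 409) (nat_lit 279) (nat_lit 212)) (XT.lf (nat_lit 0) (nat_lit 5660950009) (nat_lit 152) (nat_lit 6201311486) (nat_lit 76) (nat_lit 17820473088) (nat_lit 24) (nat_lit 5) (nat_lit 26) (nat_lit 5) (nat_lit 25) (nat_lit 4) (nat_lit 410) (nat_lit 279) (nat_lit 211)))) (XT.nd (nat_lit 156) (nat_lit 76) (nat_lit 0) (XT.nd (nat_lit 78) (nat_lit 0) (nat_lit 0) (XT.lf (nat_lit 0) (nat_lit 4930922709) (nat_lit 76) (nat_lit 6253163274) (nat_lit 152) (nat_lit 19210166125) (nat_lit 23) (nat_lit 5) (nat_lit 24) (nat_lit 5) (nat_lit 25) (nat_lit 4) (nat_lit 411) (nat_lit 279) (nat_lit 210)) (XT.lf (nat_lit 0) (nat_lit 16454639589) (nat_lit 76) (nat_lit 444286997) (nat_lit 152) (nat_lit 14227411379) (nat_lit 23) (nat_lit 5) (nat_lit 24) (nat_lit 5) (nat_lit 25) (nat_lit 4) (nat_lit 412) (nat_lit 279) (nat_lit 209))) (XT.nd (nat_lit 78) (nat_lit 76) (nat_lit 0) (XT.lf (nat_lit 0) (nat_lit 22802603139) (nat_lit 152) (nat_lit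 3677900536) (nat_lit 0) (nat_lit 5399364033) (nat_lit 23) (nat_lit 5) (nat_lit 25) (nat_lit 4) (nat_lit 23) (nat_lit 4) (nat_lit 413) (nat_lit 279) (nat_lit 208)) (XT.lf (nat_lit 0) (nat_lit 7725720202) (nat_lit 76) (nat_lit 21201525115) (nat_lit 76) (nat_lit 3727445310) (nat_lit 22) (nat_lit 4) (nat_lit 23) (nat_lit 5) (nat_lit 23) (nat_lit 4) (nat_lit 414) (nat_lit 279) (nat_lit 207))))) (XT.nd (nat_lit 234) (nat_lit 76) (nat_lit 0) (XT.nd (nat_lit 78) (nat_lit 76) (nat_lit 0) (XT.lf (nat_lit 0) (nat_lit 1750816381) (nat_lit 152) (nat_lit 13988699928) (nat_lit 76) (nat_lit 17712648421) (nat_lit 21) (nat_lit 5) (nat_lit 23) (nat_lit 5) (nat_lit 22) (nat_lit 4) (nat_lit 415) (nat_lit 279) (nat_lit 206)) (XT.nd (nat_lit 78) (nat_lit 76) (nat_lit 0) (XT.lf (nat_lit 0) (nat_lit 7284751400) (nat_lit 152) (nat_lit 2821585991) (nat_lit 76) (nat_lit 24167133892) (nat_lit 21) (nat_lit 5) (nat_lit 23) (nat_lit 5)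 (nat_lit 22) (nat_lit 4) (nat_lit 416) (nat_lit 279) (nat_lit 205)) (XT.lf (nat_lit 0) (nat_lit 8789473831) (nat_lit 76) (nat_lit 4246947075) (nat_lit 152) (nat_lit 22081447250) (nat_lit 20) (nat_lit 5) (nat_lit 21) (nat_lit 5) (nat_lit 22) (nat_lit 4) (nat_lit 417) (nat_lit 279) (nat_lit 204)))) (XT.nd (nat_lit 156) (nat_lit 76) (nat_lit 0) (XT.nd (nat_lit 78) (nat_lit 0) (nat_lit 0) (XT.lf (nat_lit 0) (nat_lit 18973906036) (nat_lit 152) (nat_lit 15260167743) (nat_lit 0) (nat_lit 1753127732) (nat_lit 20) (nat_lit 5) (nat_lit 22) (nat_lit 4) (nat_lit 20) (nat_lit 4) (nat_lit 418) (nat_lit 279) (nat_lit 203)) (XT.lf (nat_lit 0) (nat_lit 25099818520) (nat_lit 152) (nat_lit 3962777481) (nat_lit 0) (nat_lit 7819712246) (nat_lit 20) (nat_lit 5) (nat_lit 22) (nat_lit 4) (nat_lit 20) (nat_lit 4) (nat_lit 419) (nat_lit 279) (nat_lit 202))) (XT.nd (nat_lit 78) (nat_lit 0) (nat_lit 0) (XT.lf (nat_lit 0) (nat_lit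 7766015147) (nat_lit 76) (nat_lit 23687323386) (nat_lit 76) (nat_lit 6349617142) (nat_lit 19) (nat_lit 4) (nat_lit 20) (nat_lit 5) (nat_lit 20) (nat_lit 4) (nat_lit 420) (nat_lit 279) (nat_lit 201)) (XT.lf (nat_lit 0) (nat_lit 19869421381) (nat_lit 76) (nat_lit 18137573053) (nat_lit 76) (nat_lit 743944507) (nat_lit 19) (nat_lit 4) (nat_lit 20) (nat_lit 5) (nat_lit 20) (nat_lit 4) (nat_lit 421) (nat_lit 279) (nat_lit 200))))))))
noncomputable def xc56 : XT := (XT.nd (nat_lit 2028) (nat_lit 76) (nat_lit 0) (XT.nd (nat_lit 1014) (nat_lit 304) (nat_lit 0) (XT.nd (nat_lit 468) (nat_lit 152) (nat_lit 0) (XT.nd (nat_lit 234) (nat_lit 76) (nat_lit 0) (XT.nd (nat_lit 78) (nat_lit 76) (nat_lit 0) (XT.lf (nat_lit 0) (nat_lit 4901853556) (nat_lit 152) (nat_lit 7497159323) (nat_lit 76) (nat_lit 27327797304) (nat_lit 18) (nat_lit 5) (nat_lit 20) (nat_lit 5) (nat_lit 19) (nat_lit 4) (nat_lit 422) (nat_lit 279) (nat_lit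 199)) (XT.nd (nat_lit 78) (nat_lit 0) (nat_lit 0) (XT.lf (nat_lit 0) (nat_lit 4248562853) (nat_lit 76) (nat_lit 6465327308) (nat_lit 152) (nat_lit 30017494039) (nat_lit 17) (nat_lit 5) (nat_lit 18) (nat_lit 5) (nat_lit 19) (nat_lit 4) (nat_lit 423) (nat_lit 279) (nat_lit 198)) (XT.lf (nat_lit 0) (nat_lit 16445181461) (nat_lit 76) (nat_lit 302105467) (nat_lit 152) (nat_lit 25017400604) (nat_lit 17) (nat_lit 5) (nat_lit 18) (nat_lit 5) (nat_lit 19) (nat_lit 4) (nat_lit 424) (nat_lit 279) (nat_lit 197)))) (XT.nd (nat_lit 78) (nat_lit 76) (nat_lit 0) (XT.lf (nat_lit 0) (nat_lit 22991685302) (nat_lit 152) (nat_lit 13933553651) (nat_lit 0) (nat_lit 5902853025) (nat_lit 17) (nat_lit 5) (nat_lit 19) (nat_lit 4) (nat_lit 17) (nat_lit 4) (nat_lit 425) (nat_lit 279) (nat_lit 196)) (XT.nd (nat_lit 78) (nat_lit 76) (nat_lit 0) (XT.lf (nat_lit 0) (nat_lit 29399107477) (nat_lit 152) (nat_lit 2261581119) (nat_lit 0) (nat_lit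 12263441153) (nat_lit 17) (nat_lit 5) (nat_lit 19) (nat_lit 4) (nat_lit 17) (nat_lit 4) (nat_lit 426) (nat_lit 279) (nat_lit 195)) (XT.lf (nat_lit 0) (nat_lit 9902752731) (nat_lit 76) (nat_lit 26164686734) (nat_lit 76) (nat_lit 8983550461) (nat_lit 16) (nat_lit 4) (nat_lit 17) (nat_lit 5) (nat_lit 17) (nat_lit 4) (nat_lit 427) (nat_lit 279) (nat_lit 194))))) (XT.nd (nat_lit 234) (nat_lit 76) (nat_lit 0) (XT.nd (nat_lit 78) (nat_lit 76) (nat_lit 0) (XT.lf (nat_lit 0) (nat_lit 22427840918) (nat_lit 76) (nat_lit 20504600048) (nat_lit 76) (nat_lit 3279318194) (nat_lit 16) (nat_lit 4) (nat_lit 17) (nat_lit 5) (nat_lit 17) (nat_lit 4) (nat_lit 428) (nat_lit 279) (nat_lit 193)) (XT.nd (nat_lit 78) (nat_lit 0) (nat_lit 0) (XT.lf (nat_lit 0) (nat_lit 2519674807) (nat_lit 152) (nat_lit 12153201783) (nat_lit 76) (nat_lit 32734499210) (nat_lit 15) (nat_lit 5) (nat_lit 17) (nat_lit 5) (nat_lit 16) (nat_lit 4) (nat_lit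 429) (nat_lit 279) (nat_lit 192)) (XT.lf (nat_lit 0) (nat_lit 8401767206) (nat_lit 152) (nat_lit 254165657) (nat_lit 76) (nat_lit 39982704481) (nat_lit 15) (nat_lit 5) (nat_lit 17) (nat_lit 5) (nat_lit 16) (nat_lit 4) (nat_lit 430) (nat_lit 279) (nat_lit 191)))) (XT.nd (nat_lit 156) (nat_lit 0) (nat_lit 0) (XT.nd (nat_lit 78) (nat_lit 0) (nat_lit 0) (XT.lf (nat_lit 0) (nat_lit 12193040299) (nat_lit 76) (nat_lit 2360256669) (nat_lit 152) (nat_lit 35350752160) (nat_lit 14) (nat_lit 5) (nat_lit 15) (nat_lit 5) (nat_lit 16) (nat_lit 4) (nat_lit 431) (nat_lit 279) (nat_lit 190)) (XT.lf (nat_lit 0) (nat_lit 20907424046) (nat_lit 152) (nat_lit 26274923878) (nat_lit 0) (nat_lit 4024535381) (nat_lit 14) (nat_lit 5) (nat_lit 16) (nat_lit 4) (nat_lit 14) (nat_lit 4) (nat_lit 432) (nat_lit 279) (nat_lit 189))) (XT.nd (nat_lit 78) (nat_lit 0) (nat_lit 0) (XT.lf (nat_lit 0) (nat_lit 27452062493) (nat_lit 152) (nat_lit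 14564542325) (nat_lit 0) (nat_lit 10532202599) (nat_lit 14) (nat_lit 5) (nat_lit 16) (nat_lit 4) (nat_lit 14) (nat_lit 4) (nat_lit 433) (nat_lit 279) (nat_lit 188)) (XT.lf (nat_lit 0) (nat_lit 34170242696) (nat_lit 152) (nat_lit 2546943568) (nat_lit 0) (nat_lit 17214488404) (nat_lit 14) (nat_lit 5) (nat_lit 16) (nat_lit 4) (nat_lit 14) (nat_lit 4) (nat_lit 434) (nat_lit 279) (nat_lit 187)))))) (XT.nd (nat_lit 468) (nat_lit 76) (nat_lit 0) (XT.nd (nat_lit 234) (nat_lit 152) (nat_lit 0) (XT.nd (nat_lit 78) (nat_lit 0) (nat_lit 0) (XT.lf (nat_lit 0) (nat_lit 9983181027) (nat_lit 76) (nat_lit 31180618323) (nat_lit 76) (nat_lit 14190015102) (nat_lit 13) (nat_lit 4) (nat_lit 14) (nat_lit 5) (nat_lit 14) (nat_lit 4) (nat_lit 435) (nat_lit 279) (nat_lit 186)) (XT.nd (nat_lit 78) (nat_lit 0) (nat_lit 0) (XT.lf (nat_lit 0) (nat_lit 22899028967) (nat_lit 76) (nat_lit 25471956657) (nat_lit 76) (nat_lit 8447519524)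 (nat_lit 13) (nat_lit 4) (nat_lit 14) (nat_lit 5) (nat_lit 14) (nat_lit 4) (nat_lit 436) (nat_lit 279) (nat_lit 185)) (XT.lf (nat_lit 0) (nat_lit 36161196774) (nat_lit 76) (nat_lit 19611932251) (nat_lit 76) (nat_lit 2554646659) (nat_lit 13) (nat_lit 4) (nat_lit 14) (nat_lit 5) (nat_lit 14) (nat_lit 4) (nat_lit 437) (nat_lit 279) (nat_lit 184)))) (XT.nd (nat_lit 78) (nat_lit 76) (nat_lit 0) (XT.lf (nat_lit 0) (nat_lit 3425576905) (nat_lit 152) (nat_lit 10135256180) (nat_lit 76) (nat_lit 46321104234) (nat_lit 12) (nat_lit 5) (nat_lit 14) (nat_lit 5) (nat_lit 13) (nat_lit 4) (nat_lit 438) (nat_lit 279) (nat_lit 183)) (XT.nd (nat_lit 78) (nat_lit 0) (nat_lit 0) (XT.lf (nat_lit 0) (nat_lit 2236150966) (nat_lit 76) (nat_lit 7298967796) (nat_lit 152) (nat_lit 51946809761) (nat_lit 11) (nat_lit 5) (nat_lit 12) (nat_lit 5) (nat_lit 13) (nat_lit 4) (nat_lit 439) (nat_lit 279) (nat_lit 182)) (XT.lf (nat_lit 0) (nat_lit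 15147650333) (nat_lit 76) (nat_lit 762621315) (nat_lit 152) (nat_lit 47217179284) (nat_lit 11) (nat_lit 5) (nat_lit 12) (nat_lit 5) (nat_lit 13) (nat_lit 4) (nat_lit 440) (nat_lit 279) (nat_lit 181))))) (XT.nd (nat_lit 234) (nat_lit 76) (nat_lit 0) (XT.nd (nat_lit 78) (nat_lit 0) (nat_lit 0) (XT.lf (nat_lit 0) (nat_lit 22514450977) (nat_lit 152) (nat_lit 36471321146) (nat_lit 0) (nat_lit 5835434914) (nat_lit 11) (nat_lit 5) (nat_lit 13) (nat_lit 4) (nat_lit 11) (nat_lit 4) (nat_lit 441) (nat_lit 279) (nat_lit 180)) (XT.nd (nat_lit 78) (nat_lit 0) (nat_lit 0) (XT.lf (nat_lit 0) (nat_lit 29305263997) (nat_lit 152) (nat_lit 24662119852) (nat_lit 0) (nat_lit 12598737868) (nat_lit 11) (nat_lit 5) (nat_lit 13) (nat_lit 4) (nat_lit 11) (nat_lit 4) (nat_lit 442) (nat_lit 279) (nat_lit 179)) (XT.lf (nat_lit 0) (nat_lit 36281313649) (nat_lit 152) (nat_lit 12534547216) (nat_lit 0) (nat_lit 19548078716) (nat_lit 11)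 (nat_lit 5) (nat_lit 13) (nat_lit 4) (nat_lit 11) (nat_lit 4) (nat_lit 443) (nat_lit 279) (nat_lit 178)))) (XT.nd (nat_lit 156) (nat_lit 0) (nat_lit 0) (XT.nd (nat_lit 78) (nat_lit 76) (nat_lit 0) (XT.lf (nat_lit 0) (nat_lit 43448695508) (nat_lit 152) (nat_lit 78006331) (nat_lit 0) (nat_lit 26689529699) (nat_lit 11) (nat_lit 5) (nat_lit 13) (nat_lit 4) (nat_lit 11) (nat_lit 4) (nat_lit 444) (nat_lit 279) (nat_lit 177)) (XT.lf (nat_lit 0) (nat_lit 12971508002) (nat_lit 76) (nat_lit 37966854404) (nat_lit 76) (nat_lit 21182512986) (nat_lit 10) (nat_lit 4) (nat_lit 11) (nat_lit 5) (nat_lit 11) (nat_lit 4) (nat_lit 445) (nat_lit 279) (nat_lit 176))) (XT.nd (nat_lit 78) (nat_lit 0) (nat_lit 0) (XT.lf (nat_lit 0) (nat_lit 26380595000) (nat_lit 76) (nat_lit 32255670967) (nat_lit 76) (nat_lit 15446887212) (nat_lit 10) (nat_lit 4) (nat_lit 11) (nat_lit 5) (nat_lit 11) (nat_lit 4) (nat_lit 446) (nat_lit 279) (nat_lit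 175)) (XT.lf (nat_lit 0) (nat_lit 40159418859) (nat_lit 76) (nat_lit 26388948886) (nat_lit 76) (nat_lit 9556434706) (nat_lit 10) (nat_lit 4) (nat_lit 11) (nat_lit 5) (nat_lit 11) (nat_lit 4) (nat_lit 447) (nat_lit 279) (nat_lit 174))))))) (XT.nd (nat_lit 39312) (nat_lit 0) (nat_lit 5548) (XT.nd (nat_lit 38766) (nat_lit 0) (nat_lit 8436) (XT.nd (nat_lit 38532) (nat_lit 0) (nat_lit 10640) (XT.nd (nat_lit 78) (nat_lit 76) (nat_lit 0) (XT.lf (nat_lit 0) (nat_lit 54320019330) (nat_lit 76) (nat_lit 20361561900) (nat_lit 76) (nat_lit 3506008471) (nat_lit 10) (nat_lit 4) (nat_lit 11) (nat_lit 5) (nat_lit 11) (nat_lit 4) (nat_lit 448) (nat_lit 279) (nat_lit 173)) (XT.nd (nat_lit 38376) (nat_lit 0) (nat_lit 11552) (XT.lf (nat_lit 0) (nat_lit 2656802688) (nat_lit 152) (nat_lit 11484612171) (nat_lit 76) (nat_lit 66191138565) (nat_lit 9) (nat_lit 5) (nat_lit 11) (nat_lit 5) (nat_lit 10) (nat_lit 4) (nat_lit 449) (nat_lit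 279) (nat_lit 172)) (XT.lf (nat_lit 0) (nat_lit 1121019703) (nat_lit 456) (nat_lit 1876535314) (nat_lit 0) (nat_lit 1121019703) (nat_lit 161) (nat_lit 5) (nat_lit 167) (nat_lit 4) (nat_lit 161) (nat_lit 4) (nat_lit 340) (nat_lit 280) (nat_lit 280)))) (XT.nd (nat_lit 78) (nat_lit 456) (nat_lit 0) (XT.lf (nat_lit 0) (nat_lit 2783345373) (nat_lit 456) (nat_lit 3344475881) (nat_lit 456) (nat_lit 2204273461) (nat_lit 155) (nat_lit 4) (nat_lit 161) (nat_lit 5) (nat_lit 161) (nat_lit 4) (nat_lit 341) (nat_lit 280) (nat_lit 279)) (XT.nd (nat_lit 78) (nat_lit 0) (nat_lit 0) (XT.lf (nat_lit 0) (nat_lit 1035564935) (nat_lit 380) (nat_lit 581558216) (nat_lit 456) (nat_lit 6813819130) (nat_lit 149) (nat_lit 5) (nat_lit 154) (nat_lit 5) (nat_lit 155) (nat_lit 4) (nat_lit 342) (nat_lit 280) (nat_lit 278)) (XT.lf (nat_lit 0) (nat_lit 5490272055) (nat_lit 456) (nat_lit 777346892) (nat_lit 0) (nat_lit 2265082540) (nat_lit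 149) (nat_lit 5) (nat_lit 155) (nat_lit 4) (nat_lit 149) (nat_lit 4) (nat_lit 343) (nat_lit 280) (nat_lit 277))))) (XT.nd (nat_lit 234) (nat_lit 1064) (nat_lit 0) (XT.nd (nat_lit 78) (nat_lit 684) (nat_lit 0) (XT.lf (nat_lit 0) (nat_lit 794853479) (nat_lit 456) (nat_lit 2624692034) (nat_lit 76) (nat_lit 5218690475) (nat_lit 143) (nat_lit 5) (nat_lit 149) (nat_lit 5) (nat_lit 144) (nat_lit 4) (nat_lit 344) (nat_lit 280) (nat_lit 276)) (XT.nd (nat_lit 78) (nat_lit 380) (nat_lit 0) (XT.lf (nat_lit 0) (nat_lit 4199102452) (nat_lit 304) (nat_lit 441732855) (nat_lit 380) (nat_lit 4106595310) (nat_lit 139) (nat_lit 5) (nat_lit 143) (nat_lit 5) (nat_lit 144) (nat_lit 4) (nat_lit 345) (nat_lit 280) (nat_lit 275)) (XT.lf (nat_lit 0) (nat_lit 2310693845) (nat_lit 380) (nat_lit 6273291587) (nat_lit 380) (nat_lit 276500521) (nat_lit 134) (nat_lit 4) (nat_lit 139) (nat_lit 5) (nat_lit 139) (nat_lit 4) (nat_lit 346) (nat_lit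 280) (nat_lit 274)))) (XT.nd (nat_lit 156) (nat_lit 684) (nat_lit 0) (XT.nd (nat_lit 78) (nat_lit 0) (nat_lit 0) (XT.lf (nat_lit 0) (nat_lit 327685410) (nat_lit 304) (nat_lit 3231212518) (nat_lit 380) (nat_lit 5418153837) (nat_lit 129) (nat_lit 5) (nat_lit 133) (nat_lit 5) (nat_lit 134) (nat_lit 4) (nat_lit 347) (nat_lit 280) (nat_lit 273)) (XT.lf (nat_lit 0) (nat_lit 7412467017) (nat_lit 304) (nat_lit 66949050) (nat_lit 380) (nat_lit 1618383168) (nat_lit 129) (nat_lit 5) (nat_lit 133) (nat_lit 5) (nat_lit 134) (nat_lit 4) (nat_lit 348) (nat_lit 280) (nat_lit 272))) (XT.nd (nat_lit 78) (nat_lit 304) (nat_lit 0) (XT.lf (nat_lit 0) (nat_lit 2245188377) (nat_lit 380) (nat_lit 3810389228) (nat_lit 76) (nat_lit 3166124859) (nat_lit 124) (nat_lit 5) (nat_lit 129) (nat_lit 5) (nat_lit 125) (nat_lit 4) (nat_lit 349) (nat_lit 280) (nat_lit 271)) (XT.lf (nat_lit 0) (nat_lit 3325120254) (nat_lit 304) (nat_lit 2829045718)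 (nat_lit 380) (nat_lit 3195847578) (nat_lit 120) (nat_lit 5) (nat_lit 124) (nat_lit 5) (nat_lit 125) (nat_lit 4) (nat_lit 350) (nat_lit 280) (nat_lit 270)))))) (XT.nd (nat_lit 546) (nat_lit 1216) (nat_lit 0) (XT.nd (nat_lit 234) (nat_lit 988) (nat_lit 0) (XT.nd (nat_lit 78) (nat_lit 304) (nat_lit 0) (XT.lf (nat_lit 0) (nat_lit 652150499) (nat_lit 380) (nat_lit 8330754910) (nat_lit 76) (nat_lit 500071521) (nat_lit 115) (nat_lit 5) (nat_lit 120) (nat_lit 5) (nat_lit 116) (nat_lit 4) (nat_lit 351) (nat_lit 280) (nat_lit 269)) (XT.nd (nat_lit 78) (nat_lit 304) (nat_lit 0) (XT.lf (nat_lit 0) (nat_lit 4554355124) (nat_lit 380) (nat_lit 1141132068) (nat_lit 76) (nat_lit 3923432292) (nat_lit 115) (nat_lit 5) (nat_lit 120) (nat_lit 5) (nat_lit 116) (nat_lit 4) (nat_lit 352) (nat_lit 280) (nat_lit 268)) (XT.lf (nat_lit 0) (nat_lit 6259204056) (nat_lit 304) (nat_lit 2290654800) (nat_lit 380) (nat_lit 1209823144) (nat_lit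 111) (nat_lit 5) (nat_lit 115) (nat_lit 5) (nat_lit 116) (nat_lit 4) (nat_lit 353) (nat_lit 280) (nat_lit 267)))) (XT.nd (nat_lit 156) (nat_lit 380) (nat_lit 0) (XT.nd (nat_lit 78) (nat_lit 228) (nat_lit 0) (XT.lf (nat_lit 0) (nat_lit 2684513650) (nat_lit 380) (nat_lit 5993981600) (nat_lit 76) (nat_lit 1226068429) (nat_lit 106) (nat_lit 5) (nat_lit 111) (nat_lit 5) (nat_lit 107) (nat_lit 4) (nat_lit 354) (nat_lit 280) (nat_lit 266)) (XT.lf (nat_lit 0) (nat_lit 1427464472) (nat_lit 228) (nat_lit 5233249956) (nat_lit 304) (nat_lit 3393063763) (nat_lit 103) (nat_lit 5) (nat_lit 106) (nat_lit 5) (nat_lit 107) (nat_lit 4) (nat_lit 355) (nat_lit 280) (nat_lit 265))) (XT.nd (nat_lit 78) (nat_lit 304) (nat_lit 0) (XT.lf (nat_lit 0) (nat_lit 516757544) (nat_lit 304) (nat_lit 1145889785) (nat_lit 76) (nat_lit 8545326306) (nat_lit 102) (nat_lit 5) (nat_lit 106) (nat_lit 5) (nat_lit 103) (nat_lit 5) (nat_lit 356) (nat_lit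 280) (nat_lit 264)) (XT.lf (nat_lit 0) (nat_lit 4478321762) (nat_lit 380) (nat_lit 3858524530) (nat_lit 76) (nat_lit 2028885458) (nat_lit 98) (nat_lit 5) (nat_lit 103) (nat_lit 5) (nat_lit 99) (nat_lit 4) (nat_lit 357) (nat_lit 280) (nat_lit 263))))) (XT.nd (nat_lit 234) (nat_lit 684) (nat_lit 0) (XT.nd (nat_lit 78) (nat_lit 304) (nat_lit 0) (XT.lf (nat_lit 0) (nat_lit 3817664265) (nat_lit 228) (nat_lit 4726627917) (nat_lit 304) (nat_lit 1984386962) (nat_lit 95) (nat_lit 5) (nat_lit 98) (nat_lit 5) (nat_lit 99) (nat_lit 4) (nat_lit 358) (nat_lit 280) (nat_lit 262)) (XT.nd (nat_lit 78) (nat_lit 0) (nat_lit 0) (XT.lf (nat_lit 0) (nat_lit 980948447) (nat_lit 228) (nat_lit 984862637) (nat_lit 304) (nat_lit 8731044533) (nat_lit 91) (nat_lit 5) (nat_lit 94) (nat_lit 5) (nat_lit 95) (nat_lit 5) (nat_lit 359) (nat_lit 280) (nat_lit 261)) (XT.lf (nat_lit 0) (nat_lit 6012327487) (nat_lit 304) (nat_lit 2001499404)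 (nat_lit 76) (nat_lit 2855151507) (nat_lit 91) (nat_lit 5) (nat_lit 95) (nat_lit 5) (nat_lit 92) (nat_lit 4) (nat_lit 360) (nat_lit 280) (nat_lit 260)))) (XT.nd (nat_lit 156) (nat_lit 152) (nat_lit 0) (XT.nd (nat_lit 78) (nat_lit 304) (nat_lit 0) (XT.lf (nat_lit 0) (nat_lit 5927146031) (nat_lit 228) (nat_lit 4243778543) (nat_lit 304) (nat_lit 875640448) (nat_lit 88) (nat_lit 5) (nat_lit 91) (nat_lit 5) (nat_lit 92) (nat_lit 4) (nat_lit 361) (nat_lit 280) (nat_lit 259)) (XT.lf (nat_lit 0) (nat_lit 2805937962) (nat_lit 228) (nat_lit 327558119) (nat_lit 304) (nat_lit 8095924030) (nat_lit 84) (nat_lit 5) (nat_lit 87) (nat_lit 5) (nat_lit 88) (nat_lit 5) (nat_lit 362) (nat_lit 280) (nat_lit 258))) (XT.nd (nat_lit 78) (nat_lit 152) (nat_lit 0) (XT.lf (nat_lit 0) (nat_lit 7257955774) (nat_lit 304) (nat_lit 511036746) (nat_lit 76) (nat_lit 3648147741) (nat_lit 84) (nat_lit 5) (nat_lit 88) (nat_lit 5) (nat_lit 85)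 (nat_lit 4) (nat_lit 363) (nat_lit 280) (nat_lit 257)) (XT.lf (nat_lit 0) (nat_lit 7664698778) (nat_lit 152) (nat_lit 3845376126) (nat_lit 228) (nat_lit 100317745) (nat_lit 82) (nat_lit 5) (nat_lit 84) (nat_lit 5) (nat_lit 85) (nat_lit 4) (nat_lit 364) (nat_lit 280) (nat_lit 256))))))))
noncomputable def xc57 : XT := (XT.nd (nat_lit 2106) (nat_lit 1368) (nat_lit 0) (XT.nd (nat_lit 1014) (nat_lit 1368) (nat_lit 0) (XT.nd (nat_lit 468) (nat_lit 988) (nat_lit 0) (XT.nd (nat_lit 234) (nat_lit 456) (nat_lit 0) (XT.nd (nat_lit 78) (nat_lit 228) (nat_lit 0) (XT.lf (nat_lit 0) (nat_lit 3975882447) (nat_lit 304) (nat_lit 7602294655) (nat_lit 76) (nat_lit 230850509) (nat_lit 78) (nat_lit 5) (nat_lit 82) (nat_lit 5) (nat_lit 79) (nat_lit 4) (nat_lit 365) (nat_lit 280) (nat_lit 255)) (XT.nd (nat_lit 78) (nat_lit 76) (nat_lit 0) (XT.lf (nat_lit 0) (nat_lit 521689711) (nat_lit 152) (nat_lit 7661754139) (nat_lit 228)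 (nat_lit 3829832072) (nat_lit 76) (nat_lit 5) (nat_lit 78) (nat_lit 5) (nat_lit 79) (nat_lit 4) (nat_lit 366) (nat_lit 280) (nat_lit 254)) (XT.lf (nat_lit 0) (nat_lit 293373643) (nat_lit 228) (nat_lit 3301176820) (nat_lit 76) (nat_lit 8628866772) (nat_lit 75) (nat_lit 5) (nat_lit 78) (nat_lit 5) (nat_lit 76) (nat_lit 5) (nat_lit 367) (nat_lit 280) (nat_lit 253)))) (XT.nd (nat_lit 78) (nat_lit 228) (nat_lit 0) (XT.lf (nat_lit 0) (nat_lit 4448318578) (nat_lit 304) (nat_lit 7367308549) (nat_lit 76) (nat_lit 623562934) (nat_lit 72) (nat_lit 5) (nat_lit 76) (nat_lit 5) (nat_lit 73) (nat_lit 4) (nat_lit 368) (nat_lit 280) (nat_lit 252)) (XT.nd (nat_lit 78) (nat_lit 76) (nat_lit 0) (XT.lf (nat_lit 0) (nat_lit 967924342) (nat_lit 152) (nat_lit 7769092038) (nat_lit 228) (nat_lit 3924161520) (nat_lit 70) (nat_lit 5) (nat_lit 72) (nat_lit 5) (nat_lit 73) (nat_lit 4) (nat_lit 369) (nat_lit 280) (nat_lit 251)) (XT.lf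 (nat_lit 0) (nat_lit 265267381) (nat_lit 228) (nat_lit 3305277925) (nat_lit 76) (nat_lit 9319041486) (nat_lit 69) (nat_lit 5) (nat_lit 72) (nat_lit 5) (nat_lit 70) (nat_lit 5) (nat_lit 370) (nat_lit 280) (nat_lit 250))))) (XT.nd (nat_lit 234) (nat_lit 608) (nat_lit 0) (XT.nd (nat_lit 78) (nat_lit 152) (nat_lit 0) (XT.lf (nat_lit 0) (nat_lit 4492733768) (nat_lit 304) (nat_lit 7848467655) (nat_lit 76) (nat_lit 782757838) (nat_lit 66) (nat_lit 5) (nat_lit 70) (nat_lit 5) (nat_lit 67) (nat_lit 4) (nat_lit 371) (nat_lit 280) (nat_lit 249)) (XT.nd (nat_lit 78) (nat_lit 0) (nat_lit 0) (XT.lf (nat_lit 0) (nat_lit 679042859) (nat_lit 152) (nat_lit 8176736485) (nat_lit 228) (nat_lit 4509334199) (nat_lit 64) (nat_lit 5) (nat_lit 66) (nat_lit 5) (nat_lit 67) (nat_lit 4) (nat_lit 372) (nat_lit 280) (nat_lit 248)) (XT.lf (nat_lit 0) (nat_lit 9508795045) (nat_lit 152) (nat_lit 3854190171) (nat_lit 228) (nat_lit 250132078)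 (nat_lit 64) (nat_lit 5) (nat_lit 66) (nat_lit 5) (nat_lit 67) (nat_lit 4) (nat_lit 373) (nat_lit 280) (nat_lit 247)))) (XT.nd (nat_lit 156) (nat_lit 380) (nat_lit 0) (XT.nd (nat_lit 78) (nat_lit 0) (nat_lit 0) (XT.lf (nat_lit 0) (nat_lit 4042468103) (nat_lit 228) (nat_lit 9200220731) (nat_lit 76) (nat_lit 625101112) (nat_lit 61) (nat_lit 5) (nat_lit 64) (nat_lit 5) (nat_lit 62) (nat_lit 4) (nat_lit 374) (nat_lit 280) (nat_lit 246)) (XT.lf (nat_lit 0) (nat_lit 8474483807) (nat_lit 228) (nat_lit 495960463) (nat_lit 76) (nat_lit 5159126077) (nat_lit 61) (nat_lit 5) (nat_lit 64) (nat_lit 5) (nat_lit 62) (nat_lit 4) (nat_lit 375) (nat_lit 280) (nat_lit 245))) (XT.nd (nat_lit 78) (nat_lit 228) (nat_lit 0) (XT.lf (nat_lit 0) (nat_lit 8526285911) (nat_lit 152) (nat_lit 4532656921) (nat_lit 228) (nat_lit 1339688310) (nat_lit 59) (nat_lit 5) (nat_lit 61) (nat_lit 5) (nat_lit 62) (nat_lit 4) (nat_lit 376) (nat_lit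 280) (nat_lit 244)) (XT.lf (nat_lit 0) (nat_lit 3017416183) (nat_lit 228) (nat_lit 11602116660) (nat_lit 76) (nat_lit 56161144) (nat_lit 56) (nat_lit 5) (nat_lit 59) (nat_lit 5) (nat_lit 57) (nat_lit 4) (nat_lit 377) (nat_lit 280) (nat_lit 243)))))) (XT.nd (nat_lit 546) (nat_lit 608) (nat_lit 0) (XT.nd (nat_lit 234) (nat_lit 380) (nat_lit 0) (XT.nd (nat_lit 78) (nat_lit 380) (nat_lit 0) (XT.lf (nat_lit 0) (nat_lit 7521068488) (nat_lit 228) (nat_lit 2719790725) (nat_lit 76) (nat_lit 4718539239) (nat_lit 56) (nat_lit 5) (nat_lit 59) (nat_lit 5) (nat_lit 57) (nat_lit 4) (nat_lit 378) (nat_lit 280) (nat_lit 242)) (XT.nd (nat_lit 78) (nat_lit 228) (nat_lit 0) (XT.lf (nat_lit 0) (nat_lit 6448006770) (nat_lit 152) (nat_lit 5713608690) (nat_lit 228) (nat_lit 3089955228) (nat_lit 54) (nat_lit 5) (nat_lit 56) (nat_lit 5) (nat_lit 57) (nat_lit 4) (nat_lit 379) (nat_lit 280) (nat_lit 241)) (XT.lf (nat_lit 0) (nat_lit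 279764004) (nat_lit 152) (nat_lit 1052371652) (nat_lit 228) (nat_lit 14220870519) (nat_lit 51) (nat_lit 5) (nat_lit 53) (nat_lit 5) (nat_lit 54) (nat_lit 5) (nat_lit 380) (nat_lit 280) (nat_lit 240)))) (XT.nd (nat_lit 156) (nat_lit 228) (nat_lit 0) (XT.nd (nat_lit 78) (nat_lit 152) (nat_lit 0) (XT.lf (nat_lit 0) (nat_lit 5890822047) (nat_lit 228) (nat_lit 6219542233) (nat_lit 76) (nat_lit 3750230827) (nat_lit 51) (nat_lit 5) (nat_lit 54) (nat_lit 5) (nat_lit 52) (nat_lit 4) (nat_lit 381) (nat_lit 280) (nat_lit 239)) (XT.lf (nat_lit 0) (nat_lit 3050732343) (nat_lit 152) (nat_lit 7517246837) (nat_lit 228) (nat_lit 5609990276) (nat_lit 49) (nat_lit 5) (nat_lit 51) (nat_lit 5) (nat_lit 52) (nat_lit 4) (nat_lit 382) (nat_lit 280) (nat_lit 238))) (XT.nd (nat_lit 78) (nat_lit 228) (nat_lit 0) (XT.lf (nat_lit 0) (nat_lit 12623483117) (nat_lit 152) (nat_lit 2767437238) (nat_lit 228) (nat_lit 1113789392) (nat_lit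 49) (nat_lit 5) (nat_lit 51) (nat_lit 5) (nat_lit 52) (nat_lit 4) (nat_lit 383) (nat_lit 280) (nat_lit 237)) (XT.lf (nat_lit 0) (nat_lit 3467290227) (nat_lit 228) (nat_lit 11244469525) (nat_lit 76) (nat_lit 2127927631) (nat_lit 46) (nat_lit 5) (nat_lit 49) (nat_lit 5) (nat_lit 47) (nat_lit 4) (nat_lit 384) (nat_lit 280) (nat_lit 236))))) (XT.nd (nat_lit 234) (nat_lit 456) (nat_lit 0) (XT.nd (nat_lit 78) (nat_lit 152) (nat_lit 0) (XT.lf (nat_lit 0) (nat_lit 8174416129) (nat_lit 228) (nat_lit 1888339927) (nat_lit 76) (nat_lit 7121305510) (nat_lit 46) (nat_lit 5) (nat_lit 49) (nat_lit 5) (nat_lit 47) (nat_lit 4) (nat_lit 385) (nat_lit 280) (nat_lit 235)) (XT.nd (nat_lit 78) (nat_lit 76) (nat_lit 0) (XT.lf (nat_lit 0) (nat_lit 7802176142) (nat_lit 76) (nat_lit 5241228238) (nat_lit 152) (nat_lit 4494750947) (nat_lit 45) (nat_lit 5) (nat_lit 46) (nat_lit 5) (nat_lit 47) (nat_lit 4) (nat_lit 386) (nat_lit 280)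 (nat_lit 234)) (XT.lf (nat_lit 0) (nat_lit 117566719) (nat_lit 152) (nat_lit 180534238) (nat_lit 76) (nat_lit 17605783062) (nat_lit 44) (nat_lit 5) (nat_lit 46) (nat_lit 5) (nat_lit 45) (nat_lit 5) (nat_lit 387) (nat_lit 280) (nat_lit 233)))) (XT.nd (nat_lit 156) (nat_lit 228) (nat_lit 0) (XT.nd (nat_lit 78) (nat_lit 76) (nat_lit 0) (XT.lf (nat_lit 0) (nat_lit 4865621418) (nat_lit 228) (nat_lit 8614292107) (nat_lit 76) (nat_lit 4796711894) (nat_lit 42) (nat_lit 5) (nat_lit 45) (nat_lit 5) (nat_lit 43) (nat_lit 4) (nat_lit 388) (nat_lit 280) (nat_lit 232)) (XT.lf (nat_lit 0) (nat_lit 1065505054) (nat_lit 76) (nat_lit 8653193275) (nat_lit 152) (nat_lit 8942980252) (nat_lit 41) (nat_lit 5) (nat_lit 42) (nat_lit 5) (nat_lit 43) (nat_lit 4) (nat_lit 389) (nat_lit 280) (nat_lit 231))) (XT.nd (nat_lit 78) (nat_lit 228) (nat_lit 0) (XT.lf (nat_lit 0) (nat_lit 11117211417) (nat_lit 76) (nat_lit 3635303222) (nat_lit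 152) (nat_lit 4304721024) (nat_lit 41) (nat_lit 5) (nat_lit 42) (nat_lit 5) (nat_lit 43) (nat_lit 4) (nat_lit 390) (nat_lit 280) (nat_lit 230)) (XT.lf (nat_lit 0) (nat_lit 445891488) (nat_lit 228) (nat_lit 17534133189) (nat_lit 76) (nat_lit 1485031940) (nat_lit 38) (nat_lit 5) (nat_lit 41) (nat_lit 5) (nat_lit 39) (nat_lit 4) (nat_lit 391) (nat_lit 280) (nat_lit 229))))))) (XT.nd (nat_lit 1014) (nat_lit 608) (nat_lit 0) (XT.nd (nat_lit 468) (nat_lit 380) (nat_lit 0) (XT.nd (nat_lit 234) (nat_lit 304) (nat_lit 0) (XT.nd (nat_lit 78) (nat_lit 76) (nat_lit 0) (XT.lf (nat_lit 0) (nat_lit 5318819307) (nat_lit 228) (nat_lit 7794864149) (nat_lit 76) (nat_lit 6768166751) (nat_lit 38) (nat_lit 5) (nat_lit 41) (nat_lit 5) (nat_lit 39) (nat_lit 4) (nat_lit 392) (nat_lit 280) (nat_lit 228)) (XT.nd (nat_lit 78) (nat_lit 0) (nat_lit 0) (XT.lf (nat_lit 0) (nat_lit 2188500519) (nat_lit 76) (nat_lit 8121298768) (nat_lit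 152) (nat_lit 10002198374) (nat_lit 37) (nat_lit 5) (nat_lit 38) (nat_lit 5) (nat_lit 39) (nat_lit 4) (nat_lit 393) (nat_lit 280) (nat_lit 227)) (XT.lf (nat_lit 0) (nat_lit 12541255308) (nat_lit 76) (nat_lit 2939361390) (nat_lit 152) (nat_lit 5273535410) (nat_lit 37) (nat_lit 5) (nat_lit 38) (nat_lit 5) (nat_lit 39) (nat_lit 4) (nat_lit 394) (nat_lit 280) (nat_lit 226)))) (XT.nd (nat_lit 78) (nat_lit 152) (nat_lit 0) (XT.lf (nat_lit 0) (nat_lit 1921143152) (nat_lit 152) (nat_lit 18879359542) (nat_lit 152) (nat_lit 409255816) (nat_lit 35) (nat_lit 4) (nat_lit 37) (nat_lit 5) (nat_lit 37) (nat_lit 4) (nat_lit 395) (nat_lit 280) (nat_lit 225)) (XT.nd (nat_lit 78) (nat_lit 76) (nat_lit 0) (XT.lf (nat_lit 0) (nat_lit 4576528415) (nat_lit 228) (nat_lit 9311535609) (nat_lit 76) (nat_lit 7787686860) (nat_lit 34) (nat_lit 5) (nat_lit 37) (nat_lit 5) (nat_lit 35) (nat_lit 4) (nat_lit 396) (nat_lit 280) (nat_lit 224))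 (XT.lf (nat_lit 0) (nat_lit 892392773) (nat_lit 76) (nat_lit 8773729023) (nat_lit 152) (nat_lit 12490610997) (nat_lit 33) (nat_lit 5) (nat_lit 34) (nat_lit 5) (nat_lit 35) (nat_lit 4) (nat_lit 397) (nat_lit 280) (nat_lit 223))))) (XT.nd (nat_lit 234) (nat_lit 152) (nat_lit 0) (XT.nd (nat_lit 78) (nat_lit 228) (nat_lit 0) (XT.lf (nat_lit 0) (nat_lit 11508332267) (nat_lit 76) (nat_lit 3448508292) (nat_lit 152) (nat_lit 7693855487) (nat_lit 33) (nat_lit 5) (nat_lit 34) (nat_lit 5) (nat_lit 35) (nat_lit 4) (nat_lit 398) (nat_lit 280) (nat_lit 222)) (XT.nd (nat_lit 78) (nat_lit 228) (nat_lit 0) (XT.lf (nat_lit 0) (nat_lit 20381226239) (nat_lit 152) (nat_lit 819777969) (nat_lit 0) (nat_lit 1959230495) (nat_lit 33) (nat_lit 5) (nat_lit 35) (nat_lit 4) (nat_lit 33) (nat_lit 4) (nat_lit 399) (nat_lit 280) (nat_lit 221)) (XT.lf (nat_lit 0) (nat_lit 2325459274) (nat_lit 228) (nat_lit 13814991942) (nat_lit 76) (nat_lit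 7541352529) (nat_lit 30) (nat_lit 5) (nat_lit 33) (nat_lit 5) (nat_lit 31) (nat_lit 4) (nat_lit 400) (nat_lit 280) (nat_lit 220)))) (XT.nd (nat_lit 156) (nat_lit 76) (nat_lit 0) (XT.nd (nat_lit 78) (nat_lit 76) (nat_lit 0) (XT.lf (nat_lit 0) (nat_lit 7492297327) (nat_lit 228) (nat_lit 3436678196) (nat_lit 76) (nat_lit 13290270594) (nat_lit 30) (nat_lit 5) (nat_lit 33) (nat_lit 5) (nat_lit 31) (nat_lit 4) (nat_lit 401) (nat_lit 280) (nat_lit 219)) (XT.lf (nat_lit 0) (nat_lit 7317015118) (nat_lit 76) (nat_lit 5525452764) (nat_lit 152) (nat_lit 11929498380) (nat_lit 29) (nat_lit 5) (nat_lit 30) (nat_lit 5) (nat_lit 31) (nat_lit 4) (nat_lit 402) (nat_lit 280) (nat_lit 218))) (XT.nd (nat_lit 78) (nat_lit 76) (nat_lit 0) (XT.lf (nat_lit 0) (nat_lit 18346692425) (nat_lit 152) (nat_lit 6956067922) (nat_lit 0) (nat_lit 38705398) (nat_lit 29) (nat_lit 5) (nat_lit 31) (nat_lit 4) (nat_lit 29) (nat_lit 4) (nat_lit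 403) (nat_lit 280) (nat_lit 217)) (XT.lf (nat_lit 0) (nat_lit 3800657312) (nat_lit 76) (nat_lit 20265963393) (nat_lit 76) (nat_lit 1859916271) (nat_lit 28) (nat_lit 4) (nat_lit 29) (nat_lit 5) (nat_lit 29) (nat_lit 4) (nat_lit 404) (nat_lit 280) (nat_lit 216)))))) (XT.nd (nat_lit 546) (nat_lit 304) (nat_lit 0) (XT.nd (nat_lit 234) (nat_lit 152) (nat_lit 0) (XT.nd (nat_lit 78) (nat_lit 76) (nat_lit 0) (XT.lf (nat_lit 0) (nat_lit 3392401521) (nat_lit 152) (nat_lit 11614676008) (nat_lit 76) (nat_lit 11520188006) (nat_lit 27) (nat_lit 5) (nat_lit 29) (nat_lit 5) (nat_lit 28) (nat_lit 4) (nat_lit 405) (nat_lit 280) (nat_lit 215)) (XT.nd (nat_lit 78) (nat_lit 76) (nat_lit 0) (XT.lf (nat_lit 0) (nat_lit 8725478015) (nat_lit 152) (nat_lit 880961769) (nat_lit 76) (nat_lit 17540210297) (nat_lit 27) (nat_lit 5) (nat_lit 29) (nat_lit 5) (nat_lit 28) (nat_lit 4) (nat_lit 406) (nat_lit 280) (nat_lit 214)) (XT.lf (nat_lit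 0) (nat_lit 10303580648) (nat_lit 76) (nat_lit 3975730517) (nat_lit 152) (nat_lit 13503485688) (nat_lit 26) (nat_lit 5) (nat_lit 27) (nat_lit 5) (nat_lit 28) (nat_lit 4) (nat_lit 407) (nat_lit 280) (nat_lit 213)))) (XT.nd (nat_lit 156) (nat_lit 76) (nat_lit 0) (XT.nd (nat_lit 78) (nat_lit 76) (nat_lit 0) (XT.lf (nat_lit 0) (nat_lit 19988099398) (nat_lit 152) (nat_lit 6686013753) (nat_lit 0) (nat_lit 1764268191) (nat_lit 26) (nat_lit 5) (nat_lit 28) (nat_lit 4) (nat_lit 26) (nat_lit 4) (nat_lit 408) (nat_lit 280) (nat_lit 212)) (XT.lf (nat_lit 0) (nat_lit 4407382019) (nat_lit 76) (nat_lit 21505434892) (nat_lit 76) (nat_lit 3199479900) (nat_lit 25) (nat_lit 4) (nat_lit 26) (nat_lit 5) (nat_lit 26) (nat_lit 4) (nat_lit 409) (nat_lit 280) (nat_lit 211))) (XT.nd (nat_lit 78) (nat_lit 0) (nat_lit 0) (XT.lf (nat_lit 0) (nat_lit 2196908069) (nat_lit 152) (nat_lit 13925963442) (nat_lit 76) (nat_lit 13681989535)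 (nat_lit 24) (nat_lit 5) (nat_lit 26) (nat_lit 5) (nat_lit 25) (nat_lit 4) (nat_lit 410) (nat_lit 280) (nat_lit 210)) (XT.lf (nat_lit 0) (nat_lit 7654939849) (nat_lit 152) (nat_lit 2923568472) (nat_lit 76) (nat_lit 19939824913) (nat_lit 24) (nat_lit 5) (nat_lit 26) (nat_lit 5) (nat_lit 25) (nat_lit 4) (nat_lit 411) (nat_lit 280) (nat_lit 209))))) (XT.nd (nat_lit 234) (nat_lit 228) (nat_lit 0) (XT.nd (nat_lit 78) (nat_lit 0) (nat_lit 0) (XT.lf (nat_lit 0) (nat_lit 8508674099) (nat_lit 76) (nat_lit 4814934454) (nat_lit 152) (nat_lit 17928197189) (nat_lit 23) (nat_lit 5) (nat_lit 24) (nat_lit 5) (nat_lit 25) (nat_lit 4) (nat_lit 412) (nat_lit 280) (nat_lit 208)) (XT.nd (nat_lit 78) (nat_lit 0) (nat_lit 0) (XT.lf (nat_lit 0) (nat_lit 19168125020) (nat_lit 152) (nat_lit 11740004596) (nat_lit 0) (nat_lit 1098982122) (nat_lit 23) (nat_lit 5) (nat_lit 25) (nat_lit 4) (nat_lit 23) (nat_lit 4) (nat_lit 413) (nat_lit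 280) (nat_lit 207)) (XT.lf (nat_lit 0) (nat_lit 25201855521) (nat_lit 152) (nat_lit 518872649) (nat_lit 0) (nat_lit 7063935246) (nat_lit 23) (nat_lit 5) (nat_lit 25) (nat_lit 4) (nat_lit 23) (nat_lit 4) (nat_lit 414) (nat_lit 280) (nat_lit 206)))) (XT.nd (nat_lit 156) (nat_lit 76) (nat_lit 0) (XT.nd (nat_lit 78) (nat_lit 76) (nat_lit 0) (XT.lf (nat_lit 0) (nat_lit 11194804115) (nat_lit 76) (nat_lit 20296595344) (nat_lit 76) (nat_lit 2091900917) (nat_lit 22) (nat_lit 4) (nat_lit 23) (nat_lit 5) (nat_lit 23) (nat_lit 4) (nat_lit 415) (nat_lit 280) (nat_lit 205)) (XT.lf (nat_lit 0) (nat_lit 3466710110) (nat_lit 152) (nat_lit 11232102178) (nat_lit 76) (nat_lit 19706883525) (nat_lit 21) (nat_lit 5) (nat_lit 23) (nat_lit 5) (nat_lit 22) (nat_lit 4) (nat_lit 416) (nat_lit 280) (nat_lit 204))) (XT.nd (nat_lit 78) (nat_lit 0) (nat_lit 0) (XT.lf (nat_lit 0) (nat_lit 181045637) (nat_lit 76) (nat_lit 8938910216) (nat_lit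 152) (nat_lit 26133090798) (nat_lit 20) (nat_lit 5) (nat_lit 21) (nat_lit 5) (nat_lit 22) (nat_lit 4) (nat_lit 417) (nat_lit 280) (nat_lit 203)) (XT.lf (nat_lit 0) (nat_lit 12106671595) (nat_lit 76) (nat_lit 2918079217) (nat_lit 152) (nat_lit 21098611112) (nat_lit 20) (nat_lit 5) (nat_lit 21) (nat_lit 5) (nat_lit 22) (nat_lit 4) (nat_lit 418) (nat_lit 280) (nat_lit 202))))))))
noncomputable def xc58 : XT := (XT.nd (nat_lit 2106) (nat_lit 0) (nat_lit 0) (XT.nd (nat_lit 1014) (nat_lit 304) (nat_lit 0) (XT.nd (nat_lit 468) (nat_lit 228) (nat_lit 0) (XT.nd (nat_lit 234) (nat_lit 152) (nat_lit 0) (XT.nd (nat_lit 78) (nat_lit 76) (nat_lit 0) (XT.lf (nat_lit 0) (nat_lit 21107429913) (nat_lit 152) (nat_lit 12720344418) (nat_lit 0) (nat_lit 3191992510) (nat_lit 20) (nat_lit 5) (nat_lit 22) (nat_lit 4) (nat_lit 20) (nat_lit 4) (nat_lit 419) (nat_lit 280) (nat_lit 201)) (XT.nd (nat_lit 78) (nat_lit 76) (nat_lit 0)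 (XT.lf (nat_lit 0) (nat_lit 27371557441) (nat_lit 152) (nat_lit 1171342012) (nat_lit 0) (nat_lit 9400197736) (nat_lit 20) (nat_lit 5) (nat_lit 22) (nat_lit 4) (nat_lit 20) (nat_lit 4) (nat_lit 420) (nat_lit 280) (nat_lit 200)) (XT.lf (nat_lit 0) (nat_lit 10880781858) (nat_lit 76) (nat_lit 23018367416) (nat_lit 76) (nat_lit 4992714215) (nat_lit 19) (nat_lit 4) (nat_lit 20) (nat_lit 5) (nat_lit 20) (nat_lit 4) (nat_lit 421) (nat_lit 280) (nat_lit 199)))) (XT.nd (nat_lit 78) (nat_lit 76) (nat_lit 0) (XT.lf (nat_lit 0) (nat_lit 721695783) (nat_lit 152) (nat_lit 16613322894) (nat_lit 76) (nat_lit 22534371261) (nat_lit 18) (nat_lit 5) (nat_lit 20) (nat_lit 5) (nat_lit 19) (nat_lit 4) (nat_lit 422) (nat_lit 280) (nat_lit 198)) (XT.nd (nat_lit 78) (nat_lit 76) (nat_lit 0) (XT.lf (nat_lit 0) (nat_lit 6479012151) (nat_lit 152) (nat_lit 4977147494) (nat_lit 76) (nat_lit 29419446935) (nat_lit 18) (nat_lit 5) (nat_lit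 20) (nat_lit 5) (nat_lit 19) (nat_lit 4) (nat_lit 423) (nat_lit 280) (nat_lit 197)) (XT.lf (nat_lit 0) (nat_lit 7094035301) (nat_lit 76) (nat_lit 5355848296) (nat_lit 152) (nat_lit 29460903061) (nat_lit 17) (nat_lit 5) (nat_lit 18) (nat_lit 5) (nat_lit 19) (nat_lit 4) (nat_lit 424) (nat_lit 280) (nat_lit 196))))) (XT.nd (nat_lit 234) (nat_lit 152) (nat_lit 0) (XT.nd (nat_lit 78) (nat_lit 76) (nat_lit 0) (XT.lf (nat_lit 0) (nat_lit 18632254376) (nat_lit 152) (nat_lit 23408114500) (nat_lit 0) (nat_lit 935684015) (nat_lit 17) (nat_lit 5) (nat_lit 19) (nat_lit 4) (nat_lit 17) (nat_lit 4) (nat_lit 425) (nat_lit 280) (nat_lit 195)) (XT.nd (nat_lit 78) (nat_lit 76) (nat_lit 0) (XT.lf (nat_lit 0) (nat_lit 25026620311) (nat_lit 152) (nat_lit 11761282968) (nat_lit 0) (nat_lit 7284580001) (nat_lit 17) (nat_lit 5) (nat_lit 19) (nat_lit 4) (nat_lit 17) (nat_lit 4) (nat_lit 426) (nat_lit 280) (nat_lit 194)) (XT.lf (nat_lit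 0) (nat_lit 189093668) (nat_lit 76) (nat_lit 31399809037) (nat_lit 76) (nat_lit 13613623145) (nat_lit 16) (nat_lit 4) (nat_lit 17) (nat_lit 5) (nat_lit 17) (nat_lit 4) (nat_lit 427) (nat_lit 280) (nat_lit 193)))) (XT.nd (nat_lit 156) (nat_lit 152) (nat_lit 0) (XT.nd (nat_lit 78) (nat_lit 0) (nat_lit 0) (XT.lf (nat_lit 0) (nat_lit 12690012417) (nat_lit 76) (nat_lit 25751352698) (nat_lit 76) (nat_lit 7922307018) (nat_lit 16) (nat_lit 4) (nat_lit 17) (nat_lit 5) (nat_lit 17) (nat_lit 4) (nat_lit 428) (nat_lit 280) (nat_lit 192)) (XT.lf (nat_lit 0) (nat_lit 25518323819) (nat_lit 76) (nat_lit 19956364614) (nat_lit 76) (nat_lit 2085707490) (nat_lit 16) (nat_lit 4) (nat_lit 17) (nat_lit 5) (nat_lit 17) (nat_lit 4) (nat_lit 429) (nat_lit 280) (nat_lit 191))) (XT.nd (nat_lit 78) (nat_lit 76) (nat_lit 0) (XT.lf (nat_lit 0) (nat_lit 3825147445) (nat_lit 152) (nat_lit 10146007270) (nat_lit 76) (nat_lit 34821463143)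 (nat_lit 15) (nat_lit 5) (nat_lit 17) (nat_lit 5) (nat_lit 16) (nat_lit 4) (nat_lit 430) (nat_lit 280) (nat_lit 190)) (XT.lf (nat_lit 0) (nat_lit 2081536944) (nat_lit 76) (nat_lit 7786352861) (nat_lit 152) (nat_lit 40193404238) (nat_lit 14) (nat_lit 5) (nat_lit 15) (nat_lit 5) (nat_lit 16) (nat_lit 4) (nat_lit 431) (nat_lit 280) (nat_lit 189)))))) (XT.nd (nat_lit 546) (nat_lit 228) (nat_lit 0) (XT.nd (nat_lit 234) (nat_lit 76) (nat_lit 0) (XT.nd (nat_lit 78) (nat_lit 0) (nat_lit 0) (XT.lf (nat_lit 0) (nat_lit 14838965215) (nat_lit 76) (nat_lit 1332130815) (nat_lit 152) (nat_lit 35194560572) (nat_lit 14) (nat_lit 5) (nat_lit 15) (nat_lit 5) (nat_lit 16) (nat_lit 4) (nat_lit 432) (nat_lit 280) (nat_lit 188)) (XT.nd (nat_lit 78) (nat_lit 0) (nat_lit 0) (XT.lf (nat_lit 0) (nat_lit 22691698976) (nat_lit 152) (nat_lit 24825225881) (nat_lit 0) (nat_lit 5191377658) (nat_lit 14) (nat_lit 5) (nat_lit 16) (nat_lit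 4) (nat_lit 14) (nat_lit 4) (nat_lit 433) (nat_lit 280) (nat_lit 187)) (XT.lf (nat_lit 0) (nat_lit 29398976027) (nat_lit 152) (nat_lit 12828715766) (nat_lit 0) (nat_lit 11863805780) (nat_lit 14) (nat_lit 5) (nat_lit 16) (nat_lit 4) (nat_lit 14) (nat_lit 4) (nat_lit 434) (nat_lit 280) (nat_lit 186)))) (XT.nd (nat_lit 156) (nat_lit 0) (nat_lit 0) (XT.nd (nat_lit 78) (nat_lit 76) (nat_lit 0) (XT.lf (nat_lit 0) (nat_lit 36285982655) (nat_lit 152) (nat_lit 513873400) (nat_lit 0) (nat_lit 18716978495) (nat_lit 14) (nat_lit 5) (nat_lit 16) (nat_lit 4) (nat_lit 14) (nat_lit 4) (nat_lit 435) (nat_lit 280) (nat_lit 185)) (XT.lf (nat_lit 0) (nat_lit 12371473770) (nat_lit 76) (nat_lit 31106185036) (nat_lit 76) (nat_lit 13504332417) (nat_lit 13) (nat_lit 4) (nat_lit 14) (nat_lit 5) (nat_lit 14) (nat_lit 4) (nat_lit 436) (nat_lit 280) (nat_lit 184))) (XT.nd (nat_lit 78) (nat_lit 0) (nat_lit 0) (XT.lf (nat_lit 0) (nat_lit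 25613958393) (nat_lit 76) (nat_lit 25255676680) (nat_lit 76) (nat_lit 7621932355) (nat_lit 13) (nat_lit 4) (nat_lit 14) (nat_lit 5) (nat_lit 14) (nat_lit 4) (nat_lit 437) (nat_lit 280) (nat_lit 183)) (XT.lf (nat_lit 0) (nat_lit 39214924480) (nat_lit 76) (nat_lit 19248408008) (nat_lit 76) (nat_lit 1583700860) (nat_lit 13) (nat_lit 4) (nat_lit 14) (nat_lit 5) (nat_lit 14) (nat_lit 4) (nat_lit 438) (nat_lit 280) (nat_lit 182))))) (XT.nd (nat_lit 234) (nat_lit 76) (nat_lit 0) (XT.nd (nat_lit 78) (nat_lit 76) (nat_lit 0) (XT.lf (nat_lit 0) (nat_lit 4525570464) (nat_lit 152) (nat_lit 8507860098) (nat_lit 76) (nat_lit 48614986520) (nat_lit 12) (nat_lit 5) (nat_lit 14) (nat_lit 5) (nat_lit 13) (nat_lit 4) (nat_lit 439) (nat_lit 280) (nat_lit 181)) (XT.nd (nat_lit 78) (nat_lit 0) (nat_lit 0) (XT.lf (nat_lit 0) (nat_lit 4215753441) (nat_lit 76) (nat_lit 6591984003) (nat_lit 152) (nat_lit 52488992205) (nat_lit 11)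 (nat_lit 5) (nat_lit 12) (nat_lit 5) (nat_lit 13) (nat_lit 4) (nat_lit 440) (nat_lit 280) (nat_lit 180)) (XT.lf (nat_lit 0) (nat_lit 17346500882) (nat_lit 152) (nat_lit 47534679008) (nat_lit 0) (nat_lit 111268902) (nat_lit 11) (nat_lit 5) (nat_lit 13) (nat_lit 4) (nat_lit 11) (nat_lit 4) (nat_lit 441) (nat_lit 280) (nat_lit 179)))) (XT.nd (nat_lit 156) (nat_lit 76) (nat_lit 0) (XT.nd (nat_lit 78) (nat_lit 0) (nat_lit 0) (XT.lf (nat_lit 0) (nat_lit 24128206632) (nat_lit 152) (nat_lit 35743164757) (nat_lit 0) (nat_lit 6866265849) (nat_lit 11) (nat_lit 5) (nat_lit 13) (nat_lit 4) (nat_lit 11) (nat_lit 4) (nat_lit 442) (nat_lit 280) (nat_lit 178)) (XT.lf (nat_lit 0) (nat_lit 31095414273) (nat_lit 152) (nat_lit 23632764008) (nat_lit 0) (nat_lit 13807542613) (nat_lit 11) (nat_lit 5) (nat_lit 13) (nat_lit 4) (nat_lit 11) (nat_lit 4) (nat_lit 443) (nat_lit 280) (nat_lit 177))) (XT.nd (nat_lit 78) (nat_lit 76) (nat_lit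 0) (XT.lf (nat_lit 0) (nat_lit 38254211656) (nat_lit 152) (nat_lit 11192894857) (nat_lit 0) (nat_lit 20941164388) (nat_lit 11) (nat_lit 5) (nat_lit 13) (nat_lit 4) (nat_lit 11) (nat_lit 4) (nat_lit 444) (nat_lit 280) (nat_lit 176)) (XT.lf (nat_lit 0) (nat_lit 1618903115) (nat_lit 76) (nat_lit 44007512812) (nat_lit 76) (nat_lit 26670023206) (nat_lit 10) (nat_lit 4) (nat_lit 11) (nat_lit 5) (nat_lit 11) (nat_lit 4) (nat_lit 445) (nat_lit 280) (nat_lit 175))))))) (XT.nd (nat_lit 39156) (nat_lit 0) (nat_lit 6156) (XT.nd (nat_lit 38610) (nat_lit 0) (nat_lit 9348) (XT.nd (nat_lit 234) (nat_lit 0) (nat_lit 0) (XT.nd (nat_lit 78) (nat_lit 0) (nat_lit 0) (XT.lf (nat_lit 0) (nat_lit 15011962651) (nat_lit 76) (nat_lit 38304111080) (nat_lit 76) (nat_lit 20942891048) (nat_lit 10) (nat_lit 4) (nat_lit 11) (nat_lit 5) (nat_lit 11) (nat_lit 4) (nat_lit 446) (nat_lit 280) (nat_lit 174)) (XT.nd (nat_lit 78) (nat_lit 0) (nat_lit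 0) (XT.lf (nat_lit 0) (nat_lit 28775225867) (nat_lit 76) (nat_lit 32444944051) (nat_lit 76) (nat_lit 15060684772) (nat_lit 10) (nat_lit 4) (nat_lit 11) (nat_lit 5) (nat_lit 11) (nat_lit 4) (nat_lit 447) (nat_lit 280) (nat_lit 173)) (XT.lf (nat_lit 0) (nat_lit 42920718918) (nat_lit 76) (nat_lit 26424892067) (nat_lit 76) (nat_lit 9018264586) (nat_lit 10) (nat_lit 4) (nat_lit 11) (nat_lit 5) (nat_lit 11) (nat_lit 4) (nat_lit 448) (nat_lit 280) (nat_lit 172)))) (XT.nd (nat_lit 38220) (nat_lit 0) (nat_lit 11932) (XT.lf (nat_lit 0) (nat_lit 57460801941) (nat_lit 76) (nat_lit 20238694887) (nat_lit 76) (nat_lit 2810350705) (nat_lit 10) (nat_lit 4) (nat_lit 11) (nat_lit 5) (nat_lit 11) (nat_lit 4) (nat_lit 449) (nat_lit 280) (nat_lit 171)) (XT.nd (nat_lit 78) (nat_lit 456) (nat_lit 0) (XT.lf (nat_lit 0) (nat_lit 1947333469) (nat_lit 532) (nat_lit 133449511) (nat_lit 0) (nat_lit 1947333469) (nat_lit 173) (nat_lit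 5) (nat_lit 180) (nat_lit 4) (nat_lit 173) (nat_lit 4) (nat_lit 338) (nat_lit 281) (nat_lit 281)) (XT.lf (nat_lit 0) (nat_lit 6139125676) (nat_lit 456) (nat_lit 1608227652) (nat_lit 456) (nat_lit 398586904) (nat_lit 167) (nat_lit 4) (nat_lit 173) (nat_lit 5) (nat_lit 173) (nat_lit 4) (nat_lit 339) (nat_lit 281) (nat_lit 280))))) (XT.nd (nat_lit 234) (nat_lit 1216) (nat_lit 0) (XT.nd (nat_lit 78) (nat_lit 912) (nat_lit 0) (XT.lf (nat_lit 0) (nat_lit 3367759921) (nat_lit 456) (nat_lit 3817724502) (nat_lit 0) (nat_lit 1053149006) (nat_lit 161) (nat_lit 5) (nat_lit 167) (nat_lit 4) (nat_lit 161) (nat_lit 4) (nat_lit 340) (nat_lit 281) (nat_lit 279)) (XT.nd (nat_lit 78) (nat_lit 456) (nat_lit 0) (XT.lf (nat_lit 0) (nat_lit 2653384750) (nat_lit 456) (nat_lit 4551637874) (nat_lit 456) (nat_lit 1130034318) (nat_lit 155) (nat_lit 4) (nat_lit 161) (nat_lit 5) (nat_lit 161) (nat_lit 4) (nat_lit 341) (nat_lit 281)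 (nat_lit 278)) (XT.lf (nat_lit 0) (nat_lit 825097300) (nat_lit 380) (nat_lit 1796307130) (nat_lit 456) (nat_lit 5813681523) (nat_lit 149) (nat_lit 5) (nat_lit 154) (nat_lit 5) (nat_lit 155) (nat_lit 4) (nat_lit 342) (nat_lit 281) (nat_lit 277)))) (XT.nd (nat_lit 156) (nat_lit 760) (nat_lit 0) (XT.nd (nat_lit 78) (nat_lit 456) (nat_lit 0) (XT.lf (nat_lit 0) (nat_lit 6436514820) (nat_lit 456) (nat_lit 1044024435) (nat_lit 0) (nat_lit 1058067802) (nat_lit 149) (nat_lit 5) (nat_lit 155) (nat_lit 4) (nat_lit 149) (nat_lit 4) (nat_lit 343) (nat_lit 281) (nat_lit 276)) (XT.lf (nat_lit 0) (nat_lit 1668111531) (nat_lit 456) (nat_lit 2975729232) (nat_lit 76) (nat_lit 4001511068) (nat_lit 143) (nat_lit 5) (nat_lit 149) (nat_lit 5) (nat_lit 144) (nat_lit 4) (nat_lit 344) (nat_lit 281) (nat_lit 275))) (XT.nd (nat_lit 78) (nat_lit 456) (nat_lit 0) (XT.lf (nat_lit 0) (nat_lit 3777651881) (nat_lit 304) (nat_lit 1687643241)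 (nat_lit 380) (nat_lit 3290734267) (nat_lit 139) (nat_lit 5) (nat_lit 143) (nat_lit 5) (nat_lit 144) (nat_lit 4) (nat_lit 345) (nat_lit 281) (nat_lit 274)) (XT.lf (nat_lit 0) (nat_lit 467319989) (nat_lit 456) (nat_lit 7055210448) (nat_lit 76) (nat_lit 1348262112) (nat_lit 133) (nat_lit 5) (nat_lit 139) (nat_lit 5) (nat_lit 134) (nat_lit 4) (nat_lit 346) (nat_lit 281) (nat_lit 273)))))) (XT.nd (nat_lit 546) (nat_lit 1520) (nat_lit 0) (XT.nd (nat_lit 234) (nat_lit 988) (nat_lit 0) (XT.nd (nat_lit 78) (nat_lit 684) (nat_lit 0) (XT.lf (nat_lit 0) (nat_lit 4250210581) (nat_lit 456) (nat_lit 249812761) (nat_lit 76) (nat_lit 4488686025) (nat_lit 133) (nat_lit 5) (nat_lit 139) (nat_lit 5) (nat_lit 134) (nat_lit 4) (nat_lit 347) (nat_lit 281) (nat_lit 272)) (XT.nd (nat_lit 78) (nat_lit 380) (nat_lit 0) (XT.lf (nat_lit 0) (nat_lit 6767587380) (nat_lit 304) (nat_lit 1357410306) (nat_lit 380) (nat_lit 985847947) (nat_lit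 129) (nat_lit 5) (nat_lit 133) (nat_lit 5) (nat_lit 134) (nat_lit 4) (nat_lit 348) (nat_lit 281) (nat_lit 271)) (XT.lf (nat_lit 0) (nat_lit 2803217302) (nat_lit 380) (nat_lit 4552055685) (nat_lit 76) (nat_lit 1881174262) (nat_lit 124) (nat_lit 5) (nat_lit 129) (nat_lit 5) (nat_lit 125) (nat_lit 4) (nat_lit 349) (nat_lit 281) (nat_lit 270)))) (XT.nd (nat_lit 156) (nat_lit 304) (nat_lit 0) (XT.nd (nat_lit 78) (nat_lit 380) (nat_lit 0) (XT.lf (nat_lit 0) (nat_lit 2505523870) (nat_lit 304) (nat_lit 4156807678) (nat_lit 380) (nat_lit 2703938121) (nat_lit 120) (nat_lit 5) (nat_lit 124) (nat_lit 5) (nat_lit 125) (nat_lit 4) (nat_lit 350) (nat_lit 281) (nat_lit 269)) (XT.lf (nat_lit 0) (nat_lit 236548707) (nat_lit 304) (nat_lit 842383431) (nat_lit 380) (nat_lit 8421839471) (nat_lit 115) (nat_lit 5) (nat_lit 119) (nat_lit 5) (nat_lit 120) (nat_lit 5) (nat_lit 351) (nat_lit 281) (nat_lit 268))) (XT.nd (nat_lit 78)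 (nat_lit 304) (nat_lit 0) (XT.lf (nat_lit 0) (nat_lit 4931692299) (nat_lit 380) (nat_lit 2129120791) (nat_lit 76) (nat_lit 2577398533) (nat_lit 115) (nat_lit 5) (nat_lit 120) (nat_lit 5) (nat_lit 116) (nat_lit 4) (nat_lit 352) (nat_lit 281) (nat_lit 267)) (XT.lf (nat_lit 0) (nat_lit 5189548089) (nat_lit 304) (nat_lit 3687223075) (nat_lit 380) (nat_lit 903729434) (nat_lit 111) (nat_lit 5) (nat_lit 115) (nat_lit 5) (nat_lit 116) (nat_lit 4) (nat_lit 353) (nat_lit 281) (nat_lit 266))))) (XT.nd (nat_lit 234) (nat_lit 836) (nat_lit 0) (XT.nd (nat_lit 78) (nat_lit 304) (nat_lit 0) (XT.lf (nat_lit 0) (nat_lit 2745564227) (nat_lit 304) (nat_lit 175775187) (nat_lit 380) (nat_lit 7005866367) (nat_lit 106) (nat_lit 5) (nat_lit 110) (nat_lit 5) (nat_lit 111) (nat_lit 5) (nat_lit 354) (nat_lit 281) (nat_lit 265)) (XT.nd (nat_lit 78) (nat_lit 76) (nat_lit 0) (XT.lf (nat_lit 0) (nat_lit 155269079) (nat_lit 228) (nat_lit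 6688776446) (nat_lit 304) (nat_lit 3233992159) (nat_lit 103) (nat_lit 5) (nat_lit 106) (nat_lit 5) (nat_lit 107) (nat_lit 4) (nat_lit 355) (nat_lit 281) (nat_lit 264)) (XT.lf (nat_lit 0) (nat_lit 633319306) (nat_lit 304) (nat_lit 2505467868) (nat_lit 76) (nat_lit 7094594083) (nat_lit 102) (nat_lit 5) (nat_lit 106) (nat_lit 5) (nat_lit 103) (nat_lit 5) (nat_lit 356) (nat_lit 281) (nat_lit 263)))) (XT.nd (nat_lit 156) (nat_lit 304) (nat_lit 0) (XT.nd (nat_lit 78) (nat_lit 228) (nat_lit 0) (XT.lf (nat_lit 0) (nat_lit 4528175599) (nat_lit 380) (nat_lit 5318601024) (nat_lit 76) (nat_lit 546375472) (nat_lit 98) (nat_lit 5) (nat_lit 103) (nat_lit 5) (nat_lit 99) (nat_lit 4) (nat_lit 357) (nat_lit 281) (nat_lit 262)) (XT.lf (nat_lit 0) (nat_lit 2267182605) (nat_lit 228) (nat_lit 6274139627) (nat_lit 304) (nat_lit 2016373121) (nat_lit 95) (nat_lit 5) (nat_lit 98) (nat_lit 5) (nat_lit 99) (nat_lit 4) (nat_lit 358)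 (nat_lit 281) (nat_lit 261))) (XT.nd (nat_lit 78) (nat_lit 228) (nat_lit 0) (XT.lf (nat_lit 0) (nat_lit 1887251144) (nat_lit 304) (nat_lit 677705946) (nat_lit 76) (nat_lit 8162350408) (nat_lit 94) (nat_lit 5) (nat_lit 98) (nat_lit 5) (nat_lit 95) (nat_lit 5) (nat_lit 359) (nat_lit 281) (nat_lit 260)) (XT.lf (nat_lit 0) (nat_lit 5874409995) (nat_lit 304) (nat_lit 3749680140) (nat_lit 76) (nat_lit 1277131075) (nat_lit 91) (nat_lit 5) (nat_lit 95) (nat_lit 5) (nat_lit 92) (nat_lit 4) (nat_lit 360) (nat_lit 281) (nat_lit 259))))))))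
noncomputable def xc59 : XT := (XT.nd (nat_lit 2106) (nat_lit 1672) (nat_lit 0) (XT.nd (nat_lit 1014) (nat_lit 1444) (nat_lit 0) (XT.nd (nat_lit 468) (nat_lit 1064) (nat_lit 0) (XT.nd (nat_lit 234) (nat_lit 456) (nat_lit 0) (XT.nd (nat_lit 78) (nat_lit 304) (nat_lit 0) (XT.lf (nat_lit 0) (nat_lit 4084125525) (nat_lit 228) (nat_lit 5894797592) (nat_lit 304) (nat_lit 1101517143) (nat_lit 88) (nat_lit 5) (nat_lit 91) (nat_lit 5) (nat_lit 92) (nat_lit 4) (nat_lit 361) (nat_lit 281) (nat_lit 258)) (XT.nd (nat_lit 78) (nat_lit 0) (nat_lit 0) (XT.lf (nat_lit 0) (nat_lit 833698952) (nat_lit 228) (nat_lit 2023136293) (nat_lit 304) (nat_lit 8408190335) (nat_lit 84) (nat_lit 5) (nat_lit 87) (nat_lit 5) (nat_lit 88) (nat_lit 5) (nat_lit 362) (nat_lit 281) (nat_lit 257)) (XT.lf (nat_lit 0) (nat_lit 6929037739) (nat_lit 304) (nat_lit 2561895576) (nat_lit 76) (nat_lit 1963389196) (nat_lit 84) (nat_lit 5) (nat_lit 88)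 (nat_lit 5) (nat_lit 85) (nat_lit 4) (nat_lit 363) (nat_lit 281) (nat_lit 256)))) (XT.nd (nat_lit 78) (nat_lit 304) (nat_lit 0) (XT.lf (nat_lit 0) (nat_lit 5514292052) (nat_lit 152) (nat_lit 5611282857) (nat_lit 228) (nat_lit 523676252) (nat_lit 82) (nat_lit 5) (nat_lit 84) (nat_lit 5) (nat_lit 85) (nat_lit 4) (nat_lit 364) (nat_lit 281) (nat_lit 255)) (XT.nd (nat_lit 78) (nat_lit 0) (nat_lit 0) (XT.lf (nat_lit 0) (nat_lit 1921508113) (nat_lit 228) (nat_lit 1580232823) (nat_lit 304) (nat_lit 8348046900) (nat_lit 78) (nat_lit 5) (nat_lit 81) (nat_lit 5) (nat_lit 82) (nat_lit 5) (nat_lit 365) (nat_lit 281) (nat_lit 254)) (XT.lf (nat_lit 0) (nat_lit 7654550239) (nat_lit 304) (nat_lit 1857259649) (nat_lit 76) (nat_lit 2543876876) (nat_lit 78) (nat_lit 5) (nat_lit 82) (nat_lit 5) (nat_lit 79) (nat_lit 4) (nat_lit 366) (nat_lit 281) (nat_lit 253))))) (XT.nd (nat_lit 234) (nat_lit 608) (nat_lit 0) (XT.nd (nat_lit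 78) (nat_lit 304) (nat_lit 0) (XT.lf (nat_lit 0) (nat_lit 6451884407) (nat_lit 152) (nat_lit 5489636700) (nat_lit 228) (nat_lit 325970112) (nat_lit 76) (nat_lit 5) (nat_lit 78) (nat_lit 5) (nat_lit 79) (nat_lit 4) (nat_lit 367) (nat_lit 281) (nat_lit 252)) (XT.nd (nat_lit 78) (nat_lit 0) (nat_lit 0) (XT.lf (nat_lit 0) (nat_lit 2459372566) (nat_lit 228) (nat_lit 1311241279) (nat_lit 304) (nat_lit 8714693228) (nat_lit 72) (nat_lit 5) (nat_lit 75) (nat_lit 5) (nat_lit 76) (nat_lit 5) (nat_lit 368) (nat_lit 281) (nat_lit 251)) (XT.lf (nat_lit 0) (nat_lit 8004185239) (nat_lit 304) (nat_lit 1753616046) (nat_lit 76) (nat_lit 2951154579) (nat_lit 72) (nat_lit 5) (nat_lit 76) (nat_lit 5) (nat_lit 73) (nat_lit 4) (nat_lit 369) (nat_lit 281) (nat_lit 250)))) (XT.nd (nat_lit 156) (nat_lit 152) (nat_lit 0) (XT.nd (nat_lit 78) (nat_lit 304) (nat_lit 0) (XT.lf (nat_lit 0) (nat_lit 6774470776) (nat_lit 152) (nat_lit 5602928095)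 (nat_lit 228) (nat_lit 561550297) (nat_lit 70) (nat_lit 5) (nat_lit 72) (nat_lit 5) (nat_lit 73) (nat_lit 4) (nat_lit 370) (nat_lit 281) (nat_lit 249)) (XT.lf (nat_lit 0) (nat_lit 2316611553) (nat_lit 228) (nat_lit 1291913775) (nat_lit 304) (nat_lit 9567015255) (nat_lit 66) (nat_lit 5) (nat_lit 69) (nat_lit 5) (nat_lit 70) (nat_lit 5) (nat_lit 371) (nat_lit 281) (nat_lit 248))) (XT.nd (nat_lit 78) (nat_lit 152) (nat_lit 0) (XT.lf (nat_lit 0) (nat_lit 7920661882) (nat_lit 304) (nat_lit 2387539006) (nat_lit 76) (nat_lit 3110027608) (nat_lit 66) (nat_lit 5) (nat_lit 70) (nat_lit 5) (nat_lit 67) (nat_lit 4) (nat_lit 372) (nat_lit 281) (nat_lit 247)) (XT.lf (nat_lit 0) (nat_lit 6339949934) (nat_lit 152) (nat_lit 6032952296) (nat_lit 228) (nat_lit 1294985157) (nat_lit 64) (nat_lit 5) (nat_lit 66) (nat_lit 5) (nat_lit 67) (nat_lit 4) (nat_lit 373) (nat_lit 281) (nat_lit 246)))))) (XT.nd (nat_lit 546) (nat_lit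 684) (nat_lit 0) (XT.nd (nat_lit 234) (nat_lit 380) (nat_lit 0) (XT.nd (nat_lit 78) (nat_lit 152) (nat_lit 0) (XT.lf (nat_lit 0) (nat_lit 1341509769) (nat_lit 152) (nat_lit 1607384523) (nat_lit 228) (nat_lit 10976046167) (nat_lit 61) (nat_lit 5) (nat_lit 63) (nat_lit 5) (nat_lit 64) (nat_lit 5) (nat_lit 374) (nat_lit 281) (nat_lit 245)) (XT.nd (nat_lit 78) (nat_lit 152) (nat_lit 0) (XT.lf (nat_lit 0) (nat_lit 7334681973) (nat_lit 228) (nat_lit 3917670121) (nat_lit 76) (nat_lit 2935761255) (nat_lit 61) (nat_lit 5) (nat_lit 64) (nat_lit 5) (nat_lit 62) (nat_lit 4) (nat_lit 375) (nat_lit 281) (nat_lit 244)) (XT.lf (nat_lit 0) (nat_lit 4983055590) (nat_lit 152) (nat_lit 6872145265) (nat_lit 228) (nat_lit 2603896980) (nat_lit 59) (nat_lit 5) (nat_lit 61) (nat_lit 5) (nat_lit 62) (nat_lit 4) (nat_lit 376) (nat_lit 281) (nat_lit 243)))) (XT.nd (nat_lit 156) (nat_lit 152) (nat_lit 0) (XT.nd (nat_lit 78) (nat_lit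 152) (nat_lit 0) (XT.lf (nat_lit 0) (nat_lit 1717969525) (nat_lit 228) (nat_lit 629852174) (nat_lit 76) (nat_lit 12390505938) (nat_lit 58) (nat_lit 5) (nat_lit 61) (nat_lit 5) (nat_lit 59) (nat_lit 5) (nat_lit 377) (nat_lit 281) (nat_lit 242)) (XT.lf (nat_lit 0) (nat_lit 6163163234) (nat_lit 228) (nat_lit 6528566287) (nat_lit 76) (nat_lit 2332061360) (nat_lit 56) (nat_lit 5) (nat_lit 59) (nat_lit 5) (nat_lit 57) (nat_lit 4) (nat_lit 378) (nat_lit 281) (nat_lit 241))) (XT.nd (nat_lit 78) (nat_lit 0) (nat_lit 0) (XT.lf (nat_lit 0) (nat_lit 2511323305) (nat_lit 152) (nat_lit 8225755056) (nat_lit 228) (nat_lit 4580888586) (nat_lit 54) (nat_lit 5) (nat_lit 56) (nat_lit 5) (nat_lit 57) (nat_lit 4) (nat_lit 379) (nat_lit 281) (nat_lit 240)) (XT.lf (nat_lit 0) (nat_lit 11853544834) (nat_lit 152) (nat_lit 3602863141) (nat_lit 228) (nat_lit 164324014) (nat_lit 54) (nat_lit 5) (nat_lit 56) (nat_lit 5) (nat_lit 57)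 (nat_lit 4) (nat_lit 380) (nat_lit 281) (nat_lit 239))))) (XT.nd (nat_lit 234) (nat_lit 304) (nat_lit 0) (XT.nd (nat_lit 78) (nat_lit 152) (nat_lit 0) (XT.lf (nat_lit 0) (nat_lit 4307164553) (nat_lit 228) (nat_lit 10435143716) (nat_lit 76) (nat_lit 1188776631) (nat_lit 51) (nat_lit 5) (nat_lit 54) (nat_lit 5) (nat_lit 52) (nat_lit 4) (nat_lit 381) (nat_lit 281) (nat_lit 238)) (XT.nd (nat_lit 78) (nat_lit 152) (nat_lit 0) (XT.lf (nat_lit 0) (nat_lit 8927240251) (nat_lit 228) (nat_lit 1274209860) (nat_lit 76) (nat_lit 6048725912) (nat_lit 51) (nat_lit 5) (nat_lit 54) (nat_lit 5) (nat_lit 52) (nat_lit 4) (nat_lit 382) (nat_lit 281) (nat_lit 237)) (XT.lf (nat_lit 0) (nat_lit 8223860025) (nat_lit 152) (nat_lit 5486407531) (nat_lit 228) (nat_lit 2867850377) (nat_lit 49) (nat_lit 5) (nat_lit 51) (nat_lit 5) (nat_lit 52) (nat_lit 4) (nat_lit 383) (nat_lit 281) (nat_lit 236)))) (XT.nd (nat_lit 156) (nat_lit 76)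 (nat_lit 0) (XT.nd (nat_lit 78) (nat_lit 0) (nat_lit 0) (XT.lf (nat_lit 0) (nat_lit 1022461128) (nat_lit 152) (nat_lit 633080914) (nat_lit 228) (nat_lit 15260820781) (nat_lit 46) (nat_lit 5) (nat_lit 48) (nat_lit 5) (nat_lit 49) (nat_lit 5) (nat_lit 384) (nat_lit 281) (nat_lit 235)) (XT.lf (nat_lit 0) (nat_lit 6329808630) (nat_lit 228) (nat_lit 6580231352) (nat_lit 76) (nat_lit 4351686650) (nat_lit 46) (nat_lit 5) (nat_lit 49) (nat_lit 5) (nat_lit 47) (nat_lit 4) (nat_lit 385) (nat_lit 281) (nat_lit 234))) (XT.nd (nat_lit 78) (nat_lit 0) (nat_lit 0) (XT.lf (nat_lit 0) (nat_lit 2968837993) (nat_lit 76) (nat_lit 8157503951) (nat_lit 152) (nat_lit 6491655832) (nat_lit 45) (nat_lit 5) (nat_lit 46) (nat_lit 5) (nat_lit 47) (nat_lit 4) (nat_lit 386) (nat_lit 281) (nat_lit 233)) (XT.lf (nat_lit 0) (nat_lit 12844530006) (nat_lit 76) (nat_lit 3236547246) (nat_lit 152) (nat_lit 1903457985) (nat_lit 45) (nat_lit 5)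 (nat_lit 46) (nat_lit 5) (nat_lit 47) (nat_lit 4) (nat_lit 387) (nat_lit 281) (nat_lit 232))))))) (XT.nd (nat_lit 1014) (nat_lit 608) (nat_lit 0) (XT.nd (nat_lit 468) (nat_lit 532) (nat_lit 0) (XT.nd (nat_lit 234) (nat_lit 228) (nat_lit 0) (XT.nd (nat_lit 78) (nat_lit 76) (nat_lit 0) (XT.lf (nat_lit 0) (nat_lit 2778550660) (nat_lit 228) (nat_lit 13754847260) (nat_lit 76) (nat_lit 1827526731) (nat_lit 42) (nat_lit 5) (nat_lit 45) (nat_lit 5) (nat_lit 43) (nat_lit 4) (nat_lit 388) (nat_lit 281) (nat_lit 231)) (XT.nd (nat_lit 78) (nat_lit 76) (nat_lit 0) (XT.lf (nat_lit 0) (nat_lit 7596298338) (nat_lit 228) (nat_lit 4141760221) (nat_lit 76) (nat_lit 7008982451) (nat_lit 42) (nat_lit 5) (nat_lit 45) (nat_lit 5) (nat_lit 43) (nat_lit 4) (nat_lit 389) (nat_lit 281) (nat_lit 230)) (XT.lf (nat_lit 0) (nat_lit 5782048888) (nat_lit 76) (nat_lit 6782666940) (nat_lit 152) (nat_lit 6579847451) (nat_lit 41) (nat_lit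 5) (nat_lit 42) (nat_lit 5) (nat_lit 43) (nat_lit 4) (nat_lit 390) (nat_lit 281) (nat_lit 229)))) (XT.nd (nat_lit 78) (nat_lit 228) (nat_lit 0) (XT.lf (nat_lit 0) (nat_lit 15998862403) (nat_lit 76) (nat_lit 1676282578) (nat_lit 152) (nat_lit 1879083812) (nat_lit 41) (nat_lit 5) (nat_lit 42) (nat_lit 5) (nat_lit 43) (nat_lit 4) (nat_lit 391) (nat_lit 281) (nat_lit 228)) (XT.nd (nat_lit 78) (nat_lit 0) (nat_lit 0) (XT.lf (nat_lit 0) (nat_lit 2954973506) (nat_lit 228) (nat_lit 13452332270) (nat_lit 76) (nat_lit 3566527588) (nat_lit 38) (nat_lit 5) (nat_lit 41) (nat_lit 5) (nat_lit 39) (nat_lit 4) (nat_lit 392) (nat_lit 281) (nat_lit 227)) (XT.lf (nat_lit 0) (nat_lit 7901398714) (nat_lit 228) (nat_lit 3555093652) (nat_lit 76) (nat_lit 8948827958) (nat_lit 38) (nat_lit 5) (nat_lit 41) (nat_lit 5) (nat_lit 39) (nat_lit 4) (nat_lit 393) (nat_lit 281) (nat_lit 226))))) (XT.nd (nat_lit 234) (nat_lit 228) (nat_lit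 0) (XT.nd (nat_lit 78) (nat_lit 228) (nat_lit 0) (XT.lf (nat_lit 0) (nat_lit 6683912971) (nat_lit 76) (nat_lit 6330203413) (nat_lit 152) (nat_lit 7835104158) (nat_lit 37) (nat_lit 5) (nat_lit 38) (nat_lit 5) (nat_lit 39) (nat_lit 4) (nat_lit 394) (nat_lit 281) (nat_lit 225)) (XT.nd (nat_lit 78) (nat_lit 228) (nat_lit 0) (XT.lf (nat_lit 0) (nat_lit 17218228343) (nat_lit 76) (nat_lit 1052072020) (nat_lit 152) (nat_lit 3036440340) (nat_lit 37) (nat_lit 5) (nat_lit 38) (nat_lit 5) (nat_lit 39) (nat_lit 4) (nat_lit 395) (nat_lit 281) (nat_lit 224)) (XT.lf (nat_lit 0) (nat_lit 1927298527) (nat_lit 228) (nat_lit 15507259681) (nat_lit 76) (nat_lit 4341134372) (nat_lit 34) (nat_lit 5) (nat_lit 37) (nat_lit 5) (nat_lit 35) (nat_lit 4) (nat_lit 396) (nat_lit 281) (nat_lit 223)))) (XT.nd (nat_lit 156) (nat_lit 152) (nat_lit 0) (XT.nd (nat_lit 78) (nat_lit 76) (nat_lit 0) (XT.lf (nat_lit 0) (nat_lit 6986257647) (nat_lit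 228) (nat_lit 5361792260) (nat_lit 76) (nat_lit 9909546079) (nat_lit 34) (nat_lit 5) (nat_lit 37) (nat_lit 5) (nat_lit 35) (nat_lit 4) (nat_lit 397) (nat_lit 281) (nat_lit 222)) (XT.lf (nat_lit 0) (nat_lit 5106792312) (nat_lit 76) (nat_lit 7095813177) (nat_lit 152) (nat_lit 10551187275) (nat_lit 33) (nat_lit 5) (nat_lit 34) (nat_lit 5) (nat_lit 35) (nat_lit 4) (nat_lit 398) (nat_lit 281) (nat_lit 221))) (XT.nd (nat_lit 78) (nat_lit 152) (nat_lit 0) (XT.lf (nat_lit 0) (nat_lit 15919240251) (nat_lit 76) (nat_lit 1667373524) (nat_lit 152) (nat_lit 5677931295) (nat_lit 33) (nat_lit 5) (nat_lit 34) (nat_lit 5) (nat_lit 35) (nat_lit 4) (nat_lit 399) (nat_lit 281) (nat_lit 220)) (XT.lf (nat_lit 0) (nat_lit 3211712460) (nat_lit 152) (nat_lit 19946953445) (nat_lit 152) (nat_lit 631162921) (nat_lit 31) (nat_lit 4) (nat_lit 33) (nat_lit 5) (nat_lit 33) (nat_lit 4) (nat_lit 400) (nat_lit 281) (nat_lit 219)))))) (XT.nd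 (nat_lit 546) (nat_lit 228) (nat_lit 0) (XT.nd (nat_lit 234) (nat_lit 228) (nat_lit 0) (XT.nd (nat_lit 78) (nat_lit 76) (nat_lit 0) (XT.lf (nat_lit 0) (nat_lit 4527297667) (nat_lit 228) (nat_lit 10232529172) (nat_lit 76) (nat_lit 9568249313) (nat_lit 30) (nat_lit 5) (nat_lit 33) (nat_lit 5) (nat_lit 31) (nat_lit 4) (nat_lit 401) (nat_lit 281) (nat_lit 218)) (XT.nd (nat_lit 78) (nat_lit 0) (nat_lit 0) (XT.lf (nat_lit 0) (nat_lit 347500035) (nat_lit 76) (nat_lit 9442881948) (nat_lit 152) (nat_lit 15093028970) (nat_lit 29) (nat_lit 5) (nat_lit 30) (nat_lit 5) (nat_lit 31) (nat_lit 4) (nat_lit 402) (nat_lit 281) (nat_lit 217)) (XT.lf (nat_lit 0) (nat_lit 11378979077) (nat_lit 76) (nat_lit 3895383664) (nat_lit 152) (nat_lit 10179157015) (nat_lit 29) (nat_lit 5) (nat_lit 30) (nat_lit 5) (nat_lit 31) (nat_lit 4) (nat_lit 403) (nat_lit 281) (nat_lit 216)))) (XT.nd (nat_lit 156) (nat_lit 76) (nat_lit 0) (XT.nd (nat_lit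 78) (nat_lit 152) (nat_lit 0) (XT.lf (nat_lit 0) (nat_lit 20900863552) (nat_lit 152) (nat_lit 3391161263) (nat_lit 0) (nat_lit 1749370947) (nat_lit 29) (nat_lit 5) (nat_lit 31) (nat_lit 4) (nat_lit 29) (nat_lit 4) (nat_lit 404) (nat_lit 281) (nat_lit 215)) (XT.lf (nat_lit 0) (nat_lit 122803525) (nat_lit 152) (nat_lit 18994632493) (nat_lit 76) (nat_lit 7527226160) (nat_lit 27) (nat_lit 5) (nat_lit 29) (nat_lit 5) (nat_lit 28) (nat_lit 4) (nat_lit 405) (nat_lit 281) (nat_lit 214))) (XT.nd (nat_lit 78) (nat_lit 76) (nat_lit 0) (XT.lf (nat_lit 0) (nat_lit 5437022896) (nat_lit 152) (nat_lit 8296506047) (nat_lit 76) (nat_lit 13531085278) (nat_lit 27) (nat_lit 5) (nat_lit 29) (nat_lit 5) (nat_lit 28) (nat_lit 4) (nat_lit 406) (nat_lit 281) (nat_lit 213)) (XT.lf (nat_lit 0) (nat_lit 2705213607) (nat_lit 76) (nat_lit 8194294402) (nat_lit 152) (nat_lit 17003995159) (nat_lit 26) (nat_lit 5) (nat_lit 27) (nat_lit 5)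 (nat_lit 28) (nat_lit 4) (nat_lit 407) (nat_lit 281) (nat_lit 212))))) (XT.nd (nat_lit 234) (nat_lit 152) (nat_lit 0) (XT.nd (nat_lit 78) (nat_lit 76) (nat_lit 0) (XT.lf (nat_lit 0) (nat_lit 14137603681) (nat_lit 76) (nat_lit 2435292294) (nat_lit 152) (nat_lit 11987255370) (nat_lit 26) (nat_lit 5) (nat_lit 27) (nat_lit 5) (nat_lit 28) (nat_lit 4) (nat_lit 408) (nat_lit 281) (nat_lit 211)) (XT.nd (nat_lit 78) (nat_lit 76) (nat_lit 0) (XT.lf (nat_lit 0) (nat_lit 22414110948) (nat_lit 152) (nat_lit 3425340886) (nat_lit 0) (nat_lit 3397121689) (nat_lit 26) (nat_lit 5) (nat_lit 28) (nat_lit 4) (nat_lit 26) (nat_lit 4) (nat_lit 409) (nat_lit 281) (nat_lit 210)) (XT.lf (nat_lit 0) (nat_lit 7966922904) (nat_lit 76) (nat_lit 20529397372) (nat_lit 76) (nat_lit 1434998570) (nat_lit 25) (nat_lit 4) (nat_lit 26) (nat_lit 5) (nat_lit 26) (nat_lit 4) (nat_lit 410) (nat_lit 281) (nat_lit 209)))) (XT.nd (nat_lit 156) (nat_lit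 0) (nat_lit 0) (XT.nd (nat_lit 78) (nat_lit 76) (nat_lit 0) (XT.lf (nat_lit 0) (nat_lit 4033845737) (nat_lit 152) (nat_lit 10980846851) (nat_lit 76) (nat_lit 15631029446) (nat_lit 24) (nat_lit 5) (nat_lit 26) (nat_lit 5) (nat_lit 25) (nat_lit 4) (nat_lit 411) (nat_lit 281) (nat_lit 208)) (XT.lf (nat_lit 0) (nat_lit 258720117) (nat_lit 76) (nat_lit 9347801920) (nat_lit 152) (nat_lit 21775553728) (nat_lit 23) (nat_lit 5) (nat_lit 24) (nat_lit 5) (nat_lit 25) (nat_lit 4) (nat_lit 412) (nat_lit 281) (nat_lit 207))) (XT.nd (nat_lit 78) (nat_lit 0) (nat_lit 0) (XT.lf (nat_lit 0) (nat_lit 11996872119) (nat_lit 76) (nat_lit 3426887702) (nat_lit 152) (nat_lit 16714441709) (nat_lit 23) (nat_lit 5) (nat_lit 24) (nat_lit 5) (nat_lit 25) (nat_lit 4) (nat_lit 413) (nat_lit 281) (nat_lit 206)) (XT.lf (nat_lit 0) (nat_lit 21408386526) (nat_lit 152) (nat_lit 8918064051) (nat_lit 0) (nat_lit 2590777113) (nat_lit 23) (nat_lit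 5) (nat_lit 25) (nat_lit 4) (nat_lit 23) (nat_lit 4) (nat_lit 414) (nat_lit 281) (nat_lit 205))))))))
noncomputable def xc60 : XT := (XT.nd (nat_lit 2106) (nat_lit 76) (nat_lit 0) (XT.nd (nat_lit 1014) (nat_lit 456) (nat_lit 0) (XT.nd (nat_lit 468) (nat_lit 228) (nat_lit 0) (XT.nd (nat_lit 234) (nat_lit 76) (nat_lit 0) (XT.nd (nat_lit 78) (nat_lit 76) (nat_lit 0) (XT.lf (nat_lit 0) (nat_lit 2597946447) (nat_lit 76) (nat_lit 25001654058) (nat_lit 76) (nat_lit 6119215370) (nat_lit 22) (nat_lit 4) (nat_lit 23) (nat_lit 5) (nat_lit 23) (nat_lit 4) (nat_lit 415) (nat_lit 281) (nat_lit 204)) (XT.nd (nat_lit 78) (nat_lit 76) (nat_lit 0) (XT.lf (nat_lit 0) (nat_lit 14582125574) (nat_lit 76) (nat_lit 19452975980) (nat_lit 76) (nat_lit 507596248) (nat_lit 22) (nat_lit 4) (nat_lit 23) (nat_lit 5) (nat_lit 23) (nat_lit 4) (nat_lit 416) (nat_lit 281) (nat_lit 203)) (XT.lf (nat_lit 0) (nat_lit 5138596452) (nat_lit 152)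 (nat_lit 8575136742) (nat_lit 76) (nat_lit 21676971783) (nat_lit 21) (nat_lit 5) (nat_lit 23) (nat_lit 5) (nat_lit 22) (nat_lit 4) (nat_lit 417) (nat_lit 281) (nat_lit 202)))) (XT.nd (nat_lit 78) (nat_lit 0) (nat_lit 0) (XT.lf (nat_lit 0) (nat_lit 3151053267) (nat_lit 76) (nat_lit 7793217066) (nat_lit 152) (nat_lit 25319724729) (nat_lit 20) (nat_lit 5) (nat_lit 21) (nat_lit 5) (nat_lit 22) (nat_lit 4) (nat_lit 418) (nat_lit 281) (nat_lit 201)) (XT.nd (nat_lit 78) (nat_lit 0) (nat_lit 0) (XT.lf (nat_lit 0) (nat_lit 15348101123) (nat_lit 76) (nat_lit 1632941539) (nat_lit 152) (nat_lit 20180735666) (nat_lit 20) (nat_lit 5) (nat_lit 21) (nat_lit 5) (nat_lit 22) (nat_lit 4) (nat_lit 419) (nat_lit 281) (nat_lit 200)) (XT.lf (nat_lit 0) (nat_lit 23215161903) (nat_lit 152) (nat_lit 10276402524) (nat_lit 0) (nat_lit 4594445609) (nat_lit 20) (nat_lit 5) (nat_lit 22) (nat_lit 4) (nat_lit 20) (nat_lit 4) (nat_lit 420)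 (nat_lit 281) (nat_lit 199))))) (XT.nd (nat_lit 234) (nat_lit 76) (nat_lit 0) (XT.nd (nat_lit 78) (nat_lit 76) (nat_lit 0) (XT.lf (nat_lit 0) (nat_lit 1567357098) (nat_lit 76) (nat_lit 28071975686) (nat_lit 76) (nat_lit 9398547259) (nat_lit 19) (nat_lit 4) (nat_lit 20) (nat_lit 5) (nat_lit 20) (nat_lit 4) (nat_lit 421) (nat_lit 281) (nat_lit 198)) (XT.nd (nat_lit 78) (nat_lit 76) (nat_lit 0) (XT.lf (nat_lit 0) (nat_lit 13923565249) (nat_lit 76) (nat_lit 22408536055) (nat_lit 76) (nat_lit 3683930800) (nat_lit 19) (nat_lit 4) (nat_lit 20) (nat_lit 5) (nat_lit 20) (nat_lit 4) (nat_lit 422) (nat_lit 281) (nat_lit 197)) (XT.lf (nat_lit 0) (nat_lit 2131796159) (nat_lit 152) (nat_lit 14446745291) (nat_lit 76) (nat_lit 24445174935) (nat_lit 18) (nat_lit 5) (nat_lit 20) (nat_lit 5) (nat_lit 19) (nat_lit 4) (nat_lit 423) (nat_lit 281) (nat_lit 196)))) (XT.nd (nat_lit 156) (nat_lit 0) (nat_lit 0) (XT.nd (nat_lit 78)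 (nat_lit 76) (nat_lit 0) (XT.lf (nat_lit 0) (nat_lit 8021391742) (nat_lit 152) (nat_lit 2539105327) (nat_lit 76) (nat_lit 31500838630) (nat_lit 18) (nat_lit 5) (nat_lit 20) (nat_lit 5) (nat_lit 19) (nat_lit 4) (nat_lit 424) (nat_lit 281) (nat_lit 195)) (XT.lf (nat_lit 0) (nat_lit 9868846711) (nat_lit 76) (nat_lit 4287907634) (nat_lit 152) (nat_lit 28971258762) (nat_lit 17) (nat_lit 5) (nat_lit 18) (nat_lit 5) (nat_lit 19) (nat_lit 4) (nat_lit 425) (nat_lit 281) (nat_lit 194))) (XT.nd (nat_lit 78) (nat_lit 0) (nat_lit 0) (XT.lf (nat_lit 0) (nat_lit 20497226328) (nat_lit 152) (nat_lit 21595525612) (nat_lit 0) (nat_lit 2133309278) (nat_lit 17) (nat_lit 5) (nat_lit 19) (nat_lit 4) (nat_lit 17) (nat_lit 4) (nat_lit 426) (nat_lit 281) (nat_lit 193)) (XT.lf (nat_lit 0) (nat_lit 27045384279) (nat_lit 152) (nat_lit 9672536678) (nat_lit 0) (nat_lit 8638607442) (nat_lit 17) (nat_lit 5) (nat_lit 19) (nat_lit 4) (nat_lit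 17) (nat_lit 4) (nat_lit 427) (nat_lit 281) (nat_lit 192)))))) (XT.nd (nat_lit 546) (nat_lit 228) (nat_lit 0) (XT.nd (nat_lit 234) (nat_lit 152) (nat_lit 0) (XT.nd (nat_lit 78) (nat_lit 0) (nat_lit 0) (XT.lf (nat_lit 0) (nat_lit 2612414151) (nat_lit 76) (nat_lit 31178429872) (nat_lit 76) (nat_lit 12730041591) (nat_lit 16) (nat_lit 4) (nat_lit 17) (nat_lit 5) (nat_lit 17) (nat_lit 4) (nat_lit 428) (nat_lit 281) (nat_lit 191)) (XT.nd (nat_lit 78) (nat_lit 0) (nat_lit 0) (XT.lf (nat_lit 0) (nat_lit 15417943540) (nat_lit 76) (nat_lit 25394404506) (nat_lit 76) (nat_lit 6905616764) (nat_lit 16) (nat_lit 4) (nat_lit 17) (nat_lit 5) (nat_lit 17) (nat_lit 4) (nat_lit 429) (nat_lit 281) (nat_lit 190)) (XT.lf (nat_lit 0) (nat_lit 28562738340) (nat_lit 76) (nat_lit 19458464511) (nat_lit 76) (nat_lit 930453992) (nat_lit 16) (nat_lit 4) (nat_lit 17) (nat_lit 5) (nat_lit 17) (nat_lit 4) (nat_lit 430) (nat_lit 281) (nat_lit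 189)))) (XT.nd (nat_lit 156) (nat_lit 0) (nat_lit 0) (XT.nd (nat_lit 78) (nat_lit 76) (nat_lit 0) (XT.lf (nat_lit 0) (nat_lit 5099183981) (nat_lit 152) (nat_lit 8214747402) (nat_lit 76) (nat_lit 36907608551) (nat_lit 15) (nat_lit 5) (nat_lit 17) (nat_lit 5) (nat_lit 16) (nat_lit 4) (nat_lit 431) (nat_lit 281) (nat_lit 188)) (XT.lf (nat_lit 0) (nat_lit 4357705098) (nat_lit 76) (nat_lit 6953017667) (nat_lit 152) (nat_lit 40217930488) (nat_lit 14) (nat_lit 5) (nat_lit 15) (nat_lit 5) (nat_lit 16) (nat_lit 4) (nat_lit 432) (nat_lit 281) (nat_lit 187))) (XT.nd (nat_lit 78) (nat_lit 0) (nat_lit 0) (XT.lf (nat_lit 0) (nat_lit 17433378876) (nat_lit 76) (nat_lit 336244468) (nat_lit 152) (nat_lit 35103527606) (nat_lit 14) (nat_lit 5) (nat_lit 15) (nat_lit 5) (nat_lit 16) (nat_lit 4) (nat_lit 433) (nat_lit 281) (nat_lit 186)) (XT.lf (nat_lit 0) (nat_lit 24463082624) (nat_lit 152) (nat_lit 23460504183) (nat_lit 0)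 (nat_lit 6333174427) (nat_lit 14) (nat_lit 5) (nat_lit 16) (nat_lit 4) (nat_lit 14) (nat_lit 4) (nat_lit 434) (nat_lit 281) (nat_lit 185))))) (XT.nd (nat_lit 234) (nat_lit 152) (nat_lit 0) (XT.nd (nat_lit 78) (nat_lit 76) (nat_lit 0) (XT.lf (nat_lit 0) (nat_lit 31339811986) (nat_lit 152) (nat_lit 11165539885) (nat_lit 0) (nat_lit 13177055331) (nat_lit 14) (nat_lit 5) (nat_lit 16) (nat_lit 4) (nat_lit 14) (nat_lit 4) (nat_lit 435) (nat_lit 281) (nat_lit 184)) (XT.nd (nat_lit 78) (nat_lit 0) (nat_lit 0) (XT.lf (nat_lit 0) (nat_lit 1488135052) (nat_lit 76) (nat_lit 36928757848) (nat_lit 76) (nat_lit 18734109485) (nat_lit 13) (nat_lit 4) (nat_lit 14) (nat_lit 5) (nat_lit 14) (nat_lit 4) (nat_lit 436) (nat_lit 281) (nat_lit 183)) (XT.lf (nat_lit 0) (nat_lit 14711509786) (nat_lit 76) (nat_lit 31087488376) (nat_lit 76) (nat_lit 12861877191) (nat_lit 13) (nat_lit 4) (nat_lit 14) (nat_lit 5) (nat_lit 14) (nat_lit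 4) (nat_lit 437) (nat_lit 281) (nat_lit 182)))) (XT.nd (nat_lit 156) (nat_lit 152) (nat_lit 0) (XT.nd (nat_lit 78) (nat_lit 0) (nat_lit 0) (XT.lf (nat_lit 0) (nat_lit 28293922583) (nat_lit 76) (nat_lit 25089189495) (nat_lit 76) (nat_lit 6833517317) (nat_lit 13) (nat_lit 4) (nat_lit 14) (nat_lit 5) (nat_lit 14) (nat_lit 4) (nat_lit 438) (nat_lit 281) (nat_lit 181)) (XT.lf (nat_lit 0) (nat_lit 42247241573) (nat_lit 76) (nat_lit 18928619971) (nat_lit 76) (nat_lit 643762363) (nat_lit 13) (nat_lit 4) (nat_lit 14) (nat_lit 5) (nat_lit 14) (nat_lit 4) (nat_lit 439) (nat_lit 281) (nat_lit 180))) (XT.nd (nat_lit 78) (nat_lit 76) (nat_lit 0) (XT.lf (nat_lit 0) (nat_lit 5601318962) (nat_lit 152) (nat_lit 6942515482) (nat_lit 76) (nat_lit 50925777673) (nat_lit 12) (nat_lit 5) (nat_lit 14) (nat_lit 5) (nat_lit 13) (nat_lit 4) (nat_lit 440) (nat_lit 281) (nat_lit 179)) (XT.lf (nat_lit 0) (nat_lit 6144957635) (nat_lit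 76) (nat_lit 5916944176) (nat_lit 152) (nat_lit 53105775414) (nat_lit 11) (nat_lit 5) (nat_lit 12) (nat_lit 5) (nat_lit 13) (nat_lit 4) (nat_lit 441) (nat_lit 281) (nat_lit 178))))))) (XT.nd (nat_lit 39000) (nat_lit 0) (nat_lit 7296) (XT.nd (nat_lit 468) (nat_lit 0) (nat_lit 0) (XT.nd (nat_lit 234) (nat_lit 76) (nat_lit 0) (XT.nd (nat_lit 78) (nat_lit 0) (nat_lit 0) (XT.lf (nat_lit 0) (nat_lit 18777888264) (nat_lit 152) (nat_lit 47191499939) (nat_lit 0) (nat_lit 945449578) (nat_lit 11) (nat_lit 5) (nat_lit 13) (nat_lit 4) (nat_lit 11) (nat_lit 4) (nat_lit 442) (nat_lit 281) (nat_lit 177)) (XT.nd (nat_lit 78) (nat_lit 0) (nat_lit 0) (XT.lf (nat_lit 0) (nat_lit 25736511429) (nat_lit 152) (nat_lit 35097770924) (nat_lit 0) (nat_lit 7878897134) (nat_lit 11) (nat_lit 5) (nat_lit 13) (nat_lit 4) (nat_lit 11) (nat_lit 4) (nat_lit 443) (nat_lit 281) (nat_lit 176)) (XT.lf (nat_lit 0) (nat_lit 32886974369) (nat_lit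 152) (nat_lit 22674087922) (nat_lit 0) (nat_lit 15004917736) (nat_lit 11) (nat_lit 5) (nat_lit 13) (nat_lit 4) (nat_lit 11) (nat_lit 4) (nat_lit 444) (nat_lit 281) (nat_lit 175)))) (XT.nd (nat_lit 78) (nat_lit 76) (nat_lit 0) (XT.lf (nat_lit 0) (nat_lit 40235525061) (nat_lit 152) (nat_lit 9909595289) (nat_lit 0) (nat_lit 22329738004) (nat_lit 11) (nat_lit 5) (nat_lit 13) (nat_lit 4) (nat_lit 11) (nat_lit 4) (nat_lit 445) (nat_lit 281) (nat_lit 174)) (XT.nd (nat_lit 78) (nat_lit 0) (nat_lit 0) (XT.lf (nat_lit 0) (nat_lit 3270683226) (nat_lit 76) (nat_lit 44549341152) (nat_lit 76) (nat_lit 26620514847) (nat_lit 10) (nat_lit 4) (nat_lit 11) (nat_lit 5) (nat_lit 11) (nat_lit 4) (nat_lit 446) (nat_lit 281) (nat_lit 173)) (XT.lf (nat_lit 0) (nat_lit 17018839023) (nat_lit 76) (nat_lit 38697509126) (nat_lit 76) (nat_lit 20746314619) (nat_lit 10) (nat_lit 4) (nat_lit 11) (nat_lit 5) (nat_lit 11) (nat_lit 4) (nat_lit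 447) (nat_lit 281) (nat_lit 172))))) (XT.nd (nat_lit 38220) (nat_lit 0) (nat_lit 11476) (XT.nd (nat_lit 78) (nat_lit 0) (nat_lit 0) (XT.lf (nat_lit 0) (nat_lit 31149664675) (nat_lit 76) (nat_lit 32684578503) (nat_lit 76) (nat_lit 14711667295) (nat_lit 10) (nat_lit 4) (nat_lit 11) (nat_lit 5) (nat_lit 11) (nat_lit 4) (nat_lit 448) (nat_lit 281) (nat_lit 171)) (XT.nd (nat_lit 38064) (nat_lit 0) (nat_lit 12920) (XT.lf (nat_lit 0) (nat_lit 45675507506) (nat_lit 76) (nat_lit 26505295266) (nat_lit 76) (nat_lit 8511299882) (nat_lit 10) (nat_lit 4) (nat_lit 11) (nat_lit 5) (nat_lit 11) (nat_lit 4) (nat_lit 449) (nat_lit 281) (nat_lit 170)) (XT.lf (nat_lit 0) (nat_lit 1611696638) (nat_lit 532) (nat_lit 1165565828) (nat_lit 532) (nat_lit 1165565828) (nat_lit 180) (nat_lit 4) (nat_lit 187) (nat_lit 5) (nat_lit 187) (nat_lit 4) (nat_lit 336) (nat_lit 282) (nat_lit 282)))) (XT.nd (nat_lit 156) (nat_lit 912) (nat_lit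 0) (XT.nd (nat_lit 78) (nat_lit 0) (nat_lit 0) (XT.lf (nat_lit 0) (nat_lit 1362299818) (nat_lit 532) (nat_lit 6491652292) (nat_lit 0) (nat_lit 116369847) (nat_lit 173) (nat_lit 5) (nat_lit 180) (nat_lit 4) (nat_lit 173) (nat_lit 4) (nat_lit 337) (nat_lit 282) (nat_lit 281)) (XT.lf (nat_lit 0) (nat_lit 5092334523) (nat_lit 532) (nat_lit 328607210) (nat_lit 0) (nat_lit 2636763804) (nat_lit 173) (nat_lit 5) (nat_lit 180) (nat_lit 4) (nat_lit 173) (nat_lit 4) (nat_lit 338) (nat_lit 282) (nat_lit 280))) (XT.nd (nat_lit 78) (nat_lit 380) (nat_lit 0) (XT.lf (nat_lit 0) (nat_lit 733495495) (nat_lit 532) (nat_lit 2140983355) (nat_lit 76) (nat_lit 5274183806) (nat_lit 166) (nat_lit 5) (nat_lit 173) (nat_lit 5) (nat_lit 167) (nat_lit 4) (nat_lit 339) (nat_lit 282) (nat_lit 279)) (XT.lf (nat_lit 0) (nat_lit 4229324966) (nat_lit 380) (nat_lit 203929516) (nat_lit 456) (nat_lit 3809773393) (nat_lit 161) (nat_lit 5) (nat_lit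 166) (nat_lit 5) (nat_lit 167) (nat_lit 4) (nat_lit 340) (nat_lit 282) (nat_lit 278)))))) (XT.nd (nat_lit 546) (nat_lit 2052) (nat_lit 0) (XT.nd (nat_lit 234) (nat_lit 1216) (nat_lit 0) (XT.nd (nat_lit 78) (nat_lit 456) (nat_lit 0) (XT.lf (nat_lit 0) (nat_lit 2393349946) (nat_lit 456) (nat_lit 5826814239) (nat_lit 456) (nat_lit 120819798) (nat_lit 155) (nat_lit 4) (nat_lit 161) (nat_lit 5) (nat_lit 161) (nat_lit 4) (nat_lit 341) (nat_lit 282) (nat_lit 277)) (XT.nd (nat_lit 78) (nat_lit 0) (nat_lit 0) (XT.lf (nat_lit 0) (nat_lit 481455213) (nat_lit 380) (nat_lit 3080562712) (nat_lit 456) (nat_lit 4880192005) (nat_lit 149) (nat_lit 5) (nat_lit 154) (nat_lit 5) (nat_lit 155) (nat_lit 4) (nat_lit 342) (nat_lit 282) (nat_lit 276)) (XT.lf (nat_lit 0) (nat_lit 7100952307) (nat_lit 380) (nat_lit 220943538) (nat_lit 456) (nat_lit 1225512303) (nat_lit 149) (nat_lit 5) (nat_lit 154) (nat_lit 5) (nat_lit 155) (nat_lit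 4) (nat_lit 343) (nat_lit 282) (nat_lit 275)))) (XT.nd (nat_lit 156) (nat_lit 456) (nat_lit 0) (XT.nd (nat_lit 78) (nat_lit 304) (nat_lit 0) (XT.lf (nat_lit 0) (nat_lit 2476730925) (nat_lit 456) (nat_lit 3463541934) (nat_lit 76) (nat_lit 2715171918) (nat_lit 143) (nat_lit 5) (nat_lit 149) (nat_lit 5) (nat_lit 144) (nat_lit 4) (nat_lit 344) (nat_lit 282) (nat_lit 274)) (XT.lf (nat_lit 0) (nat_lit 3218551097) (nat_lit 304) (nat_lit 3006545316) (nat_lit 380) (nat_lit 2542508896) (nat_lit 139) (nat_lit 5) (nat_lit 143) (nat_lit 5) (nat_lit 144) (nat_lit 4) (nat_lit 345) (nat_lit 282) (nat_lit 273))) (XT.nd (nat_lit 78) (nat_lit 0) (nat_lit 0) (XT.lf (nat_lit 0) (nat_lit 1138654005) (nat_lit 456) (nat_lit 7706475031) (nat_lit 76) (nat_lit 38909756) (nat_lit 133) (nat_lit 5) (nat_lit 139) (nat_lit 5) (nat_lit 134) (nat_lit 4) (nat_lit 346) (nat_lit 282) (nat_lit 272)) (XT.lf (nat_lit 0) (nat_lit 4878862629) (nat_lit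 456) (nat_lit 962269207) (nat_lit 76) (nat_lit 3162121098) (nat_lit 133) (nat_lit 5) (nat_lit 139) (nat_lit 5) (nat_lit 134) (nat_lit 4) (nat_lit 347) (nat_lit 282) (nat_lit 271))))) (XT.nd (nat_lit 234) (nat_lit 1064) (nat_lit 0) (XT.nd (nat_lit 78) (nat_lit 684) (nat_lit 0) (XT.lf (nat_lit 0) (nat_lit 5980359713) (nat_lit 304) (nat_lit 2724283906) (nat_lit 380) (nat_lit 422232141) (nat_lit 129) (nat_lit 5) (nat_lit 133) (nat_lit 5) (nat_lit 134) (nat_lit 4) (nat_lit 348) (nat_lit 282) (nat_lit 270)) (XT.nd (nat_lit 78) (nat_lit 304) (nat_lit 0) (XT.lf (nat_lit 0) (nat_lit 3292757774) (nat_lit 380) (nat_lit 5441703534) (nat_lit 76) (nat_lit 519761281) (nat_lit 124) (nat_lit 5) (nat_lit 129) (nat_lit 5) (nat_lit 125) (nat_lit 4) (nat_lit 349) (nat_lit 282) (nat_lit 269)) (XT.lf (nat_lit 0) (nat_lit 1536840858) (nat_lit 304) (nat_lit 5564957564) (nat_lit 380) (nat_lit 2283763782) (nat_lit 120) (nat_lit 5)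 (nat_lit 124) (nat_lit 5) (nat_lit 125) (nat_lit 4) (nat_lit 350) (nat_lit 282) (nat_lit 268)))) (XT.nd (nat_lit 156) (nat_lit 684) (nat_lit 0) (XT.nd (nat_lit 78) (nat_lit 304) (nat_lit 0) (XT.lf (nat_lit 0) (nat_lit 1448074604) (nat_lit 380) (nat_lit 820446188) (nat_lit 76) (nat_lit 7252721290) (nat_lit 119) (nat_lit 5) (nat_lit 124) (nat_lit 5) (nat_lit 120) (nat_lit 5) (nat_lit 351) (nat_lit 282) (nat_lit 267)) (XT.lf (nat_lit 0) (nat_lit 5238859949) (nat_lit 380) (nat_lit 3270161814) (nat_lit 76) (nat_lit 1151533289) (nat_lit 115) (nat_lit 5) (nat_lit 120) (nat_lit 5) (nat_lit 116) (nat_lit 4) (nat_lit 352) (nat_lit 282) (nat_lit 266))) (XT.nd (nat_lit 78) (nat_lit 380) (nat_lit 0) (XT.lf (nat_lit 0) (nat_lit 3965599733) (nat_lit 304) (nat_lit 5167600266) (nat_lit 380) (nat_lit 671179508) (nat_lit 111) (nat_lit 5) (nat_lit 115) (nat_lit 5) (nat_lit 116) (nat_lit 4) (nat_lit 353) (nat_lit 282) (nat_lit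 265)) (XT.lf (nat_lit 0) (nat_lit 1410214431) (nat_lit 304) (nat_lit 1687507816) (nat_lit 380) (nat_lit 6854856807) (nat_lit 106) (nat_lit 5) (nat_lit 110) (nat_lit 5) (nat_lit 111) (nat_lit 5) (nat_lit 354) (nat_lit 282) (nat_lit 264))))))))
noncomputable def xc61 : XT := (XT.nd (nat_lit 2106) (nat_lit 1900) (nat_lit 0) (XT.nd (nat_lit 1014) (nat_lit 1900) (nat_lit 0) (XT.nd (nat_lit 468) (nat_lit 1140) (nat_lit 0) (XT.nd (nat_lit 234) (nat_lit 532) (nat_lit 0) (XT.nd (nat_lit 78) (nat_lit 608) (nat_lit 0) (XT.lf (nat_lit 0) (nat_lit 6965980923) (nat_lit 380) (nat_lit 1253563783) (nat_lit 76) (nat_lit 1885511857) (nat_lit 106) (nat_lit 5) (nat_lit 111) (nat_lit 5) (nat_lit 107) (nat_lit 4) (nat_lit 355) (nat_lit 282) (nat_lit 263)) (XT.nd (nat_lit 78) (nat_lit 304) (nat_lit 0) (XT.lf (nat_lit 0) (nat_lit 675714097) (nat_lit 304) (nat_lit 4027227499) (nat_lit 76) (nat_lit 5558962741) (nat_lit 102) (nat_lit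 5) (nat_lit 106) (nat_lit 5) (nat_lit 103) (nat_lit 5) (nat_lit 356) (nat_lit 282) (nat_lit 262)) (XT.lf (nat_lit 0) (nat_lit 3468808935) (nat_lit 304) (nat_lit 1043772692) (nat_lit 380) (nat_lit 5910844361) (nat_lit 98) (nat_lit 5) (nat_lit 102) (nat_lit 5) (nat_lit 103) (nat_lit 5) (nat_lit 357) (nat_lit 282) (nat_lit 261)))) (XT.nd (nat_lit 78) (nat_lit 304) (nat_lit 0) (XT.lf (nat_lit 0) (nat_lit 549279733) (nat_lit 228) (nat_lit 7913086459) (nat_lit 304) (nat_lit 2127514742) (nat_lit 95) (nat_lit 5) (nat_lit 98) (nat_lit 5) (nat_lit 99) (nat_lit 4) (nat_lit 358) (nat_lit 282) (nat_lit 260)) (XT.nd (nat_lit 78) (nat_lit 228) (nat_lit 0) (XT.lf (nat_lit 0) (nat_lit 1741609878) (nat_lit 304) (nat_lit 2485291240) (nat_lit 76) (nat_lit 6533734269) (nat_lit 94) (nat_lit 5) (nat_lit 98) (nat_lit 5) (nat_lit 95) (nat_lit 5) (nat_lit 359) (nat_lit 282) (nat_lit 259)) (XT.lf (nat_lit 0) (nat_lit 5262886771)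 (nat_lit 228) (nat_lit 399481789) (nat_lit 304) (nat_lit 5274182451) (nat_lit 91) (nat_lit 5) (nat_lit 94) (nat_lit 5) (nat_lit 95) (nat_lit 5) (nat_lit 360) (nat_lit 282) (nat_lit 258))))) (XT.nd (nat_lit 234) (nat_lit 608) (nat_lit 0) (XT.nd (nat_lit 78) (nat_lit 304) (nat_lit 0) (XT.lf (nat_lit 0) (nat_lit 2067468268) (nat_lit 228) (nat_lit 7640879537) (nat_lit 304) (nat_lit 1409187890) (nat_lit 88) (nat_lit 5) (nat_lit 91) (nat_lit 5) (nat_lit 92) (nat_lit 4) (nat_lit 361) (nat_lit 282) (nat_lit 257)) (XT.nd (nat_lit 78) (nat_lit 228) (nat_lit 0) (XT.lf (nat_lit 0) (nat_lit 2511976141) (nat_lit 304) (nat_lit 1290674440) (nat_lit 76) (nat_lit 7500863989) (nat_lit 87) (nat_lit 5) (nat_lit 91) (nat_lit 5) (nat_lit 88) (nat_lit 5) (nat_lit 362) (nat_lit 282) (nat_lit 256)) (XT.lf (nat_lit 0) (nat_lit 6519382965) (nat_lit 304) (nat_lit 4791179172) (nat_lit 76) (nat_lit 184202037) (nat_lit 84) (nat_lit 5)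 (nat_lit 88) (nat_lit 5) (nat_lit 85) (nat_lit 4) (nat_lit 363) (nat_lit 282) (nat_lit 255)))) (XT.nd (nat_lit 156) (nat_lit 380) (nat_lit 0) (XT.nd (nat_lit 78) (nat_lit 76) (nat_lit 0) (XT.lf (nat_lit 0) (nat_lit 3183620192) (nat_lit 152) (nat_lit 7476001986) (nat_lit 228) (nat_lit 1031768131) (nat_lit 82) (nat_lit 5) (nat_lit 84) (nat_lit 5) (nat_lit 85) (nat_lit 4) (nat_lit 364) (nat_lit 282) (nat_lit 254)) (XT.lf (nat_lit 0) (nat_lit 2951314771) (nat_lit 228) (nat_lit 539954996) (nat_lit 76) (nat_lit 8402379263) (nat_lit 81) (nat_lit 5) (nat_lit 84) (nat_lit 5) (nat_lit 82) (nat_lit 5) (nat_lit 365) (nat_lit 282) (nat_lit 253))) (XT.nd (nat_lit 78) (nat_lit 152) (nat_lit 0) (XT.lf (nat_lit 0) (nat_lit 7046867021) (nat_lit 304) (nat_lit 4411352298) (nat_lit 76) (nat_lit 643054173) (nat_lit 78) (nat_lit 5) (nat_lit 82) (nat_lit 5) (nat_lit 79) (nat_lit 4) (nat_lit 366) (nat_lit 282) (nat_lit 252)) (XT.lf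 (nat_lit 0) (nat_lit 3791226290) (nat_lit 152) (nat_lit 7484471738) (nat_lit 228) (nat_lit 1039131708) (nat_lit 76) (nat_lit 5) (nat_lit 78) (nat_lit 5) (nat_lit 79) (nat_lit 4) (nat_lit 367) (nat_lit 282) (nat_lit 251)))))) (XT.nd (nat_lit 546) (nat_lit 912) (nat_lit 0) (XT.nd (nat_lit 234) (nat_lit 532) (nat_lit 0) (XT.nd (nat_lit 78) (nat_lit 380) (nat_lit 0) (XT.lf (nat_lit 0) (nat_lit 3015266538) (nat_lit 228) (nat_lit 344523828) (nat_lit 76) (nat_lit 9174751103) (nat_lit 75) (nat_lit 5) (nat_lit 78) (nat_lit 5) (nat_lit 76) (nat_lit 5) (nat_lit 368) (nat_lit 282) (nat_lit 250)) (XT.nd (nat_lit 78) (nat_lit 152) (nat_lit 0) (XT.lf (nat_lit 0) (nat_lit 7193484726) (nat_lit 304) (nat_lit 4648961258) (nat_lit 76) (nat_lit 917411819) (nat_lit 72) (nat_lit 5) (nat_lit 76) (nat_lit 5) (nat_lit 73) (nat_lit 4) (nat_lit 369) (nat_lit 282) (nat_lit 249)) (XT.lf (nat_lit 0) (nat_lit 3767059813) (nat_lit 152)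 (nat_lit 7739418626) (nat_lit 228) (nat_lit 1485186012) (nat_lit 70) (nat_lit 5) (nat_lit 72) (nat_lit 5) (nat_lit 73) (nat_lit 4) (nat_lit 370) (nat_lit 282) (nat_lit 248)))) (XT.nd (nat_lit 156) (nat_lit 228) (nat_lit 0) (XT.nd (nat_lit 78) (nat_lit 228) (nat_lit 0) (XT.lf (nat_lit 0) (nat_lit 2649424982) (nat_lit 228) (nat_lit 833326256) (nat_lit 76) (nat_lit 9747381988) (nat_lit 69) (nat_lit 5) (nat_lit 72) (nat_lit 5) (nat_lit 70) (nat_lit 5) (nat_lit 371) (nat_lit 282) (nat_lit 247)) (XT.lf (nat_lit 0) (nat_lit 6901219089) (nat_lit 304) (nat_lit 5641437057) (nat_lit 76) (nat_lit 931981440) (nat_lit 66) (nat_lit 5) (nat_lit 70) (nat_lit 5) (nat_lit 67) (nat_lit 4) (nat_lit 372) (nat_lit 282) (nat_lit 246))) (XT.nd (nat_lit 78) (nat_lit 76) (nat_lit 0) (XT.lf (nat_lit 0) (nat_lit 2968140953) (nat_lit 152) (nat_lit 8322778416) (nat_lit 228) (nat_lit 2435259303) (nat_lit 64) (nat_lit 5) (nat_lit 66) (nat_lit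 5) (nat_lit 67) (nat_lit 4) (nat_lit 373) (nat_lit 282) (nat_lit 245)) (XT.lf (nat_lit 0) (nat_lit 1787928657) (nat_lit 228) (nat_lit 2156014676) (nat_lit 76) (nat_lit 10040911161) (nat_lit 63) (nat_lit 5) (nat_lit 66) (nat_lit 5) (nat_lit 64) (nat_lit 5) (nat_lit 374) (nat_lit 282) (nat_lit 244))))) (XT.nd (nat_lit 234) (nat_lit 532) (nat_lit 0) (XT.nd (nat_lit 78) (nat_lit 228) (nat_lit 0) (XT.lf (nat_lit 0) (nat_lit 6100028779) (nat_lit 228) (nat_lit 7548361407) (nat_lit 76) (nat_lit 601853311) (nat_lit 61) (nat_lit 5) (nat_lit 64) (nat_lit 5) (nat_lit 62) (nat_lit 4) (nat_lit 375) (nat_lit 282) (nat_lit 243)) (XT.nd (nat_lit 78) (nat_lit 76) (nat_lit 0) (XT.lf (nat_lit 0) (nat_lit 1228240476) (nat_lit 152) (nat_lit 9327203463) (nat_lit 228) (nat_lit 3967742481) (nat_lit 59) (nat_lit 5) (nat_lit 61) (nat_lit 5) (nat_lit 62) (nat_lit 4) (nat_lit 376) (nat_lit 282) (nat_lit 242)) (XT.lf (nat_lit 0) (nat_lit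 351799605) (nat_lit 228) (nat_lit 4486581992) (nat_lit 76) (nat_lit 9965301088) (nat_lit 58) (nat_lit 5) (nat_lit 61) (nat_lit 5) (nat_lit 59) (nat_lit 5) (nat_lit 377) (nat_lit 282) (nat_lit 241)))) (XT.nd (nat_lit 156) (nat_lit 380) (nat_lit 0) (XT.nd (nat_lit 78) (nat_lit 0) (nat_lit 0) (XT.lf (nat_lit 0) (nat_lit 4534850678) (nat_lit 152) (nat_lit 172888278) (nat_lit 228) (nat_lit 10384089476) (nat_lit 56) (nat_lit 5) (nat_lit 58) (nat_lit 5) (nat_lit 59) (nat_lit 5) (nat_lit 378) (nat_lit 282) (nat_lit 240)) (XT.lf (nat_lit 0) (nat_lit 9227900309) (nat_lit 228) (nat_lit 1614032217) (nat_lit 76) (nat_lit 4545689317) (nat_lit 56) (nat_lit 5) (nat_lit 59) (nat_lit 5) (nat_lit 57) (nat_lit 4) (nat_lit 379) (nat_lit 282) (nat_lit 239))) (XT.nd (nat_lit 78) (nat_lit 228) (nat_lit 0) (XT.lf (nat_lit 0) (nat_lit 7646952189) (nat_lit 152) (nat_lit 6256844397) (nat_lit 228) (nat_lit 1787897893) (nat_lit 54)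 (nat_lit 5) (nat_lit 56) (nat_lit 5) (nat_lit 57) (nat_lit 4) (nat_lit 380) (nat_lit 282) (nat_lit 238)) (XT.lf (nat_lit 0) (nat_lit 1111988832) (nat_lit 152) (nat_lit 1522297215) (nat_lit 228) (nat_lit 13370663468) (nat_lit 51) (nat_lit 5) (nat_lit 53) (nat_lit 5) (nat_lit 54) (nat_lit 5) (nat_lit 381) (nat_lit 282) (nat_lit 237))))))) (XT.nd (nat_lit 1014) (nat_lit 836) (nat_lit 0) (XT.nd (nat_lit 468) (nat_lit 608) (nat_lit 0) (XT.nd (nat_lit 234) (nat_lit 304) (nat_lit 0) (XT.nd (nat_lit 78) (nat_lit 152) (nat_lit 0) (XT.lf (nat_lit 0) (nat_lit 7212780987) (nat_lit 228) (nat_lit 5765752746) (nat_lit 76) (nat_lit 3346758531) (nat_lit 51) (nat_lit 5) (nat_lit 54) (nat_lit 5) (nat_lit 52) (nat_lit 4) (nat_lit 382) (nat_lit 282) (nat_lit 236)) (XT.nd (nat_lit 78) (nat_lit 0) (nat_lit 0) (XT.lf (nat_lit 0) (nat_lit 3595041569) (nat_lit 152) (nat_lit 8330109062) (nat_lit 228) (nat_lit 4730207356) (nat_lit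 49) (nat_lit 5) (nat_lit 51) (nat_lit 5) (nat_lit 52) (nat_lit 4) (nat_lit 383) (nat_lit 282) (nat_lit 235)) (XT.lf (nat_lit 0) (nat_lit 13260476582) (nat_lit 152) (nat_lit 3524167151) (nat_lit 228) (nat_lit 210517421) (nat_lit 49) (nat_lit 5) (nat_lit 51) (nat_lit 5) (nat_lit 52) (nat_lit 4) (nat_lit 384) (nat_lit 282) (nat_lit 234)))) (XT.nd (nat_lit 78) (nat_lit 76) (nat_lit 0) (XT.lf (nat_lit 0) (nat_lit 4377095221) (nat_lit 228) (nat_lit 11508555222) (nat_lit 76) (nat_lit 1457661821) (nat_lit 46) (nat_lit 5) (nat_lit 49) (nat_lit 5) (nat_lit 47) (nat_lit 4) (nat_lit 385) (nat_lit 282) (nat_lit 233)) (XT.nd (nat_lit 78) (nat_lit 76) (nat_lit 0) (XT.lf (nat_lit 0) (nat_lit 9119853418) (nat_lit 228) (nat_lit 2063176742) (nat_lit 76) (nat_lit 6518170127) (nat_lit 46) (nat_lit 5) (nat_lit 49) (nat_lit 5) (nat_lit 47) (nat_lit 4) (nat_lit 386) (nat_lit 282) (nat_lit 232)) (XT.lf (nat_lit 0) (nat_lit 7726144472)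 (nat_lit 76) (nat_lit 6303279711) (nat_lit 152) (nat_lit 4039672022) (nat_lit 45) (nat_lit 5) (nat_lit 46) (nat_lit 5) (nat_lit 47) (nat_lit 4) (nat_lit 387) (nat_lit 282) (nat_lit 231))))) (XT.nd (nat_lit 234) (nat_lit 304) (nat_lit 0) (XT.nd (nat_lit 78) (nat_lit 228) (nat_lit 0) (XT.lf (nat_lit 0) (nat_lit 597197043) (nat_lit 152) (nat_lit 692601190) (nat_lit 76) (nat_lit 17158911488) (nat_lit 44) (nat_lit 5) (nat_lit 46) (nat_lit 5) (nat_lit 45) (nat_lit 5) (nat_lit 388) (nat_lit 282) (nat_lit 230)) (XT.nd (nat_lit 78) (nat_lit 76) (nat_lit 0) (XT.lf (nat_lit 0) (nat_lit 5371332693) (nat_lit 228) (nat_lit 9574326999) (nat_lit 76) (nat_lit 3890477971) (nat_lit 42) (nat_lit 5) (nat_lit 45) (nat_lit 5) (nat_lit 43) (nat_lit 4) (nat_lit 389) (nat_lit 282) (nat_lit 229)) (XT.lf (nat_lit 0) (nat_lit 197219590) (nat_lit 76) (nat_lit 10065198943) (nat_lit 152) (nat_lit 8973564477) (nat_lit 41) (nat_lit 5) (nat_lit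 42) (nat_lit 5) (nat_lit 43) (nat_lit 4) (nat_lit 390) (nat_lit 282) (nat_lit 228)))) (XT.nd (nat_lit 156) (nat_lit 76) (nat_lit 0) (XT.nd (nat_lit 78) (nat_lit 228) (nat_lit 0) (XT.lf (nat_lit 0) (nat_lit 10371175056) (nat_lit 76) (nat_lit 4978302540) (nat_lit 152) (nat_lit 4296875066) (nat_lit 41) (nat_lit 5) (nat_lit 42) (nat_lit 5) (nat_lit 43) (nat_lit 4) (nat_lit 391) (nat_lit 282) (nat_lit 227)) (XT.lf (nat_lit 0) (nat_lit 472471671) (nat_lit 228) (nat_lit 19367668095) (nat_lit 76) (nat_lit 229874280) (nat_lit 38) (nat_lit 5) (nat_lit 41) (nat_lit 5) (nat_lit 39) (nat_lit 4) (nat_lit 392) (nat_lit 282) (nat_lit 226))) (XT.nd (nat_lit 78) (nat_lit 76) (nat_lit 0) (XT.lf (nat_lit 0) (nat_lit 5396064291) (nat_lit 228) (nat_lit 9512585324) (nat_lit 76) (nat_lit 5593539148) (nat_lit 38) (nat_lit 5) (nat_lit 41) (nat_lit 5) (nat_lit 39) (nat_lit 4) (nat_lit 393) (nat_lit 282) (nat_lit 225)) (XT.lf (nat_lit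 0) (nat_lit 566112979) (nat_lit 76) (nat_lit 9861693385) (nat_lit 152) (nat_lit 10520714584) (nat_lit 37) (nat_lit 5) (nat_lit 38) (nat_lit 5) (nat_lit 39) (nat_lit 4) (nat_lit 394) (nat_lit 282) (nat_lit 224)))))) (XT.nd (nat_lit 546) (nat_lit 304) (nat_lit 0) (XT.nd (nat_lit 234) (nat_lit 304) (nat_lit 0) (XT.nd (nat_lit 78) (nat_lit 228) (nat_lit 0) (XT.lf (nat_lit 0) (nat_lit 11059901599) (nat_lit 76) (nat_lit 4602177271) (nat_lit 152) (nat_lit 5744622202) (nat_lit 37) (nat_lit 5) (nat_lit 38) (nat_lit 5) (nat_lit 39) (nat_lit 4) (nat_lit 395) (nat_lit 282) (nat_lit 223)) (XT.nd (nat_lit 78) (nat_lit 228) (nat_lit 0) (XT.lf (nat_lit 0) (nat_lit 21017677608) (nat_lit 152) (nat_lit 98779344) (nat_lit 0) (nat_lit 763245870) (nat_lit 37) (nat_lit 5) (nat_lit 39) (nat_lit 4) (nat_lit 37) (nat_lit 4) (nat_lit 396) (nat_lit 282) (nat_lit 222)) (XT.lf (nat_lit 0) (nat_lit 4191363482) (nat_lit 228) (nat_lit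 11866565416) (nat_lit 76) (nat_lit 6304600067) (nat_lit 34) (nat_lit 5) (nat_lit 37) (nat_lit 5) (nat_lit 35) (nat_lit 4) (nat_lit 397) (nat_lit 282) (nat_lit 221)))) (XT.nd (nat_lit 156) (nat_lit 228) (nat_lit 0) (XT.nd (nat_lit 78) (nat_lit 76) (nat_lit 0) (XT.lf (nat_lit 0) (nat_lit 9337831784) (nat_lit 228) (nat_lit 1536323644) (nat_lit 76) (nat_lit 11986669028) (nat_lit 34) (nat_lit 5) (nat_lit 37) (nat_lit 5) (nat_lit 35) (nat_lit 4) (nat_lit 398) (nat_lit 282) (nat_lit 220)) (XT.lf (nat_lit 0) (nat_lit 9207236874) (nat_lit 76) (nat_lit 5478988528) (nat_lit 152) (nat_lit 8686422061) (nat_lit 33) (nat_lit 5) (nat_lit 34) (nat_lit 5) (nat_lit 35) (nat_lit 4) (nat_lit 399) (nat_lit 282) (nat_lit 219))) (XT.nd (nat_lit 78) (nat_lit 228) (nat_lit 0) (XT.lf (nat_lit 0) (nat_lit 20170645224) (nat_lit 152) (nat_lit 3672056587) (nat_lit 0) (nat_lit 57860570) (nat_lit 33) (nat_lit 5) (nat_lit 35) (nat_lit 4)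 (nat_lit 33) (nat_lit 4) (nat_lit 400) (nat_lit 282) (nat_lit 218)) (XT.lf (nat_lit 0) (nat_lit 1432563294) (nat_lit 228) (nat_lit 17308713119) (nat_lit 76) (nat_lit 5700122415) (nat_lit 30) (nat_lit 5) (nat_lit 33) (nat_lit 5) (nat_lit 31) (nat_lit 4) (nat_lit 401) (nat_lit 282) (nat_lit 217))))) (XT.nd (nat_lit 234) (nat_lit 228) (nat_lit 0) (XT.nd (nat_lit 78) (nat_lit 76) (nat_lit 0) (XT.lf (nat_lit 0) (nat_lit 6672801406) (nat_lit 228) (nat_lit 6772031650) (nat_lit 76) (nat_lit 11552587968) (nat_lit 30) (nat_lit 5) (nat_lit 33) (nat_lit 5) (nat_lit 31) (nat_lit 4) (nat_lit 402) (nat_lit 282) (nat_lit 216)) (XT.nd (nat_lit 78) (nat_lit 0) (nat_lit 0) (XT.lf (nat_lit 0) (nat_lit 4088462420) (nat_lit 76) (nat_lit 7982641530) (nat_lit 152) (nat_lit 13498998173) (nat_lit 29) (nat_lit 5) (nat_lit 30) (nat_lit 5) (nat_lit 31) (nat_lit 4) (nat_lit 403) (nat_lit 282) (nat_lit 215)) (XT.lf (nat_lit 0) (nat_lit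 15342229405) (nat_lit 76) (nat_lit 2319500634) (nat_lit 152) (nat_lit 8497326224) (nat_lit 29) (nat_lit 5) (nat_lit 30) (nat_lit 5) (nat_lit 31) (nat_lit 4) (nat_lit 404) (nat_lit 282) (nat_lit 214)))) (XT.nd (nat_lit 156) (nat_lit 76) (nat_lit 0) (XT.nd (nat_lit 78) (nat_lit 76) (nat_lit 0) (XT.lf (nat_lit 0) (nat_lit 65348347) (nat_lit 76) (nat_lit 23351915019) (nat_lit 76) (nat_lit 3348503738) (nat_lit 28) (nat_lit 4) (nat_lit 29) (nat_lit 5) (nat_lit 29) (nat_lit 4) (nat_lit 405) (nat_lit 282) (nat_lit 213)) (XT.lf (nat_lit 0) (nat_lit 2012749115) (nat_lit 152) (nat_lit 16004655700) (nat_lit 76) (nat_lit 9369830937) (nat_lit 27) (nat_lit 5) (nat_lit 29) (nat_lit 5) (nat_lit 28) (nat_lit 4) (nat_lit 406) (nat_lit 282) (nat_lit 212))) (XT.nd (nat_lit 78) (nat_lit 76) (nat_lit 0) (XT.lf (nat_lit 0) (nat_lit 7431455413) (nat_lit 152) (nat_lit 5089269414) (nat_lit 76) (nat_lit 15506714917) (nat_lit 27) (nat_lit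 5) (nat_lit 29) (nat_lit 5) (nat_lit 28) (nat_lit 4) (nat_lit 407) (nat_lit 282) (nat_lit 211)) (XT.lf (nat_lit 0) (nat_lit 6208618184) (nat_lit 76) (nat_lit 6828754167) (nat_lit 152) (nat_lit 15648741335) (nat_lit 26) (nat_lit 5) (nat_lit 27) (nat_lit 5) (nat_lit 28) (nat_lit 4) (nat_lit 408) (nat_lit 282) (nat_lit 210))))))))
noncomputable def xc62 : XT := (XT.nd (nat_lit 2106) (nat_lit 304) (nat_lit 0) (XT.nd (nat_lit 1014) (nat_lit 456) (nat_lit 0) (XT.nd (nat_lit 468) (nat_lit 228) (nat_lit 0) (XT.nd (nat_lit 234) (nat_lit 76) (nat_lit 0) (XT.nd (nat_lit 78) (nat_lit 152) (nat_lit 0) (XT.lf (nat_lit 0) (nat_lit 17884302830) (nat_lit 76) (nat_lit 943915076) (nat_lit 152) (nat_lit 10535830625) (nat_lit 26) (nat_lit 5) (nat_lit 27) (nat_lit 5) (nat_lit 28) (nat_lit 4) (nat_lit 409) (nat_lit 282) (nat_lit 209)) (XT.nd (nat_lit 78) (nat_lit 152) (nat_lit 0) (XT.lf (nat_lit 0) (nat_lit 24808061816) (nat_lit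 152) (nat_lit 265537930) (nat_lit 0) (nat_lit 4988266608) (nat_lit 26) (nat_lit 5) (nat_lit 28) (nat_lit 4) (nat_lit 26) (nat_lit 4) (nat_lit 410) (nat_lit 282) (nat_lit 208)) (XT.lf (nat_lit 0) (nat_lit 270240539) (nat_lit 152) (nat_lit 19344172832) (nat_lit 76) (nat_lit 11163538421) (nat_lit 24) (nat_lit 5) (nat_lit 26) (nat_lit 5) (nat_lit 25) (nat_lit 4) (nat_lit 411) (nat_lit 282) (nat_lit 207)))) (XT.nd (nat_lit 78) (nat_lit 76) (nat_lit 0) (XT.lf (nat_lit 0) (nat_lit 5824227145) (nat_lit 152) (nat_lit 8140420721) (nat_lit 76) (nat_lit 17550219755) (nat_lit 24) (nat_lit 5) (nat_lit 26) (nat_lit 5) (nat_lit 25) (nat_lit 4) (nat_lit 412) (nat_lit 282) (nat_lit 206)) (XT.nd (nat_lit 78) (nat_lit 0) (nat_lit 0) (XT.lf (nat_lit 0) (nat_lit 3405256280) (nat_lit 76) (nat_lit 8140376963) (nat_lit 152) (nat_lit 20728236461) (nat_lit 23) (nat_lit 5) (nat_lit 24) (nat_lit 5) (nat_lit 25) (nat_lit 4) (nat_lit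 413) (nat_lit 282) (nat_lit 205)) (XT.lf (nat_lit 0) (nat_lit 15404132224) (nat_lit 76) (nat_lit 2085171017) (nat_lit 152) (nat_lit 15564822651) (nat_lit 23) (nat_lit 5) (nat_lit 24) (nat_lit 5) (nat_lit 25) (nat_lit 4) (nat_lit 414) (nat_lit 282) (nat_lit 204))))) (XT.nd (nat_lit 234) (nat_lit 76) (nat_lit 0) (XT.nd (nat_lit 78) (nat_lit 152) (nat_lit 0) (XT.lf (nat_lit 0) (nat_lit 23620265567) (nat_lit 152) (nat_lit 6193673949) (nat_lit 0) (nat_lit 4043583400) (nat_lit 23) (nat_lit 5) (nat_lit 25) (nat_lit 4) (nat_lit 23) (nat_lit 4) (nat_lit 415) (nat_lit 282) (nat_lit 203)) (XT.nd (nat_lit 78) (nat_lit 76) (nat_lit 0) (XT.lf (nat_lit 0) (nat_lit 5638484196) (nat_lit 76) (nat_lit 24341492782) (nat_lit 76) (nat_lit 4703702806) (nat_lit 22) (nat_lit 4) (nat_lit 23) (nat_lit 5) (nat_lit 23) (nat_lit 4) (nat_lit 416) (nat_lit 282) (nat_lit 202)) (XT.lf (nat_lit 0) (nat_lit 1009596529) (nat_lit 152) (nat_lit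 17647636990) (nat_lit 76) (nat_lit 16876107921) (nat_lit 21) (nat_lit 5) (nat_lit 23) (nat_lit 5) (nat_lit 22) (nat_lit 4) (nat_lit 417) (nat_lit 282) (nat_lit 201)))) (XT.nd (nat_lit 156) (nat_lit 0) (nat_lit 0) (XT.nd (nat_lit 78) (nat_lit 76) (nat_lit 0) (XT.lf (nat_lit 0) (nat_lit 6770636368) (nat_lit 152) (nat_lit 6010326087) (nat_lit 76) (nat_lit 23627009236) (nat_lit 21) (nat_lit 5) (nat_lit 23) (nat_lit 5) (nat_lit 22) (nat_lit 4) (nat_lit 418) (nat_lit 282) (nat_lit 200)) (XT.lf (nat_lit 0) (nat_lit 6039982321) (nat_lit 76) (nat_lit 6694314496) (nat_lit 152) (nat_lit 24573652608) (nat_lit 20) (nat_lit 5) (nat_lit 21) (nat_lit 5) (nat_lit 22) (nat_lit 4) (nat_lit 419) (nat_lit 282) (nat_lit 199))) (XT.nd (nat_lit 78) (nat_lit 0) (nat_lit 0) (XT.lf (nat_lit 0) (nat_lit 18521551395) (nat_lit 76) (nat_lit 388047180) (nat_lit 152) (nat_lit 19324348161) (nat_lit 20) (nat_lit 5) (nat_lit 21) (nat_lit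 5) (nat_lit 22) (nat_lit 4) (nat_lit 420) (nat_lit 282) (nat_lit 198)) (XT.lf (nat_lit 0) (nat_lit 25301482999) (nat_lit 152) (nat_lit 7921340630) (nat_lit 0) (nat_lit 5963962758) (nat_lit 20) (nat_lit 5) (nat_lit 22) (nat_lit 4) (nat_lit 20) (nat_lit 4) (nat_lit 421) (nat_lit 282) (nat_lit 197)))))) (XT.nd (nat_lit 546) (nat_lit 228) (nat_lit 0) (XT.nd (nat_lit 234) (nat_lit 76) (nat_lit 0) (XT.nd (nat_lit 78) (nat_lit 76) (nat_lit 0) (XT.lf (nat_lit 0) (nat_lit 4251620467) (nat_lit 76) (nat_lit 27651627788) (nat_lit 76) (nat_lit 8264421306) (nat_lit 19) (nat_lit 4) (nat_lit 20) (nat_lit 5) (nat_lit 20) (nat_lit 4) (nat_lit 422) (nat_lit 282) (nat_lit 196)) (XT.nd (nat_lit 78) (nat_lit 76) (nat_lit 0) (XT.lf (nat_lit 0) (nat_lit 16901701970) (nat_lit 76) (nat_lit 21855057021) (nat_lit 76) (nat_lit 2419611471) (nat_lit 19) (nat_lit 4) (nat_lit 20) (nat_lit 5) (nat_lit 20) (nat_lit 4) (nat_lit 423) (nat_lit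 282) (nat_lit 195)) (XT.lf (nat_lit 0) (nat_lit 3504496866) (nat_lit 152) (nat_lit 12368150959) (nat_lit 76) (nat_lit 26342421723) (nat_lit 18) (nat_lit 5) (nat_lit 20) (nat_lit 5) (nat_lit 19) (nat_lit 4) (nat_lit 424) (nat_lit 282) (nat_lit 194)))) (XT.nd (nat_lit 156) (nat_lit 0) (nat_lit 0) (XT.nd (nat_lit 78) (nat_lit 76) (nat_lit 0) (XT.lf (nat_lit 0) (nat_lit 9532661476) (nat_lit 152) (nat_lit 176446748) (nat_lit 76) (nat_lit 33575855576) (nat_lit 18) (nat_lit 5) (nat_lit 20) (nat_lit 5) (nat_lit 19) (nat_lit 4) (nat_lit 425) (nat_lit 282) (nat_lit 193)) (XT.lf (nat_lit 0) (nat_lit 12579833736) (nat_lit 76) (nat_lit 3258456344) (nat_lit 152) (nat_lit 28545768010) (nat_lit 17) (nat_lit 5) (nat_lit 18) (nat_lit 5) (nat_lit 19) (nat_lit 4) (nat_lit 426) (nat_lit 282) (nat_lit 192))) (XT.nd (nat_lit 78) (nat_lit 0) (nat_lit 0) (XT.lf (nat_lit 0) (nat_lit 22343177447) (nat_lit 152) (nat_lit 19872920721)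 (nat_lit 0) (nat_lit 3299726073) (nat_lit 17) (nat_lit 5) (nat_lit 19) (nat_lit 4) (nat_lit 17) (nat_lit 4) (nat_lit 427) (nat_lit 282) (nat_lit 191)) (XT.lf (nat_lit 0) (nat_lit 29051924769) (nat_lit 152) (nat_lit 7661284954) (nat_lit 0) (nat_lit 9968073933) (nat_lit 17) (nat_lit 5) (nat_lit 19) (nat_lit 4) (nat_lit 17) (nat_lit 4) (nat_lit 428) (nat_lit 282) (nat_lit 190))))) (XT.nd (nat_lit 234) (nat_lit 76) (nat_lit 0) (XT.nd (nat_lit 78) (nat_lit 76) (nat_lit 0) (XT.lf (nat_lit 0) (nat_lit 4969651383) (nat_lit 76) (nat_lit 31017191728) (nat_lit 76) (nat_lit 11894118115) (nat_lit 16) (nat_lit 4) (nat_lit 17) (nat_lit 5) (nat_lit 17) (nat_lit 4) (nat_lit 429) (nat_lit 282) (nat_lit 189)) (XT.nd (nat_lit 78) (nat_lit 76) (nat_lit 0) (XT.lf (nat_lit 0) (nat_lit 18092971950) (nat_lit 76) (nat_lit 25091585145) (nat_lit 76) (nat_lit 5930431166) (nat_lit 16) (nat_lit 4) (nat_lit 17) (nat_lit 5) (nat_lit 17)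 (nat_lit 4) (nat_lit 430) (nat_lit 282) (nat_lit 188)) (XT.lf (nat_lit 0) (nat_lit 185850207) (nat_lit 152) (nat_lit 18820849288) (nat_lit 76) (nat_lit 31379942205) (nat_lit 15) (nat_lit 5) (nat_lit 17) (nat_lit 5) (nat_lit 16) (nat_lit 4) (nat_lit 431) (nat_lit 282) (nat_lit 187)))) (XT.nd (nat_lit 156) (nat_lit 0) (nat_lit 0) (XT.nd (nat_lit 78) (nat_lit 76) (nat_lit 0) (XT.lf (nat_lit 0) (nat_lit 6344894078) (nat_lit 152) (nat_lit 6353884625) (nat_lit 76) (nat_lit 38996551874) (nat_lit 15) (nat_lit 5) (nat_lit 17) (nat_lit 5) (nat_lit 16) (nat_lit 4) (nat_lit 432) (nat_lit 282) (nat_lit 186)) (XT.lf (nat_lit 0) (nat_lit 6575081595) (nat_lit 76) (nat_lit 6155928321) (nat_lit 152) (nat_lit 40311002594) (nat_lit 14) (nat_lit 5) (nat_lit 15) (nat_lit 5) (nat_lit 16) (nat_lit 4) (nat_lit 433) (nat_lit 282) (nat_lit 185))) (XT.nd (nat_lit 78) (nat_lit 0) (nat_lit 0) (XT.lf (nat_lit 0) (nat_lit 19358249569)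 (nat_lit 152) (nat_lit 34451598730) (nat_lit 0) (nat_lit 617761756) (nat_lit 14) (nat_lit 5) (nat_lit 16) (nat_lit 4) (nat_lit 14) (nat_lit 4) (nat_lit 434) (nat_lit 282) (nat_lit 184)) (XT.lf (nat_lit 0) (nat_lit 26225001004) (nat_lit 152) (nat_lit 22175933528) (nat_lit 0) (nat_lit 7452621483) (nat_lit 14) (nat_lit 5) (nat_lit 16) (nat_lit 4) (nat_lit 14) (nat_lit 4) (nat_lit 435) (nat_lit 282) (nat_lit 183))))))) (XT.nd (nat_lit 1014) (nat_lit 0) (nat_lit 0) (XT.nd (nat_lit 468) (nat_lit 152) (nat_lit 0) (XT.nd (nat_lit 234) (nat_lit 76) (nat_lit 0) (XT.nd (nat_lit 78) (nat_lit 76) (nat_lit 0) (XT.lf (nat_lit 0) (nat_lit 33278089745) (nat_lit 152) (nat_lit 9570034450) (nat_lit 0) (nat_lit 14474747402) (nat_lit 14) (nat_lit 5) (nat_lit 16) (nat_lit 4) (nat_lit 14) (nat_lit 4) (nat_lit 436) (nat_lit 282) (nat_lit 182)) (XT.nd (nat_lit 78) (nat_lit 0) (nat_lit 0) (XT.lf (nat_lit 0) (nat_lit 3444324543) (nat_lit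 76) (nat_lit 37112463097) (nat_lit 76) (nat_lit 18279059761) (nat_lit 13) (nat_lit 4) (nat_lit 14) (nat_lit 5) (nat_lit 14) (nat_lit 4) (nat_lit 437) (nat_lit 282) (nat_lit 181)) (XT.lf (nat_lit 0) (nat_lit 17008724438) (nat_lit 76) (nat_lit 31122872750) (nat_lit 76) (nat_lit 12260283984) (nat_lit 13) (nat_lit 4) (nat_lit 14) (nat_lit 5) (nat_lit 14) (nat_lit 4) (nat_lit 438) (nat_lit 282) (nat_lit 180)))) (XT.nd (nat_lit 78) (nat_lit 76) (nat_lit 0) (XT.lf (nat_lit 0) (nat_lit 30944555172) (nat_lit 76) (nat_lit 24970758114) (nat_lit 76) (nat_lit 6079833979) (nat_lit 13) (nat_lit 4) (nat_lit 14) (nat_lit 5) (nat_lit 14) (nat_lit 4) (nat_lit 439) (nat_lit 282) (nat_lit 179)) (XT.nd (nat_lit 78) (nat_lit 0) (nat_lit 0) (XT.lf (nat_lit 0) (nat_lit 262467037) (nat_lit 152) (nat_lit 18385626115) (nat_lit 76) (nat_lit 44998876245) (nat_lit 12) (nat_lit 5) (nat_lit 14) (nat_lit 5) (nat_lit 13) (nat_lit 4) (nat_lit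 440) (nat_lit 282) (nat_lit 178)) (XT.lf (nat_lit 0) (nat_lit 6655381139) (nat_lit 152) (nat_lit 5434719291) (nat_lit 76) (nat_lit 53256964668) (nat_lit 12) (nat_lit 5) (nat_lit 14) (nat_lit 5) (nat_lit 13) (nat_lit 4) (nat_lit 441) (nat_lit 282) (nat_lit 177))))) (XT.nd (nat_lit 234) (nat_lit 76) (nat_lit 0) (XT.nd (nat_lit 78) (nat_lit 0) (nat_lit 0) (XT.lf (nat_lit 0) (nat_lit 8028553788) (nat_lit 76) (nat_lit 5271755408) (nat_lit 152) (nat_lit 53796048726) (nat_lit 11) (nat_lit 5) (nat_lit 12) (nat_lit 5) (nat_lit 13) (nat_lit 4) (nat_lit 442) (nat_lit 282) (nat_lit 176)) (XT.nd (nat_lit 78) (nat_lit 0) (nat_lit 0) (XT.lf (nat_lit 0) (nat_lit 20199922580) (nat_lit 152) (nat_lit 46939585931) (nat_lit 0) (nat_lit 1756961910) (nat_lit 11) (nat_lit 5) (nat_lit 13) (nat_lit 4) (nat_lit 11) (nat_lit 4) (nat_lit 443) (nat_lit 282) (nat_lit 175)) (XT.lf (nat_lit 0) (nat_lit 27342293827) (nat_lit 152) (nat_lit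 34531617638) (nat_lit 0) (nat_lit 8875602733) (nat_lit 11) (nat_lit 5) (nat_lit 13) (nat_lit 4) (nat_lit 11) (nat_lit 4) (nat_lit 444) (nat_lit 282) (nat_lit 174)))) (XT.nd (nat_lit 156) (nat_lit 76) (nat_lit 0) (XT.nd (nat_lit 78) (nat_lit 0) (nat_lit 0) (XT.lf (nat_lit 0) (nat_lit 34682988508) (nat_lit 152) (nat_lit 21782382003) (nat_lit 0) (nat_lit 16193258166) (nat_lit 11) (nat_lit 5) (nat_lit 13) (nat_lit 4) (nat_lit 11) (nat_lit 4) (nat_lit 445) (nat_lit 282) (nat_lit 173)) (XT.lf (nat_lit 0) (nat_lit 42228420822) (nat_lit 152) (nat_lit 8680738917) (nat_lit 0) (nat_lit 23716322277) (nat_lit 11) (nat_lit 5) (nat_lit 13) (nat_lit 4) (nat_lit 11) (nat_lit 4) (nat_lit 446) (nat_lit 282) (nat_lit 172))) (XT.nd (nat_lit 78) (nat_lit 0) (nat_lit 0) (XT.lf (nat_lit 0) (nat_lit 4879985755) (nat_lit 76) (nat_lit 45152107517) (nat_lit 76) (nat_lit 26618292272) (nat_lit 10) (nat_lit 4) (nat_lit 11) (nat_lit 5)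 (nat_lit 11) (nat_lit 4) (nat_lit 447) (nat_lit 282) (nat_lit 171)) (XT.lf (nat_lit 0) (nat_lit 18996571215) (nat_lit 76) (nat_lit 39146090837) (nat_lit 76) (nat_lit 20591191416) (nat_lit 10) (nat_lit 4) (nat_lit 11) (nat_lit 5) (nat_lit 11) (nat_lit 4) (nat_lit 448) (nat_lit 282) (nat_lit 170)))))) (XT.nd (nat_lit 38376) (nat_lit 0) (nat_lit 9348) (XT.nd (nat_lit 38064) (nat_lit 0) (nat_lit 11856) (XT.nd (nat_lit 37908) (nat_lit 0) (nat_lit 13452) (XT.lf (nat_lit 0) (nat_lit 33508588616) (nat_lit 76) (nat_lit 32973520166) (nat_lit 76) (nat_lit 14398150672) (nat_lit 10) (nat_lit 4) (nat_lit 11) (nat_lit 5) (nat_lit 11) (nat_lit 4) (nat_lit 449) (nat_lit 282) (nat_lit 169)) (XT.nd (nat_lit 78) (nat_lit 532) (nat_lit 0) (XT.lf (nat_lit 0) (nat_lit 3340988098) (nat_lit 532) (nat_lit 261018699) (nat_lit 532) (nat_lit 261018699) (nat_lit 194) (nat_lit 4) (nat_lit 201) (nat_lit 5) (nat_lit 201) (nat_lit 4) (nat_lit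 334) (nat_lit 283) (nat_lit 283)) (XT.lf (nat_lit 0) (nat_lit 3128902198) (nat_lit 532) (nat_lit 2868702584) (nat_lit 0) (nat_lit 1807095092) (nat_lit 187) (nat_lit 5) (nat_lit 194) (nat_lit 4) (nat_lit 187) (nat_lit 4) (nat_lit 335) (nat_lit 283) (nat_lit 282)))) (XT.nd (nat_lit 156) (nat_lit 532) (nat_lit 0) (XT.nd (nat_lit 78) (nat_lit 532) (nat_lit 0) (XT.lf (nat_lit 0) (nat_lit 3163439778) (nat_lit 532) (nat_lit 3664406322) (nat_lit 532) (nat_lit 1059291346) (nat_lit 180) (nat_lit 4) (nat_lit 187) (nat_lit 5) (nat_lit 187) (nat_lit 4) (nat_lit 336) (nat_lit 283) (nat_lit 281)) (XT.lf (nat_lit 0) (nat_lit 1344362278) (nat_lit 456) (nat_lit 1214951625) (nat_lit 532) (nat_lit 5413647147) (nat_lit 173) (nat_lit 5) (nat_lit 179) (nat_lit 5) (nat_lit 180) (nat_lit 4) (nat_lit 337) (nat_lit 283) (nat_lit 280))) (XT.nd (nat_lit 78) (nat_lit 532) (nat_lit 0) (XT.lf (nat_lit 0) (nat_lit 6230813065) (nat_lit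 532) (nat_lit 513785695) (nat_lit 0) (nat_lit 1317525983) (nat_lit 173) (nat_lit 5) (nat_lit 180) (nat_lit 4) (nat_lit 173) (nat_lit 4) (nat_lit 338) (nat_lit 283) (nat_lit 279)) (XT.lf (nat_lit 0) (nat_lit 1797050666) (nat_lit 532) (nat_lit 2405476650) (nat_lit 76) (nat_lit 3951701413) (nat_lit 166) (nat_lit 5) (nat_lit 173) (nat_lit 5) (nat_lit 167) (nat_lit 4) (nat_lit 339) (nat_lit 283) (nat_lit 278))))) (XT.nd (nat_lit 234) (nat_lit 1216) (nat_lit 0) (XT.nd (nat_lit 78) (nat_lit 912) (nat_lit 0) (XT.lf (nat_lit 0) (nat_lit 3899886214) (nat_lit 380) (nat_lit 1548571105) (nat_lit 456) (nat_lit 2801609204) (nat_lit 161) (nat_lit 5) (nat_lit 166) (nat_lit 5) (nat_lit 167) (nat_lit 4) (nat_lit 340) (nat_lit 283) (nat_lit 277)) (XT.nd (nat_lit 78) (nat_lit 380) (nat_lit 0) (XT.lf (nat_lit 0) (nat_lit 808167813) (nat_lit 532) (nat_lit 6354790486) (nat_lit 76) (nat_lit 1186685023) (nat_lit 154) (nat_lit 5)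 (nat_lit 161) (nat_lit 5) (nat_lit 155) (nat_lit 4) (nat_lit 341) (nat_lit 283) (nat_lit 276)) (XT.lf (nat_lit 0) (nat_lit 4338405) (nat_lit 380) (nat_lit 4435447129) (nat_lit 456) (nat_lit 4012534904) (nat_lit 149) (nat_lit 5) (nat_lit 154) (nat_lit 5) (nat_lit 155) (nat_lit 4) (nat_lit 342) (nat_lit 283) (nat_lit 275)))) (XT.nd (nat_lit 156) (nat_lit 760) (nat_lit 0) (XT.nd (nat_lit 78) (nat_lit 456) (nat_lit 0) (XT.lf (nat_lit 0) (nat_lit 6564930023) (nat_lit 380) (nat_lit 1591180753) (nat_lit 456) (nat_lit 402734011) (nat_lit 149) (nat_lit 5) (nat_lit 154) (nat_lit 5) (nat_lit 155) (nat_lit 4) (nat_lit 343) (nat_lit 283) (nat_lit 274)) (XT.lf (nat_lit 0) (nat_lit 3221418220) (nat_lit 456) (nat_lit 4088556383) (nat_lit 76) (nat_lit 1358549042) (nat_lit 143) (nat_lit 5) (nat_lit 149) (nat_lit 5) (nat_lit 144) (nat_lit 4) (nat_lit 344) (nat_lit 283) (nat_lit 273))) (XT.nd (nat_lit 78) (nat_lit 456) (nat_lit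 0) (XT.lf (nat_lit 0) (nat_lit 2521311563) (nat_lit 304) (nat_lit 4399591517) (nat_lit 380) (nat_lit 1861265408) (nat_lit 139) (nat_lit 5) (nat_lit 143) (nat_lit 5) (nat_lit 144) (nat_lit 4) (nat_lit 345) (nat_lit 283) (nat_lit 272)) (XT.lf (nat_lit 0) (nat_lit 385240482) (nat_lit 380) (nat_lit 1371426152) (nat_lit 456) (nat_lit 7143253867) (nat_lit 133) (nat_lit 5) (nat_lit 138) (nat_lit 5) (nat_lit 139) (nat_lit 5) (nat_lit 346) (nat_lit 283) (nat_lit 271))))))))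
noncomputable def xc63 : XT := (XT.nd (nat_lit 2106) (nat_lit 2508) (nat_lit 0) (XT.nd (nat_lit 1014) (nat_lit 2128) (nat_lit 0) (XT.nd (nat_lit 468) (nat_lit 1596) (nat_lit 0) (XT.nd (nat_lit 234) (nat_lit 684) (nat_lit 0) (XT.nd (nat_lit 78) (nat_lit 684) (nat_lit 0) (XT.lf (nat_lit 0) (nat_lit 5442253470) (nat_lit 456) (nat_lit 1816700783) (nat_lit 76) (nat_lit 1761835420) (nat_lit 133) (nat_lit 5) (nat_lit 139) (nat_lit 5) (nat_lit 134) (nat_lit 4) (nat_lit 347) (nat_lit 283) (nat_lit 270)) (XT.nd (nat_lit 78) (nat_lit 304) (nat_lit 0) (XT.lf (nat_lit 0) (nat_lit 71533081) (nat_lit 380) (nat_lit 4096508778) (nat_lit 76) (nat_lit 4977840719) (nat_lit 128) (nat_lit 5) (nat_lit 133) (nat_lit 5) (nat_lit 129) (nat_lit 5) (nat_lit 348) (nat_lit 283) (nat_lit 269)) (XT.lf (nat_lit 0) (nat_lit 2785650716) (nat_lit 304) (nat_lit 937599612) (nat_lit 380) (nat_lit 5551523305) (nat_lit 124) (nat_lit 5) (nat_lit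 128) (nat_lit 5) (nat_lit 129) (nat_lit 5) (nat_lit 349) (nat_lit 283) (nat_lit 268)))) (XT.nd (nat_lit 78) (nat_lit 380) (nat_lit 0) (XT.lf (nat_lit 0) (nat_lit 418224794) (nat_lit 304) (nat_lit 7054725797) (nat_lit 380) (nat_lit 1934957418) (nat_lit 120) (nat_lit 5) (nat_lit 124) (nat_lit 5) (nat_lit 125) (nat_lit 4) (nat_lit 350) (nat_lit 283) (nat_lit 267)) (XT.nd (nat_lit 78) (nat_lit 304) (nat_lit 0) (XT.lf (nat_lit 0) (nat_lit 1750696918) (nat_lit 380) (nat_lit 2023367268) (nat_lit 76) (nat_lit 5770618153) (nat_lit 119) (nat_lit 5) (nat_lit 124) (nat_lit 5) (nat_lit 120) (nat_lit 5) (nat_lit 351) (nat_lit 283) (nat_lit 266)) (XT.lf (nat_lit 0) (nat_lit 5117128198) (nat_lit 304) (nat_lit 362482681) (nat_lit 380) (nat_lit 4206253887) (nat_lit 115) (nat_lit 5) (nat_lit 119) (nat_lit 5) (nat_lit 120) (nat_lit 5) (nat_lit 352) (nat_lit 283) (nat_lit 265))))) (XT.nd (nat_lit 234) (nat_lit 912) (nat_lit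 0) (XT.nd (nat_lit 78) (nat_lit 380) (nat_lit 0) (XT.lf (nat_lit 0) (nat_lit 2586289519) (nat_lit 304) (nat_lit 6733079907) (nat_lit 380) (nat_lit 511970166) (nat_lit 111) (nat_lit 5) (nat_lit 115) (nat_lit 5) (nat_lit 116) (nat_lit 4) (nat_lit 353) (nat_lit 283) (nat_lit 264)) (XT.nd (nat_lit 78) (nat_lit 304) (nat_lit 0) (XT.lf (nat_lit 0) (nat_lit 3202605882) (nat_lit 380) (nat_lit 82609149) (nat_lit 76) (nat_lit 6695826948) (nat_lit 110) (nat_lit 5) (nat_lit 115) (nat_lit 5) (nat_lit 111) (nat_lit 5) (nat_lit 354) (nat_lit 283) (nat_lit 263)) (XT.lf (nat_lit 0) (nat_lit 7017384435) (nat_lit 380) (nat_lit 2819027885) (nat_lit 76) (nat_lit 298723402) (nat_lit 106) (nat_lit 5) (nat_lit 111) (nat_lit 5) (nat_lit 107) (nat_lit 4) (nat_lit 355) (nat_lit 283) (nat_lit 262)))) (XT.nd (nat_lit 156) (nat_lit 304) (nat_lit 0) (XT.nd (nat_lit 78) (nat_lit 304) (nat_lit 0) (XT.lf (nat_lit 0) (nat_lit 643978962)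 (nat_lit 304) (nat_lit 5712498371) (nat_lit 76) (nat_lit 3937090465) (nat_lit 102) (nat_lit 5) (nat_lit 106) (nat_lit 5) (nat_lit 103) (nat_lit 5) (nat_lit 356) (nat_lit 283) (nat_lit 261)) (XT.lf (nat_lit 0) (nat_lit 1692508716) (nat_lit 304) (nat_lit 2735201017) (nat_lit 380) (nat_lit 6028984643) (nat_lit 98) (nat_lit 5) (nat_lit 102) (nat_lit 5) (nat_lit 103) (nat_lit 5) (nat_lit 357) (nat_lit 283) (nat_lit 260))) (XT.nd (nat_lit 78) (nat_lit 304) (nat_lit 0) (XT.lf (nat_lit 0) (nat_lit 8320212375) (nat_lit 380) (nat_lit 1311445102) (nat_lit 76) (nat_lit 993220815) (nat_lit 98) (nat_lit 5) (nat_lit 103) (nat_lit 5) (nat_lit 99) (nat_lit 4) (nat_lit 358) (nat_lit 283) (nat_lit 259)) (XT.lf (nat_lit 0) (nat_lit 1519330550) (nat_lit 304) (nat_lit 4462528715) (nat_lit 76) (nat_lit 4815292022) (nat_lit 94) (nat_lit 5) (nat_lit 98) (nat_lit 5) (nat_lit 95) (nat_lit 5) (nat_lit 359) (nat_lit 283) (nat_lit 258))))))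 (XT.nd (nat_lit 546) (nat_lit 912) (nat_lit 0) (XT.nd (nat_lit 234) (nat_lit 684) (nat_lit 0) (XT.nd (nat_lit 78) (nat_lit 304) (nat_lit 0) (XT.lf (nat_lit 0) (nat_lit 3189996419) (nat_lit 228) (nat_lit 2195603423) (nat_lit 304) (nat_lit 5589111370) (nat_lit 91) (nat_lit 5) (nat_lit 94) (nat_lit 5) (nat_lit 95) (nat_lit 5) (nat_lit 360) (nat_lit 283) (nat_lit 257)) (XT.nd (nat_lit 78) (nat_lit 304) (nat_lit 0) (XT.lf (nat_lit 0) (nat_lit 9360159829) (nat_lit 304) (nat_lit 122156707) (nat_lit 76) (nat_lit 1675531276) (nat_lit 91) (nat_lit 5) (nat_lit 95) (nat_lit 5) (nat_lit 92) (nat_lit 4) (nat_lit 361) (nat_lit 283) (nat_lit 256)) (XT.lf (nat_lit 0) (nat_lit 2095694118) (nat_lit 304) (nat_lit 3574972796) (nat_lit 76) (nat_lit 5674341499) (nat_lit 87) (nat_lit 5) (nat_lit 91) (nat_lit 5) (nat_lit 88) (nat_lit 5) (nat_lit 362) (nat_lit 283) (nat_lit 255)))) (XT.nd (nat_lit 156) (nat_lit 304) (nat_lit 0)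 (XT.nd (nat_lit 78) (nat_lit 152) (nat_lit 0) (XT.lf (nat_lit 0) (nat_lit 4320589670) (nat_lit 228) (nat_lit 1724621949) (nat_lit 304) (nat_lit 5492791624) (nat_lit 84) (nat_lit 5) (nat_lit 87) (nat_lit 5) (nat_lit 88) (nat_lit 5) (nat_lit 363) (nat_lit 283) (nat_lit 254)) (XT.lf (nat_lit 0) (nat_lit 670646689) (nat_lit 152) (nat_lit 9441162879) (nat_lit 228) (nat_lit 1625037344) (nat_lit 82) (nat_lit 5) (nat_lit 84) (nat_lit 5) (nat_lit 85) (nat_lit 4) (nat_lit 364) (nat_lit 283) (nat_lit 253))) (XT.nd (nat_lit 78) (nat_lit 228) (nat_lit 0) (XT.lf (nat_lit 0) (nat_lit 2336827932) (nat_lit 228) (nat_lit 3147090633) (nat_lit 76) (nat_lit 6456349809) (nat_lit 81) (nat_lit 5) (nat_lit 84) (nat_lit 5) (nat_lit 82) (nat_lit 5) (nat_lit 365) (nat_lit 283) (nat_lit 252)) (XT.lf (nat_lit 0) (nat_lit 4983517053) (nat_lit 228) (nat_lit 1384641378) (nat_lit 304) (nat_lit 5781668651) (nat_lit 78) (nat_lit 5) (nat_lit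 81) (nat_lit 5) (nat_lit 82) (nat_lit 5) (nat_lit 366) (nat_lit 283) (nat_lit 251))))) (XT.nd (nat_lit 234) (nat_lit 456) (nat_lit 0) (XT.nd (nat_lit 78) (nat_lit 304) (nat_lit 0) (XT.lf (nat_lit 0) (nat_lit 940903718) (nat_lit 152) (nat_lit 9583761133) (nat_lit 228) (nat_lit 1840895583) (nat_lit 76) (nat_lit 5) (nat_lit 78) (nat_lit 5) (nat_lit 79) (nat_lit 4) (nat_lit 367) (nat_lit 283) (nat_lit 250)) (XT.nd (nat_lit 78) (nat_lit 228) (nat_lit 0) (XT.lf (nat_lit 0) (nat_lit 2197632362) (nat_lit 228) (nat_lit 3291038881) (nat_lit 76) (nat_lit 7097784553) (nat_lit 75) (nat_lit 5) (nat_lit 78) (nat_lit 5) (nat_lit 76) (nat_lit 5) (nat_lit 368) (nat_lit 283) (nat_lit 249)) (XT.lf (nat_lit 0) (nat_lit 5062356563) (nat_lit 228) (nat_lit 1244508598) (nat_lit 304) (nat_lit 6506983277) (nat_lit 72) (nat_lit 5) (nat_lit 75) (nat_lit 5) (nat_lit 76) (nat_lit 5) (nat_lit 369) (nat_lit 283) (nat_lit 248)))) (XT.nd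 (nat_lit 156) (nat_lit 228) (nat_lit 0) (XT.nd (nat_lit 78) (nat_lit 76) (nat_lit 0) (XT.lf (nat_lit 0) (nat_lit 562126824) (nat_lit 152) (nat_lit 9984562417) (nat_lit 228) (nat_lit 2501167483) (nat_lit 70) (nat_lit 5) (nat_lit 72) (nat_lit 5) (nat_lit 73) (nat_lit 4) (nat_lit 370) (nat_lit 283) (nat_lit 247)) (XT.lf (nat_lit 0) (nat_lit 1622958868) (nat_lit 228) (nat_lit 4136612156) (nat_lit 76) (nat_lit 7527962938) (nat_lit 69) (nat_lit 5) (nat_lit 72) (nat_lit 5) (nat_lit 70) (nat_lit 5) (nat_lit 371) (nat_lit 283) (nat_lit 246))) (XT.nd (nat_lit 78) (nat_lit 0) (nat_lit 0) (XT.lf (nat_lit 0) (nat_lit 4422166161) (nat_lit 228) (nat_lit 1381143043) (nat_lit 304) (nat_lit 7730878425) (nat_lit 66) (nat_lit 5) (nat_lit 69) (nat_lit 5) (nat_lit 70) (nat_lit 5) (nat_lit 372) (nat_lit 283) (nat_lit 245)) (XT.lf (nat_lit 0) (nat_lit 10121950849) (nat_lit 304) (nat_lit 597683072) (nat_lit 76) (nat_lit 3068232373)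 (nat_lit 66) (nat_lit 5) (nat_lit 70) (nat_lit 5) (nat_lit 67) (nat_lit 4) (nat_lit 373) (nat_lit 283) (nat_lit 244))))))) (XT.nd (nat_lit 1014) (nat_lit 988) (nat_lit 0) (XT.nd (nat_lit 468) (nat_lit 760) (nat_lit 0) (XT.nd (nat_lit 234) (nat_lit 380) (nat_lit 0) (XT.nd (nat_lit 78) (nat_lit 152) (nat_lit 0) (XT.lf (nat_lit 0) (nat_lit 546197616) (nat_lit 228) (nat_lit 5834396241) (nat_lit 76) (nat_lit 7667361323) (nat_lit 63) (nat_lit 5) (nat_lit 66) (nat_lit 5) (nat_lit 64) (nat_lit 5) (nat_lit 374) (nat_lit 283) (nat_lit 243)) (XT.nd (nat_lit 78) (nat_lit 0) (nat_lit 0) (XT.lf (nat_lit 0) (nat_lit 2906181091) (nat_lit 152) (nat_lit 1881348987) (nat_lit 228) (nat_lit 9527942460) (nat_lit 61) (nat_lit 5) (nat_lit 63) (nat_lit 5) (nat_lit 64) (nat_lit 5) (nat_lit 375) (nat_lit 283) (nat_lit 242)) (XT.lf (nat_lit 0) (nat_lit 9184888777) (nat_lit 228) (nat_lit 2687944962) (nat_lit 76) (nat_lit 2717328586)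 (nat_lit 61) (nat_lit 5) (nat_lit 64) (nat_lit 5) (nat_lit 62) (nat_lit 4) (nat_lit 376) (nat_lit 283) (nat_lit 241)))) (XT.nd (nat_lit 78) (nat_lit 228) (nat_lit 0) (XT.lf (nat_lit 0) (nat_lit 6302083731) (nat_lit 152) (nat_lit 7435781180) (nat_lit 228) (nat_lit 1134527184) (nat_lit 59) (nat_lit 5) (nat_lit 61) (nat_lit 5) (nat_lit 62) (nat_lit 4) (nat_lit 377) (nat_lit 283) (nat_lit 240)) (XT.nd (nat_lit 78) (nat_lit 0) (nat_lit 0) (XT.lf (nat_lit 0) (nat_lit 332005133) (nat_lit 152) (nat_lit 2843868622) (nat_lit 228) (nat_lit 11987026306) (nat_lit 56) (nat_lit 5) (nat_lit 58) (nat_lit 5) (nat_lit 59) (nat_lit 5) (nat_lit 378) (nat_lit 283) (nat_lit 239)) (XT.lf (nat_lit 0) (nat_lit 7643222639) (nat_lit 228) (nat_lit 5910430606) (nat_lit 76) (nat_lit 1906629194) (nat_lit 56) (nat_lit 5) (nat_lit 59) (nat_lit 5) (nat_lit 57) (nat_lit 4) (nat_lit 379) (nat_lit 283) (nat_lit 238))))) (XT.nd (nat_lit 234)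 (nat_lit 380) (nat_lit 0) (XT.nd (nat_lit 78) (nat_lit 228) (nat_lit 0) (XT.lf (nat_lit 0) (nat_lit 3217362858) (nat_lit 152) (nat_lit 9032829174) (nat_lit 228) (nat_lit 3516235309) (nat_lit 54) (nat_lit 5) (nat_lit 56) (nat_lit 5) (nat_lit 57) (nat_lit 4) (nat_lit 380) (nat_lit 283) (nat_lit 237)) (XT.nd (nat_lit 78) (nat_lit 152) (nat_lit 0) (XT.lf (nat_lit 0) (nat_lit 902699094) (nat_lit 228) (nat_lit 3444241119) (nat_lit 76) (nat_lit 11734354053) (nat_lit 53) (nat_lit 5) (nat_lit 56) (nat_lit 5) (nat_lit 54) (nat_lit 5) (nat_lit 381) (nat_lit 283) (nat_lit 236)) (XT.lf (nat_lit 0) (nat_lit 5393777814) (nat_lit 228) (nat_lit 10487351739) (nat_lit 76) (nat_lit 523134031) (nat_lit 51) (nat_lit 5) (nat_lit 54) (nat_lit 5) (nat_lit 52) (nat_lit 4) (nat_lit 382) (nat_lit 283) (nat_lit 235)))) (XT.nd (nat_lit 156) (nat_lit 228) (nat_lit 0) (XT.nd (nat_lit 78) (nat_lit 152) (nat_lit 0) (XT.lf (nat_lit 0) (nat_lit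 10046189111) (nat_lit 228) (nat_lit 1242292789) (nat_lit 76) (nat_lit 5447650119) (nat_lit 51) (nat_lit 5) (nat_lit 54) (nat_lit 5) (nat_lit 52) (nat_lit 4) (nat_lit 383) (nat_lit 283) (nat_lit 234)) (XT.lf (nat_lit 0) (nat_lit 8353281899) (nat_lit 152) (nat_lit 6515126309) (nat_lit 228) (nat_lit 2208649045) (nat_lit 49) (nat_lit 5) (nat_lit 51) (nat_lit 5) (nat_lit 52) (nat_lit 4) (nat_lit 384) (nat_lit 283) (nat_lit 233))) (XT.nd (nat_lit 78) (nat_lit 0) (nat_lit 0) (XT.lf (nat_lit 0) (nat_lit 735485667) (nat_lit 152) (nat_lit 1594410425) (nat_lit 228) (nat_lit 15098533862) (nat_lit 46) (nat_lit 5) (nat_lit 48) (nat_lit 5) (nat_lit 49) (nat_lit 5) (nat_lit 385) (nat_lit 283) (nat_lit 232)) (XT.lf (nat_lit 0) (nat_lit 7032826067) (nat_lit 228) (nat_lit 7276664742) (nat_lit 76) (nat_lit 3478025538) (nat_lit 46) (nat_lit 5) (nat_lit 49) (nat_lit 5) (nat_lit 47) (nat_lit 4) (nat_lit 386) (nat_lit 283) (nat_lit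 231)))))) (XT.nd (nat_lit 546) (nat_lit 380) (nat_lit 0) (XT.nd (nat_lit 234) (nat_lit 304) (nat_lit 0) (XT.nd (nat_lit 78) (nat_lit 228) (nat_lit 0) (XT.lf (nat_lit 0) (nat_lit 2364907999) (nat_lit 76) (nat_lit 9502165216) (nat_lit 152) (nat_lit 6290602176) (nat_lit 45) (nat_lit 5) (nat_lit 46) (nat_lit 5) (nat_lit 47) (nat_lit 4) (nat_lit 387) (nat_lit 283) (nat_lit 230)) (XT.nd (nat_lit 78) (nat_lit 228) (nat_lit 0) (XT.lf (nat_lit 0) (nat_lit 12358193995) (nat_lit 76) (nat_lit 4513917024) (nat_lit 152) (nat_lit 1666062026) (nat_lit 45) (nat_lit 5) (nat_lit 46) (nat_lit 5) (nat_lit 47) (nat_lit 4) (nat_lit 388) (nat_lit 283) (nat_lit 229)) (XT.lf (nat_lit 0) (nat_lit 3031614963) (nat_lit 228) (nat_lit 15257734022) (nat_lit 76) (nat_lit 640004672) (nat_lit 42) (nat_lit 5) (nat_lit 45) (nat_lit 5) (nat_lit 43) (nat_lit 4) (nat_lit 389) (nat_lit 283) (nat_lit 228)))) (XT.nd (nat_lit 156) (nat_lit 228) (nat_lit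 0) (XT.nd (nat_lit 78) (nat_lit 76) (nat_lit 0) (XT.lf (nat_lit 0) (nat_lit 7897846896) (nat_lit 228) (nat_lit 5532057630) (nat_lit 76) (nat_lit 5900043132) (nat_lit 42) (nat_lit 5) (nat_lit 45) (nat_lit 5) (nat_lit 43) (nat_lit 4) (nat_lit 390) (nat_lit 283) (nat_lit 227)) (XT.lf (nat_lit 0) (nat_lit 4490189286) (nat_lit 76) (nat_lit 8417791407) (nat_lit 152) (nat_lit 6834647324) (nat_lit 41) (nat_lit 5) (nat_lit 42) (nat_lit 5) (nat_lit 43) (nat_lit 4) (nat_lit 391) (nat_lit 283) (nat_lit 226))) (XT.nd (nat_lit 78) (nat_lit 228) (nat_lit 0) (XT.lf (nat_lit 0) (nat_lit 14844497792) (nat_lit 76) (nat_lit 3235065690) (nat_lit 152) (nat_lit 2087796768) (nat_lit 41) (nat_lit 5) (nat_lit 42) (nat_lit 5) (nat_lit 43) (nat_lit 4) (nat_lit 392) (nat_lit 283) (nat_lit 225)) (XT.lf (nat_lit 0) (nat_lit 2770569686) (nat_lit 228) (nat_lit 15731885600) (nat_lit 76) (nat_lit 2100863452) (nat_lit 38) (nat_lit 5) (nat_lit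 41) (nat_lit 5) (nat_lit 39) (nat_lit 4) (nat_lit 393) (nat_lit 283) (nat_lit 224))))) (XT.nd (nat_lit 234) (nat_lit 304) (nat_lit 0) (XT.nd (nat_lit 78) (nat_lit 76) (nat_lit 0) (XT.lf (nat_lit 0) (nat_lit 7775348030) (nat_lit 228) (nat_lit 5703970128) (nat_lit 76) (nat_lit 7571144297) (nat_lit 38) (nat_lit 5) (nat_lit 41) (nat_lit 5) (nat_lit 39) (nat_lit 4) (nat_lit 394) (nat_lit 283) (nat_lit 223)) (XT.nd (nat_lit 78) (nat_lit 0) (nat_lit 0) (XT.lf (nat_lit 0) (nat_lit 4636951940) (nat_lit 76) (nat_lit 8295474046) (nat_lit 152) (nat_lit 8578534973) (nat_lit 37) (nat_lit 5) (nat_lit 38) (nat_lit 5) (nat_lit 39) (nat_lit 4) (nat_lit 395) (nat_lit 283) (nat_lit 222)) (XT.lf (nat_lit 0) (nat_lit 15327480756) (nat_lit 76) (nat_lit 2932407501) (nat_lit 152) (nat_lit 3724921015) (nat_lit 37) (nat_lit 5) (nat_lit 38) (nat_lit 5) (nat_lit 39) (nat_lit 4) (nat_lit 396) (nat_lit 283) (nat_lit 221)))) (XT.nd (nat_lit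 156) (nat_lit 76) (nat_lit 0) (XT.nd (nat_lit 78) (nat_lit 0) (nat_lit 0) (XT.lf (nat_lit 0) (nat_lit 1270418936) (nat_lit 228) (nat_lit 18645024272) (nat_lit 76) (nat_lit 2556437556) (nat_lit 34) (nat_lit 5) (nat_lit 37) (nat_lit 5) (nat_lit 35) (nat_lit 4) (nat_lit 397) (nat_lit 283) (nat_lit 220)) (XT.lf (nat_lit 0) (nat_lit 6396702840) (nat_lit 228) (nat_lit 8352346471) (nat_lit 76) (nat_lit 8221734736) (nat_lit 34) (nat_lit 5) (nat_lit 37) (nat_lit 5) (nat_lit 35) (nat_lit 4) (nat_lit 398) (nat_lit 283) (nat_lit 219))) (XT.nd (nat_lit 78) (nat_lit 0) (nat_lit 0) (XT.lf (nat_lit 0) (nat_lit 2218366131) (nat_lit 76) (nat_lit 9439952524) (nat_lit 152) (nat_lit 11826893927) (nat_lit 33) (nat_lit 5) (nat_lit 34) (nat_lit 5) (nat_lit 35) (nat_lit 4) (nat_lit 399) (nat_lit 283) (nat_lit 218)) (XT.lf (nat_lit 0) (nat_lit 13204107003) (nat_lit 76) (nat_lit 3918691349) (nat_lit 152) (nat_lit 6890929482) (nat_lit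 33) (nat_lit 5) (nat_lit 34) (nat_lit 5) (nat_lit 35) (nat_lit 4) (nat_lit 400) (nat_lit 283) (nat_lit 217))))))))
noncomputable def xc64 : XT := (XT.nd (nat_lit 2028) (nat_lit 532) (nat_lit 0) (XT.nd (nat_lit 1014) (nat_lit 532) (nat_lit 0) (XT.nd (nat_lit 468) (nat_lit 304) (nat_lit 0) (XT.nd (nat_lit 234) (nat_lit 152) (nat_lit 0) (XT.nd (nat_lit 78) (nat_lit 228) (nat_lit 0) (XT.lf (nat_lit 0) (nat_lit 22729710931) (nat_lit 152) (nat_lit 127680884) (nat_lit 0) (nat_lit 1701355973) (nat_lit 33) (nat_lit 5) (nat_lit 35) (nat_lit 4) (nat_lit 33) (nat_lit 4) (nat_lit 401) (nat_lit 283) (nat_lit 216)) (XT.nd (nat_lit 78) (nat_lit 0) (nat_lit 0) (XT.lf (nat_lit 0) (nat_lit 3426690493) (nat_lit 228) (nat_lit 14170233350) (nat_lit 76) (nat_lit 7518981598) (nat_lit 30) (nat_lit 5) (nat_lit 33) (nat_lit 5) (nat_lit 31) (nat_lit 4) (nat_lit 402) (nat_lit 283) (nat_lit 215)) (XT.lf (nat_lit 0) (nat_lit 8767306128)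 (nat_lit 228) (nat_lit 3423987587) (nat_lit 76) (nat_lit 13499025326) (nat_lit 30) (nat_lit 5) (nat_lit 33) (nat_lit 5) (nat_lit 31) (nat_lit 4) (nat_lit 403) (nat_lit 283) (nat_lit 214)))) (XT.nd (nat_lit 78) (nat_lit 76) (nat_lit 0) (XT.lf (nat_lit 0) (nat_lit 7727505570) (nat_lit 76) (nat_lit 6578679475) (nat_lit 152) (nat_lit 11974642389) (nat_lit 29) (nat_lit 5) (nat_lit 30) (nat_lit 5) (nat_lit 31) (nat_lit 4) (nat_lit 404) (nat_lit 283) (nat_lit 213)) (XT.nd (nat_lit 78) (nat_lit 76) (nat_lit 0) (XT.lf (nat_lit 0) (nat_lit 19216466459) (nat_lit 76) (nat_lit 793511574) (nat_lit 152) (nat_lit 6879114235) (nat_lit 29) (nat_lit 5) (nat_lit 30) (nat_lit 5) (nat_lit 31) (nat_lit 4) (nat_lit 405) (nat_lit 283) (nat_lit 212)) (XT.lf (nat_lit 0) (nat_lit 3486820467) (nat_lit 76) (nat_lit 22446155245) (nat_lit 76) (nat_lit 1581190125) (nat_lit 28) (nat_lit 4) (nat_lit 29) (nat_lit 5) (nat_lit 29) (nat_lit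 4) (nat_lit 406) (nat_lit 283) (nat_lit 211))))) (XT.nd (nat_lit 234) (nat_lit 152) (nat_lit 0) (XT.nd (nat_lit 78) (nat_lit 76) (nat_lit 0) (XT.lf (nat_lit 0) (nat_lit 3851113948) (nat_lit 152) (nat_lit 13129327590) (nat_lit 76) (nat_lit 11174903613) (nat_lit 27) (nat_lit 5) (nat_lit 29) (nat_lit 5) (nat_lit 28) (nat_lit 4) (nat_lit 407) (nat_lit 283) (nat_lit 210)) (XT.nd (nat_lit 78) (nat_lit 76) (nat_lit 0) (XT.lf (nat_lit 0) (nat_lit 9380595541) (nat_lit 152) (nat_lit 1984211787) (nat_lit 76) (nat_lit 17451506410) (nat_lit 27) (nat_lit 5) (nat_lit 29) (nat_lit 5) (nat_lit 28) (nat_lit 4) (nat_lit 408) (nat_lit 283) (nat_lit 209)) (XT.lf (nat_lit 0) (nat_lit 9620673853) (nat_lit 76) (nat_lit 5514746902) (nat_lit 152) (nat_lit 14359909977) (nat_lit 26) (nat_lit 5) (nat_lit 27) (nat_lit 5) (nat_lit 28) (nat_lit 4) (nat_lit 409) (nat_lit 283) (nat_lit 208)))) (XT.nd (nat_lit 156) (nat_lit 76) (nat_lit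 0) (XT.nd (nat_lit 78) (nat_lit 76) (nat_lit 0) (XT.lf (nat_lit 0) (nat_lit 21055104711) (nat_lit 152) (nat_lit 8647255309) (nat_lit 0) (nat_lit 492594829) (nat_lit 26) (nat_lit 5) (nat_lit 28) (nat_lit 4) (nat_lit 26) (nat_lit 4) (nat_lit 410) (nat_lit 283) (nat_lit 207)) (XT.lf (nat_lit 0) (nat_lit 2857535449) (nat_lit 76) (nat_lit 24344941418) (nat_lit 76) (nat_lit 3711590837) (nat_lit 25) (nat_lit 4) (nat_lit 26) (nat_lit 5) (nat_lit 26) (nat_lit 4) (nat_lit 411) (nat_lit 283) (nat_lit 206))) (XT.nd (nat_lit 78) (nat_lit 0) (nat_lit 0) (XT.lf (nat_lit 0) (nat_lit 1899091479) (nat_lit 152) (nat_lit 16846972254) (nat_lit 76) (nat_lit 12906463434) (nat_lit 24) (nat_lit 5) (nat_lit 26) (nat_lit 5) (nat_lit 25) (nat_lit 4) (nat_lit 412) (nat_lit 283) (nat_lit 205)) (XT.lf (nat_lit 0) (nat_lit 7572491555) (nat_lit 152) (nat_lit 5396744252) (nat_lit 76) (nat_lit 19443734950) (nat_lit 24) (nat_lit 5) (nat_lit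 26) (nat_lit 5) (nat_lit 25) (nat_lit 4) (nat_lit 413) (nat_lit 283) (nat_lit 204)))))) (XT.nd (nat_lit 468) (nat_lit 304) (nat_lit 0) (XT.nd (nat_lit 234) (nat_lit 152) (nat_lit 0) (XT.nd (nat_lit 78) (nat_lit 0) (nat_lit 0) (XT.lf (nat_lit 0) (nat_lit 6466010029) (nat_lit 76) (nat_lit 6982138450) (nat_lit 152) (nat_lit 19747120148) (nat_lit 23) (nat_lit 5) (nat_lit 24) (nat_lit 5) (nat_lit 25) (nat_lit 4) (nat_lit 414) (nat_lit 283) (nat_lit 203)) (XT.nd (nat_lit 78) (nat_lit 0) (nat_lit 0) (XT.lf (nat_lit 0) (nat_lit 18738679550) (nat_lit 76) (nat_lit 786124380) (nat_lit 152) (nat_lit 14475492178) (nat_lit 23) (nat_lit 5) (nat_lit 24) (nat_lit 5) (nat_lit 25) (nat_lit 4) (nat_lit 415) (nat_lit 283) (nat_lit 202)) (XT.lf (nat_lit 0) (nat_lit 25808397942) (nat_lit 152) (nat_lit 3559301283) (nat_lit 0) (nat_lit 5461038488) (nat_lit 23) (nat_lit 5) (nat_lit 25) (nat_lit 4) (nat_lit 23) (nat_lit 4) (nat_lit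 416) (nat_lit 283) (nat_lit 201)))) (XT.nd (nat_lit 78) (nat_lit 76) (nat_lit 0) (XT.lf (nat_lit 0) (nat_lit 8600172755) (nat_lit 76) (nat_lit 23742478542) (nat_lit 76) (nat_lit 3337519117) (nat_lit 22) (nat_lit 4) (nat_lit 23) (nat_lit 5) (nat_lit 23) (nat_lit 4) (nat_lit 417) (nat_lit 283) (nat_lit 200)) (XT.nd (nat_lit 78) (nat_lit 0) (nat_lit 0) (XT.lf (nat_lit 0) (nat_lit 2474721341) (nat_lit 152) (nat_lit 15437197403) (nat_lit 76) (nat_lit 18644263293) (nat_lit 21) (nat_lit 5) (nat_lit 23) (nat_lit 5) (nat_lit 22) (nat_lit 4) (nat_lit 418) (nat_lit 283) (nat_lit 199)) (XT.lf (nat_lit 0) (nat_lit 8366801009) (nat_lit 152) (nat_lit 3530569174) (nat_lit 76) (nat_lit 25560938091) (nat_lit 21) (nat_lit 5) (nat_lit 23) (nat_lit 5) (nat_lit 22) (nat_lit 4) (nat_lit 419) (nat_lit 283) (nat_lit 198))))) (XT.nd (nat_lit 234) (nat_lit 228) (nat_lit 0) (XT.nd (nat_lit 78) (nat_lit 0) (nat_lit 0) (XT.lf (nat_lit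 0) (nat_lit 8855169401) (nat_lit 76) (nat_lit 5638947227) (nat_lit 152) (nat_lit 23891629589) (nat_lit 20) (nat_lit 5) (nat_lit 21) (nat_lit 5) (nat_lit 22) (nat_lit 4) (nat_lit 420) (nat_lit 283) (nat_lit 197)) (XT.nd (nat_lit 78) (nat_lit 0) (nat_lit 0) (XT.lf (nat_lit 0) (nat_lit 20822429180) (nat_lit 152) (nat_lit 17714144597) (nat_lit 0) (nat_lit 803920263) (nat_lit 20) (nat_lit 5) (nat_lit 22) (nat_lit 4) (nat_lit 20) (nat_lit 4) (nat_lit 421) (nat_lit 283) (nat_lit 196)) (XT.lf (nat_lit 0) (nat_lit 27370609719) (nat_lit 152) (nat_lit 5648514293) (nat_lit 0) (nat_lit 7303861734) (nat_lit 20) (nat_lit 5) (nat_lit 22) (nat_lit 4) (nat_lit 20) (nat_lit 4) (nat_lit 422) (nat_lit 283) (nat_lit 195)))) (XT.nd (nat_lit 156) (nat_lit 152) (nat_lit 0) (XT.nd (nat_lit 78) (nat_lit 0) (nat_lit 0) (XT.lf (nat_lit 0) (nat_lit 6865023221) (nat_lit 76) (nat_lit 27291142529) (nat_lit 76) (nat_lit 7177560496) (nat_lit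 19) (nat_lit 4) (nat_lit 20) (nat_lit 5) (nat_lit 20) (nat_lit 4) (nat_lit 423) (nat_lit 283) (nat_lit 194)) (XT.lf (nat_lit 0) (nat_lit 19822203650) (nat_lit 76) (nat_lit 21355335826) (nat_lit 76) (nat_lit 1196283844) (nat_lit 19) (nat_lit 4) (nat_lit 20) (nat_lit 5) (nat_lit 20) (nat_lit 4) (nat_lit 424) (nat_lit 283) (nat_lit 193))) (XT.nd (nat_lit 78) (nat_lit 76) (nat_lit 0) (XT.lf (nat_lit 0) (nat_lit 4843251172) (nat_lit 152) (nat_lit 10371397683) (nat_lit 76) (nat_lit 28229773780) (nat_lit 18) (nat_lit 5) (nat_lit 20) (nat_lit 5) (nat_lit 19) (nat_lit 4) (nat_lit 425) (nat_lit 283) (nat_lit 192)) (XT.lf (nat_lit 0) (nat_lit 2159226964) (nat_lit 76) (nat_lit 8877858905) (nat_lit 152) (nat_lit 33509785725) (nat_lit 17) (nat_lit 5) (nat_lit 18) (nat_lit 5) (nat_lit 19) (nat_lit 4) (nat_lit 426) (nat_lit 283) (nat_lit 191))))))) (XT.nd (nat_lit 1014) (nat_lit 228) (nat_lit 0) (XT.nd (nat_lit 468) (nat_lit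 152) (nat_lit 0) (XT.nd (nat_lit 234) (nat_lit 152) (nat_lit 0) (XT.nd (nat_lit 78) (nat_lit 0) (nat_lit 0) (XT.lf (nat_lit 0) (nat_lit 15233523992) (nat_lit 76) (nat_lit 2264600533) (nat_lit 152) (nat_lit 28181829508) (nat_lit 17) (nat_lit 5) (nat_lit 18) (nat_lit 5) (nat_lit 19) (nat_lit 4) (nat_lit 427) (nat_lit 283) (nat_lit 190)) (XT.nd (nat_lit 78) (nat_lit 0) (nat_lit 0) (XT.lf (nat_lit 0) (nat_lit 24173840694) (nat_lit 152) (nat_lit 18234712397) (nat_lit 0) (nat_lit 4437852095) (nat_lit 17) (nat_lit 5) (nat_lit 19) (nat_lit 4) (nat_lit 17) (nat_lit 4) (nat_lit 428) (nat_lit 283) (nat_lit 189)) (XT.lf (nat_lit 0) (nat_lit 31050053311) (nat_lit 152) (nat_lit 5721807050) (nat_lit 0) (nat_lit 11275984346) (nat_lit 17) (nat_lit 5) (nat_lit 19) (nat_lit 4) (nat_lit 17) (nat_lit 4) (nat_lit 429) (nat_lit 283) (nat_lit 188)))) (XT.nd (nat_lit 78) (nat_lit 76) (nat_lit 0) (XT.lf (nat_lit 0) (nat_lit 7266789569)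 (nat_lit 76) (nat_lit 30914065250) (nat_lit 76) (nat_lit 11103025056) (nat_lit 16) (nat_lit 4) (nat_lit 17) (nat_lit 5) (nat_lit 17) (nat_lit 4) (nat_lit 430) (nat_lit 283) (nat_lit 187)) (XT.nd (nat_lit 78) (nat_lit 76) (nat_lit 0) (XT.lf (nat_lit 0) (nat_lit 20721245230) (nat_lit 76) (nat_lit 24840796555) (nat_lit 76) (nat_lit 4993861963) (nat_lit 16) (nat_lit 4) (nat_lit 17) (nat_lit 5) (nat_lit 17) (nat_lit 4) (nat_lit 431) (nat_lit 283) (nat_lit 186)) (XT.lf (nat_lit 0) (nat_lit 1252333070) (nat_lit 152) (nat_lit 17339547388) (nat_lit 76) (nat_lit 33274461895) (nat_lit 15) (nat_lit 5) (nat_lit 17) (nat_lit 5) (nat_lit 16) (nat_lit 4) (nat_lit 432) (nat_lit 283) (nat_lit 185))))) (XT.nd (nat_lit 234) (nat_lit 76) (nat_lit 0) (XT.nd (nat_lit 78) (nat_lit 76) (nat_lit 0) (XT.lf (nat_lit 0) (nat_lit 7565248043) (nat_lit 152) (nat_lit 4558163904) (nat_lit 76) (nat_lit 41091809036) (nat_lit 15) (nat_lit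 5) (nat_lit 17) (nat_lit 5) (nat_lit 16) (nat_lit 4) (nat_lit 433) (nat_lit 283) (nat_lit 184)) (XT.nd (nat_lit 78) (nat_lit 0) (nat_lit 0) (XT.lf (nat_lit 0) (nat_lit 8739197408) (nat_lit 76) (nat_lit 5392656434) (nat_lit 152) (nat_lit 40470784355) (nat_lit 14) (nat_lit 5) (nat_lit 15) (nat_lit 5) (nat_lit 16) (nat_lit 4) (nat_lit 434) (nat_lit 283) (nat_lit 183)) (XT.lf (nat_lit 0) (nat_lit 20937080456) (nat_lit 152) (nat_lit 33554675060) (nat_lit 0) (nat_lit 1538675019) (nat_lit 14) (nat_lit 5) (nat_lit 16) (nat_lit 4) (nat_lit 14) (nat_lit 4) (nat_lit 435) (nat_lit 283) (nat_lit 182)))) (XT.nd (nat_lit 156) (nat_lit 76) (nat_lit 0) (XT.nd (nat_lit 78) (nat_lit 0) (nat_lit 0) (XT.lf (nat_lit 0) (nat_lit 27980764043) (nat_lit 152) (nat_lit 20966967231) (nat_lit 0) (nat_lit 8552297614) (nat_lit 14) (nat_lit 5) (nat_lit 16) (nat_lit 4) (nat_lit 14) (nat_lit 4) (nat_lit 436) (nat_lit 283) (nat_lit 181))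 (XT.lf (nat_lit 0) (nat_lit 35217221766) (nat_lit 152) (nat_lit 8037480821) (nat_lit 0) (nat_lit 15759569907) (nat_lit 14) (nat_lit 5) (nat_lit 16) (nat_lit 4) (nat_lit 14) (nat_lit 4) (nat_lit 437) (nat_lit 283) (nat_lit 180))) (XT.nd (nat_lit 78) (nat_lit 0) (nat_lit 0) (XT.lf (nat_lit 0) (nat_lit 5349469190) (nat_lit 76) (nat_lit 37354729925) (nat_lit 76) (nat_lit 17868742697) (nat_lit 13) (nat_lit 4) (nat_lit 14) (nat_lit 5) (nat_lit 14) (nat_lit 4) (nat_lit 438) (nat_lit 283) (nat_lit 179)) (XT.lf (nat_lit 0) (nat_lit 19268321036) (nat_lit 76) (nat_lit 31210823917) (nat_lit 76) (nat_lit 11697326622) (nat_lit 13) (nat_lit 4) (nat_lit 14) (nat_lit 5) (nat_lit 14) (nat_lit 4) (nat_lit 439) (nat_lit 283) (nat_lit 178)))))) (XT.nd (nat_lit 546) (nat_lit 76) (nat_lit 0) (XT.nd (nat_lit 234) (nat_lit 76) (nat_lit 0) (XT.nd (nat_lit 78) (nat_lit 76) (nat_lit 0) (XT.lf (nat_lit 0) (nat_lit 33571275191) (nat_lit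 76) (nat_lit 24898778901) (nat_lit 76) (nat_lit 5358572803) (nat_lit 13) (nat_lit 4) (nat_lit 14) (nat_lit 5) (nat_lit 14) (nat_lit 4) (nat_lit 440) (nat_lit 283) (nat_lit 177)) (XT.nd (nat_lit 78) (nat_lit 0) (nat_lit 0) (XT.lf (nat_lit 0) (nat_lit 1130557172) (nat_lit 152) (nat_lit 17271105913) (nat_lit 76) (nat_lit 47128855799) (nat_lit 12) (nat_lit 5) (nat_lit 14) (nat_lit 5) (nat_lit 13) (nat_lit 4) (nat_lit 441) (nat_lit 283) (nat_lit 176)) (XT.lf (nat_lit 0) (nat_lit 7690203858) (nat_lit 152) (nat_lit 3980198748) (nat_lit 76) (nat_lit 55611968042) (nat_lit 12) (nat_lit 5) (nat_lit 14) (nat_lit 5) (nat_lit 13) (nat_lit 4) (nat_lit 442) (nat_lit 283) (nat_lit 175)))) (XT.nd (nat_lit 156) (nat_lit 0) (nat_lit 0) (XT.nd (nat_lit 78) (nat_lit 0) (nat_lit 0) (XT.lf (nat_lit 0) (nat_lit 9871114071) (nat_lit 76) (nat_lit 4654437155) (nat_lit 152) (nat_lit 54558860388) (nat_lit 11) (nat_lit 5) (nat_lit 12)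 (nat_lit 5) (nat_lit 13) (nat_lit 4) (nat_lit 443) (nat_lit 283) (nat_lit 174)) (XT.lf (nat_lit 0) (nat_lit 21615325166) (nat_lit 152) (nat_lit 46775844952) (nat_lit 0) (nat_lit 2547863665) (nat_lit 11) (nat_lit 5) (nat_lit 13) (nat_lit 4) (nat_lit 11) (nat_lit 4) (nat_lit 444) (nat_lit 283) (nat_lit 173))) (XT.nd (nat_lit 78) (nat_lit 0) (nat_lit 0) (XT.lf (nat_lit 0) (nat_lit 28948392651) (nat_lit 152) (nat_lit 34041421937) (nat_lit 0) (nat_lit 9858562948) (nat_lit 11) (nat_lit 5) (nat_lit 13) (nat_lit 4) (nat_lit 11) (nat_lit 4) (nat_lit 445) (nat_lit 283) (nat_lit 172)) (XT.lf (nat_lit 0) (nat_lit 36486419919) (nat_lit 152) (nat_lit 20954160036) (nat_lit 0) (nat_lit 17374873516) (nat_lit 11) (nat_lit 5) (nat_lit 13) (nat_lit 4) (nat_lit 11) (nat_lit 4) (nat_lit 446) (nat_lit 283) (nat_lit 171))))) (XT.nd (nat_lit 37986) (nat_lit 0) (nat_lit 12844) (XT.nd (nat_lit 78) (nat_lit 76) (nat_lit 0) (XT.lf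 (nat_lit 0) (nat_lit 44235993597) (nat_lit 152) (nat_lit 7502623777) (nat_lit 0) (nat_lit 25103363019) (nat_lit 11) (nat_lit 5) (nat_lit 13) (nat_lit 4) (nat_lit 11) (nat_lit 4) (nat_lit 447) (nat_lit 283) (nat_lit 170)) (XT.nd (nat_lit 37830) (nat_lit 0) (nat_lit 14516) (XT.lf (nat_lit 0) (nat_lit 6450819329) (nat_lit 76) (nat_lit 45815075050) (nat_lit 76) (nat_lit 26661974398) (nat_lit 10) (nat_lit 4) (nat_lit 11) (nat_lit 5) (nat_lit 11) (nat_lit 4) (nat_lit 448) (nat_lit 283) (nat_lit 169)) (XT.lf (nat_lit 0) (nat_lit 643236852) (nat_lit 608) (nat_lit 2501430430) (nat_lit 0) (nat_lit 643236852) (nat_lit 201) (nat_lit 5) (nat_lit 209) (nat_lit 4) (nat_lit 201) (nat_lit 4) (nat_lit 332) (nat_lit 284) (nat_lit 284)))) (XT.nd (nat_lit 156) (nat_lit 1064) (nat_lit 0) (XT.nd (nat_lit 78) (nat_lit 76) (nat_lit 0) (XT.lf (nat_lit 0) (nat_lit 731612291) (nat_lit 532) (nat_lit 4160255704) (nat_lit 532) (nat_lit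 2757950545) (nat_lit 194) (nat_lit 4) (nat_lit 201) (nat_lit 5) (nat_lit 201) (nat_lit 4) (nat_lit 333) (nat_lit 284) (nat_lit 283)) (XT.lf (nat_lit 0) (nat_lit 814407137) (nat_lit 608) (nat_lit 1110519987) (nat_lit 76) (nat_lit 5802357587) (nat_lit 193) (nat_lit 5) (nat_lit 201) (nat_lit 5) (nat_lit 194) (nat_lit 4) (nat_lit 334) (nat_lit 284) (nat_lit 282))) (XT.nd (nat_lit 78) (nat_lit 608) (nat_lit 0) (XT.lf (nat_lit 0) (nat_lit 4393106967) (nat_lit 532) (nat_lit 2988033273) (nat_lit 0) (nat_lit 426530672) (nat_lit 187) (nat_lit 5) (nat_lit 194) (nat_lit 4) (nat_lit 187) (nat_lit 4) (nat_lit 335) (nat_lit 284) (nat_lit 281)) (XT.lf (nat_lit 0) (nat_lit 149255450) (nat_lit 608) (nat_lit 4909517700) (nat_lit 76) (nat_lit 2832764255) (nat_lit 179) (nat_lit 5) (nat_lit 187) (nat_lit 5) (nat_lit 180) (nat_lit 4) (nat_lit 336) (nat_lit 284) (nat_lit 280))))))))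
noncomputable def xc65 : XT := (XT.nd (nat_lit 2106) (nat_lit 3192) (nat_lit 0) (XT.nd (nat_lit 1014) (nat_lit 3040) (nat_lit 0) (XT.nd (nat_lit 468) (nat_lit 2280) (nat_lit 0) (XT.nd (nat_lit 234) (nat_lit 912) (nat_lit 0) (XT.nd (nat_lit 78) (nat_lit 532) (nat_lit 0) (XT.lf (nat_lit 0) (nat_lit 1085860355) (nat_lit 456) (nat_lit 2612665441) (nat_lit 532) (nat_lit 4280013713) (nat_lit 173) (nat_lit 5) (nat_lit 179) (nat_lit 5) (nat_lit 180) (nat_lit 4) (nat_lit 337) (nat_lit 284) (nat_lit 279)) (XT.nd (nat_lit 78) (nat_lit 532) (nat_lit 0) (XT.lf (nat_lit 0) (nat_lit 7246249808) (nat_lit 456) (nat_lit 65476948) (nat_lit 532) (nat_lit 757748740) (nat_lit 173) (nat_lit 5) (nat_lit 179) (nat_lit 5) (nat_lit 180) (nat_lit 4) (nat_lit 338) (nat_lit 284) (nat_lit 278)) (XT.lf (nat_lit 0) (nat_lit 2800785792) (nat_lit 532) (nat_lit 2796694091) (nat_lit 76) (nat_lit 2565278373) (nat_lit 166) (nat_lit 5) (nat_lit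 173) (nat_lit 5) (nat_lit 167) (nat_lit 4) (nat_lit 339) (nat_lit 284) (nat_lit 277)))) (XT.nd (nat_lit 78) (nat_lit 532) (nat_lit 0) (XT.lf (nat_lit 0) (nat_lit 3442939555) (nat_lit 380) (nat_lit 2960990958) (nat_lit 456) (nat_lit 1856134761) (nat_lit 161) (nat_lit 5) (nat_lit 166) (nat_lit 5) (nat_lit 167) (nat_lit 4) (nat_lit 340) (nat_lit 284) (nat_lit 276)) (XT.nd (nat_lit 78) (nat_lit 0) (nat_lit 0) (XT.lf (nat_lit 0) (nat_lit 1463047851) (nat_lit 456) (nat_lit 211703515) (nat_lit 532) (nat_lit 6686451429) (nat_lit 154) (nat_lit 5) (nat_lit 160) (nat_lit 5) (nat_lit 161) (nat_lit 5) (nat_lit 341) (nat_lit 284) (nat_lit 275)) (XT.lf (nat_lit 0) (nat_lit 5261305920) (nat_lit 532) (nat_lit 594831705) (nat_lit 76) (nat_lit 2609113733) (nat_lit 154) (nat_lit 5) (nat_lit 161) (nat_lit 5) (nat_lit 155) (nat_lit 4) (nat_lit 342) (nat_lit 284) (nat_lit 274))))) (XT.nd (nat_lit 234) (nat_lit 1140) (nat_lit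 0) (XT.nd (nat_lit 78) (nat_lit 684) (nat_lit 0) (XT.lf (nat_lit 0) (nat_lit 349324908) (nat_lit 456) (nat_lit 2679931109) (nat_lit 76) (nat_lit 5543879408) (nat_lit 148) (nat_lit 5) (nat_lit 154) (nat_lit 5) (nat_lit 149) (nat_lit 5) (nat_lit 343) (nat_lit 284) (nat_lit 273)) (XT.nd (nat_lit 78) (nat_lit 304) (nat_lit 0) (XT.lf (nat_lit 0) (nat_lit 3832578905) (nat_lit 380) (nat_lit 70927002) (nat_lit 456) (nat_lit 4781073500) (nat_lit 143) (nat_lit 5) (nat_lit 148) (nat_lit 5) (nat_lit 149) (nat_lit 5) (nat_lit 344) (nat_lit 284) (nat_lit 272)) (XT.lf (nat_lit 0) (nat_lit 1685324042) (nat_lit 304) (nat_lit 5867999069) (nat_lit 380) (nat_lit 1246408541) (nat_lit 139) (nat_lit 5) (nat_lit 143) (nat_lit 5) (nat_lit 144) (nat_lit 4) (nat_lit 345) (nat_lit 284) (nat_lit 271)))) (XT.nd (nat_lit 156) (nat_lit 684) (nat_lit 0) (XT.nd (nat_lit 78) (nat_lit 380) (nat_lit 0) (XT.lf (nat_lit 0) (nat_lit 2315107891)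 (nat_lit 380) (nat_lit 538918790) (nat_lit 76) (nat_lit 6064628575) (nat_lit 138) (nat_lit 5) (nat_lit 143) (nat_lit 5) (nat_lit 139) (nat_lit 5) (nat_lit 346) (nat_lit 284) (nat_lit 270)) (XT.lf (nat_lit 0) (nat_lit 5940875385) (nat_lit 456) (nat_lit 2813854079) (nat_lit 76) (nat_lit 286605440) (nat_lit 133) (nat_lit 5) (nat_lit 139) (nat_lit 5) (nat_lit 134) (nat_lit 4) (nat_lit 347) (nat_lit 284) (nat_lit 269))) (XT.nd (nat_lit 78) (nat_lit 304) (nat_lit 0) (XT.lf (nat_lit 0) (nat_lit 490391602) (nat_lit 380) (nat_lit 5196769772) (nat_lit 76) (nat_lit 3480640230) (nat_lit 128) (nat_lit 5) (nat_lit 133) (nat_lit 5) (nat_lit 129) (nat_lit 5) (nat_lit 348) (nat_lit 284) (nat_lit 268)) (XT.lf (nat_lit 0) (nat_lit 1606135158) (nat_lit 304) (nat_lit 2485784630) (nat_lit 380) (nat_lit 5206293091) (nat_lit 124) (nat_lit 5) (nat_lit 128) (nat_lit 5) (nat_lit 129) (nat_lit 5) (nat_lit 349) (nat_lit 284) (nat_lit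 267)))))) (XT.nd (nat_lit 546) (nat_lit 1368) (nat_lit 0) (XT.nd (nat_lit 234) (nat_lit 988) (nat_lit 0) (XT.nd (nat_lit 78) (nat_lit 684) (nat_lit 0) (XT.lf (nat_lit 0) (nat_lit 7784295598) (nat_lit 380) (nat_lit 834689788) (nat_lit 76) (nat_lit 814095727) (nat_lit 124) (nat_lit 5) (nat_lit 129) (nat_lit 5) (nat_lit 125) (nat_lit 4) (nat_lit 350) (nat_lit 284) (nat_lit 266)) (XT.nd (nat_lit 78) (nat_lit 304) (nat_lit 0) (XT.lf (nat_lit 0) (nat_lit 1984789659) (nat_lit 380) (nat_lit 3377881546) (nat_lit 76) (nat_lit 4208509875) (nat_lit 119) (nat_lit 5) (nat_lit 124) (nat_lit 5) (nat_lit 120) (nat_lit 5) (nat_lit 351) (nat_lit 284) (nat_lit 265)) (XT.lf (nat_lit 0) (nat_lit 3679314974) (nat_lit 304) (nat_lit 1983450359) (nat_lit 380) (nat_lit 4051139249) (nat_lit 115) (nat_lit 5) (nat_lit 119) (nat_lit 5) (nat_lit 120) (nat_lit 5) (nat_lit 352) (nat_lit 284) (nat_lit 264)))) (XT.nd (nat_lit 156) (nat_lit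 608) (nat_lit 0) (XT.nd (nat_lit 78) (nat_lit 76) (nat_lit 0) (XT.lf (nat_lit 0) (nat_lit 1050412222) (nat_lit 304) (nat_lit 8385029892) (nat_lit 380) (nat_lit 425962295) (nat_lit 111) (nat_lit 5) (nat_lit 115) (nat_lit 5) (nat_lit 116) (nat_lit 4) (nat_lit 353) (nat_lit 284) (nat_lit 263)) (XT.lf (nat_lit 0) (nat_lit 3250369299) (nat_lit 380) (nat_lit 1705207635) (nat_lit 76) (nat_lit 5056613873) (nat_lit 110) (nat_lit 5) (nat_lit 115) (nat_lit 5) (nat_lit 111) (nat_lit 5) (nat_lit 354) (nat_lit 284) (nat_lit 262))) (XT.nd (nat_lit 78) (nat_lit 304) (nat_lit 0) (XT.lf (nat_lit 0) (nat_lit 5608950717) (nat_lit 304) (nat_lit 1401328141) (nat_lit 380) (nat_lit 3157663247) (nat_lit 106) (nat_lit 5) (nat_lit 110) (nat_lit 5) (nat_lit 111) (nat_lit 5) (nat_lit 355) (nat_lit 284) (nat_lit 261)) (XT.lf (nat_lit 0) (nat_lit 538086170) (nat_lit 304) (nat_lit 7562753051) (nat_lit 76) (nat_lit 2227560085) (nat_lit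 102) (nat_lit 5) (nat_lit 106) (nat_lit 5) (nat_lit 103) (nat_lit 5) (nat_lit 356) (nat_lit 284) (nat_lit 260))))) (XT.nd (nat_lit 234) (nat_lit 760) (nat_lit 0) (XT.nd (nat_lit 78) (nat_lit 608) (nat_lit 0) (XT.lf (nat_lit 0) (nat_lit 4270535985) (nat_lit 304) (nat_lit 245498468) (nat_lit 76) (nat_lit 5977040371) (nat_lit 102) (nat_lit 5) (nat_lit 106) (nat_lit 5) (nat_lit 103) (nat_lit 5) (nat_lit 357) (nat_lit 284) (nat_lit 259)) (XT.nd (nat_lit 78) (nat_lit 304) (nat_lit 0) (XT.lf (nat_lit 0) (nat_lit 7326380648) (nat_lit 304) (nat_lit 790000999) (nat_lit 380) (nat_lit 2546287005) (nat_lit 98) (nat_lit 5) (nat_lit 102) (nat_lit 5) (nat_lit 103) (nat_lit 5) (nat_lit 358) (nat_lit 284) (nat_lit 258)) (XT.lf (nat_lit 0) (nat_lit 1220218936) (nat_lit 304) (nat_lit 6611146055) (nat_lit 76) (nat_lit 3005522117) (nat_lit 94) (nat_lit 5) (nat_lit 98) (nat_lit 5) (nat_lit 95) (nat_lit 5) (nat_lit 359) (nat_lit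 284) (nat_lit 257)))) (XT.nd (nat_lit 156) (nat_lit 532) (nat_lit 0) (XT.nd (nat_lit 78) (nat_lit 0) (nat_lit 0) (XT.lf (nat_lit 0) (nat_lit 943955270) (nat_lit 228) (nat_lit 4087385839) (nat_lit 304) (nat_lit 5984769674) (nat_lit 91) (nat_lit 5) (nat_lit 94) (nat_lit 5) (nat_lit 95) (nat_lit 5) (nat_lit 360) (nat_lit 284) (nat_lit 256)) (XT.lf (nat_lit 0) (nat_lit 8753499527) (nat_lit 228) (nat_lit 202885237) (nat_lit 304) (nat_lit 2244357177) (nat_lit 91) (nat_lit 5) (nat_lit 94) (nat_lit 5) (nat_lit 95) (nat_lit 5) (nat_lit 361) (nat_lit 284) (nat_lit 255))) (XT.nd (nat_lit 78) (nat_lit 228) (nat_lit 0) (XT.lf (nat_lit 0) (nat_lit 1599611411) (nat_lit 304) (nat_lit 6037460575) (nat_lit 76) (nat_lit 3752711801) (nat_lit 87) (nat_lit 5) (nat_lit 91) (nat_lit 5) (nat_lit 88) (nat_lit 5) (nat_lit 362) (nat_lit 284) (nat_lit 254)) (XT.lf (nat_lit 0) (nat_lit 1755603226) (nat_lit 228) (nat_lit 3736676524)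 (nat_lit 304) (nat_lit 6092212637) (nat_lit 84) (nat_lit 5) (nat_lit 87) (nat_lit 5) (nat_lit 88) (nat_lit 5) (nat_lit 363) (nat_lit 284) (nat_lit 253))))))) (XT.nd (nat_lit 1014) (nat_lit 1444) (nat_lit 0) (XT.nd (nat_lit 468) (nat_lit 836) (nat_lit 0) (XT.nd (nat_lit 234) (nat_lit 456) (nat_lit 0) (XT.nd (nat_lit 78) (nat_lit 456) (nat_lit 0) (XT.lf (nat_lit 0) (nat_lit 9501141483) (nat_lit 304) (nat_lit 1987273618) (nat_lit 76) (nat_lit 296661098) (nat_lit 84) (nat_lit 5) (nat_lit 88) (nat_lit 5) (nat_lit 85) (nat_lit 4) (nat_lit 364) (nat_lit 284) (nat_lit 252)) (XT.nd (nat_lit 78) (nat_lit 228) (nat_lit 0) (XT.lf (nat_lit 0) (nat_lit 1639272778) (nat_lit 228) (nat_lit 5939672421) (nat_lit 76) (nat_lit 4411295524) (nat_lit 81) (nat_lit 5) (nat_lit 84) (nat_lit 5) (nat_lit 82) (nat_lit 5) (nat_lit 365) (nat_lit 284) (nat_lit 251)) (XT.lf (nat_lit 0) (nat_lit 2083051605) (nat_lit 228) (nat_lit 3528758714)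 (nat_lit 304) (nat_lit 6589760271) (nat_lit 78) (nat_lit 5) (nat_lit 81) (nat_lit 5) (nat_lit 82) (nat_lit 5) (nat_lit 366) (nat_lit 284) (nat_lit 250)))) (XT.nd (nat_lit 78) (nat_lit 456) (nat_lit 0) (XT.lf (nat_lit 0) (nat_lit 9707966948) (nat_lit 304) (nat_lit 2060564606) (nat_lit 76) (nat_lit 650590039) (nat_lit 78) (nat_lit 5) (nat_lit 82) (nat_lit 5) (nat_lit 79) (nat_lit 4) (nat_lit 367) (nat_lit 284) (nat_lit 249)) (XT.nd (nat_lit 78) (nat_lit 228) (nat_lit 0) (XT.lf (nat_lit 0) (nat_lit 1293355886) (nat_lit 228) (nat_lit 6430738433) (nat_lit 76) (nat_lit 4917710327) (nat_lit 75) (nat_lit 5) (nat_lit 78) (nat_lit 5) (nat_lit 76) (nat_lit 5) (nat_lit 368) (nat_lit 284) (nat_lit 248)) (XT.lf (nat_lit 0) (nat_lit 1809056694) (nat_lit 228) (nat_lit 3532552804) (nat_lit 304) (nat_lit 7529423713) (nat_lit 72) (nat_lit 5) (nat_lit 75) (nat_lit 5) (nat_lit 76) (nat_lit 5) (nat_lit 369) (nat_lit 284) (nat_lit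 247))))) (XT.nd (nat_lit 234) (nat_lit 380) (nat_lit 0) (XT.nd (nat_lit 78) (nat_lit 456) (nat_lit 0) (XT.lf (nat_lit 0) (nat_lit 9524522517) (nat_lit 304) (nat_lit 2787648937) (nat_lit 76) (nat_lit 794583735) (nat_lit 72) (nat_lit 5) (nat_lit 76) (nat_lit 5) (nat_lit 73) (nat_lit 4) (nat_lit 370) (nat_lit 284) (nat_lit 246)) (XT.nd (nat_lit 78) (nat_lit 228) (nat_lit 0) (XT.lf (nat_lit 0) (nat_lit 505961387) (nat_lit 228) (nat_lit 7641337948) (nat_lit 76) (nat_lit 5201161675) (nat_lit 69) (nat_lit 5) (nat_lit 72) (nat_lit 5) (nat_lit 70) (nat_lit 5) (nat_lit 371) (nat_lit 284) (nat_lit 245)) (XT.lf (nat_lit 0) (nat_lit 797769272) (nat_lit 228) (nat_lit 3825132353) (nat_lit 304) (nat_lit 8974121173) (nat_lit 66) (nat_lit 5) (nat_lit 69) (nat_lit 5) (nat_lit 70) (nat_lit 5) (nat_lit 372) (nat_lit 284) (nat_lit 244)))) (XT.nd (nat_lit 156) (nat_lit 228) (nat_lit 0) (XT.nd (nat_lit 78) (nat_lit 152) (nat_lit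 0) (XT.lf (nat_lit 0) (nat_lit 8889651455) (nat_lit 304) (nat_lit 4310545199) (nat_lit 76) (nat_lit 652067214) (nat_lit 66) (nat_lit 5) (nat_lit 70) (nat_lit 5) (nat_lit 67) (nat_lit 4) (nat_lit 373) (nat_lit 284) (nat_lit 243)) (XT.lf (nat_lit 0) (nat_lit 4383677510) (nat_lit 152) (nat_lit 8924767210) (nat_lit 228) (nat_lit 806007357) (nat_lit 64) (nat_lit 5) (nat_lit 66) (nat_lit 5) (nat_lit 67) (nat_lit 4) (nat_lit 374) (nat_lit 284) (nat_lit 242))) (XT.nd (nat_lit 78) (nat_lit 152) (nat_lit 0) (XT.lf (nat_lit 0) (nat_lit 3395620021) (nat_lit 228) (nat_lit 1086936723) (nat_lit 76) (nat_lit 9901313292) (nat_lit 63) (nat_lit 5) (nat_lit 66) (nat_lit 5) (nat_lit 64) (nat_lit 5) (nat_lit 375) (nat_lit 284) (nat_lit 241)) (XT.lf (nat_lit 0) (nat_lit 7729867729) (nat_lit 228) (nat_lit 6794236868) (nat_lit 76) (nat_lit 136353576) (nat_lit 61) (nat_lit 5) (nat_lit 64) (nat_lit 5) (nat_lit 62) (nat_lit 4) (nat_lit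 376) (nat_lit 284) (nat_lit 240)))))) (XT.nd (nat_lit 546) (nat_lit 684) (nat_lit 0) (XT.nd (nat_lit 234) (nat_lit 380) (nat_lit 0) (XT.nd (nat_lit 78) (nat_lit 228) (nat_lit 0) (XT.lf (nat_lit 0) (nat_lit 2066603870) (nat_lit 152) (nat_lit 10148977580) (nat_lit 228) (nat_lit 2729129240) (nat_lit 59) (nat_lit 5) (nat_lit 61) (nat_lit 5) (nat_lit 62) (nat_lit 4) (nat_lit 377) (nat_lit 284) (nat_lit 239)) (XT.nd (nat_lit 78) (nat_lit 152) (nat_lit 0) (XT.lf (nat_lit 0) (nat_lit 1582714363) (nat_lit 228) (nat_lit 4013557519) (nat_lit 76) (nat_lit 9640301429) (nat_lit 58) (nat_lit 5) (nat_lit 61) (nat_lit 5) (nat_lit 59) (nat_lit 5) (nat_lit 378) (nat_lit 284) (nat_lit 238)) (XT.lf (nat_lit 0) (nat_lit 5097507861) (nat_lit 152) (nat_lit 868359650) (nat_lit 228) (nat_lit 9570618509) (nat_lit 56) (nat_lit 5) (nat_lit 58) (nat_lit 5) (nat_lit 59) (nat_lit 5) (nat_lit 379) (nat_lit 284) (nat_lit 237)))) (XT.nd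 (nat_lit 156) (nat_lit 228) (nat_lit 0) (XT.nd (nat_lit 78) (nat_lit 152) (nat_lit 0) (XT.lf (nat_lit 0) (nat_lit 10507982867) (nat_lit 228) (nat_lit 1411011771) (nat_lit 76) (nat_lit 3925586236) (nat_lit 56) (nat_lit 5) (nat_lit 59) (nat_lit 5) (nat_lit 57) (nat_lit 4) (nat_lit 380) (nat_lit 284) (nat_lit 236)) (XT.lf (nat_lit 0) (nat_lit 7944765185) (nat_lit 152) (nat_lit 7276149948) (nat_lit 228) (nat_lit 939975371) (nat_lit 54) (nat_lit 5) (nat_lit 56) (nat_lit 5) (nat_lit 57) (nat_lit 4) (nat_lit 381) (nat_lit 284) (nat_lit 235))) (XT.nd (nat_lit 78) (nat_lit 0) (nat_lit 0) (XT.lf (nat_lit 0) (nat_lit 1019542621) (nat_lit 152) (nat_lit 2472869422) (nat_lit 228) (nat_lit 12994033819) (nat_lit 51) (nat_lit 5) (nat_lit 53) (nat_lit 5) (nat_lit 54) (nat_lit 5) (nat_lit 382) (nat_lit 284) (nat_lit 234)) (XT.lf (nat_lit 0) (nat_lit 8096391822) (nat_lit 228) (nat_lit 6242329049) (nat_lit 76) (nat_lit 2481050219)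 (nat_lit 51) (nat_lit 5) (nat_lit 54) (nat_lit 5) (nat_lit 52) (nat_lit 4) (nat_lit 383) (nat_lit 284) (nat_lit 233))))) (XT.nd (nat_lit 234) (nat_lit 304) (nat_lit 0) (XT.nd (nat_lit 78) (nat_lit 228) (nat_lit 0) (XT.lf (nat_lit 0) (nat_lit 3209913500) (nat_lit 152) (nat_lit 9635313706) (nat_lit 228) (nat_lit 4317674364) (nat_lit 49) (nat_lit 5) (nat_lit 51) (nat_lit 5) (nat_lit 52) (nat_lit 4) (nat_lit 384) (nat_lit 284) (nat_lit 232)) (XT.nd (nat_lit 78) (nat_lit 152) (nat_lit 0) (XT.lf (nat_lit 0) (nat_lit 231063635) (nat_lit 228) (nat_lit 4530830053) (nat_lit 76) (nat_lit 12753921156) (nat_lit 48) (nat_lit 5) (nat_lit 51) (nat_lit 5) (nat_lit 49) (nat_lit 5) (nat_lit 385) (nat_lit 284) (nat_lit 231)) (XT.lf (nat_lit 0) (nat_lit 4834897986) (nat_lit 228) (nat_lit 12734114204) (nat_lit 76) (nat_lit 308865333) (nat_lit 46) (nat_lit 5) (nat_lit 49) (nat_lit 5) (nat_lit 47) (nat_lit 4) (nat_lit 386) (nat_lit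 284) (nat_lit 230)))) (XT.nd (nat_lit 156) (nat_lit 228) (nat_lit 0) (XT.nd (nat_lit 78) (nat_lit 76) (nat_lit 0) (XT.lf (nat_lit 0) (nat_lit 9623316918) (nat_lit 228) (nat_lit 3180564518) (nat_lit 76) (nat_lit 5445533296) (nat_lit 46) (nat_lit 5) (nat_lit 49) (nat_lit 5) (nat_lit 47) (nat_lit 4) (nat_lit 387) (nat_lit 284) (nat_lit 229)) (XT.lf (nat_lit 0) (nat_lit 6707957364) (nat_lit 76) (nat_lit 7866394174) (nat_lit 152) (nat_lit 4057184167) (nat_lit 45) (nat_lit 5) (nat_lit 46) (nat_lit 5) (nat_lit 47) (nat_lit 4) (nat_lit 388) (nat_lit 284) (nat_lit 228))) (XT.nd (nat_lit 78) (nat_lit 152) (nat_lit 0) (XT.lf (nat_lit 0) (nat_lit 623142771) (nat_lit 152) (nat_lit 2155009925) (nat_lit 76) (nat_lit 16247176490) (nat_lit 44) (nat_lit 5) (nat_lit 46) (nat_lit 5) (nat_lit 45) (nat_lit 5) (nat_lit 389) (nat_lit 284) (nat_lit 227)) (XT.lf (nat_lit 0) (nat_lit 5419043240) (nat_lit 228) (nat_lit 11512068782)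 (nat_lit 76) (nat_lit 2496924057) (nat_lit 42) (nat_lit 5) (nat_lit 45) (nat_lit 5) (nat_lit 43) (nat_lit 4) (nat_lit 390) (nat_lit 284) (nat_lit 226))))))))
noncomputable def xc66 : XT := (XT.nd (nat_lit 2106) (nat_lit 912) (nat_lit 0) (XT.nd (nat_lit 1014) (nat_lit 532) (nat_lit 0) (XT.nd (nat_lit 468) (nat_lit 532) (nat_lit 0) (XT.nd (nat_lit 234) (nat_lit 228) (nat_lit 0) (XT.nd (nat_lit 78) (nat_lit 152) (nat_lit 0) (XT.lf (nat_lit 0) (nat_lit 10364374369) (nat_lit 228) (nat_lit 1617051144) (nat_lit 76) (nat_lit 7861237867) (nat_lit 42) (nat_lit 5) (nat_lit 45) (nat_lit 5) (nat_lit 43) (nat_lit 4) (nat_lit 391) (nat_lit 284) (nat_lit 225)) (XT.nd (nat_lit 78) (nat_lit 76) (nat_lit 0) (XT.lf (nat_lit 0) (nat_lit 8665853687) (nat_lit 76) (nat_lit 6832863086) (nat_lit 152) (nat_lit 4769798831) (nat_lit 41) (nat_lit 5) (nat_lit 42) (nat_lit 5) (nat_lit 43) (nat_lit 4) (nat_lit 392) (nat_lit 284) (nat_lit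 224)) (XT.lf (nat_lit 0) (nat_lit 52303067) (nat_lit 152) (nat_lit 1495342683) (nat_lit 76) (nat_lit 19160262395) (nat_lit 40) (nat_lit 5) (nat_lit 42) (nat_lit 5) (nat_lit 41) (nat_lit 5) (nat_lit 393) (nat_lit 284) (nat_lit 223)))) (XT.nd (nat_lit 78) (nat_lit 76) (nat_lit 0) (XT.lf (nat_lit 0) (nat_lit 5006504068) (nat_lit 228) (nat_lit 12229091920) (nat_lit 76) (nat_lit 3920975739) (nat_lit 38) (nat_lit 5) (nat_lit 41) (nat_lit 5) (nat_lit 39) (nat_lit 4) (nat_lit 394) (nat_lit 284) (nat_lit 222)) (XT.nd (nat_lit 78) (nat_lit 76) (nat_lit 0) (XT.lf (nat_lit 0) (nat_lit 10098722347) (nat_lit 228) (nat_lit 2016108408) (nat_lit 76) (nat_lit 9504187735) (nat_lit 38) (nat_lit 5) (nat_lit 41) (nat_lit 5) (nat_lit 39) (nat_lit 4) (nat_lit 395) (nat_lit 284) (nat_lit 221)) (XT.lf (nat_lit 0) (nat_lit 8597208177) (nat_lit 76) (nat_lit 6789158570) (nat_lit 152) (nat_lit 6707696989) (nat_lit 37) (nat_lit 5) (nat_lit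 38) (nat_lit 5) (nat_lit 39) (nat_lit 4) (nat_lit 396) (nat_lit 284) (nat_lit 220))))) (XT.nd (nat_lit 234) (nat_lit 304) (nat_lit 0) (XT.nd (nat_lit 78) (nat_lit 228) (nat_lit 0) (XT.lf (nat_lit 0) (nat_lit 19497157293) (nat_lit 76) (nat_lit 1316321768) (nat_lit 152) (nat_lit 1770460846) (nat_lit 37) (nat_lit 5) (nat_lit 38) (nat_lit 5) (nat_lit 39) (nat_lit 4) (nat_lit 397) (nat_lit 284) (nat_lit 219)) (XT.nd (nat_lit 78) (nat_lit 0) (nat_lit 0) (XT.lf (nat_lit 0) (nat_lit 3327559129) (nat_lit 228) (nat_lit 15446883829) (nat_lit 76) (nat_lit 4310797350) (nat_lit 34) (nat_lit 5) (nat_lit 37) (nat_lit 5) (nat_lit 35) (nat_lit 4) (nat_lit 398) (nat_lit 284) (nat_lit 218)) (XT.lf (nat_lit 0) (nat_lit 8548824921) (nat_lit 228) (nat_lit 4954867184) (nat_lit 76) (nat_lit 10097189367) (nat_lit 34) (nat_lit 5) (nat_lit 37) (nat_lit 5) (nat_lit 35) (nat_lit 4) (nat_lit 399) (nat_lit 284) (nat_lit 217)))) (XT.nd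 (nat_lit 156) (nat_lit 228) (nat_lit 0) (XT.nd (nat_lit 78) (nat_lit 0) (nat_lit 0) (XT.lf (nat_lit 0) (nat_lit 5897201603) (nat_lit 76) (nat_lit 8048717279) (nat_lit 152) (nat_lit 10185501482) (nat_lit 33) (nat_lit 5) (nat_lit 34) (nat_lit 5) (nat_lit 35) (nat_lit 4) (nat_lit 400) (nat_lit 284) (nat_lit 216)) (XT.lf (nat_lit 0) (nat_lit 17107302532) (nat_lit 76) (nat_lit 2410588186) (nat_lit 152) (nat_lit 5159599830) (nat_lit 33) (nat_lit 5) (nat_lit 34) (nat_lit 5) (nat_lit 35) (nat_lit 4) (nat_lit 401) (nat_lit 284) (nat_lit 215))) (XT.nd (nat_lit 78) (nat_lit 0) (nat_lit 0) (XT.lf (nat_lit 0) (nat_lit 45872454) (nat_lit 228) (nat_lit 21860350491) (nat_lit 76) (nat_lit 3332845003) (nat_lit 30) (nat_lit 5) (nat_lit 33) (nat_lit 5) (nat_lit 31) (nat_lit 4) (nat_lit 402) (nat_lit 284) (nat_lit 214)) (XT.lf (nat_lit 0) (nat_lit 5368637499) (nat_lit 228) (nat_lit 11147568494) (nat_lit 76) (nat_lit 9297812909)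 (nat_lit 30) (nat_lit 5) (nat_lit 33) (nat_lit 5) (nat_lit 31) (nat_lit 4) (nat_lit 403) (nat_lit 284) (nat_lit 213)))))) (XT.nd (nat_lit 546) (nat_lit 228) (nat_lit 0) (XT.nd (nat_lit 234) (nat_lit 228) (nat_lit 0) (XT.nd (nat_lit 78) (nat_lit 76) (nat_lit 0) (XT.lf (nat_lit 0) (nat_lit 10815904235) (nat_lit 228) (nat_lit 179355897) (nat_lit 76) (nat_lit 15412017312) (nat_lit 30) (nat_lit 5) (nat_lit 33) (nat_lit 5) (nat_lit 31) (nat_lit 4) (nat_lit 404) (nat_lit 284) (nat_lit 212)) (XT.nd (nat_lit 78) (nat_lit 0) (nat_lit 0) (XT.lf (nat_lit 0) (nat_lit 11273864884) (nat_lit 76) (nat_lit 5226938812) (nat_lit 152) (nat_lit 10515307121) (nat_lit 29) (nat_lit 5) (nat_lit 30) (nat_lit 5) (nat_lit 31) (nat_lit 4) (nat_lit 405) (nat_lit 284) (nat_lit 211)) (XT.lf (nat_lit 0) (nat_lit 22330890734) (nat_lit 152) (nat_lit 4639817276) (nat_lit 0) (nat_lit 673265376) (nat_lit 29) (nat_lit 5) (nat_lit 31) (nat_lit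 4) (nat_lit 29) (nat_lit 4) (nat_lit 406) (nat_lit 284) (nat_lit 210)))) (XT.nd (nat_lit 156) (nat_lit 76) (nat_lit 0) (XT.nd (nat_lit 78) (nat_lit 0) (nat_lit 0) (XT.lf (nat_lit 0) (nat_lit 129350992) (nat_lit 152) (nat_lit 21474774675) (nat_lit 76) (nat_lit 6683985608) (nat_lit 27) (nat_lit 5) (nat_lit 29) (nat_lit 5) (nat_lit 28) (nat_lit 4) (nat_lit 407) (nat_lit 284) (nat_lit 209)) (XT.lf (nat_lit 0) (nat_lit 5642566265) (nat_lit 152) (nat_lit 10360357214) (nat_lit 76) (nat_lit 12946645912) (nat_lit 27) (nat_lit 5) (nat_lit 29) (nat_lit 5) (nat_lit 28) (nat_lit 4) (nat_lit 408) (nat_lit 284) (nat_lit 208))) (XT.nd (nat_lit 78) (nat_lit 0) (nat_lit 0) (XT.lf (nat_lit 0) (nat_lit 1047429330) (nat_lit 76) (nat_lit 10251758335) (nat_lit 152) (nat_lit 18332346328) (nat_lit 26) (nat_lit 5) (nat_lit 27) (nat_lit 5) (nat_lit 28) (nat_lit 4) (nat_lit 409) (nat_lit 284) (nat_lit 207)) (XT.lf (nat_lit 0) (nat_lit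 12949917242) (nat_lit 76) (nat_lit 4248508763) (nat_lit 152) (nat_lit 13133346924) (nat_lit 26) (nat_lit 5) (nat_lit 27) (nat_lit 5) (nat_lit 28) (nat_lit 4) (nat_lit 410) (nat_lit 284) (nat_lit 206))))) (XT.nd (nat_lit 234) (nat_lit 76) (nat_lit 0) (XT.nd (nat_lit 78) (nat_lit 152) (nat_lit 0) (XT.lf (nat_lit 0) (nat_lit 23262199422) (nat_lit 152) (nat_lit 5920965484) (nat_lit 0) (nat_lit 1870230248) (nat_lit 26) (nat_lit 5) (nat_lit 28) (nat_lit 4) (nat_lit 26) (nat_lit 4) (nat_lit 411) (nat_lit 284) (nat_lit 205)) (XT.nd (nat_lit 78) (nat_lit 76) (nat_lit 0) (XT.lf (nat_lit 0) (nat_lit 5899697354) (nat_lit 76) (nat_lit 23676827810) (nat_lit 76) (nat_lit 2218084483) (nat_lit 25) (nat_lit 4) (nat_lit 26) (nat_lit 5) (nat_lit 26) (nat_lit 4) (nat_lit 412) (nat_lit 284) (nat_lit 204)) (XT.lf (nat_lit 0) (nat_lit 3483770627) (nat_lit 152) (nat_lit 14451518227) (nat_lit 76) (nat_lit 14620850154) (nat_lit 24)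 (nat_lit 5) (nat_lit 26) (nat_lit 5) (nat_lit 25) (nat_lit 4) (nat_lit 413) (nat_lit 284) (nat_lit 203)))) (XT.nd (nat_lit 156) (nat_lit 0) (nat_lit 0) (XT.nd (nat_lit 78) (nat_lit 76) (nat_lit 0) (XT.lf (nat_lit 0) (nat_lit 9282876402) (nat_lit 152) (nat_lit 2742274546) (nat_lit 76) (nat_lit 21315583715) (nat_lit 24) (nat_lit 5) (nat_lit 26) (nat_lit 5) (nat_lit 25) (nat_lit 4) (nat_lit 414) (nat_lit 284) (nat_lit 202)) (XT.lf (nat_lit 0) (nat_lit 9448750872) (nat_lit 76) (nat_lit 5869659140) (nat_lit 152) (nat_lit 18828587002) (nat_lit 23) (nat_lit 5) (nat_lit 24) (nat_lit 5) (nat_lit 25) (nat_lit 4) (nat_lit 415) (nat_lit 284) (nat_lit 201))) (XT.nd (nat_lit 78) (nat_lit 0) (nat_lit 0) (XT.lf (nat_lit 0) (nat_lit 21539196103) (nat_lit 152) (nat_lit 12973640009) (nat_lit 0) (nat_lit 464487924) (nat_lit 23) (nat_lit 5) (nat_lit 25) (nat_lit 4) (nat_lit 23) (nat_lit 4) (nat_lit 416) (nat_lit 284) (nat_lit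 200)) (XT.lf (nat_lit 0) (nat_lit 27977243535) (nat_lit 152) (nat_lit 1007787471) (nat_lit 0) (nat_lit 6846613054) (nat_lit 23) (nat_lit 5) (nat_lit 25) (nat_lit 4) (nat_lit 23) (nat_lit 4) (nat_lit 417) (nat_lit 284) (nat_lit 199))))))) (XT.nd (nat_lit 1014) (nat_lit 456) (nat_lit 0) (XT.nd (nat_lit 468) (nat_lit 228) (nat_lit 0) (XT.nd (nat_lit 234) (nat_lit 76) (nat_lit 0) (XT.nd (nat_lit 78) (nat_lit 76) (nat_lit 0) (XT.lf (nat_lit 0) (nat_lit 11490409093) (nat_lit 76) (nat_lit 23201798780) (nat_lit 76) (nat_lit 2016874803) (nat_lit 22) (nat_lit 4) (nat_lit 23) (nat_lit 5) (nat_lit 23) (nat_lit 4) (nat_lit 418) (nat_lit 284) (nat_lit 198)) (XT.nd (nat_lit 78) (nat_lit 0) (nat_lit 0) (XT.lf (nat_lit 0) (nat_lit 3901434389) (nat_lit 152) (nat_lit 13317724300) (nat_lit 76) (nat_lit 20393026705) (nat_lit 21) (nat_lit 5) (nat_lit 23) (nat_lit 5) (nat_lit 22) (nat_lit 4) (nat_lit 419) (nat_lit 284) (nat_lit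 197)) (XT.lf (nat_lit 0) (nat_lit 9930884075) (nat_lit 152) (nat_lit 1129118264) (nat_lit 76) (nat_lit 27482557993) (nat_lit 21) (nat_lit 5) (nat_lit 23) (nat_lit 5) (nat_lit 22) (nat_lit 4) (nat_lit 420) (nat_lit 284) (nat_lit 196)))) (XT.nd (nat_lit 78) (nat_lit 0) (nat_lit 0) (XT.lf (nat_lit 0) (nat_lit 11603610430) (nat_lit 76) (nat_lit 4624029771) (nat_lit 152) (nat_lit 23270615635) (nat_lit 20) (nat_lit 5) (nat_lit 21) (nat_lit 5) (nat_lit 22) (nat_lit 4) (nat_lit 421) (nat_lit 284) (nat_lit 195)) (XT.nd (nat_lit 78) (nat_lit 0) (nat_lit 0) (XT.lf (nat_lit 0) (nat_lit 22719026551) (nat_lit 152) (nat_lit 15808222764) (nat_lit 0) (nat_lit 1955203010) (nat_lit 20) (nat_lit 5) (nat_lit 22) (nat_lit 4) (nat_lit 20) (nat_lit 4) (nat_lit 422) (nat_lit 284) (nat_lit 194)) (XT.lf (nat_lit 0) (nat_lit 29426606162) (nat_lit 152) (nat_lit 3451614215) (nat_lit 0) (nat_lit 8617312672) (nat_lit 20) (nat_lit 5) (nat_lit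 22) (nat_lit 4) (nat_lit 20) (nat_lit 4) (nat_lit 423) (nat_lit 284) (nat_lit 193))))) (XT.nd (nat_lit 234) (nat_lit 76) (nat_lit 0) (XT.nd (nat_lit 78) (nat_lit 76) (nat_lit 0) (XT.lf (nat_lit 0) (nat_lit 9414129860) (nat_lit 76) (nat_lit 26988155537) (nat_lit 76) (nat_lit 6134716466) (nat_lit 19) (nat_lit 4) (nat_lit 20) (nat_lit 5) (nat_lit 20) (nat_lit 4) (nat_lit 424) (nat_lit 284) (nat_lit 192)) (XT.nd (nat_lit 78) (nat_lit 76) (nat_lit 0) (XT.lf (nat_lit 0) (nat_lit 22691778442) (nat_lit 76) (nat_lit 20906946127) (nat_lit 76) (nat_lit 10647267) (nat_lit 19) (nat_lit 4) (nat_lit 20) (nat_lit 5) (nat_lit 20) (nat_lit 4) (nat_lit 425) (nat_lit 284) (nat_lit 191)) (XT.lf (nat_lit 0) (nat_lit 6151353307) (nat_lit 152) (nat_lit 8450663089) (nat_lit 76) (nat_lit 30110769553) (nat_lit 18) (nat_lit 5) (nat_lit 20) (nat_lit 5) (nat_lit 19) (nat_lit 4) (nat_lit 426) (nat_lit 284) (nat_lit 190)))) (XT.nd (nat_lit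 156) (nat_lit 0) (nat_lit 0) (XT.nd (nat_lit 78) (nat_lit 0) (nat_lit 0) (XT.lf (nat_lit 0) (nat_lit 4433999155) (nat_lit 76) (nat_lit 8084379623) (nat_lit 152) (nat_lit 33330310810) (nat_lit 17) (nat_lit 5) (nat_lit 18) (nat_lit 5) (nat_lit 19) (nat_lit 4) (nat_lit 427) (nat_lit 284) (nat_lit 189)) (XT.lf (nat_lit 0) (nat_lit 17836156296) (nat_lit 76) (nat_lit 1303591899) (nat_lit 152) (nat_lit 27877023726) (nat_lit 17) (nat_lit 5) (nat_lit 18) (nat_lit 5) (nat_lit 19) (nat_lit 4) (nat_lit 428) (nat_lit 284) (nat_lit 188))) (XT.nd (nat_lit 78) (nat_lit 0) (nat_lit 0) (XT.lf (nat_lit 0) (nat_lit 25992813972) (nat_lit 152) (nat_lit 16675621290) (nat_lit 0) (nat_lit 5550471343) (nat_lit 17) (nat_lit 5) (nat_lit 19) (nat_lit 4) (nat_lit 17) (nat_lit 4) (nat_lit 429) (nat_lit 284) (nat_lit 187)) (XT.lf (nat_lit 0) (nat_lit 33043455937) (nat_lit 152) (nat_lit 3848672447) (nat_lit 0) (nat_lit 12565218910) (nat_lit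 17) (nat_lit 5) (nat_lit 19) (nat_lit 4) (nat_lit 17) (nat_lit 4) (nat_lit 430) (nat_lit 284) (nat_lit 186)))))) (XT.nd (nat_lit 546) (nat_lit 228) (nat_lit 0) (XT.nd (nat_lit 234) (nat_lit 76) (nat_lit 0) (XT.nd (nat_lit 78) (nat_lit 76) (nat_lit 0) (XT.lf (nat_lit 0) (nat_lit 9509535120) (nat_lit 76) (nat_lit 30867180271) (nat_lit 76) (nat_lit 10354094314) (nat_lit 16) (nat_lit 4) (nat_lit 17) (nat_lit 5) (nat_lit 17) (nat_lit 4) (nat_lit 431) (nat_lit 284) (nat_lit 185)) (XT.nd (nat_lit 78) (nat_lit 76) (nat_lit 0) (XT.lf (nat_lit 0) (nat_lit 23308651387) (nat_lit 76) (nat_lit 24640091386) (nat_lit 76) (nat_lit 4093171518) (nat_lit 16) (nat_lit 4) (nat_lit 17) (nat_lit 5) (nat_lit 17) (nat_lit 4) (nat_lit 432) (nat_lit 284) (nat_lit 184)) (XT.lf (nat_lit 0) (nat_lit 2289909996) (nat_lit 152) (nat_lit 15931251033) (nat_lit 76) (nat_lit 35171104106) (nat_lit 15) (nat_lit 5) (nat_lit 17) (nat_lit 5) (nat_lit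 16) (nat_lit 4) (nat_lit 433) (nat_lit 284) (nat_lit 183)))) (XT.nd (nat_lit 156) (nat_lit 0) (nat_lit 0) (XT.nd (nat_lit 78) (nat_lit 76) (nat_lit 0) (XT.lf (nat_lit 0) (nat_lit 8763086004) (nat_lit 152) (nat_lit 2822595446) (nat_lit 76) (nat_lit 43196804428) (nat_lit 15) (nat_lit 5) (nat_lit 17) (nat_lit 5) (nat_lit 16) (nat_lit 4) (nat_lit 434) (nat_lit 284) (nat_lit 182)) (XT.lf (nat_lit 0) (nat_lit 10855330692) (nat_lit 76) (nat_lit 4660902583) (nat_lit 152) (nat_lit 40695607937) (nat_lit 14) (nat_lit 5) (nat_lit 15) (nat_lit 5) (nat_lit 16) (nat_lit 4) (nat_lit 435) (nat_lit 284) (nat_lit 181))) (XT.nd (nat_lit 78) (nat_lit 0) (nat_lit 0) (XT.lf (nat_lit 0) (nat_lit 22505982198) (nat_lit 152) (nat_lit 32741660650) (nat_lit 0) (nat_lit 2435415354) (nat_lit 14) (nat_lit 5) (nat_lit 16) (nat_lit 4) (nat_lit 14) (nat_lit 4) (nat_lit 436) (nat_lit 284) (nat_lit 180)) (XT.lf (nat_lit 0) (nat_lit 29733574662)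 (nat_lit 152) (nat_lit 19829321236) (nat_lit 0) (nat_lit 9634672449) (nat_lit 14) (nat_lit 5) (nat_lit 16) (nat_lit 4) (nat_lit 14) (nat_lit 4) (nat_lit 437) (nat_lit 284) (nat_lit 179))))) (XT.nd (nat_lit 234) (nat_lit 152) (nat_lit 0) (XT.nd (nat_lit 78) (nat_lit 76) (nat_lit 0) (XT.lf (nat_lit 0) (nat_lit 37160522592) (nat_lit 152) (nat_lit 6563406205) (nat_lit 0) (nat_lit 17034110312) (nat_lit 14) (nat_lit 5) (nat_lit 16) (nat_lit 4) (nat_lit 14) (nat_lit 4) (nat_lit 438) (nat_lit 284) (nat_lit 178)) (XT.nd (nat_lit 78) (nat_lit 0) (nat_lit 0) (XT.lf (nat_lit 0) (nat_lit 7208336630) (nat_lit 76) (nat_lit 37654269866) (nat_lit 76) (nat_lit 17501148783) (nat_lit 13) (nat_lit 4) (nat_lit 14) (nat_lit 5) (nat_lit 14) (nat_lit 4) (nat_lit 439) (nat_lit 284) (nat_lit 177)) (XT.lf (nat_lit 0) (nat_lit 21495286554) (nat_lit 76) (nat_lit 31349962269) (nat_lit 76) (nat_lit 11170910310) (nat_lit 13) (nat_lit 4)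 (nat_lit 14) (nat_lit 5) (nat_lit 14) (nat_lit 4) (nat_lit 440) (nat_lit 284) (nat_lit 176)))) (XT.nd (nat_lit 156) (nat_lit 76) (nat_lit 0) (XT.nd (nat_lit 78) (nat_lit 76) (nat_lit 0) (XT.lf (nat_lit 0) (nat_lit 36179302658) (nat_lit 76) (nat_lit 24871774923) (nat_lit 76) (nat_lit 4667547355) (nat_lit 13) (nat_lit 4) (nat_lit 14) (nat_lit 5) (nat_lit 14) (nat_lit 4) (nat_lit 441) (nat_lit 284) (nat_lit 175)) (XT.lf (nat_lit 0) (nat_lit 1975310087) (nat_lit 152) (nat_lit 16218790428) (nat_lit 76) (nat_lit 49277958788) (nat_lit 12) (nat_lit 5) (nat_lit 14) (nat_lit 5) (nat_lit 13) (nat_lit 4) (nat_lit 442) (nat_lit 284) (nat_lit 174))) (XT.nd (nat_lit 78) (nat_lit 76) (nat_lit 0) (XT.lf (nat_lit 0) (nat_lit 8708129585) (nat_lit 152) (nat_lit 2574897272) (nat_lit 76) (nat_lit 57994149719) (nat_lit 12) (nat_lit 5) (nat_lit 14) (nat_lit 5) (nat_lit 13) (nat_lit 4) (nat_lit 443) (nat_lit 284) (nat_lit 173))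 (XT.lf (nat_lit 0) (nat_lit 11677006820) (nat_lit 76) (nat_lit 4063114558) (nat_lit 152) (nat_lit 55393411288) (nat_lit 11) (nat_lit 5) (nat_lit 12) (nat_lit 5) (nat_lit 13) (nat_lit 4) (nat_lit 444) (nat_lit 284) (nat_lit 172))))))))
noncomputable def xc67 : XT := (XT.nd (nat_lit 39702) (nat_lit 0) (nat_lit 3420) (XT.nd (nat_lit 38610) (nat_lit 0) (nat_lit 7904) (XT.nd (nat_lit 38064) (nat_lit 0) (nat_lit 12236) (XT.nd (nat_lit 234) (nat_lit 0) (nat_lit 0) (XT.nd (nat_lit 78) (nat_lit 0) (nat_lit 0) (XT.lf (nat_lit 0) (nat_lit 23026726676) (nat_lit 152) (nat_lit 46697426873) (nat_lit 0) (nat_lit 3320117180) (nat_lit 11) (nat_lit 5) (nat_lit 13) (nat_lit 4) (nat_lit 11) (nat_lit 4) (nat_lit 445) (nat_lit 284) (nat_lit 171)) (XT.nd (nat_lit 78) (nat_lit 0) (nat_lit 0) (XT.lf (nat_lit 0) (nat_lit 30557564581) (nat_lit 152) (nat_lit 33624127287) (nat_lit 0) (nat_lit 10829870909) (nat_lit 11) (nat_lit 5) (nat_lit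 13) (nat_lit 4) (nat_lit 11) (nat_lit 4) (nat_lit 446) (nat_lit 284) (nat_lit 170)) (XT.lf (nat_lit 0) (nat_lit 38300158295) (nat_lit 152) (nat_lit 20186146674) (nat_lit 0) (nat_lit 18551994549) (nat_lit 11) (nat_lit 5) (nat_lit 13) (nat_lit 4) (nat_lit 11) (nat_lit 4) (nat_lit 447) (nat_lit 284) (nat_lit 169)))) (XT.nd (nat_lit 37674) (nat_lit 0) (nat_lit 15048) (XT.lf (nat_lit 0) (nat_lit 46261273190) (nat_lit 152) (nat_lit 6371743108) (nat_lit 0) (nat_lit 26493235587) (nat_lit 11) (nat_lit 5) (nat_lit 13) (nat_lit 4) (nat_lit 11) (nat_lit 4) (nat_lit 448) (nat_lit 284) (nat_lit 168)) (XT.nd (nat_lit 78) (nat_lit 608) (nat_lit 0) (XT.lf (nat_lit 0) (nat_lit 1548569156) (nat_lit 684) (nat_lit 620690590) (nat_lit 0) (nat_lit 1548569156) (nat_lit 217) (nat_lit 5) (nat_lit 226) (nat_lit 4) (nat_lit 217) (nat_lit 4) (nat_lit 330) (nat_lit 285) (nat_lit 285)) (XT.lf (nat_lit 0) (nat_lit 4372712895) (nat_lit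 608) (nat_lit 2309932595) (nat_lit 608) (nat_lit 822227052) (nat_lit 209) (nat_lit 4) (nat_lit 217) (nat_lit 5) (nat_lit 217) (nat_lit 4) (nat_lit 331) (nat_lit 285) (nat_lit 284))))) (XT.nd (nat_lit 234) (nat_lit 1596) (nat_lit 0) (XT.nd (nat_lit 78) (nat_lit 608) (nat_lit 0) (XT.lf (nat_lit 0) (nat_lit 2515231055) (nat_lit 532) (nat_lit 168173334) (nat_lit 608) (nat_lit 4893855901) (nat_lit 201) (nat_lit 5) (nat_lit 208) (nat_lit 5) (nat_lit 209) (nat_lit 4) (nat_lit 332) (nat_lit 285) (nat_lit 283)) (XT.nd (nat_lit 78) (nat_lit 76) (nat_lit 0) (XT.lf (nat_lit 0) (nat_lit 615927551) (nat_lit 532) (nat_lit 5622511238) (nat_lit 532) (nat_lit 1414370447) (nat_lit 194) (nat_lit 4) (nat_lit 201) (nat_lit 5) (nat_lit 201) (nat_lit 4) (nat_lit 333) (nat_lit 285) (nat_lit 282)) (XT.lf (nat_lit 0) (nat_lit 2084503685) (nat_lit 608) (nat_lit 1298405414) (nat_lit 76) (nat_lit 4348423089) (nat_lit 193) (nat_lit 5)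 (nat_lit 201) (nat_lit 5) (nat_lit 194) (nat_lit 4) (nat_lit 334) (nat_lit 285) (nat_lit 281)))) (XT.nd (nat_lit 156) (nat_lit 532) (nat_lit 0) (XT.nd (nat_lit 78) (nat_lit 608) (nat_lit 0) (XT.lf (nat_lit 0) (nat_lit 4576577280) (nat_lit 456) (nat_lit 1034177915) (nat_lit 532) (nat_lit 2202562156) (nat_lit 187) (nat_lit 5) (nat_lit 193) (nat_lit 5) (nat_lit 194) (nat_lit 4) (nat_lit 335) (nat_lit 285) (nat_lit 280)) (XT.lf (nat_lit 0) (nat_lit 1279023690) (nat_lit 608) (nat_lit 5228034079) (nat_lit 76) (nat_lit 1391558096) (nat_lit 179) (nat_lit 5) (nat_lit 187) (nat_lit 5) (nat_lit 180) (nat_lit 4) (nat_lit 336) (nat_lit 285) (nat_lit 279))) (XT.nd (nat_lit 78) (nat_lit 76) (nat_lit 0) (XT.lf (nat_lit 0) (nat_lit 704113129) (nat_lit 456) (nat_lit 4075676917) (nat_lit 532) (nat_lit 3207306390) (nat_lit 173) (nat_lit 5) (nat_lit 179) (nat_lit 5) (nat_lit 180) (nat_lit 4) (nat_lit 337) (nat_lit 285) (nat_lit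 278)) (XT.lf (nat_lit 0) (nat_lit 264294652) (nat_lit 532) (nat_lit 1272700121) (nat_lit 76) (nat_lit 6542304365) (nat_lit 172) (nat_lit 5) (nat_lit 179) (nat_lit 5) (nat_lit 173) (nat_lit 5) (nat_lit 338) (nat_lit 285) (nat_lit 277)))))) (XT.nd (nat_lit 546) (nat_lit 1824) (nat_lit 0) (XT.nd (nat_lit 234) (nat_lit 1140) (nat_lit 0) (XT.nd (nat_lit 78) (nat_lit 912) (nat_lit 0) (XT.lf (nat_lit 0) (nat_lit 3745577925) (nat_lit 532) (nat_lit 3314977518) (nat_lit 76) (nat_lit 1113703250) (nat_lit 166) (nat_lit 5) (nat_lit 173) (nat_lit 5) (nat_lit 167) (nat_lit 4) (nat_lit 339) (nat_lit 285) (nat_lit 276)) (XT.nd (nat_lit 78) (nat_lit 532) (nat_lit 0) (XT.lf (nat_lit 0) (nat_lit 2858085713) (nat_lit 380) (nat_lit 4442423230) (nat_lit 456) (nat_lit 972523921) (nat_lit 161) (nat_lit 5) (nat_lit 166) (nat_lit 5) (nat_lit 167) (nat_lit 4) (nat_lit 340) (nat_lit 285) (nat_lit 275)) (XT.lf (nat_lit 0) (nat_lit 788082953)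 (nat_lit 456) (nat_lit 1704238079) (nat_lit 532) (nat_lit 5883078055) (nat_lit 154) (nat_lit 5) (nat_lit 160) (nat_lit 5) (nat_lit 161) (nat_lit 5) (nat_lit 341) (nat_lit 285) (nat_lit 274)))) (XT.nd (nat_lit 156) (nat_lit 684) (nat_lit 0) (XT.nd (nat_lit 78) (nat_lit 456) (nat_lit 0) (XT.lf (nat_lit 0) (nat_lit 6022794021) (nat_lit 532) (nat_lit 1325719543) (nat_lit 76) (nat_lit 1132635516) (nat_lit 154) (nat_lit 5) (nat_lit 161) (nat_lit 5) (nat_lit 155) (nat_lit 4) (nat_lit 342) (nat_lit 285) (nat_lit 273)) (XT.lf (nat_lit 0) (nat_lit 1031652515) (nat_lit 456) (nat_lit 3504941289) (nat_lit 76) (nat_lit 4053703631) (nat_lit 148) (nat_lit 5) (nat_lit 154) (nat_lit 5) (nat_lit 149) (nat_lit 5) (nat_lit 343) (nat_lit 285) (nat_lit 272))) (XT.nd (nat_lit 78) (nat_lit 304) (nat_lit 0) (XT.lf (nat_lit 0) (nat_lit 2935334598) (nat_lit 380) (nat_lit 1601605019) (nat_lit 456) (nat_lit 4166285990) (nat_lit 143)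 (nat_lit 5) (nat_lit 148) (nat_lit 5) (nat_lit 149) (nat_lit 5) (nat_lit 344) (nat_lit 285) (nat_lit 271)) (XT.lf (nat_lit 0) (nat_lit 709858058) (nat_lit 304) (nat_lit 7413051047) (nat_lit 380) (nat_lit 697401043) (nat_lit 139) (nat_lit 5) (nat_lit 143) (nat_lit 5) (nat_lit 144) (nat_lit 4) (nat_lit 345) (nat_lit 285) (nat_lit 270))))) (XT.nd (nat_lit 234) (nat_lit 988) (nat_lit 0) (XT.nd (nat_lit 78) (nat_lit 760) (nat_lit 0) (XT.lf (nat_lit 0) (nat_lit 2813873759) (nat_lit 380) (nat_lit 1595755983) (nat_lit 76) (nat_lit 4530647440) (nat_lit 138) (nat_lit 5) (nat_lit 143) (nat_lit 5) (nat_lit 139) (nat_lit 5) (nat_lit 346) (nat_lit 285) (nat_lit 269)) (XT.nd (nat_lit 78) (nat_lit 380) (nat_lit 0) (XT.lf (nat_lit 0) (nat_lit 5097533602) (nat_lit 380) (nat_lit 1290031030) (nat_lit 456) (nat_lit 2676969934) (nat_lit 133) (nat_lit 5) (nat_lit 138) (nat_lit 5) (nat_lit 139) (nat_lit 5) (nat_lit 347) (nat_lit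 285) (nat_lit 268)) (XT.lf (nat_lit 0) (nat_lit 842948682) (nat_lit 380) (nat_lit 6444201669) (nat_lit 76) (nat_lit 1905623399) (nat_lit 128) (nat_lit 5) (nat_lit 133) (nat_lit 5) (nat_lit 129) (nat_lit 5) (nat_lit 348) (nat_lit 285) (nat_lit 267)))) (XT.nd (nat_lit 156) (nat_lit 684) (nat_lit 0) (XT.nd (nat_lit 78) (nat_lit 0) (nat_lit 0) (XT.lf (nat_lit 0) (nat_lit 278190307) (nat_lit 304) (nat_lit 4115802286) (nat_lit 380) (nat_lit 4930721086) (nat_lit 124) (nat_lit 5) (nat_lit 128) (nat_lit 5) (nat_lit 129) (nat_lit 5) (nat_lit 349) (nat_lit 285) (nat_lit 266)) (XT.lf (nat_lit 0) (nat_lit 7224602571) (nat_lit 304) (nat_lit 816644159) (nat_lit 380) (nat_lit 1419702546) (nat_lit 124) (nat_lit 5) (nat_lit 128) (nat_lit 5) (nat_lit 129) (nat_lit 5) (nat_lit 350) (nat_lit 285) (nat_lit 265))) (XT.nd (nat_lit 78) (nat_lit 304) (nat_lit 0) (XT.lf (nat_lit 0) (nat_lit 2150557373) (nat_lit 380) (nat_lit 4885172578)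 (nat_lit 76) (nat_lit 2565031506) (nat_lit 119) (nat_lit 5) (nat_lit 124) (nat_lit 5) (nat_lit 120) (nat_lit 5) (nat_lit 351) (nat_lit 285) (nat_lit 264)) (XT.lf (nat_lit 0) (nat_lit 2087325452) (nat_lit 304) (nat_lit 3689868352) (nat_lit 380) (nat_lit 3967843882) (nat_lit 115) (nat_lit 5) (nat_lit 119) (nat_lit 5) (nat_lit 120) (nat_lit 5) (nat_lit 352) (nat_lit 285) (nat_lit 263))))))) (XT.nd (nat_lit 1014) (nat_lit 1900) (nat_lit 0) (XT.nd (nat_lit 468) (nat_lit 1292) (nat_lit 0) (XT.nd (nat_lit 234) (nat_lit 608) (nat_lit 0) (XT.nd (nat_lit 78) (nat_lit 684) (nat_lit 0) (XT.lf (nat_lit 0) (nat_lit 9261332001) (nat_lit 304) (nat_lit 228569143) (nat_lit 380) (nat_lit 404447638) (nat_lit 115) (nat_lit 5) (nat_lit 119) (nat_lit 5) (nat_lit 120) (nat_lit 5) (nat_lit 353) (nat_lit 285) (nat_lit 262)) (XT.nd (nat_lit 78) (nat_lit 304) (nat_lit 0) (XT.lf (nat_lit 0) (nat_lit 3227498390) (nat_lit 380) (nat_lit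 3486517195) (nat_lit 76) (nat_lit 3332443847) (nat_lit 110) (nat_lit 5) (nat_lit 115) (nat_lit 5) (nat_lit 111) (nat_lit 5) (nat_lit 354) (nat_lit 285) (nat_lit 261)) (XT.lf (nat_lit 0) (nat_lit 3738517504) (nat_lit 304) (nat_lit 3196443610) (nat_lit 380) (nat_lit 3268834171) (nat_lit 106) (nat_lit 5) (nat_lit 110) (nat_lit 5) (nat_lit 111) (nat_lit 5) (nat_lit 355) (nat_lit 285) (nat_lit 260)))) (XT.nd (nat_lit 78) (nat_lit 304) (nat_lit 0) (XT.lf (nat_lit 0) (nat_lit 357943193) (nat_lit 304) (nat_lit 9579608266) (nat_lit 76) (nat_lit 428877838) (nat_lit 102) (nat_lit 5) (nat_lit 106) (nat_lit 5) (nat_lit 103) (nat_lit 5) (nat_lit 356) (nat_lit 285) (nat_lit 259)) (XT.nd (nat_lit 78) (nat_lit 304) (nat_lit 0) (XT.lf (nat_lit 0) (nat_lit 4056401235) (nat_lit 304) (nat_lit 2315485298) (nat_lit 76) (nat_lit 4160248239) (nat_lit 102) (nat_lit 5) (nat_lit 106) (nat_lit 5) (nat_lit 103) (nat_lit 5) (nat_lit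 357) (nat_lit 285) (nat_lit 258)) (XT.lf (nat_lit 0) (nat_lit 5162586303) (nat_lit 304) (nat_lit 2685859156) (nat_lit 380) (nat_lit 2854907092) (nat_lit 98) (nat_lit 5) (nat_lit 102) (nat_lit 5) (nat_lit 103) (nat_lit 5) (nat_lit 358) (nat_lit 285) (nat_lit 257))))) (XT.nd (nat_lit 234) (nat_lit 760) (nat_lit 0) (XT.nd (nat_lit 78) (nat_lit 228) (nat_lit 0) (XT.lf (nat_lit 0) (nat_lit 844013677) (nat_lit 304) (nat_lit 8933020691) (nat_lit 76) (nat_lit 1102843201) (nat_lit 94) (nat_lit 5) (nat_lit 98) (nat_lit 5) (nat_lit 95) (nat_lit 5) (nat_lit 359) (nat_lit 285) (nat_lit 256)) (XT.nd (nat_lit 78) (nat_lit 228) (nat_lit 0) (XT.lf (nat_lit 0) (nat_lit 4613482561) (nat_lit 304) (nat_lit 1448373756) (nat_lit 76) (nat_lit 4998503593) (nat_lit 94) (nat_lit 5) (nat_lit 98) (nat_lit 5) (nat_lit 95) (nat_lit 5) (nat_lit 360) (nat_lit 285) (nat_lit 255)) (XT.lf (nat_lit 0) (nat_lit 6280820740) (nat_lit 228) (nat_lit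 2211379949) (nat_lit 304) (nat_lit 2754188945) (nat_lit 91) (nat_lit 5) (nat_lit 94) (nat_lit 5) (nat_lit 95) (nat_lit 5) (nat_lit 361) (nat_lit 285) (nat_lit 254)))) (XT.nd (nat_lit 156) (nat_lit 456) (nat_lit 0) (XT.nd (nat_lit 78) (nat_lit 0) (nat_lit 0) (XT.lf (nat_lit 0) (nat_lit 1023294549) (nat_lit 304) (nat_lit 8680289464) (nat_lit 76) (nat_lit 1734295801) (nat_lit 87) (nat_lit 5) (nat_lit 91) (nat_lit 5) (nat_lit 88) (nat_lit 5) (nat_lit 362) (nat_lit 285) (nat_lit 253)) (XT.lf (nat_lit 0) (nat_lit 4867831673) (nat_lit 304) (nat_lit 972402775) (nat_lit 76) (nat_lit 5793805959) (nat_lit 87) (nat_lit 5) (nat_lit 91) (nat_lit 5) (nat_lit 88) (nat_lit 5) (nat_lit 363) (nat_lit 285) (nat_lit 252))) (XT.nd (nat_lit 78) (nat_lit 228) (nat_lit 0) (XT.lf (nat_lit 0) (nat_lit 7003019787) (nat_lit 228) (nat_lit 1830402213) (nat_lit 304) (nat_lit 3002508182) (nat_lit 84) (nat_lit 5) (nat_lit 87) (nat_lit 5)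 (nat_lit 88) (nat_lit 5) (nat_lit 364) (nat_lit 285) (nat_lit 251)) (XT.lf (nat_lit 0) (nat_lit 858039794) (nat_lit 228) (nat_lit 8920140479) (nat_lit 76) (nat_lit 2265429469) (nat_lit 81) (nat_lit 5) (nat_lit 84) (nat_lit 5) (nat_lit 82) (nat_lit 5) (nat_lit 365) (nat_lit 285) (nat_lit 250)))))) (XT.nd (nat_lit 546) (nat_lit 988) (nat_lit 0) (XT.nd (nat_lit 234) (nat_lit 456) (nat_lit 0) (XT.nd (nat_lit 78) (nat_lit 456) (nat_lit 0) (XT.lf (nat_lit 0) (nat_lit 4780542206) (nat_lit 228) (nat_lit 987855682) (nat_lit 76) (nat_lit 6488049931) (nat_lit 81) (nat_lit 5) (nat_lit 84) (nat_lit 5) (nat_lit 82) (nat_lit 5) (nat_lit 366) (nat_lit 285) (nat_lit 249)) (XT.nd (nat_lit 78) (nat_lit 228) (nat_lit 0) (XT.lf (nat_lit 0) (nat_lit 7225255879) (nat_lit 228) (nat_lit 1605768391) (nat_lit 304) (nat_lit 3644351740) (nat_lit 78) (nat_lit 5) (nat_lit 81) (nat_lit 5) (nat_lit 82) (nat_lit 5) (nat_lit 367) (nat_lit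 285) (nat_lit 248)) (XT.lf (nat_lit 0) (nat_lit 301646965) (nat_lit 228) (nat_lit 9766365910) (nat_lit 76) (nat_lit 2632623505) (nat_lit 75) (nat_lit 5) (nat_lit 78) (nat_lit 5) (nat_lit 76) (nat_lit 5) (nat_lit 368) (nat_lit 285) (nat_lit 247)))) (XT.nd (nat_lit 156) (nat_lit 228) (nat_lit 0) (XT.nd (nat_lit 78) (nat_lit 228) (nat_lit 0) (XT.lf (nat_lit 0) (nat_lit 4303669578) (nat_lit 228) (nat_lit 1610529003) (nat_lit 76) (nat_lit 7017059655) (nat_lit 75) (nat_lit 5) (nat_lit 78) (nat_lit 5) (nat_lit 76) (nat_lit 5) (nat_lit 369) (nat_lit 285) (nat_lit 246)) (XT.lf (nat_lit 0) (nat_lit 6827311629) (nat_lit 228) (nat_lit 1607227091) (nat_lit 304) (nat_lit 4734008984) (nat_lit 72) (nat_lit 5) (nat_lit 75) (nat_lit 5) (nat_lit 76) (nat_lit 5) (nat_lit 370) (nat_lit 285) (nat_lit 245))) (XT.nd (nat_lit 78) (nat_lit 76) (nat_lit 0) (XT.lf (nat_lit 0) (nat_lit 2055307283) (nat_lit 152) (nat_lit 10640928224)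 (nat_lit 228) (nat_lit 716525469) (nat_lit 70) (nat_lit 5) (nat_lit 72) (nat_lit 5) (nat_lit 73) (nat_lit 4) (nat_lit 371) (nat_lit 285) (nat_lit 244)) (XT.lf (nat_lit 0) (nat_lit 3378990079) (nat_lit 228) (nat_lit 2974546589) (nat_lit 76) (nat_lit 7309060577) (nat_lit 69) (nat_lit 5) (nat_lit 72) (nat_lit 5) (nat_lit 70) (nat_lit 5) (nat_lit 372) (nat_lit 285) (nat_lit 243))))) (XT.nd (nat_lit 234) (nat_lit 532) (nat_lit 0) (XT.nd (nat_lit 78) (nat_lit 228) (nat_lit 0) (XT.lf (nat_lit 0) (nat_lit 5669733539) (nat_lit 228) (nat_lit 1913068882) (nat_lit 304) (nat_lit 6336929504) (nat_lit 66) (nat_lit 5) (nat_lit 69) (nat_lit 5) (nat_lit 70) (nat_lit 5) (nat_lit 373) (nat_lit 285) (nat_lit 242)) (XT.nd (nat_lit 78) (nat_lit 76) (nat_lit 0) (XT.lf (nat_lit 0) (nat_lit 337352213) (nat_lit 152) (nat_lit 11580189636) (nat_lit 228) (nat_lit 2266905225) (nat_lit 64) (nat_lit 5) (nat_lit 66) (nat_lit 5) (nat_lit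 67) (nat_lit 4) (nat_lit 374) (nat_lit 285) (nat_lit 241)) (XT.lf (nat_lit 0) (nat_lit 1936533222) (nat_lit 228) (nat_lit 5235599665) (nat_lit 76) (nat_lit 7282959347) (nat_lit 63) (nat_lit 5) (nat_lit 66) (nat_lit 5) (nat_lit 64) (nat_lit 5) (nat_lit 375) (nat_lit 285) (nat_lit 240)))) (XT.nd (nat_lit 156) (nat_lit 380) (nat_lit 0) (XT.nd (nat_lit 78) (nat_lit 0) (nat_lit 0) (XT.lf (nat_lit 0) (nat_lit 3590437810) (nat_lit 152) (nat_lit 2611972890) (nat_lit 228) (nat_lit 8531325651) (nat_lit 61) (nat_lit 5) (nat_lit 63) (nat_lit 5) (nat_lit 64) (nat_lit 5) (nat_lit 376) (nat_lit 285) (nat_lit 239)) (XT.lf (nat_lit 0) (nat_lit 10617375944) (nat_lit 228) (nat_lit 2342859803) (nat_lit 76) (nat_lit 2059880306) (nat_lit 61) (nat_lit 5) (nat_lit 64) (nat_lit 5) (nat_lit 62) (nat_lit 4) (nat_lit 377) (nat_lit 285) (nat_lit 238))) (XT.nd (nat_lit 78) (nat_lit 228) (nat_lit 0) (XT.lf (nat_lit 0) (nat_lit 6738166900)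 (nat_lit 152) (nat_lit 8466456207) (nat_lit 228) (nat_lit 109278376) (nat_lit 59) (nat_lit 5) (nat_lit 61) (nat_lit 5) (nat_lit 62) (nat_lit 4) (nat_lit 378) (nat_lit 285) (nat_lit 237)) (XT.lf (nat_lit 0) (nat_lit 400793387) (nat_lit 152) (nat_lit 3805103971) (nat_lit 228) (nat_lit 11410055974) (nat_lit 56) (nat_lit 5) (nat_lit 58) (nat_lit 5) (nat_lit 59) (nat_lit 5) (nat_lit 379) (nat_lit 285) (nat_lit 236))))))))
noncomputable def xc68 : XT := (XT.nd (nat_lit 2028) (nat_lit 988) (nat_lit 0) (XT.nd (nat_lit 1014) (nat_lit 912) (nat_lit 0) (XT.nd (nat_lit 468) (nat_lit 608) (nat_lit 0) (XT.nd (nat_lit 234) (nat_lit 304) (nat_lit 0) (XT.nd (nat_lit 78) (nat_lit 228) (nat_lit 0) (XT.lf (nat_lit 0) (nat_lit 8694948392) (nat_lit 228) (nat_lit 6203033620) (nat_lit 76) (nat_lit 1027662307) (nat_lit 56) (nat_lit 5) (nat_lit 59) (nat_lit 5) (nat_lit 57) (nat_lit 4) (nat_lit 380) (nat_lit 285) (nat_lit 235)) (XT.nd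 (nat_lit 78) (nat_lit 76) (nat_lit 0) (XT.lf (nat_lit 0) (nat_lit 3013734916) (nat_lit 152) (nat_lit 10322634460) (nat_lit 228) (nat_lit 2907733993) (nat_lit 54) (nat_lit 5) (nat_lit 56) (nat_lit 5) (nat_lit 57) (nat_lit 4) (nat_lit 381) (nat_lit 285) (nat_lit 234)) (XT.lf (nat_lit 0) (nat_lit 1529195134) (nat_lit 228) (nat_lit 4038529553) (nat_lit 76) (nat_lit 11003521036) (nat_lit 53) (nat_lit 5) (nat_lit 56) (nat_lit 5) (nat_lit 54) (nat_lit 5) (nat_lit 382) (nat_lit 285) (nat_lit 233)))) (XT.nd (nat_lit 78) (nat_lit 152) (nat_lit 0) (XT.lf (nat_lit 0) (nat_lit 5421619653) (nat_lit 152) (nat_lit 623874732) (nat_lit 228) (nat_lit 10861710717) (nat_lit 51) (nat_lit 5) (nat_lit 53) (nat_lit 5) (nat_lit 54) (nat_lit 5) (nat_lit 383) (nat_lit 285) (nat_lit 232)) (XT.nd (nat_lit 78) (nat_lit 152) (nat_lit 0) (XT.lf (nat_lit 0) (nat_lit 10734231897) (nat_lit 228) (nat_lit 2131697853) (nat_lit 76) (nat_lit 4386212395)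 (nat_lit 51) (nat_lit 5) (nat_lit 54) (nat_lit 5) (nat_lit 52) (nat_lit 4) (nat_lit 384) (nat_lit 285) (nat_lit 231)) (XT.lf (nat_lit 0) (nat_lit 7561975687) (nat_lit 152) (nat_lit 8034709894) (nat_lit 228) (nat_lit 2009757244) (nat_lit 49) (nat_lit 5) (nat_lit 51) (nat_lit 5) (nat_lit 52) (nat_lit 4) (nat_lit 385) (nat_lit 285) (nat_lit 230))))) (XT.nd (nat_lit 234) (nat_lit 304) (nat_lit 0) (XT.nd (nat_lit 78) (nat_lit 228) (nat_lit 0) (XT.lf (nat_lit 0) (nat_lit 2558271247) (nat_lit 228) (nat_lit 488424528) (nat_lit 76) (nat_lit 14924643321) (nat_lit 48) (nat_lit 5) (nat_lit 51) (nat_lit 5) (nat_lit 49) (nat_lit 5) (nat_lit 386) (nat_lit 285) (nat_lit 229)) (XT.nd (nat_lit 78) (nat_lit 76) (nat_lit 0) (XT.lf (nat_lit 0) (nat_lit 7290144993) (nat_lit 228) (nat_lit 8927399604) (nat_lit 76) (nat_lit 2127031286) (nat_lit 46) (nat_lit 5) (nat_lit 49) (nat_lit 5) (nat_lit 47) (nat_lit 4) (nat_lit 387) (nat_lit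 285) (nat_lit 228)) (XT.lf (nat_lit 0) (nat_lit 806492057) (nat_lit 76) (nat_lit 11356189551) (nat_lit 152) (nat_lit 6566373317) (nat_lit 45) (nat_lit 5) (nat_lit 46) (nat_lit 5) (nat_lit 47) (nat_lit 4) (nat_lit 388) (nat_lit 285) (nat_lit 227)))) (XT.nd (nat_lit 156) (nat_lit 76) (nat_lit 0) (XT.nd (nat_lit 78) (nat_lit 228) (nat_lit 0) (XT.lf (nat_lit 0) (nat_lit 10936062072) (nat_lit 76) (nat_lit 6291813845) (nat_lit 152) (nat_lit 1895804137) (nat_lit 45) (nat_lit 5) (nat_lit 46) (nat_lit 5) (nat_lit 47) (nat_lit 4) (nat_lit 389) (nat_lit 285) (nat_lit 226)) (XT.lf (nat_lit 0) (nat_lit 1767966549) (nat_lit 152) (nat_lit 1064209103) (nat_lit 228) (nat_lit 16697908306) (nat_lit 42) (nat_lit 5) (nat_lit 44) (nat_lit 5) (nat_lit 45) (nat_lit 5) (nat_lit 390) (nat_lit 285) (nat_lit 225))) (XT.nd (nat_lit 78) (nat_lit 76) (nat_lit 0) (XT.lf (nat_lit 0) (nat_lit 7746267028) (nat_lit 228) (nat_lit 7895325782)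 (nat_lit 76) (nat_lit 4304058421) (nat_lit 42) (nat_lit 5) (nat_lit 45) (nat_lit 5) (nat_lit 43) (nat_lit 4) (nat_lit 391) (nat_lit 285) (nat_lit 224)) (XT.lf (nat_lit 0) (nat_lit 2224550252) (nat_lit 76) (nat_lit 10573743445) (nat_lit 152) (nat_lit 7575681927) (nat_lit 41) (nat_lit 5) (nat_lit 42) (nat_lit 5) (nat_lit 43) (nat_lit 4) (nat_lit 392) (nat_lit 285) (nat_lit 223)))))) (XT.nd (nat_lit 468) (nat_lit 380) (nat_lit 0) (XT.nd (nat_lit 234) (nat_lit 304) (nat_lit 0) (XT.nd (nat_lit 78) (nat_lit 228) (nat_lit 0) (XT.lf (nat_lit 0) (nat_lit 12734820458) (nat_lit 76) (nat_lit 5305864754) (nat_lit 152) (nat_lit 2773305736) (nat_lit 41) (nat_lit 5) (nat_lit 42) (nat_lit 5) (nat_lit 43) (nat_lit 4) (nat_lit 393) (nat_lit 285) (nat_lit 222)) (XT.nd (nat_lit 78) (nat_lit 0) (nat_lit 0) (XT.lf (nat_lit 0) (nat_lit 2113413275) (nat_lit 228) (nat_lit 19026000861) (nat_lit 76) (nat_lit 127690598) (nat_lit 38)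 (nat_lit 5) (nat_lit 41) (nat_lit 5) (nat_lit 39) (nat_lit 4) (nat_lit 394) (nat_lit 285) (nat_lit 221)) (XT.lf (nat_lit 0) (nat_lit 7185935962) (nat_lit 228) (nat_lit 8849381353) (nat_lit 76) (nat_lit 5694827447) (nat_lit 38) (nat_lit 5) (nat_lit 41) (nat_lit 5) (nat_lit 39) (nat_lit 4) (nat_lit 395) (nat_lit 285) (nat_lit 220)))) (XT.nd (nat_lit 78) (nat_lit 228) (nat_lit 0) (XT.lf (nat_lit 0) (nat_lit 1591932207) (nat_lit 76) (nat_lit 10795187224) (nat_lit 152) (nat_lit 9820666733) (nat_lit 37) (nat_lit 5) (nat_lit 38) (nat_lit 5) (nat_lit 39) (nat_lit 4) (nat_lit 396) (nat_lit 285) (nat_lit 219)) (XT.nd (nat_lit 78) (nat_lit 228) (nat_lit 0) (XT.lf (nat_lit 0) (nat_lit 12456922592) (nat_lit 76) (nat_lit 5338408125) (nat_lit 152) (nat_lit 4902900910) (nat_lit 37) (nat_lit 5) (nat_lit 38) (nat_lit 5) (nat_lit 39) (nat_lit 4) (nat_lit 397) (nat_lit 285) (nat_lit 218)) (XT.lf (nat_lit 0) (nat_lit 127718873)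 (nat_lit 228) (nat_lit 22826134827) (nat_lit 76) (nat_lit 250439546) (nat_lit 34) (nat_lit 5) (nat_lit 37) (nat_lit 5) (nat_lit 35) (nat_lit 4) (nat_lit 398) (nat_lit 285) (nat_lit 217))))) (XT.nd (nat_lit 234) (nat_lit 304) (nat_lit 0) (XT.nd (nat_lit 78) (nat_lit 76) (nat_lit 0) (XT.lf (nat_lit 0) (nat_lit 5330513083) (nat_lit 228) (nat_lit 12368494537) (nat_lit 76) (nat_lit 6021483007) (nat_lit 34) (nat_lit 5) (nat_lit 37) (nat_lit 5) (nat_lit 35) (nat_lit 4) (nat_lit 399) (nat_lit 285) (nat_lit 216)) (XT.nd (nat_lit 78) (nat_lit 76) (nat_lit 0) (XT.lf (nat_lit 0) (nat_lit 10652985960) (nat_lit 228) (nat_lit 1664876494) (nat_lit 76) (nat_lit 11935407706) (nat_lit 34) (nat_lit 5) (nat_lit 37) (nat_lit 5) (nat_lit 35) (nat_lit 4) (nat_lit 400) (nat_lit 285) (nat_lit 215)) (XT.lf (nat_lit 0) (nat_lit 9479042232) (nat_lit 76) (nat_lit 6711864329) (nat_lit 152) (nat_lit 8609457268) (nat_lit 33) (nat_lit 5)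 (nat_lit 34) (nat_lit 5) (nat_lit 35) (nat_lit 4) (nat_lit 401) (nat_lit 285) (nat_lit 214)))) (XT.nd (nat_lit 156) (nat_lit 76) (nat_lit 0) (XT.nd (nat_lit 78) (nat_lit 228) (nat_lit 0) (XT.lf (nat_lit 0) (nat_lit 20926273628) (nat_lit 76) (nat_lit 950561687) (nat_lit 152) (nat_lit 3487582719) (nat_lit 33) (nat_lit 5) (nat_lit 34) (nat_lit 5) (nat_lit 35) (nat_lit 4) (nat_lit 402) (nat_lit 285) (nat_lit 213)) (XT.lf (nat_lit 0) (nat_lit 1832827551) (nat_lit 228) (nat_lit 19168809688) (nat_lit 76) (nat_lit 4940851579) (nat_lit 30) (nat_lit 5) (nat_lit 33) (nat_lit 5) (nat_lit 31) (nat_lit 4) (nat_lit 403) (nat_lit 285) (nat_lit 212))) (XT.nd (nat_lit 78) (nat_lit 76) (nat_lit 0) (XT.lf (nat_lit 0) (nat_lit 7263268394) (nat_lit 228) (nat_lit 8232139901) (nat_lit 76) (nat_lit 11040845574) (nat_lit 30) (nat_lit 5) (nat_lit 33) (nat_lit 5) (nat_lit 31) (nat_lit 4) (nat_lit 404) (nat_lit 285) (nat_lit 211))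 (XT.lf (nat_lit 0) (nat_lit 3029581123) (nat_lit 76) (nat_lit 9823001815) (nat_lit 152) (nat_lit 14295373533) (nat_lit 29) (nat_lit 5) (nat_lit 30) (nat_lit 5) (nat_lit 31) (nat_lit 4) (nat_lit 405) (nat_lit 285) (nat_lit 210))))))) (XT.nd (nat_lit 1014) (nat_lit 456) (nat_lit 0) (XT.nd (nat_lit 468) (nat_lit 304) (nat_lit 0) (XT.nd (nat_lit 234) (nat_lit 76) (nat_lit 0) (XT.nd (nat_lit 78) (nat_lit 152) (nat_lit 0) (XT.lf (nat_lit 0) (nat_lit 14736347159) (nat_lit 76) (nat_lit 3923570666) (nat_lit 152) (nat_lit 9116585412) (nat_lit 29) (nat_lit 5) (nat_lit 30) (nat_lit 5) (nat_lit 31) (nat_lit 4) (nat_lit 406) (nat_lit 285) (nat_lit 209)) (XT.nd (nat_lit 78) (nat_lit 152) (nat_lit 0) (XT.lf (nat_lit 0) (nat_lit 24630066123) (nat_lit 152) (nat_lit 1710738858) (nat_lit 0) (nat_lit 2083446843) (nat_lit 29) (nat_lit 5) (nat_lit 31) (nat_lit 4) (nat_lit 29) (nat_lit 4) (nat_lit 407) (nat_lit 285) (nat_lit 208))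 (XT.lf (nat_lit 0) (nat_lit 1760337248) (nat_lit 152) (nat_lit 19048289562) (nat_lit 76) (nat_lit 8279160701) (nat_lit 27) (nat_lit 5) (nat_lit 29) (nat_lit 5) (nat_lit 28) (nat_lit 4) (nat_lit 408) (nat_lit 285) (nat_lit 207)))) (XT.nd (nat_lit 78) (nat_lit 76) (nat_lit 0) (XT.lf (nat_lit 0) (nat_lit 7391557550) (nat_lit 152) (nat_lit 7689878268) (nat_lit 76) (nat_lit 14689079779) (nat_lit 27) (nat_lit 5) (nat_lit 29) (nat_lit 5) (nat_lit 28) (nat_lit 4) (nat_lit 409) (nat_lit 285) (nat_lit 206)) (XT.nd (nat_lit 78) (nat_lit 0) (nat_lit 0) (XT.lf (nat_lit 0) (nat_lit 4030913543) (nat_lit 76) (nat_lit 9169329973) (nat_lit 152) (nat_lit 17273228997) (nat_lit 26) (nat_lit 5) (nat_lit 27) (nat_lit 5) (nat_lit 28) (nat_lit 4) (nat_lit 410) (nat_lit 285) (nat_lit 205)) (XT.lf (nat_lit 0) (nat_lit 16204493723) (nat_lit 76) (nat_lit 3026467801) (nat_lit 152) (nat_lit 11965126243) (nat_lit 26) (nat_lit 5) (nat_lit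 27) (nat_lit 5) (nat_lit 28) (nat_lit 4) (nat_lit 411) (nat_lit 285) (nat_lit 204))))) (XT.nd (nat_lit 234) (nat_lit 152) (nat_lit 0) (XT.nd (nat_lit 78) (nat_lit 152) (nat_lit 0) (XT.lf (nat_lit 0) (nat_lit 25445070183) (nat_lit 152) (nat_lit 3284278788) (nat_lit 0) (nat_lit 3210961129) (nat_lit 26) (nat_lit 5) (nat_lit 28) (nat_lit 4) (nat_lit 26) (nat_lit 4) (nat_lit 412) (nat_lit 285) (nat_lit 203)) (XT.nd (nat_lit 78) (nat_lit 76) (nat_lit 0) (XT.lf (nat_lit 0) (nat_lit 8863412605) (nat_lit 76) (nat_lit 23068948225) (nat_lit 76) (nat_lit 771898128) (nat_lit 25) (nat_lit 4) (nat_lit 26) (nat_lit 5) (nat_lit 26) (nat_lit 4) (nat_lit 413) (nat_lit 285) (nat_lit 202)) (XT.lf (nat_lit 0) (nat_lit 5028293552) (nat_lit 152) (nat_lit 12150721994) (nat_lit 76) (nat_lit 16310482179) (nat_lit 24) (nat_lit 5) (nat_lit 26) (nat_lit 5) (nat_lit 25) (nat_lit 4) (nat_lit 414) (nat_lit 285) (nat_lit 201)))) (XT.nd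 (nat_lit 156) (nat_lit 76) (nat_lit 0) (XT.nd (nat_lit 78) (nat_lit 76) (nat_lit 0) (XT.lf (nat_lit 0) (nat_lit 10959430468) (nat_lit 152) (nat_lit 169842025) (nat_lit 76) (nat_lit 23169620663) (nat_lit 24) (nat_lit 5) (nat_lit 26) (nat_lit 5) (nat_lit 25) (nat_lit 4) (nat_lit 415) (nat_lit 285) (nat_lit 200)) (XT.lf (nat_lit 0) (nat_lit 12360887678) (nat_lit 76) (nat_lit 4799690413) (nat_lit 152) (nat_lit 17969232387) (nat_lit 23) (nat_lit 5) (nat_lit 24) (nat_lit 5) (nat_lit 25) (nat_lit 4) (nat_lit 416) (nat_lit 285) (nat_lit 199))) (XT.nd (nat_lit 78) (nat_lit 76) (nat_lit 0) (XT.lf (nat_lit 0) (nat_lit 23539346407) (nat_lit 152) (nat_lit 10781982365) (nat_lit 0) (nat_lit 1664581214) (nat_lit 23) (nat_lit 5) (nat_lit 25) (nat_lit 4) (nat_lit 23) (nat_lit 4) (nat_lit 417) (nat_lit 285) (nat_lit 198)) (XT.lf (nat_lit 0) (nat_lit 1496884478) (nat_lit 76) (nat_lit 28648603605) (nat_lit 76) (nat_lit 6721126279)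 (nat_lit 22) (nat_lit 4) (nat_lit 23) (nat_lit 5) (nat_lit 23) (nat_lit 4) (nat_lit 418) (nat_lit 285) (nat_lit 197)))))) (XT.nd (nat_lit 546) (nat_lit 228) (nat_lit 0) (XT.nd (nat_lit 234) (nat_lit 76) (nat_lit 0) (XT.nd (nat_lit 78) (nat_lit 152) (nat_lit 0) (XT.lf (nat_lit 0) (nat_lit 14316251686) (nat_lit 76) (nat_lit 22716823318) (nat_lit 76) (nat_lit 738169164) (nat_lit 22) (nat_lit 4) (nat_lit 23) (nat_lit 5) (nat_lit 23) (nat_lit 4) (nat_lit 419) (nat_lit 285) (nat_lit 196)) (XT.nd (nat_lit 78) (nat_lit 76) (nat_lit 0) (XT.lf (nat_lit 0) (nat_lit 5293311436) (nat_lit 152) (nat_lit 11282918179) (nat_lit 76) (nat_lit 22125974554) (nat_lit 21) (nat_lit 5) (nat_lit 23) (nat_lit 5) (nat_lit 22) (nat_lit 4) (nat_lit 420) (nat_lit 285) (nat_lit 195)) (XT.lf (nat_lit 0) (nat_lit 1224334162) (nat_lit 76) (nat_lit 10253948411) (nat_lit 152) (nat_lit 28182971607) (nat_lit 20) (nat_lit 5) (nat_lit 21) (nat_lit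 5) (nat_lit 22) (nat_lit 4) (nat_lit 421) (nat_lit 285) (nat_lit 194)))) (XT.nd (nat_lit 156) (nat_lit 76) (nat_lit 0) (XT.nd (nat_lit 78) (nat_lit 0) (nat_lit 0) (XT.lf (nat_lit 0) (nat_lit 14291982619) (nat_lit 76) (nat_lit 3646636164) (nat_lit 152) (nat_lit 22707764323) (nat_lit 20) (nat_lit 5) (nat_lit 21) (nat_lit 5) (nat_lit 22) (nat_lit 4) (nat_lit 422) (nat_lit 285) (nat_lit 193)) (XT.lf (nat_lit 0) (nat_lit 24599508175) (nat_lit 152) (nat_lit 13985036917) (nat_lit 0) (nat_lit 3076320349) (nat_lit 20) (nat_lit 5) (nat_lit 22) (nat_lit 4) (nat_lit 20) (nat_lit 4) (nat_lit 423) (nat_lit 285) (nat_lit 192))) (XT.nd (nat_lit 78) (nat_lit 76) (nat_lit 0) (XT.lf (nat_lit 0) (nat_lit 31473395441) (nat_lit 152) (nat_lit 1324645622) (nat_lit 0) (nat_lit 9907347828) (nat_lit 20) (nat_lit 5) (nat_lit 22) (nat_lit 4) (nat_lit 20) (nat_lit 4) (nat_lit 424) (nat_lit 285) (nat_lit 191)) (XT.lf (nat_lit 0) (nat_lit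 11905202961) (nat_lit 76) (nat_lit 26740470326) (nat_lit 76) (nat_lit 5132811268) (nat_lit 19) (nat_lit 4) (nat_lit 20) (nat_lit 5) (nat_lit 20) (nat_lit 4) (nat_lit 425) (nat_lit 285) (nat_lit 190))))) (XT.nd (nat_lit 234) (nat_lit 76) (nat_lit 0) (XT.nd (nat_lit 78) (nat_lit 76) (nat_lit 0) (XT.lf (nat_lit 0) (nat_lit 1118183818) (nat_lit 152) (nat_lit 19378145366) (nat_lit 76) (nat_lit 24387376129) (nat_lit 18) (nat_lit 5) (nat_lit 20) (nat_lit 5) (nat_lit 19) (nat_lit 4) (nat_lit 426) (nat_lit 285) (nat_lit 189)) (XT.nd (nat_lit 78) (nat_lit 76) (nat_lit 0) (XT.lf (nat_lit 0) (nat_lit 7431948766) (nat_lit 152) (nat_lit 6600425300) (nat_lit 76) (nat_lit 31988833481) (nat_lit 18) (nat_lit 5) (nat_lit 20) (nat_lit 5) (nat_lit 19) (nat_lit 4) (nat_lit 427) (nat_lit 285) (nat_lit 188)) (XT.lf (nat_lit 0) (nat_lit 6650151736) (nat_lit 76) (nat_lit 7327933681) (nat_lit 152) (nat_lit 33213462205) (nat_lit 17)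 (nat_lit 5) (nat_lit 18) (nat_lit 5) (nat_lit 19) (nat_lit 4) (nat_lit 428) (nat_lit 285) (nat_lit 187)))) (XT.nd (nat_lit 156) (nat_lit 76) (nat_lit 0) (XT.nd (nat_lit 78) (nat_lit 0) (nat_lit 0) (XT.lf (nat_lit 0) (nat_lit 20393699826) (nat_lit 76) (nat_lit 372818753) (nat_lit 152) (nat_lit 27629103439) (nat_lit 17) (nat_lit 5) (nat_lit 18) (nat_lit 5) (nat_lit 19) (nat_lit 4) (nat_lit 429) (nat_lit 285) (nat_lit 186)) (XT.lf (nat_lit 0) (nat_lit 27803570262) (nat_lit 152) (nat_lit 15190658071) (nat_lit 0) (nat_lit 6640242797) (nat_lit 17) (nat_lit 5) (nat_lit 19) (nat_lit 4) (nat_lit 17) (nat_lit 4) (nat_lit 430) (nat_lit 285) (nat_lit 185))) (XT.nd (nat_lit 78) (nat_lit 76) (nat_lit 0) (XT.lf (nat_lit 0) (nat_lit 35035703178) (nat_lit 152) (nat_lit 2036723050) (nat_lit 0) (nat_lit 13838541801) (nat_lit 17) (nat_lit 5) (nat_lit 19) (nat_lit 4) (nat_lit 17) (nat_lit 4) (nat_lit 431) (nat_lit 285) (nat_lit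 184)) (XT.lf (nat_lit 0) (nat_lit 11703334573) (nat_lit 76) (nat_lit 30874817946) (nat_lit 76) (nat_lit 9644808110) (nat_lit 16) (nat_lit 4) (nat_lit 17) (nat_lit 5) (nat_lit 17) (nat_lit 4) (nat_lit 432) (nat_lit 285) (nat_lit 183))))))))
noncomputable def xc69 : XT := (XT.nd (nat_lit 39546) (nat_lit 0) (nat_lit 5396) (XT.nd (nat_lit 1014) (nat_lit 0) (nat_lit 0) (XT.nd (nat_lit 468) (nat_lit 228) (nat_lit 0) (XT.nd (nat_lit 234) (nat_lit 76) (nat_lit 0) (XT.nd (nat_lit 78) (nat_lit 76) (nat_lit 0) (XT.lf (nat_lit 0) (nat_lit 25860836559) (nat_lit 76) (nat_lit 24487665261) (nat_lit 76) (nat_lit 3225763718) (nat_lit 16) (nat_lit 4) (nat_lit 17) (nat_lit 5) (nat_lit 17) (nat_lit 4) (nat_lit 433) (nat_lit 285) (nat_lit 182)) (XT.nd (nat_lit 78) (nat_lit 0) (nat_lit 0) (XT.lf (nat_lit 0) (nat_lit 3301209742) (nat_lit 152) (nat_lit 14591408588) (nat_lit 76) (nat_lit 37073073270) (nat_lit 15) (nat_lit 5) (nat_lit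 17) (nat_lit 5) (nat_lit 16) (nat_lit 4) (nat_lit 434) (nat_lit 285) (nat_lit 181)) (XT.lf (nat_lit 0) (nat_lit 9941126589) (nat_lit 152) (nat_lit 1142438381) (nat_lit 76) (nat_lit 45314879474) (nat_lit 15) (nat_lit 5) (nat_lit 17) (nat_lit 5) (nat_lit 16) (nat_lit 4) (nat_lit 435) (nat_lit 285) (nat_lit 180)))) (XT.nd (nat_lit 78) (nat_lit 0) (nat_lit 0) (XT.lf (nat_lit 0) (nat_lit 12928523238) (nat_lit 76) (nat_lit 3958488597) (nat_lit 152) (nat_lit 40983966089) (nat_lit 14) (nat_lit 5) (nat_lit 15) (nat_lit 5) (nat_lit 16) (nat_lit 4) (nat_lit 436) (nat_lit 285) (nat_lit 179)) (XT.nd (nat_lit 78) (nat_lit 0) (nat_lit 0) (XT.lf (nat_lit 0) (nat_lit 24067945837) (nat_lit 152) (nat_lit 32008711428) (nat_lit 0) (nat_lit 3310231121) (nat_lit 14) (nat_lit 5) (nat_lit 16) (nat_lit 4) (nat_lit 14) (nat_lit 4) (nat_lit 437) (nat_lit 285) (nat_lit 178)) (XT.lf (nat_lit 0) (nat_lit 31486537410) (nat_lit 152) (nat_lit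 18758959086) (nat_lit 0) (nat_lit 10702113891) (nat_lit 14) (nat_lit 5) (nat_lit 16) (nat_lit 4) (nat_lit 14) (nat_lit 4) (nat_lit 438) (nat_lit 285) (nat_lit 177))))) (XT.nd (nat_lit 234) (nat_lit 152) (nat_lit 0) (XT.nd (nat_lit 78) (nat_lit 76) (nat_lit 0) (XT.lf (nat_lit 0) (nat_lit 39111217404) (nat_lit 152) (nat_lit 5143568792) (nat_lit 0) (nat_lit 18300863009) (nat_lit 14) (nat_lit 5) (nat_lit 16) (nat_lit 4) (nat_lit 14) (nat_lit 4) (nat_lit 439) (nat_lit 285) (nat_lit 176)) (XT.nd (nat_lit 78) (nat_lit 0) (nat_lit 0) (XT.lf (nat_lit 0) (nat_lit 9025475940) (nat_lit 76) (nat_lit 38009930617) (nat_lit 76) (nat_lit 17174400613) (nat_lit 13) (nat_lit 4) (nat_lit 14) (nat_lit 5) (nat_lit 14) (nat_lit 4) (nat_lit 440) (nat_lit 285) (nat_lit 175)) (XT.lf (nat_lit 0) (nat_lit 23694406521) (nat_lit 76) (nat_lit 31539036530) (nat_lit 76) (nat_lit 10679064189) (nat_lit 13) (nat_lit 4) (nat_lit 14) (nat_lit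 5) (nat_lit 14) (nat_lit 4) (nat_lit 441) (nat_lit 285) (nat_lit 174)))) (XT.nd (nat_lit 156) (nat_lit 76) (nat_lit 0) (XT.nd (nat_lit 78) (nat_lit 76) (nat_lit 0) (XT.lf (nat_lit 0) (nat_lit 38773673359) (nat_lit 76) (nat_lit 24888389717) (nat_lit 76) (nat_lit 4004686950) (nat_lit 13) (nat_lit 4) (nat_lit 14) (nat_lit 5) (nat_lit 14) (nat_lit 4) (nat_lit 442) (nat_lit 285) (nat_lit 173)) (XT.lf (nat_lit 0) (nat_lit 2798860274) (nat_lit 152) (nat_lit 15225055656) (nat_lit 76) (nat_lit 51449329237) (nat_lit 12) (nat_lit 5) (nat_lit 14) (nat_lit 5) (nat_lit 13) (nat_lit 4) (nat_lit 443) (nat_lit 285) (nat_lit 172))) (XT.nd (nat_lit 78) (nat_lit 76) (nat_lit 0) (XT.lf (nat_lit 0) (nat_lit 9711403458) (nat_lit 152) (nat_lit 1214961195) (nat_lit 76) (nat_lit 60406820507) (nat_lit 12) (nat_lit 5) (nat_lit 14) (nat_lit 5) (nat_lit 13) (nat_lit 4) (nat_lit 444) (nat_lit 285) (nat_lit 171)) (XT.lf (nat_lit 0) (nat_lit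 13450409990) (nat_lit 76) (nat_lit 3496012131) (nat_lit 152) (nat_lit 56299049133) (nat_lit 11) (nat_lit 5) (nat_lit 12) (nat_lit 5) (nat_lit 13) (nat_lit 4) (nat_lit 445) (nat_lit 285) (nat_lit 170)))))) (XT.nd (nat_lit 37986) (nat_lit 0) (nat_lit 12236) (XT.nd (nat_lit 37674) (nat_lit 0) (nat_lit 14972) (XT.nd (nat_lit 78) (nat_lit 0) (nat_lit 0) (XT.lf (nat_lit 0) (nat_lit 24436674254) (nat_lit 152) (nat_lit 46701711516) (nat_lit 0) (nat_lit 4075595524) (nat_lit 11) (nat_lit 5) (nat_lit 13) (nat_lit 4) (nat_lit 11) (nat_lit 4) (nat_lit 446) (nat_lit 285) (nat_lit 169)) (XT.nd (nat_lit 78) (nat_lit 0) (nat_lit 0) (XT.lf (nat_lit 0) (nat_lit 32172491303) (nat_lit 152) (nat_lit 33276891724) (nat_lit 0) (nat_lit 11791538714) (nat_lit 11) (nat_lit 5) (nat_lit 13) (nat_lit 4) (nat_lit 11) (nat_lit 4) (nat_lit 447) (nat_lit 285) (nat_lit 168)) (XT.lf (nat_lit 0) (nat_lit 40127026912) (nat_lit 152) (nat_lit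 19475265655) (nat_lit 0) (nat_lit 19726779316) (nat_lit 11) (nat_lit 5) (nat_lit 13) (nat_lit 4) (nat_lit 11) (nat_lit 4) (nat_lit 448) (nat_lit 285) (nat_lit 167)))) (XT.nd (nat_lit 156) (nat_lit 684) (nat_lit 0) (XT.nd (nat_lit 78) (nat_lit 684) (nat_lit 0) (XT.lf (nat_lit 0) (nat_lit 1286632215) (nat_lit 608) (nat_lit 1183019268) (nat_lit 608) (nat_lit 1183019268) (nat_lit 226) (nat_lit 4) (nat_lit 234) (nat_lit 5) (nat_lit 234) (nat_lit 4) (nat_lit 328) (nat_lit 286) (nat_lit 286)) (XT.lf (nat_lit 0) (nat_lit 649082189) (nat_lit 608) (nat_lit 448153771) (nat_lit 684) (nat_lit 6272818031) (nat_lit 217) (nat_lit 5) (nat_lit 225) (nat_lit 5) (nat_lit 226) (nat_lit 4) (nat_lit 329) (nat_lit 286) (nat_lit 285))) (XT.nd (nat_lit 78) (nat_lit 684) (nat_lit 0) (XT.lf (nat_lit 0) (nat_lit 4580623094) (nat_lit 684) (nat_lit 1295949888) (nat_lit 0) (nat_lit 1560580842) (nat_lit 217) (nat_lit 5) (nat_lit 226) (nat_lit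 4) (nat_lit 217) (nat_lit 4) (nat_lit 330) (nat_lit 286) (nat_lit 284)) (XT.lf (nat_lit 0) (nat_lit 597894903) (nat_lit 684) (nat_lit 3250689911) (nat_lit 76) (nat_lit 3659091974) (nat_lit 208) (nat_lit 5) (nat_lit 217) (nat_lit 5) (nat_lit 209) (nat_lit 4) (nat_lit 331) (nat_lit 286) (nat_lit 283))))) (XT.nd (nat_lit 234) (nat_lit 1596) (nat_lit 0) (XT.nd (nat_lit 78) (nat_lit 608) (nat_lit 0) (XT.lf (nat_lit 0) (nat_lit 2331793508) (nat_lit 532) (nat_lit 1706883945) (nat_lit 608) (nat_lit 3542641975) (nat_lit 201) (nat_lit 5) (nat_lit 208) (nat_lit 5) (nat_lit 209) (nat_lit 4) (nat_lit 332) (nat_lit 286) (nat_lit 282)) (XT.nd (nat_lit 78) (nat_lit 76) (nat_lit 0) (XT.lf (nat_lit 0) (nat_lit 384456986) (nat_lit 532) (nat_lit 7145994847) (nat_lit 532) (nat_lit 128341407) (nat_lit 194) (nat_lit 4) (nat_lit 201) (nat_lit 5) (nat_lit 201) (nat_lit 4) (nat_lit 333) (nat_lit 286) (nat_lit 281)) (XT.lf (nat_lit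 0) (nat_lit 3299548867) (nat_lit 608) (nat_lit 1602877107) (nat_lit 76) (nat_lit 2835921531) (nat_lit 193) (nat_lit 5) (nat_lit 201) (nat_lit 5) (nat_lit 194) (nat_lit 4) (nat_lit 334) (nat_lit 286) (nat_lit 280)))) (XT.nd (nat_lit 156) (nat_lit 532) (nat_lit 0) (XT.nd (nat_lit 78) (nat_lit 608) (nat_lit 0) (XT.lf (nat_lit 0) (nat_lit 4211926810) (nat_lit 456) (nat_lit 2565816091) (nat_lit 532) (nat_lit 1044056259) (nat_lit 187) (nat_lit 5) (nat_lit 193) (nat_lit 5) (nat_lit 194) (nat_lit 4) (nat_lit 335) (nat_lit 286) (nat_lit 279)) (XT.lf (nat_lit 0) (nat_lit 2238207619) (nat_lit 532) (nat_lit 114564787) (nat_lit 608) (nat_lit 5555879045) (nat_lit 179) (nat_lit 5) (nat_lit 186) (nat_lit 5) (nat_lit 187) (nat_lit 5) (nat_lit 336) (nat_lit 286) (nat_lit 278))) (XT.nd (nat_lit 78) (nat_lit 76) (nat_lit 0) (XT.lf (nat_lit 0) (nat_lit 198787034) (nat_lit 456) (nat_lit 5605264411) (nat_lit 532) (nat_lit 2194587862)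 (nat_lit 173) (nat_lit 5) (nat_lit 179) (nat_lit 5) (nat_lit 180) (nat_lit 4) (nat_lit 337) (nat_lit 286) (nat_lit 277)) (XT.lf (nat_lit 0) (nat_lit 1214030080) (nat_lit 532) (nat_lit 1853811439) (nat_lit 76) (nat_lit 5024026449) (nat_lit 172) (nat_lit 5) (nat_lit 179) (nat_lit 5) (nat_lit 173) (nat_lit 5) (nat_lit 338) (nat_lit 286) (nat_lit 276))))))) (XT.nd (nat_lit 1014) (nat_lit 2812) (nat_lit 0) (XT.nd (nat_lit 468) (nat_lit 1824) (nat_lit 0) (XT.nd (nat_lit 234) (nat_lit 1292) (nat_lit 0) (XT.nd (nat_lit 78) (nat_lit 456) (nat_lit 0) (XT.lf (nat_lit 0) (nat_lit 4223877727) (nat_lit 456) (nat_lit 412338533) (nat_lit 532) (nat_lit 3552404918) (nat_lit 166) (nat_lit 5) (nat_lit 172) (nat_lit 5) (nat_lit 173) (nat_lit 5) (nat_lit 339) (nat_lit 286) (nat_lit 275)) (XT.nd (nat_lit 78) (nat_lit 76) (nat_lit 0) (XT.lf (nat_lit 0) (nat_lit 2144813653) (nat_lit 380) (nat_lit 5994162375) (nat_lit 456) (nat_lit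 150004599) (nat_lit 161) (nat_lit 5) (nat_lit 166) (nat_lit 5) (nat_lit 167) (nat_lit 4) (nat_lit 340) (nat_lit 286) (nat_lit 274)) (XT.lf (nat_lit 0) (nat_lit 3250136284) (nat_lit 456) (nat_lit 18284543) (nat_lit 76) (nat_lit 5124167420) (nat_lit 160) (nat_lit 5) (nat_lit 166) (nat_lit 5) (nat_lit 161) (nat_lit 5) (nat_lit 341) (nat_lit 286) (nat_lit 273)))) (XT.nd (nat_lit 78) (nat_lit 836) (nat_lit 0) (XT.lf (nat_lit 0) (nat_lit 6306800828) (nat_lit 456) (nat_lit 422130460) (nat_lit 532) (nat_lit 1770975721) (nat_lit 154) (nat_lit 5) (nat_lit 160) (nat_lit 5) (nat_lit 161) (nat_lit 5) (nat_lit 342) (nat_lit 286) (nat_lit 272)) (XT.nd (nat_lit 78) (nat_lit 380) (nat_lit 0) (XT.lf (nat_lit 0) (nat_lit 1652703807) (nat_lit 456) (nat_lit 4465794863) (nat_lit 76) (nat_lit 2491963284) (nat_lit 148) (nat_lit 5) (nat_lit 154) (nat_lit 5) (nat_lit 149) (nat_lit 5) (nat_lit 343) (nat_lit 286) (nat_lit 271)) (XT.lf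 (nat_lit 0) (nat_lit 1901169020) (nat_lit 380) (nat_lit 3207784707) (nat_lit 456) (nat_lit 3615924382) (nat_lit 143) (nat_lit 5) (nat_lit 148) (nat_lit 5) (nat_lit 149) (nat_lit 5) (nat_lit 344) (nat_lit 286) (nat_lit 270))))) (XT.nd (nat_lit 234) (nat_lit 1064) (nat_lit 0) (XT.nd (nat_lit 78) (nat_lit 760) (nat_lit 0) (XT.lf (nat_lit 0) (nat_lit 8443886294) (nat_lit 380) (nat_lit 192020416) (nat_lit 456) (nat_lit 207842810) (nat_lit 143) (nat_lit 5) (nat_lit 148) (nat_lit 5) (nat_lit 149) (nat_lit 5) (nat_lit 345) (nat_lit 286) (nat_lit 269)) (XT.nd (nat_lit 78) (nat_lit 380) (nat_lit 0) (XT.lf (nat_lit 0) (nat_lit 3249696889) (nat_lit 380) (nat_lit 2793711977) (nat_lit 76) (nat_lit 2921507407) (nat_lit 138) (nat_lit 5) (nat_lit 143) (nat_lit 5) (nat_lit 139) (nat_lit 5) (nat_lit 346) (nat_lit 286) (nat_lit 268)) (XT.lf (nat_lit 0) (nat_lit 3822365984) (nat_lit 380) (nat_lit 2951504668) (nat_lit 456) (nat_lit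 2316803501) (nat_lit 133) (nat_lit 5) (nat_lit 138) (nat_lit 5) (nat_lit 139) (nat_lit 5) (nat_lit 347) (nat_lit 286) (nat_lit 267)))) (XT.nd (nat_lit 156) (nat_lit 684) (nat_lit 0) (XT.nd (nat_lit 78) (nat_lit 0) (nat_lit 0) (XT.lf (nat_lit 0) (nat_lit 1129512381) (nat_lit 380) (nat_lit 7839894457) (nat_lit 76) (nat_lit 251413998) (nat_lit 128) (nat_lit 5) (nat_lit 133) (nat_lit 5) (nat_lit 129) (nat_lit 5) (nat_lit 348) (nat_lit 286) (nat_lit 266)) (XT.lf (nat_lit 0) (nat_lit 4641261519) (nat_lit 380) (nat_lit 1175940653) (nat_lit 76) (nat_lit 3536751150) (nat_lit 128) (nat_lit 5) (nat_lit 133) (nat_lit 5) (nat_lit 129) (nat_lit 5) (nat_lit 349) (nat_lit 286) (nat_lit 265))) (XT.nd (nat_lit 78) (nat_lit 380) (nat_lit 0) (XT.lf (nat_lit 0) (nat_lit 5694578111) (nat_lit 304) (nat_lit 2546350131) (nat_lit 380) (nat_lit 1250701614) (nat_lit 124) (nat_lit 5) (nat_lit 128) (nat_lit 5) (nat_lit 129) (nat_lit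 5) (nat_lit 350) (nat_lit 286) (nat_lit 264)) (XT.lf (nat_lit 0) (nat_lit 2248144906) (nat_lit 380) (nat_lit 6546557413) (nat_lit 76) (nat_lit 838746999) (nat_lit 119) (nat_lit 5) (nat_lit 124) (nat_lit 5) (nat_lit 120) (nat_lit 5) (nat_lit 351) (nat_lit 286) (nat_lit 263)))))) (XT.nd (nat_lit 546) (nat_lit 1216) (nat_lit 0) (XT.nd (nat_lit 234) (nat_lit 912) (nat_lit 0) (XT.nd (nat_lit 78) (nat_lit 380) (nat_lit 0) (XT.lf (nat_lit 0) (nat_lit 339768573) (nat_lit 304) (nat_lit 5483227707) (nat_lit 380) (nat_lit 3956295003) (nat_lit 115) (nat_lit 5) (nat_lit 119) (nat_lit 5) (nat_lit 120) (nat_lit 5) (nat_lit 352) (nat_lit 286) (nat_lit 262)) (XT.nd (nat_lit 78) (nat_lit 380) (nat_lit 0) (XT.lf (nat_lit 0) (nat_lit 7462214708) (nat_lit 304) (nat_lit 2039025833) (nat_lit 380) (nat_lit 428407559) (nat_lit 115) (nat_lit 5) (nat_lit 119) (nat_lit 5) (nat_lit 120) (nat_lit 5) (nat_lit 353) (nat_lit 286) (nat_lit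 261)) (XT.lf (nat_lit 0) (nat_lit 3133973170) (nat_lit 380) (nat_lit 5428094313) (nat_lit 76) (nat_lit 1521810314) (nat_lit 110) (nat_lit 5) (nat_lit 115) (nat_lit 5) (nat_lit 111) (nat_lit 5) (nat_lit 354) (nat_lit 286) (nat_lit 260)))) (XT.nd (nat_lit 156) (nat_lit 532) (nat_lit 0) (XT.nd (nat_lit 78) (nat_lit 76) (nat_lit 0) (XT.lf (nat_lit 0) (nat_lit 1706190360) (nat_lit 304) (nat_lit 5082246373) (nat_lit 380) (nat_lit 3454377717) (nat_lit 106) (nat_lit 5) (nat_lit 110) (nat_lit 5) (nat_lit 111) (nat_lit 5) (nat_lit 355) (nat_lit 286) (nat_lit 259)) (XT.lf (nat_lit 0) (nat_lit 130898914) (nat_lit 380) (nat_lit 1345113388) (nat_lit 76) (nat_lit 8930853511) (nat_lit 105) (nat_lit 5) (nat_lit 110) (nat_lit 5) (nat_lit 106) (nat_lit 5) (nat_lit 356) (nat_lit 286) (nat_lit 258))) (XT.nd (nat_lit 78) (nat_lit 304) (nat_lit 0) (XT.lf (nat_lit 0) (nat_lit 3768848946) (nat_lit 304) (nat_lit 4552287442) (nat_lit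 76) (nat_lit 2253260048) (nat_lit 102) (nat_lit 5) (nat_lit 106) (nat_lit 5) (nat_lit 103) (nat_lit 5) (nat_lit 357) (nat_lit 286) (nat_lit 257)) (XT.lf (nat_lit 0) (nat_lit 2830189044) (nat_lit 304) (nat_lit 4676243189) (nat_lit 380) (nat_lit 3240825427) (nat_lit 98) (nat_lit 5) (nat_lit 102) (nat_lit 5) (nat_lit 103) (nat_lit 5) (nat_lit 358) (nat_lit 286) (nat_lit 256))))) (XT.nd (nat_lit 234) (nat_lit 684) (nat_lit 0) (XT.nd (nat_lit 78) (nat_lit 456) (nat_lit 0) (XT.lf (nat_lit 0) (nat_lit 404086526) (nat_lit 380) (nat_lit 503041459) (nat_lit 76) (nat_lit 10018621235) (nat_lit 97) (nat_lit 5) (nat_lit 102) (nat_lit 5) (nat_lit 98) (nat_lit 5) (nat_lit 359) (nat_lit 286) (nat_lit 255)) (XT.nd (nat_lit 78) (nat_lit 228) (nat_lit 0) (XT.lf (nat_lit 0) (nat_lit 4128224433) (nat_lit 304) (nat_lit 3996053369) (nat_lit 76) (nat_lit 2983322490) (nat_lit 94) (nat_lit 5) (nat_lit 98) (nat_lit 5) (nat_lit 95)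 (nat_lit 5) (nat_lit 360) (nat_lit 286) (nat_lit 254)) (XT.lf (nat_lit 0) (nat_lit 3632413732) (nat_lit 228) (nat_lit 4318361499) (nat_lit 304) (nat_lit 3344548352) (nat_lit 91) (nat_lit 5) (nat_lit 94) (nat_lit 5) (nat_lit 95) (nat_lit 5) (nat_lit 361) (nat_lit 286) (nat_lit 253)))) (XT.nd (nat_lit 156) (nat_lit 380) (nat_lit 0) (XT.nd (nat_lit 78) (nat_lit 228) (nat_lit 0) (XT.lf (nat_lit 0) (nat_lit 370186705) (nat_lit 304) (nat_lit 19898409) (nat_lit 76) (nat_lit 11099135004) (nat_lit 90) (nat_lit 5) (nat_lit 94) (nat_lit 5) (nat_lit 91) (nat_lit 5) (nat_lit 362) (nat_lit 286) (nat_lit 252)) (XT.lf (nat_lit 0) (nat_lit 4180432142) (nat_lit 304) (nat_lit 3847317937) (nat_lit 76) (nat_lit 3658667203) (nat_lit 87) (nat_lit 5) (nat_lit 91) (nat_lit 5) (nat_lit 88) (nat_lit 5) (nat_lit 363) (nat_lit 286) (nat_lit 251))) (XT.nd (nat_lit 78) (nat_lit 152) (nat_lit 0) (XT.lf (nat_lit 0) (nat_lit 4021936947)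 (nat_lit 228) (nat_lit 4065968427) (nat_lit 304) (nat_lit 3802152788) (nat_lit 84) (nat_lit 5) (nat_lit 87) (nat_lit 5) (nat_lit 88) (nat_lit 5) (nat_lit 364) (nat_lit 286) (nat_lit 250)) (XT.lf (nat_lit 0) (nat_lit 9246686) (nat_lit 152) (nat_lit 12083469174) (nat_lit 228) (nat_lit 7703983) (nat_lit 82) (nat_lit 5) (nat_lit 84) (nat_lit 5) (nat_lit 85) (nat_lit 4) (nat_lit 365) (nat_lit 286) (nat_lit 249))))))))
noncomputable def xc70 : XT := (XT.nd (nat_lit 2106) (nat_lit 1520) (nat_lit 0) (XT.nd (nat_lit 1014) (nat_lit 1292) (nat_lit 0) (XT.nd (nat_lit 468) (nat_lit 988) (nat_lit 0) (XT.nd (nat_lit 234) (nat_lit 456) (nat_lit 0) (XT.nd (nat_lit 78) (nat_lit 228) (nat_lit 0) (XT.lf (nat_lit 0) (nat_lit 3885811323) (nat_lit 228) (nat_lit 4207155460) (nat_lit 76) (nat_lit 4221174432) (nat_lit 81) (nat_lit 5) (nat_lit 84) (nat_lit 5) (nat_lit 82) (nat_lit 5) (nat_lit 366) (nat_lit 286) (nat_lit 248)) (XT.nd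 (nat_lit 78) (nat_lit 0) (nat_lit 0) (XT.lf (nat_lit 0) (nat_lit 3894018501) (nat_lit 228) (nat_lit 3981964218) (nat_lit 304) (nat_lit 4658902751) (nat_lit 78) (nat_lit 5) (nat_lit 81) (nat_lit 5) (nat_lit 82) (nat_lit 5) (nat_lit 367) (nat_lit 286) (nat_lit 247)) (XT.lf (nat_lit 0) (nat_lit 11974167168) (nat_lit 304) (nat_lit 535045005) (nat_lit 76) (nat_lit 253403939) (nat_lit 78) (nat_lit 5) (nat_lit 82) (nat_lit 5) (nat_lit 79) (nat_lit 4) (nat_lit 368) (nat_lit 286) (nat_lit 246)))) (XT.nd (nat_lit 78) (nat_lit 228) (nat_lit 0) (XT.lf (nat_lit 0) (nat_lit 3195660467) (nat_lit 228) (nat_lit 5192238845) (nat_lit 76) (nat_lit 4606571160) (nat_lit 75) (nat_lit 5) (nat_lit 78) (nat_lit 5) (nat_lit 76) (nat_lit 5) (nat_lit 369) (nat_lit 286) (nat_lit 245)) (XT.nd (nat_lit 78) (nat_lit 0) (nat_lit 0) (XT.lf (nat_lit 0) (nat_lit 3127542059) (nat_lit 228) (nat_lit 4136237466) (nat_lit 304) (nat_lit 5969868912)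 (nat_lit 72) (nat_lit 5) (nat_lit 75) (nat_lit 5) (nat_lit 76) (nat_lit 5) (nat_lit 370) (nat_lit 286) (nat_lit 244)) (XT.lf (nat_lit 0) (nat_lit 11454400037) (nat_lit 304) (nat_lit 1771405415) (nat_lit 76) (nat_lit 254194365) (nat_lit 72) (nat_lit 5) (nat_lit 76) (nat_lit 5) (nat_lit 73) (nat_lit 4) (nat_lit 371) (nat_lit 286) (nat_lit 243))))) (XT.nd (nat_lit 234) (nat_lit 532) (nat_lit 0) (XT.nd (nat_lit 78) (nat_lit 228) (nat_lit 0) (XT.lf (nat_lit 0) (nat_lit 2050991723) (nat_lit 228) (nat_lit 6937654355) (nat_lit 76) (nat_lit 4742907066) (nat_lit 69) (nat_lit 5) (nat_lit 72) (nat_lit 5) (nat_lit 70) (nat_lit 5) (nat_lit 372) (nat_lit 286) (nat_lit 242)) (XT.nd (nat_lit 78) (nat_lit 0) (nat_lit 0) (XT.lf (nat_lit 0) (nat_lit 1582068120) (nat_lit 228) (nat_lit 4607297045) (nat_lit 304) (nat_lit 7801291151) (nat_lit 66) (nat_lit 5) (nat_lit 69) (nat_lit 5) (nat_lit 70) (nat_lit 5) (nat_lit 373) (nat_lit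 286) (nat_lit 241)) (XT.lf (nat_lit 0) (nat_lit 10409559911) (nat_lit 228) (nat_lit 59991119) (nat_lit 304) (nat_lit 3787462213) (nat_lit 66) (nat_lit 5) (nat_lit 69) (nat_lit 5) (nat_lit 70) (nat_lit 5) (nat_lit 374) (nat_lit 286) (nat_lit 240)))) (XT.nd (nat_lit 156) (nat_lit 304) (nat_lit 0) (XT.nd (nat_lit 78) (nat_lit 0) (nat_lit 0) (XT.lf (nat_lit 0) (nat_lit 381058762) (nat_lit 228) (nat_lit 9600142839) (nat_lit 76) (nat_lit 4548837841) (nat_lit 63) (nat_lit 5) (nat_lit 66) (nat_lit 5) (nat_lit 64) (nat_lit 5) (nat_lit 375) (nat_lit 286) (nat_lit 239)) (XT.lf (nat_lit 0) (nat_lit 4587258922) (nat_lit 228) (nat_lit 887890702) (nat_lit 76) (nat_lit 9335328987) (nat_lit 63) (nat_lit 5) (nat_lit 66) (nat_lit 5) (nat_lit 64) (nat_lit 5) (nat_lit 376) (nat_lit 286) (nat_lit 238))) (XT.nd (nat_lit 78) (nat_lit 152) (nat_lit 0) (XT.lf (nat_lit 0) (nat_lit 8158763417) (nat_lit 152) (nat_lit 789713956) (nat_lit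 228) (nat_lit 6149997938) (nat_lit 61) (nat_lit 5) (nat_lit 63) (nat_lit 5) (nat_lit 64) (nat_lit 5) (nat_lit 377) (nat_lit 286) (nat_lit 237)) (XT.lf (nat_lit 0) (nat_lit 2014133815) (nat_lit 152) (nat_lit 11444293674) (nat_lit 228) (nat_lit 1936156623) (nat_lit 59) (nat_lit 5) (nat_lit 61) (nat_lit 5) (nat_lit 62) (nat_lit 4) (nat_lit 378) (nat_lit 286) (nat_lit 236)))))) (XT.nd (nat_lit 546) (nat_lit 532) (nat_lit 0) (XT.nd (nat_lit 234) (nat_lit 532) (nat_lit 0) (XT.nd (nat_lit 78) (nat_lit 152) (nat_lit 0) (XT.lf (nat_lit 0) (nat_lit 2386580332) (nat_lit 228) (nat_lit 4436840473) (nat_lit 76) (nat_lit 8874588824) (nat_lit 58) (nat_lit 5) (nat_lit 61) (nat_lit 5) (nat_lit 59) (nat_lit 5) (nat_lit 379) (nat_lit 286) (nat_lit 235)) (XT.nd (nat_lit 78) (nat_lit 0) (nat_lit 0) (XT.lf (nat_lit 0) (nat_lit 4764812311) (nat_lit 152) (nat_lit 2033310252) (nat_lit 228) (nat_lit 9211907399) (nat_lit 56) (nat_lit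 5) (nat_lit 58) (nat_lit 5) (nat_lit 59) (nat_lit 5) (nat_lit 380) (nat_lit 286) (nat_lit 234)) (XT.lf (nat_lit 0) (nat_lit 11367619329) (nat_lit 228) (nat_lit 2109252572) (nat_lit 76) (nat_lit 2853778800) (nat_lit 56) (nat_lit 5) (nat_lit 59) (nat_lit 5) (nat_lit 57) (nat_lit 4) (nat_lit 381) (nat_lit 286) (nat_lit 233)))) (XT.nd (nat_lit 156) (nat_lit 152) (nat_lit 0) (XT.nd (nat_lit 78) (nat_lit 228) (nat_lit 0) (XT.lf (nat_lit 0) (nat_lit 7342059490) (nat_lit 152) (nat_lit 8776713603) (nat_lit 228) (nat_lit 540787616) (nat_lit 54) (nat_lit 5) (nat_lit 56) (nat_lit 5) (nat_lit 57) (nat_lit 4) (nat_lit 382) (nat_lit 286) (nat_lit 232)) (XT.lf (nat_lit 0) (nat_lit 1694443) (nat_lit 152) (nat_lit 3909595295) (nat_lit 228) (nat_lit 13086633166) (nat_lit 51) (nat_lit 5) (nat_lit 53) (nat_lit 5) (nat_lit 54) (nat_lit 5) (nat_lit 383) (nat_lit 286) (nat_lit 231))) (XT.nd (nat_lit 78) (nat_lit 152) (nat_lit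 0) (XT.lf (nat_lit 0) (nat_lit 8545874783) (nat_lit 228) (nat_lit 7651256552) (nat_lit 76) (nat_lit 1147356706) (nat_lit 51) (nat_lit 5) (nat_lit 54) (nat_lit 5) (nat_lit 52) (nat_lit 4) (nat_lit 384) (nat_lit 286) (nat_lit 230)) (XT.lf (nat_lit 0) (nat_lit 1892463963) (nat_lit 152) (nat_lit 11439454902) (nat_lit 228) (nat_lit 4369165564) (nat_lit 49) (nat_lit 5) (nat_lit 51) (nat_lit 5) (nat_lit 52) (nat_lit 4) (nat_lit 385) (nat_lit 286) (nat_lit 229))))) (XT.nd (nat_lit 234) (nat_lit 304) (nat_lit 0) (XT.nd (nat_lit 78) (nat_lit 152) (nat_lit 0) (XT.lf (nat_lit 0) (nat_lit 223039026) (nat_lit 228) (nat_lit 6269271084) (nat_lit 76) (nat_lit 11575010149) (nat_lit 48) (nat_lit 5) (nat_lit 51) (nat_lit 5) (nat_lit 49) (nat_lit 5) (nat_lit 386) (nat_lit 286) (nat_lit 228)) (XT.nd (nat_lit 78) (nat_lit 0) (nat_lit 0) (XT.lf (nat_lit 0) (nat_lit 3503771096) (nat_lit 152) (nat_lit 1352011064) (nat_lit 228) (nat_lit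 13587751931) (nat_lit 46) (nat_lit 5) (nat_lit 48) (nat_lit 5) (nat_lit 49) (nat_lit 5) (nat_lit 387) (nat_lit 286) (nat_lit 227)) (XT.lf (nat_lit 0) (nat_lit 9686434476) (nat_lit 228) (nat_lit 5246934265) (nat_lit 76) (nat_lit 3895903957) (nat_lit 46) (nat_lit 5) (nat_lit 49) (nat_lit 5) (nat_lit 47) (nat_lit 4) (nat_lit 388) (nat_lit 286) (nat_lit 226)))) (XT.nd (nat_lit 156) (nat_lit 152) (nat_lit 0) (XT.nd (nat_lit 78) (nat_lit 76) (nat_lit 0) (XT.lf (nat_lit 0) (nat_lit 4740265447) (nat_lit 76) (nat_lit 9939038194) (nat_lit 152) (nat_lit 4546766890) (nat_lit 45) (nat_lit 5) (nat_lit 46) (nat_lit 5) (nat_lit 47) (nat_lit 4) (nat_lit 389) (nat_lit 286) (nat_lit 225)) (XT.lf (nat_lit 0) (nat_lit 195468070) (nat_lit 152) (nat_lit 4576488440) (nat_lit 76) (nat_lit 14862409425) (nat_lit 44) (nat_lit 5) (nat_lit 46) (nat_lit 5) (nat_lit 45) (nat_lit 5) (nat_lit 390) (nat_lit 286) (nat_lit 224))) (XT.nd (nat_lit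 78) (nat_lit 0) (nat_lit 0) (XT.lf (nat_lit 0) (nat_lit 5008208558) (nat_lit 228) (nat_lit 14437740264) (nat_lit 76) (nat_lit 607027611) (nat_lit 42) (nat_lit 5) (nat_lit 45) (nat_lit 5) (nat_lit 43) (nat_lit 4) (nat_lit 391) (nat_lit 286) (nat_lit 223)) (XT.lf (nat_lit 0) (nat_lit 10019047622) (nat_lit 228) (nat_lit 4397521532) (nat_lit 76) (nat_lit 6065969921) (nat_lit 42) (nat_lit 5) (nat_lit 45) (nat_lit 5) (nat_lit 43) (nat_lit 4) (nat_lit 392) (nat_lit 286) (nat_lit 222))))))) (XT.nd (nat_lit 1014) (nat_lit 608) (nat_lit 0) (XT.nd (nat_lit 468) (nat_lit 532) (nat_lit 0) (XT.nd (nat_lit 234) (nat_lit 76) (nat_lit 0) (XT.nd (nat_lit 78) (nat_lit 228) (nat_lit 0) (XT.lf (nat_lit 0) (nat_lit 5989336430) (nat_lit 76) (nat_lit 9209417667) (nat_lit 152) (nat_lit 5725683394) (nat_lit 41) (nat_lit 5) (nat_lit 42) (nat_lit 5) (nat_lit 43) (nat_lit 4) (nat_lit 393) (nat_lit 286) (nat_lit 221)) (XT.nd (nat_lit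 78) (nat_lit 228) (nat_lit 0) (XT.lf (nat_lit 0) (nat_lit 16707204558) (nat_lit 76) (nat_lit 3832479451) (nat_lit 152) (nat_lit 839738897) (nat_lit 41) (nat_lit 5) (nat_lit 42) (nat_lit 5) (nat_lit 43) (nat_lit 4) (nat_lit 394) (nat_lit 286) (nat_lit 220)) (XT.lf (nat_lit 0) (nat_lit 4146948462) (nat_lit 228) (nat_lit 15959321349) (nat_lit 76) (nat_lit 1739504264) (nat_lit 38) (nat_lit 5) (nat_lit 41) (nat_lit 5) (nat_lit 39) (nat_lit 4) (nat_lit 395) (nat_lit 286) (nat_lit 219)))) (XT.nd (nat_lit 78) (nat_lit 76) (nat_lit 0) (XT.lf (nat_lit 0) (nat_lit 9314264321) (nat_lit 228) (nat_lit 5583348680) (nat_lit 76) (nat_lit 7426820764) (nat_lit 38) (nat_lit 5) (nat_lit 41) (nat_lit 5) (nat_lit 39) (nat_lit 4) (nat_lit 396) (nat_lit 286) (nat_lit 218)) (XT.nd (nat_lit 78) (nat_lit 0) (nat_lit 0) (XT.lf (nat_lit 0) (nat_lit 5136581600) (nat_lit 76) (nat_lit 9512804780) (nat_lit 152) (nat_lit 8167687717) (nat_lit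 37) (nat_lit 5) (nat_lit 38) (nat_lit 5) (nat_lit 39) (nat_lit 4) (nat_lit 397) (nat_lit 286) (nat_lit 217)) (XT.lf (nat_lit 0) (nat_lit 16225670489) (nat_lit 76) (nat_lit 3939105942) (nat_lit 152) (nat_lit 3159115104) (nat_lit 37) (nat_lit 5) (nat_lit 38) (nat_lit 5) (nat_lit 39) (nat_lit 4) (nat_lit 398) (nat_lit 286) (nat_lit 216))))) (XT.nd (nat_lit 234) (nat_lit 228) (nat_lit 0) (XT.nd (nat_lit 78) (nat_lit 76) (nat_lit 0) (XT.lf (nat_lit 0) (nat_lit 1979246731) (nat_lit 228) (nat_lit 20072282166) (nat_lit 76) (nat_lit 1793255390) (nat_lit 34) (nat_lit 5) (nat_lit 37) (nat_lit 5) (nat_lit 35) (nat_lit 4) (nat_lit 399) (nat_lit 286) (nat_lit 215)) (XT.nd (nat_lit 78) (nat_lit 76) (nat_lit 0) (XT.lf (nat_lit 0) (nat_lit 7284308369) (nat_lit 228) (nat_lit 9401067134) (nat_lit 76) (nat_lit 7692712602) (nat_lit 34) (nat_lit 5) (nat_lit 37) (nat_lit 5) (nat_lit 35) (nat_lit 4) (nat_lit 400) (nat_lit 286)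 (nat_lit 214)) (XT.lf (nat_lit 0) (nat_lit 1556800895) (nat_lit 76) (nat_lit 11172370531) (nat_lit 152) (nat_lit 12198803968) (nat_lit 33) (nat_lit 5) (nat_lit 34) (nat_lit 5) (nat_lit 35) (nat_lit 4) (nat_lit 401) (nat_lit 286) (nat_lit 213)))) (XT.nd (nat_lit 156) (nat_lit 228) (nat_lit 0) (XT.nd (nat_lit 78) (nat_lit 0) (nat_lit 0) (XT.lf (nat_lit 0) (nat_lit 12972881481) (nat_lit 76) (nat_lit 5425507497) (nat_lit 152) (nat_lit 7094143796) (nat_lit 33) (nat_lit 5) (nat_lit 34) (nat_lit 5) (nat_lit 35) (nat_lit 4) (nat_lit 402) (nat_lit 286) (nat_lit 212)) (XT.lf (nat_lit 0) (nat_lit 24209220160) (nat_lit 152) (nat_lit 1409441172) (nat_lit 0) (nat_lit 456223050) (nat_lit 33) (nat_lit 5) (nat_lit 35) (nat_lit 4) (nat_lit 33) (nat_lit 4) (nat_lit 403) (nat_lit 286) (nat_lit 211))) (XT.nd (nat_lit 78) (nat_lit 0) (nat_lit 0) (XT.lf (nat_lit 0) (nat_lit 3570891767) (nat_lit 228) (nat_lit 16588674321) (nat_lit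 76) (nat_lit 6510531765) (nat_lit 30) (nat_lit 5) (nat_lit 33) (nat_lit 5) (nat_lit 31) (nat_lit 4) (nat_lit 404) (nat_lit 286) (nat_lit 210)) (XT.lf (nat_lit 0) (nat_lit 9115224105) (nat_lit 228) (nat_lit 5415803459) (nat_lit 76) (nat_lit 12752123988) (nat_lit 30) (nat_lit 5) (nat_lit 33) (nat_lit 5) (nat_lit 31) (nat_lit 4) (nat_lit 405) (nat_lit 286) (nat_lit 209)))))) (XT.nd (nat_lit 546) (nat_lit 304) (nat_lit 0) (XT.nd (nat_lit 234) (nat_lit 152) (nat_lit 0) (XT.nd (nat_lit 78) (nat_lit 76) (nat_lit 0) (XT.lf (nat_lit 0) (nat_lit 6153736837) (nat_lit 76) (nat_lit 8700044966) (nat_lit 152) (nat_lit 13059981417) (nat_lit 29) (nat_lit 5) (nat_lit 30) (nat_lit 5) (nat_lit 31) (nat_lit 4) (nat_lit 406) (nat_lit 286) (nat_lit 208)) (XT.nd (nat_lit 78) (nat_lit 76) (nat_lit 0) (XT.lf (nat_lit 0) (nat_lit 18123358234) (nat_lit 76) (nat_lit 2664921570) (nat_lit 152) (nat_lit 7774303050) (nat_lit 29) (nat_lit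 5) (nat_lit 30) (nat_lit 5) (nat_lit 31) (nat_lit 4) (nat_lit 407) (nat_lit 286) (nat_lit 207)) (XT.lf (nat_lit 0) (nat_lit 1152571310) (nat_lit 76) (nat_lit 25763199144) (nat_lit 76) (nat_lit 2314650925) (nat_lit 28) (nat_lit 4) (nat_lit 29) (nat_lit 5) (nat_lit 29) (nat_lit 4) (nat_lit 408) (nat_lit 286) (nat_lit 206)))) (XT.nd (nat_lit 156) (nat_lit 76) (nat_lit 0) (XT.nd (nat_lit 78) (nat_lit 0) (nat_lit 0) (XT.lf (nat_lit 0) (nat_lit 3346850567) (nat_lit 152) (nat_lit 16725282266) (nat_lit 76) (nat_lit 9842132115) (nat_lit 27) (nat_lit 5) (nat_lit 29) (nat_lit 5) (nat_lit 28) (nat_lit 4) (nat_lit 409) (nat_lit 286) (nat_lit 205)) (XT.lf (nat_lit 0) (nat_lit 9102336512) (nat_lit 152) (nat_lit 5110423176) (nat_lit 76) (nat_lit 16406059543) (nat_lit 27) (nat_lit 5) (nat_lit 29) (nat_lit 5) (nat_lit 28) (nat_lit 4) (nat_lit 410) (nat_lit 286) (nat_lit 204))) (XT.nd (nat_lit 78) (nat_lit 0) (nat_lit 0)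 (XT.lf (nat_lit 0) (nat_lit 6934441885) (nat_lit 76) (nat_lit 8134219362) (nat_lit 152) (nat_lit 16274706363) (nat_lit 26) (nat_lit 5) (nat_lit 27) (nat_lit 5) (nat_lit 28) (nat_lit 4) (nat_lit 411) (nat_lit 286) (nat_lit 203)) (XT.lf (nat_lit 0) (nat_lit 19392182841) (nat_lit 76) (nat_lit 1845232214) (nat_lit 152) (nat_lit 10851536823) (nat_lit 26) (nat_lit 5) (nat_lit 27) (nat_lit 5) (nat_lit 28) (nat_lit 4) (nat_lit 412) (nat_lit 286) (nat_lit 202))))) (XT.nd (nat_lit 234) (nat_lit 152) (nat_lit 0) (XT.nd (nat_lit 78) (nat_lit 152) (nat_lit 0) (XT.lf (nat_lit 0) (nat_lit 27608181718) (nat_lit 152) (nat_lit 730044723) (nat_lit 0) (nat_lit 4518171266) (nat_lit 26) (nat_lit 5) (nat_lit 28) (nat_lit 4) (nat_lit 26) (nat_lit 4) (nat_lit 413) (nat_lit 286) (nat_lit 201)) (XT.nd (nat_lit 78) (nat_lit 0) (nat_lit 0) (XT.lf (nat_lit 0) (nat_lit 618527089) (nat_lit 152) (nat_lit 21893728431) (nat_lit 76) (nat_lit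 11131296937) (nat_lit 24) (nat_lit 5) (nat_lit 26) (nat_lit 5) (nat_lit 25) (nat_lit 4) (nat_lit 414) (nat_lit 286) (nat_lit 200)) (XT.lf (nat_lit 0) (nat_lit 6536489712) (nat_lit 152) (nat_lit 9937864277) (nat_lit 76) (nat_lit 17978990273) (nat_lit 24) (nat_lit 5) (nat_lit 26) (nat_lit 5) (nat_lit 25) (nat_lit 4) (nat_lit 415) (nat_lit 286) (nat_lit 199)))) (XT.nd (nat_lit 156) (nat_lit 76) (nat_lit 0) (XT.nd (nat_lit 78) (nat_lit 0) (nat_lit 0) (XT.lf (nat_lit 0) (nat_lit 2373692069) (nat_lit 76) (nat_lit 10255151657) (nat_lit 152) (nat_lit 22658682777) (nat_lit 23) (nat_lit 5) (nat_lit 24) (nat_lit 5) (nat_lit 25) (nat_lit 4) (nat_lit 416) (nat_lit 286) (nat_lit 198)) (XT.lf (nat_lit 0) (nat_lit 15209491930) (nat_lit 76) (nat_lit 3769151479) (nat_lit 152) (nat_lit 17165852741) (nat_lit 23) (nat_lit 5) (nat_lit 24) (nat_lit 5) (nat_lit 25) (nat_lit 4) (nat_lit 417) (nat_lit 286) (nat_lit 197))) (XT.nd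 (nat_lit 78) (nat_lit 76) (nat_lit 0) (XT.lf (nat_lit 0) (nat_lit 25521777551) (nat_lit 152) (nat_lit 8672727305) (nat_lit 0) (nat_lit 2832586944) (nat_lit 23) (nat_lit 5) (nat_lit 25) (nat_lit 4) (nat_lit 23) (nat_lit 4) (nat_lit 418) (nat_lit 286) (nat_lit 196)) (XT.lf (nat_lit 0) (nat_lit 3950655400) (nat_lit 76) (nat_lit 28361431203) (nat_lit 76) (nat_lit 5622554355) (nat_lit 22) (nat_lit 4) (nat_lit 23) (nat_lit 5) (nat_lit 23) (nat_lit 4) (nat_lit 419) (nat_lit 286) (nat_lit 195))))))))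
noncomputable def xc71 : XT := (XT.nd (nat_lit 2106) (nat_lit 0) (nat_lit 0) (XT.nd (nat_lit 1014) (nat_lit 456) (nat_lit 0) (XT.nd (nat_lit 468) (nat_lit 152) (nat_lit 0) (XT.nd (nat_lit 234) (nat_lit 76) (nat_lit 0) (XT.nd (nat_lit 78) (nat_lit 76) (nat_lit 0) (XT.lf (nat_lit 0) (nat_lit 492225158) (nat_lit 152) (nat_lit 21787898845) (nat_lit 76) (nat_lit 16587246858) (nat_lit 21) (nat_lit 5) (nat_lit 23) (nat_lit 5) (nat_lit 22) (nat_lit 4) (nat_lit 420) (nat_lit 286) (nat_lit 194)) (XT.nd (nat_lit 78) (nat_lit 76) (nat_lit 0) (XT.lf (nat_lit 0) (nat_lit 6653764107) (nat_lit 152) (nat_lit 9326808825) (nat_lit 76) (nat_lit 23846551838) (nat_lit 21) (nat_lit 5) (nat_lit 23) (nat_lit 5) (nat_lit 22) (nat_lit 4) (nat_lit 421) (nat_lit 286) (nat_lit 193)) (XT.lf (nat_lit 0) (nat_lit 3533165038) (nat_lit 76) (nat_lit 9477960553) (nat_lit 152) (nat_lit 27804218249) (nat_lit 20) (nat_lit 5) (nat_lit 21) (nat_lit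 5) (nat_lit 22) (nat_lit 4) (nat_lit 422) (nat_lit 286) (nat_lit 192)))) (XT.nd (nat_lit 78) (nat_lit 76) (nat_lit 0) (XT.lf (nat_lit 0) (nat_lit 16926665254) (nat_lit 76) (nat_lit 2703990286) (nat_lit 152) (nat_lit 22200412296) (nat_lit 20) (nat_lit 5) (nat_lit 21) (nat_lit 5) (nat_lit 22) (nat_lit 4) (nat_lit 423) (nat_lit 286) (nat_lit 191)) (XT.nd (nat_lit 78) (nat_lit 76) (nat_lit 0) (XT.lf (nat_lit 0) (nat_lit 26467581860) (nat_lit 152) (nat_lit 12239037520) (nat_lit 0) (nat_lit 4170081587) (nat_lit 20) (nat_lit 5) (nat_lit 22) (nat_lit 4) (nat_lit 20) (nat_lit 4) (nat_lit 424) (nat_lit 286) (nat_lit 190)) (XT.lf (nat_lit 0) (nat_lit 752780689) (nat_lit 76) (nat_lit 32769226046) (nat_lit 76) (nat_lit 10431326312) (nat_lit 19) (nat_lit 4) (nat_lit 20) (nat_lit 5) (nat_lit 20) (nat_lit 4) (nat_lit 425) (nat_lit 286) (nat_lit 189))))) (XT.nd (nat_lit 234) (nat_lit 76) (nat_lit 0) (XT.nd (nat_lit 78)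 (nat_lit 76) (nat_lit 0) (XT.lf (nat_lit 0) (nat_lit 14344222756) (nat_lit 76) (nat_lit 26546049618) (nat_lit 76) (nat_lit 4168927106) (nat_lit 19) (nat_lit 4) (nat_lit 20) (nat_lit 5) (nat_lit 20) (nat_lit 4) (nat_lit 426) (nat_lit 286) (nat_lit 188)) (XT.nd (nat_lit 78) (nat_lit 0) (nat_lit 0) (XT.lf (nat_lit 0) (nat_lit 2215860264) (nat_lit 152) (nat_lit 17917006541) (nat_lit 76) (nat_lit 26065347745) (nat_lit 18) (nat_lit 5) (nat_lit 20) (nat_lit 5) (nat_lit 19) (nat_lit 4) (nat_lit 427) (nat_lit 286) (nat_lit 187)) (XT.lf (nat_lit 0) (nat_lit 8688044055) (nat_lit 152) (nat_lit 4815444674) (nat_lit 76) (nat_lit 33867285216) (nat_lit 18) (nat_lit 5) (nat_lit 20) (nat_lit 5) (nat_lit 19) (nat_lit 4) (nat_lit 428) (nat_lit 286) (nat_lit 186)))) (XT.nd (nat_lit 156) (nat_lit 0) (nat_lit 0) (XT.nd (nat_lit 78) (nat_lit 0) (nat_lit 0) (XT.lf (nat_lit 0) (nat_lit 8813208561) (nat_lit 76) (nat_lit 6606139747)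 (nat_lit 152) (nat_lit 33157214615) (nat_lit 17) (nat_lit 5) (nat_lit 18) (nat_lit 5) (nat_lit 19) (nat_lit 4) (nat_lit 429) (nat_lit 286) (nat_lit 185)) (XT.lf (nat_lit 0) (nat_lit 22386766426) (nat_lit 152) (nat_lit 26910879012) (nat_lit 0) (nat_lit 519856295) (nat_lit 17) (nat_lit 5) (nat_lit 19) (nat_lit 4) (nat_lit 17) (nat_lit 4) (nat_lit 430) (nat_lit 286) (nat_lit 184))) (XT.nd (nat_lit 78) (nat_lit 0) (nat_lit 0) (XT.lf (nat_lit 0) (nat_lit 29609467237) (nat_lit 152) (nat_lit 13775106385) (nat_lit 0) (nat_lit 7709708648) (nat_lit 17) (nat_lit 5) (nat_lit 19) (nat_lit 4) (nat_lit 17) (nat_lit 4) (nat_lit 431) (nat_lit 286) (nat_lit 183)) (XT.lf (nat_lit 0) (nat_lit 37030259582) (nat_lit 152) (nat_lit 281056364) (nat_lit 0) (nat_lit 15098609286) (nat_lit 17) (nat_lit 5) (nat_lit 19) (nat_lit 4) (nat_lit 17) (nat_lit 4) (nat_lit 432) (nat_lit 286) (nat_lit 182)))))) (XT.nd (nat_lit 546) (nat_lit 228)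 (nat_lit 0) (XT.nd (nat_lit 234) (nat_lit 76) (nat_lit 0) (XT.nd (nat_lit 78) (nat_lit 76) (nat_lit 0) (XT.lf (nat_lit 0) (nat_lit 13853391532) (nat_lit 76) (nat_lit 30935403390) (nat_lit 76) (nat_lit 8972790271) (nat_lit 16) (nat_lit 4) (nat_lit 17) (nat_lit 5) (nat_lit 17) (nat_lit 4) (nat_lit 433) (nat_lit 286) (nat_lit 181)) (XT.nd (nat_lit 78) (nat_lit 76) (nat_lit 0) (XT.lf (nat_lit 0) (nat_lit 28383221774) (nat_lit 76) (nat_lit 24381849497) (nat_lit 76) (nat_lit 2389175385) (nat_lit 16) (nat_lit 4) (nat_lit 17) (nat_lit 5) (nat_lit 17) (nat_lit 4) (nat_lit 434) (nat_lit 286) (nat_lit 180)) (XT.lf (nat_lit 0) (nat_lit 4288739243) (nat_lit 152) (nat_lit 13315718877) (nat_lit 76) (nat_lit 38983489655) (nat_lit 15) (nat_lit 5) (nat_lit 17) (nat_lit 5) (nat_lit 16) (nat_lit 4) (nat_lit 435) (nat_lit 286) (nat_lit 179)))) (XT.nd (nat_lit 156) (nat_lit 0) (nat_lit 0) (XT.nd (nat_lit 78) (nat_lit 0) (nat_lit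 0) (XT.lf (nat_lit 0) (nat_lit 496503216) (nat_lit 76) (nat_lit 10610244629) (nat_lit 152) (nat_lit 46957570273) (nat_lit 14) (nat_lit 5) (nat_lit 15) (nat_lit 5) (nat_lit 16) (nat_lit 4) (nat_lit 436) (nat_lit 286) (nat_lit 178)) (XT.lf (nat_lit 0) (nat_lit 14963596039) (nat_lit 76) (nat_lit 3283350274) (nat_lit 152) (nat_lit 41334504881) (nat_lit 14) (nat_lit 5) (nat_lit 15) (nat_lit 5) (nat_lit 16) (nat_lit 4) (nat_lit 437) (nat_lit 286) (nat_lit 177))) (XT.nd (nat_lit 78) (nat_lit 0) (nat_lit 0) (XT.lf (nat_lit 0) (nat_lit 25625863346) (nat_lit 152) (nat_lit 31352233172) (nat_lit 0) (nat_lit 4165267443) (nat_lit 14) (nat_lit 5) (nat_lit 16) (nat_lit 4) (nat_lit 14) (nat_lit 4) (nat_lit 438) (nat_lit 286) (nat_lit 176)) (XT.lf (nat_lit 0) (nat_lit 33242666672) (nat_lit 152) (nat_lit 17752077762) (nat_lit 0) (nat_lit 11756895160) (nat_lit 14) (nat_lit 5) (nat_lit 16) (nat_lit 4) (nat_lit 14) (nat_lit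 4) (nat_lit 439) (nat_lit 286) (nat_lit 175))))) (XT.nd (nat_lit 234) (nat_lit 152) (nat_lit 0) (XT.nd (nat_lit 78) (nat_lit 76) (nat_lit 0) (XT.lf (nat_lit 0) (nat_lit 41072450178) (nat_lit 152) (nat_lit 3773943723) (nat_lit 0) (nat_lit 19562236328) (nat_lit 14) (nat_lit 5) (nat_lit 16) (nat_lit 4) (nat_lit 14) (nat_lit 4) (nat_lit 440) (nat_lit 286) (nat_lit 174)) (XT.nd (nat_lit 78) (nat_lit 0) (nat_lit 0) (XT.lf (nat_lit 0) (nat_lit 10805231839) (nat_lit 76) (nat_lit 38420690082) (nat_lit 76) (nat_lit 16886745807) (nat_lit 13) (nat_lit 4) (nat_lit 14) (nat_lit 5) (nat_lit 14) (nat_lit 4) (nat_lit 441) (nat_lit 286) (nat_lit 173)) (XT.lf (nat_lit 0) (nat_lit 25870279126) (nat_lit 76) (nat_lit 31776917866) (nat_lit 76) (nat_lit 10219934343) (nat_lit 13) (nat_lit 4) (nat_lit 14) (nat_lit 5) (nat_lit 14) (nat_lit 4) (nat_lit 442) (nat_lit 286) (nat_lit 172)))) (XT.nd (nat_lit 156) (nat_lit 76) (nat_lit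 0) (XT.nd (nat_lit 78) (nat_lit 76) (nat_lit 0) (XT.lf (nat_lit 0) (nat_lit 41359252889) (nat_lit 76) (nat_lit 24947381447) (nat_lit 76) (nat_lit 3368029722) (nat_lit 13) (nat_lit 4) (nat_lit 14) (nat_lit 5) (nat_lit 14) (nat_lit 4) (nat_lit 443) (nat_lit 286) (nat_lit 171)) (XT.lf (nat_lit 0) (nat_lit 3603243544) (nat_lit 152) (nat_lit 14286484030) (nat_lit 76) (nat_lit 53646057945) (nat_lit 12) (nat_lit 5) (nat_lit 14) (nat_lit 5) (nat_lit 13) (nat_lit 4) (nat_lit 444) (nat_lit 286) (nat_lit 170))) (XT.nd (nat_lit 78) (nat_lit 0) (nat_lit 0) (XT.lf (nat_lit 0) (nat_lit 105328110) (nat_lit 76) (nat_lit 10597864358) (nat_lit 152) (nat_lit 62748931656) (nat_lit 11) (nat_lit 5) (nat_lit 12) (nat_lit 5) (nat_lit 13) (nat_lit 4) (nat_lit 445) (nat_lit 286) (nat_lit 169)) (XT.lf (nat_lit 0) (nat_lit 15195323898) (nat_lit 76) (nat_lit 2951447812) (nat_lit 152) (nat_lit 57275263048) (nat_lit 11) (nat_lit 5) (nat_lit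 12) (nat_lit 5) (nat_lit 13) (nat_lit 4) (nat_lit 446) (nat_lit 286) (nat_lit 168))))))) (XT.nd (nat_lit 38298) (nat_lit 0) (nat_lit 8588) (XT.nd (nat_lit 37752) (nat_lit 0) (nat_lit 12768) (XT.nd (nat_lit 37518) (nat_lit 0) (nat_lit 15656) (XT.nd (nat_lit 78) (nat_lit 0) (nat_lit 0) (XT.lf (nat_lit 0) (nat_lit 25847638350) (nat_lit 152) (nat_lit 46786297443) (nat_lit 0) (nat_lit 4816088319) (nat_lit 11) (nat_lit 5) (nat_lit 13) (nat_lit 4) (nat_lit 11) (nat_lit 4) (nat_lit 447) (nat_lit 286) (nat_lit 167)) (XT.nd (nat_lit 37362) (nat_lit 0) (nat_lit 18240) (XT.lf (nat_lit 0) (nat_lit 33795786302) (nat_lit 152) (nat_lit 32997076709) (nat_lit 0) (nat_lit 12745503254) (nat_lit 11) (nat_lit 5) (nat_lit 13) (nat_lit 4) (nat_lit 11) (nat_lit 4) (nat_lit 448) (nat_lit 286) (nat_lit 166)) (XT.lf (nat_lit 0) (nat_lit 3217387680) (nat_lit 1140) (nat_lit 187591138) (nat_lit 1140) (nat_lit 187591138) (nat_lit 251)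 (nat_lit 4) (nat_lit 266) (nat_lit 5) (nat_lit 266) (nat_lit 4) (nat_lit 326) (nat_lit 287) (nat_lit 287)))) (XT.nd (nat_lit 78) (nat_lit 1292) (nat_lit 0) (XT.lf (nat_lit 0) (nat_lit 3054258667) (nat_lit 1292) (nat_lit 2761321574) (nat_lit 0) (nat_lit 1428602653) (nat_lit 234) (nat_lit 5) (nat_lit 251) (nat_lit 4) (nat_lit 234) (nat_lit 4) (nat_lit 327) (nat_lit 287) (nat_lit 286)) (XT.nd (nat_lit 78) (nat_lit 684) (nat_lit 0) (XT.lf (nat_lit 0) (nat_lit 2520644704) (nat_lit 608) (nat_lit 3995084418) (nat_lit 608) (nat_lit 791121593) (nat_lit 226) (nat_lit 4) (nat_lit 234) (nat_lit 5) (nat_lit 234) (nat_lit 4) (nat_lit 328) (nat_lit 287) (nat_lit 285)) (XT.lf (nat_lit 0) (nat_lit 525320308) (nat_lit 608) (nat_lit 2066610648) (nat_lit 684) (nat_lit 4780693226) (nat_lit 217) (nat_lit 5) (nat_lit 225) (nat_lit 5) (nat_lit 226) (nat_lit 4) (nat_lit 329) (nat_lit 287) (nat_lit 284))))) (XT.nd (nat_lit 234)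 (nat_lit 1672) (nat_lit 0) (XT.nd (nat_lit 78) (nat_lit 1216) (nat_lit 0) (XT.lf (nat_lit 0) (nat_lit 5981632601) (nat_lit 608) (nat_lit 30996796) (nat_lit 684) (nat_lit 1429004854) (nat_lit 217) (nat_lit 5) (nat_lit 225) (nat_lit 5) (nat_lit 226) (nat_lit 4) (nat_lit 330) (nat_lit 287) (nat_lit 283)) (XT.nd (nat_lit 78) (nat_lit 532) (nat_lit 0) (XT.lf (nat_lit 0) (nat_lit 1948601407) (nat_lit 684) (nat_lit 3489367677) (nat_lit 76) (nat_lit 2075273237) (nat_lit 208) (nat_lit 5) (nat_lit 217) (nat_lit 5) (nat_lit 209) (nat_lit 4) (nat_lit 331) (nat_lit 287) (nat_lit 282)) (XT.lf (nat_lit 0) (nat_lit 2035465344) (nat_lit 532) (nat_lit 3305399284) (nat_lit 608) (nat_lit 2247502978) (nat_lit 201) (nat_lit 5) (nat_lit 208) (nat_lit 5) (nat_lit 209) (nat_lit 4) (nat_lit 332) (nat_lit 287) (nat_lit 281)))) (XT.nd (nat_lit 156) (nat_lit 1064) (nat_lit 0) (XT.nd (nat_lit 78) (nat_lit 0) (nat_lit 0) (XT.lf (nat_lit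 0) (nat_lit 15454713) (nat_lit 532) (nat_lit 1074646176) (nat_lit 608) (nat_lit 6577047409) (nat_lit 193) (nat_lit 5) (nat_lit 200) (nat_lit 5) (nat_lit 201) (nat_lit 5) (nat_lit 333) (nat_lit 287) (nat_lit 280)) (XT.lf (nat_lit 0) (nat_lit 4460604373) (nat_lit 608) (nat_lit 2024201110) (nat_lit 76) (nat_lit 1263531309) (nat_lit 193) (nat_lit 5) (nat_lit 201) (nat_lit 5) (nat_lit 194) (nat_lit 4) (nat_lit 334) (nat_lit 287) (nat_lit 279))) (XT.nd (nat_lit 78) (nat_lit 532) (nat_lit 0) (XT.lf (nat_lit 0) (nat_lit 56533774) (nat_lit 532) (nat_lit 4104128727) (nat_lit 76) (nat_lit 3672570073) (nat_lit 186) (nat_lit 5) (nat_lit 193) (nat_lit 5) (nat_lit 187) (nat_lit 5) (nat_lit 335) (nat_lit 287) (nat_lit 278)) (XT.lf (nat_lit 0) (nat_lit 1670956461) (nat_lit 532) (nat_lit 1713651265) (nat_lit 608) (nat_lit 4536650166) (nat_lit 179) (nat_lit 5) (nat_lit 186) (nat_lit 5) (nat_lit 187) (nat_lit 5) (nat_lit 336)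 (nat_lit 287) (nat_lit 277)))))) (XT.nd (nat_lit 546) (nat_lit 1824) (nat_lit 0) (XT.nd (nat_lit 234) (nat_lit 1368) (nat_lit 0) (XT.nd (nat_lit 78) (nat_lit 988) (nat_lit 0) (XT.lf (nat_lit 0) (nat_lit 6776343780) (nat_lit 608) (nat_lit 422157710) (nat_lit 76) (nat_lit 814552553) (nat_lit 179) (nat_lit 5) (nat_lit 187) (nat_lit 5) (nat_lit 180) (nat_lit 4) (nat_lit 337) (nat_lit 287) (nat_lit 276)) (XT.nd (nat_lit 78) (nat_lit 456) (nat_lit 0) (XT.lf (nat_lit 0) (nat_lit 2107073816) (nat_lit 532) (nat_lit 2559783464) (nat_lit 76) (nat_lit 3440554203) (nat_lit 172) (nat_lit 5) (nat_lit 179) (nat_lit 5) (nat_lit 173) (nat_lit 5) (nat_lit 338) (nat_lit 287) (nat_lit 275)) (XT.lf (nat_lit 0) (nat_lit 3451454412) (nat_lit 456) (nat_lit 2029640345) (nat_lit 532) (nat_lit 2724535032) (nat_lit 166) (nat_lit 5) (nat_lit 172) (nat_lit 5) (nat_lit 173) (nat_lit 5) (nat_lit 339) (nat_lit 287) (nat_lit 274)))) (XT.nd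 (nat_lit 156) (nat_lit 912) (nat_lit 0) (XT.nd (nat_lit 78) (nat_lit 0) (nat_lit 0) (XT.lf (nat_lit 0) (nat_lit 600196819) (nat_lit 456) (nat_lit 7011306651) (nat_lit 76) (nat_lit 696242494) (nat_lit 160) (nat_lit 5) (nat_lit 166) (nat_lit 5) (nat_lit 161) (nat_lit 5) (nat_lit 340) (nat_lit 287) (nat_lit 273)) (XT.lf (nat_lit 0) (nat_lit 3957528805) (nat_lit 456) (nat_lit 939160115) (nat_lit 76) (nat_lit 3515836290) (nat_lit 160) (nat_lit 5) (nat_lit 166) (nat_lit 5) (nat_lit 161) (nat_lit 5) (nat_lit 341) (nat_lit 287) (nat_lit 272))) (XT.nd (nat_lit 78) (nat_lit 456) (nat_lit 0) (XT.lf (nat_lit 0) (nat_lit 5315816752) (nat_lit 456) (nat_lit 2072260947) (nat_lit 532) (nat_lit 1133231549) (nat_lit 154) (nat_lit 5) (nat_lit 160) (nat_lit 5) (nat_lit 161) (nat_lit 5) (nat_lit 342) (nat_lit 287) (nat_lit 271)) (XT.lf (nat_lit 0) (nat_lit 2213021452) (nat_lit 456) (nat_lit 5563331412) (nat_lit 76) (nat_lit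 857293739) (nat_lit 148) (nat_lit 5) (nat_lit 154) (nat_lit 5) (nat_lit 149) (nat_lit 5) (nat_lit 343) (nat_lit 287) (nat_lit 270))))) (XT.nd (nat_lit 234) (nat_lit 1064) (nat_lit 0) (XT.nd (nat_lit 78) (nat_lit 380) (nat_lit 0) (XT.lf (nat_lit 0) (nat_lit 729178532) (nat_lit 380) (nat_lit 4890869522) (nat_lit 456) (nat_lit 3129507778) (nat_lit 143) (nat_lit 5) (nat_lit 148) (nat_lit 5) (nat_lit 149) (nat_lit 5) (nat_lit 344) (nat_lit 287) (nat_lit 269)) (XT.nd (nat_lit 78) (nat_lit 304) (nat_lit 0) (XT.lf (nat_lit 0) (nat_lit 235409626) (nat_lit 456) (nat_lit 1651054014) (nat_lit 76) (nat_lit 6983030549) (nat_lit 142) (nat_lit 5) (nat_lit 148) (nat_lit 5) (nat_lit 143) (nat_lit 5) (nat_lit 345) (nat_lit 287) (nat_lit 268)) (XT.lf (nat_lit 0) (nat_lit 3622958095) (nat_lit 380) (nat_lit 4133833529) (nat_lit 76) (nat_lit 1235802431) (nat_lit 138) (nat_lit 5) (nat_lit 143) (nat_lit 5) (nat_lit 139) (nat_lit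 5) (nat_lit 346) (nat_lit 287) (nat_lit 267)))) (XT.nd (nat_lit 156) (nat_lit 608) (nat_lit 0) (XT.nd (nat_lit 78) (nat_lit 76) (nat_lit 0) (XT.lf (nat_lit 0) (nat_lit 2403757899) (nat_lit 380) (nat_lit 4693563239) (nat_lit 456) (nat_lit 2022539667) (nat_lit 133) (nat_lit 5) (nat_lit 138) (nat_lit 5) (nat_lit 139) (nat_lit 5) (nat_lit 347) (nat_lit 287) (nat_lit 266)) (XT.lf (nat_lit 0) (nat_lit 1366299997) (nat_lit 456) (nat_lit 145190494) (nat_lit 76) (nat_lit 7739997873) (nat_lit 132) (nat_lit 5) (nat_lit 138) (nat_lit 5) (nat_lit 133) (nat_lit 5) (nat_lit 348) (nat_lit 287) (nat_lit 265))) (XT.nd (nat_lit 78) (nat_lit 304) (nat_lit 0) (XT.lf (nat_lit 0) (nat_lit 4826528216) (nat_lit 380) (nat_lit 2772579576) (nat_lit 76) (nat_lit 1787071999) (nat_lit 128) (nat_lit 5) (nat_lit 133) (nat_lit 5) (nat_lit 129) (nat_lit 5) (nat_lit 349) (nat_lit 287) (nat_lit 264)) (XT.lf (nat_lit 0) (nat_lit 4015201802)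 (nat_lit 304) (nat_lit 4360331481) (nat_lit 380) (nat_lit 1149855819) (nat_lit 124) (nat_lit 5) (nat_lit 128) (nat_lit 5) (nat_lit 129) (nat_lit 5) (nat_lit 350) (nat_lit 287) (nat_lit 263))))))))
noncomputable def xc72 : XT := (XT.nd (nat_lit 2028) (nat_lit 2280) (nat_lit 0) (XT.nd (nat_lit 1014) (nat_lit 1824) (nat_lit 0) (XT.nd (nat_lit 468) (nat_lit 1444) (nat_lit 0) (XT.nd (nat_lit 234) (nat_lit 684) (nat_lit 0) (XT.nd (nat_lit 78) (nat_lit 304) (nat_lit 0) (XT.lf (nat_lit 0) (nat_lit 1295971677) (nat_lit 304) (nat_lit 991193811) (nat_lit 380) (nat_lit 7381821898) (nat_lit 119) (nat_lit 5) (nat_lit 123) (nat_lit 5) (nat_lit 124) (nat_lit 5) (nat_lit 351) (nat_lit 287) (nat_lit 262)) (XT.nd (nat_lit 78) (nat_lit 304) (nat_lit 0) (XT.lf (nat_lit 0) (nat_lit 5815255392) (nat_lit 380) (nat_lit 1534346154) (nat_lit 76) (nat_lit 2466642479) (nat_lit 119) (nat_lit 5) (nat_lit 124) (nat_lit 5) (nat_lit 120)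 (nat_lit 5) (nat_lit 352) (nat_lit 287) (nat_lit 261)) (XT.lf (nat_lit 0) (nat_lit 5507504828) (nat_lit 304) (nat_lit 3937492917) (nat_lit 380) (nat_lit 523069641) (nat_lit 115) (nat_lit 5) (nat_lit 119) (nat_lit 5) (nat_lit 120) (nat_lit 5) (nat_lit 353) (nat_lit 287) (nat_lit 260)))) (XT.nd (nat_lit 78) (nat_lit 304) (nat_lit 0) (XT.lf (nat_lit 0) (nat_lit 2589037449) (nat_lit 304) (nat_lit 384369261) (nat_lit 380) (nat_lit 7150961042) (nat_lit 110) (nat_lit 5) (nat_lit 114) (nat_lit 5) (nat_lit 115) (nat_lit 5) (nat_lit 354) (nat_lit 287) (nat_lit 259)) (XT.nd (nat_lit 78) (nat_lit 304) (nat_lit 0) (XT.lf (nat_lit 0) (nat_lit 6575286001) (nat_lit 380) (nat_lit 480248644) (nat_lit 76) (nat_lit 3229357798) (nat_lit 110) (nat_lit 5) (nat_lit 115) (nat_lit 5) (nat_lit 111) (nat_lit 5) (nat_lit 355) (nat_lit 287) (nat_lit 258)) (XT.lf (nat_lit 0) (nat_lit 6817959779) (nat_lit 304) (nat_lit 3472575129) (nat_lit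 380) (nat_lit 159559285) (nat_lit 106) (nat_lit 5) (nat_lit 110) (nat_lit 5) (nat_lit 111) (nat_lit 5) (nat_lit 356) (nat_lit 287) (nat_lit 257))))) (XT.nd (nat_lit 234) (nat_lit 836) (nat_lit 0) (XT.nd (nat_lit 78) (nat_lit 304) (nat_lit 0) (XT.lf (nat_lit 0) (nat_lit 3407627859) (nat_lit 304) (nat_lit 6957859386) (nat_lit 76) (nat_lit 254409497) (nat_lit 102) (nat_lit 5) (nat_lit 106) (nat_lit 5) (nat_lit 103) (nat_lit 5) (nat_lit 357) (nat_lit 287) (nat_lit 256)) (XT.nd (nat_lit 78) (nat_lit 0) (nat_lit 0) (XT.lf (nat_lit 0) (nat_lit 327150855) (nat_lit 304) (nat_lit 6762892269) (nat_lit 380) (nat_lit 3704379222) (nat_lit 98) (nat_lit 5) (nat_lit 102) (nat_lit 5) (nat_lit 103) (nat_lit 5) (nat_lit 358) (nat_lit 287) (nat_lit 255)) (XT.lf (nat_lit 0) (nat_lit 7875603794) (nat_lit 304) (nat_lit 3015339743) (nat_lit 380) (nat_lit 83018204) (nat_lit 98) (nat_lit 5) (nat_lit 102) (nat_lit 5) (nat_lit 103)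 (nat_lit 5) (nat_lit 359) (nat_lit 287) (nat_lit 254)))) (XT.nd (nat_lit 156) (nat_lit 304) (nat_lit 0) (XT.nd (nat_lit 78) (nat_lit 228) (nat_lit 0) (XT.lf (nat_lit 0) (nat_lit 3566068840) (nat_lit 304) (nat_lit 6719729664) (nat_lit 76) (nat_lit 872346922) (nat_lit 94) (nat_lit 5) (nat_lit 98) (nat_lit 5) (nat_lit 95) (nat_lit 5) (nat_lit 360) (nat_lit 287) (nat_lit 253)) (XT.lf (nat_lit 0) (nat_lit 805964360) (nat_lit 228) (nat_lit 6525670937) (nat_lit 304) (nat_lit 4015951246) (nat_lit 91) (nat_lit 5) (nat_lit 94) (nat_lit 5) (nat_lit 95) (nat_lit 5) (nat_lit 361) (nat_lit 287) (nat_lit 252))) (XT.nd (nat_lit 78) (nat_lit 304) (nat_lit 0) (XT.lf (nat_lit 0) (nat_lit 8599458481) (nat_lit 228) (nat_lit 2618885089) (nat_lit 304) (nat_lit 324138433) (nat_lit 91) (nat_lit 5) (nat_lit 94) (nat_lit 5) (nat_lit 95) (nat_lit 5) (nat_lit 362) (nat_lit 287) (nat_lit 251)) (XT.lf (nat_lit 0) (nat_lit 3412604587)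 (nat_lit 304) (nat_lit 6905912463) (nat_lit 76) (nat_lit 1423658010) (nat_lit 87) (nat_lit 5) (nat_lit 91) (nat_lit 5) (nat_lit 88) (nat_lit 5) (nat_lit 363) (nat_lit 287) (nat_lit 250)))))) (XT.nd (nat_lit 468) (nat_lit 912) (nat_lit 0) (XT.nd (nat_lit 234) (nat_lit 456) (nat_lit 0) (XT.nd (nat_lit 78) (nat_lit 228) (nat_lit 0) (XT.lf (nat_lit 0) (nat_lit 854944928) (nat_lit 228) (nat_lit 6406086814) (nat_lit 304) (nat_lit 4686562952) (nat_lit 84) (nat_lit 5) (nat_lit 87) (nat_lit 5) (nat_lit 88) (nat_lit 5) (nat_lit 364) (nat_lit 287) (nat_lit 249)) (XT.nd (nat_lit 78) (nat_lit 228) (nat_lit 0) (XT.lf (nat_lit 0) (nat_lit 8896525784) (nat_lit 228) (nat_lit 2340848794) (nat_lit 304) (nat_lit 921442982) (nat_lit 84) (nat_lit 5) (nat_lit 87) (nat_lit 5) (nat_lit 88) (nat_lit 5) (nat_lit 365) (nat_lit 287) (nat_lit 248)) (XT.lf (nat_lit 0) (nat_lit 2906812297) (nat_lit 228) (nat_lit 7618308547) (nat_lit 76)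 (nat_lit 1850181047) (nat_lit 81) (nat_lit 5) (nat_lit 84) (nat_lit 5) (nat_lit 82) (nat_lit 5) (nat_lit 366) (nat_lit 287) (nat_lit 247)))) (XT.nd (nat_lit 78) (nat_lit 228) (nat_lit 0) (XT.lf (nat_lit 0) (nat_lit 368503748) (nat_lit 228) (nat_lit 6467125710) (nat_lit 304) (nat_lit 5762263865) (nat_lit 78) (nat_lit 5) (nat_lit 81) (nat_lit 5) (nat_lit 82) (nat_lit 5) (nat_lit 367) (nat_lit 287) (nat_lit 246)) (XT.nd (nat_lit 78) (nat_lit 228) (nat_lit 0) (XT.lf (nat_lit 0) (nat_lit 8659495789) (nat_lit 228) (nat_lit 2244735166) (nat_lit 304) (nat_lit 1922286858) (nat_lit 78) (nat_lit 5) (nat_lit 81) (nat_lit 5) (nat_lit 82) (nat_lit 5) (nat_lit 368) (nat_lit 287) (nat_lit 245)) (XT.lf (nat_lit 0) (nat_lit 1999224243) (nat_lit 228) (nat_lit 8974503694) (nat_lit 76) (nat_lit 2087518911) (nat_lit 75) (nat_lit 5) (nat_lit 78) (nat_lit 5) (nat_lit 76) (nat_lit 5) (nat_lit 369) (nat_lit 287) (nat_lit 244)))))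 (XT.nd (nat_lit 234) (nat_lit 456) (nat_lit 0) (XT.nd (nat_lit 78) (nat_lit 456) (nat_lit 0) (XT.lf (nat_lit 0) (nat_lit 6010885633) (nat_lit 228) (nat_lit 760280455) (nat_lit 76) (nat_lit 6530958274) (nat_lit 75) (nat_lit 5) (nat_lit 78) (nat_lit 5) (nat_lit 76) (nat_lit 5) (nat_lit 370) (nat_lit 287) (nat_lit 243)) (XT.nd (nat_lit 78) (nat_lit 228) (nat_lit 0) (XT.lf (nat_lit 0) (nat_lit 7764116175) (nat_lit 228) (nat_lit 2401395235) (nat_lit 304) (nat_lit 3384049825) (nat_lit 72) (nat_lit 5) (nat_lit 75) (nat_lit 5) (nat_lit 76) (nat_lit 5) (nat_lit 371) (nat_lit 287) (nat_lit 242)) (XT.lf (nat_lit 0) (nat_lit 630077525) (nat_lit 228) (nat_lit 11110584286) (nat_lit 76) (nat_lit 2063518996) (nat_lit 69) (nat_lit 5) (nat_lit 72) (nat_lit 5) (nat_lit 70) (nat_lit 5) (nat_lit 372) (nat_lit 287) (nat_lit 241)))) (XT.nd (nat_lit 156) (nat_lit 228) (nat_lit 0) (XT.nd (nat_lit 78) (nat_lit 228) (nat_lit 0) (XT.lf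 (nat_lit 0) (nat_lit 4727858929) (nat_lit 228) (nat_lit 2665221596) (nat_lit 76) (nat_lit 6671426385) (nat_lit 69) (nat_lit 5) (nat_lit 72) (nat_lit 5) (nat_lit 70) (nat_lit 5) (nat_lit 373) (nat_lit 287) (nat_lit 240)) (XT.lf (nat_lit 0) (nat_lit 6066165471) (nat_lit 228) (nat_lit 2890690879) (nat_lit 304) (nat_lit 5375548161) (nat_lit 66) (nat_lit 5) (nat_lit 69) (nat_lit 5) (nat_lit 70) (nat_lit 5) (nat_lit 374) (nat_lit 287) (nat_lit 239))) (XT.nd (nat_lit 78) (nat_lit 76) (nat_lit 0) (XT.lf (nat_lit 0) (nat_lit 411550877) (nat_lit 152) (nat_lit 12899371065) (nat_lit 228) (nat_lit 1297481041) (nat_lit 64) (nat_lit 5) (nat_lit 66) (nat_lit 5) (nat_lit 67) (nat_lit 4) (nat_lit 375) (nat_lit 287) (nat_lit 238)) (XT.lf (nat_lit 0) (nat_lit 2909606741) (nat_lit 228) (nat_lit 5514577267) (nat_lit 76) (nat_lit 6465769830) (nat_lit 63) (nat_lit 5) (nat_lit 66) (nat_lit 5) (nat_lit 64) (nat_lit 5) (nat_lit 376)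 (nat_lit 287) (nat_lit 237))))))) (XT.nd (nat_lit 1014) (nat_lit 988) (nat_lit 0) (XT.nd (nat_lit 468) (nat_lit 608) (nat_lit 0) (XT.nd (nat_lit 234) (nat_lit 304) (nat_lit 0) (XT.nd (nat_lit 78) (nat_lit 228) (nat_lit 0) (XT.lf (nat_lit 0) (nat_lit 3397963409) (nat_lit 152) (nat_lit 3803378735) (nat_lit 228) (nat_lit 7978697346) (nat_lit 61) (nat_lit 5) (nat_lit 63) (nat_lit 5) (nat_lit 64) (nat_lit 5) (nat_lit 377) (nat_lit 287) (nat_lit 236)) (XT.nd (nat_lit 78) (nat_lit 228) (nat_lit 0) (XT.lf (nat_lit 0) (nat_lit 11639374084) (nat_lit 228) (nat_lit 2879913031) (nat_lit 76) (nat_lit 959023051) (nat_lit 61) (nat_lit 5) (nat_lit 64) (nat_lit 5) (nat_lit 62) (nat_lit 4) (nat_lit 378) (nat_lit 287) (nat_lit 235)) (XT.lf (nat_lit 0) (nat_lit 468887754) (nat_lit 228) (nat_lit 9495621916) (nat_lit 76) (nat_lit 5819340112) (nat_lit 58) (nat_lit 5) (nat_lit 61) (nat_lit 5) (nat_lit 59) (nat_lit 5) (nat_lit 379)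 (nat_lit 287) (nat_lit 234)))) (XT.nd (nat_lit 78) (nat_lit 304) (nat_lit 0) (XT.lf (nat_lit 0) (nat_lit 4811783805) (nat_lit 228) (nat_lit 427157316) (nat_lit 76) (nat_lit 10858992342) (nat_lit 58) (nat_lit 5) (nat_lit 61) (nat_lit 5) (nat_lit 59) (nat_lit 5) (nat_lit 380) (nat_lit 287) (nat_lit 233)) (XT.nd (nat_lit 78) (nat_lit 152) (nat_lit 0) (XT.lf (nat_lit 0) (nat_lit 9009929480) (nat_lit 152) (nat_lit 316623785) (nat_lit 228) (nat_lit 7093646603) (nat_lit 56) (nat_lit 5) (nat_lit 58) (nat_lit 5) (nat_lit 59) (nat_lit 5) (nat_lit 381) (nat_lit 287) (nat_lit 232)) (XT.lf (nat_lit 0) (nat_lit 1898710421) (nat_lit 152) (nat_lit 12101563062) (nat_lit 228) (nat_lit 2751163136) (nat_lit 54) (nat_lit 5) (nat_lit 56) (nat_lit 5) (nat_lit 57) (nat_lit 4) (nat_lit 382) (nat_lit 287) (nat_lit 231))))) (XT.nd (nat_lit 234) (nat_lit 380) (nat_lit 0) (XT.nd (nat_lit 78) (nat_lit 152) (nat_lit 0) (XT.lf (nat_lit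 0) (nat_lit 1722015782) (nat_lit 228) (nat_lit 5551529381) (nat_lit 76) (nat_lit 9817555521) (nat_lit 53) (nat_lit 5) (nat_lit 56) (nat_lit 5) (nat_lit 54) (nat_lit 5) (nat_lit 383) (nat_lit 287) (nat_lit 230)) (XT.nd (nat_lit 78) (nat_lit 0) (nat_lit 0) (XT.lf (nat_lit 0) (nat_lit 4002278578) (nat_lit 152) (nat_lit 2266900310) (nat_lit 228) (nat_lit 11171113009) (nat_lit 51) (nat_lit 5) (nat_lit 53) (nat_lit 5) (nat_lit 54) (nat_lit 5) (nat_lit 384) (nat_lit 287) (nat_lit 229)) (XT.lf (nat_lit 0) (nat_lit 10993968007) (nat_lit 228) (nat_lit 3947605935) (nat_lit 76) (nat_lit 2857155310) (nat_lit 51) (nat_lit 5) (nat_lit 54) (nat_lit 5) (nat_lit 52) (nat_lit 4) (nat_lit 385) (nat_lit 287) (nat_lit 228)))) (XT.nd (nat_lit 156) (nat_lit 152) (nat_lit 0) (XT.nd (nat_lit 78) (nat_lit 76) (nat_lit 0) (XT.lf (nat_lit 0) (nat_lit 5843865526) (nat_lit 152) (nat_lit 10053329011) (nat_lit 228) (nat_lit 2269630918)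 (nat_lit 49) (nat_lit 5) (nat_lit 51) (nat_lit 5) (nat_lit 52) (nat_lit 4) (nat_lit 386) (nat_lit 287) (nat_lit 227)) (XT.lf (nat_lit 0) (nat_lit 2353111153) (nat_lit 228) (nat_lit 2633584976) (nat_lit 76) (nat_lit 13558629400) (nat_lit 48) (nat_lit 5) (nat_lit 51) (nat_lit 5) (nat_lit 49) (nat_lit 5) (nat_lit 387) (nat_lit 287) (nat_lit 226))) (XT.nd (nat_lit 78) (nat_lit 0) (nat_lit 0) (XT.lf (nat_lit 0) (nat_lit 7102229701) (nat_lit 228) (nat_lit 11541280970) (nat_lit 76) (nat_lit 290002427) (nat_lit 46) (nat_lit 5) (nat_lit 49) (nat_lit 5) (nat_lit 47) (nat_lit 4) (nat_lit 388) (nat_lit 287) (nat_lit 225)) (XT.lf (nat_lit 0) (nat_lit 12029610349) (nat_lit 228) (nat_lit 1682702811) (nat_lit 76) (nat_lit 5619965289) (nat_lit 46) (nat_lit 5) (nat_lit 49) (nat_lit 5) (nat_lit 47) (nat_lit 4) (nat_lit 389) (nat_lit 287) (nat_lit 224)))))) (XT.nd (nat_lit 546) (nat_lit 380) (nat_lit 0) (XT.nd (nat_lit 234)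 (nat_lit 304) (nat_lit 0) (XT.nd (nat_lit 78) (nat_lit 228) (nat_lit 0) (XT.lf (nat_lit 0) (nat_lit 8567626231) (nat_lit 76) (nat_lit 8580279334) (nat_lit 152) (nat_lit 2593814043) (nat_lit 45) (nat_lit 5) (nat_lit 46) (nat_lit 5) (nat_lit 47) (nat_lit 4) (nat_lit 390) (nat_lit 287) (nat_lit 223)) (XT.nd (nat_lit 78) (nat_lit 152) (nat_lit 0) (XT.lf (nat_lit 0) (nat_lit 2190249584) (nat_lit 152) (nat_lit 1096111546) (nat_lit 76) (nat_lit 16877098342) (nat_lit 44) (nat_lit 5) (nat_lit 46) (nat_lit 5) (nat_lit 45) (nat_lit 5) (nat_lit 391) (nat_lit 287) (nat_lit 222)) (XT.lf (nat_lit 0) (nat_lit 7139418488) (nat_lit 228) (nat_lit 11244985070) (nat_lit 76) (nat_lit 2210471203) (nat_lit 42) (nat_lit 5) (nat_lit 45) (nat_lit 5) (nat_lit 43) (nat_lit 4) (nat_lit 392) (nat_lit 287) (nat_lit 221)))) (XT.nd (nat_lit 156) (nat_lit 228) (nat_lit 0) (XT.nd (nat_lit 78) (nat_lit 76) (nat_lit 0) (XT.lf (nat_lit 0) (nat_lit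 12242884752) (nat_lit 228) (nat_lit 1009168148) (nat_lit 76) (nat_lit 7787009954) (nat_lit 42) (nat_lit 5) (nat_lit 45) (nat_lit 5) (nat_lit 43) (nat_lit 4) (nat_lit 393) (nat_lit 287) (nat_lit 220)) (XT.lf (nat_lit 0) (nat_lit 9654783015) (nat_lit 76) (nat_lit 7900689279) (nat_lit 152) (nat_lit 3939428643) (nat_lit 41) (nat_lit 5) (nat_lit 42) (nat_lit 5) (nat_lit 43) (nat_lit 4) (nat_lit 394) (nat_lit 287) (nat_lit 219))) (XT.nd (nat_lit 78) (nat_lit 152) (nat_lit 0) (XT.lf (nat_lit 0) (nat_lit 1015846980) (nat_lit 152) (nat_lit 1382503241) (nat_lit 76) (nat_lit 19566554963) (nat_lit 40) (nat_lit 5) (nat_lit 42) (nat_lit 5) (nat_lit 41) (nat_lit 5) (nat_lit 395) (nat_lit 287) (nat_lit 218)) (XT.lf (nat_lit 0) (nat_lit 6128396022) (nat_lit 228) (nat_lit 13009446510) (nat_lit 76) (nat_lit 3307367541) (nat_lit 38) (nat_lit 5) (nat_lit 41) (nat_lit 5) (nat_lit 39) (nat_lit 4) (nat_lit 396) (nat_lit 287) (nat_lit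 217))))) (XT.nd (nat_lit 234) (nat_lit 304) (nat_lit 0) (XT.nd (nat_lit 78) (nat_lit 76) (nat_lit 0) (XT.lf (nat_lit 0) (nat_lit 11396642840) (nat_lit 228) (nat_lit 2422058383) (nat_lit 76) (nat_lit 9121157570) (nat_lit 38) (nat_lit 5) (nat_lit 41) (nat_lit 5) (nat_lit 39) (nat_lit 4) (nat_lit 397) (nat_lit 287) (nat_lit 216)) (XT.nd (nat_lit 78) (nat_lit 0) (nat_lit 0) (XT.lf (nat_lit 0) (nat_lit 8586834602) (nat_lit 76) (nat_lit 8284155499) (nat_lit 152) (nat_lit 6576919481) (nat_lit 37) (nat_lit 5) (nat_lit 38) (nat_lit 5) (nat_lit 39) (nat_lit 4) (nat_lit 398) (nat_lit 287) (nat_lit 215)) (XT.lf (nat_lit 0) (nat_lit 19912591627) (nat_lit 76) (nat_lit 2587343756) (nat_lit 152) (nat_lit 1471559559) (nat_lit 37) (nat_lit 5) (nat_lit 38) (nat_lit 5) (nat_lit 39) (nat_lit 4) (nat_lit 399) (nat_lit 287) (nat_lit 214)))) (XT.nd (nat_lit 156) (nat_lit 76) (nat_lit 0) (XT.nd (nat_lit 78) (nat_lit 0) (nat_lit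 0) (XT.lf (nat_lit 0) (nat_lit 3780255098) (nat_lit 228) (nat_lit 17433205739) (nat_lit 76) (nat_lit 3294223056) (nat_lit 34) (nat_lit 5) (nat_lit 37) (nat_lit 5) (nat_lit 35) (nat_lit 4) (nat_lit 400) (nat_lit 287) (nat_lit 213)) (XT.lf (nat_lit 0) (nat_lit 9193741470) (nat_lit 228) (nat_lit 6536259447) (nat_lit 76) (nat_lit 9328513401) (nat_lit 34) (nat_lit 5) (nat_lit 37) (nat_lit 5) (nat_lit 35) (nat_lit 4) (nat_lit 401) (nat_lit 287) (nat_lit 212))) (XT.nd (nat_lit 78) (nat_lit 0) (nat_lit 0) (XT.lf (nat_lit 0) (nat_lit 4719493253) (nat_lit 76) (nat_lit 10063160324) (nat_lit 152) (nat_lit 10842829068) (nat_lit 33) (nat_lit 5) (nat_lit 34) (nat_lit 5) (nat_lit 35) (nat_lit 4) (nat_lit 402) (nat_lit 287) (nat_lit 211)) (XT.lf (nat_lit 0) (nat_lit 16387299315) (nat_lit 76) (nat_lit 4185960758) (nat_lit 152) (nat_lit 5635182654) (nat_lit 33) (nat_lit 5) (nat_lit 34) (nat_lit 5) (nat_lit 35) (nat_lit 4)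 (nat_lit 403) (nat_lit 287) (nat_lit 210))))))))
noncomputable def xc73 : XT := (XT.nd (nat_lit 2106) (nat_lit 456) (nat_lit 0) (XT.nd (nat_lit 1014) (nat_lit 532) (nat_lit 0) (XT.nd (nat_lit 468) (nat_lit 304) (nat_lit 0) (XT.nd (nat_lit 234) (nat_lit 152) (nat_lit 0) (XT.nd (nat_lit 78) (nat_lit 76) (nat_lit 0) (XT.lf (nat_lit 0) (nat_lit 1549994914) (nat_lit 152) (nat_lit 24989138540) (nat_lit 152) (nat_lit 269715109) (nat_lit 31) (nat_lit 4) (nat_lit 33) (nat_lit 5) (nat_lit 33) (nat_lit 4) (nat_lit 404) (nat_lit 287) (nat_lit 209)) (XT.nd (nat_lit 78) (nat_lit 0) (nat_lit 0) (XT.lf (nat_lit 0) (nat_lit 5264482266) (nat_lit 228) (nat_lit 14112256260) (nat_lit 76) (nat_lit 8045705045) (nat_lit 30) (nat_lit 5) (nat_lit 33) (nat_lit 5) (nat_lit 31) (nat_lit 4) (nat_lit 405) (nat_lit 287) (nat_lit 208)) (XT.lf (nat_lit 0) (nat_lit 10928936893) (nat_lit 228) (nat_lit 2690822912) (nat_lit 76) (nat_lit 14435520065)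 (nat_lit 30) (nat_lit 5) (nat_lit 33) (nat_lit 5) (nat_lit 31) (nat_lit 4) (nat_lit 406) (nat_lit 287) (nat_lit 207)))) (XT.nd (nat_lit 78) (nat_lit 76) (nat_lit 0) (XT.lf (nat_lit 0) (nat_lit 9197495214) (nat_lit 76) (nat_lit 7624778144) (nat_lit 152) (nat_lit 11883062486) (nat_lit 29) (nat_lit 5) (nat_lit 30) (nat_lit 5) (nat_lit 31) (nat_lit 4) (nat_lit 407) (nat_lit 287) (nat_lit 206)) (XT.nd (nat_lit 78) (nat_lit 76) (nat_lit 0) (XT.lf (nat_lit 0) (nat_lit 21442929148) (nat_lit 76) (nat_lit 1447521477) (nat_lit 152) (nat_lit 6484504595) (nat_lit 29) (nat_lit 5) (nat_lit 30) (nat_lit 5) (nat_lit 31) (nat_lit 4) (nat_lit 408) (nat_lit 287) (nat_lit 205)) (XT.lf (nat_lit 0) (nat_lit 3967524361) (nat_lit 76) (nat_lit 25230012219) (nat_lit 76) (nat_lit 865423557) (nat_lit 28) (nat_lit 4) (nat_lit 29) (nat_lit 5) (nat_lit 29) (nat_lit 4) (nat_lit 409) (nat_lit 287) (nat_lit 204))))) (XT.nd (nat_lit 234)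 (nat_lit 152) (nat_lit 0) (XT.nd (nat_lit 78) (nat_lit 76) (nat_lit 0) (XT.lf (nat_lit 0) (nat_lit 4892918448) (nat_lit 152) (nat_lit 14498738365) (nat_lit 76) (nat_lit 11376529448) (nat_lit 27) (nat_lit 5) (nat_lit 29) (nat_lit 5) (nat_lit 28) (nat_lit 4) (nat_lit 410) (nat_lit 287) (nat_lit 203)) (XT.nd (nat_lit 78) (nat_lit 76) (nat_lit 0) (XT.lf (nat_lit 0) (nat_lit 10778962300) (nat_lit 152) (nat_lit 2614898619) (nat_lit 76) (nat_lit 18101283437) (nat_lit 27) (nat_lit 5) (nat_lit 29) (nat_lit 5) (nat_lit 28) (nat_lit 4) (nat_lit 411) (nat_lit 287) (nat_lit 202)) (XT.lf (nat_lit 0) (nat_lit 9765343400) (nat_lit 76) (nat_lit 7143265728) (nat_lit 152) (nat_lit 15333293955) (nat_lit 26) (nat_lit 5) (nat_lit 27) (nat_lit 5) (nat_lit 28) (nat_lit 4) (nat_lit 412) (nat_lit 287) (nat_lit 201)))) (XT.nd (nat_lit 156) (nat_lit 76) (nat_lit 0) (XT.nd (nat_lit 78) (nat_lit 76) (nat_lit 0) (XT.lf (nat_lit 0) (nat_lit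 22520422364) (nat_lit 76) (nat_lit 701579264) (nat_lit 152) (nat_lit 9789069724) (nat_lit 26) (nat_lit 5) (nat_lit 27) (nat_lit 5) (nat_lit 28) (nat_lit 4) (nat_lit 413) (nat_lit 287) (nat_lit 200)) (XT.lf (nat_lit 0) (nat_lit 1783336261) (nat_lit 76) (nat_lit 27989640939) (nat_lit 76) (nat_lit 4028894423) (nat_lit 25) (nat_lit 4) (nat_lit 26) (nat_lit 5) (nat_lit 26) (nat_lit 4) (nat_lit 414) (nat_lit 287) (nat_lit 199))) (XT.nd (nat_lit 78) (nat_lit 0) (nat_lit 0) (XT.lf (nat_lit 0) (nat_lit 1954895865) (nat_lit 152) (nat_lit 20048230210) (nat_lit 76) (nat_lit 12610084028) (nat_lit 24) (nat_lit 5) (nat_lit 26) (nat_lit 5) (nat_lit 25) (nat_lit 4) (nat_lit 415) (nat_lit 287) (nat_lit 198)) (XT.lf (nat_lit 0) (nat_lit 8012014465) (nat_lit 152) (nat_lit 7806572950) (nat_lit 76) (nat_lit 19629863072) (nat_lit 24) (nat_lit 5) (nat_lit 26) (nat_lit 5) (nat_lit 25) (nat_lit 4) (nat_lit 416) (nat_lit 287) (nat_lit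 197)))))) (XT.nd (nat_lit 546) (nat_lit 228) (nat_lit 0) (XT.nd (nat_lit 234) (nat_lit 228) (nat_lit 0) (XT.nd (nat_lit 78) (nat_lit 0) (nat_lit 0) (XT.lf (nat_lit 0) (nat_lit 4850512172) (nat_lit 76) (nat_lit 9422486162) (nat_lit 152) (nat_lit 22035087321) (nat_lit 23) (nat_lit 5) (nat_lit 24) (nat_lit 5) (nat_lit 25) (nat_lit 4) (nat_lit 417) (nat_lit 287) (nat_lit 196)) (XT.nd (nat_lit 78) (nat_lit 0) (nat_lit 0) (XT.lf (nat_lit 0) (nat_lit 18001319739) (nat_lit 76) (nat_lit 2775119184) (nat_lit 152) (nat_lit 16415434207) (nat_lit 23) (nat_lit 5) (nat_lit 24) (nat_lit 5) (nat_lit 25) (nat_lit 4) (nat_lit 418) (nat_lit 287) (nat_lit 195)) (XT.lf (nat_lit 0) (nat_lit 27490419614) (nat_lit 152) (nat_lit 6639842360) (nat_lit 0) (nat_lit 3971451152) (nat_lit 23) (nat_lit 5) (nat_lit 25) (nat_lit 4) (nat_lit 23) (nat_lit 4) (nat_lit 419) (nat_lit 287) (nat_lit 194)))) (XT.nd (nat_lit 156) (nat_lit 76) (nat_lit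 0) (XT.nd (nat_lit 78) (nat_lit 76) (nat_lit 0) (XT.lf (nat_lit 0) (nat_lit 6339760779) (nat_lit 76) (nat_lit 28131464911) (nat_lit 76) (nat_lit 4565662401) (nat_lit 22) (nat_lit 4) (nat_lit 23) (nat_lit 5) (nat_lit 23) (nat_lit 4) (nat_lit 420) (nat_lit 287) (nat_lit 193)) (XT.lf (nat_lit 0) (nat_lit 1673645629) (nat_lit 152) (nat_lit 20213771831) (nat_lit 76) (nat_lit 18110881785) (nat_lit 21) (nat_lit 5) (nat_lit 23) (nat_lit 5) (nat_lit 22) (nat_lit 4) (nat_lit 421) (nat_lit 287) (nat_lit 192))) (XT.nd (nat_lit 78) (nat_lit 76) (nat_lit 0) (XT.lf (nat_lit 0) (nat_lit 7986050541) (nat_lit 152) (nat_lit 7443735440) (nat_lit 76) (nat_lit 25558081909) (nat_lit 21) (nat_lit 5) (nat_lit 23) (nat_lit 5) (nat_lit 22) (nat_lit 4) (nat_lit 422) (nat_lit 287) (nat_lit 191)) (XT.lf (nat_lit 0) (nat_lit 5780832956) (nat_lit 76) (nat_lit 8740896493) (nat_lit 152) (nat_lit 27484378819) (nat_lit 20) (nat_lit 5) (nat_lit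 21) (nat_lit 5) (nat_lit 22) (nat_lit 4) (nat_lit 423) (nat_lit 287) (nat_lit 190))))) (XT.nd (nat_lit 234) (nat_lit 152) (nat_lit 0) (XT.nd (nat_lit 78) (nat_lit 76) (nat_lit 0) (XT.lf (nat_lit 0) (nat_lit 19513759354) (nat_lit 76) (nat_lit 1793456718) (nat_lit 152) (nat_lit 21746069346) (nat_lit 20) (nat_lit 5) (nat_lit 21) (nat_lit 5) (nat_lit 22) (nat_lit 4) (nat_lit 424) (nat_lit 287) (nat_lit 189)) (XT.nd (nat_lit 78) (nat_lit 76) (nat_lit 0) (XT.lf (nat_lit 0) (nat_lit 28326826057) (nat_lit 152) (nat_lit 10564969599) (nat_lit 0) (nat_lit 5239167093) (nat_lit 20) (nat_lit 5) (nat_lit 22) (nat_lit 4) (nat_lit 20) (nat_lit 4) (nat_lit 425) (nat_lit 287) (nat_lit 188)) (XT.lf (nat_lit 0) (nat_lit 2796591009) (nat_lit 76) (nat_lit 32784696209) (nat_lit 76) (nat_lit 9658956878) (nat_lit 19) (nat_lit 4) (nat_lit 20) (nat_lit 5) (nat_lit 20) (nat_lit 4) (nat_lit 426) (nat_lit 287) (nat_lit 187)))) (XT.nd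 (nat_lit 156) (nat_lit 76) (nat_lit 0) (XT.nd (nat_lit 78) (nat_lit 76) (nat_lit 0) (XT.lf (nat_lit 0) (nat_lit 16736905652) (nat_lit 76) (nat_lit 26403007205) (nat_lit 76) (nat_lit 3240296644) (nat_lit 19) (nat_lit 4) (nat_lit 20) (nat_lit 5) (nat_lit 20) (nat_lit 4) (nat_lit 427) (nat_lit 287) (nat_lit 186)) (XT.lf (nat_lit 0) (nat_lit 3285381534) (nat_lit 152) (nat_lit 16529280441) (nat_lit 76) (nat_lit 27739334129) (nat_lit 18) (nat_lit 5) (nat_lit 20) (nat_lit 5) (nat_lit 19) (nat_lit 4) (nat_lit 428) (nat_lit 287) (nat_lit 185))) (XT.nd (nat_lit 78) (nat_lit 76) (nat_lit 0) (XT.lf (nat_lit 0) (nat_lit 9922515923) (nat_lit 152) (nat_lit 3090746563) (nat_lit 76) (nat_lit 35749348386) (nat_lit 18) (nat_lit 5) (nat_lit 20) (nat_lit 5) (nat_lit 19) (nat_lit 4) (nat_lit 429) (nat_lit 287) (nat_lit 184)) (XT.lf (nat_lit 0) (nat_lit 10928441157) (nat_lit 76) (nat_lit 5916745520) (nat_lit 152) (nat_lit 33159706098)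 (nat_lit 17) (nat_lit 5) (nat_lit 18) (nat_lit 5) (nat_lit 19) (nat_lit 4) (nat_lit 430) (nat_lit 287) (nat_lit 183))))))) (XT.nd (nat_lit 1014) (nat_lit 152) (nat_lit 0) (XT.nd (nat_lit 468) (nat_lit 152) (nat_lit 0) (XT.nd (nat_lit 234) (nat_lit 76) (nat_lit 0) (XT.nd (nat_lit 78) (nat_lit 76) (nat_lit 0) (XT.lf (nat_lit 0) (nat_lit 24001854727) (nat_lit 152) (nat_lit 25901437006) (nat_lit 0) (nat_lit 1380363214) (nat_lit 17) (nat_lit 5) (nat_lit 19) (nat_lit 4) (nat_lit 17) (nat_lit 4) (nat_lit 431) (nat_lit 287) (nat_lit 182)) (XT.nd (nat_lit 78) (nat_lit 76) (nat_lit 0) (XT.lf (nat_lit 0) (nat_lit 31413756408) (nat_lit 152) (nat_lit 12424506783) (nat_lit 0) (nat_lit 8761302072) (nat_lit 17) (nat_lit 5) (nat_lit 19) (nat_lit 4) (nat_lit 17) (nat_lit 4) (nat_lit 432) (nat_lit 287) (nat_lit 181)) (XT.lf (nat_lit 0) (nat_lit 1451310682) (nat_lit 76) (nat_lit 37593132965) (nat_lit 76) (nat_lit 14910617637)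 (nat_lit 16) (nat_lit 4) (nat_lit 17) (nat_lit 5) (nat_lit 17) (nat_lit 4) (nat_lit 433) (nat_lit 287) (nat_lit 180)))) (XT.nd (nat_lit 78) (nat_lit 76) (nat_lit 0) (XT.lf (nat_lit 0) (nat_lit 15964682714) (nat_lit 76) (nat_lit 31047498771) (nat_lit 76) (nat_lit 8335798013) (nat_lit 16) (nat_lit 4) (nat_lit 17) (nat_lit 5) (nat_lit 17) (nat_lit 4) (nat_lit 434) (nat_lit 287) (nat_lit 179)) (XT.nd (nat_lit 78) (nat_lit 76) (nat_lit 0) (XT.lf (nat_lit 0) (nat_lit 30881018850) (nat_lit 76) (nat_lit 24321104282) (nat_lit 76) (nat_lit 1581068155) (nat_lit 16) (nat_lit 4) (nat_lit 17) (nat_lit 5) (nat_lit 17) (nat_lit 4) (nat_lit 435) (nat_lit 287) (nat_lit 178)) (XT.lf (nat_lit 0) (nat_lit 5254891485) (nat_lit 152) (nat_lit 12100116478) (nat_lit 76) (nat_lit 40905397198) (nat_lit 15) (nat_lit 5) (nat_lit 17) (nat_lit 5) (nat_lit 16) (nat_lit 4) (nat_lit 436) (nat_lit 287) (nat_lit 177))))) (XT.nd (nat_lit 234)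 (nat_lit 76) (nat_lit 0) (XT.nd (nat_lit 78) (nat_lit 0) (nat_lit 0) (XT.lf (nat_lit 0) (nat_lit 2110638219) (nat_lit 76) (nat_lit 10157782083) (nat_lit 152) (nat_lit 47512918554) (nat_lit 14) (nat_lit 5) (nat_lit 15) (nat_lit 5) (nat_lit 16) (nat_lit 4) (nat_lit 437) (nat_lit 287) (nat_lit 176)) (XT.nd (nat_lit 78) (nat_lit 0) (nat_lit 0) (XT.lf (nat_lit 0) (nat_lit 16965164023) (nat_lit 76) (nat_lit 2633530506) (nat_lit 152) (nat_lit 41746016894) (nat_lit 14) (nat_lit 5) (nat_lit 15) (nat_lit 5) (nat_lit 16) (nat_lit 4) (nat_lit 438) (nat_lit 287) (nat_lit 175)) (XT.lf (nat_lit 0) (nat_lit 27182535498) (nat_lit 152) (nat_lit 30768868034) (nat_lit 0) (nat_lit 5002572895) (nat_lit 14) (nat_lit 5) (nat_lit 16) (nat_lit 4) (nat_lit 14) (nat_lit 4) (nat_lit 439) (nat_lit 287) (nat_lit 174)))) (XT.nd (nat_lit 156) (nat_lit 76) (nat_lit 0) (XT.nd (nat_lit 78) (nat_lit 0) (nat_lit 0) (XT.lf (nat_lit 0) (nat_lit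 35004894489) (nat_lit 152) (nat_lit 16805094335) (nat_lit 0) (nat_lit 12801201461) (nat_lit 14) (nat_lit 5) (nat_lit 16) (nat_lit 4) (nat_lit 14) (nat_lit 4) (nat_lit 440) (nat_lit 287) (nat_lit 173)) (XT.lf (nat_lit 0) (nat_lit 43047291467) (nat_lit 152) (nat_lit 2450709841) (nat_lit 0) (nat_lit 20820559191) (nat_lit 14) (nat_lit 5) (nat_lit 16) (nat_lit 4) (nat_lit 14) (nat_lit 4) (nat_lit 441) (nat_lit 287) (nat_lit 172))) (XT.nd (nat_lit 78) (nat_lit 0) (nat_lit 0) (XT.lf (nat_lit 0) (nat_lit 12551758124) (nat_lit 76) (nat_lit 38885650823) (nat_lit 76) (nat_lit 16636550344) (nat_lit 13) (nat_lit 4) (nat_lit 14) (nat_lit 5) (nat_lit 14) (nat_lit 4) (nat_lit 442) (nat_lit 287) (nat_lit 171)) (XT.lf (nat_lit 0) (nat_lit 28027328596) (nat_lit 76) (nat_lit 32062594371) (nat_lit 76) (nat_lit 9791777192) (nat_lit 13) (nat_lit 4) (nat_lit 14) (nat_lit 5) (nat_lit 14) (nat_lit 4) (nat_lit 443) (nat_lit 287)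 (nat_lit 170)))))) (XT.nd (nat_lit 37674) (nat_lit 0) (nat_lit 14440) (XT.nd (nat_lit 234) (nat_lit 0) (nat_lit 0) (XT.nd (nat_lit 78) (nat_lit 152) (nat_lit 0) (XT.lf (nat_lit 0) (nat_lit 43940749987) (nat_lit 76) (nat_lit 25047617423) (nat_lit 76) (nat_lit 2755716069) (nat_lit 13) (nat_lit 4) (nat_lit 14) (nat_lit 5) (nat_lit 14) (nat_lit 4) (nat_lit 444) (nat_lit 287) (nat_lit 169)) (XT.nd (nat_lit 78) (nat_lit 76) (nat_lit 0) (XT.lf (nat_lit 0) (nat_lit 4390403402) (nat_lit 152) (nat_lit 13399852520) (nat_lit 76) (nat_lit 55871189360) (nat_lit 12) (nat_lit 5) (nat_lit 14) (nat_lit 5) (nat_lit 13) (nat_lit 4) (nat_lit 445) (nat_lit 287) (nat_lit 168)) (XT.lf (nat_lit 0) (nat_lit 1410819611) (nat_lit 76) (nat_lit 10285271470) (nat_lit 152) (nat_lit 63939401976) (nat_lit 11) (nat_lit 5) (nat_lit 12) (nat_lit 5) (nat_lit 13) (nat_lit 4) (nat_lit 446) (nat_lit 287) (nat_lit 167)))) (XT.nd (nat_lit 37284)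 (nat_lit 0) (nat_lit 18240) (XT.nd (nat_lit 78) (nat_lit 0) (nat_lit 0) (XT.lf (nat_lit 0) (nat_lit 16915583282) (nat_lit 76) (nat_lit 2427827345) (nat_lit 152) (nat_lit 58321678581) (nat_lit 11) (nat_lit 5) (nat_lit 12) (nat_lit 5) (nat_lit 13) (nat_lit 4) (nat_lit 447) (nat_lit 287) (nat_lit 166)) (XT.lf (nat_lit 0) (nat_lit 27262019210) (nat_lit 152) (nat_lit 46948991447) (nat_lit 0) (nat_lit 5543307259) (nat_lit 11) (nat_lit 5) (nat_lit 13) (nat_lit 4) (nat_lit 11) (nat_lit 4) (nat_lit 448) (nat_lit 287) (nat_lit 165))) (XT.nd (nat_lit 78) (nat_lit 1140) (nat_lit 0) (XT.lf (nat_lit 0) (nat_lit 823443856) (nat_lit 1140) (nat_lit 1889836894) (nat_lit 0) (nat_lit 823443856) (nat_lit 266) (nat_lit 5) (nat_lit 281) (nat_lit 4) (nat_lit 266) (nat_lit 4) (nat_lit 324) (nat_lit 288) (nat_lit 288)) (XT.lf (nat_lit 0) (nat_lit 1239067175) (nat_lit 1140) (nat_lit 3806929489) (nat_lit 1140) (nat_lit 2082271023)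 (nat_lit 251) (nat_lit 4) (nat_lit 266) (nat_lit 5) (nat_lit 266) (nat_lit 4) (nat_lit 325) (nat_lit 288) (nat_lit 287))))) (XT.nd (nat_lit 234) (nat_lit 1824) (nat_lit 0) (XT.nd (nat_lit 78) (nat_lit 1900) (nat_lit 0) (XT.lf (nat_lit 0) (nat_lit 1273467330) (nat_lit 1216) (nat_lit 813945480) (nat_lit 76) (nat_lit 5098861501) (nat_lit 250) (nat_lit 5) (nat_lit 266) (nat_lit 5) (nat_lit 251) (nat_lit 4) (nat_lit 326) (nat_lit 288) (nat_lit 286)) (XT.nd (nat_lit 78) (nat_lit 684) (nat_lit 0) (XT.lf (nat_lit 0) (nat_lit 4378650066) (nat_lit 1216) (nat_lit 253561875) (nat_lit 1292) (nat_lit 2614930728) (nat_lit 234) (nat_lit 5) (nat_lit 250) (nat_lit 5) (nat_lit 251) (nat_lit 4) (nat_lit 327) (nat_lit 288) (nat_lit 285)) (XT.lf (nat_lit 0) (nat_lit 716777279) (nat_lit 684) (nat_lit 4955667351) (nat_lit 76) (nat_lit 1638724225) (nat_lit 225) (nat_lit 5) (nat_lit 234) (nat_lit 5) (nat_lit 226) (nat_lit 4) (nat_lit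 328) (nat_lit 288) (nat_lit 284)))) (XT.nd (nat_lit 156) (nat_lit 1216) (nat_lit 0) (XT.nd (nat_lit 78) (nat_lit 0) (nat_lit 0) (XT.lf (nat_lit 0) (nat_lit 293162000) (nat_lit 608) (nat_lit 3742105375) (nat_lit 684) (nat_lit 3342950125) (nat_lit 217) (nat_lit 5) (nat_lit 225) (nat_lit 5) (nat_lit 226) (nat_lit 4) (nat_lit 329) (nat_lit 288) (nat_lit 283)) (XT.lf (nat_lit 0) (nat_lit 5699408020) (nat_lit 608) (nat_lit 1710549174) (nat_lit 684) (nat_lit 38679346) (nat_lit 217) (nat_lit 5) (nat_lit 225) (nat_lit 5) (nat_lit 226) (nat_lit 4) (nat_lit 330) (nat_lit 288) (nat_lit 282))) (XT.nd (nat_lit 78) (nat_lit 532) (nat_lit 0) (XT.lf (nat_lit 0) (nat_lit 3247117298) (nat_lit 684) (nat_lit 3840497751) (nat_lit 76) (nat_lit 434196066) (nat_lit 208) (nat_lit 5) (nat_lit 217) (nat_lit 5) (nat_lit 209) (nat_lit 4) (nat_lit 331) (nat_lit 288) (nat_lit 281)) (XT.lf (nat_lit 0) (nat_lit 1625987635) (nat_lit 532)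 (nat_lit 4965116112) (nat_lit 608) (nat_lit 1007307233) (nat_lit 201) (nat_lit 5) (nat_lit 208) (nat_lit 5) (nat_lit 209) (nat_lit 4) (nat_lit 332) (nat_lit 288) (nat_lit 280))))))))
noncomputable def xc74 : XT := (XT.nd (nat_lit 2106) (nat_lit 3572) (nat_lit 0) (XT.nd (nat_lit 1014) (nat_lit 3344) (nat_lit 0) (XT.nd (nat_lit 468) (nat_lit 2280) (nat_lit 0) (XT.nd (nat_lit 234) (nat_lit 1064) (nat_lit 0) (XT.nd (nat_lit 78) (nat_lit 1064) (nat_lit 0) (XT.lf (nat_lit 0) (nat_lit 2261962933) (nat_lit 608) (nat_lit 467053163) (nat_lit 76) (nat_lit 4949166690) (nat_lit 200) (nat_lit 5) (nat_lit 208) (nat_lit 5) (nat_lit 201) (nat_lit 5) (nat_lit 333) (nat_lit 288) (nat_lit 279)) (XT.nd (nat_lit 78) (nat_lit 532) (nat_lit 0) (XT.lf (nat_lit 0) (nat_lit 5194825707) (nat_lit 532) (nat_lit 377487652) (nat_lit 608) (nat_lit 2188886559) (nat_lit 193) (nat_lit 5) (nat_lit 200) (nat_lit 5) (nat_lit 201) (nat_lit 5)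 (nat_lit 334) (nat_lit 288) (nat_lit 278)) (XT.lf (nat_lit 0) (nat_lit 1082011851) (nat_lit 532) (nat_lit 4728885794) (nat_lit 76) (nat_lit 2036461599) (nat_lit 186) (nat_lit 5) (nat_lit 193) (nat_lit 5) (nat_lit 187) (nat_lit 5) (nat_lit 335) (nat_lit 288) (nat_lit 277)))) (XT.nd (nat_lit 78) (nat_lit 532) (nat_lit 0) (XT.lf (nat_lit 0) (nat_lit 982384664) (nat_lit 532) (nat_lit 3379403862) (nat_lit 608) (nat_lit 3575066959) (nat_lit 179) (nat_lit 5) (nat_lit 186) (nat_lit 5) (nat_lit 187) (nat_lit 5) (nat_lit 336) (nat_lit 288) (nat_lit 276)) (XT.nd (nat_lit 78) (nat_lit 532) (nat_lit 0) (XT.lf (nat_lit 0) (nat_lit 6860665610) (nat_lit 532) (nat_lit 843929271) (nat_lit 608) (nat_lit 325546012) (nat_lit 179) (nat_lit 5) (nat_lit 186) (nat_lit 5) (nat_lit 187) (nat_lit 5) (nat_lit 337) (nat_lit 288) (nat_lit 275)) (XT.lf (nat_lit 0) (nat_lit 2944206190) (nat_lit 532) (nat_lit 3391233064) (nat_lit 76) (nat_lit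 1790504012) (nat_lit 172) (nat_lit 5) (nat_lit 179) (nat_lit 5) (nat_lit 173) (nat_lit 5) (nat_lit 338) (nat_lit 288) (nat_lit 274))))) (XT.nd (nat_lit 234) (nat_lit 1368) (nat_lit 0) (XT.nd (nat_lit 78) (nat_lit 456) (nat_lit 0) (XT.lf (nat_lit 0) (nat_lit 2552582516) (nat_lit 456) (nat_lit 3717450482) (nat_lit 532) (nat_lit 1955593949) (nat_lit 166) (nat_lit 5) (nat_lit 172) (nat_lit 5) (nat_lit 173) (nat_lit 5) (nat_lit 339) (nat_lit 288) (nat_lit 273)) (XT.nd (nat_lit 78) (nat_lit 0) (nat_lit 0) (XT.lf (nat_lit 0) (nat_lit 307582862) (nat_lit 380) (nat_lit 990871346) (nat_lit 456) (nat_lit 7030755965) (nat_lit 160) (nat_lit 5) (nat_lit 165) (nat_lit 5) (nat_lit 166) (nat_lit 5) (nat_lit 340) (nat_lit 288) (nat_lit 272)) (XT.lf (nat_lit 0) (nat_lit 4607541169) (nat_lit 456) (nat_lit 1990726749) (nat_lit 76) (nat_lit 1837186745) (nat_lit 160) (nat_lit 5) (nat_lit 166) (nat_lit 5) (nat_lit 161) (nat_lit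 5) (nat_lit 341) (nat_lit 288) (nat_lit 271)))) (XT.nd (nat_lit 156) (nat_lit 456) (nat_lit 0) (XT.nd (nat_lit 78) (nat_lit 456) (nat_lit 0) (XT.lf (nat_lit 0) (nat_lit 4193048799) (nat_lit 456) (nat_lit 3796656141) (nat_lit 532) (nat_lit 556002687) (nat_lit 154) (nat_lit 5) (nat_lit 160) (nat_lit 5) (nat_lit 161) (nat_lit 5) (nat_lit 342) (nat_lit 288) (nat_lit 270)) (XT.lf (nat_lit 0) (nat_lit 1852760855) (nat_lit 380) (nat_lit 868684519) (nat_lit 456) (nat_lit 5938175756) (nat_lit 148) (nat_lit 5) (nat_lit 153) (nat_lit 5) (nat_lit 154) (nat_lit 5) (nat_lit 343) (nat_lit 288) (nat_lit 269))) (XT.nd (nat_lit 78) (nat_lit 456) (nat_lit 0) (XT.lf (nat_lit 0) (nat_lit 6076260467) (nat_lit 456) (nat_lit 570310634) (nat_lit 76) (nat_lit 2130541500) (nat_lit 148) (nat_lit 5) (nat_lit 154) (nat_lit 5) (nat_lit 149) (nat_lit 5) (nat_lit 344) (nat_lit 288) (nat_lit 268)) (XT.lf (nat_lit 0) (nat_lit 613424705)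 (nat_lit 456) (nat_lit 3044017844) (nat_lit 76) (nat_lit 5240768059) (nat_lit 142) (nat_lit 5) (nat_lit 148) (nat_lit 5) (nat_lit 143) (nat_lit 5) (nat_lit 345) (nat_lit 288) (nat_lit 267)))))) (XT.nd (nat_lit 546) (nat_lit 1596) (nat_lit 0) (XT.nd (nat_lit 234) (nat_lit 988) (nat_lit 0) (XT.nd (nat_lit 78) (nat_lit 456) (nat_lit 0) (XT.lf (nat_lit 0) (nat_lit 3400711930) (nat_lit 304) (nat_lit 538447484) (nat_lit 380) (nat_lit 5084020020) (nat_lit 138) (nat_lit 5) (nat_lit 142) (nat_lit 5) (nat_lit 143) (nat_lit 5) (nat_lit 346) (nat_lit 288) (nat_lit 266)) (XT.nd (nat_lit 78) (nat_lit 76) (nat_lit 0) (XT.lf (nat_lit 0) (nat_lit 840469788) (nat_lit 380) (nat_lit 6517728928) (nat_lit 456) (nat_lit 1793921307) (nat_lit 133) (nat_lit 5) (nat_lit 138) (nat_lit 5) (nat_lit 139) (nat_lit 5) (nat_lit 347) (nat_lit 288) (nat_lit 265)) (XT.lf (nat_lit 0) (nat_lit 1555534359) (nat_lit 456) (nat_lit 1792484856) (nat_lit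 76) (nat_lit 5936723437) (nat_lit 132) (nat_lit 5) (nat_lit 138) (nat_lit 5) (nat_lit 133) (nat_lit 5) (nat_lit 348) (nat_lit 288) (nat_lit 264)))) (XT.nd (nat_lit 156) (nat_lit 380) (nat_lit 0) (XT.nd (nat_lit 78) (nat_lit 304) (nat_lit 0) (XT.lf (nat_lit 0) (nat_lit 4902503755) (nat_lit 304) (nat_lit 45211274) (nat_lit 380) (nat_lit 4473773402) (nat_lit 128) (nat_lit 5) (nat_lit 132) (nat_lit 5) (nat_lit 133) (nat_lit 5) (nat_lit 349) (nat_lit 288) (nat_lit 263)) (XT.lf (nat_lit 0) (nat_lit 2185006227) (nat_lit 304) (nat_lit 6260173239) (nat_lit 380) (nat_lit 1117077044) (nat_lit 124) (nat_lit 5) (nat_lit 128) (nat_lit 5) (nat_lit 129) (nat_lit 5) (nat_lit 350) (nat_lit 288) (nat_lit 262))) (XT.nd (nat_lit 78) (nat_lit 304) (nat_lit 0) (XT.lf (nat_lit 0) (nat_lit 2273509581) (nat_lit 380) (nat_lit 645406541) (nat_lit 76) (nat_lit 6788314901) (nat_lit 123) (nat_lit 5) (nat_lit 128) (nat_lit 5) (nat_lit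 124) (nat_lit 5) (nat_lit 351) (nat_lit 288) (nat_lit 261)) (XT.lf (nat_lit 0) (nat_lit 5743700769) (nat_lit 380) (nat_lit 3557491428) (nat_lit 76) (nat_lit 555043912) (nat_lit 119) (nat_lit 5) (nat_lit 124) (nat_lit 5) (nat_lit 120) (nat_lit 5) (nat_lit 352) (nat_lit 288) (nat_lit 260))))) (XT.nd (nat_lit 234) (nat_lit 912) (nat_lit 0) (XT.nd (nat_lit 78) (nat_lit 380) (nat_lit 0) (XT.lf (nat_lit 0) (nat_lit 3395494361) (nat_lit 304) (nat_lit 5925629247) (nat_lit 380) (nat_lit 688516597) (nat_lit 115) (nat_lit 5) (nat_lit 119) (nat_lit 5) (nat_lit 120) (nat_lit 5) (nat_lit 353) (nat_lit 288) (nat_lit 259)) (XT.nd (nat_lit 78) (nat_lit 0) (nat_lit 0) (XT.lf (nat_lit 0) (nat_lit 345434056) (nat_lit 304) (nat_lit 2412325799) (nat_lit 380) (nat_lit 7409841789) (nat_lit 110) (nat_lit 5) (nat_lit 114) (nat_lit 5) (nat_lit 115) (nat_lit 5) (nat_lit 354) (nat_lit 288) (nat_lit 258)) (XT.lf (nat_lit 0) (nat_lit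 6308602922) (nat_lit 380) (nat_lit 2795751084) (nat_lit 76) (nat_lit 1225313620) (nat_lit 110) (nat_lit 5) (nat_lit 115) (nat_lit 5) (nat_lit 111) (nat_lit 5) (nat_lit 355) (nat_lit 288) (nat_lit 257)))) (XT.nd (nat_lit 156) (nat_lit 304) (nat_lit 0) (XT.nd (nat_lit 78) (nat_lit 304) (nat_lit 0) (XT.lf (nat_lit 0) (nat_lit 4408687335) (nat_lit 304) (nat_lit 5561381534) (nat_lit 380) (nat_lit 526423903) (nat_lit 106) (nat_lit 5) (nat_lit 110) (nat_lit 5) (nat_lit 111) (nat_lit 5) (nat_lit 356) (nat_lit 288) (nat_lit 256)) (XT.lf (nat_lit 0) (nat_lit 1115811661) (nat_lit 228) (nat_lit 1874630780) (nat_lit 304) (nat_lit 7677692404) (nat_lit 102) (nat_lit 5) (nat_lit 105) (nat_lit 5) (nat_lit 106) (nat_lit 5) (nat_lit 357) (nat_lit 288) (nat_lit 255))) (XT.nd (nat_lit 78) (nat_lit 304) (nat_lit 0) (XT.lf (nat_lit 0) (nat_lit 6621491583) (nat_lit 304) (nat_lit 2302883489) (nat_lit 76) (nat_lit 1919835427) (nat_lit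 102) (nat_lit 5) (nat_lit 106) (nat_lit 5) (nat_lit 103) (nat_lit 5) (nat_lit 358) (nat_lit 288) (nat_lit 254)) (XT.lf (nat_lit 0) (nat_lit 5152993612) (nat_lit 304) (nat_lit 5217050161) (nat_lit 380) (nat_lit 655285370) (nat_lit 98) (nat_lit 5) (nat_lit 102) (nat_lit 5) (nat_lit 103) (nat_lit 5) (nat_lit 359) (nat_lit 288) (nat_lit 253))))))) (XT.nd (nat_lit 1014) (nat_lit 1596) (nat_lit 0) (XT.nd (nat_lit 468) (nat_lit 912) (nat_lit 0) (XT.nd (nat_lit 234) (nat_lit 532) (nat_lit 0) (XT.nd (nat_lit 78) (nat_lit 228) (nat_lit 0) (XT.lf (nat_lit 0) (nat_lit 1576763243) (nat_lit 228) (nat_lit 1362861997) (nat_lit 304) (nat_lit 8272021217) (nat_lit 94) (nat_lit 5) (nat_lit 97) (nat_lit 5) (nat_lit 98) (nat_lit 5) (nat_lit 360) (nat_lit 288) (nat_lit 252)) (XT.nd (nat_lit 78) (nat_lit 228) (nat_lit 0) (XT.lf (nat_lit 0) (nat_lit 6655397224) (nat_lit 304) (nat_lit 2158047705) (nat_lit 76) (nat_lit 2589144534)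 (nat_lit 94) (nat_lit 5) (nat_lit 98) (nat_lit 5) (nat_lit 95) (nat_lit 5) (nat_lit 361) (nat_lit 288) (nat_lit 251)) (XT.lf (nat_lit 0) (nat_lit 5546718376) (nat_lit 228) (nat_lit 4945686449) (nat_lit 304) (nat_lit 1106578939) (nat_lit 91) (nat_lit 5) (nat_lit 94) (nat_lit 5) (nat_lit 95) (nat_lit 5) (nat_lit 362) (nat_lit 288) (nat_lit 250)))) (XT.nd (nat_lit 78) (nat_lit 228) (nat_lit 0) (XT.lf (nat_lit 0) (nat_lit 1641282277) (nat_lit 228) (nat_lit 931348504) (nat_lit 304) (nat_lit 9228463097) (nat_lit 87) (nat_lit 5) (nat_lit 90) (nat_lit 5) (nat_lit 91) (nat_lit 5) (nat_lit 363) (nat_lit 288) (nat_lit 249)) (XT.nd (nat_lit 78) (nat_lit 228) (nat_lit 0) (XT.lf (nat_lit 0) (nat_lit 6376117076) (nat_lit 304) (nat_lit 2451925419) (nat_lit 76) (nat_lit 3179826399) (nat_lit 87) (nat_lit 5) (nat_lit 91) (nat_lit 5) (nat_lit 88) (nat_lit 5) (nat_lit 364) (nat_lit 288) (nat_lit 248)) (XT.lf (nat_lit 0) (nat_lit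 5496060003) (nat_lit 228) (nat_lit 4804969722) (nat_lit 304) (nat_lit 1919611889) (nat_lit 84) (nat_lit 5) (nat_lit 87) (nat_lit 5) (nat_lit 88) (nat_lit 5) (nat_lit 365) (nat_lit 288) (nat_lit 247))))) (XT.nd (nat_lit 234) (nat_lit 456) (nat_lit 0) (XT.nd (nat_lit 78) (nat_lit 228) (nat_lit 0) (XT.lf (nat_lit 0) (nat_lit 1209356241) (nat_lit 152) (nat_lit 639480532) (nat_lit 228) (nat_lit 10590962108) (nat_lit 81) (nat_lit 5) (nat_lit 83) (nat_lit 5) (nat_lit 84) (nat_lit 5) (nat_lit 366) (nat_lit 288) (nat_lit 246)) (XT.nd (nat_lit 78) (nat_lit 228) (nat_lit 0) (XT.lf (nat_lit 0) (nat_lit 5741299689) (nat_lit 228) (nat_lit 3288913107) (nat_lit 76) (nat_lit 3633274503) (nat_lit 81) (nat_lit 5) (nat_lit 84) (nat_lit 5) (nat_lit 82) (nat_lit 5) (nat_lit 367) (nat_lit 288) (nat_lit 245)) (XT.lf (nat_lit 0) (nat_lit 4892817824) (nat_lit 228) (nat_lit 4858529794) (nat_lit 304) (nat_lit 3142526950) (nat_lit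 78) (nat_lit 5) (nat_lit 81) (nat_lit 5) (nat_lit 82) (nat_lit 5) (nat_lit 368) (nat_lit 288) (nat_lit 244)))) (XT.nd (nat_lit 156) (nat_lit 228) (nat_lit 0) (XT.nd (nat_lit 78) (nat_lit 0) (nat_lit 0) (XT.lf (nat_lit 0) (nat_lit 165541124) (nat_lit 152) (nat_lit 553091001) (nat_lit 228) (nat_lit 12412854089) (nat_lit 75) (nat_lit 5) (nat_lit 77) (nat_lit 5) (nat_lit 78) (nat_lit 5) (nat_lit 369) (nat_lit 288) (nat_lit 243)) (XT.lf (nat_lit 0) (nat_lit 4699351798) (nat_lit 228) (nat_lit 4789636324) (nat_lit 76) (nat_lit 3884309508) (nat_lit 75) (nat_lit 5) (nat_lit 78) (nat_lit 5) (nat_lit 76) (nat_lit 5) (nat_lit 370) (nat_lit 288) (nat_lit 242))) (XT.nd (nat_lit 78) (nat_lit 0) (nat_lit 0) (XT.lf (nat_lit 0) (nat_lit 3611760936) (nat_lit 228) (nat_lit 5177422952) (nat_lit 304) (nat_lit 4833499910) (nat_lit 72) (nat_lit 5) (nat_lit 75) (nat_lit 5) (nat_lit 76) (nat_lit 5) (nat_lit 371) (nat_lit 288) (nat_lit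 241)) (XT.lf (nat_lit 0) (nat_lit 12279015203) (nat_lit 228) (nat_lit 721217886) (nat_lit 304) (nat_lit 879373607) (nat_lit 72) (nat_lit 5) (nat_lit 75) (nat_lit 5) (nat_lit 76) (nat_lit 5) (nat_lit 372) (nat_lit 288) (nat_lit 240)))))) (XT.nd (nat_lit 546) (nat_lit 608) (nat_lit 0) (XT.nd (nat_lit 234) (nat_lit 532) (nat_lit 0) (XT.nd (nat_lit 78) (nat_lit 228) (nat_lit 0) (XT.lf (nat_lit 0) (nat_lit 3188142428) (nat_lit 228) (nat_lit 7093841243) (nat_lit 76) (nat_lit 3859630495) (nat_lit 69) (nat_lit 5) (nat_lit 72) (nat_lit 5) (nat_lit 70) (nat_lit 5) (nat_lit 373) (nat_lit 288) (nat_lit 239)) (XT.nd (nat_lit 78) (nat_lit 0) (nat_lit 0) (XT.lf (nat_lit 0) (nat_lit 1507600244) (nat_lit 228) (nat_lit 5841792814) (nat_lit 304) (nat_lit 7062155985) (nat_lit 66) (nat_lit 5) (nat_lit 69) (nat_lit 5) (nat_lit 70) (nat_lit 5) (nat_lit 374) (nat_lit 288) (nat_lit 238)) (XT.lf (nat_lit 0) (nat_lit 10430104725)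 (nat_lit 228) (nat_lit 1229061075) (nat_lit 304) (nat_lit 3029715233) (nat_lit 66) (nat_lit 5) (nat_lit 69) (nat_lit 5) (nat_lit 70) (nat_lit 5) (nat_lit 375) (nat_lit 288) (nat_lit 237)))) (XT.nd (nat_lit 156) (nat_lit 304) (nat_lit 0) (XT.nd (nat_lit 78) (nat_lit 0) (nat_lit 0) (XT.lf (nat_lit 0) (nat_lit 1133474762) (nat_lit 228) (nat_lit 10363726996) (nat_lit 76) (nat_lit 3476065126) (nat_lit 63) (nat_lit 5) (nat_lit 66) (nat_lit 5) (nat_lit 64) (nat_lit 5) (nat_lit 376) (nat_lit 288) (nat_lit 236)) (XT.lf (nat_lit 0) (nat_lit 5369518391) (nat_lit 228) (nat_lit 1557505530) (nat_lit 76) (nat_lit 8338003698) (nat_lit 63) (nat_lit 5) (nat_lit 66) (nat_lit 5) (nat_lit 64) (nat_lit 5) (nat_lit 377) (nat_lit 288) (nat_lit 235))) (XT.nd (nat_lit 78) (nat_lit 152) (nat_lit 0) (XT.lf (nat_lit 0) (nat_lit 7581994611) (nat_lit 152) (nat_lit 2178145276) (nat_lit 228) (nat_lit 5804584926) (nat_lit 61) (nat_lit 5)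 (nat_lit 63) (nat_lit 5) (nat_lit 64) (nat_lit 5) (nat_lit 378) (nat_lit 288) (nat_lit 234)) (XT.lf (nat_lit 0) (nat_lit 1070192906) (nat_lit 152) (nat_lit 13219404147) (nat_lit 228) (nat_lit 1583610645) (nat_lit 59) (nat_lit 5) (nat_lit 61) (nat_lit 5) (nat_lit 62) (nat_lit 4) (nat_lit 379) (nat_lit 288) (nat_lit 233))))) (XT.nd (nat_lit 234) (nat_lit 380) (nat_lit 0) (XT.nd (nat_lit 78) (nat_lit 152) (nat_lit 0) (XT.lf (nat_lit 0) (nat_lit 2768008818) (nat_lit 228) (nat_lit 5758365941) (nat_lit 76) (nat_lit 7662042502) (nat_lit 58) (nat_lit 5) (nat_lit 61) (nat_lit 5) (nat_lit 59) (nat_lit 5) (nat_lit 380) (nat_lit 288) (nat_lit 232)) (XT.nd (nat_lit 78) (nat_lit 0) (nat_lit 0) (XT.lf (nat_lit 0) (nat_lit 3533963696) (nat_lit 152) (nat_lit 3674643691) (nat_lit 228) (nat_lit 9304305141) (nat_lit 56) (nat_lit 5) (nat_lit 58) (nat_lit 5) (nat_lit 59) (nat_lit 5) (nat_lit 381) (nat_lit 288) (nat_lit 231))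 (XT.lf (nat_lit 0) (nat_lit 11810374206) (nat_lit 228) (nat_lit 3712754396) (nat_lit 76) (nat_lit 1323182904) (nat_lit 56) (nat_lit 5) (nat_lit 59) (nat_lit 5) (nat_lit 57) (nat_lit 4) (nat_lit 382) (nat_lit 288) (nat_lit 230)))) (XT.nd (nat_lit 156) (nat_lit 152) (nat_lit 0) (XT.nd (nat_lit 78) (nat_lit 76) (nat_lit 0) (XT.lf (nat_lit 0) (nat_lit 5833962035) (nat_lit 152) (nat_lit 10766473191) (nat_lit 228) (nat_lit 587777139) (nat_lit 54) (nat_lit 5) (nat_lit 56) (nat_lit 5) (nat_lit 57) (nat_lit 4) (nat_lit 383) (nat_lit 288) (nat_lit 229)) (XT.lf (nat_lit 0) (nat_lit 3911632454) (nat_lit 228) (nat_lit 1909853429) (nat_lit 76) (nat_lit 11717867212) (nat_lit 53) (nat_lit 5) (nat_lit 56) (nat_lit 5) (nat_lit 54) (nat_lit 5) (nat_lit 384) (nat_lit 288) (nat_lit 228))) (XT.nd (nat_lit 78) (nat_lit 0) (nat_lit 0) (XT.lf (nat_lit 0) (nat_lit 7893233260) (nat_lit 152) (nat_lit 675954691) (nat_lit 228) (nat_lit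 9330622729) (nat_lit 51) (nat_lit 5) (nat_lit 53) (nat_lit 5) (nat_lit 54) (nat_lit 5) (nat_lit 385) (nat_lit 288) (nat_lit 227)) (XT.lf (nat_lit 0) (nat_lit 13389690507) (nat_lit 228) (nat_lit 358626898) (nat_lit 76) (nat_lit 4522074326) (nat_lit 51) (nat_lit 5) (nat_lit 54) (nat_lit 5) (nat_lit 52) (nat_lit 4) (nat_lit 386) (nat_lit 288) (nat_lit 226))))))))
noncomputable def xc75 : XT := (XT.nd (nat_lit 2106) (nat_lit 912) (nat_lit 0) (XT.nd (nat_lit 1014) (nat_lit 836) (nat_lit 0) (XT.nd (nat_lit 468) (nat_lit 380) (nat_lit 0) (XT.nd (nat_lit 234) (nat_lit 304) (nat_lit 0) (XT.nd (nat_lit 78) (nat_lit 228) (nat_lit 0) (XT.lf (nat_lit 0) (nat_lit 9690241577) (nat_lit 152) (nat_lit 8724888785) (nat_lit 228) (nat_lit 235156349) (nat_lit 49) (nat_lit 5) (nat_lit 51) (nat_lit 5) (nat_lit 52) (nat_lit 4) (nat_lit 387) (nat_lit 288) (nat_lit 225)) (XT.nd (nat_lit 78) (nat_lit 0) (nat_lit 0) (XT.lf (nat_lit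 0) (nat_lit 909418025) (nat_lit 152) (nat_lit 3524518549) (nat_lit 228) (nat_lit 14607146815) (nat_lit 46) (nat_lit 5) (nat_lit 48) (nat_lit 5) (nat_lit 49) (nat_lit 5) (nat_lit 388) (nat_lit 288) (nat_lit 224)) (XT.lf (nat_lit 0) (nat_lit 9308095464) (nat_lit 228) (nat_lit 8274277183) (nat_lit 76) (nat_lit 1859075523) (nat_lit 46) (nat_lit 5) (nat_lit 49) (nat_lit 5) (nat_lit 47) (nat_lit 4) (nat_lit 389) (nat_lit 288) (nat_lit 223)))) (XT.nd (nat_lit 78) (nat_lit 228) (nat_lit 0) (XT.lf (nat_lit 0) (nat_lit 1810140619) (nat_lit 76) (nat_lit 12532514405) (nat_lit 152) (nat_lit 5510749073) (nat_lit 45) (nat_lit 5) (nat_lit 46) (nat_lit 5) (nat_lit 47) (nat_lit 4) (nat_lit 390) (nat_lit 288) (nat_lit 222)) (XT.nd (nat_lit 78) (nat_lit 228) (nat_lit 0) (XT.lf (nat_lit 0) (nat_lit 12298264992) (nat_lit 76) (nat_lit 7275872269) (nat_lit 152) (nat_lit 702210183) (nat_lit 45) (nat_lit 5) (nat_lit 46) (nat_lit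 5) (nat_lit 47) (nat_lit 4) (nat_lit 391) (nat_lit 288) (nat_lit 221)) (XT.lf (nat_lit 0) (nat_lit 2326404030) (nat_lit 152) (nat_lit 1826661333) (nat_lit 228) (nat_lit 16558130222) (nat_lit 42) (nat_lit 5) (nat_lit 44) (nat_lit 5) (nat_lit 45) (nat_lit 5) (nat_lit 392) (nat_lit 288) (nat_lit 220))))) (XT.nd (nat_lit 234) (nat_lit 304) (nat_lit 0) (XT.nd (nat_lit 78) (nat_lit 76) (nat_lit 0) (XT.lf (nat_lit 0) (nat_lit 9220849296) (nat_lit 228) (nat_lit 8164587991) (nat_lit 76) (nat_lit 3771019258) (nat_lit 42) (nat_lit 5) (nat_lit 45) (nat_lit 5) (nat_lit 43) (nat_lit 4) (nat_lit 393) (nat_lit 288) (nat_lit 219)) (XT.nd (nat_lit 78) (nat_lit 0) (nat_lit 0) (XT.lf (nat_lit 0) (nat_lit 2324109161) (nat_lit 76) (nat_lit 12121265275) (nat_lit 152) (nat_lit 7169564392) (nat_lit 41) (nat_lit 5) (nat_lit 42) (nat_lit 5) (nat_lit 43) (nat_lit 4) (nat_lit 394) (nat_lit 288) (nat_lit 218)) (XT.lf (nat_lit 0) (nat_lit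 13230095740) (nat_lit 76) (nat_lit 6643685151) (nat_lit 152) (nat_lit 2211984909) (nat_lit 41) (nat_lit 5) (nat_lit 42) (nat_lit 5) (nat_lit 43) (nat_lit 4) (nat_lit 395) (nat_lit 288) (nat_lit 217)))) (XT.nd (nat_lit 156) (nat_lit 76) (nat_lit 0) (XT.nd (nat_lit 78) (nat_lit 0) (nat_lit 0) (XT.lf (nat_lit 0) (nat_lit 1837024061) (nat_lit 152) (nat_lit 983861558) (nat_lit 228) (nat_lit 19749510356) (nat_lit 38) (nat_lit 5) (nat_lit 40) (nat_lit 5) (nat_lit 41) (nat_lit 5) (nat_lit 396) (nat_lit 288) (nat_lit 216)) (XT.lf (nat_lit 0) (nat_lit 8062685368) (nat_lit 228) (nat_lit 10167894219) (nat_lit 76) (nat_lit 4835260589) (nat_lit 38) (nat_lit 5) (nat_lit 41) (nat_lit 5) (nat_lit 39) (nat_lit 4) (nat_lit 397) (nat_lit 288) (nat_lit 215))) (XT.nd (nat_lit 78) (nat_lit 0) (nat_lit 0) (XT.lf (nat_lit 0) (nat_lit 655781065) (nat_lit 76) (nat_lit 12788518679) (nat_lit 152) (nat_lit 10132375217) (nat_lit 37)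 (nat_lit 5) (nat_lit 38) (nat_lit 5) (nat_lit 39) (nat_lit 4) (nat_lit 398) (nat_lit 288) (nat_lit 214)) (XT.lf (nat_lit 0) (nat_lit 11951382380) (nat_lit 76) (nat_lit 7105558452) (nat_lit 152) (nat_lit 5043810563) (nat_lit 37) (nat_lit 5) (nat_lit 38) (nat_lit 5) (nat_lit 39) (nat_lit 4) (nat_lit 399) (nat_lit 288) (nat_lit 213)))))) (XT.nd (nat_lit 546) (nat_lit 304) (nat_lit 0) (XT.nd (nat_lit 234) (nat_lit 304) (nat_lit 0) (XT.nd (nat_lit 78) (nat_lit 152) (nat_lit 0) (XT.lf (nat_lit 0) (nat_lit 161103401) (nat_lit 152) (nat_lit 1116678778) (nat_lit 76) (nat_lit 23363688409) (nat_lit 36) (nat_lit 5) (nat_lit 38) (nat_lit 5) (nat_lit 37) (nat_lit 5) (nat_lit 400) (nat_lit 288) (nat_lit 212)) (XT.nd (nat_lit 78) (nat_lit 0) (nat_lit 0) (XT.lf (nat_lit 0) (nat_lit 5535316974) (nat_lit 228) (nat_lit 14901017735) (nat_lit 76) (nat_lit 4757146273) (nat_lit 34) (nat_lit 5) (nat_lit 37) (nat_lit 5) (nat_lit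 35) (nat_lit 4) (nat_lit 401) (nat_lit 288) (nat_lit 211)) (XT.lf (nat_lit 0) (nat_lit 11063392766) (nat_lit 228) (nat_lit 3766149002) (nat_lit 76) (nat_lit 10932734362) (nat_lit 34) (nat_lit 5) (nat_lit 37) (nat_lit 5) (nat_lit 35) (nat_lit 4) (nat_lit 402) (nat_lit 288) (nat_lit 210)))) (XT.nd (nat_lit 156) (nat_lit 228) (nat_lit 0) (XT.nd (nat_lit 78) (nat_lit 0) (nat_lit 0) (XT.lf (nat_lit 0) (nat_lit 7798195905) (nat_lit 76) (nat_lit 9003587209) (nat_lit 152) (nat_lit 9545021264) (nat_lit 33) (nat_lit 5) (nat_lit 34) (nat_lit 5) (nat_lit 35) (nat_lit 4) (nat_lit 403) (nat_lit 288) (nat_lit 209)) (XT.lf (nat_lit 0) (nat_lit 19730489026) (nat_lit 76) (nat_lit 2989726061) (nat_lit 152) (nat_lit 4228420001) (nat_lit 33) (nat_lit 5) (nat_lit 34) (nat_lit 5) (nat_lit 35) (nat_lit 4) (nat_lit 404) (nat_lit 288) (nat_lit 208))) (XT.nd (nat_lit 78) (nat_lit 0) (nat_lit 0) (XT.lf (nat_lit 0) (nat_lit 1267870508)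 (nat_lit 228) (nat_lit 23126494162) (nat_lit 76) (nat_lit 3172463234) (nat_lit 30) (nat_lit 5) (nat_lit 33) (nat_lit 5) (nat_lit 31) (nat_lit 4) (nat_lit 405) (nat_lit 288) (nat_lit 207)) (XT.lf (nat_lit 0) (nat_lit 6917810972) (nat_lit 228) (nat_lit 11732269918) (nat_lit 76) (nat_lit 9550020232) (nat_lit 30) (nat_lit 5) (nat_lit 33) (nat_lit 5) (nat_lit 31) (nat_lit 4) (nat_lit 406) (nat_lit 288) (nat_lit 206))))) (XT.nd (nat_lit 234) (nat_lit 228) (nat_lit 0) (XT.nd (nat_lit 78) (nat_lit 76) (nat_lit 0) (XT.lf (nat_lit 0) (nat_lit 12708644065) (nat_lit 228) (nat_lit 49844657) (nat_lit 76) (nat_lit 16094744925) (nat_lit 30) (nat_lit 5) (nat_lit 33) (nat_lit 5) (nat_lit 31) (nat_lit 4) (nat_lit 407) (nat_lit 288) (nat_lit 205)) (XT.nd (nat_lit 78) (nat_lit 0) (nat_lit 0) (XT.lf (nat_lit 0) (nat_lit 12168439649) (nat_lit 76) (nat_lit 6593960576) (nat_lit 152) (nat_lit 10760886840) (nat_lit 29) (nat_lit 5)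 (nat_lit 30) (nat_lit 5) (nat_lit 31) (nat_lit 4) (nat_lit 408) (nat_lit 288) (nat_lit 204)) (XT.lf (nat_lit 0) (nat_lit 24702740886) (nat_lit 76) (nat_lit 268072450) (nat_lit 152) (nat_lit 5243440198) (nat_lit 29) (nat_lit 5) (nat_lit 30) (nat_lit 5) (nat_lit 31) (nat_lit 4) (nat_lit 409) (nat_lit 288) (nat_lit 203)))) (XT.nd (nat_lit 156) (nat_lit 76) (nat_lit 0) (XT.nd (nat_lit 78) (nat_lit 0) (nat_lit 0) (XT.lf (nat_lit 0) (nat_lit 529563585) (nat_lit 152) (nat_lit 24220893048) (nat_lit 76) (nat_lit 6172409912) (nat_lit 27) (nat_lit 5) (nat_lit 29) (nat_lit 5) (nat_lit 28) (nat_lit 4) (nat_lit 410) (nat_lit 288) (nat_lit 202)) (XT.lf (nat_lit 0) (nat_lit 6402381431) (nat_lit 152) (nat_lit 12362013864) (nat_lit 76) (nat_lit 12885827377) (nat_lit 27) (nat_lit 5) (nat_lit 29) (nat_lit 5) (nat_lit 28) (nat_lit 4) (nat_lit 411) (nat_lit 288) (nat_lit 201))) (XT.nd (nat_lit 78) (nat_lit 76) (nat_lit 0) (XT.lf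 (nat_lit 0) (nat_lit 12425317023) (nat_lit 152) (nat_lit 196562421) (nat_lit 76) (nat_lit 19778304508) (nat_lit 27) (nat_lit 5) (nat_lit 29) (nat_lit 5) (nat_lit 28) (nat_lit 4) (nat_lit 412) (nat_lit 288) (nat_lit 200)) (XT.lf (nat_lit 0) (nat_lit 12530608593) (nat_lit 76) (nat_lit 6193476402) (nat_lit 152) (nat_lit 14445707140) (nat_lit 26) (nat_lit 5) (nat_lit 27) (nat_lit 5) (nat_lit 28) (nat_lit 4) (nat_lit 413) (nat_lit 288) (nat_lit 199))))))) (XT.nd (nat_lit 1014) (nat_lit 456) (nat_lit 0) (XT.nd (nat_lit 468) (nat_lit 228) (nat_lit 0) (XT.nd (nat_lit 234) (nat_lit 76) (nat_lit 0) (XT.nd (nat_lit 78) (nat_lit 152) (nat_lit 0) (XT.lf (nat_lit 0) (nat_lit 25192693515) (nat_lit 152) (nat_lit 8370768718) (nat_lit 0) (nat_lit 399602331) (nat_lit 26) (nat_lit 5) (nat_lit 28) (nat_lit 4) (nat_lit 26) (nat_lit 4) (nat_lit 414) (nat_lit 288) (nat_lit 198)) (XT.nd (nat_lit 78) (nat_lit 76) (nat_lit 0) (XT.lf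 (nat_lit 0) (nat_lit 4240689236) (nat_lit 76) (nat_lit 27692252708) (nat_lit 76) (nat_lit 2844868027) (nat_lit 25) (nat_lit 4) (nat_lit 26) (nat_lit 5) (nat_lit 26) (nat_lit 4) (nat_lit 415) (nat_lit 288) (nat_lit 197)) (XT.lf (nat_lit 0) (nat_lit 3255707850) (nat_lit 152) (nat_lit 18291009878) (nat_lit 76) (nat_lit 14067515763) (nat_lit 24) (nat_lit 5) (nat_lit 26) (nat_lit 5) (nat_lit 25) (nat_lit 4) (nat_lit 416) (nat_lit 288) (nat_lit 196)))) (XT.nd (nat_lit 78) (nat_lit 76) (nat_lit 0) (XT.lf (nat_lit 0) (nat_lit 9458360441) (nat_lit 152) (nat_lit 5750801945) (nat_lit 76) (nat_lit 21266457230) (nat_lit 24) (nat_lit 5) (nat_lit 26) (nat_lit 5) (nat_lit 25) (nat_lit 4) (nat_lit 417) (nat_lit 288) (nat_lit 195)) (XT.nd (nat_lit 78) (nat_lit 0) (nat_lit 0) (XT.lf (nat_lit 0) (nat_lit 7263545062) (nat_lit 76) (nat_lit 8630299738) (nat_lit 152) (nat_lit 21467601965) (nat_lit 23) (nat_lit 5) (nat_lit 24)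 (nat_lit 5) (nat_lit 25) (nat_lit 4) (nat_lit 418) (nat_lit 288) (nat_lit 194)) (XT.lf (nat_lit 0) (nat_lit 20742832656) (nat_lit 76) (nat_lit 1814818382) (nat_lit 152) (nat_lit 15715141916) (nat_lit 23) (nat_lit 5) (nat_lit 24) (nat_lit 5) (nat_lit 25) (nat_lit 4) (nat_lit 419) (nat_lit 288) (nat_lit 193))))) (XT.nd (nat_lit 234) (nat_lit 76) (nat_lit 0) (XT.nd (nat_lit 78) (nat_lit 152) (nat_lit 0) (XT.lf (nat_lit 0) (nat_lit 29449064465) (nat_lit 152) (nat_lit 4677602280) (nat_lit 0) (nat_lit 5083983883) (nat_lit 23) (nat_lit 5) (nat_lit 25) (nat_lit 4) (nat_lit 23) (nat_lit 4) (nat_lit 420) (nat_lit 288) (nat_lit 192)) (XT.nd (nat_lit 78) (nat_lit 76) (nat_lit 0) (XT.lf (nat_lit 0) (nat_lit 8670198411) (nat_lit 76) (nat_lit 27956642501) (nat_lit 76) (nat_lit 3547416338) (nat_lit 22) (nat_lit 4) (nat_lit 23) (nat_lit 5) (nat_lit 23) (nat_lit 4) (nat_lit 421) (nat_lit 288) (nat_lit 191)) (XT.lf (nat_lit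 0) (nat_lit 2823538018) (nat_lit 152) (nat_lit 18720303772) (nat_lit 76) (nat_lit 19621328157) (nat_lit 21) (nat_lit 5) (nat_lit 23) (nat_lit 5) (nat_lit 22) (nat_lit 4) (nat_lit 422) (nat_lit 288) (nat_lit 190)))) (XT.nd (nat_lit 156) (nat_lit 0) (nat_lit 0) (XT.nd (nat_lit 78) (nat_lit 76) (nat_lit 0) (XT.lf (nat_lit 0) (nat_lit 9293285476) (nat_lit 152) (nat_lit 5628327879) (nat_lit 76) (nat_lit 27263775743) (nat_lit 21) (nat_lit 5) (nat_lit 23) (nat_lit 5) (nat_lit 22) (nat_lit 4) (nat_lit 423) (nat_lit 288) (nat_lit 189)) (XT.lf (nat_lit 0) (nat_lit 7972990123) (nat_lit 76) (nat_lit 8040353216) (nat_lit 152) (nat_lit 27221186574) (nat_lit 20) (nat_lit 5) (nat_lit 21) (nat_lit 5) (nat_lit 22) (nat_lit 4) (nat_lit 424) (nat_lit 288) (nat_lit 188))) (XT.nd (nat_lit 78) (nat_lit 0) (nat_lit 0) (XT.lf (nat_lit 0) (nat_lit 22059106288) (nat_lit 76) (nat_lit 912532096) (nat_lit 152) (nat_lit 21342409087)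 (nat_lit 20) (nat_lit 5) (nat_lit 21) (nat_lit 5) (nat_lit 22) (nat_lit 4) (nat_lit 425) (nat_lit 288) (nat_lit 187)) (XT.lf (nat_lit 0) (nat_lit 30180699781) (nat_lit 152) (nat_lit 8957855112) (nat_lit 0) (nat_lit 6286136675) (nat_lit 20) (nat_lit 5) (nat_lit 22) (nat_lit 4) (nat_lit 20) (nat_lit 4) (nat_lit 426) (nat_lit 288) (nat_lit 186)))))) (XT.nd (nat_lit 546) (nat_lit 228) (nat_lit 0) (XT.nd (nat_lit 234) (nat_lit 76) (nat_lit 0) (XT.nd (nat_lit 78) (nat_lit 76) (nat_lit 0) (XT.lf (nat_lit 0) (nat_lit 4785688946) (nat_lit 76) (nat_lit 32856175054) (nat_lit 76) (nat_lit 8925717550) (nat_lit 19) (nat_lit 4) (nat_lit 20) (nat_lit 5) (nat_lit 20) (nat_lit 4) (nat_lit 427) (nat_lit 288) (nat_lit 185)) (XT.nd (nat_lit 78) (nat_lit 76) (nat_lit 0) (XT.lf (nat_lit 0) (nat_lit 19088721759) (nat_lit 76) (nat_lit 26309600294) (nat_lit 76) (nat_lit 2344293860) (nat_lit 19) (nat_lit 4) (nat_lit 20) (nat_lit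 5) (nat_lit 20) (nat_lit 4) (nat_lit 428) (nat_lit 288) (nat_lit 184)) (XT.lf (nat_lit 0) (nat_lit 4329409530) (nat_lit 152) (nat_lit 15210438998) (nat_lit 76) (nat_lit 29412334166) (nat_lit 18) (nat_lit 5) (nat_lit 20) (nat_lit 5) (nat_lit 19) (nat_lit 4) (nat_lit 429) (nat_lit 288) (nat_lit 183)))) (XT.nd (nat_lit 156) (nat_lit 0) (nat_lit 0) (XT.nd (nat_lit 78) (nat_lit 76) (nat_lit 0) (XT.lf (nat_lit 0) (nat_lit 11138120089) (nat_lit 152) (nat_lit 1421605021) (nat_lit 76) (nat_lit 37638158947) (nat_lit 18) (nat_lit 5) (nat_lit 20) (nat_lit 5) (nat_lit 19) (nat_lit 4) (nat_lit 430) (nat_lit 288) (nat_lit 182)) (XT.lf (nat_lit 0) (nat_lit 13000885154) (nat_lit 76) (nat_lit 5257620099) (nat_lit 152) (nat_lit 33219230096) (nat_lit 17) (nat_lit 5) (nat_lit 18) (nat_lit 5) (nat_lit 19) (nat_lit 4) (nat_lit 431) (nat_lit 288) (nat_lit 181))) (XT.nd (nat_lit 78) (nat_lit 0) (nat_lit 0) (XT.lf (nat_lit 0) (nat_lit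 25611235761) (nat_lit 152) (nat_lit 24966001676) (nat_lit 0) (nat_lit 2218183980) (nat_lit 17) (nat_lit 5) (nat_lit 19) (nat_lit 4) (nat_lit 17) (nat_lit 4) (nat_lit 432) (nat_lit 288) (nat_lit 180)) (XT.lf (nat_lit 0) (nat_lit 33219591811) (nat_lit 152) (nat_lit 11134641560) (nat_lit 0) (nat_lit 9797354600) (nat_lit 17) (nat_lit 5) (nat_lit 19) (nat_lit 4) (nat_lit 17) (nat_lit 4) (nat_lit 433) (nat_lit 288) (nat_lit 179))))) (XT.nd (nat_lit 234) (nat_lit 152) (nat_lit 0) (XT.nd (nat_lit 78) (nat_lit 0) (nat_lit 0) (XT.lf (nat_lit 0) (nat_lit 3141150426) (nat_lit 76) (nat_lit 37928726254) (nat_lit 76) (nat_lit 14478153674) (nat_lit 16) (nat_lit 4) (nat_lit 17) (nat_lit 5) (nat_lit 17) (nat_lit 4) (nat_lit 434) (nat_lit 288) (nat_lit 178)) (XT.nd (nat_lit 78) (nat_lit 0) (nat_lit 0) (XT.lf (nat_lit 0) (nat_lit 18041973120) (nat_lit 76) (nat_lit 31209796841) (nat_lit 76) (nat_lit 7731714195) (nat_lit 16)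 (nat_lit 4) (nat_lit 17) (nat_lit 5) (nat_lit 17) (nat_lit 4) (nat_lit 435) (nat_lit 288) (nat_lit 177)) (XT.lf (nat_lit 0) (nat_lit 33359245459) (nat_lit 76) (nat_lit 24304012271) (nat_lit 76) (nat_lit 799220822) (nat_lit 16) (nat_lit 4) (nat_lit 17) (nat_lit 5) (nat_lit 17) (nat_lit 4) (nat_lit 436) (nat_lit 288) (nat_lit 176)))) (XT.nd (nat_lit 156) (nat_lit 0) (nat_lit 0) (XT.nd (nat_lit 78) (nat_lit 76) (nat_lit 0) (XT.lf (nat_lit 0) (nat_lit 6201952938) (nat_lit 152) (nat_lit 10940757861) (nat_lit 76) (nat_lit 42841770966) (nat_lit 15) (nat_lit 5) (nat_lit 17) (nat_lit 5) (nat_lit 16) (nat_lit 4) (nat_lit 437) (nat_lit 288) (nat_lit 175)) (XT.lf (nat_lit 0) (nat_lit 3681394359) (nat_lit 76) (nat_lit 9735991006) (nat_lit 152) (nat_lit 48133914720) (nat_lit 14) (nat_lit 5) (nat_lit 15) (nat_lit 5) (nat_lit 16) (nat_lit 4) (nat_lit 438) (nat_lit 288) (nat_lit 174))) (XT.nd (nat_lit 78) (nat_lit 0) (nat_lit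 0) (XT.lf (nat_lit 0) (nat_lit 18937650005) (nat_lit 76) (nat_lit 2007172791) (nat_lit 152) (nat_lit 42217434886) (nat_lit 14) (nat_lit 5) (nat_lit 15) (nat_lit 5) (nat_lit 16) (nat_lit 4) (nat_lit 439) (nat_lit 288) (nat_lit 173)) (XT.lf (nat_lit 0) (nat_lit 28740679347) (nat_lit 152) (nat_lit 30255481882) (nat_lit 0) (nat_lit 5824105855) (nat_lit 14) (nat_lit 5) (nat_lit 16) (nat_lit 4) (nat_lit 14) (nat_lit 4) (nat_lit 440) (nat_lit 288) (nat_lit 172))))))))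
noncomputable def xc76 : XT := (XT.nd (nat_lit 39078) (nat_lit 0) (nat_lit 5320) (XT.nd (nat_lit 37986) (nat_lit 0) (nat_lit 11704) (XT.nd (nat_lit 468) (nat_lit 76) (nat_lit 0) (XT.nd (nat_lit 234) (nat_lit 76) (nat_lit 0) (XT.nd (nat_lit 78) (nat_lit 76) (nat_lit 0) (XT.lf (nat_lit 0) (nat_lit 36776078007) (nat_lit 152) (nat_lit 15914633385) (nat_lit 0) (nat_lit 13837136313) (nat_lit 14) (nat_lit 5) (nat_lit 16) (nat_lit 4) (nat_lit 14) (nat_lit 4) (nat_lit 441) (nat_lit 288) (nat_lit 171)) (XT.nd (nat_lit 78) (nat_lit 76) (nat_lit 0) (XT.lf (nat_lit 0) (nat_lit 45038745826) (nat_lit 152) (nat_lit 1170237174) (nat_lit 0) (nat_lit 22078087431) (nat_lit 14) (nat_lit 5) (nat_lit 16) (nat_lit 4) (nat_lit 14) (nat_lit 4) (nat_lit 442) (nat_lit 288) (nat_lit 170)) (XT.lf (nat_lit 0) (nat_lit 14269030378) (nat_lit 76) (nat_lit 39404034881) (nat_lit 76) (nat_lit 16422292310) (nat_lit 13) (nat_lit 4) (nat_lit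 14) (nat_lit 5) (nat_lit 14) (nat_lit 4) (nat_lit 443) (nat_lit 288) (nat_lit 169)))) (XT.nd (nat_lit 78) (nat_lit 76) (nat_lit 0) (XT.lf (nat_lit 0) (nat_lit 30169817882) (nat_lit 76) (nat_lit 32395165924) (nat_lit 76) (nat_lit 9392953280) (nat_lit 13) (nat_lit 4) (nat_lit 14) (nat_lit 5) (nat_lit 14) (nat_lit 4) (nat_lit 444) (nat_lit 288) (nat_lit 168)) (XT.nd (nat_lit 78) (nat_lit 76) (nat_lit 0) (XT.lf (nat_lit 0) (nat_lit 46522729213) (nat_lit 76) (nat_lit 25188068977) (nat_lit 76) (nat_lit 2165982475) (nat_lit 13) (nat_lit 4) (nat_lit 14) (nat_lit 5) (nat_lit 14) (nat_lit 4) (nat_lit 445) (nat_lit 288) (nat_lit 167)) (XT.lf (nat_lit 0) (nat_lit 5162197088) (nat_lit 152) (nat_lit 12562121420) (nat_lit 76) (nat_lit 58127728166) (nat_lit 12) (nat_lit 5) (nat_lit 14) (nat_lit 5) (nat_lit 13) (nat_lit 4) (nat_lit 446) (nat_lit 288) (nat_lit 166))))) (XT.nd (nat_lit 37206) (nat_lit 0) (nat_lit 18164) (XT.nd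 (nat_lit 78) (nat_lit 0) (nat_lit 0) (XT.lf (nat_lit 0) (nat_lit 2680716693) (nat_lit 76) (nat_lit 9999495730) (nat_lit 152) (nat_lit 65205309901) (nat_lit 11) (nat_lit 5) (nat_lit 12) (nat_lit 5) (nat_lit 13) (nat_lit 4) (nat_lit 447) (nat_lit 288) (nat_lit 165)) (XT.nd (nat_lit 37050) (nat_lit 0) (nat_lit 20520) (XT.lf (nat_lit 0) (nat_lit 18614868735) (nat_lit 76) (nat_lit 1923638977) (nat_lit 152) (nat_lit 59438053079) (nat_lit 11) (nat_lit 5) (nat_lit 12) (nat_lit 5) (nat_lit 13) (nat_lit 4) (nat_lit 448) (nat_lit 288) (nat_lit 164)) (XT.lf (nat_lit 0) (nat_lit 215250592) (nat_lit 988) (nat_lit 1635265253) (nat_lit 988) (nat_lit 1635265253) (nat_lit 281) (nat_lit 4) (nat_lit 294) (nat_lit 5) (nat_lit 294) (nat_lit 4) (nat_lit 322) (nat_lit 289) (nat_lit 289)))) (XT.nd (nat_lit 156) (nat_lit 1216) (nat_lit 0) (XT.nd (nat_lit 78) (nat_lit 1064) (nat_lit 0) (XT.lf (nat_lit 0) (nat_lit 69543580) (nat_lit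 1064) (nat_lit 1688516698) (nat_lit 76) (nat_lit 5263845811) (nat_lit 280) (nat_lit 5) (nat_lit 294) (nat_lit 5) (nat_lit 281) (nat_lit 4) (nat_lit 323) (nat_lit 289) (nat_lit 288)) (XT.lf (nat_lit 0) (nat_lit 3243945307) (nat_lit 1064) (nat_lit 130455526) (nat_lit 1140) (nat_lit 3700550245) (nat_lit 266) (nat_lit 5) (nat_lit 280) (nat_lit 5) (nat_lit 281) (nat_lit 4) (nat_lit 324) (nat_lit 289) (nat_lit 287))) (XT.nd (nat_lit 78) (nat_lit 76) (nat_lit 0) (XT.lf (nat_lit 0) (nat_lit 1138405554) (nat_lit 1140) (nat_lit 5584203838) (nat_lit 1140) (nat_lit 408721457) (nat_lit 251) (nat_lit 4) (nat_lit 266) (nat_lit 5) (nat_lit 266) (nat_lit 4) (nat_lit 325) (nat_lit 289) (nat_lit 286)) (XT.lf (nat_lit 0) (nat_lit 2866131063) (nat_lit 1216) (nat_lit 982892335) (nat_lit 76) (nat_lit 3341310642) (nat_lit 250) (nat_lit 5) (nat_lit 266) (nat_lit 5) (nat_lit 251) (nat_lit 4) (nat_lit 326) (nat_lit 289) (nat_lit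 285)))))) (XT.nd (nat_lit 546) (nat_lit 2660) (nat_lit 0) (XT.nd (nat_lit 234) (nat_lit 1900) (nat_lit 0) (XT.nd (nat_lit 78) (nat_lit 684) (nat_lit 0) (XT.lf (nat_lit 0) (nat_lit 4157687662) (nat_lit 1216) (nat_lit 2018239858) (nat_lit 1292) (nat_lit 1076774699) (nat_lit 234) (nat_lit 5) (nat_lit 250) (nat_lit 5) (nat_lit 251) (nat_lit 4) (nat_lit 327) (nat_lit 289) (nat_lit 284)) (XT.nd (nat_lit 78) (nat_lit 0) (nat_lit 0) (XT.lf (nat_lit 0) (nat_lit 2076791107) (nat_lit 608) (nat_lit 82824263) (nat_lit 684) (nat_lit 5158658128) (nat_lit 225) (nat_lit 5) (nat_lit 233) (nat_lit 5) (nat_lit 234) (nat_lit 5) (nat_lit 328) (nat_lit 289) (nat_lit 283)) (XT.lf (nat_lit 0) (nat_lit 5428963902) (nat_lit 684) (nat_lit 46666829) (nat_lit 76) (nat_lit 1911194372) (nat_lit 225) (nat_lit 5) (nat_lit 234) (nat_lit 5) (nat_lit 226) (nat_lit 4) (nat_lit 329) (nat_lit 289) (nat_lit 282)))) (XT.nd (nat_lit 156) (nat_lit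 608) (nat_lit 0) (XT.nd (nat_lit 78) (nat_lit 608) (nat_lit 0) (XT.lf (nat_lit 0) (nat_lit 1274536067) (nat_lit 684) (nat_lit 2161078858) (nat_lit 76) (nat_lit 4022636014) (nat_lit 216) (nat_lit 5) (nat_lit 225) (nat_lit 5) (nat_lit 217) (nat_lit 5) (nat_lit 330) (nat_lit 289) (nat_lit 281)) (XT.lf (nat_lit 0) (nat_lit 3216223904) (nat_lit 608) (nat_lit 1290760882) (nat_lit 684) (nat_lit 3026033645) (nat_lit 208) (nat_lit 5) (nat_lit 216) (nat_lit 5) (nat_lit 217) (nat_lit 5) (nat_lit 331) (nat_lit 289) (nat_lit 280))) (XT.nd (nat_lit 78) (nat_lit 0) (nat_lit 0) (XT.lf (nat_lit 0) (nat_lit 175535425) (nat_lit 608) (nat_lit 6510176678) (nat_lit 76) (nat_lit 925694597) (nat_lit 200) (nat_lit 5) (nat_lit 208) (nat_lit 5) (nat_lit 201) (nat_lit 5) (nat_lit 332) (nat_lit 289) (nat_lit 279)) (XT.lf (nat_lit 0) (nat_lit 3382446045) (nat_lit 608) (nat_lit 1063774491) (nat_lit 76) (nat_lit 3245972631) (nat_lit 200)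 (nat_lit 5) (nat_lit 208) (nat_lit 5) (nat_lit 201) (nat_lit 5) (nat_lit 333) (nat_lit 289) (nat_lit 278))))) (XT.nd (nat_lit 234) (nat_lit 1064) (nat_lit 0) (XT.nd (nat_lit 78) (nat_lit 1064) (nat_lit 0) (XT.lf (nat_lit 0) (nat_lit 4537426500) (nat_lit 532) (nat_lit 2107591080) (nat_lit 608) (nat_lit 1131649432) (nat_lit 193) (nat_lit 5) (nat_lit 200) (nat_lit 5) (nat_lit 201) (nat_lit 5) (nat_lit 334) (nat_lit 289) (nat_lit 277)) (XT.nd (nat_lit 78) (nat_lit 532) (nat_lit 0) (XT.lf (nat_lit 0) (nat_lit 2053647316) (nat_lit 532) (nat_lit 5474653347) (nat_lit 76) (nat_lit 336191931) (nat_lit 186) (nat_lit 5) (nat_lit 193) (nat_lit 5) (nat_lit 187) (nat_lit 5) (nat_lit 335) (nat_lit 289) (nat_lit 276)) (XT.lf (nat_lit 0) (nat_lit 171890564) (nat_lit 532) (nat_lit 5113278092) (nat_lit 608) (nat_lit 2670289205) (nat_lit 179) (nat_lit 5) (nat_lit 186) (nat_lit 5) (nat_lit 187) (nat_lit 5) (nat_lit 336) (nat_lit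 289) (nat_lit 275)))) (XT.nd (nat_lit 156) (nat_lit 532) (nat_lit 0) (XT.nd (nat_lit 78) (nat_lit 456) (nat_lit 0) (XT.lf (nat_lit 0) (nat_lit 527763578) (nat_lit 608) (nat_lit 2053390565) (nat_lit 76) (nat_lit 5468647185) (nat_lit 178) (nat_lit 5) (nat_lit 186) (nat_lit 5) (nat_lit 179) (nat_lit 5) (nat_lit 337) (nat_lit 289) (nat_lit 274)) (XT.lf (nat_lit 0) (nat_lit 3726158676) (nat_lit 532) (nat_lit 4348886749) (nat_lit 76) (nat_lit 72434084) (nat_lit 172) (nat_lit 5) (nat_lit 179) (nat_lit 5) (nat_lit 173) (nat_lit 5) (nat_lit 338) (nat_lit 289) (nat_lit 273))) (XT.nd (nat_lit 78) (nat_lit 76) (nat_lit 0) (XT.lf (nat_lit 0) (nat_lit 1526476618) (nat_lit 456) (nat_lit 5477243731) (nat_lit 532) (nat_lit 1244909778) (nat_lit 166) (nat_lit 5) (nat_lit 172) (nat_lit 5) (nat_lit 173) (nat_lit 5) (nat_lit 339) (nat_lit 289) (nat_lit 272)) (XT.lf (nat_lit 0) (nat_lit 1954177871) (nat_lit 532) (nat_lit 803091062)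 (nat_lit 76) (nat_lit 5595990141) (nat_lit 165) (nat_lit 5) (nat_lit 172) (nat_lit 5) (nat_lit 166) (nat_lit 5) (nat_lit 340) (nat_lit 289) (nat_lit 271))))))) (XT.nd (nat_lit 1014) (nat_lit 2584) (nat_lit 0) (XT.nd (nat_lit 468) (nat_lit 1748) (nat_lit 0) (XT.nd (nat_lit 234) (nat_lit 760) (nat_lit 0) (XT.nd (nat_lit 78) (nat_lit 912) (nat_lit 0) (XT.lf (nat_lit 0) (nat_lit 5200741349) (nat_lit 456) (nat_lit 3173903290) (nat_lit 76) (nat_lit 86752002) (nat_lit 160) (nat_lit 5) (nat_lit 166) (nat_lit 5) (nat_lit 161) (nat_lit 5) (nat_lit 341) (nat_lit 289) (nat_lit 270)) (XT.nd (nat_lit 78) (nat_lit 456) (nat_lit 0) (XT.lf (nat_lit 0) (nat_lit 2937515908) (nat_lit 456) (nat_lit 5596822794) (nat_lit 532) (nat_lit 38784762) (nat_lit 154) (nat_lit 5) (nat_lit 160) (nat_lit 5) (nat_lit 161) (nat_lit 5) (nat_lit 342) (nat_lit 289) (nat_lit 269)) (XT.lf (nat_lit 0) (nat_lit 490125620) (nat_lit 380) (nat_lit 2689085060)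 (nat_lit 456) (nat_lit 5509173825) (nat_lit 148) (nat_lit 5) (nat_lit 153) (nat_lit 5) (nat_lit 154) (nat_lit 5) (nat_lit 343) (nat_lit 289) (nat_lit 268)))) (XT.nd (nat_lit 78) (nat_lit 760) (nat_lit 0) (XT.lf (nat_lit 0) (nat_lit 6480748454) (nat_lit 456) (nat_lit 1992833479) (nat_lit 76) (nat_lit 333907798) (nat_lit 148) (nat_lit 5) (nat_lit 154) (nat_lit 5) (nat_lit 149) (nat_lit 5) (nat_lit 344) (nat_lit 289) (nat_lit 267)) (XT.nd (nat_lit 78) (nat_lit 304) (nat_lit 0) (XT.lf (nat_lit 0) (nat_lit 930588491) (nat_lit 456) (nat_lit 4577973956) (nat_lit 76) (nat_lit 3421421358) (nat_lit 142) (nat_lit 5) (nat_lit 148) (nat_lit 5) (nat_lit 143) (nat_lit 5) (nat_lit 345) (nat_lit 289) (nat_lit 266)) (XT.lf (nat_lit 0) (nat_lit 1787837534) (nat_lit 304) (nat_lit 2418455094) (nat_lit 380) (nat_lit 4850175046) (nat_lit 138) (nat_lit 5) (nat_lit 142) (nat_lit 5) (nat_lit 143) (nat_lit 5) (nat_lit 346) (nat_lit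 289) (nat_lit 265))))) (XT.nd (nat_lit 234) (nat_lit 988) (nat_lit 0) (XT.nd (nat_lit 78) (nat_lit 760) (nat_lit 0) (XT.lf (nat_lit 0) (nat_lit 7565083392) (nat_lit 380) (nat_lit 851909658) (nat_lit 76) (nat_lit 770236382) (nat_lit 138) (nat_lit 5) (nat_lit 143) (nat_lit 5) (nat_lit 139) (nat_lit 5) (nat_lit 347) (nat_lit 289) (nat_lit 264)) (XT.nd (nat_lit 78) (nat_lit 304) (nat_lit 0) (XT.lf (nat_lit 0) (nat_lit 1681617263) (nat_lit 456) (nat_lit 3586853687) (nat_lit 76) (nat_lit 4052614714) (nat_lit 132) (nat_lit 5) (nat_lit 138) (nat_lit 5) (nat_lit 133) (nat_lit 5) (nat_lit 348) (nat_lit 289) (nat_lit 263)) (XT.lf (nat_lit 0) (nat_lit 3024788870) (nat_lit 304) (nat_lit 1998041202) (nat_lit 380) (nat_lit 4436542957) (nat_lit 128) (nat_lit 5) (nat_lit 132) (nat_lit 5) (nat_lit 133) (nat_lit 5) (nat_lit 349) (nat_lit 289) (nat_lit 262)))) (XT.nd (nat_lit 156) (nat_lit 608) (nat_lit 0) (XT.nd (nat_lit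 78) (nat_lit 76) (nat_lit 0) (XT.lf (nat_lit 0) (nat_lit 202392188) (nat_lit 304) (nat_lit 8247535463) (nat_lit 380) (nat_lit 1152336646) (nat_lit 124) (nat_lit 5) (nat_lit 128) (nat_lit 5) (nat_lit 129) (nat_lit 5) (nat_lit 350) (nat_lit 289) (nat_lit 261)) (XT.lf (nat_lit 0) (nat_lit 2206571634) (nat_lit 380) (nat_lit 2714981733) (nat_lit 76) (nat_lit 4826678089) (nat_lit 123) (nat_lit 5) (nat_lit 128) (nat_lit 5) (nat_lit 124) (nat_lit 5) (nat_lit 351) (nat_lit 289) (nat_lit 260))) (XT.nd (nat_lit 78) (nat_lit 304) (nat_lit 0) (XT.lf (nat_lit 0) (nat_lit 4146757089) (nat_lit 304) (nat_lit 1472400350) (nat_lit 380) (nat_lit 4279818414) (nat_lit 119) (nat_lit 5) (nat_lit 123) (nat_lit 5) (nat_lit 124) (nat_lit 5) (nat_lit 352) (nat_lit 289) (nat_lit 259)) (XT.lf (nat_lit 0) (nat_lit 1124337861) (nat_lit 304) (nat_lit 8005172033) (nat_lit 380) (nat_lit 924892993) (nat_lit 115) (nat_lit 5) (nat_lit 119)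 (nat_lit 5) (nat_lit 120) (nat_lit 5) (nat_lit 353) (nat_lit 289) (nat_lit 258)))))) (XT.nd (nat_lit 546) (nat_lit 1216) (nat_lit 0) (XT.nd (nat_lit 234) (nat_lit 684) (nat_lit 0) (XT.nd (nat_lit 78) (nat_lit 608) (nat_lit 0) (XT.lf (nat_lit 0) (nat_lit 2491742019) (nat_lit 380) (nat_lit 2021390193) (nat_lit 76) (nat_lit 5700338103) (nat_lit 114) (nat_lit 5) (nat_lit 119) (nat_lit 5) (nat_lit 115) (nat_lit 5) (nat_lit 354) (nat_lit 289) (nat_lit 257)) (XT.nd (nat_lit 78) (nat_lit 304) (nat_lit 0) (XT.lf (nat_lit 0) (nat_lit 5093254589) (nat_lit 304) (nat_lit 887025569) (nat_lit 380) (nat_lit 4397135194) (nat_lit 110) (nat_lit 5) (nat_lit 114) (nat_lit 5) (nat_lit 115) (nat_lit 5) (nat_lit 355) (nat_lit 289) (nat_lit 256)) (XT.lf (nat_lit 0) (nat_lit 1833151727) (nat_lit 304) (nat_lit 7745578511) (nat_lit 380) (nat_lit 967410354) (nat_lit 106) (nat_lit 5) (nat_lit 110) (nat_lit 5) (nat_lit 111) (nat_lit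 5) (nat_lit 356) (nat_lit 289) (nat_lit 255)))) (XT.nd (nat_lit 156) (nat_lit 380) (nat_lit 0) (XT.nd (nat_lit 78) (nat_lit 228) (nat_lit 0) (XT.lf (nat_lit 0) (nat_lit 2517738404) (nat_lit 380) (nat_lit 1572453881) (nat_lit 76) (nat_lit 6628936302) (nat_lit 105) (nat_lit 5) (nat_lit 110) (nat_lit 5) (nat_lit 106) (nat_lit 5) (nat_lit 357) (nat_lit 289) (nat_lit 254)) (XT.lf (nat_lit 0) (nat_lit 5796052028) (nat_lit 228) (nat_lit 289328938) (nat_lit 304) (nat_lit 4811734274) (nat_lit 102) (nat_lit 5) (nat_lit 105) (nat_lit 5) (nat_lit 106) (nat_lit 5) (nat_lit 358) (nat_lit 289) (nat_lit 253))) (XT.nd (nat_lit 78) (nat_lit 76) (nat_lit 0) (XT.lf (nat_lit 0) (nat_lit 2256578716) (nat_lit 304) (nat_lit 7518263546) (nat_lit 380) (nat_lit 1305172895) (nat_lit 98) (nat_lit 5) (nat_lit 102) (nat_lit 5) (nat_lit 103) (nat_lit 5) (nat_lit 359) (nat_lit 289) (nat_lit 252)) (XT.lf (nat_lit 0) (nat_lit 2258914611)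 (nat_lit 380) (nat_lit 1443491762) (nat_lit 76) (nat_lit 7565426709) (nat_lit 97) (nat_lit 5) (nat_lit 102) (nat_lit 5) (nat_lit 98) (nat_lit 5) (nat_lit 360) (nat_lit 289) (nat_lit 251))))) (XT.nd (nat_lit 234) (nat_lit 684) (nat_lit 0) (XT.nd (nat_lit 78) (nat_lit 304) (nat_lit 0) (XT.lf (nat_lit 0) (nat_lit 5909802177) (nat_lit 304) (nat_lit 5285898311) (nat_lit 76) (nat_lit 265029954) (nat_lit 94) (nat_lit 5) (nat_lit 98) (nat_lit 5) (nat_lit 95) (nat_lit 5) (nat_lit 361) (nat_lit 289) (nat_lit 250)) (XT.nd (nat_lit 78) (nat_lit 76) (nat_lit 0) (XT.lf (nat_lit 0) (nat_lit 2312172112) (nat_lit 228) (nat_lit 7376260482) (nat_lit 304) (nat_lit 1970451057) (nat_lit 91) (nat_lit 5) (nat_lit 94) (nat_lit 5) (nat_lit 95) (nat_lit 5) (nat_lit 362) (nat_lit 289) (nat_lit 249)) (XT.lf (nat_lit 0) (nat_lit 1682660461) (nat_lit 304) (nat_lit 1720585972) (nat_lit 76) (nat_lit 8459292274) (nat_lit 90) (nat_lit 5)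 (nat_lit 94) (nat_lit 5) (nat_lit 91) (nat_lit 5) (nat_lit 363) (nat_lit 289) (nat_lit 248)))) (XT.nd (nat_lit 156) (nat_lit 228) (nat_lit 0) (XT.nd (nat_lit 78) (nat_lit 228) (nat_lit 0) (XT.lf (nat_lit 0) (nat_lit 5418388774) (nat_lit 304) (nat_lit 5929982330) (nat_lit 76) (nat_lit 722982308) (nat_lit 87) (nat_lit 5) (nat_lit 91) (nat_lit 5) (nat_lit 88) (nat_lit 5) (nat_lit 364) (nat_lit 289) (nat_lit 247)) (XT.lf (nat_lit 0) (nat_lit 1905290407) (nat_lit 228) (nat_lit 7377318533) (nat_lit 304) (nat_lit 3003344712) (nat_lit 84) (nat_lit 5) (nat_lit 87) (nat_lit 5) (nat_lit 88) (nat_lit 5) (nat_lit 365) (nat_lit 289) (nat_lit 246))) (XT.nd (nat_lit 78) (nat_lit 152) (nat_lit 0) (XT.lf (nat_lit 0) (nat_lit 748545044) (nat_lit 304) (nat_lit 2502657975) (nat_lit 76) (nat_lit 9255357977) (nat_lit 83) (nat_lit 5) (nat_lit 87) (nat_lit 5) (nat_lit 84) (nat_lit 5) (nat_lit 366) (nat_lit 289) (nat_lit 245)) (XT.lf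 (nat_lit 0) (nat_lit 4565235456) (nat_lit 228) (nat_lit 7135835403) (nat_lit 76) (nat_lit 1031457904) (nat_lit 81) (nat_lit 5) (nat_lit 84) (nat_lit 5) (nat_lit 82) (nat_lit 5) (nat_lit 367) (nat_lit 289) (nat_lit 244))))))))
noncomputable def xc77 : XT := (XT.nd (nat_lit 2106) (nat_lit 1444) (nat_lit 0) (XT.nd (nat_lit 1014) (nat_lit 1216) (nat_lit 0) (XT.nd (nat_lit 468) (nat_lit 836) (nat_lit 0) (XT.nd (nat_lit 234) (nat_lit 456) (nat_lit 0) (XT.nd (nat_lit 78) (nat_lit 228) (nat_lit 0) (XT.lf (nat_lit 0) (nat_lit 926804824) (nat_lit 228) (nat_lit 7585220608) (nat_lit 304) (nat_lit 4452794334) (nat_lit 78) (nat_lit 5) (nat_lit 81) (nat_lit 5) (nat_lit 82) (nat_lit 5) (nat_lit 368) (nat_lit 289) (nat_lit 243)) (XT.nd (nat_lit 78) (nat_lit 228) (nat_lit 0) (XT.lf (nat_lit 0) (nat_lit 9293781795) (nat_lit 228) (nat_lit 3305153171) (nat_lit 304) (nat_lit 604504869) (nat_lit 78) (nat_lit 5) (nat_lit 81) (nat_lit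 5) (nat_lit 82) (nat_lit 5) (nat_lit 369) (nat_lit 289) (nat_lit 242)) (XT.lf (nat_lit 0) (nat_lit 3297968171) (nat_lit 228) (nat_lit 9025075954) (nat_lit 76) (nat_lit 1125088218) (nat_lit 75) (nat_lit 5) (nat_lit 78) (nat_lit 5) (nat_lit 76) (nat_lit 5) (nat_lit 370) (nat_lit 289) (nat_lit 241)))) (XT.nd (nat_lit 78) (nat_lit 456) (nat_lit 0) (XT.lf (nat_lit 0) (nat_lit 7328927721) (nat_lit 228) (nat_lit 734906636) (nat_lit 76) (nat_lit 5635455655) (nat_lit 75) (nat_lit 5) (nat_lit 78) (nat_lit 5) (nat_lit 76) (nat_lit 5) (nat_lit 371) (nat_lit 289) (nat_lit 240)) (XT.nd (nat_lit 78) (nat_lit 228) (nat_lit 0) (XT.lf (nat_lit 0) (nat_lit 7877371573) (nat_lit 228) (nat_lit 3631561946) (nat_lit 304) (nat_lit 2448215865) (nat_lit 72) (nat_lit 5) (nat_lit 75) (nat_lit 5) (nat_lit 76) (nat_lit 5) (nat_lit 372) (nat_lit 289) (nat_lit 239)) (XT.lf (nat_lit 0) (nat_lit 1553662473) (nat_lit 228) (nat_lit 11738532332)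 (nat_lit 76) (nat_lit 930306886) (nat_lit 69) (nat_lit 5) (nat_lit 72) (nat_lit 5) (nat_lit 70) (nat_lit 5) (nat_lit 373) (nat_lit 289) (nat_lit 238))))) (XT.nd (nat_lit 234) (nat_lit 608) (nat_lit 0) (XT.nd (nat_lit 78) (nat_lit 228) (nat_lit 0) (XT.lf (nat_lit 0) (nat_lit 5677190958) (nat_lit 228) (nat_lit 3206307181) (nat_lit 76) (nat_lit 5610074825) (nat_lit 69) (nat_lit 5) (nat_lit 72) (nat_lit 5) (nat_lit 70) (nat_lit 5) (nat_lit 374) (nat_lit 289) (nat_lit 237)) (XT.nd (nat_lit 78) (nat_lit 0) (nat_lit 0) (XT.lf (nat_lit 0) (nat_lit 5612978048) (nat_lit 228) (nat_lit 4319618899) (nat_lit 304) (nat_lit 4839943604) (nat_lit 66) (nat_lit 5) (nat_lit 69) (nat_lit 5) (nat_lit 70) (nat_lit 5) (nat_lit 375) (nat_lit 289) (nat_lit 236)) (XT.lf (nat_lit 0) (nat_lit 14306518272) (nat_lit 304) (nat_lit 379042476) (nat_lit 76) (nat_lit 374599876) (nat_lit 66) (nat_lit 5) (nat_lit 70) (nat_lit 5) (nat_lit 67)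 (nat_lit 4) (nat_lit 376) (nat_lit 289) (nat_lit 235)))) (XT.nd (nat_lit 156) (nat_lit 228) (nat_lit 0) (XT.nd (nat_lit 78) (nat_lit 152) (nat_lit 0) (XT.lf (nat_lit 0) (nat_lit 3470996916) (nat_lit 228) (nat_lit 6672202830) (nat_lit 76) (nat_lit 5209726471) (nat_lit 63) (nat_lit 5) (nat_lit 66) (nat_lit 5) (nat_lit 64) (nat_lit 5) (nat_lit 377) (nat_lit 289) (nat_lit 234)) (XT.lf (nat_lit 0) (nat_lit 2327038375) (nat_lit 152) (nat_lit 5462359640) (nat_lit 228) (nat_lit 7865396089) (nat_lit 61) (nat_lit 5) (nat_lit 63) (nat_lit 5) (nat_lit 64) (nat_lit 5) (nat_lit 378) (nat_lit 289) (nat_lit 233))) (XT.nd (nat_lit 78) (nat_lit 228) (nat_lit 0) (XT.lf (nat_lit 0) (nat_lit 11657217952) (nat_lit 152) (nat_lit 603999747) (nat_lit 228) (nat_lit 3703792376) (nat_lit 61) (nat_lit 5) (nat_lit 63) (nat_lit 5) (nat_lit 64) (nat_lit 5) (nat_lit 379) (nat_lit 289) (nat_lit 232)) (XT.lf (nat_lit 0) (nat_lit 619209488)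 (nat_lit 228) (nat_lit 11326450551) (nat_lit 76) (nat_lit 4337274449) (nat_lit 58) (nat_lit 5) (nat_lit 61) (nat_lit 5) (nat_lit 59) (nat_lit 5) (nat_lit 380) (nat_lit 289) (nat_lit 231)))))) (XT.nd (nat_lit 546) (nat_lit 532) (nat_lit 0) (XT.nd (nat_lit 234) (nat_lit 532) (nat_lit 0) (XT.nd (nat_lit 78) (nat_lit 152) (nat_lit 0) (XT.lf (nat_lit 0) (nat_lit 5004932041) (nat_lit 228) (nat_lit 2139878694) (nat_lit 76) (nat_lit 9464268927) (nat_lit 58) (nat_lit 5) (nat_lit 61) (nat_lit 5) (nat_lit 59) (nat_lit 5) (nat_lit 381) (nat_lit 289) (nat_lit 230)) (XT.nd (nat_lit 78) (nat_lit 0) (nat_lit 0) (XT.lf (nat_lit 0) (nat_lit 7394051829) (nat_lit 152) (nat_lit 2158048693) (nat_lit 228) (nat_lit 7392019589) (nat_lit 56) (nat_lit 5) (nat_lit 58) (nat_lit 5) (nat_lit 59) (nat_lit 5) (nat_lit 382) (nat_lit 289) (nat_lit 229)) (XT.lf (nat_lit 0) (nat_lit 14245144694) (nat_lit 228) (nat_lit 132281796) (nat_lit 76)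 (nat_lit 2911508403) (nat_lit 56) (nat_lit 5) (nat_lit 59) (nat_lit 5) (nat_lit 57) (nat_lit 4) (nat_lit 383) (nat_lit 289) (nat_lit 228)))) (XT.nd (nat_lit 156) (nat_lit 152) (nat_lit 0) (XT.nd (nat_lit 78) (nat_lit 152) (nat_lit 0) (XT.lf (nat_lit 0) (nat_lit 1482088914) (nat_lit 228) (nat_lit 7991755514) (nat_lit 76) (nat_lit 8167586363) (nat_lit 53) (nat_lit 5) (nat_lit 56) (nat_lit 5) (nat_lit 54) (nat_lit 5) (nat_lit 384) (nat_lit 289) (nat_lit 227)) (XT.lf (nat_lit 0) (nat_lit 1654755528) (nat_lit 152) (nat_lit 4405361188) (nat_lit 228) (nat_lit 11944160619) (nat_lit 51) (nat_lit 5) (nat_lit 53) (nat_lit 5) (nat_lit 54) (nat_lit 5) (nat_lit 385) (nat_lit 289) (nat_lit 226))) (XT.nd (nat_lit 78) (nat_lit 152) (nat_lit 0) (XT.lf (nat_lit 0) (nat_lit 10825302483) (nat_lit 228) (nat_lit 6700657641) (nat_lit 76) (nat_lit 850560801) (nat_lit 51) (nat_lit 5) (nat_lit 54) (nat_lit 5) (nat_lit 52) (nat_lit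 4) (nat_lit 386) (nat_lit 289) (nat_lit 225)) (XT.lf (nat_lit 0) (nat_lit 3187398800) (nat_lit 152) (nat_lit 12581933798) (nat_lit 228) (nat_lit 2989528550) (nat_lit 49) (nat_lit 5) (nat_lit 51) (nat_lit 5) (nat_lit 52) (nat_lit 4) (nat_lit 387) (nat_lit 289) (nat_lit 224))))) (XT.nd (nat_lit 234) (nat_lit 304) (nat_lit 0) (XT.nd (nat_lit 78) (nat_lit 152) (nat_lit 0) (XT.lf (nat_lit 0) (nat_lit 1705709742) (nat_lit 228) (nat_lit 5727232256) (nat_lit 76) (nat_lit 11718340977) (nat_lit 48) (nat_lit 5) (nat_lit 51) (nat_lit 5) (nat_lit 49) (nat_lit 5) (nat_lit 388) (nat_lit 289) (nat_lit 223)) (XT.nd (nat_lit 78) (nat_lit 0) (nat_lit 0) (XT.lf (nat_lit 0) (nat_lit 4401679792) (nat_lit 152) (nat_lit 2085178856) (nat_lit 228) (nat_lit 13067582108) (nat_lit 46) (nat_lit 5) (nat_lit 48) (nat_lit 5) (nat_lit 49) (nat_lit 5) (nat_lit 389) (nat_lit 289) (nat_lit 222)) (XT.lf (nat_lit 0) (nat_lit 11465742393) (nat_lit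 228) (nat_lit 5116678167) (nat_lit 76) (nat_lit 3385649017) (nat_lit 46) (nat_lit 5) (nat_lit 49) (nat_lit 5) (nat_lit 47) (nat_lit 4) (nat_lit 390) (nat_lit 289) (nat_lit 221)))) (XT.nd (nat_lit 156) (nat_lit 152) (nat_lit 0) (XT.nd (nat_lit 78) (nat_lit 76) (nat_lit 0) (XT.lf (nat_lit 0) (nat_lit 5236881705) (nat_lit 76) (nat_lit 11392164163) (nat_lit 152) (nat_lit 3764014962) (nat_lit 45) (nat_lit 5) (nat_lit 46) (nat_lit 5) (nat_lit 47) (nat_lit 4) (nat_lit 391) (nat_lit 289) (nat_lit 220)) (XT.lf (nat_lit 0) (nat_lit 1110978476) (nat_lit 152) (nat_lit 4899790407) (nat_lit 76) (nat_lit 14819226312) (nat_lit 44) (nat_lit 5) (nat_lit 46) (nat_lit 5) (nat_lit 45) (nat_lit 5) (nat_lit 392) (nat_lit 289) (nat_lit 219))) (XT.nd (nat_lit 78) (nat_lit 0) (nat_lit 0) (XT.lf (nat_lit 0) (nat_lit 5674420427) (nat_lit 152) (nat_lit 401876607) (nat_lit 228) (nat_lit 15202035410) (nat_lit 42) (nat_lit 5) (nat_lit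 44) (nat_lit 5) (nat_lit 45) (nat_lit 5) (nat_lit 393) (nat_lit 289) (nat_lit 218)) (XT.lf (nat_lit 0) (nat_lit 11257535340) (nat_lit 228) (nat_lit 5187971637) (nat_lit 76) (nat_lit 5292608614) (nat_lit 42) (nat_lit 5) (nat_lit 45) (nat_lit 5) (nat_lit 43) (nat_lit 4) (nat_lit 394) (nat_lit 289) (nat_lit 217))))))) (XT.nd (nat_lit 1014) (nat_lit 532) (nat_lit 0) (XT.nd (nat_lit 468) (nat_lit 532) (nat_lit 0) (XT.nd (nat_lit 234) (nat_lit 76) (nat_lit 0) (XT.nd (nat_lit 78) (nat_lit 228) (nat_lit 0) (XT.lf (nat_lit 0) (nat_lit 5583802567) (nat_lit 76) (nat_lit 11034393712) (nat_lit 152) (nat_lit 5592780845) (nat_lit 41) (nat_lit 5) (nat_lit 42) (nat_lit 5) (nat_lit 43) (nat_lit 4) (nat_lit 395) (nat_lit 289) (nat_lit 216)) (XT.nd (nat_lit 78) (nat_lit 228) (nat_lit 0) (XT.lf (nat_lit 0) (nat_lit 16724056991) (nat_lit 76) (nat_lit 5434734035) (nat_lit 152) (nat_lit 538664379) (nat_lit 41) (nat_lit 5) (nat_lit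 42) (nat_lit 5) (nat_lit 43) (nat_lit 4) (nat_lit 396) (nat_lit 289) (nat_lit 215)) (XT.lf (nat_lit 0) (nat_lit 4595224835) (nat_lit 228) (nat_lit 18207927319) (nat_lit 76) (nat_lit 393457453) (nat_lit 38) (nat_lit 5) (nat_lit 41) (nat_lit 5) (nat_lit 39) (nat_lit 4) (nat_lit 397) (nat_lit 289) (nat_lit 214)))) (XT.nd (nat_lit 78) (nat_lit 76) (nat_lit 0) (XT.lf (nat_lit 0) (nat_lit 9954521123) (nat_lit 228) (nat_lit 7426615948) (nat_lit 76) (nat_lit 6326978811) (nat_lit 38) (nat_lit 5) (nat_lit 41) (nat_lit 5) (nat_lit 39) (nat_lit 4) (nat_lit 398) (nat_lit 289) (nat_lit 213)) (XT.nd (nat_lit 78) (nat_lit 0) (nat_lit 0) (XT.lf (nat_lit 0) (nat_lit 3691903759) (nat_lit 76) (nat_lit 11786619178) (nat_lit 152) (nat_lit 8756330451) (nat_lit 37) (nat_lit 5) (nat_lit 38) (nat_lit 5) (nat_lit 39) (nat_lit 4) (nat_lit 399) (nat_lit 289) (nat_lit 212)) (XT.lf (nat_lit 0) (nat_lit 15238515369) (nat_lit 76) (nat_lit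 5973526117) (nat_lit 152) (nat_lit 3564041364) (nat_lit 37) (nat_lit 5) (nat_lit 38) (nat_lit 5) (nat_lit 39) (nat_lit 4) (nat_lit 400) (nat_lit 289) (nat_lit 211))))) (XT.nd (nat_lit 234) (nat_lit 304) (nat_lit 0) (XT.nd (nat_lit 78) (nat_lit 0) (nat_lit 0) (XT.lf (nat_lit 0) (nat_lit 1735736334) (nat_lit 228) (nat_lit 23575161773) (nat_lit 76) (nat_lit 22544157) (nat_lit 34) (nat_lit 5) (nat_lit 37) (nat_lit 5) (nat_lit 35) (nat_lit 4) (nat_lit 401) (nat_lit 289) (nat_lit 210)) (XT.nd (nat_lit 78) (nat_lit 0) (nat_lit 0) (XT.lf (nat_lit 0) (nat_lit 7248793038) (nat_lit 228) (nat_lit 12468244162) (nat_lit 76) (nat_lit 6185652466) (nat_lit 34) (nat_lit 5) (nat_lit 37) (nat_lit 5) (nat_lit 35) (nat_lit 4) (nat_lit 402) (nat_lit 289) (nat_lit 209)) (XT.lf (nat_lit 0) (nat_lit 12897640719) (nat_lit 228) (nat_lit 1083207156) (nat_lit 76) (nat_lit 12509057951) (nat_lit 34) (nat_lit 5) (nat_lit 37) (nat_lit 5)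 (nat_lit 35) (nat_lit 4) (nat_lit 403) (nat_lit 289) (nat_lit 208)))) (XT.nd (nat_lit 156) (nat_lit 228) (nat_lit 0) (XT.nd (nat_lit 78) (nat_lit 0) (nat_lit 0) (XT.lf (nat_lit 0) (nat_lit 10800657056) (nat_lit 76) (nat_lit 7990380728) (nat_lit 152) (nat_lit 8301451386) (nat_lit 33) (nat_lit 5) (nat_lit 34) (nat_lit 5) (nat_lit 35) (nat_lit 4) (nat_lit 404) (nat_lit 289) (nat_lit 207)) (XT.lf (nat_lit 0) (nat_lit 23010282604) (nat_lit 76) (nat_lit 1833481826) (nat_lit 152) (nat_lit 2869912877) (nat_lit 33) (nat_lit 5) (nat_lit 34) (nat_lit 5) (nat_lit 35) (nat_lit 4) (nat_lit 405) (nat_lit 289) (nat_lit 206))) (XT.nd (nat_lit 78) (nat_lit 0) (nat_lit 0) (XT.lf (nat_lit 0) (nat_lit 2757745689) (nat_lit 228) (nat_lit 21098586045) (nat_lit 76) (nat_lit 4493796389) (nat_lit 30) (nat_lit 5) (nat_lit 33) (nat_lit 5) (nat_lit 31) (nat_lit 4) (nat_lit 406) (nat_lit 289) (nat_lit 205)) (XT.lf (nat_lit 0) (nat_lit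 8534897792) (nat_lit 228) (nat_lit 9441807975) (nat_lit 76) (nat_lit 11026966720) (nat_lit 30) (nat_lit 5) (nat_lit 33) (nat_lit 5) (nat_lit 31) (nat_lit 4) (nat_lit 407) (nat_lit 289) (nat_lit 204)))))) (XT.nd (nat_lit 546) (nat_lit 228) (nat_lit 0) (XT.nd (nat_lit 234) (nat_lit 228) (nat_lit 0) (XT.nd (nat_lit 78) (nat_lit 0) (nat_lit 0) (XT.lf (nat_lit 0) (nat_lit 2564162099) (nat_lit 76) (nat_lit 11918887147) (nat_lit 152) (nat_lit 15193846168) (nat_lit 29) (nat_lit 5) (nat_lit 30) (nat_lit 5) (nat_lit 31) (nat_lit 4) (nat_lit 408) (nat_lit 289) (nat_lit 203)) (XT.nd (nat_lit 78) (nat_lit 0) (nat_lit 0) (XT.lf (nat_lit 0) (nat_lit 15073807270) (nat_lit 76) (nat_lit 5604522431) (nat_lit 152) (nat_lit 9689927488) (nat_lit 29) (nat_lit 5) (nat_lit 30) (nat_lit 5) (nat_lit 31) (nat_lit 4) (nat_lit 409) (nat_lit 289) (nat_lit 202)) (XT.lf (nat_lit 0) (nat_lit 27042011814) (nat_lit 152) (nat_lit 3179417167)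 (nat_lit 0) (nat_lit 859457156) (nat_lit 29) (nat_lit 5) (nat_lit 31) (nat_lit 4) (nat_lit 29) (nat_lit 4) (nat_lit 410) (nat_lit 289) (nat_lit 201)))) (XT.nd (nat_lit 156) (nat_lit 76) (nat_lit 0) (XT.nd (nat_lit 78) (nat_lit 0) (nat_lit 0) (XT.lf (nat_lit 0) (nat_lit 1868436347) (nat_lit 152) (nat_lit 22450736682) (nat_lit 76) (nat_lit 7491564778) (nat_lit 27) (nat_lit 5) (nat_lit 29) (nat_lit 5) (nat_lit 28) (nat_lit 4) (nat_lit 411) (nat_lit 289) (nat_lit 200)) (XT.lf (nat_lit 0) (nat_lit 7878905160) (nat_lit 152) (nat_lit 10308812962) (nat_lit 76) (nat_lit 14373356148) (nat_lit 27) (nat_lit 5) (nat_lit 29) (nat_lit 5) (nat_lit 28) (nat_lit 4) (nat_lit 412) (nat_lit 289) (nat_lit 199))) (XT.nd (nat_lit 78) (nat_lit 0) (nat_lit 0) (XT.lf (nat_lit 0) (nat_lit 2193807379) (nat_lit 76) (nat_lit 11872398427) (nat_lit 152) (nat_lit 19267821812) (nat_lit 26) (nat_lit 5) (nat_lit 27) (nat_lit 5) (nat_lit 28)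 (nat_lit 4) (nat_lit 413) (nat_lit 289) (nat_lit 198)) (XT.lf (nat_lit 0) (nat_lit 15236911328) (nat_lit 76) (nat_lit 5282016769) (nat_lit 152) (nat_lit 13608849648) (nat_lit 26) (nat_lit 5) (nat_lit 27) (nat_lit 5) (nat_lit 28) (nat_lit 4) (nat_lit 414) (nat_lit 289) (nat_lit 197))))) (XT.nd (nat_lit 234) (nat_lit 76) (nat_lit 0) (XT.nd (nat_lit 78) (nat_lit 152) (nat_lit 0) (XT.lf (nat_lit 0) (nat_lit 27155919100) (nat_lit 152) (nat_lit 6333595606) (nat_lit 0) (nat_lit 1456107249) (nat_lit 26) (nat_lit 5) (nat_lit 28) (nat_lit 4) (nat_lit 26) (nat_lit 4) (nat_lit 415) (nat_lit 289) (nat_lit 196)) (XT.nd (nat_lit 78) (nat_lit 76) (nat_lit 0) (XT.lf (nat_lit 0) (nat_lit 6633771811) (nat_lit 76) (nat_lit 27451215728) (nat_lit 76) (nat_lit 1700227049) (nat_lit 25) (nat_lit 4) (nat_lit 26) (nat_lit 5) (nat_lit 26) (nat_lit 4) (nat_lit 416) (nat_lit 289) (nat_lit 195)) (XT.lf (nat_lit 0) (nat_lit 4524238835)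 (nat_lit 152) (nat_lit 16616470083) (nat_lit 76) (nat_lit 15506724019) (nat_lit 24) (nat_lit 5) (nat_lit 26) (nat_lit 5) (nat_lit 25) (nat_lit 4) (nat_lit 417) (nat_lit 289) (nat_lit 194)))) (XT.nd (nat_lit 156) (nat_lit 0) (nat_lit 0) (XT.nd (nat_lit 78) (nat_lit 76) (nat_lit 0) (XT.lf (nat_lit 0) (nat_lit 10878868293) (nat_lit 152) (nat_lit 3764811352) (nat_lit 76) (nat_lit 22892007046) (nat_lit 24) (nat_lit 5) (nat_lit 26) (nat_lit 5) (nat_lit 25) (nat_lit 4) (nat_lit 418) (nat_lit 289) (nat_lit 193)) (XT.lf (nat_lit 0) (nat_lit 9618804157) (nat_lit 76) (nat_lit 7876049140) (nat_lit 152) (nat_lit 20953615152) (nat_lit 23) (nat_lit 5) (nat_lit 24) (nat_lit 5) (nat_lit 25) (nat_lit 4) (nat_lit 419) (nat_lit 289) (nat_lit 192))) (XT.nd (nat_lit 78) (nat_lit 0) (nat_lit 0) (XT.lf (nat_lit 0) (nat_lit 23440217385) (nat_lit 76) (nat_lit 885612846) (nat_lit 152) (nat_lit 15062309891) (nat_lit 23) (nat_lit 5)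 (nat_lit 24) (nat_lit 5) (nat_lit 25) (nat_lit 4) (nat_lit 420) (nat_lit 289) (nat_lit 191)) (XT.lf (nat_lit 0) (nat_lit 31401376311) (nat_lit 152) (nat_lit 2780570228) (nat_lit 0) (nat_lit 6172867993) (nat_lit 23) (nat_lit 5) (nat_lit 25) (nat_lit 4) (nat_lit 23) (nat_lit 4) (nat_lit 421) (nat_lit 289) (nat_lit 190))))))))
noncomputable def xc78 : XT := (XT.nd (nat_lit 38922) (nat_lit 0) (nat_lit 9652) (XT.nd (nat_lit 1014) (nat_lit 456) (nat_lit 0) (XT.nd (nat_lit 468) (nat_lit 228) (nat_lit 0) (XT.nd (nat_lit 234) (nat_lit 76) (nat_lit 0) (XT.nd (nat_lit 78) (nat_lit 76) (nat_lit 0) (XT.lf (nat_lit 0) (nat_lit 10947690365) (nat_lit 76) (nat_lit 27835056775) (nat_lit 76) (nat_lit 2564937014) (nat_lit 22) (nat_lit 4) (nat_lit 23) (nat_lit 5) (nat_lit 23) (nat_lit 4) (nat_lit 422) (nat_lit 289) (nat_lit 189)) (XT.nd (nat_lit 78) (nat_lit 0) (nat_lit 0) (XT.lf (nat_lit 0) (nat_lit 3944800875) (nat_lit 152)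 (nat_lit 17302573444) (nat_lit 76) (nat_lit 21121571281) (nat_lit 21) (nat_lit 5) (nat_lit 23) (nat_lit 5) (nat_lit 22) (nat_lit 4) (nat_lit 423) (nat_lit 289) (nat_lit 188)) (XT.lf (nat_lit 0) (nat_lit 10578449784) (nat_lit 152) (nat_lit 3875488937) (nat_lit 76) (nat_lit 28966740743) (nat_lit 21) (nat_lit 5) (nat_lit 23) (nat_lit 5) (nat_lit 22) (nat_lit 4) (nat_lit 424) (nat_lit 289) (nat_lit 187)))) (XT.nd (nat_lit 78) (nat_lit 0) (nat_lit 0) (XT.lf (nat_lit 0) (nat_lit 10115028518) (nat_lit 76) (nat_lit 7374060586) (nat_lit 152) (nat_lit 27012538346) (nat_lit 20) (nat_lit 5) (nat_lit 21) (nat_lit 5) (nat_lit 22) (nat_lit 4) (nat_lit 425) (nat_lit 289) (nat_lit 186)) (XT.nd (nat_lit 78) (nat_lit 0) (nat_lit 0) (XT.lf (nat_lit 0) (nat_lit 24568305391) (nat_lit 76) (nat_lit 58836966) (nat_lit 152) (nat_lit 20987260170) (nat_lit 20) (nat_lit 5) (nat_lit 21) (nat_lit 5) (nat_lit 22) (nat_lit 4) (nat_lit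 426) (nat_lit 289) (nat_lit 185)) (XT.lf (nat_lit 0) (nat_lit 32032552052) (nat_lit 152) (nat_lit 7412976310) (nat_lit 0) (nat_lit 7313437496) (nat_lit 20) (nat_lit 5) (nat_lit 22) (nat_lit 4) (nat_lit 20) (nat_lit 4) (nat_lit 427) (nat_lit 289) (nat_lit 184))))) (XT.nd (nat_lit 234) (nat_lit 76) (nat_lit 0) (XT.nd (nat_lit 78) (nat_lit 76) (nat_lit 0) (XT.lf (nat_lit 0) (nat_lit 6725093535) (nat_lit 76) (nat_lit 32982154358) (nat_lit 76) (nat_lit 8229205889) (nat_lit 19) (nat_lit 4) (nat_lit 20) (nat_lit 5) (nat_lit 20) (nat_lit 4) (nat_lit 428) (nat_lit 289) (nat_lit 183)) (XT.nd (nat_lit 78) (nat_lit 76) (nat_lit 0) (XT.lf (nat_lit 0) (nat_lit 21404911491) (nat_lit 76) (nat_lit 26264222333) (nat_lit 76) (nat_lit 1478425406) (nat_lit 19) (nat_lit 4) (nat_lit 20) (nat_lit 5) (nat_lit 20) (nat_lit 4) (nat_lit 429) (nat_lit 289) (nat_lit 182)) (XT.lf (nat_lit 0) (nat_lit 5350484718) (nat_lit 152) (nat_lit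 13956204655) (nat_lit 76) (nat_lit 31087257695) (nat_lit 18) (nat_lit 5) (nat_lit 20) (nat_lit 5) (nat_lit 19) (nat_lit 4) (nat_lit 430) (nat_lit 289) (nat_lit 181)))) (XT.nd (nat_lit 156) (nat_lit 0) (nat_lit 0) (XT.nd (nat_lit 78) (nat_lit 0) (nat_lit 0) (XT.lf (nat_lit 0) (nat_lit 200382757) (nat_lit 76) (nat_lit 12139042963) (nat_lit 152) (nat_lit 39338316581) (nat_lit 17) (nat_lit 5) (nat_lit 18) (nat_lit 5) (nat_lit 19) (nat_lit 4) (nat_lit 431) (nat_lit 289) (nat_lit 180)) (XT.lf (nat_lit 0) (nat_lit 15035355825) (nat_lit 76) (nat_lit 4626746773) (nat_lit 152) (nat_lit 33334227977) (nat_lit 17) (nat_lit 5) (nat_lit 18) (nat_lit 5) (nat_lit 19) (nat_lit 4) (nat_lit 432) (nat_lit 289) (nat_lit 179))) (XT.nd (nat_lit 78) (nat_lit 0) (nat_lit 0) (XT.lf (nat_lit 0) (nat_lit 27217847310) (nat_lit 152) (nat_lit 24100806554) (nat_lit 0) (nat_lit 3035422184) (nat_lit 17) (nat_lit 5) (nat_lit 19) (nat_lit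 4) (nat_lit 17) (nat_lit 4) (nat_lit 433) (nat_lit 289) (nat_lit 178)) (XT.lf (nat_lit 0) (nat_lit 35030038280) (nat_lit 152) (nat_lit 9901520446) (nat_lit 0) (nat_lit 10820103087) (nat_lit 17) (nat_lit 5) (nat_lit 19) (nat_lit 4) (nat_lit 17) (nat_lit 4) (nat_lit 434) (nat_lit 289) (nat_lit 177)))))) (XT.nd (nat_lit 546) (nat_lit 228) (nat_lit 0) (XT.nd (nat_lit 234) (nat_lit 152) (nat_lit 0) (XT.nd (nat_lit 78) (nat_lit 0) (nat_lit 0) (XT.lf (nat_lit 0) (nat_lit 4787180982) (nat_lit 76) (nat_lit 38319862903) (nat_lit 76) (nat_lit 14083218907) (nat_lit 16) (nat_lit 4) (nat_lit 17) (nat_lit 5) (nat_lit 17) (nat_lit 4) (nat_lit 435) (nat_lit 289) (nat_lit 176)) (XT.nd (nat_lit 78) (nat_lit 0) (nat_lit 0) (XT.lf (nat_lit 0) (nat_lit 20089830415) (nat_lit 76) (nat_lit 31421114884) (nat_lit 76) (nat_lit 7158540012) (nat_lit 16) (nat_lit 4) (nat_lit 17) (nat_lit 5) (nat_lit 17) (nat_lit 4) (nat_lit 436) (nat_lit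 289) (nat_lit 175)) (XT.lf (nat_lit 0) (nat_lit 35822739426) (nat_lit 76) (nat_lit 24329272578) (nat_lit 76) (nat_lit 41522098) (nat_lit 16) (nat_lit 4) (nat_lit 17) (nat_lit 5) (nat_lit 17) (nat_lit 4) (nat_lit 437) (nat_lit 289) (nat_lit 174)))) (XT.nd (nat_lit 156) (nat_lit 0) (nat_lit 0) (XT.nd (nat_lit 78) (nat_lit 76) (nat_lit 0) (XT.lf (nat_lit 0) (nat_lit 7132110601) (nat_lit 152) (nat_lit 9834008297) (nat_lit 76) (nat_lit 44795524285) (nat_lit 15) (nat_lit 5) (nat_lit 17) (nat_lit 5) (nat_lit 16) (nat_lit 4) (nat_lit 438) (nat_lit 289) (nat_lit 173)) (XT.lf (nat_lit 0) (nat_lit 5212740133) (nat_lit 76) (nat_lit 9343251677) (nat_lit 152) (nat_lit 48819716127) (nat_lit 14) (nat_lit 5) (nat_lit 15) (nat_lit 5) (nat_lit 16) (nat_lit 4) (nat_lit 439) (nat_lit 289) (nat_lit 172))) (XT.nd (nat_lit 78) (nat_lit 0) (nat_lit 0) (XT.lf (nat_lit 0) (nat_lit 20885297897) (nat_lit 76) (nat_lit 1402515102) (nat_lit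 152) (nat_lit 42747825860) (nat_lit 14) (nat_lit 5) (nat_lit 15) (nat_lit 5) (nat_lit 16) (nat_lit 4) (nat_lit 440) (nat_lit 289) (nat_lit 171)) (XT.lf (nat_lit 0) (nat_lit 30302935343) (nat_lit 152) (nat_lit 29809152376) (nat_lit 0) (nat_lit 6631740495) (nat_lit 14) (nat_lit 5) (nat_lit 16) (nat_lit 4) (nat_lit 14) (nat_lit 4) (nat_lit 441) (nat_lit 289) (nat_lit 170))))) (XT.nd (nat_lit 234) (nat_lit 152) (nat_lit 0) (XT.nd (nat_lit 78) (nat_lit 76) (nat_lit 0) (XT.lf (nat_lit 0) (nat_lit 38559006576) (nat_lit 152) (nat_lit 15077515142) (nat_lit 0) (nat_lit 14866727552) (nat_lit 14) (nat_lit 5) (nat_lit 16) (nat_lit 4) (nat_lit 14) (nat_lit 4) (nat_lit 442) (nat_lit 289) (nat_lit 169)) (XT.nd (nat_lit 78) (nat_lit 0) (nat_lit 0) (XT.lf (nat_lit 0) (nat_lit 72336423) (nat_lit 76) (nat_lit 46978117826) (nat_lit 76) (nat_lit 23265368730) (nat_lit 13) (nat_lit 4) (nat_lit 14) (nat_lit 5) (nat_lit 14) (nat_lit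 4) (nat_lit 443) (nat_lit 289) (nat_lit 168)) (XT.lf (nat_lit 0) (nat_lit 15960858016) (nat_lit 76) (nat_lit 39975178958) (nat_lit 76) (nat_lit 16242556003) (nat_lit 13) (nat_lit 4) (nat_lit 14) (nat_lit 5) (nat_lit 14) (nat_lit 4) (nat_lit 444) (nat_lit 289) (nat_lit 167)))) (XT.nd (nat_lit 156) (nat_lit 152) (nat_lit 0) (XT.nd (nat_lit 78) (nat_lit 0) (nat_lit 0) (XT.lf (nat_lit 0) (nat_lit 32301860696) (nat_lit 76) (nat_lit 32773839378) (nat_lit 76) (nat_lit 9021921416) (nat_lit 13) (nat_lit 4) (nat_lit 14) (nat_lit 5) (nat_lit 14) (nat_lit 4) (nat_lit 445) (nat_lit 289) (nat_lit 166)) (XT.lf (nat_lit 0) (nat_lit 49109623010) (nat_lit 76) (nat_lit 25367806654) (nat_lit 76) (nat_lit 1597155676) (nat_lit 13) (nat_lit 4) (nat_lit 14) (nat_lit 5) (nat_lit 14) (nat_lit 4) (nat_lit 446) (nat_lit 289) (nat_lit 165))) (XT.nd (nat_lit 78) (nat_lit 76) (nat_lit 0) (XT.lf (nat_lit 0) (nat_lit 5920401282) (nat_lit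 152) (nat_lit 11770423769) (nat_lit 76) (nat_lit 60418645623) (nat_lit 12) (nat_lit 5) (nat_lit 14) (nat_lit 5) (nat_lit 13) (nat_lit 4) (nat_lit 447) (nat_lit 289) (nat_lit 164)) (XT.lf (nat_lit 0) (nat_lit 3918243003) (nat_lit 76) (nat_lit 9739263913) (nat_lit 152) (nat_lit 66546638266) (nat_lit 11) (nat_lit 5) (nat_lit 12) (nat_lit 5) (nat_lit 13) (nat_lit 4) (nat_lit 448) (nat_lit 289) (nat_lit 163))))))) (XT.nd (nat_lit 1014) (nat_lit 4712) (nat_lit 0) (XT.nd (nat_lit 468) (nat_lit 3800) (nat_lit 0) (XT.nd (nat_lit 234) (nat_lit 2356) (nat_lit 0) (XT.nd (nat_lit 78) (nat_lit 1976) (nat_lit 0) (XT.lf (nat_lit 0) (nat_lit 2386305901) (nat_lit 836) (nat_lit 526575226) (nat_lit 836) (nat_lit 526575226) (nat_lit 307) (nat_lit 4) (nat_lit 318) (nat_lit 5) (nat_lit 318) (nat_lit 4) (nat_lit 320) (nat_lit 290) (nat_lit 290)) (XT.nd (nat_lit 78) (nat_lit 988) (nat_lit 0) (XT.lf (nat_lit 0) (nat_lit 2235307738)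 (nat_lit 988) (nat_lit 4338422203) (nat_lit 0) (nat_lit 350726866) (nat_lit 294) (nat_lit 5) (nat_lit 307) (nat_lit 4) (nat_lit 294) (nat_lit 4) (nat_lit 321) (nat_lit 290) (nat_lit 289)) (XT.lf (nat_lit 0) (nat_lit 382553386) (nat_lit 988) (nat_lit 5152418269) (nat_lit 988) (nat_lit 1438147231) (nat_lit 281) (nat_lit 4) (nat_lit 294) (nat_lit 5) (nat_lit 294) (nat_lit 4) (nat_lit 322) (nat_lit 290) (nat_lit 288)))) (XT.nd (nat_lit 78) (nat_lit 2280) (nat_lit 0) (XT.lf (nat_lit 0) (nat_lit 1816482074) (nat_lit 1064) (nat_lit 1803210647) (nat_lit 76) (nat_lit 3404767604) (nat_lit 280) (nat_lit 5) (nat_lit 294) (nat_lit 5) (nat_lit 281) (nat_lit 4) (nat_lit 323) (nat_lit 290) (nat_lit 287)) (XT.nd (nat_lit 78) (nat_lit 1216) (nat_lit 0) (XT.lf (nat_lit 0) (nat_lit 3079859680) (nat_lit 1064) (nat_lit 1991661208) (nat_lit 1140) (nat_lit 2007513266) (nat_lit 266) (nat_lit 5) (nat_lit 280) (nat_lit 5) (nat_lit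 281) (nat_lit 4) (nat_lit 324) (nat_lit 290) (nat_lit 286)) (XT.lf (nat_lit 0) (nat_lit 922271666) (nat_lit 1140) (nat_lit 271810101) (nat_lit 1216) (nat_lit 5942949270) (nat_lit 250) (nat_lit 5) (nat_lit 265) (nat_lit 5) (nat_lit 266) (nat_lit 5) (nat_lit 325) (nat_lit 290) (nat_lit 285))))) (XT.nd (nat_lit 234) (nat_lit 1900) (nat_lit 0) (XT.nd (nat_lit 78) (nat_lit 1900) (nat_lit 0) (XT.lf (nat_lit 0) (nat_lit 4411521729) (nat_lit 1216) (nat_lit 1253746262) (nat_lit 76) (nat_lit 1532162854) (nat_lit 250) (nat_lit 5) (nat_lit 266) (nat_lit 5) (nat_lit 251) (nat_lit 4) (nat_lit 326) (nat_lit 290) (nat_lit 284)) (XT.nd (nat_lit 78) (nat_lit 608) (nat_lit 0) (XT.lf (nat_lit 0) (nat_lit 403432691) (nat_lit 1292) (nat_lit 3431034684) (nat_lit 76) (nat_lit 3426700549) (nat_lit 233) (nat_lit 5) (nat_lit 250) (nat_lit 5) (nat_lit 234) (nat_lit 5) (nat_lit 327) (nat_lit 290) (nat_lit 283)) (XT.lf (nat_lit 0) (nat_lit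 1675810255) (nat_lit 608) (nat_lit 1894098857) (nat_lit 684) (nat_lit 3758015342) (nat_lit 225) (nat_lit 5) (nat_lit 233) (nat_lit 5) (nat_lit 234) (nat_lit 5) (nat_lit 328) (nat_lit 290) (nat_lit 282)))) (XT.nd (nat_lit 156) (nat_lit 1216) (nat_lit 0) (XT.nd (nat_lit 78) (nat_lit 684) (nat_lit 0) (XT.lf (nat_lit 0) (nat_lit 6777645250) (nat_lit 684) (nat_lit 487547072) (nat_lit 76) (nat_lit 133159985) (nat_lit 225) (nat_lit 5) (nat_lit 234) (nat_lit 5) (nat_lit 226) (nat_lit 4) (nat_lit 329) (nat_lit 290) (nat_lit 281)) (XT.lf (nat_lit 0) (nat_lit 2537408910) (nat_lit 684) (nat_lit 2683291818) (nat_lit 76) (nat_lit 2250163744) (nat_lit 216) (nat_lit 5) (nat_lit 225) (nat_lit 5) (nat_lit 217) (nat_lit 5) (nat_lit 330) (nat_lit 290) (nat_lit 280))) (XT.nd (nat_lit 78) (nat_lit 608) (nat_lit 0) (XT.lf (nat_lit 0) (nat_lit 2635998646) (nat_lit 608) (nat_lit 3085734456) (nat_lit 684) (nat_lit 1825368109) (nat_lit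 208) (nat_lit 5) (nat_lit 216) (nat_lit 5) (nat_lit 217) (nat_lit 5) (nat_lit 331) (nat_lit 290) (nat_lit 279)) (XT.lf (nat_lit 0) (nat_lit 444637280) (nat_lit 532) (nat_lit 850467610) (nat_lit 608) (nat_lit 6331792393) (nat_lit 200) (nat_lit 5) (nat_lit 207) (nat_lit 5) (nat_lit 208) (nat_lit 5) (nat_lit 332) (nat_lit 290) (nat_lit 278)))))) (XT.nd (nat_lit 546) (nat_lit 2128) (nat_lit 0) (XT.nd (nat_lit 234) (nat_lit 1520) (nat_lit 0) (XT.nd (nat_lit 78) (nat_lit 1064) (nat_lit 0) (XT.lf (nat_lit 0) (nat_lit 4452380728) (nat_lit 608) (nat_lit 1775532254) (nat_lit 76) (nat_lit 1481283158) (nat_lit 200) (nat_lit 5) (nat_lit 208) (nat_lit 5) (nat_lit 201) (nat_lit 5) (nat_lit 333) (nat_lit 290) (nat_lit 277)) (XT.nd (nat_lit 78) (nat_lit 532) (nat_lit 0) (XT.lf (nat_lit 0) (nat_lit 3764122824) (nat_lit 532) (nat_lit 3903143965) (nat_lit 608) (nat_lit 127856428) (nat_lit 193) (nat_lit 5) (nat_lit 200) (nat_lit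 5) (nat_lit 201) (nat_lit 5) (nat_lit 334) (nat_lit 290) (nat_lit 276)) (XT.lf (nat_lit 0) (nat_lit 1528127155) (nat_lit 456) (nat_lit 1458178926) (nat_lit 532) (nat_lit 4897921010) (nat_lit 186) (nat_lit 5) (nat_lit 192) (nat_lit 5) (nat_lit 193) (nat_lit 5) (nat_lit 335) (nat_lit 290) (nat_lit 275)))) (XT.nd (nat_lit 156) (nat_lit 912) (nat_lit 0) (XT.nd (nat_lit 78) (nat_lit 608) (nat_lit 0) (XT.lf (nat_lit 0) (nat_lit 6162872399) (nat_lit 532) (nat_lit 746379619) (nat_lit 76) (nat_lit 1067609733) (nat_lit 186) (nat_lit 5) (nat_lit 193) (nat_lit 5) (nat_lit 187) (nat_lit 5) (nat_lit 336) (nat_lit 290) (nat_lit 274)) (XT.lf (nat_lit 0) (nat_lit 1320968636) (nat_lit 608) (nat_lit 3064113791) (nat_lit 76) (nat_lit 3687286963) (nat_lit 178) (nat_lit 5) (nat_lit 186) (nat_lit 5) (nat_lit 179) (nat_lit 5) (nat_lit 337) (nat_lit 290) (nat_lit 273))) (XT.nd (nat_lit 78) (nat_lit 456) (nat_lit 0) (XT.lf (nat_lit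 0) (nat_lit 2721138006) (nat_lit 456) (nat_lit 1749291790) (nat_lit 532) (nat_lit 3701104776) (nat_lit 172) (nat_lit 5) (nat_lit 178) (nat_lit 5) (nat_lit 179) (nat_lit 5) (nat_lit 338) (nat_lit 290) (nat_lit 272)) (XT.lf (nat_lit 0) (nat_lit 372240119) (nat_lit 456) (nat_lit 7310557775) (nat_lit 532) (nat_lit 591861533) (nat_lit 166) (nat_lit 5) (nat_lit 172) (nat_lit 5) (nat_lit 173) (nat_lit 5) (nat_lit 339) (nat_lit 290) (nat_lit 271))))) (XT.nd (nat_lit 234) (nat_lit 1140) (nat_lit 0) (XT.nd (nat_lit 78) (nat_lit 912) (nat_lit 0) (XT.lf (nat_lit 0) (nat_lit 2557457719) (nat_lit 532) (nat_lit 2036946270) (nat_lit 76) (nat_lit 3785824186) (nat_lit 165) (nat_lit 5) (nat_lit 172) (nat_lit 5) (nat_lit 166) (nat_lit 5) (nat_lit 340) (nat_lit 290) (nat_lit 270)) (XT.nd (nat_lit 78) (nat_lit 532) (nat_lit 0) (XT.lf (nat_lit 0) (nat_lit 3983109965) (nat_lit 380) (nat_lit 1771567097) (nat_lit 456) (nat_lit 2735185870)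 (nat_lit 160) (nat_lit 5) (nat_lit 165) (nat_lit 5) (nat_lit 166) (nat_lit 5) (nat_lit 341) (nat_lit 290) (nat_lit 269)) (XT.lf (nat_lit 0) (nat_lit 410700421) (nat_lit 532) (nat_lit 7059486177) (nat_lit 76) (nat_lit 1133273323) (nat_lit 153) (nat_lit 5) (nat_lit 160) (nat_lit 5) (nat_lit 154) (nat_lit 5) (nat_lit 342) (nat_lit 290) (nat_lit 268)))) (XT.nd (nat_lit 156) (nat_lit 760) (nat_lit 0) (XT.nd (nat_lit 78) (nat_lit 380) (nat_lit 0) (XT.lf (nat_lit 0) (nat_lit 3588022452) (nat_lit 532) (nat_lit 990413016) (nat_lit 76) (nat_lit 4141487241) (nat_lit 153) (nat_lit 5) (nat_lit 160) (nat_lit 5) (nat_lit 154) (nat_lit 5) (nat_lit 343) (nat_lit 290) (nat_lit 267)) (XT.lf (nat_lit 0) (nat_lit 5271513258) (nat_lit 380) (nat_lit 1570438900) (nat_lit 456) (nat_lit 1998519003) (nat_lit 148) (nat_lit 5) (nat_lit 153) (nat_lit 5) (nat_lit 154) (nat_lit 5) (nat_lit 344) (nat_lit 290) (nat_lit 266))) (XT.nd (nat_lit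 78) (nat_lit 304) (nat_lit 0) (XT.lf (nat_lit 0) (nat_lit 1187178118) (nat_lit 456) (nat_lit 6254262701) (nat_lit 76) (nat_lit 1523400725) (nat_lit 142) (nat_lit 5) (nat_lit 148) (nat_lit 5) (nat_lit 143) (nat_lit 5) (nat_lit 345) (nat_lit 290) (nat_lit 265)) (XT.lf (nat_lit 0) (nat_lit 31207211) (nat_lit 304) (nat_lit 4381268232) (nat_lit 380) (nat_lit 4680375888) (nat_lit 138) (nat_lit 5) (nat_lit 142) (nat_lit 5) (nat_lit 143) (nat_lit 5) (nat_lit 346) (nat_lit 290) (nat_lit 264))))))))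
noncomputable def xc79 : XT := (XT.nd (nat_lit 2106) (nat_lit 2660) (nat_lit 0) (XT.nd (nat_lit 1014) (nat_lit 2280) (nat_lit 0) (XT.nd (nat_lit 468) (nat_lit 1292) (nat_lit 0) (XT.nd (nat_lit 234) (nat_lit 684) (nat_lit 0) (XT.nd (nat_lit 78) (nat_lit 760) (nat_lit 0) (XT.lf (nat_lit 0) (nat_lit 6540855537) (nat_lit 304) (nat_lit 1189876217) (nat_lit 380) (nat_lit 1494110682) (nat_lit 138) (nat_lit 5) (nat_lit 142) (nat_lit 5) (nat_lit 143) (nat_lit 5) (nat_lit 347) (nat_lit 290) (nat_lit 263)) (XT.nd (nat_lit 78) (nat_lit 304) (nat_lit 0) (XT.lf (nat_lit 0) (nat_lit 1744658876) (nat_lit 456) (nat_lit 5529864882) (nat_lit 76) (nat_lit 2086025397) (nat_lit 132) (nat_lit 5) (nat_lit 138) (nat_lit 5) (nat_lit 133) (nat_lit 5) (nat_lit 348) (nat_lit 290) (nat_lit 262)) (XT.lf (nat_lit 0) (nat_lit 996860761) (nat_lit 304) (nat_lit 4037557902) (nat_lit 380) (nat_lit 4465973632) (nat_lit 128) (nat_lit 5) (nat_lit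 132) (nat_lit 5) (nat_lit 133) (nat_lit 5) (nat_lit 349) (nat_lit 290) (nat_lit 261)))) (XT.nd (nat_lit 78) (nat_lit 684) (nat_lit 0) (XT.lf (nat_lit 0) (nat_lit 7741597627) (nat_lit 304) (nat_lit 673250427) (nat_lit 380) (nat_lit 1229847386) (nat_lit 128) (nat_lit 5) (nat_lit 132) (nat_lit 5) (nat_lit 133) (nat_lit 5) (nat_lit 350) (nat_lit 290) (nat_lit 260)) (XT.nd (nat_lit 78) (nat_lit 304) (nat_lit 0) (XT.lf (nat_lit 0) (nat_lit 2073835484) (nat_lit 380) (nat_lit 4939851340) (nat_lit 76) (nat_lit 2778711415) (nat_lit 123) (nat_lit 5) (nat_lit 128) (nat_lit 5) (nat_lit 124) (nat_lit 5) (nat_lit 351) (nat_lit 290) (nat_lit 259)) (XT.lf (nat_lit 0) (nat_lit 1832143504) (nat_lit 304) (nat_lit 3601519880) (nat_lit 380) (nat_lit 4511072814) (nat_lit 119) (nat_lit 5) (nat_lit 123) (nat_lit 5) (nat_lit 124) (nat_lit 5) (nat_lit 352) (nat_lit 290) (nat_lit 258))))) (XT.nd (nat_lit 234) (nat_lit 608) (nat_lit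 0) (XT.nd (nat_lit 78) (nat_lit 684) (nat_lit 0) (XT.lf (nat_lit 0) (nat_lit 8818955096) (nat_lit 304) (nat_lit 64224244) (nat_lit 380) (nat_lit 1218819496) (nat_lit 119) (nat_lit 5) (nat_lit 123) (nat_lit 5) (nat_lit 124) (nat_lit 5) (nat_lit 353) (nat_lit 290) (nat_lit 257)) (XT.nd (nat_lit 78) (nat_lit 304) (nat_lit 0) (XT.lf (nat_lit 0) (nat_lit 2160197818) (nat_lit 380) (nat_lit 4543796969) (nat_lit 76) (nat_lit 3558466746) (nat_lit 114) (nat_lit 5) (nat_lit 119) (nat_lit 5) (nat_lit 115) (nat_lit 5) (nat_lit 354) (nat_lit 290) (nat_lit 256)) (XT.lf (nat_lit 0) (nat_lit 2476004895) (nat_lit 304) (nat_lit 3118414693) (nat_lit 380) (nat_lit 4833626092) (nat_lit 110) (nat_lit 5) (nat_lit 114) (nat_lit 5) (nat_lit 115) (nat_lit 5) (nat_lit 355) (nat_lit 290) (nat_lit 255)))) (XT.nd (nat_lit 156) (nat_lit 228) (nat_lit 0) (XT.nd (nat_lit 78) (nat_lit 380) (nat_lit 0) (XT.lf (nat_lit 0) (nat_lit 9124933174)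 (nat_lit 380) (nat_lit 893122620) (nat_lit 76) (nat_lit 580762559) (nat_lit 110) (nat_lit 5) (nat_lit 115) (nat_lit 5) (nat_lit 111) (nat_lit 5) (nat_lit 356) (nat_lit 290) (nat_lit 254)) (XT.lf (nat_lit 0) (nat_lit 1983569019) (nat_lit 380) (nat_lit 4408709336) (nat_lit 76) (nat_lit 4380810182) (nat_lit 105) (nat_lit 5) (nat_lit 110) (nat_lit 5) (nat_lit 106) (nat_lit 5) (nat_lit 357) (nat_lit 290) (nat_lit 253))) (XT.nd (nat_lit 78) (nat_lit 0) (nat_lit 0) (XT.lf (nat_lit 0) (nat_lit 2859562056) (nat_lit 228) (nat_lit 2635524217) (nat_lit 304) (nat_lit 5457681221) (nat_lit 102) (nat_lit 5) (nat_lit 105) (nat_lit 5) (nat_lit 106) (nat_lit 5) (nat_lit 358) (nat_lit 290) (nat_lit 252)) (XT.lf (nat_lit 0) (nat_lit 9112664468) (nat_lit 304) (nat_lit 800245289) (nat_lit 76) (nat_lit 1224922445) (nat_lit 102) (nat_lit 5) (nat_lit 106) (nat_lit 5) (nat_lit 103) (nat_lit 5) (nat_lit 359) (nat_lit 290) (nat_lit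 251)))))) (XT.nd (nat_lit 546) (nat_lit 912) (nat_lit 0) (XT.nd (nat_lit 234) (nat_lit 760) (nat_lit 0) (XT.nd (nat_lit 78) (nat_lit 228) (nat_lit 0) (XT.lf (nat_lit 0) (nat_lit 1517523975) (nat_lit 380) (nat_lit 4610628815) (nat_lit 76) (nat_lit 5198776153) (nat_lit 97) (nat_lit 5) (nat_lit 102) (nat_lit 5) (nat_lit 98) (nat_lit 5) (nat_lit 360) (nat_lit 290) (nat_lit 250)) (XT.nd (nat_lit 78) (nat_lit 0) (nat_lit 0) (XT.lf (nat_lit 0) (nat_lit 2904431061) (nat_lit 228) (nat_lit 2203198675) (nat_lit 304) (nat_lit 6414027614) (nat_lit 94) (nat_lit 5) (nat_lit 97) (nat_lit 5) (nat_lit 98) (nat_lit 5) (nat_lit 361) (nat_lit 290) (nat_lit 249)) (XT.lf (nat_lit 0) (nat_lit 8816365602) (nat_lit 304) (nat_lit 1085404927) (nat_lit 76) (nat_lit 1820144238) (nat_lit 94) (nat_lit 5) (nat_lit 98) (nat_lit 5) (nat_lit 95) (nat_lit 5) (nat_lit 362) (nat_lit 290) (nat_lit 248)))) (XT.nd (nat_lit 156) (nat_lit 228) (nat_lit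 0) (XT.nd (nat_lit 78) (nat_lit 228) (nat_lit 0) (XT.lf (nat_lit 0) (nat_lit 728676058) (nat_lit 304) (nat_lit 5236447012) (nat_lit 76) (nat_lit 5961837367) (nat_lit 90) (nat_lit 5) (nat_lit 94) (nat_lit 5) (nat_lit 91) (nat_lit 5) (nat_lit 363) (nat_lit 290) (nat_lit 247)) (XT.lf (nat_lit 0) (nat_lit 2520828104) (nat_lit 228) (nat_lit 1875996856) (nat_lit 304) (nat_lit 7740984310) (nat_lit 87) (nat_lit 5) (nat_lit 90) (nat_lit 5) (nat_lit 91) (nat_lit 5) (nat_lit 364) (nat_lit 290) (nat_lit 246))) (XT.nd (nat_lit 78) (nat_lit 228) (nat_lit 0) (XT.lf (nat_lit 0) (nat_lit 8199283675) (nat_lit 304) (nat_lit 1842256061) (nat_lit 76) (nat_lit 2312729168) (nat_lit 87) (nat_lit 5) (nat_lit 91) (nat_lit 5) (nat_lit 88) (nat_lit 5) (nat_lit 365) (nat_lit 290) (nat_lit 245)) (XT.lf (nat_lit 0) (nat_lit 6186254999) (nat_lit 228) (nat_lit 5957514830) (nat_lit 304) (nat_lit 432626797) (nat_lit 84) (nat_lit 5) (nat_lit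 87) (nat_lit 5) (nat_lit 88) (nat_lit 5) (nat_lit 366) (nat_lit 290) (nat_lit 244))))) (XT.nd (nat_lit 234) (nat_lit 456) (nat_lit 0) (XT.nd (nat_lit 78) (nat_lit 228) (nat_lit 0) (XT.lf (nat_lit 0) (nat_lit 1605399215) (nat_lit 152) (nat_lit 1713943103) (nat_lit 228) (nat_lit 9485347731) (nat_lit 81) (nat_lit 5) (nat_lit 83) (nat_lit 5) (nat_lit 84) (nat_lit 5) (nat_lit 367) (nat_lit 290) (nat_lit 243)) (XT.nd (nat_lit 78) (nat_lit 228) (nat_lit 0) (XT.lf (nat_lit 0) (nat_lit 7216345664) (nat_lit 228) (nat_lit 3178745393) (nat_lit 76) (nat_lit 2643389412) (nat_lit 81) (nat_lit 5) (nat_lit 84) (nat_lit 5) (nat_lit 82) (nat_lit 5) (nat_lit 368) (nat_lit 290) (nat_lit 242)) (XT.lf (nat_lit 0) (nat_lit 5084880266) (nat_lit 228) (nat_lit 6163134006) (nat_lit 304) (nat_lit 2030749145) (nat_lit 78) (nat_lit 5) (nat_lit 81) (nat_lit 5) (nat_lit 82) (nat_lit 5) (nat_lit 369) (nat_lit 290) (nat_lit 241)))) (XT.nd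 (nat_lit 156) (nat_lit 228) (nat_lit 0) (XT.nd (nat_lit 78) (nat_lit 0) (nat_lit 0) (XT.lf (nat_lit 0) (nat_lit 38731030) (nat_lit 152) (nat_lit 1783927414) (nat_lit 228) (nat_lit 11703521001) (nat_lit 75) (nat_lit 5) (nat_lit 77) (nat_lit 5) (nat_lit 78) (nat_lit 5) (nat_lit 370) (nat_lit 290) (nat_lit 240)) (XT.lf (nat_lit 0) (nat_lit 5813019225) (nat_lit 228) (nat_lit 5219693497) (nat_lit 76) (nat_lit 2745847526) (nat_lit 75) (nat_lit 5) (nat_lit 78) (nat_lit 5) (nat_lit 76) (nat_lit 5) (nat_lit 371) (nat_lit 290) (nat_lit 239))) (XT.nd (nat_lit 78) (nat_lit 0) (nat_lit 0) (XT.lf (nat_lit 0) (nat_lit 3264153928) (nat_lit 228) (nat_lit 6661758483) (nat_lit 304) (nat_lit 4112525607) (nat_lit 72) (nat_lit 5) (nat_lit 75) (nat_lit 5) (nat_lit 76) (nat_lit 5) (nat_lit 372) (nat_lit 290) (nat_lit 238)) (XT.lf (nat_lit 0) (nat_lit 12032306924) (nat_lit 228) (nat_lit 2136980013) (nat_lit 304) (nat_lit 136622242)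 (nat_lit 72) (nat_lit 5) (nat_lit 75) (nat_lit 5) (nat_lit 76) (nat_lit 5) (nat_lit 373) (nat_lit 290) (nat_lit 237))))))) (XT.nd (nat_lit 1014) (nat_lit 1064) (nat_lit 0) (XT.nd (nat_lit 468) (nat_lit 760) (nat_lit 0) (XT.nd (nat_lit 234) (nat_lit 380) (nat_lit 0) (XT.nd (nat_lit 78) (nat_lit 228) (nat_lit 0) (XT.lf (nat_lit 0) (nat_lit 3923965801) (nat_lit 228) (nat_lit 8109766653) (nat_lit 76) (nat_lit 2545260184) (nat_lit 69) (nat_lit 5) (nat_lit 72) (nat_lit 5) (nat_lit 70) (nat_lit 5) (nat_lit 374) (nat_lit 290) (nat_lit 236)) (XT.nd (nat_lit 78) (nat_lit 0) (nat_lit 0) (XT.lf (nat_lit 0) (nat_lit 573670455) (nat_lit 228) (nat_lit 7535363765) (nat_lit 304) (nat_lit 6751040591) (nat_lit 66) (nat_lit 5) (nat_lit 69) (nat_lit 5) (nat_lit 70) (nat_lit 5) (nat_lit 375) (nat_lit 290) (nat_lit 235)) (XT.lf (nat_lit 0) (nat_lit 9608447978) (nat_lit 228) (nat_lit 2849219061) (nat_lit 304) (nat_lit 2690790832)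 (nat_lit 66) (nat_lit 5) (nat_lit 69) (nat_lit 5) (nat_lit 70) (nat_lit 5) (nat_lit 376) (nat_lit 290) (nat_lit 234)))) (XT.nd (nat_lit 78) (nat_lit 152) (nat_lit 0) (XT.lf (nat_lit 0) (nat_lit 1471455514) (nat_lit 228) (nat_lit 12016904148) (nat_lit 76) (nat_lit 1956432324) (nat_lit 63) (nat_lit 5) (nat_lit 66) (nat_lit 5) (nat_lit 64) (nat_lit 5) (nat_lit 377) (nat_lit 290) (nat_lit 233)) (XT.nd (nat_lit 78) (nat_lit 152) (nat_lit 0) (XT.lf (nat_lit 0) (nat_lit 5746413383) (nat_lit 228) (nat_lit 3099689137) (nat_lit 76) (nat_lit 6901864613) (nat_lit 63) (nat_lit 5) (nat_lit 66) (nat_lit 5) (nat_lit 64) (nat_lit 5) (nat_lit 378) (nat_lit 290) (nat_lit 232)) (XT.lf (nat_lit 0) (nat_lit 6132542247) (nat_lit 152) (nat_lit 4034492675) (nat_lit 228) (nat_lit 5892687974) (nat_lit 61) (nat_lit 5) (nat_lit 63) (nat_lit 5) (nat_lit 64) (nat_lit 5) (nat_lit 379) (nat_lit 290) (nat_lit 231))))) (XT.nd (nat_lit 234)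 (nat_lit 380) (nat_lit 0) (XT.nd (nat_lit 78) (nat_lit 380) (nat_lit 0) (XT.lf (nat_lit 0) (nat_lit 14719438816) (nat_lit 228) (nat_lit 756184532) (nat_lit 76) (nat_lit 905240656) (nat_lit 61) (nat_lit 5) (nat_lit 64) (nat_lit 5) (nat_lit 62) (nat_lit 4) (nat_lit 380) (nat_lit 290) (nat_lit 230)) (XT.nd (nat_lit 78) (nat_lit 152) (nat_lit 0) (XT.lf (nat_lit 0) (nat_lit 2728934276) (nat_lit 228) (nat_lit 7985430257) (nat_lit 76) (nat_lit 5993960789) (nat_lit 58) (nat_lit 5) (nat_lit 61) (nat_lit 5) (nat_lit 59) (nat_lit 5) (nat_lit 381) (nat_lit 290) (nat_lit 229)) (XT.lf (nat_lit 0) (nat_lit 1396786929) (nat_lit 152) (nat_lit 5801961108) (nat_lit 228) (nat_lit 9846941793) (nat_lit 56) (nat_lit 5) (nat_lit 58) (nat_lit 5) (nat_lit 59) (nat_lit 5) (nat_lit 382) (nat_lit 290) (nat_lit 228)))) (XT.nd (nat_lit 156) (nat_lit 228) (nat_lit 0) (XT.nd (nat_lit 78) (nat_lit 152) (nat_lit 0) (XT.lf (nat_lit 0) (nat_lit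 11154443676) (nat_lit 152) (nat_lit 689342789) (nat_lit 228) (nat_lit 5548161640) (nat_lit 56) (nat_lit 5) (nat_lit 58) (nat_lit 5) (nat_lit 59) (nat_lit 5) (nat_lit 383) (nat_lit 290) (nat_lit 227)) (XT.lf (nat_lit 0) (nat_lit 3410223124) (nat_lit 152) (nat_lit 13256089451) (nat_lit 228) (nat_lit 1081143996) (nat_lit 54) (nat_lit 5) (nat_lit 56) (nat_lit 5) (nat_lit 57) (nat_lit 4) (nat_lit 384) (nat_lit 290) (nat_lit 226))) (XT.nd (nat_lit 78) (nat_lit 152) (nat_lit 0) (XT.lf (nat_lit 0) (nat_lit 3483084364) (nat_lit 228) (nat_lit 4746445733) (nat_lit 76) (nat_lit 9882134727) (nat_lit 53) (nat_lit 5) (nat_lit 56) (nat_lit 5) (nat_lit 54) (nat_lit 5) (nat_lit 385) (nat_lit 290) (nat_lit 225)) (XT.lf (nat_lit 0) (nat_lit 5155293362) (nat_lit 152) (nat_lit 3019345362) (nat_lit 228) (nat_lit 10311481582) (nat_lit 51) (nat_lit 5) (nat_lit 53) (nat_lit 5) (nat_lit 54) (nat_lit 5) (nat_lit 386) (nat_lit 290)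 (nat_lit 224)))))) (XT.nd (nat_lit 546) (nat_lit 532) (nat_lit 0) (XT.nd (nat_lit 234) (nat_lit 304) (nat_lit 0) (XT.nd (nat_lit 78) (nat_lit 228) (nat_lit 0) (XT.lf (nat_lit 0) (nat_lit 13040655878) (nat_lit 228) (nat_lit 3508874580) (nat_lit 76) (nat_lit 2321273321) (nat_lit 51) (nat_lit 5) (nat_lit 54) (nat_lit 5) (nat_lit 52) (nat_lit 4) (nat_lit 387) (nat_lit 290) (nat_lit 223)) (XT.nd (nat_lit 78) (nat_lit 76) (nat_lit 0) (XT.lf (nat_lit 0) (nat_lit 6642560782) (nat_lit 152) (nat_lit 11467674214) (nat_lit 228) (nat_lit 1155070959) (nat_lit 49) (nat_lit 5) (nat_lit 51) (nat_lit 5) (nat_lit 52) (nat_lit 4) (nat_lit 388) (nat_lit 290) (nat_lit 222)) (XT.lf (nat_lit 0) (nat_lit 3588528100) (nat_lit 228) (nat_lit 2600636601) (nat_lit 76) (nat_lit 13481437435) (nat_lit 48) (nat_lit 5) (nat_lit 51) (nat_lit 5) (nat_lit 49) (nat_lit 5) (nat_lit 389) (nat_lit 290) (nat_lit 221)))) (XT.nd (nat_lit 156) (nat_lit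 152) (nat_lit 0) (XT.nd (nat_lit 78) (nat_lit 0) (nat_lit 0) (XT.lf (nat_lit 0) (nat_lit 7799805430) (nat_lit 152) (nat_lit 691352614) (nat_lit 228) (nat_lit 11595363071) (nat_lit 46) (nat_lit 5) (nat_lit 48) (nat_lit 5) (nat_lit 49) (nat_lit 5) (nat_lit 390) (nat_lit 290) (nat_lit 220)) (XT.lf (nat_lit 0) (nat_lit 13580290652) (nat_lit 228) (nat_lit 2059859602) (nat_lit 76) (nat_lit 4873589709) (nat_lit 46) (nat_lit 5) (nat_lit 49) (nat_lit 5) (nat_lit 47) (nat_lit 4) (nat_lit 391) (nat_lit 290) (nat_lit 219))) (XT.nd (nat_lit 78) (nat_lit 76) (nat_lit 0) (XT.lf (nat_lit 0) (nat_lit 8572833351) (nat_lit 76) (nat_lit 10304646710) (nat_lit 152) (nat_lit 2074638697) (nat_lit 45) (nat_lit 5) (nat_lit 46) (nat_lit 5) (nat_lit 47) (nat_lit 4) (nat_lit 392) (nat_lit 290) (nat_lit 218)) (XT.lf (nat_lit 0) (nat_lit 2859965513) (nat_lit 152) (nat_lit 1926148864) (nat_lit 76) (nat_lit 16617078111) (nat_lit 44) (nat_lit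 5) (nat_lit 46) (nat_lit 5) (nat_lit 45) (nat_lit 5) (nat_lit 393) (nat_lit 290) (nat_lit 217))))) (XT.nd (nat_lit 234) (nat_lit 304) (nat_lit 0) (XT.nd (nat_lit 78) (nat_lit 76) (nat_lit 0) (XT.lf (nat_lit 0) (nat_lit 7963403635) (nat_lit 228) (nat_lit 12940328077) (nat_lit 76) (nat_lit 961580123) (nat_lit 42) (nat_lit 5) (nat_lit 45) (nat_lit 5) (nat_lit 43) (nat_lit 4) (nat_lit 394) (nat_lit 290) (nat_lit 216)) (XT.nd (nat_lit 78) (nat_lit 76) (nat_lit 0) (XT.lf (nat_lit 0) (nat_lit 13254287290) (nat_lit 228) (nat_lit 2306987171) (nat_lit 76) (nat_lit 6778994355) (nat_lit 42) (nat_lit 5) (nat_lit 45) (nat_lit 5) (nat_lit 43) (nat_lit 4) (nat_lit 395) (nat_lit 290) (nat_lit 215)) (XT.lf (nat_lit 0) (nat_lit 8758169439) (nat_lit 76) (nat_lit 9998181183) (nat_lit 152) (nat_lit 4071554487) (nat_lit 41) (nat_lit 5) (nat_lit 42) (nat_lit 5) (nat_lit 43) (nat_lit 4) (nat_lit 396) (nat_lit 290) (nat_lit 214))))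 (XT.nd (nat_lit 156) (nat_lit 76) (nat_lit 0) (XT.nd (nat_lit 78) (nat_lit 152) (nat_lit 0) (XT.lf (nat_lit 0) (nat_lit 1063818929) (nat_lit 152) (nat_lit 3195792951) (nat_lit 76) (nat_lit 19070491845) (nat_lit 40) (nat_lit 5) (nat_lit 42) (nat_lit 5) (nat_lit 41) (nat_lit 5) (nat_lit 397) (nat_lit 290) (nat_lit 213)) (XT.lf (nat_lit 0) (nat_lit 6334979827) (nat_lit 228) (nat_lit 15796577666) (nat_lit 76) (nat_lit 1712698462) (nat_lit 38) (nat_lit 5) (nat_lit 41) (nat_lit 5) (nat_lit 39) (nat_lit 4) (nat_lit 398) (nat_lit 290) (nat_lit 212))) (XT.nd (nat_lit 78) (nat_lit 76) (nat_lit 0) (XT.lf (nat_lit 0) (nat_lit 11808397773) (nat_lit 228) (nat_lit 4777970278) (nat_lit 76) (nat_lit 7786144763) (nat_lit 38) (nat_lit 5) (nat_lit 41) (nat_lit 5) (nat_lit 39) (nat_lit 4) (nat_lit 399) (nat_lit 290) (nat_lit 211)) (XT.lf (nat_lit 0) (nat_lit 6645953607) (nat_lit 76) (nat_lit 10834199222) (nat_lit 152) (nat_lit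 7435444135) (nat_lit 37) (nat_lit 5) (nat_lit 38) (nat_lit 5) (nat_lit 39) (nat_lit 4) (nat_lit 400) (nat_lit 290) (nat_lit 210))))))))
noncomputable def xc80 : XT := (XT.nd (nat_lit 2028) (nat_lit 608) (nat_lit 0) (XT.nd (nat_lit 1014) (nat_lit 532) (nat_lit 0) (XT.nd (nat_lit 468) (nat_lit 456) (nat_lit 0) (XT.nd (nat_lit 234) (nat_lit 76) (nat_lit 0) (XT.nd (nat_lit 78) (nat_lit 228) (nat_lit 0) (XT.lf (nat_lit 0) (nat_lit 18456149214) (nat_lit 76) (nat_lit 4884752744) (nat_lit 152) (nat_lit 2133509955) (nat_lit 37) (nat_lit 5) (nat_lit 38) (nat_lit 5) (nat_lit 39) (nat_lit 4) (nat_lit 401) (nat_lit 290) (nat_lit 209)) (XT.nd (nat_lit 78) (nat_lit 0) (nat_lit 0) (XT.lf (nat_lit 0) (nat_lit 3290154593) (nat_lit 228) (nat_lit 21486490310) (nat_lit 76) (nat_lit 1271562040) (nat_lit 34) (nat_lit 5) (nat_lit 37) (nat_lit 5) (nat_lit 35) (nat_lit 4) (nat_lit 402) (nat_lit 290) (nat_lit 208)) (XT.lf (nat_lit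 0) (nat_lit 8924845344) (nat_lit 228) (nat_lit 10127799917) (nat_lit 76) (nat_lit 7583204135) (nat_lit 34) (nat_lit 5) (nat_lit 37) (nat_lit 5) (nat_lit 35) (nat_lit 4) (nat_lit 403) (nat_lit 290) (nat_lit 207)))) (XT.nd (nat_lit 78) (nat_lit 0) (nat_lit 0) (XT.lf (nat_lit 0) (nat_lit 1549970851) (nat_lit 76) (nat_lit 13165603711) (nat_lit 152) (nat_lit 12525939753) (nat_lit 33) (nat_lit 5) (nat_lit 34) (nat_lit 5) (nat_lit 35) (nat_lit 4) (nat_lit 404) (nat_lit 290) (nat_lit 206)) (XT.nd (nat_lit 78) (nat_lit 0) (nat_lit 0) (XT.lf (nat_lit 0) (nat_lit 13734267939) (nat_lit 76) (nat_lit 7020445532) (nat_lit 152) (nat_lit 7108398107) (nat_lit 33) (nat_lit 5) (nat_lit 34) (nat_lit 5) (nat_lit 35) (nat_lit 4) (nat_lit 405) (nat_lit 290) (nat_lit 205)) (XT.lf (nat_lit 0) (nat_lit 26234174744) (nat_lit 76) (nat_lit 714072089) (nat_lit 152) (nat_lit 1555916264) (nat_lit 33) (nat_lit 5) (nat_lit 34) (nat_lit 5)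 (nat_lit 35) (nat_lit 4) (nat_lit 406) (nat_lit 290) (nat_lit 204))))) (XT.nd (nat_lit 234) (nat_lit 152) (nat_lit 0) (XT.nd (nat_lit 78) (nat_lit 76) (nat_lit 0) (XT.lf (nat_lit 0) (nat_lit 4208975623) (nat_lit 228) (nat_lit 19166077567) (nat_lit 76) (nat_lit 5784382981) (nat_lit 30) (nat_lit 5) (nat_lit 33) (nat_lit 5) (nat_lit 31) (nat_lit 4) (nat_lit 407) (nat_lit 290) (nat_lit 203)) (XT.nd (nat_lit 78) (nat_lit 76) (nat_lit 0) (XT.lf (nat_lit 0) (nat_lit 10119583137) (nat_lit 228) (nat_lit 7234318468) (nat_lit 76) (nat_lit 12479885140) (nat_lit 30) (nat_lit 5) (nat_lit 33) (nat_lit 5) (nat_lit 31) (nat_lit 4) (nat_lit 408) (nat_lit 290) (nat_lit 202)) (XT.lf (nat_lit 0) (nat_lit 5107411652) (nat_lit 76) (nat_lit 11123777098) (nat_lit 152) (nat_lit 14296471304) (nat_lit 29) (nat_lit 5) (nat_lit 30) (nat_lit 5) (nat_lit 31) (nat_lit 4) (nat_lit 409) (nat_lit 290) (nat_lit 201)))) (XT.nd (nat_lit 156)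 (nat_lit 152) (nat_lit 0) (XT.nd (nat_lit 78) (nat_lit 0) (nat_lit 0) (XT.lf (nat_lit 0) (nat_lit 17920511478) (nat_lit 76) (nat_lit 4653554547) (nat_lit 152) (nat_lit 8666848372) (nat_lit 29) (nat_lit 5) (nat_lit 30) (nat_lit 5) (nat_lit 31) (nat_lit 4) (nat_lit 410) (nat_lit 290) (nat_lit 200)) (XT.lf (nat_lit 0) (nat_lit 29101955607) (nat_lit 152) (nat_lit 923223964) (nat_lit 0) (nat_lit 1950547487) (nat_lit 29) (nat_lit 5) (nat_lit 31) (nat_lit 4) (nat_lit 29) (nat_lit 4) (nat_lit 411) (nat_lit 290) (nat_lit 199))) (XT.nd (nat_lit 78) (nat_lit 0) (nat_lit 0) (XT.lf (nat_lit 0) (nat_lit 3171530491) (nat_lit 152) (nat_lit 20770801192) (nat_lit 76) (nat_lit 8785199051) (nat_lit 27) (nat_lit 5) (nat_lit 29) (nat_lit 5) (nat_lit 28) (nat_lit 4) (nat_lit 412) (nat_lit 290) (nat_lit 198)) (XT.lf (nat_lit 0) (nat_lit 9325991784) (nat_lit 152) (nat_lit 8333167069) (nat_lit 76) (nat_lit 15842311522) (nat_lit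 27) (nat_lit 5) (nat_lit 29) (nat_lit 5) (nat_lit 28) (nat_lit 4) (nat_lit 413) (nat_lit 290) (nat_lit 197)))))) (XT.nd (nat_lit 468) (nat_lit 304) (nat_lit 0) (XT.nd (nat_lit 234) (nat_lit 152) (nat_lit 0) (XT.nd (nat_lit 78) (nat_lit 0) (nat_lit 0) (XT.lf (nat_lit 0) (nat_lit 4522130801) (nat_lit 76) (nat_lit 11163265598) (nat_lit 152) (nat_lit 18612624713) (nat_lit 26) (nat_lit 5) (nat_lit 27) (nat_lit 5) (nat_lit 28) (nat_lit 4) (nat_lit 414) (nat_lit 290) (nat_lit 196)) (XT.nd (nat_lit 78) (nat_lit 0) (nat_lit 0) (XT.lf (nat_lit 0) (nat_lit 17890629542) (nat_lit 76) (nat_lit 4406200785) (nat_lit 152) (nat_lit 12819802756) (nat_lit 26) (nat_lit 5) (nat_lit 27) (nat_lit 5) (nat_lit 28) (nat_lit 4) (nat_lit 415) (nat_lit 290) (nat_lit 195)) (XT.lf (nat_lit 0) (nat_lit 29108729183) (nat_lit 152) (nat_lit 4366664862) (nat_lit 0) (nat_lit 2484347775) (nat_lit 26) (nat_lit 5) (nat_lit 28) (nat_lit 4) (nat_lit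 26) (nat_lit 4) (nat_lit 416) (nat_lit 290) (nat_lit 194)))) (XT.nd (nat_lit 78) (nat_lit 76) (nat_lit 0) (XT.lf (nat_lit 0) (nat_lit 8968577121) (nat_lit 76) (nat_lit 27264473605) (nat_lit 76) (nat_lit 591853127) (nat_lit 25) (nat_lit 4) (nat_lit 26) (nat_lit 5) (nat_lit 26) (nat_lit 4) (nat_lit 417) (nat_lit 290) (nat_lit 193)) (XT.nd (nat_lit 78) (nat_lit 0) (nat_lit 0) (XT.lf (nat_lit 0) (nat_lit 5763613611) (nat_lit 152) (nat_lit 15019318894) (nat_lit 76) (nat_lit 16930718069) (nat_lit 24) (nat_lit 5) (nat_lit 26) (nat_lit 5) (nat_lit 25) (nat_lit 4) (nat_lit 418) (nat_lit 290) (nat_lit 192)) (XT.lf (nat_lit 0) (nat_lit 12276736876) (nat_lit 152) (nat_lit 1843148613) (nat_lit 76) (nat_lit 24509633597) (nat_lit 24) (nat_lit 5) (nat_lit 26) (nat_lit 5) (nat_lit 25) (nat_lit 4) (nat_lit 419) (nat_lit 290) (nat_lit 191))))) (XT.nd (nat_lit 234) (nat_lit 228) (nat_lit 0) (XT.nd (nat_lit 78) (nat_lit 0)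 (nat_lit 0) (XT.lf (nat_lit 0) (nat_lit 11922028233) (nat_lit 76) (nat_lit 7157330529) (nat_lit 152) (nat_lit 20490683527) (nat_lit 23) (nat_lit 5) (nat_lit 24) (nat_lit 5) (nat_lit 25) (nat_lit 4) (nat_lit 420) (nat_lit 290) (nat_lit 190)) (XT.nd (nat_lit 78) (nat_lit 0) (nat_lit 0) (XT.lf (nat_lit 0) (nat_lit 26084545347) (nat_lit 152) (nat_lit 14439572442) (nat_lit 0) (nat_lit 14710548) (nat_lit 23) (nat_lit 5) (nat_lit 25) (nat_lit 4) (nat_lit 23) (nat_lit 4) (nat_lit 421) (nat_lit 290) (nat_lit 189)) (XT.lf (nat_lit 0) (nat_lit 33350901728) (nat_lit 152) (nat_lit 943580021) (nat_lit 0) (nat_lit 7240667469) (nat_lit 23) (nat_lit 5) (nat_lit 25) (nat_lit 4) (nat_lit 23) (nat_lit 4) (nat_lit 422) (nat_lit 290) (nat_lit 188)))) (XT.nd (nat_lit 156) (nat_lit 76) (nat_lit 0) (XT.nd (nat_lit 78) (nat_lit 76) (nat_lit 0) (XT.lf (nat_lit 0) (nat_lit 13177700868) (nat_lit 76) (nat_lit 27764947765) (nat_lit 76)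 (nat_lit 1615490728) (nat_lit 22) (nat_lit 4) (nat_lit 23) (nat_lit 5) (nat_lit 23) (nat_lit 4) (nat_lit 423) (nat_lit 290) (nat_lit 187)) (XT.lf (nat_lit 0) (nat_lit 5040199022) (nat_lit 152) (nat_lit 15955933387) (nat_lit 76) (nat_lit 22614491941) (nat_lit 21) (nat_lit 5) (nat_lit 23) (nat_lit 5) (nat_lit 22) (nat_lit 4) (nat_lit 424) (nat_lit 290) (nat_lit 186))) (XT.nd (nat_lit 78) (nat_lit 76) (nat_lit 0) (XT.lf (nat_lit 0) (nat_lit 11844399511) (nat_lit 152) (nat_lit 2180377624) (nat_lit 76) (nat_lit 30669989102) (nat_lit 21) (nat_lit 5) (nat_lit 23) (nat_lit 5) (nat_lit 22) (nat_lit 4) (nat_lit 425) (nat_lit 290) (nat_lit 185)) (XT.lf (nat_lit 0) (nat_lit 12212096767) (nat_lit 76) (nat_lit 6739873576) (nat_lit 152) (nat_lit 26856486157) (nat_lit 20) (nat_lit 5) (nat_lit 21) (nat_lit 5) (nat_lit 22) (nat_lit 4) (nat_lit 426) (nat_lit 290) (nat_lit 184))))))) (XT.nd (nat_lit 1014) (nat_lit 228) (nat_lit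 0) (XT.nd (nat_lit 468) (nat_lit 152) (nat_lit 0) (XT.nd (nat_lit 234) (nat_lit 152) (nat_lit 0) (XT.nd (nat_lit 78) (nat_lit 76) (nat_lit 0) (XT.lf (nat_lit 0) (nat_lit 26284239402) (nat_lit 152) (nat_lit 19916106774) (nat_lit 0) (nat_lit 754868567) (nat_lit 20) (nat_lit 5) (nat_lit 22) (nat_lit 4) (nat_lit 20) (nat_lit 4) (nat_lit 427) (nat_lit 290) (nat_lit 183)) (XT.nd (nat_lit 78) (nat_lit 76) (nat_lit 0) (XT.lf (nat_lit 0) (nat_lit 33885630864) (nat_lit 152) (nat_lit 5925860034) (nat_lit 0) (nat_lit 8323411571) (nat_lit 20) (nat_lit 5) (nat_lit 22) (nat_lit 4) (nat_lit 20) (nat_lit 4) (nat_lit 428) (nat_lit 290) (nat_lit 182)) (XT.lf (nat_lit 0) (nat_lit 8619592048) (nat_lit 76) (nat_lit 33161263678) (nat_lit 76) (nat_lit 7567152678) (nat_lit 19) (nat_lit 4) (nat_lit 20) (nat_lit 5) (nat_lit 20) (nat_lit 4) (nat_lit 429) (nat_lit 290) (nat_lit 181)))) (XT.nd (nat_lit 78) (nat_lit 152) (nat_lit 0)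 (XT.lf (nat_lit 0) (nat_lit 23690501270) (nat_lit 76) (nat_lit 26265396275) (nat_lit 76) (nat_lit 640322452) (nat_lit 19) (nat_lit 4) (nat_lit 20) (nat_lit 5) (nat_lit 20) (nat_lit 4) (nat_lit 430) (nat_lit 290) (nat_lit 180)) (XT.nd (nat_lit 78) (nat_lit 76) (nat_lit 0) (XT.lf (nat_lit 0) (nat_lit 6351034043) (nat_lit 152) (nat_lit 12762535707) (nat_lit 76) (nat_lit 32766933117) (nat_lit 18) (nat_lit 5) (nat_lit 20) (nat_lit 5) (nat_lit 19) (nat_lit 4) (nat_lit 431) (nat_lit 290) (nat_lit 179)) (XT.lf (nat_lit 0) (nat_lit 1802941925) (nat_lit 76) (nat_lit 11737581311) (nat_lit 152) (nat_lit 39662564115) (nat_lit 17) (nat_lit 5) (nat_lit 18) (nat_lit 5) (nat_lit 19) (nat_lit 4) (nat_lit 432) (nat_lit 290) (nat_lit 178))))) (XT.nd (nat_lit 234) (nat_lit 152) (nat_lit 0) (XT.nd (nat_lit 78) (nat_lit 0) (nat_lit 0) (XT.lf (nat_lit 0) (nat_lit 17036462796) (nat_lit 76) (nat_lit 4022216223) (nat_lit 152) (nat_lit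 33503282037) (nat_lit 17) (nat_lit 5) (nat_lit 18) (nat_lit 5) (nat_lit 19) (nat_lit 4) (nat_lit 433) (nat_lit 290) (nat_lit 177)) (XT.nd (nat_lit 78) (nat_lit 0) (nat_lit 0) (XT.lf (nat_lit 0) (nat_lit 28824536822) (nat_lit 152) (nat_lit 23302315837) (nat_lit 0) (nat_lit 3834084703) (nat_lit 17) (nat_lit 5) (nat_lit 19) (nat_lit 4) (nat_lit 17) (nat_lit 4) (nat_lit 434) (nat_lit 290) (nat_lit 176)) (XT.lf (nat_lit 0) (nat_lit 36848079324) (nat_lit 152) (nat_lit 8721367114) (nat_lit 0) (nat_lit 11831696329) (nat_lit 17) (nat_lit 5) (nat_lit 19) (nat_lit 4) (nat_lit 17) (nat_lit 4) (nat_lit 435) (nat_lit 290) (nat_lit 175)))) (XT.nd (nat_lit 156) (nat_lit 76) (nat_lit 0) (XT.nd (nat_lit 78) (nat_lit 0) (nat_lit 0) (XT.lf (nat_lit 0) (nat_lit 6393513014) (nat_lit 76) (nat_lit 38765598729) (nat_lit 76) (nat_lit 13724040126) (nat_lit 16) (nat_lit 4) (nat_lit 17) (nat_lit 5) (nat_lit 17) (nat_lit 4) (nat_lit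 436) (nat_lit 290) (nat_lit 174)) (XT.lf (nat_lit 0) (nat_lit 22112638534) (nat_lit 76) (nat_lit 31680389048) (nat_lit 76) (nat_lit 6614388107) (nat_lit 16) (nat_lit 4) (nat_lit 17) (nat_lit 5) (nat_lit 17) (nat_lit 4) (nat_lit 437) (nat_lit 290) (nat_lit 173))) (XT.nd (nat_lit 78) (nat_lit 0) (nat_lit 0) (XT.lf (nat_lit 0) (nat_lit 680493077) (nat_lit 152) (nat_lit 23708330418) (nat_lit 76) (nat_lit 37588807571) (nat_lit 15) (nat_lit 5) (nat_lit 17) (nat_lit 5) (nat_lit 16) (nat_lit 4) (nat_lit 438) (nat_lit 290) (nat_lit 172)) (XT.lf (nat_lit 0) (nat_lit 8047458663) (nat_lit 152) (nat_lit 8776429528) (nat_lit 76) (nat_lit 46769515558) (nat_lit 15) (nat_lit 5) (nat_lit 17) (nat_lit 5) (nat_lit 16) (nat_lit 4) (nat_lit 439) (nat_lit 290) (nat_lit 171)))))) (XT.nd (nat_lit 546) (nat_lit 76) (nat_lit 0) (XT.nd (nat_lit 234) (nat_lit 76) (nat_lit 0) (XT.nd (nat_lit 78) (nat_lit 0) (nat_lit 0) (XT.lf (nat_lit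 0) (nat_lit 6708460581) (nat_lit 76) (nat_lit 8978041584) (nat_lit 152) (nat_lit 49569616278) (nat_lit 14) (nat_lit 5) (nat_lit 15) (nat_lit 5) (nat_lit 16) (nat_lit 4) (nat_lit 440) (nat_lit 290) (nat_lit 170)) (XT.nd (nat_lit 78) (nat_lit 0) (nat_lit 0) (XT.lf (nat_lit 0) (nat_lit 22812185226) (nat_lit 76) (nat_lit 817884105) (nat_lit 152) (nat_lit 43336385555) (nat_lit 14) (nat_lit 5) (nat_lit 15) (nat_lit 5) (nat_lit 16) (nat_lit 4) (nat_lit 441) (nat_lit 290) (nat_lit 169)) (XT.lf (nat_lit 0) (nat_lit 31871874110) (nat_lit 152) (nat_lit 29427157778) (nat_lit 0) (nat_lit 7427272467) (nat_lit 14) (nat_lit 5) (nat_lit 16) (nat_lit 4) (nat_lit 14) (nat_lit 4) (nat_lit 442) (nat_lit 290) (nat_lit 168)))) (XT.nd (nat_lit 156) (nat_lit 0) (nat_lit 0) (XT.nd (nat_lit 78) (nat_lit 76) (nat_lit 0) (XT.lf (nat_lit 0) (nat_lit 40356408527) (nat_lit 152) (nat_lit 14290744315) (nat_lit 0) (nat_lit 15891933026) (nat_lit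 14) (nat_lit 5) (nat_lit 16) (nat_lit 4) (nat_lit 14) (nat_lit 4) (nat_lit 443) (nat_lit 290) (nat_lit 167)) (XT.lf (nat_lit 0) (nat_lit 1301454793) (nat_lit 76) (nat_lit 47794279838) (nat_lit 76) (nat_lit 23310509330) (nat_lit 13) (nat_lit 4) (nat_lit 14) (nat_lit 5) (nat_lit 14) (nat_lit 4) (nat_lit 444) (nat_lit 290) (nat_lit 166))) (XT.nd (nat_lit 78) (nat_lit 0) (nat_lit 0) (XT.lf (nat_lit 0) (nat_lit 17630895677) (nat_lit 76) (nat_lit 40598529935) (nat_lit 76) (nat_lit 16096026410) (nat_lit 13) (nat_lit 4) (nat_lit 14) (nat_lit 5) (nat_lit 14) (nat_lit 4) (nat_lit 445) (nat_lit 290) (nat_lit 165)) (XT.lf (nat_lit 0) (nat_lit 34427432945) (nat_lit 76) (nat_lit 33197924082) (nat_lit 76) (nat_lit 8677233162) (nat_lit 13) (nat_lit 4) (nat_lit 14) (nat_lit 5) (nat_lit 14) (nat_lit 4) (nat_lit 446) (nat_lit 290) (nat_lit 164))))) (XT.nd (nat_lit 36894) (nat_lit 0) (nat_lit 20368) (XT.nd (nat_lit 78) (nat_lit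 76) (nat_lit 0) (XT.lf (nat_lit 0) (nat_lit 51705743183) (nat_lit 76) (nat_lit 25585995730) (nat_lit 76) (nat_lit 1047647145) (nat_lit 13) (nat_lit 4) (nat_lit 14) (nat_lit 5) (nat_lit 14) (nat_lit 4) (nat_lit 447) (nat_lit 290) (nat_lit 163)) (XT.nd (nat_lit 36738) (nat_lit 0) (nat_lit 23256) (XT.lf (nat_lit 0) (nat_lit 6666717517) (nat_lit 152) (nat_lit 11022055388) (nat_lit 76) (nat_lit 62746885651) (nat_lit 12) (nat_lit 5) (nat_lit 14) (nat_lit 5) (nat_lit 13) (nat_lit 4) (nat_lit 448) (nat_lit 290) (nat_lit 162)) (XT.lf (nat_lit 0) (nat_lit 603995748) (nat_lit 836) (nat_lit 2189627712) (nat_lit 0) (nat_lit 603995748) (nat_lit 318) (nat_lit 5) (nat_lit 329) (nat_lit 4) (nat_lit 318) (nat_lit 4) (nat_lit 318) (nat_lit 291) (nat_lit 291)))) (XT.nd (nat_lit 156) (nat_lit 1976) (nat_lit 0) (XT.nd (nat_lit 78) (nat_lit 76) (nat_lit 0) (XT.lf (nat_lit 0) (nat_lit 107568899) (nat_lit 836) (nat_lit 4364050605)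 (nat_lit 836) (nat_lit 2364698758) (nat_lit 307) (nat_lit 4) (nat_lit 318) (nat_lit 5) (nat_lit 318) (nat_lit 4) (nat_lit 319) (nat_lit 291) (nat_lit 290)) (XT.lf (nat_lit 0) (nat_lit 876454345) (nat_lit 912) (nat_lit 2161267823) (nat_lit 76) (nat_lit 3842494761) (nat_lit 306) (nat_lit 5) (nat_lit 318) (nat_lit 5) (nat_lit 307) (nat_lit 4) (nat_lit 320) (nat_lit 291) (nat_lit 289))) (XT.nd (nat_lit 78) (nat_lit 1064) (nat_lit 0) (XT.lf (nat_lit 0) (nat_lit 2477768655) (nat_lit 912) (nat_lit 1612290295) (nat_lit 988) (nat_lit 2837064921) (nat_lit 294) (nat_lit 5) (nat_lit 306) (nat_lit 5) (nat_lit 307) (nat_lit 4) (nat_lit 321) (nat_lit 291) (nat_lit 288)) (XT.lf (nat_lit 0) (nat_lit 234185475) (nat_lit 988) (nat_lit 106411886) (nat_lit 1064) (nat_lit 6637062397) (nat_lit 280) (nat_lit 5) (nat_lit 293) (nat_lit 5) (nat_lit 294) (nat_lit 5) (nat_lit 322) (nat_lit 291) (nat_lit 287))))))))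
noncomputable def xc81 : XT := (XT.nd (nat_lit 2106) (nat_lit 5016) (nat_lit 0) (XT.nd (nat_lit 1014) (nat_lit 4104) (nat_lit 0) (XT.nd (nat_lit 468) (nat_lit 2964) (nat_lit 0) (XT.nd (nat_lit 234) (nat_lit 1900) (nat_lit 0) (XT.nd (nat_lit 78) (nat_lit 2280) (nat_lit 0) (XT.lf (nat_lit 0) (nat_lit 3517899192) (nat_lit 1064) (nat_lit 2015110661) (nat_lit 76) (nat_lit 1497088820) (nat_lit 280) (nat_lit 5) (nat_lit 294) (nat_lit 5) (nat_lit 281) (nat_lit 4) (nat_lit 323) (nat_lit 291) (nat_lit 286)) (XT.nd (nat_lit 78) (nat_lit 1216) (nat_lit 0) (XT.lf (nat_lit 0) (nat_lit 2818005503) (nat_lit 1064) (nat_lit 3905579334) (nat_lit 1140) (nat_lit 362601547) (nat_lit 266) (nat_lit 5) (nat_lit 280) (nat_lit 5) (nat_lit 281) (nat_lit 4) (nat_lit 324) (nat_lit 291) (nat_lit 285)) (XT.lf (nat_lit 0) (nat_lit 585522862) (nat_lit 1140) (nat_lit 2171750552) (nat_lit 1216) (nat_lit 4387955529) (nat_lit 250) (nat_lit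 5) (nat_lit 265) (nat_lit 5) (nat_lit 266) (nat_lit 5) (nat_lit 325) (nat_lit 291) (nat_lit 284)))) (XT.nd (nat_lit 78) (nat_lit 1900) (nat_lit 0) (XT.lf (nat_lit 0) (nat_lit 5577493001) (nat_lit 1140) (nat_lit 336733554) (nat_lit 1216) (nat_lit 1293247263) (nat_lit 250) (nat_lit 5) (nat_lit 265) (nat_lit 5) (nat_lit 266) (nat_lit 5) (nat_lit 326) (nat_lit 291) (nat_lit 283)) (XT.nd (nat_lit 78) (nat_lit 608) (nat_lit 0) (XT.lf (nat_lit 0) (nat_lit 1814957929) (nat_lit 1292) (nat_lit 3882771173) (nat_lit 76) (nat_lit 1574640338) (nat_lit 233) (nat_lit 5) (nat_lit 250) (nat_lit 5) (nat_lit 234) (nat_lit 5) (nat_lit 327) (nat_lit 291) (nat_lit 282)) (XT.lf (nat_lit 0) (nat_lit 1168756477) (nat_lit 608) (nat_lit 3764068400) (nat_lit 684) (nat_lit 2407787255) (nat_lit 225) (nat_lit 5) (nat_lit 233) (nat_lit 5) (nat_lit 234) (nat_lit 5) (nat_lit 328) (nat_lit 291) (nat_lit 281))))) (XT.nd (nat_lit 234) (nat_lit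 1672) (nat_lit 0) (XT.nd (nat_lit 78) (nat_lit 1216) (nat_lit 0) (XT.lf (nat_lit 0) (nat_lit 670621933) (nat_lit 684) (nat_lit 1058849164) (nat_lit 76) (nat_lit 5682724692) (nat_lit 224) (nat_lit 5) (nat_lit 233) (nat_lit 5) (nat_lit 225) (nat_lit 5) (nat_lit 329) (nat_lit 291) (nat_lit 280)) (XT.nd (nat_lit 78) (nat_lit 608) (nat_lit 0) (XT.lf (nat_lit 0) (nat_lit 3751797434) (nat_lit 684) (nat_lit 3315951894) (nat_lit 76) (nat_lit 418749986) (nat_lit 216) (nat_lit 5) (nat_lit 225) (nat_lit 5) (nat_lit 217) (nat_lit 5) (nat_lit 330) (nat_lit 291) (nat_lit 279)) (XT.lf (nat_lit 0) (nat_lit 1944515127) (nat_lit 608) (nat_lit 4943651726) (nat_lit 684) (nat_lit 676032611) (nat_lit 208) (nat_lit 5) (nat_lit 216) (nat_lit 5) (nat_lit 217) (nat_lit 5) (nat_lit 331) (nat_lit 291) (nat_lit 278)))) (XT.nd (nat_lit 156) (nat_lit 1064) (nat_lit 0) (XT.nd (nat_lit 78) (nat_lit 532) (nat_lit 0) (XT.lf (nat_lit 0) (nat_lit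 2376777522) (nat_lit 684) (nat_lit 329393330) (nat_lit 76) (nat_lit 4938873643) (nat_lit 207) (nat_lit 5) (nat_lit 216) (nat_lit 5) (nat_lit 208) (nat_lit 5) (nat_lit 332) (nat_lit 291) (nat_lit 277)) (XT.lf (nat_lit 0) (nat_lit 5122759785) (nat_lit 532) (nat_lit 353338599) (nat_lit 608) (nat_lit 2253006284) (nat_lit 200) (nat_lit 5) (nat_lit 207) (nat_lit 5) (nat_lit 208) (nat_lit 5) (nat_lit 333) (nat_lit 291) (nat_lit 276))) (XT.nd (nat_lit 78) (nat_lit 456) (nat_lit 0) (XT.lf (nat_lit 0) (nat_lit 807302647) (nat_lit 608) (nat_lit 4950260414) (nat_lit 76) (nat_lit 2058784154) (nat_lit 192) (nat_lit 5) (nat_lit 200) (nat_lit 5) (nat_lit 193) (nat_lit 5) (nat_lit 334) (nat_lit 291) (nat_lit 275)) (XT.lf (nat_lit 0) (nat_lit 542960883) (nat_lit 456) (nat_lit 3327767773) (nat_lit 532) (nat_lit 4036153552) (nat_lit 186) (nat_lit 5) (nat_lit 192) (nat_lit 5) (nat_lit 193) (nat_lit 5) (nat_lit 335) (nat_lit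 291) (nat_lit 274)))))) (XT.nd (nat_lit 546) (nat_lit 1596) (nat_lit 0) (XT.nd (nat_lit 234) (nat_lit 1444) (nat_lit 0) (XT.nd (nat_lit 78) (nat_lit 1064) (nat_lit 0) (XT.lf (nat_lit 0) (nat_lit 6211089169) (nat_lit 456) (nat_lit 787664132) (nat_lit 532) (nat_lit 1002239956) (nat_lit 186) (nat_lit 5) (nat_lit 192) (nat_lit 5) (nat_lit 193) (nat_lit 5) (nat_lit 336) (nat_lit 291) (nat_lit 273)) (XT.nd (nat_lit 78) (nat_lit 456) (nat_lit 0) (XT.lf (nat_lit 0) (nat_lit 2061114830) (nat_lit 608) (nat_lit 4199398772) (nat_lit 76) (nat_lit 1837445079) (nat_lit 178) (nat_lit 5) (nat_lit 186) (nat_lit 5) (nat_lit 179) (nat_lit 5) (nat_lit 337) (nat_lit 291) (nat_lit 272)) (XT.lf (nat_lit 0) (nat_lit 1517290089) (nat_lit 456) (nat_lit 3644956870) (nat_lit 532) (nat_lit 3036345203) (nat_lit 172) (nat_lit 5) (nat_lit 178) (nat_lit 5) (nat_lit 179) (nat_lit 5) (nat_lit 338) (nat_lit 291) (nat_lit 271)))) (XT.nd (nat_lit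 156) (nat_lit 912) (nat_lit 0) (XT.nd (nat_lit 78) (nat_lit 456) (nat_lit 0) (XT.lf (nat_lit 0) (nat_lit 21861328) (nat_lit 532) (nat_lit 902457566) (nat_lit 76) (nat_lit 7378882900) (nat_lit 171) (nat_lit 5) (nat_lit 178) (nat_lit 5) (nat_lit 172) (nat_lit 5) (nat_lit 339) (nat_lit 291) (nat_lit 270)) (XT.lf (nat_lit 0) (nat_lit 3105864215) (nat_lit 532) (nat_lit 3401062935) (nat_lit 76) (nat_lit 1903302587) (nat_lit 165) (nat_lit 5) (nat_lit 172) (nat_lit 5) (nat_lit 166) (nat_lit 5) (nat_lit 340) (nat_lit 291) (nat_lit 269))) (XT.nd (nat_lit 78) (nat_lit 532) (nat_lit 0) (XT.lf (nat_lit 0) (nat_lit 2546361143) (nat_lit 380) (nat_lit 3708011823) (nat_lit 456) (nat_lit 2266969221) (nat_lit 160) (nat_lit 5) (nat_lit 165) (nat_lit 5) (nat_lit 166) (nat_lit 5) (nat_lit 341) (nat_lit 291) (nat_lit 268)) (XT.lf (nat_lit 0) (nat_lit 7621553) (nat_lit 456) (nat_lit 801507101) (nat_lit 532) (nat_lit 7827510487)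 (nat_lit 153) (nat_lit 5) (nat_lit 159) (nat_lit 5) (nat_lit 160) (nat_lit 5) (nat_lit 342) (nat_lit 291) (nat_lit 267))))) (XT.nd (nat_lit 234) (nat_lit 760) (nat_lit 0) (XT.nd (nat_lit 78) (nat_lit 836) (nat_lit 0) (XT.lf (nat_lit 0) (nat_lit 3944566309) (nat_lit 532) (nat_lit 2597602064) (nat_lit 76) (nat_lit 2212205074) (nat_lit 153) (nat_lit 5) (nat_lit 160) (nat_lit 5) (nat_lit 154) (nat_lit 5) (nat_lit 343) (nat_lit 291) (nat_lit 266)) (XT.nd (nat_lit 78) (nat_lit 456) (nat_lit 0) (XT.lf (nat_lit 0) (nat_lit 3587420513) (nat_lit 380) (nat_lit 3561702700) (nat_lit 456) (nat_lit 1727294419) (nat_lit 148) (nat_lit 5) (nat_lit 153) (nat_lit 5) (nat_lit 154) (nat_lit 5) (nat_lit 344) (nat_lit 291) (nat_lit 265)) (XT.lf (nat_lit 0) (nat_lit 923871361) (nat_lit 380) (nat_lit 464006746) (nat_lit 456) (nat_lit 7614802368) (nat_lit 142) (nat_lit 5) (nat_lit 147) (nat_lit 5) (nat_lit 148) (nat_lit 5) (nat_lit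 345) (nat_lit 291) (nat_lit 264)))) (XT.nd (nat_lit 156) (nat_lit 456) (nat_lit 0) (XT.nd (nat_lit 78) (nat_lit 304) (nat_lit 0) (XT.lf (nat_lit 0) (nat_lit 4575870466) (nat_lit 456) (nat_lit 1834209591) (nat_lit 76) (nat_lit 2721742667) (nat_lit 142) (nat_lit 5) (nat_lit 148) (nat_lit 5) (nat_lit 143) (nat_lit 5) (nat_lit 346) (nat_lit 291) (nat_lit 263)) (XT.lf (nat_lit 0) (nat_lit 4594651075) (nat_lit 304) (nat_lit 3249470813) (nat_lit 380) (nat_lit 1421205014) (nat_lit 138) (nat_lit 5) (nat_lit 142) (nat_lit 5) (nat_lit 143) (nat_lit 5) (nat_lit 347) (nat_lit 291) (nat_lit 262))) (XT.nd (nat_lit 78) (nat_lit 0) (nat_lit 0) (XT.lf (nat_lit 0) (nat_lit 1744714285) (nat_lit 456) (nat_lit 7623216219) (nat_lit 76) (nat_lit 35237105) (nat_lit 132) (nat_lit 5) (nat_lit 138) (nat_lit 5) (nat_lit 133) (nat_lit 5) (nat_lit 348) (nat_lit 291) (nat_lit 261)) (XT.lf (nat_lit 0) (nat_lit 4993863155) (nat_lit 456)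 (nat_lit 1159966930) (nat_lit 76) (nat_lit 3390410822) (nat_lit 132) (nat_lit 5) (nat_lit 138) (nat_lit 5) (nat_lit 133) (nat_lit 5) (nat_lit 349) (nat_lit 291) (nat_lit 260))))))) (XT.nd (nat_lit 1014) (nat_lit 2128) (nat_lit 0) (XT.nd (nat_lit 468) (nat_lit 1520) (nat_lit 0) (XT.nd (nat_lit 234) (nat_lit 684) (nat_lit 0) (XT.nd (nat_lit 78) (nat_lit 380) (nat_lit 0) (XT.lf (nat_lit 0) (nat_lit 5518091915) (nat_lit 304) (nat_lit 2814284628) (nat_lit 380) (nat_lit 1357436472) (nat_lit 128) (nat_lit 5) (nat_lit 132) (nat_lit 5) (nat_lit 133) (nat_lit 5) (nat_lit 350) (nat_lit 291) (nat_lit 259)) (XT.nd (nat_lit 78) (nat_lit 0) (nat_lit 0) (XT.lf (nat_lit 0) (nat_lit 1875185149) (nat_lit 380) (nat_lit 7321959421) (nat_lit 76) (nat_lit 642625393) (nat_lit 123) (nat_lit 5) (nat_lit 128) (nat_lit 5) (nat_lit 124) (nat_lit 5) (nat_lit 351) (nat_lit 291) (nat_lit 258)) (XT.lf (nat_lit 0) (nat_lit 5187781536) (nat_lit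 380) (nat_lit 628995452) (nat_lit 76) (nat_lit 4176758391) (nat_lit 123) (nat_lit 5) (nat_lit 128) (nat_lit 5) (nat_lit 124) (nat_lit 5) (nat_lit 352) (nat_lit 291) (nat_lit 257)))) (XT.nd (nat_lit 78) (nat_lit 380) (nat_lit 0) (XT.lf (nat_lit 0) (nat_lit 6302443047) (nat_lit 304) (nat_lit 2299518761) (nat_lit 380) (nat_lit 1549906484) (nat_lit 119) (nat_lit 5) (nat_lit 123) (nat_lit 5) (nat_lit 124) (nat_lit 5) (nat_lit 353) (nat_lit 291) (nat_lit 256)) (XT.nd (nat_lit 78) (nat_lit 0) (nat_lit 0) (XT.lf (nat_lit 0) (nat_lit 1759517029) (nat_lit 380) (nat_lit 7230730977) (nat_lit 76) (nat_lit 1324469713) (nat_lit 114) (nat_lit 5) (nat_lit 119) (nat_lit 5) (nat_lit 115) (nat_lit 5) (nat_lit 354) (nat_lit 291) (nat_lit 255)) (XT.lf (nat_lit 0) (nat_lit 5141629417) (nat_lit 380) (nat_lit 301740955) (nat_lit 76) (nat_lit 5038504114) (nat_lit 114) (nat_lit 5) (nat_lit 119) (nat_lit 5) (nat_lit 115) (nat_lit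 5) (nat_lit 355) (nat_lit 291) (nat_lit 254))))) (XT.nd (nat_lit 234) (nat_lit 836) (nat_lit 0) (XT.nd (nat_lit 78) (nat_lit 380) (nat_lit 0) (XT.lf (nat_lit 0) (nat_lit 6885729769) (nat_lit 304) (nat_lit 1749872755) (nat_lit 380) (nat_lit 2018149915) (nat_lit 110) (nat_lit 5) (nat_lit 114) (nat_lit 5) (nat_lit 115) (nat_lit 5) (nat_lit 356) (nat_lit 291) (nat_lit 253)) (XT.nd (nat_lit 78) (nat_lit 0) (nat_lit 0) (XT.lf (nat_lit 0) (nat_lit 1376741674) (nat_lit 380) (nat_lit 7417206487) (nat_lit 76) (nat_lit 2036435458) (nat_lit 105) (nat_lit 5) (nat_lit 110) (nat_lit 5) (nat_lit 106) (nat_lit 5) (nat_lit 357) (nat_lit 291) (nat_lit 252)) (XT.lf (nat_lit 0) (nat_lit 4833685661) (nat_lit 380) (nat_lit 246417995) (nat_lit 76) (nat_lit 5931604416) (nat_lit 105) (nat_lit 5) (nat_lit 110) (nat_lit 5) (nat_lit 106) (nat_lit 5) (nat_lit 358) (nat_lit 291) (nat_lit 251)))) (XT.nd (nat_lit 156) (nat_lit 228) (nat_lit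 0) (XT.nd (nat_lit 78) (nat_lit 380) (nat_lit 0) (XT.lf (nat_lit 0) (nat_lit 7197798082) (nat_lit 228) (nat_lit 1212347604) (nat_lit 304) (nat_lit 2787868693) (nat_lit 102) (nat_lit 5) (nat_lit 105) (nat_lit 5) (nat_lit 106) (nat_lit 5) (nat_lit 359) (nat_lit 291) (nat_lit 250)) (XT.lf (nat_lit 0) (nat_lit 699648701) (nat_lit 380) (nat_lit 7958183648) (nat_lit 76) (nat_lit 2731608032) (nat_lit 97) (nat_lit 5) (nat_lit 102) (nat_lit 5) (nat_lit 98) (nat_lit 5) (nat_lit 360) (nat_lit 291) (nat_lit 249))) (XT.nd (nat_lit 78) (nat_lit 228) (nat_lit 0) (XT.lf (nat_lit 0) (nat_lit 4235892917) (nat_lit 380) (nat_lit 540645092) (nat_lit 76) (nat_lit 6809253998) (nat_lit 97) (nat_lit 5) (nat_lit 102) (nat_lit 5) (nat_lit 98) (nat_lit 5) (nat_lit 361) (nat_lit 291) (nat_lit 248)) (XT.lf (nat_lit 0) (nat_lit 7158608712) (nat_lit 228) (nat_lit 737299519) (nat_lit 304) (nat_lit 3891609965) (nat_lit 94) (nat_lit 5) (nat_lit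 97) (nat_lit 5) (nat_lit 98) (nat_lit 5) (nat_lit 362) (nat_lit 291) (nat_lit 247)))))) (XT.nd (nat_lit 546) (nat_lit 912) (nat_lit 0) (XT.nd (nat_lit 234) (nat_lit 684) (nat_lit 0) (XT.nd (nat_lit 78) (nat_lit 304) (nat_lit 0) (XT.lf (nat_lit 0) (nat_lit 3050399061) (nat_lit 228) (nat_lit 8632377944) (nat_lit 304) (nat_lit 312021683) (nat_lit 91) (nat_lit 5) (nat_lit 94) (nat_lit 5) (nat_lit 95) (nat_lit 5) (nat_lit 363) (nat_lit 291) (nat_lit 246)) (XT.nd (nat_lit 78) (nat_lit 228) (nat_lit 0) (XT.lf (nat_lit 0) (nat_lit 3313112013) (nat_lit 304) (nat_lit 1273306228) (nat_lit 76) (nat_lit 7620798925) (nat_lit 90) (nat_lit 5) (nat_lit 94) (nat_lit 5) (nat_lit 91) (nat_lit 5) (nat_lit 364) (nat_lit 291) (nat_lit 245)) (XT.lf (nat_lit 0) (nat_lit 6676292689) (nat_lit 228) (nat_lit 379592483) (nat_lit 304) (nat_lit 5369588554) (nat_lit 87) (nat_lit 5) (nat_lit 90) (nat_lit 5) (nat_lit 91) (nat_lit 5) (nat_lit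 365) (nat_lit 291) (nat_lit 244)))) (XT.nd (nat_lit 156) (nat_lit 380) (nat_lit 0) (XT.nd (nat_lit 78) (nat_lit 76) (nat_lit 0) (XT.lf (nat_lit 0) (nat_lit 2165494220) (nat_lit 228) (nat_lit 8768623645) (nat_lit 304) (nat_lit 1715477359) (nat_lit 84) (nat_lit 5) (nat_lit 87) (nat_lit 5) (nat_lit 88) (nat_lit 5) (nat_lit 366) (nat_lit 291) (nat_lit 243)) (XT.lf (nat_lit 0) (nat_lit 2022224569) (nat_lit 304) (nat_lit 2546679132) (nat_lit 76) (nat_lit 8310539719) (nat_lit 83) (nat_lit 5) (nat_lit 87) (nat_lit 5) (nat_lit 84) (nat_lit 5) (nat_lit 367) (nat_lit 291) (nat_lit 242))) (XT.nd (nat_lit 78) (nat_lit 228) (nat_lit 0) (XT.lf (nat_lit 0) (nat_lit 5644926038) (nat_lit 152) (nat_lit 199873505) (nat_lit 228) (nat_lit 7270672799) (nat_lit 81) (nat_lit 5) (nat_lit 83) (nat_lit 5) (nat_lit 84) (nat_lit 5) (nat_lit 368) (nat_lit 291) (nat_lit 241)) (XT.lf (nat_lit 0) (nat_lit 670703213) (nat_lit 228) (nat_lit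 9138410498) (nat_lit 304) (nat_lit 3548667696) (nat_lit 78) (nat_lit 5) (nat_lit 81) (nat_lit 5) (nat_lit 82) (nat_lit 5) (nat_lit 369) (nat_lit 291) (nat_lit 240))))) (XT.nd (nat_lit 234) (nat_lit 684) (nat_lit 0) (XT.nd (nat_lit 78) (nat_lit 152) (nat_lit 0) (XT.lf (nat_lit 0) (nat_lit 311063073) (nat_lit 304) (nat_lit 4478876874) (nat_lit 76) (nat_lit 8816399301) (nat_lit 77) (nat_lit 5) (nat_lit 81) (nat_lit 5) (nat_lit 78) (nat_lit 5) (nat_lit 370) (nat_lit 291) (nat_lit 239)) (XT.nd (nat_lit 78) (nat_lit 0) (nat_lit 0) (XT.lf (nat_lit 0) (nat_lit 3941974832) (nat_lit 152) (nat_lit 265997463) (nat_lit 228) (nat_lit 9653556323) (nat_lit 75) (nat_lit 5) (nat_lit 77) (nat_lit 5) (nat_lit 78) (nat_lit 5) (nat_lit 371) (nat_lit 291) (nat_lit 238)) (XT.lf (nat_lit 0) (nat_lit 8264827098) (nat_lit 228) (nat_lit 1534136375) (nat_lit 76) (nat_lit 4324128940) (nat_lit 75) (nat_lit 5) (nat_lit 78) (nat_lit 5)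 (nat_lit 76) (nat_lit 5) (nat_lit 372) (nat_lit 291) (nat_lit 237)))) (XT.nd (nat_lit 156) (nat_lit 228) (nat_lit 0) (XT.nd (nat_lit 78) (nat_lit 228) (nat_lit 0) (XT.lf (nat_lit 0) (nat_lit 7166558356) (nat_lit 228) (nat_lit 5304787168) (nat_lit 304) (nat_lit 1920328463) (nat_lit 72) (nat_lit 5) (nat_lit 75) (nat_lit 5) (nat_lit 76) (nat_lit 5) (nat_lit 373) (nat_lit 291) (nat_lit 236)) (XT.lf (nat_lit 0) (nat_lit 1425354500) (nat_lit 152) (nat_lit 654631886) (nat_lit 228) (nat_lit 12588142293) (nat_lit 69) (nat_lit 5) (nat_lit 71) (nat_lit 5) (nat_lit 72) (nat_lit 5) (nat_lit 374) (nat_lit 291) (nat_lit 235))) (XT.nd (nat_lit 78) (nat_lit 228) (nat_lit 0) (XT.lf (nat_lit 0) (nat_lit 6231988718) (nat_lit 228) (nat_lit 4600659190) (nat_lit 76) (nat_lit 4117559258) (nat_lit 69) (nat_lit 5) (nat_lit 72) (nat_lit 5) (nat_lit 70) (nat_lit 5) (nat_lit 375) (nat_lit 291) (nat_lit 234)) (XT.lf (nat_lit 0) (nat_lit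 4306492791) (nat_lit 228) (nat_lit 6208037877) (nat_lit 304) (nat_lit 4726046489) (nat_lit 66) (nat_lit 5) (nat_lit 69) (nat_lit 5) (nat_lit 70) (nat_lit 5) (nat_lit 376) (nat_lit 291) (nat_lit 233))))))))
noncomputable def xc82 : XT := (XT.nd (nat_lit 2106) (nat_lit 1140) (nat_lit 0) (XT.nd (nat_lit 1014) (nat_lit 1064) (nat_lit 0) (XT.nd (nat_lit 468) (nat_lit 760) (nat_lit 0) (XT.nd (nat_lit 234) (nat_lit 228) (nat_lit 0) (XT.nd (nat_lit 78) (nat_lit 380) (nat_lit 0) (XT.lf (nat_lit 0) (nat_lit 13504091924) (nat_lit 228) (nat_lit 1426553107) (nat_lit 304) (nat_lit 608868614) (nat_lit 66) (nat_lit 5) (nat_lit 69) (nat_lit 5) (nat_lit 70) (nat_lit 5) (nat_lit 377) (nat_lit 291) (nat_lit 232)) (XT.nd (nat_lit 78) (nat_lit 152) (nat_lit 0) (XT.lf (nat_lit 0) (nat_lit 3623644383) (nat_lit 228) (nat_lit 8714615372) (nat_lit 76) (nat_lit 3506238253) (nat_lit 63) (nat_lit 5) (nat_lit 66) (nat_lit 5) (nat_lit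 64) (nat_lit 5) (nat_lit 378) (nat_lit 291) (nat_lit 231)) (XT.lf (nat_lit 0) (nat_lit 370665737) (nat_lit 152) (nat_lit 7598348941) (nat_lit 228) (nat_lit 8189500365) (nat_lit 61) (nat_lit 5) (nat_lit 63) (nat_lit 5) (nat_lit 64) (nat_lit 5) (nat_lit 379) (nat_lit 291) (nat_lit 230)))) (XT.nd (nat_lit 78) (nat_lit 228) (nat_lit 0) (XT.lf (nat_lit 0) (nat_lit 9837767192) (nat_lit 152) (nat_lit 2655161959) (nat_lit 228) (nat_lit 3987585309) (nat_lit 61) (nat_lit 5) (nat_lit 63) (nat_lit 5) (nat_lit 64) (nat_lit 5) (nat_lit 380) (nat_lit 291) (nat_lit 229)) (XT.nd (nat_lit 78) (nat_lit 0) (nat_lit 0) (XT.lf (nat_lit 0) (nat_lit 344654737) (nat_lit 228) (nat_lit 14076759115) (nat_lit 76) (nat_lit 2390341494) (nat_lit 58) (nat_lit 5) (nat_lit 61) (nat_lit 5) (nat_lit 59) (nat_lit 5) (nat_lit 381) (nat_lit 291) (nat_lit 228)) (XT.lf (nat_lit 0) (nat_lit 4781910329) (nat_lit 228) (nat_lit 4755473124) (nat_lit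 76) (nat_lit 7612716465) (nat_lit 58) (nat_lit 5) (nat_lit 61) (nat_lit 5) (nat_lit 59) (nat_lit 5) (nat_lit 382) (nat_lit 291) (nat_lit 227))))) (XT.nd (nat_lit 234) (nat_lit 380) (nat_lit 0) (XT.nd (nat_lit 78) (nat_lit 228) (nat_lit 0) (XT.lf (nat_lit 0) (nat_lit 4874195675) (nat_lit 152) (nat_lit 4487236092) (nat_lit 228) (nat_lit 8136895157) (nat_lit 56) (nat_lit 5) (nat_lit 58) (nat_lit 5) (nat_lit 59) (nat_lit 5) (nat_lit 383) (nat_lit 291) (nat_lit 226)) (XT.nd (nat_lit 78) (nat_lit 228) (nat_lit 0) (XT.lf (nat_lit 0) (nat_lit 14096189824) (nat_lit 228) (nat_lit 3039233863) (nat_lit 76) (nat_lit 721047873) (nat_lit 56) (nat_lit 5) (nat_lit 59) (nat_lit 5) (nat_lit 57) (nat_lit 4) (nat_lit 384) (nat_lit 291) (nat_lit 225)) (XT.lf (nat_lit 0) (nat_lit 807697999) (nat_lit 228) (nat_lit 11373090281) (nat_lit 76) (nat_lit 6042122935) (nat_lit 53) (nat_lit 5) (nat_lit 56) (nat_lit 5) (nat_lit 54) (nat_lit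 5) (nat_lit 385) (nat_lit 291) (nat_lit 224)))) (XT.nd (nat_lit 156) (nat_lit 228) (nat_lit 0) (XT.nd (nat_lit 78) (nat_lit 152) (nat_lit 0) (XT.lf (nat_lit 0) (nat_lit 5431796692) (nat_lit 228) (nat_lit 1603833499) (nat_lit 76) (nat_lit 11563763038) (nat_lit 53) (nat_lit 5) (nat_lit 56) (nat_lit 5) (nat_lit 54) (nat_lit 5) (nat_lit 386) (nat_lit 291) (nat_lit 223)) (XT.lf (nat_lit 0) (nat_lit 8562751832) (nat_lit 152) (nat_lit 1678898612) (nat_lit 228) (nat_lit 8744113940) (nat_lit 51) (nat_lit 5) (nat_lit 53) (nat_lit 5) (nat_lit 54) (nat_lit 5) (nat_lit 387) (nat_lit 291) (nat_lit 222))) (XT.nd (nat_lit 78) (nat_lit 228) (nat_lit 0) (XT.lf (nat_lit 0) (nat_lit 15213942026) (nat_lit 228) (nat_lit 416098787) (nat_lit 76) (nat_lit 3753147072) (nat_lit 51) (nat_lit 5) (nat_lit 54) (nat_lit 5) (nat_lit 52) (nat_lit 4) (nat_lit 388) (nat_lit 291) (nat_lit 221)) (XT.lf (nat_lit 0) (nat_lit 611790816) (nat_lit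 228) (nat_lit 9787648830) (nat_lit 76) (nat_lit 9390557579) (nat_lit 48) (nat_lit 5) (nat_lit 51) (nat_lit 5) (nat_lit 49) (nat_lit 5) (nat_lit 389) (nat_lit 291) (nat_lit 220)))))) (XT.nd (nat_lit 546) (nat_lit 532) (nat_lit 0) (XT.nd (nat_lit 234) (nat_lit 304) (nat_lit 0) (XT.nd (nat_lit 78) (nat_lit 76) (nat_lit 0) (XT.lf (nat_lit 0) (nat_lit 438980638) (nat_lit 152) (nat_lit 4987926086) (nat_lit 228) (nat_lit 14781637370) (nat_lit 46) (nat_lit 5) (nat_lit 48) (nat_lit 5) (nat_lit 49) (nat_lit 5) (nat_lit 390) (nat_lit 291) (nat_lit 219)) (XT.nd (nat_lit 78) (nat_lit 76) (nat_lit 0) (XT.lf (nat_lit 0) (nat_lit 10458053523) (nat_lit 228) (nat_lit 9531657605) (nat_lit 76) (nat_lit 647793787) (nat_lit 46) (nat_lit 5) (nat_lit 49) (nat_lit 5) (nat_lit 47) (nat_lit 4) (nat_lit 391) (nat_lit 291) (nat_lit 218)) (XT.lf (nat_lit 0) (nat_lit 922376978) (nat_lit 76) (nat_lit 14743126527) (nat_lit 152) (nat_lit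 5413074715) (nat_lit 45) (nat_lit 5) (nat_lit 46) (nat_lit 5) (nat_lit 47) (nat_lit 4) (nat_lit 392) (nat_lit 291) (nat_lit 217)))) (XT.nd (nat_lit 156) (nat_lit 76) (nat_lit 0) (XT.nd (nat_lit 78) (nat_lit 228) (nat_lit 0) (XT.lf (nat_lit 0) (nat_lit 11826384829) (nat_lit 76) (nat_lit 9266550388) (nat_lit 152) (nat_lit 438040348) (nat_lit 45) (nat_lit 5) (nat_lit 46) (nat_lit 5) (nat_lit 47) (nat_lit 4) (nat_lit 393) (nat_lit 291) (nat_lit 216)) (XT.lf (nat_lit 0) (nat_lit 976622110) (nat_lit 152) (nat_lit 3595702170) (nat_lit 228) (nat_lit 17423947721) (nat_lit 42) (nat_lit 5) (nat_lit 44) (nat_lit 5) (nat_lit 45) (nat_lit 5) (nat_lit 394) (nat_lit 291) (nat_lit 215))) (XT.nd (nat_lit 78) (nat_lit 76) (nat_lit 0) (XT.lf (nat_lit 0) (nat_lit 9813010490) (nat_lit 228) (nat_lit 10380359652) (nat_lit 76) (nat_lit 2279366831) (nat_lit 42) (nat_lit 5) (nat_lit 45) (nat_lit 5) (nat_lit 43) (nat_lit 4) (nat_lit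 395) (nat_lit 291) (nat_lit 214)) (XT.lf (nat_lit 0) (nat_lit 495786797) (nat_lit 76) (nat_lit 14724685933) (nat_lit 152) (nat_lit 7742740577) (nat_lit 41) (nat_lit 5) (nat_lit 42) (nat_lit 5) (nat_lit 43) (nat_lit 4) (nat_lit 396) (nat_lit 291) (nat_lit 213))))) (XT.nd (nat_lit 234) (nat_lit 304) (nat_lit 0) (XT.nd (nat_lit 78) (nat_lit 228) (nat_lit 0) (XT.lf (nat_lit 0) (nat_lit 11855161667) (nat_lit 76) (nat_lit 9009367696) (nat_lit 152) (nat_lit 2601647409) (nat_lit 41) (nat_lit 5) (nat_lit 42) (nat_lit 5) (nat_lit 43) (nat_lit 4) (nat_lit 397) (nat_lit 291) (nat_lit 212)) (XT.nd (nat_lit 78) (nat_lit 152) (nat_lit 0) (XT.lf (nat_lit 0) (nat_lit 2611254866) (nat_lit 152) (nat_lit 509619322) (nat_lit 76) (nat_lit 20863477694) (nat_lit 40) (nat_lit 5) (nat_lit 42) (nat_lit 5) (nat_lit 41) (nat_lit 5) (nat_lit 398) (nat_lit 291) (nat_lit 211)) (XT.lf (nat_lit 0) (nat_lit 8034971955) (nat_lit 228) (nat_lit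 13482665143) (nat_lit 76) (nat_lit 2996464453) (nat_lit 38) (nat_lit 5) (nat_lit 41) (nat_lit 5) (nat_lit 39) (nat_lit 4) (nat_lit 399) (nat_lit 291) (nat_lit 210)))) (XT.nd (nat_lit 156) (nat_lit 228) (nat_lit 0) (XT.nd (nat_lit 78) (nat_lit 76) (nat_lit 0) (XT.lf (nat_lit 0) (nat_lit 13628613526) (nat_lit 228) (nat_lit 2214697879) (nat_lit 76) (nat_lit 9216219433) (nat_lit 38) (nat_lit 5) (nat_lit 41) (nat_lit 5) (nat_lit 39) (nat_lit 4) (nat_lit 400) (nat_lit 291) (nat_lit 209)) (XT.lf (nat_lit 0) (nat_lit 9525408316) (nat_lit 76) (nat_lit 9928177473) (nat_lit 152) (nat_lit 6165834984) (nat_lit 37) (nat_lit 5) (nat_lit 38) (nat_lit 5) (nat_lit 39) (nat_lit 4) (nat_lit 401) (nat_lit 291) (nat_lit 208))) (XT.nd (nat_lit 78) (nat_lit 228) (nat_lit 0) (XT.lf (nat_lit 0) (nat_lit 21611849322) (nat_lit 76) (nat_lit 3836103359) (nat_lit 152) (nat_lit 748318675) (nat_lit 37) (nat_lit 5) (nat_lit 38) (nat_lit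 5) (nat_lit 39) (nat_lit 4) (nat_lit 402) (nat_lit 291) (nat_lit 207)) (XT.lf (nat_lit 0) (nat_lit 4804964585) (nat_lit 228) (nat_lit 19495656311) (nat_lit 76) (nat_lit 2486390547) (nat_lit 34) (nat_lit 5) (nat_lit 37) (nat_lit 5) (nat_lit 35) (nat_lit 4) (nat_lit 403) (nat_lit 291) (nat_lit 206))))))) (XT.nd (nat_lit 1014) (nat_lit 532) (nat_lit 0) (XT.nd (nat_lit 468) (nat_lit 304) (nat_lit 0) (XT.nd (nat_lit 234) (nat_lit 228) (nat_lit 0) (XT.nd (nat_lit 78) (nat_lit 76) (nat_lit 0) (XT.lf (nat_lit 0) (nat_lit 10567450271) (nat_lit 228) (nat_lit 7872965267) (nat_lit 76) (nat_lit 8953109624) (nat_lit 34) (nat_lit 5) (nat_lit 37) (nat_lit 5) (nat_lit 35) (nat_lit 4) (nat_lit 404) (nat_lit 291) (nat_lit 205)) (XT.nd (nat_lit 78) (nat_lit 0) (nat_lit 0) (XT.lf (nat_lit 0) (nat_lit 4130053638) (nat_lit 76) (nat_lit 12386157630) (nat_lit 152) (nat_lit 11501623945) (nat_lit 33) (nat_lit 5) (nat_lit 34) (nat_lit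 5) (nat_lit 35) (nat_lit 4) (nat_lit 405) (nat_lit 291) (nat_lit 204)) (XT.lf (nat_lit 0) (nat_lit 16606085940) (nat_lit 76) (nat_lit 6090850944) (nat_lit 152) (nat_lit 5962335488) (nat_lit 33) (nat_lit 5) (nat_lit 34) (nat_lit 5) (nat_lit 35) (nat_lit 4) (nat_lit 406) (nat_lit 291) (nat_lit 203)))) (XT.nd (nat_lit 78) (nat_lit 76) (nat_lit 0) (XT.lf (nat_lit 0) (nat_lit 86754660) (nat_lit 152) (nat_lit 28955492220) (nat_lit 152) (nat_lit 278333663) (nat_lit 31) (nat_lit 4) (nat_lit 33) (nat_lit 5) (nat_lit 33) (nat_lit 4) (nat_lit 407) (nat_lit 291) (nat_lit 202)) (XT.nd (nat_lit 78) (nat_lit 0) (nat_lit 0) (XT.lf (nat_lit 0) (nat_lit 5625185097) (nat_lit 228) (nat_lit 17322862083) (nat_lit 76) (nat_lit 7047341090) (nat_lit 30) (nat_lit 5) (nat_lit 33) (nat_lit 5) (nat_lit 31) (nat_lit 4) (nat_lit 408) (nat_lit 291) (nat_lit 201)) (XT.lf (nat_lit 0) (nat_lit 11675539762) (nat_lit 228) (nat_lit 5103583156)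 (nat_lit 76) (nat_lit 13911977441) (nat_lit 30) (nat_lit 5) (nat_lit 33) (nat_lit 5) (nat_lit 31) (nat_lit 4) (nat_lit 409) (nat_lit 291) (nat_lit 200))))) (XT.nd (nat_lit 234) (nat_lit 152) (nat_lit 0) (XT.nd (nat_lit 78) (nat_lit 76) (nat_lit 0) (XT.lf (nat_lit 0) (nat_lit 7585381565) (nat_lit 76) (nat_lit 10370982104) (nat_lit 152) (nat_lit 13449853850) (nat_lit 29) (nat_lit 5) (nat_lit 30) (nat_lit 5) (nat_lit 31) (nat_lit 4) (nat_lit 410) (nat_lit 291) (nat_lit 199)) (XT.nd (nat_lit 78) (nat_lit 76) (nat_lit 0) (XT.lf (nat_lit 0) (nat_lit 20715163292) (nat_lit 76) (nat_lit 3738298750) (nat_lit 152) (nat_lit 7688493054) (nat_lit 29) (nat_lit 5) (nat_lit 30) (nat_lit 5) (nat_lit 31) (nat_lit 4) (nat_lit 411) (nat_lit 291) (nat_lit 198)) (XT.lf (nat_lit 0) (nat_lit 1290854182) (nat_lit 76) (nat_lit 29873572475) (nat_lit 76) (nat_lit 1734771868) (nat_lit 28) (nat_lit 4) (nat_lit 29) (nat_lit 5) (nat_lit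 29) (nat_lit 4) (nat_lit 412) (nat_lit 291) (nat_lit 197)))) (XT.nd (nat_lit 156) (nat_lit 76) (nat_lit 0) (XT.nd (nat_lit 78) (nat_lit 0) (nat_lit 0) (XT.lf (nat_lit 0) (nat_lit 4442132202) (nat_lit 152) (nat_lit 19175565731) (nat_lit 76) (nat_lit 10056283847) (nat_lit 27) (nat_lit 5) (nat_lit 29) (nat_lit 5) (nat_lit 28) (nat_lit 4) (nat_lit 413) (nat_lit 291) (nat_lit 196)) (XT.lf (nat_lit 0) (nat_lit 10746990758) (nat_lit 152) (nat_lit 6429414997) (nat_lit 76) (nat_lit 17295764192) (nat_lit 27) (nat_lit 5) (nat_lit 29) (nat_lit 5) (nat_lit 28) (nat_lit 4) (nat_lit 414) (nat_lit 291) (nat_lit 195))) (XT.nd (nat_lit 78) (nat_lit 0) (nat_lit 0) (XT.lf (nat_lit 0) (nat_lit 6790426642) (nat_lit 76) (nat_lit 10494011636) (nat_lit 152) (nat_lit 18008564249) (nat_lit 26) (nat_lit 5) (nat_lit 27) (nat_lit 5) (nat_lit 28) (nat_lit 4) (nat_lit 415) (nat_lit 291) (nat_lit 194)) (XT.lf (nat_lit 0) (nat_lit 20497864852)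 (nat_lit 76) (nat_lit 3563482023) (nat_lit 152) (nat_lit 12075815085) (nat_lit 26) (nat_lit 5) (nat_lit 27) (nat_lit 5) (nat_lit 28) (nat_lit 4) (nat_lit 416) (nat_lit 291) (nat_lit 193)))))) (XT.nd (nat_lit 546) (nat_lit 228) (nat_lit 0) (XT.nd (nat_lit 234) (nat_lit 152) (nat_lit 0) (XT.nd (nat_lit 78) (nat_lit 152) (nat_lit 0) (XT.lf (nat_lit 0) (nat_lit 31054790107) (nat_lit 152) (nat_lit 2464543295) (nat_lit 0) (nat_lit 3486917899) (nat_lit 26) (nat_lit 5) (nat_lit 28) (nat_lit 4) (nat_lit 26) (nat_lit 4) (nat_lit 417) (nat_lit 291) (nat_lit 192)) (XT.nd (nat_lit 78) (nat_lit 0) (nat_lit 0) (XT.lf (nat_lit 0) (nat_lit 473789474) (nat_lit 152) (nat_lit 26651549523) (nat_lit 76) (nat_lit 10772249563) (nat_lit 24) (nat_lit 5) (nat_lit 26) (nat_lit 5) (nat_lit 25) (nat_lit 4) (nat_lit 418) (nat_lit 291) (nat_lit 191)) (XT.lf (nat_lit 0) (nat_lit 6976815742) (nat_lit 152) (nat_lit 13494551781) (nat_lit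 76) (nat_lit 18342393338) (nat_lit 24) (nat_lit 5) (nat_lit 26) (nat_lit 5) (nat_lit 25) (nat_lit 4) (nat_lit 419) (nat_lit 291) (nat_lit 190)))) (XT.nd (nat_lit 156) (nat_lit 76) (nat_lit 0) (XT.nd (nat_lit 78) (nat_lit 0) (nat_lit 0) (XT.lf (nat_lit 0) (nat_lit 19754723) (nat_lit 76) (nat_lit 13635468059) (nat_lit 152) (nat_lit 26102788579) (nat_lit 23) (nat_lit 5) (nat_lit 24) (nat_lit 5) (nat_lit 25) (nat_lit 4) (nat_lit 420) (nat_lit 291) (nat_lit 189)) (XT.lf (nat_lit 0) (nat_lit 14178699309) (nat_lit 76) (nat_lit 6471871271) (nat_lit 152) (nat_lit 20076522819) (nat_lit 23) (nat_lit 5) (nat_lit 24) (nat_lit 5) (nat_lit 25) (nat_lit 4) (nat_lit 421) (nat_lit 291) (nat_lit 188))) (XT.nd (nat_lit 78) (nat_lit 76) (nat_lit 0) (XT.lf (nat_lit 0) (nat_lit 27845221637) (nat_lit 152) (nat_lit 13008286494) (nat_lit 0) (nat_lit 872058112) (nat_lit 23) (nat_lit 5) (nat_lit 25) (nat_lit 4) (nat_lit 23) (nat_lit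 4) (nat_lit 422) (nat_lit 291) (nat_lit 187)) (XT.lf (nat_lit 0) (nat_lit 854964085) (nat_lit 76) (nat_lit 34454333550) (nat_lit 76) (nat_lit 7443089658) (nat_lit 22) (nat_lit 4) (nat_lit 23) (nat_lit 5) (nat_lit 23) (nat_lit 4) (nat_lit 423) (nat_lit 291) (nat_lit 186))))) (XT.nd (nat_lit 234) (nat_lit 152) (nat_lit 0) (XT.nd (nat_lit 78) (nat_lit 76) (nat_lit 0) (XT.lf (nat_lit 0) (nat_lit 15365453226) (nat_lit 76) (nat_lit 27744695413) (nat_lit 76) (nat_lit 696480292) (nat_lit 22) (nat_lit 4) (nat_lit 23) (nat_lit 5) (nat_lit 23) (nat_lit 4) (nat_lit 424) (nat_lit 291) (nat_lit 185)) (XT.nd (nat_lit 78) (nat_lit 0) (nat_lit 0) (XT.lf (nat_lit 0) (nat_lit 6112372210) (nat_lit 152) (nat_lit 14675993931) (nat_lit 76) (nat_lit 24102874405) (nat_lit 21) (nat_lit 5) (nat_lit 23) (nat_lit 5) (nat_lit 22) (nat_lit 4) (nat_lit 425) (nat_lit 291) (nat_lit 184)) (XT.lf (nat_lit 0) (nat_lit 13093874426) (nat_lit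 152) (nat_lit 538393363) (nat_lit 76) (nat_lit 32376445771) (nat_lit 21) (nat_lit 5) (nat_lit 23) (nat_lit 5) (nat_lit 22) (nat_lit 4) (nat_lit 426) (nat_lit 291) (nat_lit 183)))) (XT.nd (nat_lit 156) (nat_lit 76) (nat_lit 0) (XT.nd (nat_lit 78) (nat_lit 0) (nat_lit 0) (XT.lf (nat_lit 0) (nat_lit 14269116087) (nat_lit 76) (nat_lit 6135764921) (nat_lit 152) (nat_lit 26751229342) (nat_lit 20) (nat_lit 5) (nat_lit 21) (nat_lit 5) (nat_lit 22) (nat_lit 4) (nat_lit 427) (nat_lit 291) (nat_lit 182)) (XT.lf (nat_lit 0) (nat_lit 27938885274) (nat_lit 152) (nat_lit 18853875836) (nat_lit 0) (nat_lit 1545059236) (nat_lit 20) (nat_lit 5) (nat_lit 22) (nat_lit 4) (nat_lit 20) (nat_lit 4) (nat_lit 428) (nat_lit 291) (nat_lit 181))) (XT.nd (nat_lit 78) (nat_lit 76) (nat_lit 0) (XT.lf (nat_lit 0) (nat_lit 35743091722) (nat_lit 152) (nat_lit 4492262882) (nat_lit 0) (nat_lit 9318302862) (nat_lit 20) (nat_lit 5) (nat_lit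 22) (nat_lit 4) (nat_lit 20) (nat_lit 4) (nat_lit 429) (nat_lit 291) (nat_lit 180)) (XT.lf (nat_lit 0) (nat_lit 10473754988) (nat_lit 76) (nat_lit 33392263988) (nat_lit 76) (nat_lit 6937414135) (nat_lit 19) (nat_lit 4) (nat_lit 20) (nat_lit 5) (nat_lit 20) (nat_lit 4) (nat_lit 430) (nat_lit 291) (nat_lit 179))))))))
noncomputable def xc83 : XT := (XT.nd (nat_lit 38688) (nat_lit 0) (nat_lit 8360) (XT.nd (nat_lit 1014) (nat_lit 76) (nat_lit 0) (XT.nd (nat_lit 468) (nat_lit 228) (nat_lit 0) (XT.nd (nat_lit 234) (nat_lit 0) (nat_lit 0) (XT.nd (nat_lit 78) (nat_lit 76) (nat_lit 0) (XT.lf (nat_lit 0) (nat_lit 168905472) (nat_lit 152) (nat_lit 26141157174) (nat_lit 76) (nat_lit 25779707336) (nat_lit 18) (nat_lit 5) (nat_lit 20) (nat_lit 5) (nat_lit 19) (nat_lit 4) (nat_lit 431) (nat_lit 291) (nat_lit 178)) (XT.nd (nat_lit 78) (nat_lit 76) (nat_lit 0) (XT.lf (nat_lit 0) (nat_lit 7333378415) (nat_lit 152) (nat_lit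 11625612468) (nat_lit 76) (nat_lit 34454114634) (nat_lit 18) (nat_lit 5) (nat_lit 20) (nat_lit 5) (nat_lit 19) (nat_lit 4) (nat_lit 432) (nat_lit 291) (nat_lit 177)) (XT.lf (nat_lit 0) (nat_lit 3361929500) (nat_lit 76) (nat_lit 11368026272) (nat_lit 152) (nat_lit 40045671350) (nat_lit 17) (nat_lit 5) (nat_lit 18) (nat_lit 5) (nat_lit 19) (nat_lit 4) (nat_lit 433) (nat_lit 291) (nat_lit 176)))) (XT.nd (nat_lit 78) (nat_lit 0) (nat_lit 0) (XT.lf (nat_lit 0) (nat_lit 19008623978) (nat_lit 76) (nat_lit 3442220110) (nat_lit 152) (nat_lit 33725108955) (nat_lit 17) (nat_lit 5) (nat_lit 18) (nat_lit 5) (nat_lit 19) (nat_lit 4) (nat_lit 434) (nat_lit 291) (nat_lit 175)) (XT.nd (nat_lit 78) (nat_lit 0) (nat_lit 0) (XT.lf (nat_lit 0) (nat_lit 30434068941) (nat_lit 152) (nat_lit 22567211579) (nat_lit 0) (nat_lit 4616087972) (nat_lit 17) (nat_lit 5) (nat_lit 19) (nat_lit 4) (nat_lit 17) (nat_lit 4) (nat_lit 435) (nat_lit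 291) (nat_lit 174)) (XT.lf (nat_lit 0) (nat_lit 38676624630) (nat_lit 152) (nat_lit 7590606444) (nat_lit 0) (nat_lit 12834201323) (nat_lit 17) (nat_lit 5) (nat_lit 19) (nat_lit 4) (nat_lit 17) (nat_lit 4) (nat_lit 436) (nat_lit 291) (nat_lit 173))))) (XT.nd (nat_lit 234) (nat_lit 76) (nat_lit 0) (XT.nd (nat_lit 78) (nat_lit 76) (nat_lit 0) (XT.lf (nat_lit 0) (nat_lit 7964069091) (nat_lit 76) (nat_lit 39265111077) (nat_lit 76) (nat_lit 13398957344) (nat_lit 16) (nat_lit 4) (nat_lit 17) (nat_lit 5) (nat_lit 17) (nat_lit 4) (nat_lit 437) (nat_lit 291) (nat_lit 172)) (XT.nd (nat_lit 78) (nat_lit 76) (nat_lit 0) (XT.lf (nat_lit 0) (nat_lit 24114610589) (nat_lit 76) (nat_lit 31986669055) (nat_lit 76) (nat_lit 6097476074) (nat_lit 16) (nat_lit 4) (nat_lit 17) (nat_lit 5) (nat_lit 17) (nat_lit 4) (nat_lit 438) (nat_lit 291) (nat_lit 171)) (XT.lf (nat_lit 0) (nat_lit 1381863932) (nat_lit 152) (nat_lit 23106377400)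 (nat_lit 76) (nat_lit 39328244172) (nat_lit 15) (nat_lit 5) (nat_lit 17) (nat_lit 5) (nat_lit 16) (nat_lit 4) (nat_lit 439) (nat_lit 291) (nat_lit 170)))) (XT.nd (nat_lit 156) (nat_lit 0) (nat_lit 0) (XT.nd (nat_lit 78) (nat_lit 76) (nat_lit 0) (XT.lf (nat_lit 0) (nat_lit 8950004813) (nat_lit 152) (nat_lit 7764768112) (nat_lit 76) (nat_lit 48766554785) (nat_lit 15) (nat_lit 5) (nat_lit 17) (nat_lit 5) (nat_lit 16) (nat_lit 4) (nat_lit 440) (nat_lit 291) (nat_lit 169)) (XT.lf (nat_lit 0) (nat_lit 8172169149) (nat_lit 76) (nat_lit 8638929968) (nat_lit 152) (nat_lit 50383039641) (nat_lit 14) (nat_lit 5) (nat_lit 15) (nat_lit 5) (nat_lit 16) (nat_lit 4) (nat_lit 441) (nat_lit 291) (nat_lit 168))) (XT.nd (nat_lit 78) (nat_lit 0) (nat_lit 0) (XT.lf (nat_lit 0) (nat_lit 24722235006) (nat_lit 76) (nat_lit 251689692) (nat_lit 152) (nat_lit 43982433310) (nat_lit 14) (nat_lit 5) (nat_lit 15) (nat_lit 5) (nat_lit 16)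 (nat_lit 4) (nat_lit 442) (nat_lit 291) (nat_lit 167)) (XT.lf (nat_lit 0) (nat_lit 33450002910) (nat_lit 152) (nat_lit 29106966414) (nat_lit 0) (nat_lit 8212424279) (nat_lit 14) (nat_lit 5) (nat_lit 16) (nat_lit 4) (nat_lit 14) (nat_lit 4) (nat_lit 443) (nat_lit 291) (nat_lit 166)))))) (XT.nd (nat_lit 37128) (nat_lit 0) (nat_lit 18012) (XT.nd (nat_lit 234) (nat_lit 0) (nat_lit 0) (XT.nd (nat_lit 78) (nat_lit 76) (nat_lit 0) (XT.lf (nat_lit 0) (nat_lit 42170957654) (nat_lit 152) (nat_lit 13551499559) (nat_lit 0) (nat_lit 16914646006) (nat_lit 14) (nat_lit 5) (nat_lit 16) (nat_lit 4) (nat_lit 14) (nat_lit 4) (nat_lit 444) (nat_lit 291) (nat_lit 165)) (XT.nd (nat_lit 78) (nat_lit 0) (nat_lit 0) (XT.lf (nat_lit 0) (nat_lit 2497014865) (nat_lit 76) (nat_lit 48668977755) (nat_lit 76) (nat_lit 23394478713) (nat_lit 13) (nat_lit 4) (nat_lit 14) (nat_lit 5) (nat_lit 14) (nat_lit 4) (nat_lit 445) (nat_lit 291) (nat_lit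 164)) (XT.lf (nat_lit 0) (nat_lit 19282654030) (nat_lit 76) (nat_lit 41273640709) (nat_lit 76) (nat_lit 15981484001) (nat_lit 13) (nat_lit 4) (nat_lit 14) (nat_lit 5) (nat_lit 14) (nat_lit 4) (nat_lit 446) (nat_lit 291) (nat_lit 163)))) (XT.nd (nat_lit 36738) (nat_lit 0) (nat_lit 23180) (XT.nd (nat_lit 36660) (nat_lit 0) (nat_lit 24016) (XT.lf (nat_lit 0) (nat_lit 36550383587) (nat_lit 76) (nat_lit 33666827703) (nat_lit 76) (nat_lit 8357527631) (nat_lit 13) (nat_lit 4) (nat_lit 14) (nat_lit 5) (nat_lit 14) (nat_lit 4) (nat_lit 447) (nat_lit 291) (nat_lit 162)) (XT.lf (nat_lit 0) (nat_lit 163305858) (nat_lit 684) (nat_lit 1598503106) (nat_lit 684) (nat_lit 1598503106) (nat_lit 329) (nat_lit 4) (nat_lit 338) (nat_lit 5) (nat_lit 338) (nat_lit 4) (nat_lit 316) (nat_lit 292) (nat_lit 292))) (XT.nd (nat_lit 78) (nat_lit 760) (nat_lit 0) (XT.lf (nat_lit 0) (nat_lit 37879496) (nat_lit 760) (nat_lit 2044216995)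 (nat_lit 76) (nat_lit 4675165473) (nat_lit 328) (nat_lit 5) (nat_lit 338) (nat_lit 5) (nat_lit 329) (nat_lit 4) (nat_lit 317) (nat_lit 292) (nat_lit 291)) (XT.lf (nat_lit 0) (nat_lit 2363808163) (nat_lit 760) (nat_lit 859961757) (nat_lit 836) (nat_lit 3572816056) (nat_lit 318) (nat_lit 5) (nat_lit 328) (nat_lit 5) (nat_lit 329) (nat_lit 4) (nat_lit 318) (nat_lit 292) (nat_lit 290))))) (XT.nd (nat_lit 234) (nat_lit 3344) (nat_lit 0) (XT.nd (nat_lit 78) (nat_lit 988) (nat_lit 0) (XT.lf (nat_lit 0) (nat_lit 16600081) (nat_lit 836) (nat_lit 6411345796) (nat_lit 836) (nat_lit 411543250) (nat_lit 307) (nat_lit 4) (nat_lit 318) (nat_lit 5) (nat_lit 318) (nat_lit 4) (nat_lit 319) (nat_lit 292) (nat_lit 289)) (XT.nd (nat_lit 78) (nat_lit 912) (nat_lit 0) (XT.lf (nat_lit 0) (nat_lit 2741707190) (nat_lit 912) (nat_lit 2318717820) (nat_lit 76) (nat_lit 1823930686) (nat_lit 306) (nat_lit 5) (nat_lit 318) (nat_lit 5)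 (nat_lit 307) (nat_lit 4) (nat_lit 320) (nat_lit 292) (nat_lit 288)) (XT.lf (nat_lit 0) (nat_lit 2273086326) (nat_lit 912) (nat_lit 3631918555) (nat_lit 988) (nat_lit 1027803339) (nat_lit 294) (nat_lit 5) (nat_lit 306) (nat_lit 5) (nat_lit 307) (nat_lit 4) (nat_lit 321) (nat_lit 292) (nat_lit 287)))) (XT.nd (nat_lit 156) (nat_lit 2280) (nat_lit 0) (XT.nd (nat_lit 78) (nat_lit 988) (nat_lit 0) (XT.lf (nat_lit 0) (nat_lit 2064456236) (nat_lit 988) (nat_lit 41943592) (nat_lit 76) (nat_lit 4877959738) (nat_lit 293) (nat_lit 5) (nat_lit 306) (nat_lit 5) (nat_lit 294) (nat_lit 5) (nat_lit 322) (nat_lit 292) (nat_lit 286)) (XT.lf (nat_lit 0) (nat_lit 4709770407) (nat_lit 988) (nat_lit 470029411) (nat_lit 1064) (nat_lit 1858890696) (nat_lit 280) (nat_lit 5) (nat_lit 293) (nat_lit 5) (nat_lit 294) (nat_lit 5) (nat_lit 323) (nat_lit 292) (nat_lit 285))) (XT.nd (nat_lit 78) (nat_lit 1140) (nat_lit 0) (XT.lf (nat_lit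 0) (nat_lit 1211510773) (nat_lit 1140) (nat_lit 4650137602) (nat_lit 76) (nat_lit 1234409317) (nat_lit 265) (nat_lit 5) (nat_lit 280) (nat_lit 5) (nat_lit 266) (nat_lit 5) (nat_lit 324) (nat_lit 292) (nat_lit 284)) (XT.lf (nat_lit 0) (nat_lit 147494917) (nat_lit 1140) (nat_lit 4127570694) (nat_lit 1216) (nat_lit 2881437869) (nat_lit 250) (nat_lit 5) (nat_lit 265) (nat_lit 5) (nat_lit 266) (nat_lit 5) (nat_lit 325) (nat_lit 292) (nat_lit 283))))))) (XT.nd (nat_lit 1014) (nat_lit 3724) (nat_lit 0) (XT.nd (nat_lit 468) (nat_lit 2660) (nat_lit 0) (XT.nd (nat_lit 234) (nat_lit 1368) (nat_lit 0) (XT.nd (nat_lit 78) (nat_lit 1824) (nat_lit 0) (XT.lf (nat_lit 0) (nat_lit 164501308) (nat_lit 1216) (nat_lit 2125856299) (nat_lit 76) (nat_lit 4929696181) (nat_lit 249) (nat_lit 5) (nat_lit 265) (nat_lit 5) (nat_lit 250) (nat_lit 5) (nat_lit 326) (nat_lit 292) (nat_lit 282)) (XT.nd (nat_lit 78) (nat_lit 608) (nat_lit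 0) (XT.lf (nat_lit 0) (nat_lit 2842989362) (nat_lit 1216) (nat_lit 340328219) (nat_lit 1292) (nat_lit 4103211352) (nat_lit 233) (nat_lit 5) (nat_lit 249) (nat_lit 5) (nat_lit 250) (nat_lit 5) (nat_lit 327) (nat_lit 292) (nat_lit 281)) (XT.lf (nat_lit 0) (nat_lit 555186718) (nat_lit 608) (nat_lit 5694366843) (nat_lit 684) (nat_lit 1106794057) (nat_lit 225) (nat_lit 5) (nat_lit 233) (nat_lit 5) (nat_lit 234) (nat_lit 5) (nat_lit 328) (nat_lit 292) (nat_lit 280)))) (XT.nd (nat_lit 78) (nat_lit 1292) (nat_lit 0) (XT.lf (nat_lit 0) (nat_lit 1904145449) (nat_lit 684) (nat_lit 1745190887) (nat_lit 76) (nat_lit 3779507751) (nat_lit 224) (nat_lit 5) (nat_lit 233) (nat_lit 5) (nat_lit 225) (nat_lit 5) (nat_lit 329) (nat_lit 292) (nat_lit 279)) (XT.nd (nat_lit 78) (nat_lit 684) (nat_lit 0) (XT.lf (nat_lit 0) (nat_lit 3430680745) (nat_lit 608) (nat_lit 1502525203) (nat_lit 684) (nat_lit 2571529882) (nat_lit 216) (nat_lit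 5) (nat_lit 224) (nat_lit 5) (nat_lit 225) (nat_lit 5) (nat_lit 330) (nat_lit 292) (nat_lit 278)) (XT.lf (nat_lit 0) (nat_lit 414723313) (nat_lit 684) (nat_lit 6447224909) (nat_lit 76) (nat_lit 722257932) (nat_lit 207) (nat_lit 5) (nat_lit 216) (nat_lit 5) (nat_lit 208) (nat_lit 5) (nat_lit 331) (nat_lit 292) (nat_lit 277))))) (XT.nd (nat_lit 234) (nat_lit 1520) (nat_lit 0) (XT.nd (nat_lit 78) (nat_lit 1140) (nat_lit 0) (XT.lf (nat_lit 0) (nat_lit 3414573591) (nat_lit 684) (nat_lit 1207824815) (nat_lit 76) (nat_lit 3043673532) (nat_lit 207) (nat_lit 5) (nat_lit 216) (nat_lit 5) (nat_lit 208) (nat_lit 5) (nat_lit 332) (nat_lit 292) (nat_lit 276)) (XT.nd (nat_lit 78) (nat_lit 608) (nat_lit 0) (XT.lf (nat_lit 0) (nat_lit 4182888537) (nat_lit 532) (nat_lit 2283361565) (nat_lit 608) (nat_lit 1285333345) (nat_lit 200) (nat_lit 5) (nat_lit 207) (nat_lit 5) (nat_lit 208) (nat_lit 5) (nat_lit 333) (nat_lit 292)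 (nat_lit 275)) (XT.lf (nat_lit 0) (nat_lit 1689240483) (nat_lit 608) (nat_lit 5990633882) (nat_lit 76) (nat_lit 160698888) (nat_lit 192) (nat_lit 5) (nat_lit 200) (nat_lit 5) (nat_lit 193) (nat_lit 5) (nat_lit 334) (nat_lit 292) (nat_lit 274)))) (XT.nd (nat_lit 156) (nat_lit 1064) (nat_lit 0) (XT.nd (nat_lit 78) (nat_lit 456) (nat_lit 0) (XT.lf (nat_lit 0) (nat_lit 4709804949) (nat_lit 608) (nat_lit 552136905) (nat_lit 76) (nat_lit 2670472376) (nat_lit 192) (nat_lit 5) (nat_lit 200) (nat_lit 5) (nat_lit 193) (nat_lit 5) (nat_lit 335) (nat_lit 292) (nat_lit 273)) (XT.lf (nat_lit 0) (nat_lit 5061306214) (nat_lit 456) (nat_lit 2734144340) (nat_lit 532) (nat_lit 232365649) (nat_lit 186) (nat_lit 5) (nat_lit 192) (nat_lit 5) (nat_lit 193) (nat_lit 5) (nat_lit 336) (nat_lit 292) (nat_lit 272))) (XT.nd (nat_lit 78) (nat_lit 456) (nat_lit 0) (XT.lf (nat_lit 0) (nat_lit 2665521019) (nat_lit 532) (nat_lit 84136641)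 (nat_lit 608) (nat_lit 5376909635) (nat_lit 178) (nat_lit 5) (nat_lit 185) (nat_lit 5) (nat_lit 186) (nat_lit 5) (nat_lit 337) (nat_lit 292) (nat_lit 271)) (XT.lf (nat_lit 0) (nat_lit 186728545) (nat_lit 456) (nat_lit 5614775982) (nat_lit 532) (nat_lit 2427192700) (nat_lit 172) (nat_lit 5) (nat_lit 178) (nat_lit 5) (nat_lit 179) (nat_lit 5) (nat_lit 338) (nat_lit 292) (nat_lit 270)))))) (XT.nd (nat_lit 546) (nat_lit 1824) (nat_lit 0) (XT.nd (nat_lit 234) (nat_lit 988) (nat_lit 0) (XT.nd (nat_lit 78) (nat_lit 836) (nat_lit 0) (XT.lf (nat_lit 0) (nat_lit 583699454) (nat_lit 532) (nat_lit 2313031424) (nat_lit 76) (nat_lit 5437480009) (nat_lit 171) (nat_lit 5) (nat_lit 178) (nat_lit 5) (nat_lit 172) (nat_lit 5) (nat_lit 339) (nat_lit 292) (nat_lit 269)) (XT.nd (nat_lit 78) (nat_lit 380) (nat_lit 0) (XT.lf (nat_lit 0) (nat_lit 3546119561) (nat_lit 456) (nat_lit 54278749) (nat_lit 532) (nat_lit 4842876016) (nat_lit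 165) (nat_lit 5) (nat_lit 171) (nat_lit 5) (nat_lit 172) (nat_lit 5) (nat_lit 340) (nat_lit 292) (nat_lit 268)) (XT.lf (nat_lit 0) (nat_lit 976867499) (nat_lit 380) (nat_lit 5722547681) (nat_lit 456) (nat_lit 1856472249) (nat_lit 160) (nat_lit 5) (nat_lit 165) (nat_lit 5) (nat_lit 166) (nat_lit 5) (nat_lit 341) (nat_lit 292) (nat_lit 267)))) (XT.nd (nat_lit 156) (nat_lit 456) (nat_lit 0) (XT.nd (nat_lit 78) (nat_lit 456) (nat_lit 0) (XT.lf (nat_lit 0) (nat_lit 1177888753) (nat_lit 456) (nat_lit 1644069374) (nat_lit 76) (nat_lit 5850134662) (nat_lit 159) (nat_lit 5) (nat_lit 165) (nat_lit 5) (nat_lit 160) (nat_lit 5) (nat_lit 342) (nat_lit 292) (nat_lit 266)) (XT.lf (nat_lit 0) (nat_lit 4244442409) (nat_lit 532) (nat_lit 4342409977) (nat_lit 76) (nat_lit 205055777) (nat_lit 153) (nat_lit 5) (nat_lit 160) (nat_lit 5) (nat_lit 154) (nat_lit 5) (nat_lit 343) (nat_lit 292) (nat_lit 265))) (XT.nd (nat_lit 78)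 (nat_lit 76) (nat_lit 0) (XT.lf (nat_lit 0) (nat_lit 1764278293) (nat_lit 380) (nat_lit 5634978121) (nat_lit 456) (nat_lit 1516202346) (nat_lit 148) (nat_lit 5) (nat_lit 153) (nat_lit 5) (nat_lit 154) (nat_lit 5) (nat_lit 344) (nat_lit 292) (nat_lit 264)) (XT.lf (nat_lit 0) (nat_lit 1553956676) (nat_lit 456) (nat_lit 1001358674) (nat_lit 76) (nat_lit 6487585523) (nat_lit 147) (nat_lit 5) (nat_lit 153) (nat_lit 5) (nat_lit 148) (nat_lit 5) (nat_lit 345) (nat_lit 292) (nat_lit 263))))) (XT.nd (nat_lit 234) (nat_lit 1064) (nat_lit 0) (XT.nd (nat_lit 78) (nat_lit 380) (nat_lit 0) (XT.lf (nat_lit 0) (nat_lit 4680334891) (nat_lit 456) (nat_lit 3843102570) (nat_lit 76) (nat_lit 650467011) (nat_lit 142) (nat_lit 5) (nat_lit 148) (nat_lit 5) (nat_lit 143) (nat_lit 5) (nat_lit 346) (nat_lit 292) (nat_lit 262)) (XT.nd (nat_lit 78) (nat_lit 76) (nat_lit 0) (XT.lf (nat_lit 0) (nat_lit 2502783698) (nat_lit 304) (nat_lit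 5395017837) (nat_lit 380) (nat_lit 1411143209) (nat_lit 138) (nat_lit 5) (nat_lit 142) (nat_lit 5) (nat_lit 143) (nat_lit 5) (nat_lit 347) (nat_lit 292) (nat_lit 261)) (XT.lf (nat_lit 0) (nat_lit 1706625861) (nat_lit 380) (nat_lit 432374918) (nat_lit 76) (nat_lit 7309232216) (nat_lit 137) (nat_lit 5) (nat_lit 142) (nat_lit 5) (nat_lit 138) (nat_lit 5) (nat_lit 348) (nat_lit 292) (nat_lit 260)))) (XT.nd (nat_lit 156) (nat_lit 380) (nat_lit 0) (XT.nd (nat_lit 78) (nat_lit 304) (nat_lit 0) (XT.lf (nat_lit 0) (nat_lit 4900807667) (nat_lit 456) (nat_lit 3448229309) (nat_lit 76) (nat_lit 1241929814) (nat_lit 132) (nat_lit 5) (nat_lit 138) (nat_lit 5) (nat_lit 133) (nat_lit 5) (nat_lit 349) (nat_lit 292) (nat_lit 259)) (XT.lf (nat_lit 0) (nat_lit 3141965906) (nat_lit 304) (nat_lit 5045267052) (nat_lit 380) (nat_lit 1550879733) (nat_lit 128) (nat_lit 5) (nat_lit 132) (nat_lit 5) (nat_lit 133) (nat_lit 5) (nat_lit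 350) (nat_lit 292) (nat_lit 258))) (XT.nd (nat_lit 78) (nat_lit 0) (nat_lit 0) (XT.lf (nat_lit 0) (nat_lit 11010887) (nat_lit 304) (nat_lit 1614960148) (nat_lit 380) (nat_lit 8263951268) (nat_lit 123) (nat_lit 5) (nat_lit 127) (nat_lit 5) (nat_lit 128) (nat_lit 5) (nat_lit 351) (nat_lit 292) (nat_lit 257)) (XT.lf (nat_lit 0) (nat_lit 4894286322) (nat_lit 380) (nat_lit 3212442060) (nat_lit 76) (nat_lit 1938297974) (nat_lit 123) (nat_lit 5) (nat_lit 128) (nat_lit 5) (nat_lit 124) (nat_lit 5) (nat_lit 352) (nat_lit 292) (nat_lit 256))))))))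
noncomputable def xc84 : XT := (XT.nd (nat_lit 2106) (nat_lit 2280) (nat_lit 0) (XT.nd (nat_lit 1014) (nat_lit 1824) (nat_lit 0) (XT.nd (nat_lit 468) (nat_lit 1368) (nat_lit 0) (XT.nd (nat_lit 234) (nat_lit 684) (nat_lit 0) (XT.nd (nat_lit 78) (nat_lit 380) (nat_lit 0) (XT.lf (nat_lit 0) (nat_lit 3625974134) (nat_lit 304) (nat_lit 4628845073) (nat_lit 380) (nat_lit 1950159389) (nat_lit 119) (nat_lit 5) (nat_lit 123) (nat_lit 5) (nat_lit 124) (nat_lit 5) (nat_lit 353) (nat_lit 292) (nat_lit 255)) (XT.nd (nat_lit 78) (nat_lit 0) (nat_lit 0) (XT.lf (nat_lit 0) (nat_lit 275610069) (nat_lit 304) (nat_lit 1023578739) (nat_lit 380) (nat_lit 9070800550) (nat_lit 114) (nat_lit 5) (nat_lit 118) (nat_lit 5) (nat_lit 119) (nat_lit 5) (nat_lit 354) (nat_lit 292) (nat_lit 254)) (XT.lf (nat_lit 0) (nat_lit 4643977942) (nat_lit 380) (nat_lit 3196808321) (nat_lit 76) (nat_lit 2697488626) (nat_lit 114) (nat_lit 5) (nat_lit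 119) (nat_lit 5) (nat_lit 115) (nat_lit 5) (nat_lit 355) (nat_lit 292) (nat_lit 253)))) (XT.nd (nat_lit 78) (nat_lit 380) (nat_lit 0) (XT.lf (nat_lit 0) (nat_lit 3892191060) (nat_lit 304) (nat_lit 4190300780) (nat_lit 380) (nat_lit 2629333581) (nat_lit 110) (nat_lit 5) (nat_lit 114) (nat_lit 5) (nat_lit 115) (nat_lit 5) (nat_lit 356) (nat_lit 292) (nat_lit 252)) (XT.nd (nat_lit 78) (nat_lit 0) (nat_lit 0) (XT.lf (nat_lit 0) (nat_lit 286387588) (nat_lit 304) (nat_lit 414321252) (nat_lit 380) (nat_lit 10190235577) (nat_lit 105) (nat_lit 5) (nat_lit 109) (nat_lit 5) (nat_lit 110) (nat_lit 5) (nat_lit 357) (nat_lit 292) (nat_lit 251)) (XT.lf (nat_lit 0) (nat_lit 4127373606) (nat_lit 380) (nat_lit 3470254118) (nat_lit 76) (nat_lit 3475557578) (nat_lit 105) (nat_lit 5) (nat_lit 110) (nat_lit 5) (nat_lit 106) (nat_lit 5) (nat_lit 358) (nat_lit 292) (nat_lit 250))))) (XT.nd (nat_lit 234) (nat_lit 760) (nat_lit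 0) (XT.nd (nat_lit 78) (nat_lit 380) (nat_lit 0) (XT.lf (nat_lit 0) (nat_lit 3869729558) (nat_lit 228) (nat_lit 3776582046) (nat_lit 304) (nat_lit 3614913485) (nat_lit 102) (nat_lit 5) (nat_lit 105) (nat_lit 5) (nat_lit 106) (nat_lit 5) (nat_lit 359) (nat_lit 292) (nat_lit 249)) (XT.nd (nat_lit 78) (nat_lit 380) (nat_lit 0) (XT.lf (nat_lit 0) (nat_lit 11256391847) (nat_lit 304) (nat_lit 34937385) (nat_lit 76) (nat_lit 164025031) (nat_lit 102) (nat_lit 5) (nat_lit 106) (nat_lit 5) (nat_lit 103) (nat_lit 5) (nat_lit 360) (nat_lit 292) (nat_lit 248)) (XT.lf (nat_lit 0) (nat_lit 3315631582) (nat_lit 380) (nat_lit 4111198490) (nat_lit 76) (nat_lit 4225706331) (nat_lit 97) (nat_lit 5) (nat_lit 102) (nat_lit 5) (nat_lit 98) (nat_lit 5) (nat_lit 361) (nat_lit 292) (nat_lit 247)))) (XT.nd (nat_lit 156) (nat_lit 532) (nat_lit 0) (XT.nd (nat_lit 78) (nat_lit 0) (nat_lit 0) (XT.lf (nat_lit 0) (nat_lit 3477727344) (nat_lit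 228) (nat_lit 3438083489) (nat_lit 304) (nat_lit 4940253790) (nat_lit 94) (nat_lit 5) (nat_lit 97) (nat_lit 5) (nat_lit 98) (nat_lit 5) (nat_lit 362) (nat_lit 292) (nat_lit 246)) (XT.lf (nat_lit 0) (nat_lit 10623153574) (nat_lit 304) (nat_lit 771309916) (nat_lit 76) (nat_lit 671274152) (nat_lit 94) (nat_lit 5) (nat_lit 98) (nat_lit 5) (nat_lit 95) (nat_lit 5) (nat_lit 363) (nat_lit 292) (nat_lit 245))) (XT.nd (nat_lit 78) (nat_lit 228) (nat_lit 0) (XT.lf (nat_lit 0) (nat_lit 2172826540) (nat_lit 304) (nat_lit 5209414919) (nat_lit 76) (nat_lit 4897200583) (nat_lit 90) (nat_lit 5) (nat_lit 94) (nat_lit 5) (nat_lit 91) (nat_lit 5) (nat_lit 364) (nat_lit 292) (nat_lit 244)) (XT.lf (nat_lit 0) (nat_lit 2623402513) (nat_lit 228) (nat_lit 3229793957) (nat_lit 304) (nat_lit 6646380402) (nat_lit 87) (nat_lit 5) (nat_lit 90) (nat_lit 5) (nat_lit 91) (nat_lit 5) (nat_lit 365) (nat_lit 292) (nat_lit 243)))))) (XT.nd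 (nat_lit 546) (nat_lit 912) (nat_lit 0) (XT.nd (nat_lit 234) (nat_lit 456) (nat_lit 0) (XT.nd (nat_lit 78) (nat_lit 456) (nat_lit 0) (XT.lf (nat_lit 0) (nat_lit 9659958362) (nat_lit 304) (nat_lit 2014246310) (nat_lit 76) (nat_lit 1051643817) (nat_lit 87) (nat_lit 5) (nat_lit 91) (nat_lit 5) (nat_lit 88) (nat_lit 5) (nat_lit 366) (nat_lit 292) (nat_lit 242)) (XT.nd (nat_lit 78) (nat_lit 152) (nat_lit 0) (XT.lf (nat_lit 0) (nat_lit 655047230) (nat_lit 304) (nat_lit 6868160169) (nat_lit 76) (nat_lit 5434177845) (nat_lit 83) (nat_lit 5) (nat_lit 87) (nat_lit 5) (nat_lit 84) (nat_lit 5) (nat_lit 367) (nat_lit 292) (nat_lit 241)) (XT.lf (nat_lit 0) (nat_lit 1199827568) (nat_lit 152) (nat_lit 3212567616) (nat_lit 228) (nat_lit 8782981277) (nat_lit 81) (nat_lit 5) (nat_lit 83) (nat_lit 5) (nat_lit 84) (nat_lit 5) (nat_lit 368) (nat_lit 292) (nat_lit 240)))) (XT.nd (nat_lit 156) (nat_lit 228) (nat_lit 0) (XT.nd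 (nat_lit 78) (nat_lit 228) (nat_lit 0) (XT.lf (nat_lit 0) (nat_lit 8318970864) (nat_lit 228) (nat_lit 3875476822) (nat_lit 76) (nat_lit 1244975321) (nat_lit 81) (nat_lit 5) (nat_lit 84) (nat_lit 5) (nat_lit 82) (nat_lit 5) (nat_lit 369) (nat_lit 292) (nat_lit 239)) (XT.lf (nat_lit 0) (nat_lit 4470607638) (nat_lit 228) (nat_lit 7902905579) (nat_lit 304) (nat_lit 1316365146) (nat_lit 78) (nat_lit 5) (nat_lit 81) (nat_lit 5) (nat_lit 82) (nat_lit 5) (nat_lit 370) (nat_lit 292) (nat_lit 238))) (XT.nd (nat_lit 78) (nat_lit 152) (nat_lit 0) (XT.lf (nat_lit 0) (nat_lit 2546729819) (nat_lit 304) (nat_lit 898740075) (nat_lit 76) (nat_lit 10501767362) (nat_lit 77) (nat_lit 5) (nat_lit 81) (nat_lit 5) (nat_lit 78) (nat_lit 5) (nat_lit 371) (nat_lit 292) (nat_lit 237)) (XT.lf (nat_lit 0) (nat_lit 6542662579) (nat_lit 228) (nat_lit 6484266056) (nat_lit 76) (nat_lit 1183704808) (nat_lit 75) (nat_lit 5) (nat_lit 78) (nat_lit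 5) (nat_lit 76) (nat_lit 5) (nat_lit 372) (nat_lit 292) (nat_lit 236))))) (XT.nd (nat_lit 234) (nat_lit 456) (nat_lit 0) (XT.nd (nat_lit 78) (nat_lit 228) (nat_lit 0) (XT.lf (nat_lit 0) (nat_lit 2082060959) (nat_lit 228) (nat_lit 8597409221) (nat_lit 304) (nat_lit 3801840756) (nat_lit 72) (nat_lit 5) (nat_lit 75) (nat_lit 5) (nat_lit 76) (nat_lit 5) (nat_lit 373) (nat_lit 292) (nat_lit 235)) (XT.nd (nat_lit 78) (nat_lit 152) (nat_lit 0) (XT.lf (nat_lit 0) (nat_lit 200716582) (nat_lit 304) (nat_lit 3793731357) (nat_lit 76) (nat_lit 10764898785) (nat_lit 71) (nat_lit 5) (nat_lit 75) (nat_lit 5) (nat_lit 72) (nat_lit 5) (nat_lit 374) (nat_lit 292) (nat_lit 234)) (XT.lf (nat_lit 0) (nat_lit 4262413158) (nat_lit 228) (nat_lit 9990468657) (nat_lit 76) (nat_lit 791256773) (nat_lit 69) (nat_lit 5) (nat_lit 72) (nat_lit 5) (nat_lit 70) (nat_lit 5) (nat_lit 375) (nat_lit 292) (nat_lit 233)))) (XT.nd (nat_lit 156)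 (nat_lit 228) (nat_lit 0) (XT.nd (nat_lit 78) (nat_lit 228) (nat_lit 0) (XT.lf (nat_lit 0) (nat_lit 8483519917) (nat_lit 228) (nat_lit 1201681641) (nat_lit 76) (nat_lit 5651154156) (nat_lit 69) (nat_lit 5) (nat_lit 72) (nat_lit 5) (nat_lit 70) (nat_lit 5) (nat_lit 376) (nat_lit 292) (nat_lit 232)) (XT.lf (nat_lit 0) (nat_lit 7938008455) (nat_lit 228) (nat_lit 4930062969) (nat_lit 304) (nat_lit 2768171629) (nat_lit 66) (nat_lit 5) (nat_lit 69) (nat_lit 5) (nat_lit 70) (nat_lit 5) (nat_lit 377) (nat_lit 292) (nat_lit 231))) (XT.nd (nat_lit 78) (nat_lit 0) (nat_lit 0) (XT.lf (nat_lit 0) (nat_lit 1376886922) (nat_lit 152) (nat_lit 20174256) (nat_lit 228) (nat_lit 14548075146) (nat_lit 63) (nat_lit 5) (nat_lit 65) (nat_lit 5) (nat_lit 66) (nat_lit 5) (nat_lit 378) (nat_lit 292) (nat_lit 230)) (XT.lf (nat_lit 0) (nat_lit 5719388499) (nat_lit 228) (nat_lit 5523517401) (nat_lit 76) (nat_lit 5016942377) (nat_lit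 63) (nat_lit 5) (nat_lit 66) (nat_lit 5) (nat_lit 64) (nat_lit 5) (nat_lit 379) (nat_lit 292) (nat_lit 229))))))) (XT.nd (nat_lit 1014) (nat_lit 988) (nat_lit 0) (XT.nd (nat_lit 468) (nat_lit 608) (nat_lit 0) (XT.nd (nat_lit 234) (nat_lit 304) (nat_lit 0) (XT.nd (nat_lit 78) (nat_lit 228) (nat_lit 0) (XT.lf (nat_lit 0) (nat_lit 3800473745) (nat_lit 152) (nat_lit 6369633879) (nat_lit 228) (nat_lit 6413939450) (nat_lit 61) (nat_lit 5) (nat_lit 63) (nat_lit 5) (nat_lit 64) (nat_lit 5) (nat_lit 380) (nat_lit 292) (nat_lit 228)) (XT.nd (nat_lit 78) (nat_lit 228) (nat_lit 0) (XT.lf (nat_lit 0) (nat_lit 13452014805) (nat_lit 152) (nat_lit 1320578440) (nat_lit 228) (nat_lit 2144838182) (nat_lit 61) (nat_lit 5) (nat_lit 63) (nat_lit 5) (nat_lit 64) (nat_lit 5) (nat_lit 381) (nat_lit 292) (nat_lit 227)) (XT.lf (nat_lit 0) (nat_lit 2268691490) (nat_lit 228) (nat_lit 11130595830) (nat_lit 76) (nat_lit 3859077809) (nat_lit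 58) (nat_lit 5) (nat_lit 61) (nat_lit 5) (nat_lit 59) (nat_lit 5) (nat_lit 382) (nat_lit 292) (nat_lit 226)))) (XT.nd (nat_lit 78) (nat_lit 304) (nat_lit 0) (XT.lf (nat_lit 0) (nat_lit 6783326000) (nat_lit 228) (nat_lit 1627781922) (nat_lit 76) (nat_lit 9197433949) (nat_lit 58) (nat_lit 5) (nat_lit 61) (nat_lit 5) (nat_lit 59) (nat_lit 5) (nat_lit 383) (nat_lit 292) (nat_lit 225)) (XT.nd (nat_lit 78) (nat_lit 152) (nat_lit 0) (XT.lf (nat_lit 0) (nat_lit 8258714634) (nat_lit 152) (nat_lit 3218531609) (nat_lit 228) (nat_lit 6490668436) (nat_lit 56) (nat_lit 5) (nat_lit 58) (nat_lit 5) (nat_lit 59) (nat_lit 5) (nat_lit 384) (nat_lit 292) (nat_lit 224)) (XT.lf (nat_lit 0) (nat_lit 55294877) (nat_lit 152) (nat_lit 16258934605) (nat_lit 228) (nat_lit 2023777812) (nat_lit 54) (nat_lit 5) (nat_lit 56) (nat_lit 5) (nat_lit 57) (nat_lit 4) (nat_lit 385) (nat_lit 292) (nat_lit 223))))) (XT.nd (nat_lit 234) (nat_lit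 380) (nat_lit 0) (XT.nd (nat_lit 78) (nat_lit 152) (nat_lit 0) (XT.lf (nat_lit 0) (nat_lit 2622433596) (nat_lit 228) (nat_lit 8524957158) (nat_lit 76) (nat_lit 7568206302) (nat_lit 53) (nat_lit 5) (nat_lit 56) (nat_lit 5) (nat_lit 54) (nat_lit 5) (nat_lit 386) (nat_lit 292) (nat_lit 222)) (XT.nd (nat_lit 78) (nat_lit 0) (nat_lit 0) (XT.lf (nat_lit 0) (nat_lit 1473232412) (nat_lit 152) (nat_lit 5874033829) (nat_lit 228) (nat_lit 11757255302) (nat_lit 51) (nat_lit 5) (nat_lit 53) (nat_lit 5) (nat_lit 54) (nat_lit 5) (nat_lit 387) (nat_lit 292) (nat_lit 221)) (XT.lf (nat_lit 0) (nat_lit 11885710047) (nat_lit 152) (nat_lit 380385270) (nat_lit 228) (nat_lit 7237456220) (nat_lit 51) (nat_lit 5) (nat_lit 53) (nat_lit 5) (nat_lit 54) (nat_lit 5) (nat_lit 388) (nat_lit 292) (nat_lit 220)))) (XT.nd (nat_lit 156) (nat_lit 152) (nat_lit 0) (XT.nd (nat_lit 78) (nat_lit 76) (nat_lit 0) (XT.lf (nat_lit 0) (nat_lit 2637343659)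 (nat_lit 152) (nat_lit 14738136955) (nat_lit 228) (nat_lit 2537787243) (nat_lit 49) (nat_lit 5) (nat_lit 51) (nat_lit 5) (nat_lit 52) (nat_lit 4) (nat_lit 389) (nat_lit 292) (nat_lit 219)) (XT.lf (nat_lit 0) (nat_lit 2306361076) (nat_lit 228) (nat_lit 7062763494) (nat_lit 76) (nat_lit 10964039064) (nat_lit 48) (nat_lit 5) (nat_lit 51) (nat_lit 5) (nat_lit 49) (nat_lit 5) (nat_lit 390) (nat_lit 292) (nat_lit 218))) (XT.nd (nat_lit 78) (nat_lit 0) (nat_lit 0) (XT.lf (nat_lit 0) (nat_lit 3441071576) (nat_lit 152) (nat_lit 3804768387) (nat_lit 228) (nat_lit 13519036856) (nat_lit 46) (nat_lit 5) (nat_lit 48) (nat_lit 5) (nat_lit 49) (nat_lit 5) (nat_lit 391) (nat_lit 292) (nat_lit 217)) (XT.lf (nat_lit 0) (nat_lit 12392122975) (nat_lit 228) (nat_lit 6879710758) (nat_lit 76) (nat_lit 1935953660) (nat_lit 46) (nat_lit 5) (nat_lit 49) (nat_lit 5) (nat_lit 47) (nat_lit 4) (nat_lit 392) (nat_lit 292) (nat_lit 216))))))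 (XT.nd (nat_lit 546) (nat_lit 380) (nat_lit 0) (XT.nd (nat_lit 234) (nat_lit 304) (nat_lit 0) (XT.nd (nat_lit 78) (nat_lit 228) (nat_lit 0) (XT.lf (nat_lit 0) (nat_lit 3859141954) (nat_lit 76) (nat_lit 13877424476) (nat_lit 152) (nat_lit 3926110152) (nat_lit 45) (nat_lit 5) (nat_lit 46) (nat_lit 5) (nat_lit 47) (nat_lit 4) (nat_lit 393) (nat_lit 292) (nat_lit 215)) (XT.nd (nat_lit 78) (nat_lit 152) (nat_lit 0) (XT.lf (nat_lit 0) (nat_lit 1127692436) (nat_lit 152) (nat_lit 7135568100) (nat_lit 76) (nat_lit 13866459238) (nat_lit 44) (nat_lit 5) (nat_lit 46) (nat_lit 5) (nat_lit 45) (nat_lit 5) (nat_lit 394) (nat_lit 292) (nat_lit 214)) (XT.lf (nat_lit 0) (nat_lit 3833745831) (nat_lit 152) (nat_lit 2427270592) (nat_lit 228) (nat_lit 16348391198) (nat_lit 42) (nat_lit 5) (nat_lit 44) (nat_lit 5) (nat_lit 45) (nat_lit 5) (nat_lit 395) (nat_lit 292) (nat_lit 213)))) (XT.nd (nat_lit 156) (nat_lit 228) (nat_lit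 0) (XT.nd (nat_lit 78) (nat_lit 76) (nat_lit 0) (XT.lf (nat_lit 0) (nat_lit 11625644510) (nat_lit 228) (nat_lit 7912829668) (nat_lit 76) (nat_lit 3562696751) (nat_lit 42) (nat_lit 5) (nat_lit 45) (nat_lit 5) (nat_lit 43) (nat_lit 4) (nat_lit 396) (nat_lit 292) (nat_lit 212)) (XT.lf (nat_lit 0) (nat_lit 3262356657) (nat_lit 76) (nat_lit 13915204257) (nat_lit 152) (nat_lit 6429339579) (nat_lit 41) (nat_lit 5) (nat_lit 42) (nat_lit 5) (nat_lit 43) (nat_lit 4) (nat_lit 397) (nat_lit 292) (nat_lit 211))) (XT.nd (nat_lit 78) (nat_lit 228) (nat_lit 0) (XT.lf (nat_lit 0) (nat_lit 14882366281) (nat_lit 76) (nat_lit 8064869839) (nat_lit 152) (nat_lit 1179033515) (nat_lit 41) (nat_lit 5) (nat_lit 42) (nat_lit 5) (nat_lit 43) (nat_lit 4) (nat_lit 398) (nat_lit 292) (nat_lit 210)) (XT.lf (nat_lit 0) (nat_lit 2139181754) (nat_lit 152) (nat_lit 1999498124) (nat_lit 228) (nat_lit 20521551493) (nat_lit 38) (nat_lit 5) (nat_lit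 40) (nat_lit 5) (nat_lit 41) (nat_lit 5) (nat_lit 399) (nat_lit 292) (nat_lit 209))))) (XT.nd (nat_lit 234) (nat_lit 304) (nat_lit 0) (XT.nd (nat_lit 78) (nat_lit 76) (nat_lit 0) (XT.lf (nat_lit 0) (nat_lit 9699286958) (nat_lit 228) (nat_lit 11259366935) (nat_lit 76) (nat_lit 4247999480) (nat_lit 38) (nat_lit 5) (nat_lit 41) (nat_lit 5) (nat_lit 39) (nat_lit 4) (nat_lit 400) (nat_lit 292) (nat_lit 208)) (XT.nd (nat_lit 78) (nat_lit 0) (nat_lit 0) (XT.lf (nat_lit 0) (nat_lit 275477680) (nat_lit 76) (nat_lit 15146453810) (nat_lit 152) (nat_lit 10347683283) (nat_lit 37) (nat_lit 5) (nat_lit 38) (nat_lit 5) (nat_lit 39) (nat_lit 4) (nat_lit 401) (nat_lit 292) (nat_lit 207)) (XT.lf (nat_lit 0) (nat_lit 12337399334) (nat_lit 76) (nat_lit 9065642247) (nat_lit 152) (nat_lit 4943823064) (nat_lit 37) (nat_lit 5) (nat_lit 38) (nat_lit 5) (nat_lit 39) (nat_lit 4) (nat_lit 402) (nat_lit 292) (nat_lit 206)))) (XT.nd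 (nat_lit 156) (nat_lit 76) (nat_lit 0) (XT.nd (nat_lit 78) (nat_lit 152) (nat_lit 0) (XT.lf (nat_lit 0) (nat_lit 583623282) (nat_lit 152) (nat_lit 2235086669) (nat_lit 76) (nat_lit 24123337358) (nat_lit 36) (nat_lit 5) (nat_lit 38) (nat_lit 5) (nat_lit 37) (nat_lit 5) (nat_lit 403) (nat_lit 292) (nat_lit 205)) (XT.lf (nat_lit 0) (nat_lit 6283928636) (nat_lit 228) (nat_lit 17596381682) (nat_lit 76) (nat_lit 3670117569) (nat_lit 34) (nat_lit 5) (nat_lit 37) (nat_lit 5) (nat_lit 35) (nat_lit 4) (nat_lit 404) (nat_lit 292) (nat_lit 204))) (XT.nd (nat_lit 78) (nat_lit 76) (nat_lit 0) (XT.lf (nat_lit 0) (nat_lit 12180410782) (nat_lit 228) (nat_lit 5697363624) (nat_lit 76) (nat_lit 10298533307) (nat_lit 34) (nat_lit 5) (nat_lit 37) (nat_lit 5) (nat_lit 35) (nat_lit 4) (nat_lit 405) (nat_lit 292) (nat_lit 203)) (XT.lf (nat_lit 0) (nat_lit 6642100842) (nat_lit 76) (nat_lit 11650744346) (nat_lit 152) (nat_lit 10526949787)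 (nat_lit 33) (nat_lit 5) (nat_lit 34) (nat_lit 5) (nat_lit 35) (nat_lit 4) (nat_lit 406) (nat_lit 292) (nat_lit 202))))))))
noncomputable def xc85 : XT := (XT.nd (nat_lit 2106) (nat_lit 380) (nat_lit 0) (XT.nd (nat_lit 1014) (nat_lit 456) (nat_lit 0) (XT.nd (nat_lit 468) (nat_lit 380) (nat_lit 0) (XT.nd (nat_lit 234) (nat_lit 76) (nat_lit 0) (XT.nd (nat_lit 78) (nat_lit 228) (nat_lit 0) (XT.lf (nat_lit 0) (nat_lit 19422856474) (nat_lit 76) (nat_lit 5198821120) (nat_lit 152) (nat_lit 4859921206) (nat_lit 33) (nat_lit 5) (nat_lit 34) (nat_lit 5) (nat_lit 35) (nat_lit 4) (nat_lit 407) (nat_lit 292) (nat_lit 201)) (XT.nd (nat_lit 78) (nat_lit 0) (nat_lit 0) (XT.lf (nat_lit 0) (nat_lit 971279689) (nat_lit 228) (nat_lit 27760320015) (nat_lit 76) (nat_lit 1430980941) (nat_lit 30) (nat_lit 5) (nat_lit 33) (nat_lit 5) (nat_lit 31) (nat_lit 4) (nat_lit 408) (nat_lit 292) (nat_lit 200)) (XT.lf (nat_lit 0) (nat_lit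 7009833011) (nat_lit 228) (nat_lit 15563164580) (nat_lit 76) (nat_lit 8285650397) (nat_lit 30) (nat_lit 5) (nat_lit 33) (nat_lit 5) (nat_lit 31) (nat_lit 4) (nat_lit 409) (nat_lit 292) (nat_lit 199)))) (XT.nd (nat_lit 78) (nat_lit 76) (nat_lit 0) (XT.lf (nat_lit 0) (nat_lit 13206283975) (nat_lit 228) (nat_lit 3043697092) (nat_lit 76) (nat_lit 15326316448) (nat_lit 30) (nat_lit 5) (nat_lit 33) (nat_lit 5) (nat_lit 31) (nat_lit 4) (nat_lit 410) (nat_lit 292) (nat_lit 198)) (XT.nd (nat_lit 78) (nat_lit 0) (nat_lit 0) (XT.lf (nat_lit 0) (nat_lit 10004240555) (nat_lit 76) (nat_lit 9657973282) (nat_lit 152) (nat_lit 12651057456) (nat_lit 29) (nat_lit 5) (nat_lit 30) (nat_lit 5) (nat_lit 31) (nat_lit 4) (nat_lit 411) (nat_lit 292) (nat_lit 197)) (XT.lf (nat_lit 0) (nat_lit 23464091533) (nat_lit 76) (nat_lit 2856138697) (nat_lit 152) (nat_lit 6751874050) (nat_lit 29) (nat_lit 5) (nat_lit 30) (nat_lit 5) (nat_lit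 31) (nat_lit 4) (nat_lit 412) (nat_lit 292) (nat_lit 196))))) (XT.nd (nat_lit 234) (nat_lit 228) (nat_lit 0) (XT.nd (nat_lit 78) (nat_lit 76) (nat_lit 0) (XT.lf (nat_lit 0) (nat_lit 3460506428) (nat_lit 76) (nat_lit 29768775861) (nat_lit 76) (nat_lit 622883304) (nat_lit 28) (nat_lit 4) (nat_lit 29) (nat_lit 5) (nat_lit 29) (nat_lit 4) (nat_lit 413) (nat_lit 292) (nat_lit 195)) (XT.nd (nat_lit 78) (nat_lit 0) (nat_lit 0) (XT.lf (nat_lit 0) (nat_lit 5683375993) (nat_lit 152) (nat_lit 17659816117) (nat_lit 76) (nat_lit 11307664911) (nat_lit 27) (nat_lit 5) (nat_lit 29) (nat_lit 5) (nat_lit 28) (nat_lit 4) (nat_lit 414) (nat_lit 292) (nat_lit 194)) (XT.lf (nat_lit 0) (nat_lit 12145109048) (nat_lit 152) (nat_lit 4592184256) (nat_lit 76) (nat_lit 18736668718) (nat_lit 27) (nat_lit 5) (nat_lit 29) (nat_lit 5) (nat_lit 28) (nat_lit 4) (nat_lit 415) (nat_lit 292) (nat_lit 193)))) (XT.nd (nat_lit 156) (nat_lit 152)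 (nat_lit 0) (XT.nd (nat_lit 78) (nat_lit 0) (nat_lit 0) (XT.lf (nat_lit 0) (nat_lit 9004349561) (nat_lit 76) (nat_lit 9862322485) (nat_lit 152) (nat_lit 17453110736) (nat_lit 26) (nat_lit 5) (nat_lit 27) (nat_lit 5) (nat_lit 28) (nat_lit 4) (nat_lit 416) (nat_lit 292) (nat_lit 192)) (XT.lf (nat_lit 0) (nat_lit 23064461108) (nat_lit 76) (nat_lit 2751445221) (nat_lit 152) (nat_lit 11374292994) (nat_lit 26) (nat_lit 5) (nat_lit 27) (nat_lit 5) (nat_lit 28) (nat_lit 4) (nat_lit 417) (nat_lit 292) (nat_lit 191))) (XT.nd (nat_lit 78) (nat_lit 152) (nat_lit 0) (XT.lf (nat_lit 0) (nat_lit 32997649804) (nat_lit 152) (nat_lit 622067574) (nat_lit 0) (nat_lit 4466291852) (nat_lit 26) (nat_lit 5) (nat_lit 28) (nat_lit 4) (nat_lit 26) (nat_lit 4) (nat_lit 418) (nat_lit 292) (nat_lit 190)) (XT.lf (nat_lit 0) (nat_lit 1497997064) (nat_lit 152) (nat_lit 25533283698) (nat_lit 76) (nat_lit 11972847854) (nat_lit 24) (nat_lit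 5) (nat_lit 26) (nat_lit 5) (nat_lit 25) (nat_lit 4) (nat_lit 419) (nat_lit 292) (nat_lit 189)))))) (XT.nd (nat_lit 546) (nat_lit 228) (nat_lit 0) (XT.nd (nat_lit 234) (nat_lit 152) (nat_lit 0) (XT.nd (nat_lit 78) (nat_lit 76) (nat_lit 0) (XT.lf (nat_lit 0) (nat_lit 8166696821) (nat_lit 152) (nat_lit 12037434635) (nat_lit 76) (nat_lit 19744539705) (nat_lit 24) (nat_lit 5) (nat_lit 26) (nat_lit 5) (nat_lit 25) (nat_lit 4) (nat_lit 420) (nat_lit 292) (nat_lit 188)) (XT.nd (nat_lit 78) (nat_lit 0) (nat_lit 0) (XT.lf (nat_lit 0) (nat_lit 1864046616) (nat_lit 76) (nat_lit 13170571738) (nat_lit 152) (nat_lit 25886958436) (nat_lit 23) (nat_lit 5) (nat_lit 24) (nat_lit 5) (nat_lit 25) (nat_lit 4) (nat_lit 421) (nat_lit 292) (nat_lit 187)) (XT.lf (nat_lit 0) (nat_lit 16394059561) (nat_lit 76) (nat_lit 5817522203) (nat_lit 152) (nat_lit 19708999280) (nat_lit 23) (nat_lit 5) (nat_lit 24) (nat_lit 5) (nat_lit 25) (nat_lit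 4) (nat_lit 422) (nat_lit 292) (nat_lit 186)))) (XT.nd (nat_lit 156) (nat_lit 76) (nat_lit 0) (XT.nd (nat_lit 78) (nat_lit 76) (nat_lit 0) (XT.lf (nat_lit 0) (nat_lit 29602568983) (nat_lit 152) (nat_lit 11641090352) (nat_lit 0) (nat_lit 1705936179) (nat_lit 23) (nat_lit 5) (nat_lit 25) (nat_lit 4) (nat_lit 23) (nat_lit 4) (nat_lit 423) (nat_lit 292) (nat_lit 185)) (XT.lf (nat_lit 0) (nat_lit 2620827894) (nat_lit 76) (nat_lit 34659613280) (nat_lit 76) (nat_lit 6727086078) (nat_lit 22) (nat_lit 4) (nat_lit 23) (nat_lit 5) (nat_lit 23) (nat_lit 4) (nat_lit 424) (nat_lit 292) (nat_lit 184))) (XT.nd (nat_lit 78) (nat_lit 0) (nat_lit 0) (XT.lf (nat_lit 0) (nat_lit 190766792) (nat_lit 152) (nat_lit 27580119542) (nat_lit 76) (nat_lit 17323252676) (nat_lit 21) (nat_lit 5) (nat_lit 23) (nat_lit 5) (nat_lit 22) (nat_lit 4) (nat_lit 425) (nat_lit 292) (nat_lit 183)) (XT.lf (nat_lit 0) (nat_lit 7163843307) (nat_lit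 152) (nat_lit 13458608128) (nat_lit 76) (nat_lit 25589414031) (nat_lit 21) (nat_lit 5) (nat_lit 23) (nat_lit 5) (nat_lit 22) (nat_lit 4) (nat_lit 426) (nat_lit 292) (nat_lit 182))))) (XT.nd (nat_lit 234) (nat_lit 152) (nat_lit 0) (XT.nd (nat_lit 78) (nat_lit 0) (nat_lit 0) (XT.lf (nat_lit 0) (nat_lit 1075832296) (nat_lit 76) (nat_lit 13264015387) (nat_lit 152) (nat_lit 33023465294) (nat_lit 20) (nat_lit 5) (nat_lit 21) (nat_lit 5) (nat_lit 22) (nat_lit 4) (nat_lit 427) (nat_lit 292) (nat_lit 181)) (XT.nd (nat_lit 78) (nat_lit 0) (nat_lit 0) (XT.lf (nat_lit 0) (nat_lit 16290795392) (nat_lit 76) (nat_lit 5559818204) (nat_lit 152) (nat_lit 26695107161) (nat_lit 20) (nat_lit 5) (nat_lit 21) (nat_lit 5) (nat_lit 22) (nat_lit 4) (nat_lit 428) (nat_lit 292) (nat_lit 180)) (XT.lf (nat_lit 0) (nat_lit 29593451766) (nat_lit 152) (nat_lit 17855052351) (nat_lit 0) (nat_lit 2314895424) (nat_lit 20) (nat_lit 5) (nat_lit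 22) (nat_lit 4) (nat_lit 20) (nat_lit 4) (nat_lit 429) (nat_lit 292) (nat_lit 179)))) (XT.nd (nat_lit 156) (nat_lit 76) (nat_lit 0) (XT.nd (nat_lit 78) (nat_lit 76) (nat_lit 0) (XT.lf (nat_lit 0) (nat_lit 37608005769) (nat_lit 152) (nat_lit 3108157215) (nat_lit 0) (nat_lit 10300263997) (nat_lit 20) (nat_lit 5) (nat_lit 22) (nat_lit 4) (nat_lit 20) (nat_lit 4) (nat_lit 430) (nat_lit 292) (nat_lit 178)) (XT.lf (nat_lit 0) (nat_lit 12291950274) (nat_lit 76) (nat_lit 33674041711) (nat_lit 76) (nat_lit 6337964570) (nat_lit 19) (nat_lit 4) (nat_lit 20) (nat_lit 5) (nat_lit 20) (nat_lit 4) (nat_lit 431) (nat_lit 292) (nat_lit 177))) (XT.nd (nat_lit 78) (nat_lit 0) (nat_lit 0) (XT.lf (nat_lit 0) (nat_lit 942723462) (nat_lit 152) (nat_lit 25449858578) (nat_lit 76) (nat_lit 27236762171) (nat_lit 18) (nat_lit 5) (nat_lit 20) (nat_lit 5) (nat_lit 19) (nat_lit 4) (nat_lit 432) (nat_lit 292) (nat_lit 176)) (XT.lf (nat_lit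 0) (nat_lit 8299739792) (nat_lit 152) (nat_lit 10541824230) (nat_lit 76) (nat_lit 36151489155) (nat_lit 18) (nat_lit 5) (nat_lit 20) (nat_lit 5) (nat_lit 19) (nat_lit 4) (nat_lit 433) (nat_lit 292) (nat_lit 175))))))) (XT.nd (nat_lit 1014) (nat_lit 0) (nat_lit 0) (XT.nd (nat_lit 468) (nat_lit 228) (nat_lit 0) (XT.nd (nat_lit 234) (nat_lit 76) (nat_lit 0) (XT.nd (nat_lit 78) (nat_lit 0) (nat_lit 0) (XT.lf (nat_lit 0) (nat_lit 4881299324) (nat_lit 76) (nat_lit 11028812109) (nat_lit 152) (nat_lit 40486583682) (nat_lit 17) (nat_lit 5) (nat_lit 18) (nat_lit 5) (nat_lit 19) (nat_lit 4) (nat_lit 434) (nat_lit 292) (nat_lit 174)) (XT.nd (nat_lit 78) (nat_lit 0) (nat_lit 0) (XT.lf (nat_lit 0) (nat_lit 20956078755) (nat_lit 76) (nat_lit 2885045013) (nat_lit 152) (nat_lit 33998553672) (nat_lit 17) (nat_lit 5) (nat_lit 18) (nat_lit 5) (nat_lit 19) (nat_lit 4) (nat_lit 435) (nat_lit 292) (nat_lit 173)) (XT.lf (nat_lit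 0) (nat_lit 32049132686) (nat_lit 152) (nat_lit 21892381633) (nat_lit 0) (nat_lit 5383263916) (nat_lit 17) (nat_lit 5) (nat_lit 19) (nat_lit 4) (nat_lit 17) (nat_lit 4) (nat_lit 436) (nat_lit 292) (nat_lit 172)))) (XT.nd (nat_lit 78) (nat_lit 76) (nat_lit 0) (XT.lf (nat_lit 0) (nat_lit 40518517230) (nat_lit 152) (nat_lit 6505852507) (nat_lit 0) (nat_lit 13829609212) (nat_lit 17) (nat_lit 5) (nat_lit 19) (nat_lit 4) (nat_lit 17) (nat_lit 4) (nat_lit 437) (nat_lit 292) (nat_lit 171)) (XT.nd (nat_lit 78) (nat_lit 0) (nat_lit 0) (XT.lf (nat_lit 0) (nat_lit 9502595920) (nat_lit 76) (nat_lit 39817693861) (nat_lit 76) (nat_lit 13106417641) (nat_lit 16) (nat_lit 4) (nat_lit 17) (nat_lit 5) (nat_lit 17) (nat_lit 4) (nat_lit 438) (nat_lit 292) (nat_lit 170)) (XT.lf (nat_lit 0) (nat_lit 26099801097) (nat_lit 76) (nat_lit 32339113255) (nat_lit 76) (nat_lit 5606120334) (nat_lit 16) (nat_lit 4) (nat_lit 17) (nat_lit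 5) (nat_lit 17) (nat_lit 4) (nat_lit 439) (nat_lit 292) (nat_lit 169))))) (XT.nd (nat_lit 234) (nat_lit 76) (nat_lit 0) (XT.nd (nat_lit 78) (nat_lit 76) (nat_lit 0) (XT.lf (nat_lit 0) (nat_lit 2065186248) (nat_lit 152) (nat_lit 22561749011) (nat_lit 76) (nat_lit 41084745633) (nat_lit 15) (nat_lit 5) (nat_lit 17) (nat_lit 5) (nat_lit 16) (nat_lit 4) (nat_lit 440) (nat_lit 292) (nat_lit 168)) (XT.nd (nat_lit 78) (nat_lit 76) (nat_lit 0) (XT.lf (nat_lit 0) (nat_lit 9841676218) (nat_lit 152) (nat_lit 6795944446) (nat_lit 76) (nat_lit 50789409813) (nat_lit 15) (nat_lit 5) (nat_lit 17) (nat_lit 5) (nat_lit 16) (nat_lit 4) (nat_lit 441) (nat_lit 292) (nat_lit 167)) (XT.lf (nat_lit 0) (nat_lit 9607318906) (nat_lit 76) (nat_lit 8324572686) (nat_lit 152) (nat_lit 51259536838) (nat_lit 14) (nat_lit 5) (nat_lit 15) (nat_lit 5) (nat_lit 16) (nat_lit 4) (nat_lit 442) (nat_lit 292) (nat_lit 166)))) (XT.nd (nat_lit 156)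 (nat_lit 76) (nat_lit 0) (XT.nd (nat_lit 78) (nat_lit 0) (nat_lit 0) (XT.lf (nat_lit 0) (nat_lit 26324507333) (nat_lit 152) (nat_lit 44390687630) (nat_lit 0) (nat_lit 291773319) (nat_lit 14) (nat_lit 5) (nat_lit 16) (nat_lit 4) (nat_lit 14) (nat_lit 4) (nat_lit 443) (nat_lit 292) (nat_lit 165)) (XT.lf (nat_lit 0) (nat_lit 35039771804) (nat_lit 152) (nat_lit 28846226780) (nat_lit 0) (nat_lit 8988850395) (nat_lit 14) (nat_lit 5) (nat_lit 16) (nat_lit 4) (nat_lit 14) (nat_lit 4) (nat_lit 444) (nat_lit 292) (nat_lit 164))) (XT.nd (nat_lit 78) (nat_lit 76) (nat_lit 0) (XT.lf (nat_lit 0) (nat_lit 44005279400) (nat_lit 152) (nat_lit 12857123550) (nat_lit 0) (nat_lit 17936700326) (nat_lit 14) (nat_lit 5) (nat_lit 16) (nat_lit 4) (nat_lit 14) (nat_lit 4) (nat_lit 445) (nat_lit 292) (nat_lit 163)) (XT.lf (nat_lit 0) (nat_lit 3662052964) (nat_lit 76) (nat_lit 49602012987) (nat_lit 76) (nat_lit 23516290549) (nat_lit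 13) (nat_lit 4) (nat_lit 14) (nat_lit 5) (nat_lit 14) (nat_lit 4) (nat_lit 446) (nat_lit 292) (nat_lit 162)))))) (XT.nd (nat_lit 36972) (nat_lit 0) (nat_lit 17936) (XT.nd (nat_lit 36660) (nat_lit 0) (nat_lit 23104) (XT.nd (nat_lit 36504) (nat_lit 0) (nat_lit 24700) (XT.lf (nat_lit 0) (nat_lit 20919510014) (nat_lit 76) (nat_lit 42000166337) (nat_lit 76) (nat_lit 15897799856) (nat_lit 13) (nat_lit 4) (nat_lit 14) (nat_lit 5) (nat_lit 14) (nat_lit 4) (nat_lit 447) (nat_lit 292) (nat_lit 161)) (XT.nd (nat_lit 78) (nat_lit 684) (nat_lit 0) (XT.lf (nat_lit 0) (nat_lit 2604986945) (nat_lit 532) (nat_lit 361297581) (nat_lit 532) (nat_lit 361297581) (nat_lit 347) (nat_lit 4) (nat_lit 354) (nat_lit 5) (nat_lit 354) (nat_lit 4) (nat_lit 314) (nat_lit 293) (nat_lit 293)) (XT.lf (nat_lit 0) (nat_lit 2466598548) (nat_lit 684) (nat_lit 3938620450) (nat_lit 0) (nat_lit 281852803) (nat_lit 338) (nat_lit 5) (nat_lit 347)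 (nat_lit 4) (nat_lit 338) (nat_lit 4) (nat_lit 315) (nat_lit 293) (nat_lit 292)))) (XT.nd (nat_lit 156) (nat_lit 836) (nat_lit 0) (XT.nd (nat_lit 78) (nat_lit 76) (nat_lit 0) (XT.lf (nat_lit 0) (nat_lit 283699781) (nat_lit 684) (nat_lit 5372199915) (nat_lit 684) (nat_lit 1066341796) (nat_lit 329) (nat_lit 4) (nat_lit 338) (nat_lit 5) (nat_lit 338) (nat_lit 4) (nat_lit 316) (nat_lit 293) (nat_lit 291)) (XT.lf (nat_lit 0) (nat_lit 2075485416) (nat_lit 760) (nat_lit 2151955126) (nat_lit 76) (nat_lit 2532409720) (nat_lit 328) (nat_lit 5) (nat_lit 338) (nat_lit 5) (nat_lit 329) (nat_lit 4) (nat_lit 317) (nat_lit 293) (nat_lit 290))) (XT.nd (nat_lit 78) (nat_lit 76) (nat_lit 0) (XT.lf (nat_lit 0) (nat_lit 2211617135) (nat_lit 760) (nat_lit 2998313654) (nat_lit 836) (nat_lit 1590826582) (nat_lit 318) (nat_lit 5) (nat_lit 328) (nat_lit 5) (nat_lit 329) (nat_lit 4) (nat_lit 318) (nat_lit 293) (nat_lit 289)) (XT.lf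 (nat_lit 0) (nat_lit 1485959185) (nat_lit 836) (nat_lit 193041205) (nat_lit 76) (nat_lit 5165859973) (nat_lit 317) (nat_lit 5) (nat_lit 328) (nat_lit 5) (nat_lit 318) (nat_lit 5) (nat_lit 319) (nat_lit 293) (nat_lit 288))))) (XT.nd (nat_lit 234) (nat_lit 3344) (nat_lit 0) (XT.nd (nat_lit 78) (nat_lit 988) (nat_lit 0) (XT.lf (nat_lit 0) (nat_lit 4320529504) (nat_lit 836) (nat_lit 246629927) (nat_lit 912) (nat_lit 2324405780) (nat_lit 306) (nat_lit 5) (nat_lit 317) (nat_lit 5) (nat_lit 318) (nat_lit 5) (nat_lit 320) (nat_lit 293) (nat_lit 287)) (XT.nd (nat_lit 78) (nat_lit 0) (nat_lit 0) (XT.lf (nat_lit 0) (nat_lit 722299749) (nat_lit 988) (nat_lit 4973348924) (nat_lit 76) (nat_lit 1245756860) (nat_lit 293) (nat_lit 5) (nat_lit 306) (nat_lit 5) (nat_lit 294) (nat_lit 5) (nat_lit 321) (nat_lit 293) (nat_lit 286)) (XT.lf (nat_lit 0) (nat_lit 3748050399) (nat_lit 988) (nat_lit 407975602) (nat_lit 76) (nat_lit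 2838061352) (nat_lit 293) (nat_lit 5) (nat_lit 306) (nat_lit 5) (nat_lit 294) (nat_lit 5) (nat_lit 322) (nat_lit 293) (nat_lit 285)))) (XT.nd (nat_lit 156) (nat_lit 1216) (nat_lit 0) (XT.nd (nat_lit 78) (nat_lit 1140) (nat_lit 0) (XT.lf (nat_lit 0) (nat_lit 4294345449) (nat_lit 988) (nat_lit 2519955426) (nat_lit 1064) (nat_lit 235622536) (nat_lit 280) (nat_lit 5) (nat_lit 293) (nat_lit 5) (nat_lit 294) (nat_lit 5) (nat_lit 323) (nat_lit 293) (nat_lit 284)) (XT.lf (nat_lit 0) (nat_lit 1964688937) (nat_lit 1064) (nat_lit 776919061) (nat_lit 1140) (nat_lit 4367089790) (nat_lit 265) (nat_lit 5) (nat_lit 279) (nat_lit 5) (nat_lit 280) (nat_lit 5) (nat_lit 324) (nat_lit 293) (nat_lit 283))) (XT.nd (nat_lit 78) (nat_lit 1216) (nat_lit 0) (XT.lf (nat_lit 0) (nat_lit 5752554603) (nat_lit 1140) (nat_lit 384541775) (nat_lit 76) (nat_lit 1033655021) (nat_lit 265) (nat_lit 5) (nat_lit 280) (nat_lit 5) (nat_lit 266)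 (nat_lit 5) (nat_lit 325) (nat_lit 293) (nat_lit 282)) (XT.lf (nat_lit 0) (nat_lit 1552073763) (nat_lit 1216) (nat_lit 2737161518) (nat_lit 76) (nat_lit 2946085800) (nat_lit 249) (nat_lit 5) (nat_lit 265) (nat_lit 5) (nat_lit 250) (nat_lit 5) (nat_lit 326) (nat_lit 293) (nat_lit 281))))))))
noncomputable def xc86 : XT := (XT.nd (nat_lit 2106) (nat_lit 4256) (nat_lit 0) (XT.nd (nat_lit 1014) (nat_lit 3952) (nat_lit 0) (XT.nd (nat_lit 468) (nat_lit 2736) (nat_lit 0) (XT.nd (nat_lit 234) (nat_lit 1292) (nat_lit 0) (XT.nd (nat_lit 78) (nat_lit 684) (nat_lit 0) (XT.lf (nat_lit 0) (nat_lit 2176715626) (nat_lit 1216) (nat_lit 2345723013) (nat_lit 1292) (nat_lit 2780838195) (nat_lit 233) (nat_lit 5) (nat_lit 249) (nat_lit 5) (nat_lit 250) (nat_lit 5) (nat_lit 327) (nat_lit 293) (nat_lit 280)) (XT.nd (nat_lit 78) (nat_lit 608) (nat_lit 0) (XT.lf (nat_lit 0) (nat_lit 147924865) (nat_lit 1292) (nat_lit 166695845)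 (nat_lit 76) (nat_lit 7060341577) (nat_lit 232) (nat_lit 5) (nat_lit 249) (nat_lit 5) (nat_lit 233) (nat_lit 5) (nat_lit 328) (nat_lit 293) (nat_lit 279)) (XT.lf (nat_lit 0) (nat_lit 3091735141) (nat_lit 684) (nat_lit 2539886924) (nat_lit 76) (nat_lit 1816908234) (nat_lit 224) (nat_lit 5) (nat_lit 233) (nat_lit 5) (nat_lit 225) (nat_lit 5) (nat_lit 329) (nat_lit 293) (nat_lit 278)))) (XT.nd (nat_lit 78) (nat_lit 684) (nat_lit 0) (XT.lf (nat_lit 0) (nat_lit 2577359028) (nat_lit 608) (nat_lit 3495567058) (nat_lit 684) (nat_lit 1452956090) (nat_lit 216) (nat_lit 5) (nat_lit 224) (nat_lit 5) (nat_lit 225) (nat_lit 5) (nat_lit 330) (nat_lit 293) (nat_lit 277)) (XT.nd (nat_lit 78) (nat_lit 0) (nat_lit 0) (XT.lf (nat_lit 0) (nat_lit 198225343) (nat_lit 608) (nat_lit 1257750159) (nat_lit 684) (nat_lit 6150741917) (nat_lit 207) (nat_lit 5) (nat_lit 215) (nat_lit 5) (nat_lit 216) (nat_lit 5) (nat_lit 331) (nat_lit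 293) (nat_lit 276)) (XT.lf (nat_lit 0) (nat_lit 4405125784) (nat_lit 684) (nat_lit 2200101209) (nat_lit 76) (nat_lit 1084899217) (nat_lit 207) (nat_lit 5) (nat_lit 216) (nat_lit 5) (nat_lit 208) (nat_lit 5) (nat_lit 332) (nat_lit 293) (nat_lit 275))))) (XT.nd (nat_lit 234) (nat_lit 1596) (nat_lit 0) (XT.nd (nat_lit 78) (nat_lit 608) (nat_lit 0) (XT.lf (nat_lit 0) (nat_lit 3128186952) (nat_lit 532) (nat_lit 4280991730) (nat_lit 608) (nat_lit 367909111) (nat_lit 200) (nat_lit 5) (nat_lit 207) (nat_lit 5) (nat_lit 208) (nat_lit 5) (nat_lit 333) (nat_lit 293) (nat_lit 274)) (XT.nd (nat_lit 78) (nat_lit 0) (nat_lit 0) (XT.lf (nat_lit 0) (nat_lit 697829922) (nat_lit 532) (nat_lit 1841090407) (nat_lit 608) (nat_lit 5328408106) (nat_lit 192) (nat_lit 5) (nat_lit 199) (nat_lit 5) (nat_lit 200) (nat_lit 5) (nat_lit 334) (nat_lit 293) (nat_lit 273)) (XT.lf (nat_lit 0) (nat_lit 5505241214) (nat_lit 608) (nat_lit 1756147732)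 (nat_lit 76) (nat_lit 699427328) (nat_lit 192) (nat_lit 5) (nat_lit 200) (nat_lit 5) (nat_lit 193) (nat_lit 5) (nat_lit 335) (nat_lit 293) (nat_lit 272)))) (XT.nd (nat_lit 156) (nat_lit 532) (nat_lit 0) (XT.nd (nat_lit 78) (nat_lit 532) (nat_lit 0) (XT.lf (nat_lit 0) (nat_lit 476051157) (nat_lit 532) (nat_lit 4271425828) (nat_lit 76) (nat_lit 3310051026) (nat_lit 185) (nat_lit 5) (nat_lit 192) (nat_lit 5) (nat_lit 186) (nat_lit 5) (nat_lit 336) (nat_lit 293) (nat_lit 271)) (XT.lf (nat_lit 0) (nat_lit 1289615894) (nat_lit 532) (nat_lit 2115491242) (nat_lit 608) (nat_lit 4752575842) (nat_lit 178) (nat_lit 5) (nat_lit 185) (nat_lit 5) (nat_lit 186) (nat_lit 5) (nat_lit 337) (nat_lit 293) (nat_lit 270))) (XT.nd (nat_lit 78) (nat_lit 532) (nat_lit 0) (XT.lf (nat_lit 0) (nat_lit 6400985523) (nat_lit 608) (nat_lit 1246893624) (nat_lit 76) (nat_lit 613630191) (nat_lit 178) (nat_lit 5) (nat_lit 186) (nat_lit 5)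 (nat_lit 179) (nat_lit 5) (nat_lit 338) (nat_lit 293) (nat_lit 269)) (XT.lf (nat_lit 0) (nat_lit 1092569360) (nat_lit 532) (nat_lit 3852742843) (nat_lit 76) (nat_lit 3422965991) (nat_lit 171) (nat_lit 5) (nat_lit 178) (nat_lit 5) (nat_lit 172) (nat_lit 5) (nat_lit 339) (nat_lit 293) (nat_lit 268)))))) (XT.nd (nat_lit 546) (nat_lit 1748) (nat_lit 0) (XT.nd (nat_lit 234) (nat_lit 1292) (nat_lit 0) (XT.nd (nat_lit 78) (nat_lit 456) (nat_lit 0) (XT.lf (nat_lit 0) (nat_lit 1933415523) (nat_lit 456) (nat_lit 2126956468) (nat_lit 532) (nat_lit 4418452427) (nat_lit 165) (nat_lit 5) (nat_lit 171) (nat_lit 5) (nat_lit 172) (nat_lit 5) (nat_lit 340) (nat_lit 293) (nat_lit 267)) (XT.nd (nat_lit 78) (nat_lit 456) (nat_lit 0) (XT.lf (nat_lit 0) (nat_lit 7097178469) (nat_lit 532) (nat_lit 712561005) (nat_lit 76) (nat_lit 783579794) (nat_lit 165) (nat_lit 5) (nat_lit 172) (nat_lit 5) (nat_lit 166) (nat_lit 5) (nat_lit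 341) (nat_lit 293) (nat_lit 266)) (XT.lf (nat_lit 0) (nat_lit 1491460637) (nat_lit 456) (nat_lit 3431003923) (nat_lit 76) (nat_lit 3788162549) (nat_lit 159) (nat_lit 5) (nat_lit 165) (nat_lit 5) (nat_lit 160) (nat_lit 5) (nat_lit 342) (nat_lit 293) (nat_lit 265)))) (XT.nd (nat_lit 156) (nat_lit 836) (nat_lit 0) (XT.nd (nat_lit 78) (nat_lit 0) (nat_lit 0) (XT.lf (nat_lit 0) (nat_lit 2587196683) (nat_lit 456) (nat_lit 1919164276) (nat_lit 532) (nat_lit 4325645250) (nat_lit 153) (nat_lit 5) (nat_lit 159) (nat_lit 5) (nat_lit 160) (nat_lit 5) (nat_lit 343) (nat_lit 293) (nat_lit 264)) (XT.lf (nat_lit 0) (nat_lit 7594488102) (nat_lit 532) (nat_lit 195613349) (nat_lit 76) (nat_lit 1167469675) (nat_lit 153) (nat_lit 5) (nat_lit 160) (nat_lit 5) (nat_lit 154) (nat_lit 5) (nat_lit 344) (nat_lit 293) (nat_lit 263))) (XT.nd (nat_lit 78) (nat_lit 380) (nat_lit 0) (XT.lf (nat_lit 0) (nat_lit 1671070234) (nat_lit 456)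 (nat_lit 3050503555) (nat_lit 76) (nat_lit 4364398753) (nat_lit 147) (nat_lit 5) (nat_lit 153) (nat_lit 5) (nat_lit 148) (nat_lit 5) (nat_lit 345) (nat_lit 293) (nat_lit 262)) (XT.lf (nat_lit 0) (nat_lit 3206115289) (nat_lit 380) (nat_lit 1534293292) (nat_lit 456) (nat_lit 4478291308) (nat_lit 142) (nat_lit 5) (nat_lit 147) (nat_lit 5) (nat_lit 148) (nat_lit 5) (nat_lit 346) (nat_lit 293) (nat_lit 261))))) (XT.nd (nat_lit 234) (nat_lit 988) (nat_lit 0) (XT.nd (nat_lit 78) (nat_lit 456) (nat_lit 0) (XT.lf (nat_lit 0) (nat_lit 263425562) (nat_lit 304) (nat_lit 7628392037) (nat_lit 380) (nat_lit 1463916476) (nat_lit 138) (nat_lit 5) (nat_lit 142) (nat_lit 5) (nat_lit 143) (nat_lit 5) (nat_lit 347) (nat_lit 293) (nat_lit 260)) (XT.nd (nat_lit 78) (nat_lit 380) (nat_lit 0) (XT.lf (nat_lit 0) (nat_lit 1625275573) (nat_lit 380) (nat_lit 2759141301) (nat_lit 76) (nat_lit 5111520360) (nat_lit 137) (nat_lit 5) (nat_lit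 142) (nat_lit 5) (nat_lit 138) (nat_lit 5) (nat_lit 348) (nat_lit 293) (nat_lit 259)) (XT.lf (nat_lit 0) (nat_lit 3741481934) (nat_lit 380) (nat_lit 1013852288) (nat_lit 456) (nat_lit 4885271651) (nat_lit 132) (nat_lit 5) (nat_lit 137) (nat_lit 5) (nat_lit 138) (nat_lit 5) (nat_lit 349) (nat_lit 293) (nat_lit 258)))) (XT.nd (nat_lit 156) (nat_lit 608) (nat_lit 0) (XT.nd (nat_lit 78) (nat_lit 76) (nat_lit 0) (XT.lf (nat_lit 0) (nat_lit 611143374) (nat_lit 304) (nat_lit 7368147101) (nat_lit 380) (nat_lit 1810346197) (nat_lit 128) (nat_lit 5) (nat_lit 132) (nat_lit 5) (nat_lit 133) (nat_lit 5) (nat_lit 350) (nat_lit 293) (nat_lit 257)) (XT.lf (nat_lit 0) (nat_lit 1343222914) (nat_lit 380) (nat_lit 2609521775) (nat_lit 76) (nat_lit 5989636966) (nat_lit 127) (nat_lit 5) (nat_lit 132) (nat_lit 5) (nat_lit 128) (nat_lit 5) (nat_lit 351) (nat_lit 293) (nat_lit 256))) (XT.nd (nat_lit 78) (nat_lit 304) (nat_lit 0)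 (XT.lf (nat_lit 0) (nat_lit 4139621323) (nat_lit 304) (nat_lit 399528798) (nat_lit 380) (nat_lit 5560517136) (nat_lit 123) (nat_lit 5) (nat_lit 127) (nat_lit 5) (nat_lit 128) (nat_lit 5) (nat_lit 352) (nat_lit 293) (nat_lit 255)) (XT.lf (nat_lit 0) (nat_lit 787209697) (nat_lit 304) (nat_lit 7054238515) (nat_lit 380) (nat_lit 2419927949) (nat_lit 119) (nat_lit 5) (nat_lit 123) (nat_lit 5) (nat_lit 124) (nat_lit 5) (nat_lit 353) (nat_lit 293) (nat_lit 254))))))) (XT.nd (nat_lit 1014) (nat_lit 1824) (nat_lit 0) (XT.nd (nat_lit 468) (nat_lit 1140) (nat_lit 0) (XT.nd (nat_lit 234) (nat_lit 608) (nat_lit 0) (XT.nd (nat_lit 78) (nat_lit 608) (nat_lit 0) (XT.lf (nat_lit 0) (nat_lit 808970518) (nat_lit 380) (nat_lit 2660178400) (nat_lit 76) (nat_lit 6958271040) (nat_lit 118) (nat_lit 5) (nat_lit 123) (nat_lit 5) (nat_lit 119) (nat_lit 5) (nat_lit 354) (nat_lit 293) (nat_lit 253)) (XT.nd (nat_lit 78) (nat_lit 304)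 (nat_lit 0) (XT.lf (nat_lit 0) (nat_lit 4077229450) (nat_lit 380) (nat_lit 6260042647) (nat_lit 76) (nat_lit 260738100) (nat_lit 114) (nat_lit 5) (nat_lit 119) (nat_lit 5) (nat_lit 115) (nat_lit 5) (nat_lit 355) (nat_lit 293) (nat_lit 252)) (XT.lf (nat_lit 0) (nat_lit 728328457) (nat_lit 304) (nat_lit 6731095613) (nat_lit 380) (nat_lit 3313834784) (nat_lit 110) (nat_lit 5) (nat_lit 114) (nat_lit 5) (nat_lit 115) (nat_lit 5) (nat_lit 356) (nat_lit 293) (nat_lit 251)))) (XT.nd (nat_lit 78) (nat_lit 532) (nat_lit 0) (XT.lf (nat_lit 0) (nat_lit 1029049) (nat_lit 380) (nat_lit 2976946887) (nat_lit 76) (nat_lit 7975463434) (nat_lit 109) (nat_lit 5) (nat_lit 114) (nat_lit 5) (nat_lit 110) (nat_lit 5) (nat_lit 357) (nat_lit 293) (nat_lit 250)) (XT.nd (nat_lit 78) (nat_lit 228) (nat_lit 0) (XT.lf (nat_lit 0) (nat_lit 3348045081) (nat_lit 380) (nat_lit 6870563611) (nat_lit 76) (nat_lit 919468845) (nat_lit 105) (nat_lit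 5) (nat_lit 110) (nat_lit 5) (nat_lit 106) (nat_lit 5) (nat_lit 358) (nat_lit 293) (nat_lit 249)) (XT.lf (nat_lit 0) (nat_lit 362842636) (nat_lit 228) (nat_lit 6445643116) (nat_lit 304) (nat_lit 4519394086) (nat_lit 102) (nat_lit 5) (nat_lit 105) (nat_lit 5) (nat_lit 106) (nat_lit 5) (nat_lit 359) (nat_lit 293) (nat_lit 248))))) (XT.nd (nat_lit 234) (nat_lit 760) (nat_lit 0) (XT.nd (nat_lit 78) (nat_lit 380) (nat_lit 0) (XT.lf (nat_lit 0) (nat_lit 7877414829) (nat_lit 228) (nat_lit 2515114960) (nat_lit 304) (nat_lit 1130267680) (nat_lit 102) (nat_lit 5) (nat_lit 105) (nat_lit 5) (nat_lit 106) (nat_lit 5) (nat_lit 360) (nat_lit 293) (nat_lit 247)) (XT.nd (nat_lit 78) (nat_lit 0) (nat_lit 0) (XT.lf (nat_lit 0) (nat_lit 2318122453) (nat_lit 380) (nat_lit 7867024944) (nat_lit 76) (nat_lit 1537639039) (nat_lit 97) (nat_lit 5) (nat_lit 102) (nat_lit 5) (nat_lit 98) (nat_lit 5) (nat_lit 361) (nat_lit 293) (nat_lit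 246)) (XT.lf (nat_lit 0) (nat_lit 5861130711) (nat_lit 380) (nat_lit 383341432) (nat_lit 76) (nat_lit 5683564389) (nat_lit 97) (nat_lit 5) (nat_lit 102) (nat_lit 5) (nat_lit 98) (nat_lit 5) (nat_lit 362) (nat_lit 293) (nat_lit 245)))) (XT.nd (nat_lit 156) (nat_lit 228) (nat_lit 0) (XT.nd (nat_lit 78) (nat_lit 304) (nat_lit 0) (XT.lf (nat_lit 0) (nat_lit 7395495383) (nat_lit 228) (nat_lit 2139233441) (nat_lit 304) (nat_lit 2603999614) (nat_lit 94) (nat_lit 5) (nat_lit 97) (nat_lit 5) (nat_lit 98) (nat_lit 5) (nat_lit 363) (nat_lit 293) (nat_lit 244)) (XT.lf (nat_lit 0) (nat_lit 950740433) (nat_lit 304) (nat_lit 9340127721) (nat_lit 76) (nat_lit 2064405804) (nat_lit 90) (nat_lit 5) (nat_lit 94) (nat_lit 5) (nat_lit 91) (nat_lit 5) (nat_lit 364) (nat_lit 293) (nat_lit 243))) (XT.nd (nat_lit 78) (nat_lit 228) (nat_lit 0) (XT.lf (nat_lit 0) (nat_lit 4583131091) (nat_lit 304) (nat_lit 1595099409) (nat_lit 76)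 (nat_lit 6398623662) (nat_lit 90) (nat_lit 5) (nat_lit 94) (nat_lit 5) (nat_lit 91) (nat_lit 5) (nat_lit 365) (nat_lit 293) (nat_lit 242)) (XT.lf (nat_lit 0) (nat_lit 6435735899) (nat_lit 228) (nat_lit 1905761709) (nat_lit 304) (nat_lit 4463085851) (nat_lit 87) (nat_lit 5) (nat_lit 90) (nat_lit 5) (nat_lit 91) (nat_lit 5) (nat_lit 366) (nat_lit 293) (nat_lit 241)))))) (XT.nd (nat_lit 546) (nat_lit 912) (nat_lit 0) (XT.nd (nat_lit 234) (nat_lit 456) (nat_lit 0) (XT.nd (nat_lit 78) (nat_lit 228) (nat_lit 0) (XT.lf (nat_lit 0) (nat_lit 1636833042) (nat_lit 228) (nat_lit 10587264189) (nat_lit 304) (nat_lit 814714409) (nat_lit 84) (nat_lit 5) (nat_lit 87) (nat_lit 5) (nat_lit 88) (nat_lit 5) (nat_lit 367) (nat_lit 293) (nat_lit 240)) (XT.nd (nat_lit 78) (nat_lit 152) (nat_lit 0) (XT.lf (nat_lit 0) (nat_lit 2925155348) (nat_lit 304) (nat_lit 3385375733) (nat_lit 76) (nat_lit 6967513334) (nat_lit 83) (nat_lit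 5) (nat_lit 87) (nat_lit 5) (nat_lit 84) (nat_lit 5) (nat_lit 368) (nat_lit 293) (nat_lit 239)) (XT.lf (nat_lit 0) (nat_lit 4888486644) (nat_lit 152) (nat_lit 1876301458) (nat_lit 228) (nat_lit 6759316317) (nat_lit 81) (nat_lit 5) (nat_lit 83) (nat_lit 5) (nat_lit 84) (nat_lit 5) (nat_lit 369) (nat_lit 293) (nat_lit 238)))) (XT.nd (nat_lit 156) (nat_lit 152) (nat_lit 0) (XT.nd (nat_lit 78) (nat_lit 304) (nat_lit 0) (XT.lf (nat_lit 0) (nat_lit 10737270577) (nat_lit 228) (nat_lit 393657494) (nat_lit 76) (nat_lit 2646098521) (nat_lit 81) (nat_lit 5) (nat_lit 84) (nat_lit 5) (nat_lit 82) (nat_lit 5) (nat_lit 370) (nat_lit 293) (nat_lit 237)) (XT.lf (nat_lit 0) (nat_lit 832091684) (nat_lit 304) (nat_lit 5876501834) (nat_lit 76) (nat_lit 7327039991) (nat_lit 77) (nat_lit 5) (nat_lit 81) (nat_lit 5) (nat_lit 78) (nat_lit 5) (nat_lit 371) (nat_lit 293) (nat_lit 236))) (XT.nd (nat_lit 78) (nat_lit 0) (nat_lit 0)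 (XT.lf (nat_lit 0) (nat_lit 2626832110) (nat_lit 152) (nat_lit 2120084446) (nat_lit 228) (nat_lit 9554550972) (nat_lit 75) (nat_lit 5) (nat_lit 77) (nat_lit 5) (nat_lit 78) (nat_lit 5) (nat_lit 372) (nat_lit 293) (nat_lit 235)) (XT.lf (nat_lit 0) (nat_lit 8823101900) (nat_lit 228) (nat_lit 3162684409) (nat_lit 76) (nat_lit 2588181840) (nat_lit 75) (nat_lit 5) (nat_lit 78) (nat_lit 5) (nat_lit 76) (nat_lit 5) (nat_lit 373) (nat_lit 293) (nat_lit 234))))) (XT.nd (nat_lit 234) (nat_lit 456) (nat_lit 0) (XT.nd (nat_lit 78) (nat_lit 228) (nat_lit 0) (XT.lf (nat_lit 0) (nat_lit 5626160754) (nat_lit 228) (nat_lit 7430616936) (nat_lit 304) (nat_lit 1796818742) (nat_lit 72) (nat_lit 5) (nat_lit 75) (nat_lit 5) (nat_lit 76) (nat_lit 5) (nat_lit 374) (nat_lit 293) (nat_lit 233)) (XT.nd (nat_lit 78) (nat_lit 152) (nat_lit 0) (XT.lf (nat_lit 0) (nat_lit 2223948184) (nat_lit 304) (nat_lit 486745305) (nat_lit 76) (nat_lit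 12430496812) (nat_lit 71) (nat_lit 5) (nat_lit 75) (nat_lit 5) (nat_lit 72) (nat_lit 5) (nat_lit 375) (nat_lit 293) (nat_lit 232)) (XT.lf (nat_lit 0) (nat_lit 6394723938) (nat_lit 228) (nat_lit 6856204732) (nat_lit 76) (nat_lit 2183992651) (nat_lit 69) (nat_lit 5) (nat_lit 72) (nat_lit 5) (nat_lit 70) (nat_lit 5) (nat_lit 376) (nat_lit 293) (nat_lit 231)))) (XT.nd (nat_lit 156) (nat_lit 228) (nat_lit 0) (XT.nd (nat_lit 78) (nat_lit 0) (nat_lit 0) (XT.lf (nat_lit 0) (nat_lit 2137946147) (nat_lit 228) (nat_lit 8566687298) (nat_lit 304) (nat_lit 5032418321) (nat_lit 66) (nat_lit 5) (nat_lit 69) (nat_lit 5) (nat_lit 70) (nat_lit 5) (nat_lit 377) (nat_lit 293) (nat_lit 230)) (XT.lf (nat_lit 0) (nat_lit 11477422043) (nat_lit 228) (nat_lit 3697800805) (nat_lit 304) (nat_lit 872089381) (nat_lit 66) (nat_lit 5) (nat_lit 69) (nat_lit 5) (nat_lit 70) (nat_lit 5) (nat_lit 378) (nat_lit 293) (nat_lit 229))) (XT.nd (nat_lit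 78) (nat_lit 0) (nat_lit 0) (XT.lf (nat_lit 0) (nat_lit 3367933254) (nat_lit 228) (nat_lit 11653120021) (nat_lit 76) (nat_lit 1344205586) (nat_lit 63) (nat_lit 5) (nat_lit 66) (nat_lit 5) (nat_lit 64) (nat_lit 5) (nat_lit 379) (nat_lit 293) (nat_lit 228)) (XT.lf (nat_lit 0) (nat_lit 7763941013) (nat_lit 228) (nat_lit 2434876206) (nat_lit 76) (nat_lit 6492285200) (nat_lit 63) (nat_lit 5) (nat_lit 66) (nat_lit 5) (nat_lit 64) (nat_lit 5) (nat_lit 380) (nat_lit 293) (nat_lit 227))))))))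
noncomputable def xc87 : XT := (XT.nd (nat_lit 2106) (nat_lit 1140) (nat_lit 0) (XT.nd (nat_lit 1014) (nat_lit 988) (nat_lit 0) (XT.nd (nat_lit 468) (nat_lit 608) (nat_lit 0) (XT.nd (nat_lit 234) (nat_lit 304) (nat_lit 0) (XT.nd (nat_lit 78) (nat_lit 228) (nat_lit 0) (XT.lf (nat_lit 0) (nat_lit 7136929314) (nat_lit 152) (nat_lit 5187675927) (nat_lit 228) (nat_lit 4701139491) (nat_lit 61) (nat_lit 5) (nat_lit 63) (nat_lit 5) (nat_lit 64) (nat_lit 5) (nat_lit 381) (nat_lit 293) (nat_lit 226)) (XT.nd (nat_lit 78) (nat_lit 228) (nat_lit 0) (XT.lf (nat_lit 0) (nat_lit 16984159091) (nat_lit 152) (nat_lit 27140483) (nat_lit 228) (nat_lit 359456977) (nat_lit 61) (nat_lit 5) (nat_lit 63) (nat_lit 5) (nat_lit 64) (nat_lit 5) (nat_lit 382) (nat_lit 293) (nat_lit 225)) (XT.lf (nat_lit 0) (nat_lit 4140595304) (nat_lit 228) (nat_lit 8289411379) (nat_lit 76) (nat_lit 5291681202) (nat_lit 58) (nat_lit 5) (nat_lit 61) (nat_lit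 5) (nat_lit 59) (nat_lit 5) (nat_lit 383) (nat_lit 293) (nat_lit 224)))) (XT.nd (nat_lit 78) (nat_lit 152) (nat_lit 0) (XT.lf (nat_lit 0) (nat_lit 1433990559) (nat_lit 152) (nat_lit 7317923565) (nat_lit 228) (nat_lit 9331627559) (nat_lit 56) (nat_lit 5) (nat_lit 58) (nat_lit 5) (nat_lit 59) (nat_lit 5) (nat_lit 384) (nat_lit 293) (nat_lit 223)) (XT.nd (nat_lit 78) (nat_lit 152) (nat_lit 0) (XT.lf (nat_lit 0) (nat_lit 11558877891) (nat_lit 152) (nat_lit 1992322390) (nat_lit 228) (nat_lit 4903567793) (nat_lit 56) (nat_lit 5) (nat_lit 58) (nat_lit 5) (nat_lit 59) (nat_lit 5) (nat_lit 385) (nat_lit 293) (nat_lit 222)) (XT.lf (nat_lit 0) (nat_lit 3118511900) (nat_lit 152) (nat_lit 15406177802) (nat_lit 228) (nat_lit 311540456) (nat_lit 54) (nat_lit 5) (nat_lit 56) (nat_lit 5) (nat_lit 57) (nat_lit 4) (nat_lit 386) (nat_lit 293) (nat_lit 221))))) (XT.nd (nat_lit 234) (nat_lit 380) (nat_lit 0) (XT.nd (nat_lit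 78) (nat_lit 152) (nat_lit 0) (XT.lf (nat_lit 0) (nat_lit 4388828970) (nat_lit 228) (nat_lit 5774460392) (nat_lit 76) (nat_lit 9062874019) (nat_lit 53) (nat_lit 5) (nat_lit 56) (nat_lit 5) (nat_lit 54) (nat_lit 5) (nat_lit 387) (nat_lit 293) (nat_lit 220)) (XT.nd (nat_lit 78) (nat_lit 0) (nat_lit 0) (XT.lf (nat_lit 0) (nat_lit 4494201870) (nat_lit 152) (nat_lit 4740662319) (nat_lit 228) (nat_lit 10392515546) (nat_lit 51) (nat_lit 5) (nat_lit 53) (nat_lit 5) (nat_lit 54) (nat_lit 5) (nat_lit 388) (nat_lit 293) (nat_lit 219)) (XT.lf (nat_lit 0) (nat_lit 14261155255) (nat_lit 228) (nat_lit 4915949054) (nat_lit 76) (nat_lit 862487040) (nat_lit 51) (nat_lit 5) (nat_lit 54) (nat_lit 5) (nat_lit 52) (nat_lit 4) (nat_lit 389) (nat_lit 293) (nat_lit 218)))) (XT.nd (nat_lit 156) (nat_lit 152) (nat_lit 0) (XT.nd (nat_lit 78) (nat_lit 76) (nat_lit 0) (XT.lf (nat_lit 0) (nat_lit 5614432700) (nat_lit 152) (nat_lit 13893512359)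 (nat_lit 228) (nat_lit 954137820) (nat_lit 49) (nat_lit 5) (nat_lit 51) (nat_lit 5) (nat_lit 52) (nat_lit 4) (nat_lit 390) (nat_lit 293) (nat_lit 217)) (XT.lf (nat_lit 0) (nat_lit 3955546757) (nat_lit 228) (nat_lit 4429406696) (nat_lit 76) (nat_lit 12510572412) (nat_lit 48) (nat_lit 5) (nat_lit 51) (nat_lit 5) (nat_lit 49) (nat_lit 5) (nat_lit 391) (nat_lit 293) (nat_lit 216))) (XT.nd (nat_lit 78) (nat_lit 0) (nat_lit 0) (XT.lf (nat_lit 0) (nat_lit 6361648919) (nat_lit 152) (nat_lit 2662623870) (nat_lit 228) (nat_lit 12316492555) (nat_lit 46) (nat_lit 5) (nat_lit 48) (nat_lit 5) (nat_lit 49) (nat_lit 5) (nat_lit 392) (nat_lit 293) (nat_lit 215)) (XT.lf (nat_lit 0) (nat_lit 14291201064) (nat_lit 228) (nat_lit 4316852789) (nat_lit 76) (nat_lit 3189928264) (nat_lit 46) (nat_lit 5) (nat_lit 49) (nat_lit 5) (nat_lit 47) (nat_lit 4) (nat_lit 393) (nat_lit 293) (nat_lit 214)))))) (XT.nd (nat_lit 546) (nat_lit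 380) (nat_lit 0) (XT.nd (nat_lit 234) (nat_lit 304) (nat_lit 0) (XT.nd (nat_lit 78) (nat_lit 228) (nat_lit 0) (XT.lf (nat_lit 0) (nat_lit 6717016002) (nat_lit 76) (nat_lit 13060835675) (nat_lit 152) (nat_lit 2489216479) (nat_lit 45) (nat_lit 5) (nat_lit 46) (nat_lit 5) (nat_lit 47) (nat_lit 4) (nat_lit 394) (nat_lit 293) (nat_lit 213)) (XT.nd (nat_lit 78) (nat_lit 152) (nat_lit 0) (XT.lf (nat_lit 0) (nat_lit 2641464597) (nat_lit 152) (nat_lit 4657747759) (nat_lit 76) (nat_lit 15449799926) (nat_lit 44) (nat_lit 5) (nat_lit 46) (nat_lit 5) (nat_lit 45) (nat_lit 5) (nat_lit 395) (nat_lit 293) (nat_lit 212)) (XT.lf (nat_lit 0) (nat_lit 6614254538) (nat_lit 152) (nat_lit 1297051058) (nat_lit 228) (nat_lit 15332315499) (nat_lit 42) (nat_lit 5) (nat_lit 44) (nat_lit 5) (nat_lit 45) (nat_lit 5) (nat_lit 396) (nat_lit 293) (nat_lit 211)))) (XT.nd (nat_lit 156) (nat_lit 228) (nat_lit 0) (XT.nd (nat_lit 78) (nat_lit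 76) (nat_lit 0) (XT.lf (nat_lit 0) (nat_lit 13405504150) (nat_lit 228) (nat_lit 5530796352) (nat_lit 76) (nat_lit 4814783530) (nat_lit 42) (nat_lit 5) (nat_lit 45) (nat_lit 5) (nat_lit 43) (nat_lit 4) (nat_lit 397) (nat_lit 293) (nat_lit 210)) (XT.lf (nat_lit 0) (nat_lit 5953964992) (nat_lit 76) (nat_lit 13153263406) (nat_lit 152) (nat_lit 5165265090) (nat_lit 41) (nat_lit 5) (nat_lit 42) (nat_lit 5) (nat_lit 43) (nat_lit 4) (nat_lit 398) (nat_lit 293) (nat_lit 209))) (XT.nd (nat_lit 78) (nat_lit 152) (nat_lit 0) (XT.lf (nat_lit 0) (nat_lit 196209625) (nat_lit 152) (nat_lit 6963579365) (nat_lit 76) (nat_lit 17648838190) (nat_lit 40) (nat_lit 5) (nat_lit 42) (nat_lit 5) (nat_lit 41) (nat_lit 5) (nat_lit 399) (nat_lit 293) (nat_lit 208)) (XT.lf (nat_lit 0) (nat_lit 4724364231) (nat_lit 152) (nat_lit 909230612) (nat_lit 228) (nat_lit 19725152628) (nat_lit 38) (nat_lit 5) (nat_lit 40) (nat_lit 5) (nat_lit 41)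 (nat_lit 5) (nat_lit 400) (nat_lit 293) (nat_lit 207))))) (XT.nd (nat_lit 234) (nat_lit 304) (nat_lit 0) (XT.nd (nat_lit 78) (nat_lit 76) (nat_lit 0) (XT.lf (nat_lit 0) (nat_lit 11331830129) (nat_lit 228) (nat_lit 9120214996) (nat_lit 76) (nat_lit 5470397608) (nat_lit 38) (nat_lit 5) (nat_lit 41) (nat_lit 5) (nat_lit 39) (nat_lit 4) (nat_lit 401) (nat_lit 293) (nat_lit 206)) (XT.nd (nat_lit 78) (nat_lit 0) (nat_lit 0) (XT.lf (nat_lit 0) (nat_lit 2736391300) (nat_lit 76) (nat_lit 14474264366) (nat_lit 152) (nat_lit 9292107015) (nat_lit 37) (nat_lit 5) (nat_lit 38) (nat_lit 5) (nat_lit 39) (nat_lit 4) (nat_lit 402) (nat_lit 293) (nat_lit 205)) (XT.lf (nat_lit 0) (nat_lit 15088734217) (nat_lit 76) (nat_lit 8243841555) (nat_lit 152) (nat_lit 3765917595) (nat_lit 37) (nat_lit 5) (nat_lit 38) (nat_lit 5) (nat_lit 39) (nat_lit 4) (nat_lit 403) (nat_lit 293) (nat_lit 204)))) (XT.nd (nat_lit 156) (nat_lit 76) (nat_lit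 0) (XT.nd (nat_lit 78) (nat_lit 0) (nat_lit 0) (XT.lf (nat_lit 0) (nat_lit 35684918) (nat_lit 152) (nat_lit 1828256912) (nat_lit 228) (nat_lit 25848337509) (nat_lit 34) (nat_lit 5) (nat_lit 36) (nat_lit 5) (nat_lit 37) (nat_lit 5) (nat_lit 404) (nat_lit 293) (nat_lit 203)) (XT.lf (nat_lit 0) (nat_lit 7730637760) (nat_lit 228) (nat_lit 15782728860) (nat_lit 76) (nat_lit 4825687498) (nat_lit 34) (nat_lit 5) (nat_lit 37) (nat_lit 5) (nat_lit 35) (nat_lit 4) (nat_lit 405) (nat_lit 293) (nat_lit 202))) (XT.nd (nat_lit 78) (nat_lit 76) (nat_lit 0) (XT.lf (nat_lit 0) (nat_lit 13767368024) (nat_lit 228) (nat_lit 3594940578) (nat_lit 76) (nat_lit 11622505230) (nat_lit 34) (nat_lit 5) (nat_lit 37) (nat_lit 5) (nat_lit 35) (nat_lit 4) (nat_lit 406) (nat_lit 293) (nat_lit 201)) (XT.lf (nat_lit 0) (nat_lit 9092420135) (nat_lit 76) (nat_lit 10956814878) (nat_lit 152) (nat_lit 9598792896) (nat_lit 33) (nat_lit 5) (nat_lit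 34) (nat_lit 5) (nat_lit 35) (nat_lit 4) (nat_lit 407) (nat_lit 293) (nat_lit 200))))))) (XT.nd (nat_lit 1014) (nat_lit 456) (nat_lit 0) (XT.nd (nat_lit 468) (nat_lit 380) (nat_lit 0) (XT.nd (nat_lit 234) (nat_lit 76) (nat_lit 0) (XT.nd (nat_lit 78) (nat_lit 228) (nat_lit 0) (XT.lf (nat_lit 0) (nat_lit 22191033691) (nat_lit 76) (nat_lit 4341725755) (nat_lit 152) (nat_lit 3797985459) (nat_lit 33) (nat_lit 5) (nat_lit 34) (nat_lit 5) (nat_lit 35) (nat_lit 4) (nat_lit 408) (nat_lit 293) (nat_lit 199)) (XT.nd (nat_lit 78) (nat_lit 0) (nat_lit 0) (XT.lf (nat_lit 0) (nat_lit 2180896100) (nat_lit 228) (nat_lit 26380136057) (nat_lit 76) (nat_lit 2470890053) (nat_lit 30) (nat_lit 5) (nat_lit 33) (nat_lit 5) (nat_lit 31) (nat_lit 4) (nat_lit 409) (nat_lit 293) (nat_lit 198)) (XT.lf (nat_lit 0) (nat_lit 8366223166) (nat_lit 228) (nat_lit 13881522082) (nat_lit 76) (nat_lit 9502161350) (nat_lit 30) (nat_lit 5) (nat_lit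 33) (nat_lit 5) (nat_lit 31) (nat_lit 4) (nat_lit 410) (nat_lit 293) (nat_lit 197)))) (XT.nd (nat_lit 78) (nat_lit 76) (nat_lit 0) (XT.lf (nat_lit 0) (nat_lit 14715186247) (nat_lit 228) (nat_lit 1049049330) (nat_lit 76) (nat_lit 16725854913) (nat_lit 30) (nat_lit 5) (nat_lit 33) (nat_lit 5) (nat_lit 31) (nat_lit 4) (nat_lit 411) (nat_lit 293) (nat_lit 196)) (XT.nd (nat_lit 78) (nat_lit 0) (nat_lit 0) (XT.lf (nat_lit 0) (nat_lit 12369875871) (nat_lit 76) (nat_lit 8982363922) (nat_lit 152) (nat_lit 11897313650) (nat_lit 29) (nat_lit 5) (nat_lit 30) (nat_lit 5) (nat_lit 31) (nat_lit 4) (nat_lit 412) (nat_lit 293) (nat_lit 195)) (XT.lf (nat_lit 0) (nat_lit 26173361949) (nat_lit 76) (nat_lit 2004591248) (nat_lit 152) (nat_lit 5854162766) (nat_lit 29) (nat_lit 5) (nat_lit 30) (nat_lit 5) (nat_lit 31) (nat_lit 4) (nat_lit 413) (nat_lit 293) (nat_lit 194))))) (XT.nd (nat_lit 234) (nat_lit 228) (nat_lit 0) (XT.nd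 (nat_lit 78) (nat_lit 0) (nat_lit 0) (XT.lf (nat_lit 0) (nat_lit 446658101) (nat_lit 152) (nat_lit 29267128588) (nat_lit 76) (nat_lit 5121755864) (nat_lit 27) (nat_lit 5) (nat_lit 29) (nat_lit 5) (nat_lit 28) (nat_lit 4) (nat_lit 414) (nat_lit 293) (nat_lit 193)) (XT.nd (nat_lit 78) (nat_lit 0) (nat_lit 0) (XT.lf (nat_lit 0) (nat_lit 6898254523) (nat_lit 152) (nat_lit 16218626920) (nat_lit 76) (nat_lit 12542071169) (nat_lit 27) (nat_lit 5) (nat_lit 29) (nat_lit 5) (nat_lit 28) (nat_lit 4) (nat_lit 415) (nat_lit 293) (nat_lit 192)) (XT.lf (nat_lit 0) (nat_lit 13523420815) (nat_lit 152) (nat_lit 2816373395) (nat_lit 76) (nat_lit 20167871995) (nat_lit 27) (nat_lit 5) (nat_lit 29) (nat_lit 5) (nat_lit 28) (nat_lit 4) (nat_lit 416) (nat_lit 293) (nat_lit 191)))) (XT.nd (nat_lit 156) (nat_lit 152) (nat_lit 0) (XT.nd (nat_lit 78) (nat_lit 0) (nat_lit 0) (XT.lf (nat_lit 0) (nat_lit 11169295884) (nat_lit 76) (nat_lit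 9266016176) (nat_lit 152) (nat_lit 16943891880) (nat_lit 26) (nat_lit 5) (nat_lit 27) (nat_lit 5) (nat_lit 28) (nat_lit 4) (nat_lit 417) (nat_lit 293) (nat_lit 190)) (XT.lf (nat_lit 0) (nat_lit 25596021967) (nat_lit 76) (nat_lit 1967798302) (nat_lit 152) (nat_lit 10712791514) (nat_lit 26) (nat_lit 5) (nat_lit 27) (nat_lit 5) (nat_lit 28) (nat_lit 4) (nat_lit 418) (nat_lit 293) (nat_lit 189))) (XT.nd (nat_lit 78) (nat_lit 76) (nat_lit 0) (XT.lf (nat_lit 0) (nat_lit 1188871697) (nat_lit 76) (nat_lit 33763303822) (nat_lit 76) (nat_lit 4247388318) (nat_lit 25) (nat_lit 4) (nat_lit 26) (nat_lit 5) (nat_lit 26) (nat_lit 4) (nat_lit 419) (nat_lit 293) (nat_lit 188)) (XT.lf (nat_lit 0) (nat_lit 2494953099) (nat_lit 152) (nat_lit 24491560171) (nat_lit 76) (nat_lit 13159095975) (nat_lit 24) (nat_lit 5) (nat_lit 26) (nat_lit 5) (nat_lit 25) (nat_lit 4) (nat_lit 420) (nat_lit 293) (nat_lit 187)))))) (XT.nd (nat_lit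 546) (nat_lit 228) (nat_lit 0) (XT.nd (nat_lit 234) (nat_lit 152) (nat_lit 0) (XT.nd (nat_lit 78) (nat_lit 76) (nat_lit 0) (XT.lf (nat_lit 0) (nat_lit 9335985224) (nat_lit 152) (nat_lit 10643487735) (nat_lit 76) (nat_lit 21139849378) (nat_lit 24) (nat_lit 5) (nat_lit 26) (nat_lit 5) (nat_lit 25) (nat_lit 4) (nat_lit 421) (nat_lit 293) (nat_lit 186)) (XT.nd (nat_lit 78) (nat_lit 0) (nat_lit 0) (XT.lf (nat_lit 0) (nat_lit 3657831386) (nat_lit 76) (nat_lit 12741897428) (nat_lit 152) (nat_lit 25721995128) (nat_lit 23) (nat_lit 5) (nat_lit 24) (nat_lit 5) (nat_lit 25) (nat_lit 4) (nat_lit 422) (nat_lit 293) (nat_lit 185)) (XT.lf (nat_lit 0) (nat_lit 18573127340) (nat_lit 76) (nat_lit 5192250333) (nat_lit 152) (nat_lit 19386121626) (nat_lit 23) (nat_lit 5) (nat_lit 24) (nat_lit 5) (nat_lit 25) (nat_lit 4) (nat_lit 423) (nat_lit 293) (nat_lit 184)))) (XT.nd (nat_lit 156) (nat_lit 76) (nat_lit 0) (XT.nd (nat_lit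 78) (nat_lit 76) (nat_lit 0) (XT.lf (nat_lit 0) (nat_lit 31359710712) (nat_lit 152) (nat_lit 10333762844) (nat_lit 0) (nat_lit 2518464367) (nat_lit 23) (nat_lit 5) (nat_lit 25) (nat_lit 4) (nat_lit 23) (nat_lit 4) (nat_lit 424) (nat_lit 293) (nat_lit 183)) (XT.lf (nat_lit 0) (nat_lit 4339772163) (nat_lit 76) (nat_lit 34918602095) (nat_lit 76) (nat_lit 6043521838) (nat_lit 22) (nat_lit 4) (nat_lit 23) (nat_lit 5) (nat_lit 23) (nat_lit 4) (nat_lit 425) (nat_lit 293) (nat_lit 182))) (XT.nd (nat_lit 78) (nat_lit 0) (nat_lit 0) (XT.lf (nat_lit 0) (nat_lit 1039305263) (nat_lit 152) (nat_lit 26798139030) (nat_lit 76) (nat_lit 18584167144) (nat_lit 21) (nat_lit 5) (nat_lit 23) (nat_lit 5) (nat_lit 22) (nat_lit 4) (nat_lit 426) (nat_lit 293) (nat_lit 181)) (XT.lf (nat_lit 0) (nat_lit 8197026050) (nat_lit 152) (nat_lit 12299857539) (nat_lit 76) (nat_lit 27076724499) (nat_lit 21) (nat_lit 5) (nat_lit 23) (nat_lit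 5) (nat_lit 22) (nat_lit 4) (nat_lit 427) (nat_lit 293) (nat_lit 180))))) (XT.nd (nat_lit 234) (nat_lit 152) (nat_lit 0) (XT.nd (nat_lit 78) (nat_lit 0) (nat_lit 0) (XT.lf (nat_lit 0) (nat_lit 2655297384) (nat_lit 76) (nat_lit 12924052679) (nat_lit 152) (nat_lit 33180519677) (nat_lit 20) (nat_lit 5) (nat_lit 21) (nat_lit 5) (nat_lit 22) (nat_lit 4) (nat_lit 428) (nat_lit 293) (nat_lit 179)) (XT.nd (nat_lit 78) (nat_lit 0) (nat_lit 0) (XT.lf (nat_lit 0) (nat_lit 18281645583) (nat_lit 76) (nat_lit 5010221323) (nat_lit 152) (nat_lit 26686591856) (nat_lit 20) (nat_lit 5) (nat_lit 21) (nat_lit 5) (nat_lit 22) (nat_lit 4) (nat_lit 429) (nat_lit 293) (nat_lit 178)) (XT.lf (nat_lit 0) (nat_lit 31250790557) (nat_lit 152) (nat_lit 16916069403) (nat_lit 0) (nat_lit 3066295733) (nat_lit 20) (nat_lit 5) (nat_lit 22) (nat_lit 4) (nat_lit 20) (nat_lit 4) (nat_lit 430) (nat_lit 293) (nat_lit 177)))) (XT.nd (nat_lit 156)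 (nat_lit 76) (nat_lit 0) (XT.nd (nat_lit 78) (nat_lit 76) (nat_lit 0) (XT.lf (nat_lit 0) (nat_lit 39483367532) (nat_lit 152) (nat_lit 1769717934) (nat_lit 0) (nat_lit 11271362642) (nat_lit 20) (nat_lit 5) (nat_lit 22) (nat_lit 4) (nat_lit 20) (nat_lit 4) (nat_lit 431) (nat_lit 293) (nat_lit 176)) (XT.lf (nat_lit 0) (nat_lit 14078356663) (nat_lit 76) (nat_lit 34005603148) (nat_lit 76) (nat_lit 5766889454) (nat_lit 19) (nat_lit 4) (nat_lit 20) (nat_lit 5) (nat_lit 20) (nat_lit 4) (nat_lit 432) (nat_lit 293) (nat_lit 175))) (XT.nd (nat_lit 78) (nat_lit 0) (nat_lit 0) (XT.lf (nat_lit 0) (nat_lit 1695626549) (nat_lit 152) (nat_lit 24822522673) (nat_lit 76) (nat_lit 28698283563) (nat_lit 18) (nat_lit 5) (nat_lit 20) (nat_lit 5) (nat_lit 19) (nat_lit 4) (nat_lit 433) (nat_lit 293) (nat_lit 174)) (XT.lf (nat_lit 0) (nat_lit 9252247893) (nat_lit 152) (nat_lit 9507756955) (nat_lit 76) (nat_lit 37861682885) (nat_lit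 18) (nat_lit 5) (nat_lit 20) (nat_lit 5) (nat_lit 19) (nat_lit 4) (nat_lit 434) (nat_lit 293) (nat_lit 173))))))))
noncomputable def xc88 : XT := (XT.nd (nat_lit 38298) (nat_lit 0) (nat_lit 8664) (XT.nd (nat_lit 37284) (nat_lit 0) (nat_lit 19152) (XT.nd (nat_lit 468) (nat_lit 228) (nat_lit 0) (XT.nd (nat_lit 234) (nat_lit 76) (nat_lit 0) (XT.nd (nat_lit 78) (nat_lit 0) (nat_lit 0) (XT.lf (nat_lit 0) (nat_lit 6364821855) (nat_lit 76) (nat_lit 10718470938) (nat_lit 152) (nat_lit 40984376773) (nat_lit 17) (nat_lit 5) (nat_lit 18) (nat_lit 5) (nat_lit 19) (nat_lit 4) (nat_lit 435) (nat_lit 293) (nat_lit 172)) (XT.nd (nat_lit 78) (nat_lit 0) (nat_lit 0) (XT.lf (nat_lit 0) (nat_lit 22882900488) (nat_lit 76) (nat_lit 2349066718) (nat_lit 152) (nat_lit 34322583662) (nat_lit 17) (nat_lit 5) (nat_lit 18) (nat_lit 5) (nat_lit 19) (nat_lit 4) (nat_lit 436) (nat_lit 293) (nat_lit 171)) (XT.lf (nat_lit 0) (nat_lit 33672348279)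 (nat_lit 152) (nat_lit 21274908295) (nat_lit 0) (nat_lit 6137365571) (nat_lit 17) (nat_lit 5) (nat_lit 19) (nat_lit 4) (nat_lit 17) (nat_lit 4) (nat_lit 437) (nat_lit 293) (nat_lit 170)))) (XT.nd (nat_lit 78) (nat_lit 76) (nat_lit 0) (XT.lf (nat_lit 0) (nat_lit 42376540332) (nat_lit 152) (nat_lit 5463897222) (nat_lit 0) (nat_lit 14819840923) (nat_lit 17) (nat_lit 5) (nat_lit 19) (nat_lit 4) (nat_lit 17) (nat_lit 4) (nat_lit 438) (nat_lit 293) (nat_lit 169)) (XT.nd (nat_lit 78) (nat_lit 0) (nat_lit 0) (XT.lf (nat_lit 0) (nat_lit 11012675924) (nat_lit 76) (nat_lit 40422752957) (nat_lit 76) (nat_lit 12844969372) (nat_lit 16) (nat_lit 4) (nat_lit 17) (nat_lit 5) (nat_lit 17) (nat_lit 4) (nat_lit 439) (nat_lit 293) (nat_lit 168)) (XT.lf (nat_lit 0) (nat_lit 28072117583) (nat_lit 76) (nat_lit 32736984012) (nat_lit 76) (nat_lit 5138730354) (nat_lit 16) (nat_lit 4) (nat_lit 17) (nat_lit 5) (nat_lit 17) (nat_lit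 4) (nat_lit 440) (nat_lit 293) (nat_lit 167))))) (XT.nd (nat_lit 234) (nat_lit 76) (nat_lit 0) (XT.nd (nat_lit 78) (nat_lit 76) (nat_lit 0) (XT.lf (nat_lit 0) (nat_lit 2732162477) (nat_lit 152) (nat_lit 22071837686) (nat_lit 76) (nat_lit 42860839832) (nat_lit 15) (nat_lit 5) (nat_lit 17) (nat_lit 5) (nat_lit 16) (nat_lit 4) (nat_lit 441) (nat_lit 293) (nat_lit 166)) (XT.nd (nat_lit 78) (nat_lit 76) (nat_lit 0) (XT.lf (nat_lit 0) (nat_lit 10724325185) (nat_lit 152) (nat_lit 5867042395) (nat_lit 76) (nat_lit 52840812331) (nat_lit 15) (nat_lit 5) (nat_lit 17) (nat_lit 5) (nat_lit 16) (nat_lit 4) (nat_lit 442) (nat_lit 293) (nat_lit 165)) (XT.lf (nat_lit 0) (nat_lit 11017213167) (nat_lit 76) (nat_lit 8033707378) (nat_lit 152) (nat_lit 52198780204) (nat_lit 14) (nat_lit 5) (nat_lit 15) (nat_lit 5) (nat_lit 16) (nat_lit 4) (nat_lit 443) (nat_lit 293) (nat_lit 164)))) (XT.nd (nat_lit 156) (nat_lit 76) (nat_lit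 0) (XT.nd (nat_lit 78) (nat_lit 0) (nat_lit 0) (XT.lf (nat_lit 0) (nat_lit 27683435569) (nat_lit 152) (nat_lit 44621487263) (nat_lit 0) (nat_lit 815141458) (nat_lit 14) (nat_lit 5) (nat_lit 16) (nat_lit 4) (nat_lit 14) (nat_lit 4) (nat_lit 444) (nat_lit 293) (nat_lit 163)) (XT.lf (nat_lit 0) (nat_lit 36643579537) (nat_lit 152) (nat_lit 28642758247) (nat_lit 0) (nat_lit 9758142061) (nat_lit 14) (nat_lit 5) (nat_lit 16) (nat_lit 4) (nat_lit 14) (nat_lit 4) (nat_lit 445) (nat_lit 293) (nat_lit 162))) (XT.nd (nat_lit 78) (nat_lit 76) (nat_lit 0) (XT.lf (nat_lit 0) (nat_lit 45861956790) (nat_lit 152) (nat_lit 12205113629) (nat_lit 0) (nat_lit 18959875272) (nat_lit 14) (nat_lit 5) (nat_lit 16) (nat_lit 4) (nat_lit 14) (nat_lit 4) (nat_lit 446) (nat_lit 293) (nat_lit 161)) (XT.lf (nat_lit 0) (nat_lit 4799464420) (nat_lit 76) (nat_lit 50593293189) (nat_lit 76) (nat_lit 23675052406) (nat_lit 13) (nat_lit 4) (nat_lit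 14) (nat_lit 5) (nat_lit 14) (nat_lit 4) (nat_lit 447) (nat_lit 293) (nat_lit 160)))))) (XT.nd (nat_lit 468) (nat_lit 4788) (nat_lit 0) (XT.nd (nat_lit 234) (nat_lit 1368) (nat_lit 0) (XT.nd (nat_lit 78) (nat_lit 608) (nat_lit 0) (XT.lf (nat_lit 0) (nat_lit 909117391) (nat_lit 532) (nat_lit 1480838632) (nat_lit 0) (nat_lit 909117391) (nat_lit 354) (nat_lit 5) (nat_lit 361) (nat_lit 4) (nat_lit 354) (nat_lit 4) (nat_lit 312) (nat_lit 294) (nat_lit 294)) (XT.nd (nat_lit 78) (nat_lit 76) (nat_lit 0) (XT.lf (nat_lit 0) (nat_lit 1053975500) (nat_lit 532) (nat_lit 3944835466) (nat_lit 532) (nat_lit 1627038705) (nat_lit 347) (nat_lit 4) (nat_lit 354) (nat_lit 5) (nat_lit 354) (nat_lit 4) (nat_lit 313) (nat_lit 294) (nat_lit 293)) (XT.lf (nat_lit 0) (nat_lit 1510743019) (nat_lit 608) (nat_lit 1501276549) (nat_lit 76) (nat_lit 3644329274) (nat_lit 346) (nat_lit 5) (nat_lit 354) (nat_lit 5) (nat_lit 347) (nat_lit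 4) (nat_lit 314) (nat_lit 294) (nat_lit 292)))) (XT.nd (nat_lit 78) (nat_lit 760) (nat_lit 0) (XT.lf (nat_lit 0) (nat_lit 2646658157) (nat_lit 608) (nat_lit 1983631882) (nat_lit 684) (nat_lit 2059467825) (nat_lit 338) (nat_lit 5) (nat_lit 346) (nat_lit 5) (nat_lit 347) (nat_lit 4) (nat_lit 315) (nat_lit 294) (nat_lit 291)) (XT.nd (nat_lit 78) (nat_lit 0) (nat_lit 0) (XT.lf (nat_lit 0) (nat_lit 136157994) (nat_lit 684) (nat_lit 873961972) (nat_lit 760) (nat_lit 5716428337) (nat_lit 328) (nat_lit 5) (nat_lit 337) (nat_lit 5) (nat_lit 338) (nat_lit 5) (nat_lit 316) (nat_lit 294) (nat_lit 290)) (XT.lf (nat_lit 0) (nat_lit 4072755855) (nat_lit 760) (nat_lit 2347136099) (nat_lit 76) (nat_lit 345748849) (nat_lit 328) (nat_lit 5) (nat_lit 338) (nat_lit 5) (nat_lit 329) (nat_lit 4) (nat_lit 317) (nat_lit 294) (nat_lit 289))))) (XT.nd (nat_lit 234) (nat_lit 3116) (nat_lit 0) (XT.nd (nat_lit 78) (nat_lit 836) (nat_lit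 0) (XT.lf (nat_lit 0) (nat_lit 341459279) (nat_lit 836) (nat_lit 4839983908) (nat_lit 76) (nat_lit 1626567925) (nat_lit 317) (nat_lit 5) (nat_lit 328) (nat_lit 5) (nat_lit 318) (nat_lit 5) (nat_lit 318) (nat_lit 294) (nat_lit 288)) (XT.nd (nat_lit 78) (nat_lit 836) (nat_lit 0) (XT.lf (nat_lit 0) (nat_lit 3339199025) (nat_lit 836) (nat_lit 500048612) (nat_lit 76) (nat_lit 3013884177) (nat_lit 317) (nat_lit 5) (nat_lit 328) (nat_lit 5) (nat_lit 318) (nat_lit 5) (nat_lit 319) (nat_lit 294) (nat_lit 287)) (XT.lf (nat_lit 0) (nat_lit 3966941014) (nat_lit 836) (nat_lit 2403454237) (nat_lit 912) (nat_lit 530976845) (nat_lit 306) (nat_lit 5) (nat_lit 317) (nat_lit 5) (nat_lit 318) (nat_lit 5) (nat_lit 320) (nat_lit 294) (nat_lit 286)))) (XT.nd (nat_lit 156) (nat_lit 2128) (nat_lit 0) (XT.nd (nat_lit 78) (nat_lit 0) (nat_lit 0) (XT.lf (nat_lit 0) (nat_lit 1551381853) (nat_lit 912) (nat_lit 866900278) (nat_lit 988)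 (nat_lit 4534319896) (nat_lit 293) (nat_lit 5) (nat_lit 305) (nat_lit 5) (nat_lit 306) (nat_lit 5) (nat_lit 321) (nat_lit 294) (nat_lit 285)) (XT.lf (nat_lit 0) (nat_lit 5390599819) (nat_lit 988) (nat_lit 868800188) (nat_lit 76) (nat_lit 747519146) (nat_lit 293) (nat_lit 5) (nat_lit 306) (nat_lit 5) (nat_lit 294) (nat_lit 5) (nat_lit 322) (nat_lit 294) (nat_lit 284))) (XT.nd (nat_lit 78) (nat_lit 1064) (nat_lit 0) (XT.lf (nat_lit 0) (nat_lit 1317681284) (nat_lit 1064) (nat_lit 3293698135) (nat_lit 76) (nat_lit 2452480527) (nat_lit 279) (nat_lit 5) (nat_lit 293) (nat_lit 5) (nat_lit 280) (nat_lit 5) (nat_lit 323) (nat_lit 294) (nat_lit 283)) (XT.lf (nat_lit 0) (nat_lit 1372158131) (nat_lit 1064) (nat_lit 2869113121) (nat_lit 1140) (nat_lit 2882795979) (nat_lit 265) (nat_lit 5) (nat_lit 279) (nat_lit 5) (nat_lit 280) (nat_lit 5) (nat_lit 324) (nat_lit 294) (nat_lit 282))))))) (XT.nd (nat_lit 1014) (nat_lit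 4408) (nat_lit 0) (XT.nd (nat_lit 468) (nat_lit 2356) (nat_lit 0) (XT.nd (nat_lit 234) (nat_lit 1292) (nat_lit 0) (XT.nd (nat_lit 78) (nat_lit 2356) (nat_lit 0) (XT.lf (nat_lit 0) (nat_lit 11653652) (nat_lit 1140) (nat_lit 1023910636) (nat_lit 76) (nat_lit 6152159977) (nat_lit 264) (nat_lit 5) (nat_lit 279) (nat_lit 5) (nat_lit 265) (nat_lit 5) (nat_lit 325) (nat_lit 294) (nat_lit 281)) (XT.nd (nat_lit 78) (nat_lit 1216) (nat_lit 0) (XT.lf (nat_lit 0) (nat_lit 2895918456) (nat_lit 1216) (nat_lit 3451999141) (nat_lit 76) (nat_lit 905744387) (nat_lit 249) (nat_lit 5) (nat_lit 265) (nat_lit 5) (nat_lit 250) (nat_lit 5) (nat_lit 326) (nat_lit 294) (nat_lit 280)) (XT.lf (nat_lit 0) (nat_lit 1406095658) (nat_lit 1216) (nat_lit 4411957899) (nat_lit 1292) (nat_lit 1505037349) (nat_lit 233) (nat_lit 5) (nat_lit 249) (nat_lit 5) (nat_lit 250) (nat_lit 5) (nat_lit 327) (nat_lit 294) (nat_lit 279)))) (XT.nd (nat_lit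 78) (nat_lit 1216) (nat_lit 0) (XT.lf (nat_lit 0) (nat_lit 1358388047) (nat_lit 1292) (nat_lit 1010568626) (nat_lit 76) (nat_lit 5026689808) (nat_lit 232) (nat_lit 5) (nat_lit 249) (nat_lit 5) (nat_lit 233) (nat_lit 5) (nat_lit 328) (nat_lit 294) (nat_lit 278)) (XT.nd (nat_lit 78) (nat_lit 608) (nat_lit 0) (XT.lf (nat_lit 0) (nat_lit 4025551796) (nat_lit 608) (nat_lit 210904253) (nat_lit 684) (nat_lit 3234754758) (nat_lit 224) (nat_lit 5) (nat_lit 232) (nat_lit 5) (nat_lit 233) (nat_lit 5) (nat_lit 329) (nat_lit 294) (nat_lit 277)) (XT.lf (nat_lit 0) (nat_lit 1614065202) (nat_lit 608) (nat_lit 5553783125) (nat_lit 684) (nat_lit 382231663) (nat_lit 216) (nat_lit 5) (nat_lit 224) (nat_lit 5) (nat_lit 225) (nat_lit 5) (nat_lit 330) (nat_lit 294) (nat_lit 276))))) (XT.nd (nat_lit 234) (nat_lit 1064) (nat_lit 0) (XT.nd (nat_lit 78) (nat_lit 1216) (nat_lit 0) (XT.lf (nat_lit 0) (nat_lit 2465726763) (nat_lit 684)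 (nat_lit 844560809) (nat_lit 76) (nat_lit 4321543278) (nat_lit 215) (nat_lit 5) (nat_lit 224) (nat_lit 5) (nat_lit 216) (nat_lit 5) (nat_lit 331) (nat_lit 294) (nat_lit 275)) (XT.nd (nat_lit 78) (nat_lit 608) (nat_lit 0) (XT.lf (nat_lit 0) (nat_lit 4400655097) (nat_lit 608) (nat_lit 957851995) (nat_lit 684) (nat_lit 2358445013) (nat_lit 207) (nat_lit 5) (nat_lit 215) (nat_lit 5) (nat_lit 216) (nat_lit 5) (nat_lit 332) (nat_lit 294) (nat_lit 274)) (XT.lf (nat_lit 0) (nat_lit 490309920) (nat_lit 608) (nat_lit 5852713505) (nat_lit 76) (nat_lit 1462472356) (nat_lit 199) (nat_lit 5) (nat_lit 207) (nat_lit 5) (nat_lit 200) (nat_lit 5) (nat_lit 333) (nat_lit 294) (nat_lit 273)))) (XT.nd (nat_lit 156) (nat_lit 532) (nat_lit 0) (XT.nd (nat_lit 78) (nat_lit 532) (nat_lit 0) (XT.lf (nat_lit 0) (nat_lit 3347158689) (nat_lit 608) (nat_lit 564101481) (nat_lit 76) (nat_lit 3985673751) (nat_lit 199) (nat_lit 5) (nat_lit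 207) (nat_lit 5) (nat_lit 200) (nat_lit 5) (nat_lit 334) (nat_lit 294) (nat_lit 272)) (XT.lf (nat_lit 0) (nat_lit 4898009877) (nat_lit 532) (nat_lit 1367650033) (nat_lit 608) (nat_lit 1726215423) (nat_lit 192) (nat_lit 5) (nat_lit 199) (nat_lit 5) (nat_lit 200) (nat_lit 5) (nat_lit 335) (nat_lit 294) (nat_lit 271))) (XT.nd (nat_lit 78) (nat_lit 0) (nat_lit 0) (XT.lf (nat_lit 0) (nat_lit 1129579945) (nat_lit 532) (nat_lit 5702860555) (nat_lit 76) (nat_lit 1257802085) (nat_lit 185) (nat_lit 5) (nat_lit 192) (nat_lit 5) (nat_lit 186) (nat_lit 5) (nat_lit 336) (nat_lit 294) (nat_lit 270)) (XT.lf (nat_lit 0) (nat_lit 4012057798) (nat_lit 532) (nat_lit 207670076) (nat_lit 76) (nat_lit 3972084393) (nat_lit 185) (nat_lit 5) (nat_lit 192) (nat_lit 5) (nat_lit 186) (nat_lit 5) (nat_lit 337) (nat_lit 294) (nat_lit 269)))))) (XT.nd (nat_lit 546) (nat_lit 1976) (nat_lit 0) (XT.nd (nat_lit 234) (nat_lit 912) (nat_lit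 0) (XT.nd (nat_lit 78) (nat_lit 988) (nat_lit 0) (XT.lf (nat_lit 0) (nat_lit 5479105853) (nat_lit 532) (nat_lit 1487205129) (nat_lit 608) (nat_lit 1330593266) (nat_lit 178) (nat_lit 5) (nat_lit 185) (nat_lit 5) (nat_lit 186) (nat_lit 5) (nat_lit 338) (nat_lit 294) (nat_lit 268)) (XT.nd (nat_lit 78) (nat_lit 456) (nat_lit 0) (XT.lf (nat_lit 0) (nat_lit 1548915690) (nat_lit 532) (nat_lit 5522937201) (nat_lit 76) (nat_lit 1333580592) (nat_lit 171) (nat_lit 5) (nat_lit 178) (nat_lit 5) (nat_lit 172) (nat_lit 5) (nat_lit 339) (nat_lit 294) (nat_lit 267)) (XT.lf (nat_lit 0) (nat_lit 188865155) (nat_lit 456) (nat_lit 4278662191) (nat_lit 532) (nat_lit 4049943525) (nat_lit 165) (nat_lit 5) (nat_lit 171) (nat_lit 5) (nat_lit 172) (nat_lit 5) (nat_lit 340) (nat_lit 294) (nat_lit 266)))) (XT.nd (nat_lit 156) (nat_lit 456) (nat_lit 0) (XT.nd (nat_lit 78) (nat_lit 456) (nat_lit 0) (XT.lf (nat_lit 0) (nat_lit 6104202198)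 (nat_lit 456) (nat_lit 1360588772) (nat_lit 532) (nat_lit 1168376022) (nat_lit 165) (nat_lit 5) (nat_lit 171) (nat_lit 5) (nat_lit 172) (nat_lit 5) (nat_lit 341) (nat_lit 294) (nat_lit 265)) (XT.lf (nat_lit 0) (nat_lit 1750045039) (nat_lit 456) (nat_lit 5354892217) (nat_lit 76) (nat_lit 1647340717) (nat_lit 159) (nat_lit 5) (nat_lit 165) (nat_lit 5) (nat_lit 160) (nat_lit 5) (nat_lit 342) (nat_lit 294) (nat_lit 264))) (XT.nd (nat_lit 78) (nat_lit 0) (nat_lit 0) (XT.lf (nat_lit 0) (nat_lit 584364760) (nat_lit 456) (nat_lit 4130530585) (nat_lit 532) (nat_lit 4160276942) (nat_lit 153) (nat_lit 5) (nat_lit 159) (nat_lit 5) (nat_lit 160) (nat_lit 5) (nat_lit 343) (nat_lit 294) (nat_lit 263)) (XT.lf (nat_lit 0) (nat_lit 6731444641) (nat_lit 456) (nat_lit 1029852100) (nat_lit 532) (nat_lit 1240705550) (nat_lit 153) (nat_lit 5) (nat_lit 159) (nat_lit 5) (nat_lit 160) (nat_lit 5) (nat_lit 344) (nat_lit 294) (nat_lit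 262))))) (XT.nd (nat_lit 234) (nat_lit 1140) (nat_lit 0) (XT.nd (nat_lit 78) (nat_lit 380) (nat_lit 0) (XT.lf (nat_lit 0) (nat_lit 1730440299) (nat_lit 456) (nat_lit 5243381856) (nat_lit 76) (nat_lit 2158377393) (nat_lit 147) (nat_lit 5) (nat_lit 153) (nat_lit 5) (nat_lit 148) (nat_lit 5) (nat_lit 345) (nat_lit 294) (nat_lit 261)) (XT.nd (nat_lit 78) (nat_lit 0) (nat_lit 0) (XT.lf (nat_lit 0) (nat_lit 929469970) (nat_lit 380) (nat_lit 3819127261) (nat_lit 456) (nat_lit 4517877290) (nat_lit 142) (nat_lit 5) (nat_lit 147) (nat_lit 5) (nat_lit 148) (nat_lit 5) (nat_lit 346) (nat_lit 294) (nat_lit 260)) (XT.lf (nat_lit 0) (nat_lit 7315911335) (nat_lit 380) (nat_lit 535834741) (nat_lit 456) (nat_lit 1553222265) (nat_lit 142) (nat_lit 5) (nat_lit 147) (nat_lit 5) (nat_lit 148) (nat_lit 5) (nat_lit 347) (nat_lit 294) (nat_lit 259)))) (XT.nd (nat_lit 156) (nat_lit 380) (nat_lit 0) (XT.nd (nat_lit 78) (nat_lit 380)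 (nat_lit 0) (XT.lf (nat_lit 0) (nat_lit 1483133474) (nat_lit 380) (nat_lit 5236765234) (nat_lit 76) (nat_lit 2826947066) (nat_lit 137) (nat_lit 5) (nat_lit 142) (nat_lit 5) (nat_lit 138) (nat_lit 5) (nat_lit 348) (nat_lit 294) (nat_lit 258)) (XT.lf (nat_lit 0) (nat_lit 1175011527) (nat_lit 380) (nat_lit 3385602846) (nat_lit 456) (nat_lit 5132488197) (nat_lit 132) (nat_lit 5) (nat_lit 137) (nat_lit 5) (nat_lit 138) (nat_lit 5) (nat_lit 349) (nat_lit 294) (nat_lit 257))) (XT.nd (nat_lit 78) (nat_lit 380) (nat_lit 0) (XT.lf (nat_lit 0) (nat_lit 7728328821) (nat_lit 456) (nat_lit 2036065385) (nat_lit 76) (nat_lit 79436928) (nat_lit 132) (nat_lit 5) (nat_lit 138) (nat_lit 5) (nat_lit 133) (nat_lit 5) (nat_lit 350) (nat_lit 294) (nat_lit 256)) (XT.lf (nat_lit 0) (nat_lit 996445983) (nat_lit 380) (nat_lit 5388201383) (nat_lit 76) (nat_lit 3613453925) (nat_lit 127) (nat_lit 5) (nat_lit 132) (nat_lit 5) (nat_lit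 128) (nat_lit 5) (nat_lit 351) (nat_lit 294) (nat_lit 255))))))))
noncomputable def xc89 : XT := (XT.nd (nat_lit 2106) (nat_lit 2432) (nat_lit 0) (XT.nd (nat_lit 1014) (nat_lit 2128) (nat_lit 0) (XT.nd (nat_lit 468) (nat_lit 1216) (nat_lit 0) (XT.nd (nat_lit 234) (nat_lit 608) (nat_lit 0) (XT.nd (nat_lit 78) (nat_lit 380) (nat_lit 0) (XT.lf (nat_lit 0) (nat_lit 1266738874) (nat_lit 304) (nat_lit 2871400505) (nat_lit 380) (nat_lit 6018884147) (nat_lit 123) (nat_lit 5) (nat_lit 127) (nat_lit 5) (nat_lit 128) (nat_lit 5) (nat_lit 352) (nat_lit 294) (nat_lit 254)) (XT.nd (nat_lit 78) (nat_lit 380) (nat_lit 0) (XT.lf (nat_lit 0) (nat_lit 7382792351) (nat_lit 380) (nat_lit 2173082142) (nat_lit 76) (nat_lit 764596628) (nat_lit 123) (nat_lit 5) (nat_lit 128) (nat_lit 5) (nat_lit 124) (nat_lit 5) (nat_lit 353) (nat_lit 294) (nat_lit 253)) (XT.lf (nat_lit 0) (nat_lit 253625394) (nat_lit 380) (nat_lit 5756870914)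 (nat_lit 76) (nat_lit 4477607645) (nat_lit 118) (nat_lit 5) (nat_lit 123) (nat_lit 5) (nat_lit 119) (nat_lit 5) (nat_lit 354) (nat_lit 294) (nat_lit 252)))) (XT.nd (nat_lit 78) (nat_lit 304) (nat_lit 0) (XT.lf (nat_lit 0) (nat_lit 1144050365) (nat_lit 304) (nat_lit 2319131266) (nat_lit 380) (nat_lit 7197282188) (nat_lit 114) (nat_lit 5) (nat_lit 118) (nat_lit 5) (nat_lit 119) (nat_lit 5) (nat_lit 355) (nat_lit 294) (nat_lit 251)) (XT.nd (nat_lit 78) (nat_lit 304) (nat_lit 0) (XT.lf (nat_lit 0) (nat_lit 6790930460) (nat_lit 380) (nat_lit 2557718959) (nat_lit 76) (nat_lit 1488704727) (nat_lit 114) (nat_lit 5) (nat_lit 119) (nat_lit 5) (nat_lit 115) (nat_lit 5) (nat_lit 356) (nat_lit 294) (nat_lit 250)) (XT.lf (nat_lit 0) (nat_lit 4602164798) (nat_lit 304) (nat_lit 5633976563) (nat_lit 380) (nat_lit 782897286) (nat_lit 110) (nat_lit 5) (nat_lit 114) (nat_lit 5) (nat_lit 115) (nat_lit 5) (nat_lit 357) (nat_lit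 294) (nat_lit 249))))) (XT.nd (nat_lit 234) (nat_lit 608) (nat_lit 0) (XT.nd (nat_lit 78) (nat_lit 228) (nat_lit 0) (XT.lf (nat_lit 0) (nat_lit 738564430) (nat_lit 304) (nat_lit 1773502683) (nat_lit 380) (nat_lit 8693862928) (nat_lit 105) (nat_lit 5) (nat_lit 109) (nat_lit 5) (nat_lit 110) (nat_lit 5) (nat_lit 358) (nat_lit 294) (nat_lit 248)) (XT.nd (nat_lit 78) (nat_lit 228) (nat_lit 0) (XT.lf (nat_lit 0) (nat_lit 5927906894) (nat_lit 380) (nat_lit 3261026139) (nat_lit 76) (nat_lit 2208144708) (nat_lit 105) (nat_lit 5) (nat_lit 110) (nat_lit 5) (nat_lit 106) (nat_lit 5) (nat_lit 359) (nat_lit 294) (nat_lit 247)) (XT.lf (nat_lit 0) (nat_lit 4151973920) (nat_lit 228) (nat_lit 5304289548) (nat_lit 304) (nat_lit 2137409685) (nat_lit 102) (nat_lit 5) (nat_lit 105) (nat_lit 5) (nat_lit 106) (nat_lit 5) (nat_lit 360) (nat_lit 294) (nat_lit 246)))) (XT.nd (nat_lit 156) (nat_lit 228) (nat_lit 0) (XT.nd (nat_lit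 78) (nat_lit 304) (nat_lit 0) (XT.lf (nat_lit 0) (nat_lit 1255084694) (nat_lit 304) (nat_lit 26962381) (nat_lit 76) (nat_lit 10514178689) (nat_lit 101) (nat_lit 5) (nat_lit 105) (nat_lit 5) (nat_lit 102) (nat_lit 5) (nat_lit 361) (nat_lit 294) (nat_lit 245)) (XT.lf (nat_lit 0) (nat_lit 4762452710) (nat_lit 380) (nat_lit 4364013349) (nat_lit 76) (nat_lit 2876085558) (nat_lit 97) (nat_lit 5) (nat_lit 102) (nat_lit 5) (nat_lit 98) (nat_lit 5) (nat_lit 362) (nat_lit 294) (nat_lit 244))) (XT.nd (nat_lit 78) (nat_lit 0) (nat_lit 0) (XT.lf (nat_lit 0) (nat_lit 3299665462) (nat_lit 228) (nat_lit 5074635616) (nat_lit 304) (nat_lit 3840801298) (nat_lit 94) (nat_lit 5) (nat_lit 97) (nat_lit 5) (nat_lit 98) (nat_lit 5) (nat_lit 363) (nat_lit 294) (nat_lit 243)) (XT.lf (nat_lit 0) (nat_lit 11211889625) (nat_lit 228) (nat_lit 881897999) (nat_lit 304) (nat_lit 340276083) (nat_lit 94) (nat_lit 5) (nat_lit 97) (nat_lit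 5) (nat_lit 98) (nat_lit 5) (nat_lit 364) (nat_lit 294) (nat_lit 242)))))) (XT.nd (nat_lit 546) (nat_lit 912) (nat_lit 0) (XT.nd (nat_lit 234) (nat_lit 684) (nat_lit 0) (XT.nd (nat_lit 78) (nat_lit 228) (nat_lit 0) (XT.lf (nat_lit 0) (nat_lit 3256077942) (nat_lit 304) (nat_lit 5959556837) (nat_lit 76) (nat_lit 3441393378) (nat_lit 90) (nat_lit 5) (nat_lit 94) (nat_lit 5) (nat_lit 91) (nat_lit 5) (nat_lit 365) (nat_lit 294) (nat_lit 241)) (XT.nd (nat_lit 78) (nat_lit 0) (nat_lit 0) (XT.lf (nat_lit 0) (nat_lit 1949234402) (nat_lit 228) (nat_lit 5000628141) (nat_lit 304) (nat_lit 5936838017) (nat_lit 87) (nat_lit 5) (nat_lit 90) (nat_lit 5) (nat_lit 91) (nat_lit 5) (nat_lit 366) (nat_lit 294) (nat_lit 240)) (XT.lf (nat_lit 0) (nat_lit 10148113576) (nat_lit 228) (nat_lit 623575462) (nat_lit 304) (nat_lit 2351068384) (nat_lit 87) (nat_lit 5) (nat_lit 90) (nat_lit 5) (nat_lit 91) (nat_lit 5) (nat_lit 367) (nat_lit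 294) (nat_lit 239)))) (XT.nd (nat_lit 156) (nat_lit 380) (nat_lit 0) (XT.nd (nat_lit 78) (nat_lit 0) (nat_lit 0) (XT.lf (nat_lit 0) (nat_lit 1362128529) (nat_lit 304) (nat_lit 8154583865) (nat_lit 76) (nat_lit 3847425603) (nat_lit 83) (nat_lit 5) (nat_lit 87) (nat_lit 5) (nat_lit 84) (nat_lit 5) (nat_lit 368) (nat_lit 294) (nat_lit 238)) (XT.lf (nat_lit 0) (nat_lit 5134181289) (nat_lit 304) (nat_lit 9861653) (nat_lit 76) (nat_lit 8468187479) (nat_lit 83) (nat_lit 5) (nat_lit 87) (nat_lit 5) (nat_lit 84) (nat_lit 5) (nat_lit 369) (nat_lit 294) (nat_lit 237))) (XT.nd (nat_lit 78) (nat_lit 228) (nat_lit 0) (XT.lf (nat_lit 0) (nat_lit 8478127621) (nat_lit 152) (nat_lit 582186894) (nat_lit 228) (nat_lit 4806233428) (nat_lit 81) (nat_lit 5) (nat_lit 83) (nat_lit 5) (nat_lit 84) (nat_lit 5) (nat_lit 370) (nat_lit 294) (nat_lit 236)) (XT.lf (nat_lit 0) (nat_lit 3045500375) (nat_lit 228) (nat_lit 10087400111) (nat_lit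 304) (nat_lit 994744050) (nat_lit 78) (nat_lit 5) (nat_lit 81) (nat_lit 5) (nat_lit 82) (nat_lit 5) (nat_lit 371) (nat_lit 294) (nat_lit 235))))) (XT.nd (nat_lit 234) (nat_lit 456) (nat_lit 0) (XT.nd (nat_lit 78) (nat_lit 380) (nat_lit 0) (XT.lf (nat_lit 0) (nat_lit 2894466206) (nat_lit 304) (nat_lit 2653500353) (nat_lit 76) (nat_lit 8847154086) (nat_lit 77) (nat_lit 5) (nat_lit 81) (nat_lit 5) (nat_lit 78) (nat_lit 5) (nat_lit 372) (nat_lit 294) (nat_lit 234)) (XT.nd (nat_lit 78) (nat_lit 228) (nat_lit 0) (XT.lf (nat_lit 0) (nat_lit 6071607172) (nat_lit 152) (nat_lit 828142326) (nat_lit 228) (nat_lit 7770003161) (nat_lit 75) (nat_lit 5) (nat_lit 77) (nat_lit 5) (nat_lit 78) (nat_lit 5) (nat_lit 373) (nat_lit 294) (nat_lit 233)) (XT.lf (nat_lit 0) (nat_lit 57834163) (nat_lit 228) (nat_lit 10995036895) (nat_lit 304) (nat_lit 3898930714) (nat_lit 72) (nat_lit 5) (nat_lit 75) (nat_lit 5) (nat_lit 76) (nat_lit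 5) (nat_lit 374) (nat_lit 294) (nat_lit 232)))) (XT.nd (nat_lit 156) (nat_lit 228) (nat_lit 0) (XT.nd (nat_lit 78) (nat_lit 152) (nat_lit 0) (XT.lf (nat_lit 0) (nat_lit 143847385) (nat_lit 304) (nat_lit 6165305364) (nat_lit 76) (nat_lit 8931423318) (nat_lit 71) (nat_lit 5) (nat_lit 75) (nat_lit 5) (nat_lit 72) (nat_lit 5) (nat_lit 375) (nat_lit 294) (nat_lit 231)) (XT.lf (nat_lit 0) (nat_lit 2777277210) (nat_lit 152) (nat_lit 1441500299) (nat_lit 228) (nat_lit 11318408793) (nat_lit 69) (nat_lit 5) (nat_lit 71) (nat_lit 5) (nat_lit 72) (nat_lit 5) (nat_lit 376) (nat_lit 294) (nat_lit 230))) (XT.nd (nat_lit 78) (nat_lit 228) (nat_lit 0) (XT.lf (nat_lit 0) (nat_lit 8475941079) (nat_lit 228) (nat_lit 3825037273) (nat_lit 76) (nat_lit 3539924509) (nat_lit 69) (nat_lit 5) (nat_lit 72) (nat_lit 5) (nat_lit 70) (nat_lit 5) (nat_lit 377) (nat_lit 294) (nat_lit 229)) (XT.lf (nat_lit 0) (nat_lit 5407204273) (nat_lit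 228) (nat_lit 7483722817) (nat_lit 304) (nat_lit 3261907962) (nat_lit 66) (nat_lit 5) (nat_lit 69) (nat_lit 5) (nat_lit 70) (nat_lit 5) (nat_lit 378) (nat_lit 294) (nat_lit 228))))))) (XT.nd (nat_lit 1014) (nat_lit 1064) (nat_lit 0) (XT.nd (nat_lit 468) (nat_lit 760) (nat_lit 0) (XT.nd (nat_lit 234) (nat_lit 228) (nat_lit 0) (XT.nd (nat_lit 78) (nat_lit 304) (nat_lit 0) (XT.lf (nat_lit 0) (nat_lit 948390493) (nat_lit 304) (nat_lit 1549830460) (nat_lit 76) (nat_lit 13975544066) (nat_lit 65) (nat_lit 5) (nat_lit 69) (nat_lit 5) (nat_lit 66) (nat_lit 5) (nat_lit 379) (nat_lit 294) (nat_lit 227)) (XT.nd (nat_lit 78) (nat_lit 152) (nat_lit 0) (XT.lf (nat_lit 0) (nat_lit 5287389562) (nat_lit 228) (nat_lit 8843153703) (nat_lit 76) (nat_lit 2670778891) (nat_lit 63) (nat_lit 5) (nat_lit 66) (nat_lit 5) (nat_lit 64) (nat_lit 5) (nat_lit 380) (nat_lit 294) (nat_lit 226)) (XT.lf (nat_lit 0) (nat_lit 570748774) (nat_lit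 152) (nat_lit 9197051526) (nat_lit 228) (nat_lit 7370574997) (nat_lit 61) (nat_lit 5) (nat_lit 63) (nat_lit 5) (nat_lit 64) (nat_lit 5) (nat_lit 381) (nat_lit 294) (nat_lit 225)))) (XT.nd (nat_lit 78) (nat_lit 228) (nat_lit 0) (XT.lf (nat_lit 0) (nat_lit 10388497234) (nat_lit 152) (nat_lit 4049077748) (nat_lit 228) (nat_lit 3046322850) (nat_lit 61) (nat_lit 5) (nat_lit 63) (nat_lit 5) (nat_lit 64) (nat_lit 5) (nat_lit 382) (nat_lit 294) (nat_lit 224)) (XT.nd (nat_lit 78) (nat_lit 0) (nat_lit 0) (XT.lf (nat_lit 0) (nat_lit 1384076746) (nat_lit 228) (nat_lit 15211626650) (nat_lit 76) (nat_lit 1243566046) (nat_lit 58) (nat_lit 5) (nat_lit 61) (nat_lit 5) (nat_lit 59) (nat_lit 5) (nat_lit 383) (nat_lit 294) (nat_lit 223)) (XT.lf (nat_lit 0) (nat_lit 5965108260) (nat_lit 228) (nat_lit 5545255256) (nat_lit 76) (nat_lit 6691671207) (nat_lit 58) (nat_lit 5) (nat_lit 61) (nat_lit 5) (nat_lit 59) (nat_lit 5) (nat_lit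 384) (nat_lit 294) (nat_lit 222))))) (XT.nd (nat_lit 234) (nat_lit 380) (nat_lit 0) (XT.nd (nat_lit 78) (nat_lit 228) (nat_lit 0) (XT.lf (nat_lit 0) (nat_lit 4440507186) (nat_lit 152) (nat_lit 6253223246) (nat_lit 228) (nat_lit 7881653381) (nat_lit 56) (nat_lit 5) (nat_lit 58) (nat_lit 5) (nat_lit 59) (nat_lit 5) (nat_lit 385) (nat_lit 294) (nat_lit 221)) (XT.nd (nat_lit 78) (nat_lit 228) (nat_lit 0) (XT.lf (nat_lit 0) (nat_lit 14782825694) (nat_lit 152) (nat_lit 805259026) (nat_lit 228) (nat_lit 3371137929) (nat_lit 56) (nat_lit 5) (nat_lit 58) (nat_lit 5) (nat_lit 59) (nat_lit 5) (nat_lit 386) (nat_lit 294) (nat_lit 220)) (XT.lf (nat_lit 0) (nat_lit 1323940387) (nat_lit 228) (nat_lit 13267480314) (nat_lit 76) (nat_lit 4760569881) (nat_lit 53) (nat_lit 5) (nat_lit 56) (nat_lit 5) (nat_lit 54) (nat_lit 5) (nat_lit 387) (nat_lit 294) (nat_lit 219)))) (XT.nd (nat_lit 156) (nat_lit 228) (nat_lit 0) (XT.nd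 (nat_lit 78) (nat_lit 152) (nat_lit 0) (XT.lf (nat_lit 0) (nat_lit 6111334037) (nat_lit 228) (nat_lit 3114019511) (nat_lit 76) (nat_lit 10529615106) (nat_lit 53) (nat_lit 5) (nat_lit 56) (nat_lit 5) (nat_lit 54) (nat_lit 5) (nat_lit 388) (nat_lit 294) (nat_lit 218)) (XT.lf (nat_lit 0) (nat_lit 7434921494) (nat_lit 152) (nat_lit 3648465633) (nat_lit 228) (nat_lit 9085422678) (nat_lit 51) (nat_lit 5) (nat_lit 53) (nat_lit 5) (nat_lit 54) (nat_lit 5) (nat_lit 389) (nat_lit 294) (nat_lit 217))) (XT.nd (nat_lit 78) (nat_lit 228) (nat_lit 0) (XT.lf (nat_lit 0) (nat_lit 16226216106) (nat_lit 228) (nat_lit 2304768377) (nat_lit 76) (nat_lit 2063438004) (nat_lit 51) (nat_lit 5) (nat_lit 54) (nat_lit 5) (nat_lit 52) (nat_lit 4) (nat_lit 390) (nat_lit 294) (nat_lit 216)) (XT.lf (nat_lit 0) (nat_lit 570390851) (nat_lit 228) (nat_lit 12521264133) (nat_lit 76) (nat_lit 7938328470) (nat_lit 48) (nat_lit 5) (nat_lit 51)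 (nat_lit 5) (nat_lit 49) (nat_lit 5) (nat_lit 391) (nat_lit 294) (nat_lit 215)))))) (XT.nd (nat_lit 546) (nat_lit 608) (nat_lit 0) (XT.nd (nat_lit 234) (nat_lit 304) (nat_lit 0) (XT.nd (nat_lit 78) (nat_lit 152) (nat_lit 0) (XT.lf (nat_lit 0) (nat_lit 5563509841) (nat_lit 228) (nat_lit 1880377593) (nat_lit 76) (nat_lit 14033605840) (nat_lit 48) (nat_lit 5) (nat_lit 51) (nat_lit 5) (nat_lit 49) (nat_lit 5) (nat_lit 392) (nat_lit 294) (nat_lit 214)) (XT.nd (nat_lit 78) (nat_lit 0) (nat_lit 0) (XT.lf (nat_lit 0) (nat_lit 9208116443) (nat_lit 152) (nat_lit 1558331062) (nat_lit 228) (nat_lit 11170184328) (nat_lit 46) (nat_lit 5) (nat_lit 48) (nat_lit 5) (nat_lit 49) (nat_lit 5) (nat_lit 393) (nat_lit 294) (nat_lit 213)) (XT.lf (nat_lit 0) (nat_lit 16159577401) (nat_lit 228) (nat_lit 1836075318) (nat_lit 76) (nat_lit 4412872783) (nat_lit 46) (nat_lit 5) (nat_lit 49) (nat_lit 5) (nat_lit 47) (nat_lit 4) (nat_lit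 394) (nat_lit 294) (nat_lit 212)))) (XT.nd (nat_lit 156) (nat_lit 152) (nat_lit 0) (XT.nd (nat_lit 78) (nat_lit 76) (nat_lit 0) (XT.lf (nat_lit 0) (nat_lit 9503218526) (nat_lit 76) (nat_lit 12290523377) (nat_lit 152) (nat_lit 1098460814) (nat_lit 45) (nat_lit 5) (nat_lit 46) (nat_lit 5) (nat_lit 47) (nat_lit 4) (nat_lit 395) (nat_lit 294) (nat_lit 211)) (XT.lf (nat_lit 0) (nat_lit 4115695234) (nat_lit 152) (nat_lit 2260118156) (nat_lit 76) (nat_lit 17013630347) (nat_lit 44) (nat_lit 5) (nat_lit 46) (nat_lit 5) (nat_lit 45) (nat_lit 5) (nat_lit 396) (nat_lit 294) (nat_lit 210))) (XT.nd (nat_lit 78) (nat_lit 0) (nat_lit 0) (XT.lf (nat_lit 0) (nat_lit 9325168112) (nat_lit 152) (nat_lit 201984222) (nat_lit 228) (nat_lit 14372238367) (nat_lit 42) (nat_lit 5) (nat_lit 44) (nat_lit 5) (nat_lit 45) (nat_lit 5) (nat_lit 397) (nat_lit 294) (nat_lit 209)) (XT.lf (nat_lit 0) (nat_lit 15156609142) (nat_lit 228) (nat_lit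 3227667358) (nat_lit 76) (nat_lit 6038693411) (nat_lit 42) (nat_lit 5) (nat_lit 45) (nat_lit 5) (nat_lit 43) (nat_lit 4) (nat_lit 398) (nat_lit 294) (nat_lit 208))))) (XT.nd (nat_lit 234) (nat_lit 304) (nat_lit 0) (XT.nd (nat_lit 78) (nat_lit 228) (nat_lit 0) (XT.lf (nat_lit 0) (nat_lit 8577430425) (nat_lit 76) (nat_lit 12436166541) (nat_lit 152) (nat_lit 3946903525) (nat_lit 41) (nat_lit 5) (nat_lit 42) (nat_lit 5) (nat_lit 43) (nat_lit 4) (nat_lit 399) (nat_lit 294) (nat_lit 207)) (XT.nd (nat_lit 78) (nat_lit 152) (nat_lit 0) (XT.lf (nat_lit 0) (nat_lit 1509397960) (nat_lit 152) (nat_lit 4772668205) (nat_lit 76) (nat_lit 19231437465) (nat_lit 40) (nat_lit 5) (nat_lit 42) (nat_lit 5) (nat_lit 41) (nat_lit 5) (nat_lit 400) (nat_lit 294) (nat_lit 206)) (XT.lf (nat_lit 0) (nat_lit 7096090272) (nat_lit 228) (nat_lit 18839623186) (nat_lit 76) (nat_lit 144833262) (nat_lit 38) (nat_lit 5) (nat_lit 41) (nat_lit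 5) (nat_lit 39) (nat_lit 4) (nat_lit 401) (nat_lit 294) (nat_lit 205)))) (XT.nd (nat_lit 156) (nat_lit 228) (nat_lit 0) (XT.nd (nat_lit 78) (nat_lit 76) (nat_lit 0) (XT.lf (nat_lit 0) (nat_lit 12936338301) (nat_lit 228) (nat_lit 7059074584) (nat_lit 76) (nat_lit 6666612602) (nat_lit 38) (nat_lit 5) (nat_lit 41) (nat_lit 5) (nat_lit 39) (nat_lit 4) (nat_lit 402) (nat_lit 294) (nat_lit 204)) (XT.lf (nat_lit 0) (nat_lit 5130340227) (nat_lit 76) (nat_lit 13846579715) (nat_lit 152) (nat_lit 8283277836) (nat_lit 37) (nat_lit 5) (nat_lit 38) (nat_lit 5) (nat_lit 39) (nat_lit 4) (nat_lit 403) (nat_lit 294) (nat_lit 203))) (XT.nd (nat_lit 78) (nat_lit 228) (nat_lit 0) (XT.lf (nat_lit 0) (nat_lit 17785917785) (nat_lit 76) (nat_lit 7460173712) (nat_lit 152) (nat_lit 2628805424) (nat_lit 37) (nat_lit 5) (nat_lit 38) (nat_lit 5) (nat_lit 39) (nat_lit 4) (nat_lit 404) (nat_lit 294) (nat_lit 202)) (XT.lf (nat_lit 0) (nat_lit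 2283565978) (nat_lit 152) (nat_lit 847887888) (nat_lit 228) (nat_lit 25375709275) (nat_lit 34) (nat_lit 5) (nat_lit 36) (nat_lit 5) (nat_lit 37) (nat_lit 5) (nat_lit 405) (nat_lit 294) (nat_lit 201))))))))
noncomputable def xc90 : XT := (XT.nd (nat_lit 2106) (nat_lit 456) (nat_lit 0) (XT.nd (nat_lit 1014) (nat_lit 456) (nat_lit 0) (XT.nd (nat_lit 468) (nat_lit 304) (nat_lit 0) (XT.nd (nat_lit 234) (nat_lit 228) (nat_lit 0) (XT.nd (nat_lit 78) (nat_lit 76) (nat_lit 0) (XT.lf (nat_lit 0) (nat_lit 9148522833) (nat_lit 228) (nat_lit 14049080673) (nat_lit 76) (nat_lit 5955910477) (nat_lit 34) (nat_lit 5) (nat_lit 37) (nat_lit 5) (nat_lit 35) (nat_lit 4) (nat_lit 406) (nat_lit 294) (nat_lit 200)) (XT.nd (nat_lit 78) (nat_lit 76) (nat_lit 0) (XT.lf (nat_lit 0) (nat_lit 15331812307) (nat_lit 228) (nat_lit 1559944085) (nat_lit 76) (nat_lit 12927930245) (nat_lit 34) (nat_lit 5) (nat_lit 37) (nat_lit 5) (nat_lit 35)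 (nat_lit 4) (nat_lit 407) (nat_lit 294) (nat_lit 199)) (XT.lf (nat_lit 0) (nat_lit 11487029169) (nat_lit 76) (nat_lit 10301965927) (nat_lit 152) (nat_lit 8714200000) (nat_lit 33) (nat_lit 5) (nat_lit 34) (nat_lit 5) (nat_lit 35) (nat_lit 4) (nat_lit 408) (nat_lit 294) (nat_lit 198)))) (XT.nd (nat_lit 78) (nat_lit 228) (nat_lit 0) (XT.lf (nat_lit 0) (nat_lit 24916800070) (nat_lit 76) (nat_lit 3517071317) (nat_lit 152) (nat_lit 2773520476) (nat_lit 33) (nat_lit 5) (nat_lit 34) (nat_lit 5) (nat_lit 35) (nat_lit 4) (nat_lit 409) (nat_lit 294) (nat_lit 197)) (XT.nd (nat_lit 78) (nat_lit 0) (nat_lit 0) (XT.lf (nat_lit 0) (nat_lit 3359036735) (nat_lit 228) (nat_lit 25085581464) (nat_lit 76) (nat_lit 3484765726) (nat_lit 30) (nat_lit 5) (nat_lit 33) (nat_lit 5) (nat_lit 31) (nat_lit 4) (nat_lit 410) (nat_lit 294) (nat_lit 196)) (XT.lf (nat_lit 0) (nat_lit 9697514475) (nat_lit 228) (nat_lit 12272765148) (nat_lit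 76) (nat_lit 10699603833) (nat_lit 30) (nat_lit 5) (nat_lit 33) (nat_lit 5) (nat_lit 31) (nat_lit 4) (nat_lit 411) (nat_lit 294) (nat_lit 195))))) (XT.nd (nat_lit 234) (nat_lit 228) (nat_lit 0) (XT.nd (nat_lit 78) (nat_lit 0) (nat_lit 0) (XT.lf (nat_lit 0) (nat_lit 903322376) (nat_lit 76) (nat_lit 15310842177) (nat_lit 152) (nat_lit 17218795008) (nat_lit 29) (nat_lit 5) (nat_lit 30) (nat_lit 5) (nat_lit 31) (nat_lit 4) (nat_lit 412) (nat_lit 294) (nat_lit 194)) (XT.nd (nat_lit 78) (nat_lit 0) (nat_lit 0) (XT.lf (nat_lit 0) (nat_lit 14687911632) (nat_lit 76) (nat_lit 8341901238) (nat_lit 152) (nat_lit 11186012181) (nat_lit 29) (nat_lit 5) (nat_lit 30) (nat_lit 5) (nat_lit 31) (nat_lit 4) (nat_lit 413) (nat_lit 294) (nat_lit 193)) (XT.lf (nat_lit 0) (nat_lit 28848795317) (nat_lit 76) (nat_lit 1181298305) (nat_lit 152) (nat_lit 4992680001) (nat_lit 29) (nat_lit 5) (nat_lit 30) (nat_lit 5) (nat_lit 31) (nat_lit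 4) (nat_lit 414) (nat_lit 294) (nat_lit 192)))) (XT.nd (nat_lit 156) (nat_lit 76) (nat_lit 0) (XT.nd (nat_lit 78) (nat_lit 0) (nat_lit 0) (XT.lf (nat_lit 0) (nat_lit 1474016340) (nat_lit 152) (nat_lit 28231566057) (nat_lit 76) (nat_lit 6144511754) (nat_lit 27) (nat_lit 5) (nat_lit 29) (nat_lit 5) (nat_lit 28) (nat_lit 4) (nat_lit 415) (nat_lit 294) (nat_lit 191)) (XT.lf (nat_lit 0) (nat_lit 8089627883) (nat_lit 152) (nat_lit 14847344573) (nat_lit 76) (nat_lit 13762122833) (nat_lit 27) (nat_lit 5) (nat_lit 29) (nat_lit 5) (nat_lit 28) (nat_lit 4) (nat_lit 416) (nat_lit 294) (nat_lit 190))) (XT.nd (nat_lit 78) (nat_lit 76) (nat_lit 0) (XT.lf (nat_lit 0) (nat_lit 14884876569) (nat_lit 152) (nat_lit 1097135321) (nat_lit 76) (nat_lit 21592121289) (nat_lit 27) (nat_lit 5) (nat_lit 29) (nat_lit 5) (nat_lit 28) (nat_lit 4) (nat_lit 417) (nat_lit 294) (nat_lit 189)) (XT.lf (nat_lit 0) (nat_lit 13290420416) (nat_lit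 76) (nat_lit 8703035229) (nat_lit 152) (nat_lit 16478684102) (nat_lit 26) (nat_lit 5) (nat_lit 27) (nat_lit 5) (nat_lit 28) (nat_lit 4) (nat_lit 418) (nat_lit 294) (nat_lit 188)))))) (XT.nd (nat_lit 546) (nat_lit 228) (nat_lit 0) (XT.nd (nat_lit 234) (nat_lit 76) (nat_lit 0) (XT.nd (nat_lit 78) (nat_lit 152) (nat_lit 0) (XT.lf (nat_lit 0) (nat_lit 28097927534) (nat_lit 76) (nat_lit 1210364842) (nat_lit 152) (nat_lit 10089005809) (nat_lit 26) (nat_lit 5) (nat_lit 27) (nat_lit 5) (nat_lit 28) (nat_lit 4) (nat_lit 419) (nat_lit 294) (nat_lit 187)) (XT.nd (nat_lit 78) (nat_lit 76) (nat_lit 0) (XT.lf (nat_lit 0) (nat_lit 2961132319) (nat_lit 76) (nat_lit 33954753987) (nat_lit 76) (nat_lit 3432127335) (nat_lit 25) (nat_lit 4) (nat_lit 26) (nat_lit 5) (nat_lit 26) (nat_lit 4) (nat_lit 420) (nat_lit 294) (nat_lit 186)) (XT.lf (nat_lit 0) (nat_lit 3467168196) (nat_lit 152) (nat_lit 23522355579) (nat_lit 76) (nat_lit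 14333454759) (nat_lit 24) (nat_lit 5) (nat_lit 26) (nat_lit 5) (nat_lit 25) (nat_lit 4) (nat_lit 421) (nat_lit 294) (nat_lit 185)))) (XT.nd (nat_lit 156) (nat_lit 0) (nat_lit 0) (XT.nd (nat_lit 78) (nat_lit 76) (nat_lit 0) (XT.lf (nat_lit 0) (nat_lit 10487294396) (nat_lit 152) (nat_lit 9308470621) (nat_lit 76) (nat_lit 22530924378) (nat_lit 24) (nat_lit 5) (nat_lit 26) (nat_lit 5) (nat_lit 25) (nat_lit 4) (nat_lit 422) (nat_lit 294) (nat_lit 184)) (XT.lf (nat_lit 0) (nat_lit 5405669233) (nat_lit 76) (nat_lit 12347651888) (nat_lit 152) (nat_lit 25606133008) (nat_lit 23) (nat_lit 5) (nat_lit 24) (nat_lit 5) (nat_lit 25) (nat_lit 4) (nat_lit 423) (nat_lit 294) (nat_lit 183))) (XT.nd (nat_lit 78) (nat_lit 0) (nat_lit 0) (XT.lf (nat_lit 0) (nat_lit 20720712330) (nat_lit 76) (nat_lit 4594131957) (nat_lit 152) (nat_lit 19106033456) (nat_lit 23) (nat_lit 5) (nat_lit 24) (nat_lit 5) (nat_lit 25) (nat_lit 4) (nat_lit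 424) (nat_lit 294) (nat_lit 182)) (XT.lf (nat_lit 0) (nat_lit 33119678826) (nat_lit 152) (nat_lit 9082308843) (nat_lit 0) (nat_lit 3311663790) (nat_lit 23) (nat_lit 5) (nat_lit 25) (nat_lit 4) (nat_lit 23) (nat_lit 4) (nat_lit 425) (nat_lit 294) (nat_lit 181))))) (XT.nd (nat_lit 234) (nat_lit 76) (nat_lit 0) (XT.nd (nat_lit 78) (nat_lit 76) (nat_lit 0) (XT.lf (nat_lit 0) (nat_lit 6016123715) (nat_lit 76) (nat_lit 35230181666) (nat_lit 76) (nat_lit 5390274923) (nat_lit 22) (nat_lit 4) (nat_lit 23) (nat_lit 5) (nat_lit 23) (nat_lit 4) (nat_lit 426) (nat_lit 294) (nat_lit 180)) (XT.nd (nat_lit 78) (nat_lit 0) (nat_lit 0) (XT.lf (nat_lit 0) (nat_lit 1864918833) (nat_lit 152) (nat_lit 26085084334) (nat_lit 76) (nat_lit 19840360164) (nat_lit 21) (nat_lit 5) (nat_lit 23) (nat_lit 5) (nat_lit 22) (nat_lit 4) (nat_lit 427) (nat_lit 294) (nat_lit 179)) (XT.lf (nat_lit 0) (nat_lit 9214232377) (nat_lit 152) (nat_lit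 11196038831) (nat_lit 76) (nat_lit 28567344686) (nat_lit 21) (nat_lit 5) (nat_lit 23) (nat_lit 5) (nat_lit 22) (nat_lit 4) (nat_lit 428) (nat_lit 294) (nat_lit 178)))) (XT.nd (nat_lit 156) (nat_lit 0) (nat_lit 0) (XT.nd (nat_lit 78) (nat_lit 0) (nat_lit 0) (XT.lf (nat_lit 0) (nat_lit 4193331382) (nat_lit 76) (nat_lit 12616248603) (nat_lit 152) (nat_lit 33390140589) (nat_lit 20) (nat_lit 5) (nat_lit 21) (nat_lit 5) (nat_lit 22) (nat_lit 4) (nat_lit 429) (nat_lit 294) (nat_lit 177)) (XT.lf (nat_lit 0) (nat_lit 20245993083) (nat_lit 76) (nat_lit 4485260335) (nat_lit 152) (nat_lit 26724282156) (nat_lit 20) (nat_lit 5) (nat_lit 21) (nat_lit 5) (nat_lit 22) (nat_lit 4) (nat_lit 430) (nat_lit 294) (nat_lit 176))) (XT.nd (nat_lit 78) (nat_lit 0) (nat_lit 0) (XT.lf (nat_lit 0) (nat_lit 32913675041) (nat_lit 152) (nat_lit 16033567021) (nat_lit 0) (nat_lit 3801091134) (nat_lit 20) (nat_lit 5) (nat_lit 22) (nat_lit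 4) (nat_lit 20) (nat_lit 4) (nat_lit 431) (nat_lit 294) (nat_lit 175)) (XT.lf (nat_lit 0) (nat_lit 41372102313) (nat_lit 152) (nat_lit 473309992) (nat_lit 0) (nat_lit 12233587529) (nat_lit 20) (nat_lit 5) (nat_lit 22) (nat_lit 4) (nat_lit 20) (nat_lit 4) (nat_lit 432) (nat_lit 294) (nat_lit 174))))))) (XT.nd (nat_lit 1014) (nat_lit 0) (nat_lit 0) (XT.nd (nat_lit 468) (nat_lit 228) (nat_lit 0) (XT.nd (nat_lit 234) (nat_lit 76) (nat_lit 0) (XT.nd (nat_lit 78) (nat_lit 76) (nat_lit 0) (XT.lf (nat_lit 0) (nat_lit 15836976455) (nat_lit 76) (nat_lit 34386069277) (nat_lit 76) (nat_lit 5222378886) (nat_lit 19) (nat_lit 4) (nat_lit 20) (nat_lit 5) (nat_lit 20) (nat_lit 4) (nat_lit 433) (nat_lit 294) (nat_lit 173)) (XT.nd (nat_lit 78) (nat_lit 0) (nat_lit 0) (XT.lf (nat_lit 0) (nat_lit 2429520498) (nat_lit 152) (nat_lit 24256206118) (nat_lit 76) (nat_lit 30166658337) (nat_lit 18) (nat_lit 5) (nat_lit 20) (nat_lit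 5) (nat_lit 19) (nat_lit 4) (nat_lit 434) (nat_lit 294) (nat_lit 172)) (XT.lf (nat_lit 0) (nat_lit 10192946545) (nat_lit 152) (nat_lit 8520181668) (nat_lit 76) (nat_lit 39587267612) (nat_lit 18) (nat_lit 5) (nat_lit 20) (nat_lit 5) (nat_lit 19) (nat_lit 4) (nat_lit 435) (nat_lit 294) (nat_lit 171)))) (XT.nd (nat_lit 78) (nat_lit 0) (nat_lit 0) (XT.lf (nat_lit 0) (nat_lit 7816095997) (nat_lit 76) (nat_lit 10435627352) (nat_lit 152) (nat_lit 41538251163) (nat_lit 17) (nat_lit 5) (nat_lit 18) (nat_lit 5) (nat_lit 19) (nat_lit 4) (nat_lit 436) (nat_lit 294) (nat_lit 170)) (XT.nd (nat_lit 78) (nat_lit 0) (nat_lit 0) (XT.lf (nat_lit 0) (nat_lit 24793008362) (nat_lit 76) (nat_lit 1832744823) (nat_lit 152) (nat_lit 34696283586) (nat_lit 17) (nat_lit 5) (nat_lit 18) (nat_lit 5) (nat_lit 19) (nat_lit 4) (nat_lit 437) (nat_lit 294) (nat_lit 169)) (XT.lf (nat_lit 0) (nat_lit 35306273664) (nat_lit 152) (nat_lit 20712057621)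 (nat_lit 0) (nat_lit 6880072397) (nat_lit 17) (nat_lit 5) (nat_lit 19) (nat_lit 4) (nat_lit 17) (nat_lit 4) (nat_lit 438) (nat_lit 294) (nat_lit 168))))) (XT.nd (nat_lit 234) (nat_lit 152) (nat_lit 0) (XT.nd (nat_lit 78) (nat_lit 76) (nat_lit 0) (XT.lf (nat_lit 0) (nat_lit 44253423859) (nat_lit 152) (nat_lit 4461699650) (nat_lit 0) (nat_lit 15806752518) (nat_lit 17) (nat_lit 5) (nat_lit 19) (nat_lit 4) (nat_lit 17) (nat_lit 4) (nat_lit 439) (nat_lit 294) (nat_lit 167)) (XT.nd (nat_lit 78) (nat_lit 0) (nat_lit 0) (XT.lf (nat_lit 0) (nat_lit 12497738195) (nat_lit 76) (nat_lit 41079801914) (nat_lit 76) (nat_lit 12613256715) (nat_lit 16) (nat_lit 4) (nat_lit 17) (nat_lit 5) (nat_lit 17) (nat_lit 4) (nat_lit 440) (nat_lit 294) (nat_lit 166)) (XT.lf (nat_lit 0) (nat_lit 30035331589) (nat_lit 76) (nat_lit 33179643404) (nat_lit 76) (nat_lit 4693803198) (nat_lit 16) (nat_lit 4) (nat_lit 17) (nat_lit 5) (nat_lit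 17) (nat_lit 4) (nat_lit 441) (nat_lit 294) (nat_lit 165)))) (XT.nd (nat_lit 156) (nat_lit 76) (nat_lit 0) (XT.nd (nat_lit 78) (nat_lit 0) (nat_lit 0) (XT.lf (nat_lit 0) (nat_lit 3384417333) (nat_lit 152) (nat_lit 21634206036) (nat_lit 76) (nat_lit 44659014758) (nat_lit 15) (nat_lit 5) (nat_lit 17) (nat_lit 5) (nat_lit 16) (nat_lit 4) (nat_lit 442) (nat_lit 294) (nat_lit 164)) (XT.lf (nat_lit 0) (nat_lit 11599734535) (nat_lit 152) (nat_lit 4975299511) (nat_lit 76) (nat_lit 54923463624) (nat_lit 15) (nat_lit 5) (nat_lit 17) (nat_lit 5) (nat_lit 16) (nat_lit 4) (nat_lit 443) (nat_lit 294) (nat_lit 163))) (XT.nd (nat_lit 78) (nat_lit 0) (nat_lit 0) (XT.lf (nat_lit 0) (nat_lit 12405015540) (nat_lit 76) (nat_lit 7765148904) (nat_lit 152) (nat_lit 53200559672) (nat_lit 14) (nat_lit 5) (nat_lit 15) (nat_lit 5) (nat_lit 16) (nat_lit 4) (nat_lit 444) (nat_lit 294) (nat_lit 162)) (XT.lf (nat_lit 0) (nat_lit 29050457645)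 (nat_lit 152) (nat_lit 44922408253) (nat_lit 0) (nat_lit 1324669638) (nat_lit 14) (nat_lit 5) (nat_lit 16) (nat_lit 4) (nat_lit 14) (nat_lit 4) (nat_lit 445) (nat_lit 294) (nat_lit 161)))))) (XT.nd (nat_lit 36660) (nat_lit 0) (nat_lit 21204) (XT.nd (nat_lit 36348) (nat_lit 0) (nat_lit 25232) (XT.nd (nat_lit 78) (nat_lit 0) (nat_lit 0) (XT.lf (nat_lit 0) (nat_lit 38263779164) (nat_lit 152) (nat_lit 28494542327) (nat_lit 0) (nat_lit 10521831893) (nat_lit 14) (nat_lit 5) (nat_lit 16) (nat_lit 4) (nat_lit 14) (nat_lit 4) (nat_lit 446) (nat_lit 294) (nat_lit 160)) (XT.nd (nat_lit 36192) (nat_lit 0) (nat_lit 26372) (XT.lf (nat_lit 0) (nat_lit 47743536117) (nat_lit 152) (nat_lit 11593112991) (nat_lit 0) (nat_lit 19985900238) (nat_lit 14) (nat_lit 5) (nat_lit 16) (nat_lit 4) (nat_lit 14) (nat_lit 4) (nat_lit 447) (nat_lit 294) (nat_lit 159)) (XT.lf (nat_lit 0) (nat_lit 1171433645) (nat_lit 380) (nat_lit 1051840990)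 (nat_lit 380) (nat_lit 1051840990) (nat_lit 361) (nat_lit 4) (nat_lit 366) (nat_lit 5) (nat_lit 366) (nat_lit 4) (nat_lit 310) (nat_lit 295) (nat_lit 295)))) (XT.nd (nat_lit 156) (nat_lit 608) (nat_lit 0) (XT.nd (nat_lit 78) (nat_lit 456) (nat_lit 0) (XT.lf (nat_lit 0) (nat_lit 1037972589) (nat_lit 456) (nat_lit 351866227) (nat_lit 76) (nat_lit 5183895227) (nat_lit 360) (nat_lit 5) (nat_lit 366) (nat_lit 5) (nat_lit 361) (nat_lit 4) (nat_lit 311) (nat_lit 295) (nat_lit 294)) (XT.lf (nat_lit 0) (nat_lit 3592507611) (nat_lit 456) (nat_lit 564531235) (nat_lit 532) (nat_lit 2442611238) (nat_lit 354) (nat_lit 5) (nat_lit 360) (nat_lit 5) (nat_lit 361) (nat_lit 4) (nat_lit 312) (nat_lit 295) (nat_lit 293))) (XT.nd (nat_lit 78) (nat_lit 0) (nat_lit 0) (XT.lf (nat_lit 0) (nat_lit 637195110) (nat_lit 608) (nat_lit 5661909467) (nat_lit 76) (nat_lit 329864476) (nat_lit 346) (nat_lit 5) (nat_lit 354) (nat_lit 5) (nat_lit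 347) (nat_lit 4) (nat_lit 313) (nat_lit 295) (nat_lit 292)) (XT.lf (nat_lit 0) (nat_lit 3691450314) (nat_lit 608) (nat_lit 1646517150) (nat_lit 76) (nat_lit 1322628304) (nat_lit 346) (nat_lit 5) (nat_lit 354) (nat_lit 5) (nat_lit 347) (nat_lit 4) (nat_lit 314) (nat_lit 295) (nat_lit 291))))) (XT.nd (nat_lit 234) (nat_lit 2660) (nat_lit 0) (XT.nd (nat_lit 78) (nat_lit 684) (nat_lit 0) (XT.lf (nat_lit 0) (nat_lit 62083125) (nat_lit 684) (nat_lit 4236868039) (nat_lit 76) (nat_lit 2396639620) (nat_lit 337) (nat_lit 5) (nat_lit 346) (nat_lit 5) (nat_lit 338) (nat_lit 5) (nat_lit 315) (nat_lit 295) (nat_lit 290)) (XT.nd (nat_lit 78) (nat_lit 684) (nat_lit 0) (XT.lf (nat_lit 0) (nat_lit 3040476928) (nat_lit 684) (nat_lit 119129190) (nat_lit 76) (nat_lit 3573751135) (nat_lit 337) (nat_lit 5) (nat_lit 346) (nat_lit 5) (nat_lit 338) (nat_lit 5) (nat_lit 316) (nat_lit 295) (nat_lit 289)) (XT.lf (nat_lit 0) (nat_lit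 4125655935) (nat_lit 684) (nat_lit 1924277398) (nat_lit 760) (nat_lit 724150393) (nat_lit 328) (nat_lit 5) (nat_lit 337) (nat_lit 5) (nat_lit 338) (nat_lit 5) (nat_lit 317) (nat_lit 295) (nat_lit 288)))) (XT.nd (nat_lit 156) (nat_lit 1824) (nat_lit 0) (XT.nd (nat_lit 78) (nat_lit 0) (nat_lit 0) (XT.lf (nat_lit 0) (nat_lit 1615063316) (nat_lit 760) (nat_lit 592929333) (nat_lit 836) (nat_lit 4609843541) (nat_lit 317) (nat_lit 5) (nat_lit 327) (nat_lit 5) (nat_lit 328) (nat_lit 5) (nat_lit 318) (nat_lit 295) (nat_lit 287)) (XT.lf (nat_lit 0) (nat_lit 5153427685) (nat_lit 836) (nat_lit 896819277) (nat_lit 76) (nat_lit 814314386) (nat_lit 317) (nat_lit 5) (nat_lit 328) (nat_lit 5) (nat_lit 318) (nat_lit 5) (nat_lit 319) (nat_lit 295) (nat_lit 286))) (XT.nd (nat_lit 78) (nat_lit 912) (nat_lit 0) (XT.lf (nat_lit 0) (nat_lit 1196965290) (nat_lit 912) (nat_lit 3403074758) (nat_lit 76) (nat_lit 2313929277) (nat_lit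 305) (nat_lit 5) (nat_lit 317) (nat_lit 5) (nat_lit 306) (nat_lit 5) (nat_lit 320) (nat_lit 295) (nat_lit 285)) (XT.lf (nat_lit 0) (nat_lit 1028356890) (nat_lit 912) (nat_lit 3057710767) (nat_lit 988) (nat_lit 2880504653) (nat_lit 293) (nat_lit 5) (nat_lit 305) (nat_lit 5) (nat_lit 306) (nat_lit 5) (nat_lit 321) (nat_lit 295) (nat_lit 284))))))))
noncomputable def xc91 : XT := (XT.nd (nat_lit 2106) (nat_lit 4940) (nat_lit 0) (XT.nd (nat_lit 1014) (nat_lit 4712) (nat_lit 0) (XT.nd (nat_lit 468) (nat_lit 2584) (nat_lit 0) (XT.nd (nat_lit 234) (nat_lit 2432) (nat_lit 0) (XT.nd (nat_lit 78) (nat_lit 2128) (nat_lit 0) (XT.lf (nat_lit 0) (nat_lit 5583954417) (nat_lit 912) (nat_lit 1423266624) (nat_lit 988) (nat_lit 15234699) (nat_lit 293) (nat_lit 5) (nat_lit 305) (nat_lit 5) (nat_lit 306) (nat_lit 5) (nat_lit 322) (nat_lit 295) (nat_lit 283)) (XT.nd (nat_lit 78) (nat_lit 1064) (nat_lit 0) (XT.lf (nat_lit 0)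 (nat_lit 2824854123) (nat_lit 1064) (nat_lit 3932678857) (nat_lit 76) (nat_lit 323311476) (nat_lit 279) (nat_lit 5) (nat_lit 293) (nat_lit 5) (nat_lit 280) (nat_lit 5) (nat_lit 323) (nat_lit 295) (nat_lit 282)) (XT.lf (nat_lit 0) (nat_lit 680275041) (nat_lit 1064) (nat_lit 5019433826) (nat_lit 1140) (nat_lit 1442833645) (nat_lit 265) (nat_lit 5) (nat_lit 279) (nat_lit 5) (nat_lit 280) (nat_lit 5) (nat_lit 324) (nat_lit 295) (nat_lit 281)))) (XT.nd (nat_lit 78) (nat_lit 2356) (nat_lit 0) (XT.lf (nat_lit 0) (nat_lit 1381847850) (nat_lit 1140) (nat_lit 1787982122) (nat_lit 76) (nat_lit 4037231462) (nat_lit 264) (nat_lit 5) (nat_lit 279) (nat_lit 5) (nat_lit 265) (nat_lit 5) (nat_lit 325) (nat_lit 295) (nat_lit 280)) (XT.nd (nat_lit 78) (nat_lit 1216) (nat_lit 0) (XT.lf (nat_lit 0) (nat_lit 2992050658) (nat_lit 1140) (nat_lit 1216856126) (nat_lit 1216) (nat_lit 3065834823) (nat_lit 249) (nat_lit 5) (nat_lit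 264) (nat_lit 5) (nat_lit 265) (nat_lit 5) (nat_lit 326) (nat_lit 295) (nat_lit 279)) (XT.lf (nat_lit 0) (nat_lit 530456102) (nat_lit 1216) (nat_lit 6540838325) (nat_lit 1292) (nat_lit 274694036) (nat_lit 233) (nat_lit 5) (nat_lit 249) (nat_lit 5) (nat_lit 250) (nat_lit 5) (nat_lit 327) (nat_lit 295) (nat_lit 278))))) (XT.nd (nat_lit 234) (nat_lit 1216) (nat_lit 0) (XT.nd (nat_lit 78) (nat_lit 1292) (nat_lit 0) (XT.lf (nat_lit 0) (nat_lit 2525458663) (nat_lit 1292) (nat_lit 1960908243) (nat_lit 76) (nat_lit 2933024301) (nat_lit 232) (nat_lit 5) (nat_lit 249) (nat_lit 5) (nat_lit 233) (nat_lit 5) (nat_lit 328) (nat_lit 295) (nat_lit 277)) (XT.nd (nat_lit 78) (nat_lit 684) (nat_lit 0) (XT.lf (nat_lit 0) (nat_lit 3016714783) (nat_lit 608) (nat_lit 2338993677) (nat_lit 684) (nat_lit 2140704967) (nat_lit 224) (nat_lit 5) (nat_lit 232) (nat_lit 5) (nat_lit 233) (nat_lit 5) (nat_lit 329) (nat_lit 295) (nat_lit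 276)) (XT.lf (nat_lit 0) (nat_lit 532641387) (nat_lit 608) (nat_lit 97353902) (nat_lit 684) (nat_lit 6947142036) (nat_lit 215) (nat_lit 5) (nat_lit 223) (nat_lit 5) (nat_lit 224) (nat_lit 5) (nat_lit 330) (nat_lit 295) (nat_lit 275)))) (XT.nd (nat_lit 156) (nat_lit 608) (nat_lit 0) (XT.nd (nat_lit 78) (nat_lit 608) (nat_lit 0) (XT.lf (nat_lit 0) (nat_lit 3432497027) (nat_lit 684) (nat_lit 1995716265) (nat_lit 76) (nat_lit 2231725970) (nat_lit 215) (nat_lit 5) (nat_lit 224) (nat_lit 5) (nat_lit 216) (nat_lit 5) (nat_lit 331) (nat_lit 295) (nat_lit 274)) (XT.lf (nat_lit 0) (nat_lit 3187045031) (nat_lit 608) (nat_lit 3090583694) (nat_lit 684) (nat_lit 1468881994) (nat_lit 207) (nat_lit 5) (nat_lit 215) (nat_lit 5) (nat_lit 216) (nat_lit 5) (nat_lit 332) (nat_lit 295) (nat_lit 273))) (XT.nd (nat_lit 78) (nat_lit 0) (nat_lit 0) (XT.lf (nat_lit 0) (nat_lit 651018296) (nat_lit 532) (nat_lit 648829818) (nat_lit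 608) (nat_lit 6536849290) (nat_lit 199) (nat_lit 5) (nat_lit 206) (nat_lit 5) (nat_lit 207) (nat_lit 5) (nat_lit 333) (nat_lit 295) (nat_lit 272)) (XT.lf (nat_lit 0) (nat_lit 4115417728) (nat_lit 608) (nat_lit 1930601977) (nat_lit 76) (nat_lit 1883373196) (nat_lit 199) (nat_lit 5) (nat_lit 207) (nat_lit 5) (nat_lit 200) (nat_lit 5) (nat_lit 334) (nat_lit 295) (nat_lit 271)))))) (XT.nd (nat_lit 546) (nat_lit 2128) (nat_lit 0) (XT.nd (nat_lit 234) (nat_lit 1520) (nat_lit 0) (XT.nd (nat_lit 78) (nat_lit 532) (nat_lit 0) (XT.lf (nat_lit 0) (nat_lit 3464931419) (nat_lit 532) (nat_lit 3521190343) (nat_lit 608) (nat_lit 1039664896) (nat_lit 192) (nat_lit 5) (nat_lit 199) (nat_lit 5) (nat_lit 200) (nat_lit 5) (nat_lit 335) (nat_lit 295) (nat_lit 270)) (XT.nd (nat_lit 78) (nat_lit 0) (nat_lit 0) (XT.lf (nat_lit 0) (nat_lit 857468192) (nat_lit 456) (nat_lit 884358856) (nat_lit 532) (nat_lit 6383973439) (nat_lit 185)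 (nat_lit 5) (nat_lit 191) (nat_lit 5) (nat_lit 192) (nat_lit 5) (nat_lit 336) (nat_lit 295) (nat_lit 269)) (XT.lf (nat_lit 0) (nat_lit 4582617932) (nat_lit 532) (nat_lit 1804141977) (nat_lit 76) (nat_lit 1841877735) (nat_lit 185) (nat_lit 5) (nat_lit 192) (nat_lit 5) (nat_lit 186) (nat_lit 5) (nat_lit 337) (nat_lit 295) (nat_lit 268)))) (XT.nd (nat_lit 156) (nat_lit 456) (nat_lit 0) (XT.nd (nat_lit 78) (nat_lit 532) (nat_lit 0) (XT.lf (nat_lit 0) (nat_lit 3811747139) (nat_lit 532) (nat_lit 3676876916) (nat_lit 608) (nat_lit 846569356) (nat_lit 178) (nat_lit 5) (nat_lit 185) (nat_lit 5) (nat_lit 186) (nat_lit 5) (nat_lit 338) (nat_lit 295) (nat_lit 267)) (XT.lf (nat_lit 0) (nat_lit 1112228691) (nat_lit 456) (nat_lit 849070285) (nat_lit 532) (nat_lit 6484165391) (nat_lit 171) (nat_lit 5) (nat_lit 177) (nat_lit 5) (nat_lit 178) (nat_lit 5) (nat_lit 339) (nat_lit 295) (nat_lit 266))) (XT.nd (nat_lit 78) (nat_lit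 456) (nat_lit 0) (XT.lf (nat_lit 0) (nat_lit 4838456383) (nat_lit 532) (nat_lit 1656096342) (nat_lit 76) (nat_lit 2064207642) (nat_lit 171) (nat_lit 5) (nat_lit 178) (nat_lit 5) (nat_lit 172) (nat_lit 5) (nat_lit 340) (nat_lit 295) (nat_lit 265)) (XT.lf (nat_lit 0) (nat_lit 4187525488) (nat_lit 456) (nat_lit 3601025562) (nat_lit 532) (nat_lit 887335055) (nat_lit 165) (nat_lit 5) (nat_lit 171) (nat_lit 5) (nat_lit 172) (nat_lit 5) (nat_lit 341) (nat_lit 295) (nat_lit 264))))) (XT.nd (nat_lit 234) (nat_lit 1216) (nat_lit 0) (XT.nd (nat_lit 78) (nat_lit 456) (nat_lit 0) (XT.lf (nat_lit 0) (nat_lit 1373868142) (nat_lit 380) (nat_lit 585629190) (nat_lit 456) (nat_lit 6837415559) (nat_lit 159) (nat_lit 5) (nat_lit 164) (nat_lit 5) (nat_lit 165) (nat_lit 5) (nat_lit 342) (nat_lit 295) (nat_lit 263)) (XT.nd (nat_lit 78) (nat_lit 456) (nat_lit 0) (XT.lf (nat_lit 0) (nat_lit 4883200388) (nat_lit 456) (nat_lit 1528261566)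 (nat_lit 76) (nat_lit 2509592983) (nat_lit 159) (nat_lit 5) (nat_lit 165) (nat_lit 5) (nat_lit 160) (nat_lit 5) (nat_lit 343) (nat_lit 295) (nat_lit 262)) (XT.lf (nat_lit 0) (nat_lit 4550082166) (nat_lit 456) (nat_lit 3335138634) (nat_lit 532) (nat_lit 1164008495) (nat_lit 153) (nat_lit 5) (nat_lit 159) (nat_lit 5) (nat_lit 160) (nat_lit 5) (nat_lit 344) (nat_lit 295) (nat_lit 261)))) (XT.nd (nat_lit 156) (nat_lit 760) (nat_lit 0) (XT.nd (nat_lit 78) (nat_lit 0) (nat_lit 0) (XT.lf (nat_lit 0) (nat_lit 1598375552) (nat_lit 380) (nat_lit 135041292) (nat_lit 456) (nat_lit 7448166492) (nat_lit 147) (nat_lit 5) (nat_lit 152) (nat_lit 5) (nat_lit 153) (nat_lit 5) (nat_lit 345) (nat_lit 295) (nat_lit 260)) (XT.lf (nat_lit 0) (nat_lit 4712897446) (nat_lit 456) (nat_lit 1465390762) (nat_lit 76) (nat_lit 3138742220) (nat_lit 147) (nat_lit 5) (nat_lit 153) (nat_lit 5) (nat_lit 148) (nat_lit 5) (nat_lit 346) (nat_lit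 295) (nat_lit 259))) (XT.nd (nat_lit 78) (nat_lit 380) (nat_lit 0) (XT.lf (nat_lit 0) (nat_lit 4854065320) (nat_lit 380) (nat_lit 2919635690) (nat_lit 456) (nat_lit 1683105081) (nat_lit 142) (nat_lit 5) (nat_lit 147) (nat_lit 5) (nat_lit 148) (nat_lit 5) (nat_lit 347) (nat_lit 295) (nat_lit 258)) (XT.lf (nat_lit 0) (nat_lit 1280075362) (nat_lit 380) (nat_lit 7867411632) (nat_lit 76) (nat_lit 453516105) (nat_lit 137) (nat_lit 5) (nat_lit 142) (nat_lit 5) (nat_lit 138) (nat_lit 5) (nat_lit 348) (nat_lit 295) (nat_lit 257))))))) (XT.nd (nat_lit 1014) (nat_lit 2204) (nat_lit 0) (XT.nd (nat_lit 468) (nat_lit 1368) (nat_lit 0) (XT.nd (nat_lit 234) (nat_lit 608) (nat_lit 0) (XT.nd (nat_lit 78) (nat_lit 760) (nat_lit 0) (XT.lf (nat_lit 0) (nat_lit 4319166900) (nat_lit 380) (nat_lit 1516199879) (nat_lit 76) (nat_lit 3913055308) (nat_lit 137) (nat_lit 5) (nat_lit 142) (nat_lit 5) (nat_lit 138) (nat_lit 5) (nat_lit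 349) (nat_lit 295) (nat_lit 256)) (XT.nd (nat_lit 78) (nat_lit 380) (nat_lit 0) (XT.lf (nat_lit 0) (nat_lit 5049913829) (nat_lit 380) (nat_lit 2394660508) (nat_lit 456) (nat_lit 2455855728) (nat_lit 132) (nat_lit 5) (nat_lit 137) (nat_lit 5) (nat_lit 138) (nat_lit 5) (nat_lit 350) (nat_lit 295) (nat_lit 255)) (XT.lf (nat_lit 0) (nat_lit 585231390) (nat_lit 380) (nat_lit 8327670770) (nat_lit 76) (nat_lit 1144230911) (nat_lit 127) (nat_lit 5) (nat_lit 132) (nat_lit 5) (nat_lit 128) (nat_lit 5) (nat_lit 351) (nat_lit 295) (nat_lit 254)))) (XT.nd (nat_lit 78) (nat_lit 608) (nat_lit 0) (XT.lf (nat_lit 0) (nat_lit 3688905488) (nat_lit 380) (nat_lit 1734480759) (nat_lit 76) (nat_lit 4793818977) (nat_lit 127) (nat_lit 5) (nat_lit 132) (nat_lit 5) (nat_lit 128) (nat_lit 5) (nat_lit 352) (nat_lit 295) (nat_lit 253)) (XT.nd (nat_lit 78) (nat_lit 304) (nat_lit 0) (XT.lf (nat_lit 0) (nat_lit 5082702150) (nat_lit 304)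 (nat_lit 1800913138) (nat_lit 380) (nat_lit 3498544892) (nat_lit 123) (nat_lit 5) (nat_lit 127) (nat_lit 5) (nat_lit 128) (nat_lit 5) (nat_lit 353) (nat_lit 295) (nat_lit 252)) (XT.lf (nat_lit 0) (nat_lit 1525886301) (nat_lit 304) (nat_lit 8648834231) (nat_lit 380) (nat_lit 377344498) (nat_lit 119) (nat_lit 5) (nat_lit 123) (nat_lit 5) (nat_lit 124) (nat_lit 5) (nat_lit 354) (nat_lit 295) (nat_lit 251))))) (XT.nd (nat_lit 234) (nat_lit 684) (nat_lit 0) (XT.nd (nat_lit 78) (nat_lit 608) (nat_lit 0) (XT.lf (nat_lit 0) (nat_lit 2803898899) (nat_lit 380) (nat_lit 2180344444) (nat_lit 76) (nat_lit 5741368953) (nat_lit 118) (nat_lit 5) (nat_lit 123) (nat_lit 5) (nat_lit 119) (nat_lit 5) (nat_lit 355) (nat_lit 295) (nat_lit 250)) (XT.nd (nat_lit 78) (nat_lit 304) (nat_lit 0) (XT.lf (nat_lit 0) (nat_lit 4890847291) (nat_lit 304) (nat_lit 1180522921) (nat_lit 380) (nat_lit 4832948792) (nat_lit 114) (nat_lit 5) (nat_lit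 118) (nat_lit 5) (nat_lit 119) (nat_lit 5) (nat_lit 356) (nat_lit 295) (nat_lit 249)) (XT.lf (nat_lit 0) (nat_lit 1052911447) (nat_lit 304) (nat_lit 8394496233) (nat_lit 380) (nat_lit 1640678849) (nat_lit 110) (nat_lit 5) (nat_lit 114) (nat_lit 5) (nat_lit 115) (nat_lit 5) (nat_lit 357) (nat_lit 295) (nat_lit 248)))) (XT.nd (nat_lit 156) (nat_lit 304) (nat_lit 0) (XT.nd (nat_lit 78) (nat_lit 304) (nat_lit 0) (XT.lf (nat_lit 0) (nat_lit 1640329566) (nat_lit 380) (nat_lit 2921621158) (nat_lit 76) (nat_lit 6714202768) (nat_lit 109) (nat_lit 5) (nat_lit 114) (nat_lit 5) (nat_lit 110) (nat_lit 5) (nat_lit 358) (nat_lit 295) (nat_lit 247)) (XT.lf (nat_lit 0) (nat_lit 4404650307) (nat_lit 304) (nat_lit 577979611) (nat_lit 380) (nat_lit 6486884614) (nat_lit 105) (nat_lit 5) (nat_lit 109) (nat_lit 5) (nat_lit 110) (nat_lit 5) (nat_lit 359) (nat_lit 295) (nat_lit 246))) (XT.nd (nat_lit 78) (nat_lit 76) (nat_lit 0)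 (XT.lf (nat_lit 0) (nat_lit 242495241) (nat_lit 228) (nat_lit 8202671454) (nat_lit 304) (nat_lit 3222924791) (nat_lit 102) (nat_lit 5) (nat_lit 105) (nat_lit 5) (nat_lit 106) (nat_lit 5) (nat_lit 360) (nat_lit 295) (nat_lit 245)) (XT.lf (nat_lit 0) (nat_lit 168168758) (nat_lit 304) (nat_lit 4035446992) (nat_lit 76) (nat_lit 7668025431) (nat_lit 101) (nat_lit 5) (nat_lit 105) (nat_lit 5) (nat_lit 102) (nat_lit 5) (nat_lit 361) (nat_lit 295) (nat_lit 244)))))) (XT.nd (nat_lit 546) (nat_lit 912) (nat_lit 0) (XT.nd (nat_lit 234) (nat_lit 760) (nat_lit 0) (XT.nd (nat_lit 78) (nat_lit 228) (nat_lit 0) (XT.lf (nat_lit 0) (nat_lit 3544640901) (nat_lit 304) (nat_lit 41141354) (nat_lit 380) (nat_lit 8494883774) (nat_lit 97) (nat_lit 5) (nat_lit 101) (nat_lit 5) (nat_lit 102) (nat_lit 5) (nat_lit 362) (nat_lit 295) (nat_lit 243)) (XT.nd (nat_lit 78) (nat_lit 228) (nat_lit 0) (XT.lf (nat_lit 0) (nat_lit 7143790411)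 (nat_lit 380) (nat_lit 970546585) (nat_lit 76) (nat_lit 4180501170) (nat_lit 97) (nat_lit 5) (nat_lit 102) (nat_lit 5) (nat_lit 98) (nat_lit 5) (nat_lit 363) (nat_lit 295) (nat_lit 242)) (XT.lf (nat_lit 0) (nat_lit 6888489775) (nat_lit 228) (nat_lit 3943852893) (nat_lit 304) (nat_lit 1682390852) (nat_lit 94) (nat_lit 5) (nat_lit 97) (nat_lit 5) (nat_lit 98) (nat_lit 5) (nat_lit 364) (nat_lit 295) (nat_lit 241)))) (XT.nd (nat_lit 156) (nat_lit 456) (nat_lit 0) (XT.nd (nat_lit 78) (nat_lit 0) (nat_lit 0) (XT.lf (nat_lit 0) (nat_lit 1845659713) (nat_lit 304) (nat_lit 10524975406) (nat_lit 76) (nat_lit 370290325) (nat_lit 90) (nat_lit 5) (nat_lit 94) (nat_lit 5) (nat_lit 91) (nat_lit 5) (nat_lit 365) (nat_lit 295) (nat_lit 240)) (XT.lf (nat_lit 0) (nat_lit 5499877063) (nat_lit 304) (nat_lit 2687712270) (nat_lit 76) (nat_lit 4784201018) (nat_lit 90) (nat_lit 5) (nat_lit 94) (nat_lit 5) (nat_lit 91) (nat_lit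 5) (nat_lit 366) (nat_lit 295) (nat_lit 239))) (XT.nd (nat_lit 78) (nat_lit 228) (nat_lit 0) (XT.lf (nat_lit 0) (nat_lit 5424512987) (nat_lit 228) (nat_lit 3850298346) (nat_lit 304) (nat_lit 3934447971) (nat_lit 87) (nat_lit 5) (nat_lit 90) (nat_lit 5) (nat_lit 91) (nat_lit 5) (nat_lit 367) (nat_lit 295) (nat_lit 238)) (XT.lf (nat_lit 0) (nat_lit 315777150) (nat_lit 228) (nat_lit 12842868318) (nat_lit 304) (nat_lit 295347799) (nat_lit 84) (nat_lit 5) (nat_lit 87) (nat_lit 5) (nat_lit 88) (nat_lit 5) (nat_lit 368) (nat_lit 295) (nat_lit 237))))) (XT.nd (nat_lit 234) (nat_lit 684) (nat_lit 0) (XT.nd (nat_lit 78) (nat_lit 152) (nat_lit 0) (XT.lf (nat_lit 0) (nat_lit 3462479065) (nat_lit 304) (nat_lit 5023420068) (nat_lit 76) (nat_lit 5216876279) (nat_lit 83) (nat_lit 5) (nat_lit 87) (nat_lit 5) (nat_lit 84) (nat_lit 5) (nat_lit 369) (nat_lit 295) (nat_lit 236)) (XT.nd (nat_lit 78) (nat_lit 0) (nat_lit 0) (XT.lf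 (nat_lit 0) (nat_lit 3332345564) (nat_lit 152) (nat_lit 3987395338) (nat_lit 228) (nat_lit 6639422907) (nat_lit 81) (nat_lit 5) (nat_lit 83) (nat_lit 5) (nat_lit 84) (nat_lit 5) (nat_lit 370) (nat_lit 295) (nat_lit 235)) (XT.lf (nat_lit 0) (nat_lit 11311055433) (nat_lit 228) (nat_lit 2251552480) (nat_lit 76) (nat_lit 660095224) (nat_lit 81) (nat_lit 5) (nat_lit 84) (nat_lit 5) (nat_lit 82) (nat_lit 5) (nat_lit 371) (nat_lit 295) (nat_lit 234)))) (XT.nd (nat_lit 156) (nat_lit 228) (nat_lit 0) (XT.nd (nat_lit 78) (nat_lit 152) (nat_lit 0) (XT.lf (nat_lit 0) (nat_lit 973476680) (nat_lit 304) (nat_lit 8104471636) (nat_lit 76) (nat_lit 5414032802) (nat_lit 77) (nat_lit 5) (nat_lit 81) (nat_lit 5) (nat_lit 78) (nat_lit 5) (nat_lit 372) (nat_lit 295) (nat_lit 233)) (XT.lf (nat_lit 0) (nat_lit 480432614) (nat_lit 152) (nat_lit 4425941792) (nat_lit 228) (nat_lit 9862414496) (nat_lit 75) (nat_lit 5) (nat_lit 77)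 (nat_lit 5) (nat_lit 78) (nat_lit 5) (nat_lit 373) (nat_lit 295) (nat_lit 232))) (XT.nd (nat_lit 78) (nat_lit 228) (nat_lit 0) (XT.lf (nat_lit 0) (nat_lit 9005843685) (nat_lit 228) (nat_lit 5630152023) (nat_lit 76) (nat_lit 416455958) (nat_lit 75) (nat_lit 5) (nat_lit 78) (nat_lit 5) (nat_lit 76) (nat_lit 5) (nat_lit 374) (nat_lit 295) (nat_lit 231)) (XT.lf (nat_lit 0) (nat_lit 3245761134) (nat_lit 228) (nat_lit 10021072354) (nat_lit 304) (nat_lit 2076642776) (nat_lit 72) (nat_lit 5) (nat_lit 75) (nat_lit 5) (nat_lit 76) (nat_lit 5) (nat_lit 375) (nat_lit 295) (nat_lit 230))))))))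
noncomputable def xc92 : XT := (XT.nd (nat_lit 2106) (nat_lit 1292) (nat_lit 0) (XT.nd (nat_lit 1014) (nat_lit 1140) (nat_lit 0) (XT.nd (nat_lit 468) (nat_lit 760) (nat_lit 0) (XT.nd (nat_lit 234) (nat_lit 456) (nat_lit 0) (XT.nd (nat_lit 78) (nat_lit 152) (nat_lit 0) (XT.lf (nat_lit 0) (nat_lit 1994195809) (nat_lit 304) (nat_lit 3219749774) (nat_lit 76) (nat_lit 10428081940) (nat_lit 71) (nat_lit 5) (nat_lit 75) (nat_lit 5) (nat_lit 72) (nat_lit 5) (nat_lit 376) (nat_lit 295) (nat_lit 229)) (XT.nd (nat_lit 78) (nat_lit 0) (nat_lit 0) (XT.lf (nat_lit 0) (nat_lit 5960418957) (nat_lit 152) (nat_lit 206984328) (nat_lit 228) (nat_lit 9780863106) (nat_lit 69) (nat_lit 5) (nat_lit 71) (nat_lit 5) (nat_lit 72) (nat_lit 5) (nat_lit 377) (nat_lit 295) (nat_lit 228)) (XT.lf (nat_lit 0) (nat_lit 10511136855) (nat_lit 228) (nat_lit 888743429) (nat_lit 76) (nat_lit 4862459392) (nat_lit 69) (nat_lit 5) (nat_lit 72) (nat_lit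 5) (nat_lit 70) (nat_lit 5) (nat_lit 378) (nat_lit 295) (nat_lit 227)))) (XT.nd (nat_lit 78) (nat_lit 228) (nat_lit 0) (XT.lf (nat_lit 0) (nat_lit 8590553159) (nat_lit 228) (nat_lit 6445188880) (nat_lit 304) (nat_lit 1548583271) (nat_lit 66) (nat_lit 5) (nat_lit 69) (nat_lit 5) (nat_lit 70) (nat_lit 5) (nat_lit 379) (nat_lit 295) (nat_lit 226)) (XT.nd (nat_lit 78) (nat_lit 0) (nat_lit 0) (XT.lf (nat_lit 0) (nat_lit 1398753185) (nat_lit 152) (nat_lit 1315650467) (nat_lit 228) (nat_lit 14201115511) (nat_lit 63) (nat_lit 5) (nat_lit 65) (nat_lit 5) (nat_lit 66) (nat_lit 5) (nat_lit 380) (nat_lit 295) (nat_lit 225)) (XT.lf (nat_lit 0) (nat_lit 7160044909) (nat_lit 228) (nat_lit 6130260059) (nat_lit 76) (nat_lit 3963313548) (nat_lit 63) (nat_lit 5) (nat_lit 66) (nat_lit 5) (nat_lit 64) (nat_lit 5) (nat_lit 381) (nat_lit 295) (nat_lit 224))))) (XT.nd (nat_lit 234) (nat_lit 380) (nat_lit 0) (XT.nd (nat_lit 78)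 (nat_lit 228) (nat_lit 0) (XT.lf (nat_lit 0) (nat_lit 3536861568) (nat_lit 152) (nat_lit 8216430590) (nat_lit 228) (nat_lit 5848147755) (nat_lit 61) (nat_lit 5) (nat_lit 63) (nat_lit 5) (nat_lit 64) (nat_lit 5) (nat_lit 382) (nat_lit 295) (nat_lit 223)) (XT.nd (nat_lit 78) (nat_lit 228) (nat_lit 0) (XT.lf (nat_lit 0) (nat_lit 13563249560) (nat_lit 152) (nat_lit 2950615632) (nat_lit 228) (nat_lit 1444950893) (nat_lit 61) (nat_lit 5) (nat_lit 63) (nat_lit 5) (nat_lit 64) (nat_lit 5) (nat_lit 383) (nat_lit 295) (nat_lit 222)) (XT.lf (nat_lit 0) (nat_lit 3076370988) (nat_lit 228) (nat_lit 12762307037) (nat_lit 76) (nat_lit 2485959987) (nat_lit 58) (nat_lit 5) (nat_lit 61) (nat_lit 5) (nat_lit 59) (nat_lit 5) (nat_lit 384) (nat_lit 295) (nat_lit 221)))) (XT.nd (nat_lit 156) (nat_lit 228) (nat_lit 0) (XT.nd (nat_lit 78) (nat_lit 152) (nat_lit 0) (XT.lf (nat_lit 0) (nat_lit 7746752710) (nat_lit 228) (nat_lit 2890575620)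 (nat_lit 76) (nat_lit 8062408683) (nat_lit 58) (nat_lit 5) (nat_lit 61) (nat_lit 5) (nat_lit 59) (nat_lit 5) (nat_lit 385) (nat_lit 295) (nat_lit 220)) (XT.lf (nat_lit 0) (nat_lit 7367102466) (nat_lit 152) (nat_lit 5230302433) (nat_lit 228) (nat_lit 6487484634) (nat_lit 56) (nat_lit 5) (nat_lit 58) (nat_lit 5) (nat_lit 59) (nat_lit 5) (nat_lit 386) (nat_lit 295) (nat_lit 219))) (XT.nd (nat_lit 78) (nat_lit 228) (nat_lit 0) (XT.lf (nat_lit 0) (nat_lit 17595811478) (nat_lit 228) (nat_lit 1546628990) (nat_lit 76) (nat_lit 339094279) (nat_lit 56) (nat_lit 5) (nat_lit 59) (nat_lit 5) (nat_lit 57) (nat_lit 4) (nat_lit 387) (nat_lit 295) (nat_lit 218)) (XT.lf (nat_lit 0) (nat_lit 2908163645) (nat_lit 228) (nat_lit 10914364246) (nat_lit 76) (nat_lit 6063440246) (nat_lit 53) (nat_lit 5) (nat_lit 56) (nat_lit 5) (nat_lit 54) (nat_lit 5) (nat_lit 388) (nat_lit 295) (nat_lit 217)))))) (XT.nd (nat_lit 546) (nat_lit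 532) (nat_lit 0) (XT.nd (nat_lit 234) (nat_lit 304) (nat_lit 0) (XT.nd (nat_lit 78) (nat_lit 304) (nat_lit 0) (XT.lf (nat_lit 0) (nat_lit 7794193520) (nat_lit 228) (nat_lit 536429924) (nat_lit 76) (nat_lit 11971768868) (nat_lit 53) (nat_lit 5) (nat_lit 56) (nat_lit 5) (nat_lit 54) (nat_lit 5) (nat_lit 389) (nat_lit 295) (nat_lit 216)) (XT.nd (nat_lit 78) (nat_lit 152) (nat_lit 0) (XT.lf (nat_lit 0) (nat_lit 10302792938) (nat_lit 152) (nat_lit 2594363606) (nat_lit 228) (nat_lit 7832046689) (nat_lit 51) (nat_lit 5) (nat_lit 53) (nat_lit 5) (nat_lit 54) (nat_lit 5) (nat_lit 390) (nat_lit 295) (nat_lit 215)) (XT.lf (nat_lit 0) (nat_lit 230894992) (nat_lit 152) (nat_lit 17933310222) (nat_lit 228) (nat_lit 3004287818) (nat_lit 49) (nat_lit 5) (nat_lit 51) (nat_lit 5) (nat_lit 52) (nat_lit 4) (nat_lit 391) (nat_lit 295) (nat_lit 214)))) (XT.nd (nat_lit 156) (nat_lit 76) (nat_lit 0) (XT.nd (nat_lit 78) (nat_lit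 152) (nat_lit 0) (XT.lf (nat_lit 0) (nat_lit 2033421685) (nat_lit 228) (nat_lit 10293104673) (nat_lit 76) (nat_lit 9290765952) (nat_lit 48) (nat_lit 5) (nat_lit 51) (nat_lit 5) (nat_lit 49) (nat_lit 5) (nat_lit 392) (nat_lit 295) (nat_lit 213)) (XT.lf (nat_lit 0) (nat_lit 602935139) (nat_lit 152) (nat_lit 6537080737) (nat_lit 228) (nat_lit 14939307305) (nat_lit 46) (nat_lit 5) (nat_lit 48) (nat_lit 5) (nat_lit 49) (nat_lit 5) (nat_lit 393) (nat_lit 295) (nat_lit 212))) (XT.nd (nat_lit 78) (nat_lit 76) (nat_lit 0) (XT.lf (nat_lit 0) (nat_lit 11987534653) (nat_lit 152) (nat_lit 488885761) (nat_lit 228) (nat_lit 10076500147) (nat_lit 46) (nat_lit 5) (nat_lit 48) (nat_lit 5) (nat_lit 49) (nat_lit 5) (nat_lit 394) (nat_lit 295) (nat_lit 211)) (XT.lf (nat_lit 0) (nat_lit 580614429) (nat_lit 76) (nat_lit 17426330577) (nat_lit 152) (nat_lit 5032763859) (nat_lit 45) (nat_lit 5) (nat_lit 46) (nat_lit 5) (nat_lit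 47) (nat_lit 4) (nat_lit 395) (nat_lit 295) (nat_lit 210))))) (XT.nd (nat_lit 234) (nat_lit 304) (nat_lit 0) (XT.nd (nat_lit 78) (nat_lit 152) (nat_lit 0) (XT.lf (nat_lit 0) (nat_lit 245019353) (nat_lit 152) (nat_lit 11316319580) (nat_lit 76) (nat_lit 11977141661) (nat_lit 44) (nat_lit 5) (nat_lit 46) (nat_lit 5) (nat_lit 45) (nat_lit 5) (nat_lit 396) (nat_lit 295) (nat_lit 209)) (XT.nd (nat_lit 78) (nat_lit 0) (nat_lit 0) (XT.lf (nat_lit 0) (nat_lit 65054828) (nat_lit 152) (nat_lit 5489645364) (nat_lit 228) (nat_lit 18496782386) (nat_lit 42) (nat_lit 5) (nat_lit 44) (nat_lit 5) (nat_lit 45) (nat_lit 5) (nat_lit 397) (nat_lit 295) (nat_lit 208)) (XT.lf (nat_lit 0) (nat_lit 11120617417) (nat_lit 228) (nat_lit 12612310701) (nat_lit 76) (nat_lit 844041540) (nat_lit 42) (nat_lit 5) (nat_lit 45) (nat_lit 5) (nat_lit 43) (nat_lit 4) (nat_lit 398) (nat_lit 295) (nat_lit 207)))) (XT.nd (nat_lit 156) (nat_lit 228)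 (nat_lit 0) (XT.nd (nat_lit 78) (nat_lit 76) (nat_lit 0) (XT.lf (nat_lit 0) (nat_lit 16882812617) (nat_lit 228) (nat_lit 997178230) (nat_lit 76) (nat_lit 7237354802) (nat_lit 42) (nat_lit 5) (nat_lit 45) (nat_lit 5) (nat_lit 43) (nat_lit 4) (nat_lit 399) (nat_lit 295) (nat_lit 206)) (XT.lf (nat_lit 0) (nat_lit 11139255632) (nat_lit 76) (nat_lit 11761372597) (nat_lit 152) (nat_lit 2770825272) (nat_lit 41) (nat_lit 5) (nat_lit 42) (nat_lit 5) (nat_lit 43) (nat_lit 4) (nat_lit 400) (nat_lit 295) (nat_lit 205))) (XT.nd (nat_lit 78) (nat_lit 152) (nat_lit 0) (XT.lf (nat_lit 0) (nat_lit 2786937459) (nat_lit 152) (nat_lit 2653789112) (nat_lit 76) (nat_lit 20801060512) (nat_lit 40) (nat_lit 5) (nat_lit 42) (nat_lit 5) (nat_lit 41) (nat_lit 5) (nat_lit 401) (nat_lit 295) (nat_lit 204)) (XT.lf (nat_lit 0) (nat_lit 8536694600) (nat_lit 228) (nat_lit 17138067355) (nat_lit 76) (nat_lit 1151220072) (nat_lit 38) (nat_lit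 5) (nat_lit 41) (nat_lit 5) (nat_lit 39) (nat_lit 4) (nat_lit 402) (nat_lit 295) (nat_lit 203))))))) (XT.nd (nat_lit 1014) (nat_lit 608) (nat_lit 0) (XT.nd (nat_lit 468) (nat_lit 304) (nat_lit 0) (XT.nd (nat_lit 234) (nat_lit 304) (nat_lit 0) (XT.nd (nat_lit 78) (nat_lit 76) (nat_lit 0) (XT.lf (nat_lit 0) (nat_lit 14516391188) (nat_lit 228) (nat_lit 5070123980) (nat_lit 76) (nat_lit 7839467109) (nat_lit 38) (nat_lit 5) (nat_lit 41) (nat_lit 5) (nat_lit 39) (nat_lit 4) (nat_lit 403) (nat_lit 295) (nat_lit 202)) (XT.nd (nat_lit 78) (nat_lit 0) (nat_lit 0) (XT.lf (nat_lit 0) (nat_lit 7463397561) (nat_lit 76) (nat_lit 13261022651) (nat_lit 152) (nat_lit 7318096852) (nat_lit 37) (nat_lit 5) (nat_lit 38) (nat_lit 5) (nat_lit 39) (nat_lit 4) (nat_lit 404) (nat_lit 295) (nat_lit 201)) (XT.lf (nat_lit 0) (nat_lit 20435172141) (nat_lit 76) (nat_lit 6712178481) (nat_lit 152) (nat_lit 1529340151) (nat_lit 37) (nat_lit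 5) (nat_lit 38) (nat_lit 5) (nat_lit 39) (nat_lit 4) (nat_lit 405) (nat_lit 295) (nat_lit 200)))) (XT.nd (nat_lit 78) (nat_lit 76) (nat_lit 0) (XT.lf (nat_lit 0) (nat_lit 4368425795) (nat_lit 228) (nat_lit 24859065438) (nat_lit 76) (nat_lit 100467039) (nat_lit 34) (nat_lit 5) (nat_lit 37) (nat_lit 5) (nat_lit 35) (nat_lit 4) (nat_lit 406) (nat_lit 295) (nat_lit 199)) (XT.nd (nat_lit 78) (nat_lit 76) (nat_lit 0) (XT.lf (nat_lit 0) (nat_lit 10540865161) (nat_lit 228) (nat_lit 12390121335) (nat_lit 76) (nat_lit 7063471148) (nat_lit 34) (nat_lit 5) (nat_lit 37) (nat_lit 5) (nat_lit 35) (nat_lit 4) (nat_lit 407) (nat_lit 295) (nat_lit 198)) (XT.lf (nat_lit 0) (nat_lit 421315636) (nat_lit 76) (nat_lit 16459827821) (nat_lit 152) (nat_lit 13800330961) (nat_lit 33) (nat_lit 5) (nat_lit 34) (nat_lit 5) (nat_lit 35) (nat_lit 4) (nat_lit 408) (nat_lit 295) (nat_lit 197))))) (XT.nd (nat_lit 234) (nat_lit 76) (nat_lit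 0) (XT.nd (nat_lit 78) (nat_lit 228) (nat_lit 0) (XT.lf (nat_lit 0) (nat_lit 13831674382) (nat_lit 76) (nat_lit 9683931497) (nat_lit 152) (nat_lit 7870378868) (nat_lit 33) (nat_lit 5) (nat_lit 34) (nat_lit 5) (nat_lit 35) (nat_lit 4) (nat_lit 409) (nat_lit 295) (nat_lit 196)) (XT.nd (nat_lit 78) (nat_lit 228) (nat_lit 0) (XT.lf (nat_lit 0) (nat_lit 27606084984) (nat_lit 76) (nat_lit 2722492769) (nat_lit 152) (nat_lit 1783670622) (nat_lit 33) (nat_lit 5) (nat_lit 34) (nat_lit 5) (nat_lit 35) (nat_lit 4) (nat_lit 410) (nat_lit 295) (nat_lit 195)) (XT.lf (nat_lit 0) (nat_lit 4508647268) (nat_lit 228) (nat_lit 23871932794) (nat_lit 76) (nat_lit 4475112234) (nat_lit 30) (nat_lit 5) (nat_lit 33) (nat_lit 5) (nat_lit 31) (nat_lit 4) (nat_lit 411) (nat_lit 295) (nat_lit 194)))) (XT.nd (nat_lit 156) (nat_lit 0) (nat_lit 0) (XT.nd (nat_lit 78) (nat_lit 76) (nat_lit 0) (XT.lf (nat_lit 0) (nat_lit 11006730619) (nat_lit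 228) (nat_lit 10732000419) (nat_lit 76) (nat_lit 11880595382) (nat_lit 30) (nat_lit 5) (nat_lit 33) (nat_lit 5) (nat_lit 31) (nat_lit 4) (nat_lit 412) (nat_lit 295) (nat_lit 193)) (XT.lf (nat_lit 0) (nat_lit 2820654557) (nat_lit 76) (nat_lit 14886736761) (nat_lit 152) (nat_lit 16698251210) (nat_lit 29) (nat_lit 5) (nat_lit 30) (nat_lit 5) (nat_lit 31) (nat_lit 4) (nat_lit 413) (nat_lit 295) (nat_lit 192))) (XT.nd (nat_lit 78) (nat_lit 0) (nat_lit 0) (XT.lf (nat_lit 0) (nat_lit 16963726175) (nat_lit 76) (nat_lit 7734458584) (nat_lit 152) (nat_lit 10514691917) (nat_lit 29) (nat_lit 5) (nat_lit 30) (nat_lit 5) (nat_lit 31) (nat_lit 4) (nat_lit 414) (nat_lit 295) (nat_lit 191)) (XT.lf (nat_lit 0) (nat_lit 31495984607) (nat_lit 76) (nat_lit 384019107) (nat_lit 152) (nat_lit 4164886973) (nat_lit 29) (nat_lit 5) (nat_lit 30) (nat_lit 5) (nat_lit 31) (nat_lit 4) (nat_lit 415) (nat_lit 295) (nat_lit 190)))))) (XT.nd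 (nat_lit 546) (nat_lit 228) (nat_lit 0) (XT.nd (nat_lit 234) (nat_lit 152) (nat_lit 0) (XT.nd (nat_lit 78) (nat_lit 76) (nat_lit 0) (XT.lf (nat_lit 0) (nat_lit 2473989960) (nat_lit 152) (nat_lit 27274783763) (nat_lit 76) (nat_lit 7148060242) (nat_lit 27) (nat_lit 5) (nat_lit 29) (nat_lit 5) (nat_lit 28) (nat_lit 4) (nat_lit 416) (nat_lit 295) (nat_lit 189)) (XT.nd (nat_lit 78) (nat_lit 76) (nat_lit 0) (XT.lf (nat_lit 0) (nat_lit 9260232379) (nat_lit 152) (nat_lit 13541571439) (nat_lit 76) (nat_lit 14970339076) (nat_lit 27) (nat_lit 5) (nat_lit 29) (nat_lit 5) (nat_lit 28) (nat_lit 4) (nat_lit 417) (nat_lit 295) (nat_lit 188)) (XT.lf (nat_lit 0) (nat_lit 581485328) (nat_lit 76) (nat_lit 15656416121) (nat_lit 152) (nat_lit 22436176142) (nat_lit 26) (nat_lit 5) (nat_lit 27) (nat_lit 5) (nat_lit 28) (nat_lit 4) (nat_lit 418) (nat_lit 295) (nat_lit 187)))) (XT.nd (nat_lit 156) (nat_lit 152) (nat_lit 0) (XT.nd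 (nat_lit 78) (nat_lit 0) (nat_lit 0) (XT.lf (nat_lit 0) (nat_lit 15372652357) (nat_lit 76) (nat_lit 8171439481) (nat_lit 152) (nat_lit 16055404382) (nat_lit 26) (nat_lit 5) (nat_lit 27) (nat_lit 5) (nat_lit 28) (nat_lit 4) (nat_lit 419) (nat_lit 295) (nat_lit 186)) (XT.lf (nat_lit 0) (nat_lit 30575350145) (nat_lit 76) (nat_lit 477076947) (nat_lit 152) (nat_lit 9500763125) (nat_lit 26) (nat_lit 5) (nat_lit 27) (nat_lit 5) (nat_lit 28) (nat_lit 4) (nat_lit 420) (nat_lit 295) (nat_lit 185))) (XT.nd (nat_lit 78) (nat_lit 76) (nat_lit 0) (XT.lf (nat_lit 0) (nat_lit 4686873134) (nat_lit 76) (nat_lit 34199102187) (nat_lit 76) (nat_lit 2646522363) (nat_lit 25) (nat_lit 4) (nat_lit 26) (nat_lit 5) (nat_lit 26) (nat_lit 4) (nat_lit 421) (nat_lit 295) (nat_lit 184)) (XT.lf (nat_lit 0) (nat_lit 4417037237) (nat_lit 152) (nat_lit 22621888629) (nat_lit 76) (nat_lit 15498292886) (nat_lit 24) (nat_lit 5) (nat_lit 26) (nat_lit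 5) (nat_lit 25) (nat_lit 4) (nat_lit 422) (nat_lit 295) (nat_lit 183))))) (XT.nd (nat_lit 234) (nat_lit 152) (nat_lit 0) (XT.nd (nat_lit 78) (nat_lit 76) (nat_lit 0) (XT.lf (nat_lit 0) (nat_lit 11623130699) (nat_lit 152) (nat_lit 8028367830) (nat_lit 76) (nat_lit 23920283647) (nat_lit 24) (nat_lit 5) (nat_lit 26) (nat_lit 5) (nat_lit 25) (nat_lit 4) (nat_lit 423) (nat_lit 295) (nat_lit 182)) (XT.nd (nat_lit 78) (nat_lit 0) (nat_lit 0) (XT.lf (nat_lit 0) (nat_lit 7111908407) (nat_lit 76) (nat_lit 11986153401) (nat_lit 152) (nat_lit 25537742417) (nat_lit 23) (nat_lit 5) (nat_lit 24) (nat_lit 5) (nat_lit 25) (nat_lit 4) (nat_lit 424) (nat_lit 295) (nat_lit 181)) (XT.lf (nat_lit 0) (nat_lit 22841429910) (nat_lit 76) (nat_lit 4021346164) (nat_lit 152) (nat_lit 18867006128) (nat_lit 23) (nat_lit 5) (nat_lit 24) (nat_lit 5) (nat_lit 25) (nat_lit 4) (nat_lit 425) (nat_lit 295) (nat_lit 180)))) (XT.nd (nat_lit 156)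 (nat_lit 76) (nat_lit 0) (XT.nd (nat_lit 78) (nat_lit 76) (nat_lit 0) (XT.lf (nat_lit 0) (nat_lit 34885421884) (nat_lit 152) (nat_lit 7882945810) (nat_lit 0) (nat_lit 4087463409) (nat_lit 23) (nat_lit 5) (nat_lit 25) (nat_lit 4) (nat_lit 23) (nat_lit 4) (nat_lit 426) (nat_lit 295) (nat_lit 179)) (XT.lf (nat_lit 0) (nat_lit 7654009997) (nat_lit 76) (nat_lit 35593356800) (nat_lit 76) (nat_lit 4765337332) (nat_lit 22) (nat_lit 4) (nat_lit 23) (nat_lit 5) (nat_lit 23) (nat_lit 4) (nat_lit 427) (nat_lit 295) (nat_lit 178))) (XT.nd (nat_lit 78) (nat_lit 0) (nat_lit 0) (XT.lf (nat_lit 0) (nat_lit 2669697024) (nat_lit 152) (nat_lit 25437719938) (nat_lit 76) (nat_lit 21094132573) (nat_lit 21) (nat_lit 5) (nat_lit 23) (nat_lit 5) (nat_lit 22) (nat_lit 4) (nat_lit 428) (nat_lit 295) (nat_lit 177)) (XT.lf (nat_lit 0) (nat_lit 10217679374) (nat_lit 152) (nat_lit 10143651136) (nat_lit 76) (nat_lit 30063745225) (nat_lit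 21) (nat_lit 5) (nat_lit 23) (nat_lit 5) (nat_lit 22) (nat_lit 4) (nat_lit 429) (nat_lit 295) (nat_lit 176))))))))
noncomputable def xc93 : XT := (XT.nd (nat_lit 38064) (nat_lit 0) (nat_lit 11020) (XT.nd (nat_lit 1014) (nat_lit 152) (nat_lit 0) (XT.nd (nat_lit 468) (nat_lit 152) (nat_lit 0) (XT.nd (nat_lit 234) (nat_lit 152) (nat_lit 0) (XT.nd (nat_lit 78) (nat_lit 0) (nat_lit 0) (XT.lf (nat_lit 0) (nat_lit 5693789705) (nat_lit 76) (nat_lit 12339136422) (nat_lit 152) (nat_lit 33651157957) (nat_lit 20) (nat_lit 5) (nat_lit 21) (nat_lit 5) (nat_lit 22) (nat_lit 4) (nat_lit 430) (nat_lit 295) (nat_lit 175)) (XT.nd (nat_lit 78) (nat_lit 0) (nat_lit 0) (XT.lf (nat_lit 0) (nat_lit 22187992664) (nat_lit 76) (nat_lit 3983313641) (nat_lit 152) (nat_lit 26806897175) (nat_lit 20) (nat_lit 5) (nat_lit 21) (nat_lit 5) (nat_lit 22) (nat_lit 4) (nat_lit 431) (nat_lit 295) (nat_lit 174)) (XT.lf (nat_lit 0) (nat_lit 34584807384)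 (nat_lit 152) (nat_lit 15204380363) (nat_lit 0) (nat_lit 4521030672) (nat_lit 20) (nat_lit 5) (nat_lit 22) (nat_lit 4) (nat_lit 20) (nat_lit 4) (nat_lit 432) (nat_lit 295) (nat_lit 173)))) (XT.nd (nat_lit 78) (nat_lit 76) (nat_lit 0) (XT.lf (nat_lit 0) (nat_lit 800136950) (nat_lit 76) (nat_lit 42484627694) (nat_lit 76) (nat_lit 12396408644) (nat_lit 19) (nat_lit 4) (nat_lit 20) (nat_lit 5) (nat_lit 20) (nat_lit 4) (nat_lit 433) (nat_lit 295) (nat_lit 172)) (XT.nd (nat_lit 78) (nat_lit 76) (nat_lit 0) (XT.lf (nat_lit 0) (nat_lit 17571647529) (nat_lit 76) (nat_lit 34814670901) (nat_lit 76) (nat_lit 4702721426) (nat_lit 19) (nat_lit 4) (nat_lit 20) (nat_lit 5) (nat_lit 20) (nat_lit 4) (nat_lit 434) (nat_lit 295) (nat_lit 171)) (XT.lf (nat_lit 0) (nat_lit 3146222826) (nat_lit 152) (nat_lit 23748156384) (nat_lit 76) (nat_lit 31644215602) (nat_lit 18) (nat_lit 5) (nat_lit 20) (nat_lit 5) (nat_lit 19) (nat_lit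 4) (nat_lit 435) (nat_lit 295) (nat_lit 170))))) (XT.nd (nat_lit 234) (nat_lit 76) (nat_lit 0) (XT.nd (nat_lit 78) (nat_lit 76) (nat_lit 0) (XT.lf (nat_lit 0) (nat_lit 11123799712) (nat_lit 152) (nat_lit 7576043508) (nat_lit 76) (nat_lit 41330766722) (nat_lit 18) (nat_lit 5) (nat_lit 20) (nat_lit 5) (nat_lit 19) (nat_lit 4) (nat_lit 436) (nat_lit 295) (nat_lit 169)) (XT.nd (nat_lit 78) (nat_lit 0) (nat_lit 0) (XT.lf (nat_lit 0) (nat_lit 9238560294) (nat_lit 76) (nat_lit 10178993360) (nat_lit 152) (nat_lit 42147527255) (nat_lit 17) (nat_lit 5) (nat_lit 18) (nat_lit 5) (nat_lit 19) (nat_lit 4) (nat_lit 437) (nat_lit 295) (nat_lit 168)) (XT.lf (nat_lit 0) (nat_lit 26690178630) (nat_lit 76) (nat_lit 1334617641) (nat_lit 152) (nat_lit 35118850305) (nat_lit 17) (nat_lit 5) (nat_lit 18) (nat_lit 5) (nat_lit 19) (nat_lit 4) (nat_lit 438) (nat_lit 295) (nat_lit 167)))) (XT.nd (nat_lit 156) (nat_lit 76) (nat_lit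 0) (XT.nd (nat_lit 78) (nat_lit 0) (nat_lit 0) (XT.lf (nat_lit 0) (nat_lit 36953410726) (nat_lit 152) (nat_lit 20201269361) (nat_lit 0) (nat_lit 7612995314) (nat_lit 17) (nat_lit 5) (nat_lit 19) (nat_lit 4) (nat_lit 17) (nat_lit 4) (nat_lit 439) (nat_lit 295) (nat_lit 166)) (XT.lf (nat_lit 0) (nat_lit 46151850703) (nat_lit 152) (nat_lit 3496375894) (nat_lit 0) (nat_lit 16792140283) (nat_lit 17) (nat_lit 5) (nat_lit 19) (nat_lit 4) (nat_lit 17) (nat_lit 4) (nat_lit 440) (nat_lit 295) (nat_lit 165))) (XT.nd (nat_lit 78) (nat_lit 0) (nat_lit 0) (XT.lf (nat_lit 0) (nat_lit 13961068864) (nat_lit 76) (nat_lit 41788457983) (nat_lit 76) (nat_lit 12410014546) (nat_lit 16) (nat_lit 4) (nat_lit 17) (nat_lit 5) (nat_lit 17) (nat_lit 4) (nat_lit 441) (nat_lit 295) (nat_lit 164)) (XT.lf (nat_lit 0) (nat_lit 31993089132) (nat_lit 76) (nat_lit 33666549222) (nat_lit 76) (nat_lit 4269918391) (nat_lit 16) (nat_lit 4) (nat_lit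 17) (nat_lit 5) (nat_lit 17) (nat_lit 4) (nat_lit 442) (nat_lit 295) (nat_lit 163)))))) (XT.nd (nat_lit 36504) (nat_lit 0) (nat_lit 24548) (XT.nd (nat_lit 234) (nat_lit 0) (nat_lit 0) (XT.nd (nat_lit 78) (nat_lit 76) (nat_lit 0) (XT.lf (nat_lit 0) (nat_lit 4023502856) (nat_lit 152) (nat_lit 21246577697) (nat_lit 76) (nat_lit 46481723962) (nat_lit 15) (nat_lit 5) (nat_lit 17) (nat_lit 5) (nat_lit 16) (nat_lit 4) (nat_lit 443) (nat_lit 295) (nat_lit 162)) (XT.nd (nat_lit 78) (nat_lit 76) (nat_lit 0) (XT.lf (nat_lit 0) (nat_lit 12469622691) (nat_lit 152) (nat_lit 4118097797) (nat_lit 76) (nat_lit 57040040116) (nat_lit 15) (nat_lit 5) (nat_lit 17) (nat_lit 5) (nat_lit 16) (nat_lit 4) (nat_lit 444) (nat_lit 295) (nat_lit 161)) (XT.lf (nat_lit 0) (nat_lit 13773759443) (nat_lit 76) (nat_lit 7517785062) (nat_lit 152) (nat_lit 54264778991) (nat_lit 14) (nat_lit 5) (nat_lit 15) (nat_lit 5) (nat_lit 16) (nat_lit 4)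 (nat_lit 445) (nat_lit 295) (nat_lit 160)))) (XT.nd (nat_lit 36114) (nat_lit 0) (nat_lit 26752) (XT.nd (nat_lit 78) (nat_lit 0) (nat_lit 0) (XT.lf (nat_lit 0) (nat_lit 30427691997) (nat_lit 152) (nat_lit 45291926454) (nat_lit 0) (nat_lit 1821638435) (nat_lit 14) (nat_lit 5) (nat_lit 16) (nat_lit 4) (nat_lit 14) (nat_lit 4) (nat_lit 446) (nat_lit 295) (nat_lit 159)) (XT.lf (nat_lit 0) (nat_lit 39902683435) (nat_lit 152) (nat_lit 28399714474) (nat_lit 0) (nat_lit 11281398216) (nat_lit 14) (nat_lit 5) (nat_lit 16) (nat_lit 4) (nat_lit 14) (nat_lit 4) (nat_lit 447) (nat_lit 295) (nat_lit 158))) (XT.nd (nat_lit 78) (nat_lit 0) (nat_lit 0) (XT.lf (nat_lit 0) (nat_lit 333019294) (nat_lit 380) (nat_lit 2589672255) (nat_lit 0) (nat_lit 333019294) (nat_lit 366) (nat_lit 5) (nat_lit 371) (nat_lit 4) (nat_lit 366) (nat_lit 4) (nat_lit 308) (nat_lit 296) (nat_lit 296)) (XT.lf (nat_lit 0) (nat_lit 3792511499) (nat_lit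 380) (nat_lit 1477715030) (nat_lit 0) (nat_lit 1259792398) (nat_lit 366) (nat_lit 5) (nat_lit 371) (nat_lit 4) (nat_lit 366) (nat_lit 4) (nat_lit 309) (nat_lit 296) (nat_lit 295))))) (XT.nd (nat_lit 234) (nat_lit 1292) (nat_lit 0) (XT.nd (nat_lit 78) (nat_lit 456) (nat_lit 0) (XT.lf (nat_lit 0) (nat_lit 365314280) (nat_lit 456) (nat_lit 4250081696) (nat_lit 76) (nat_lit 1936420955) (nat_lit 360) (nat_lit 5) (nat_lit 366) (nat_lit 5) (nat_lit 361) (nat_lit 4) (nat_lit 310) (nat_lit 296) (nat_lit 294)) (XT.nd (nat_lit 78) (nat_lit 456) (nat_lit 0) (XT.lf (nat_lit 0) (nat_lit 3412179813) (nat_lit 456) (nat_lit 452275327) (nat_lit 76) (nat_lit 2711917544) (nat_lit 360) (nat_lit 5) (nat_lit 366) (nat_lit 5) (nat_lit 361) (nat_lit 4) (nat_lit 311) (nat_lit 296) (nat_lit 293)) (XT.lf (nat_lit 0) (nat_lit 3452998036) (nat_lit 456) (nat_lit 3024733562) (nat_lit 532) (nat_lit 126208637) (nat_lit 354) (nat_lit 5)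 (nat_lit 360) (nat_lit 5) (nat_lit 361) (nat_lit 4) (nat_lit 312) (nat_lit 296) (nat_lit 292)))) (XT.nd (nat_lit 156) (nat_lit 684) (nat_lit 0) (XT.nd (nat_lit 78) (nat_lit 0) (nat_lit 0) (XT.lf (nat_lit 0) (nat_lit 763190091) (nat_lit 532) (nat_lit 2088431679) (nat_lit 608) (nat_lit 3782716104) (nat_lit 346) (nat_lit 5) (nat_lit 353) (nat_lit 5) (nat_lit 354) (nat_lit 5) (nat_lit 313) (nat_lit 296) (nat_lit 291)) (XT.lf (nat_lit 0) (nat_lit 4783506879) (nat_lit 532) (nat_lit 1062236615) (nat_lit 608) (nat_lit 822067264) (nat_lit 346) (nat_lit 5) (nat_lit 353) (nat_lit 5) (nat_lit 354) (nat_lit 5) (nat_lit 314) (nat_lit 296) (nat_lit 290))) (XT.nd (nat_lit 78) (nat_lit 0) (nat_lit 0) (XT.lf (nat_lit 0) (nat_lit 2105001374) (nat_lit 684) (nat_lit 4536142254) (nat_lit 76) (nat_lit 62950602) (nat_lit 337) (nat_lit 5) (nat_lit 346) (nat_lit 5) (nat_lit 338) (nat_lit 5) (nat_lit 315) (nat_lit 296) (nat_lit 289))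 (XT.lf (nat_lit 0) (nat_lit 5035145157) (nat_lit 684) (nat_lit 456330645) (nat_lit 76) (nat_lit 1251870986) (nat_lit 337) (nat_lit 5) (nat_lit 346) (nat_lit 5) (nat_lit 338) (nat_lit 5) (nat_lit 316) (nat_lit 296) (nat_lit 288))))))) (XT.nd (nat_lit 1014) (nat_lit 4940) (nat_lit 0) (XT.nd (nat_lit 468) (nat_lit 5168) (nat_lit 0) (XT.nd (nat_lit 234) (nat_lit 1824) (nat_lit 0) (XT.nd (nat_lit 78) (nat_lit 836) (nat_lit 0) (XT.lf (nat_lit 0) (nat_lit 1184882423) (nat_lit 760) (nat_lit 3053054461) (nat_lit 76) (nat_lit 2547340694) (nat_lit 327) (nat_lit 5) (nat_lit 337) (nat_lit 5) (nat_lit 328) (nat_lit 5) (nat_lit 317) (nat_lit 296) (nat_lit 287)) (XT.nd (nat_lit 78) (nat_lit 76) (nat_lit 0) (XT.lf (nat_lit 0) (nat_lit 1157120829) (nat_lit 760) (nat_lit 2895051635) (nat_lit 836) (nat_lit 2778205729) (nat_lit 317) (nat_lit 5) (nat_lit 327) (nat_lit 5) (nat_lit 328) (nat_lit 5) (nat_lit 318) (nat_lit 296)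 (nat_lit 286)) (XT.lf (nat_lit 0) (nat_lit 64280531) (nat_lit 836) (nat_lit 1398396478) (nat_lit 76) (nat_lit 5416041042) (nat_lit 316) (nat_lit 5) (nat_lit 327) (nat_lit 5) (nat_lit 317) (nat_lit 5) (nat_lit 319) (nat_lit 296) (nat_lit 285)))) (XT.nd (nat_lit 78) (nat_lit 988) (nat_lit 0) (XT.lf (nat_lit 0) (nat_lit 2875195143) (nat_lit 912) (nat_lit 3970349298) (nat_lit 76) (nat_lit 84034269) (nat_lit 305) (nat_lit 5) (nat_lit 317) (nat_lit 5) (nat_lit 306) (nat_lit 5) (nat_lit 320) (nat_lit 296) (nat_lit 284)) (XT.nd (nat_lit 78) (nat_lit 76) (nat_lit 0) (XT.lf (nat_lit 0) (nat_lit 411104411) (nat_lit 912) (nat_lit 5303795901) (nat_lit 988) (nat_lit 1268794676) (nat_lit 293) (nat_lit 5) (nat_lit 305) (nat_lit 5) (nat_lit 306) (nat_lit 5) (nat_lit 321) (nat_lit 296) (nat_lit 283)) (XT.lf (nat_lit 0) (nat_lit 1522312136) (nat_lit 988) (nat_lit 2126669564) (nat_lit 76) (nat_lit 3391456208) (nat_lit 292)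 (nat_lit 5) (nat_lit 305) (nat_lit 5) (nat_lit 293) (nat_lit 5) (nat_lit 322) (nat_lit 296) (nat_lit 282))))) (XT.nd (nat_lit 234) (nat_lit 3040) (nat_lit 0) (XT.nd (nat_lit 78) (nat_lit 1140) (nat_lit 0) (XT.lf (nat_lit 0) (nat_lit 2411347056) (nat_lit 988) (nat_lit 1898715328) (nat_lit 1064) (nat_lit 2790349797) (nat_lit 279) (nat_lit 5) (nat_lit 292) (nat_lit 5) (nat_lit 293) (nat_lit 5) (nat_lit 323) (nat_lit 296) (nat_lit 281)) (XT.nd (nat_lit 78) (nat_lit 1140) (nat_lit 0) (XT.lf (nat_lit 0) (nat_lit 7054067933) (nat_lit 988) (nat_lit 65832524) (nat_lit 1064) (nat_lit 44188158) (nat_lit 279) (nat_lit 5) (nat_lit 292) (nat_lit 5) (nat_lit 293) (nat_lit 5) (nat_lit 324) (nat_lit 296) (nat_lit 280)) (XT.lf (nat_lit 0) (nat_lit 2711022974) (nat_lit 1140) (nat_lit 2653557085) (nat_lit 76) (nat_lit 1864915749) (nat_lit 264) (nat_lit 5) (nat_lit 279) (nat_lit 5) (nat_lit 265) (nat_lit 5) (nat_lit 325) (nat_lit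 296) (nat_lit 279)))) (XT.nd (nat_lit 156) (nat_lit 1824) (nat_lit 0) (XT.nd (nat_lit 78) (nat_lit 76) (nat_lit 0) (XT.lf (nat_lit 0) (nat_lit 2070918551) (nat_lit 1140) (nat_lit 3419031575) (nat_lit 1216) (nat_lit 1808695319) (nat_lit 249) (nat_lit 5) (nat_lit 264) (nat_lit 5) (nat_lit 265) (nat_lit 5) (nat_lit 326) (nat_lit 296) (nat_lit 278)) (XT.lf (nat_lit 0) (nat_lit 911307158) (nat_lit 1216) (nat_lit 464415280) (nat_lit 76) (nat_lit 5995469612) (nat_lit 248) (nat_lit 5) (nat_lit 264) (nat_lit 5) (nat_lit 249) (nat_lit 5) (nat_lit 327) (nat_lit 296) (nat_lit 277))) (XT.nd (nat_lit 78) (nat_lit 608) (nat_lit 0) (XT.lf (nat_lit 0) (nat_lit 3650156484) (nat_lit 1292) (nat_lit 3018545092) (nat_lit 76) (nat_lit 777515641) (nat_lit 232) (nat_lit 5) (nat_lit 249) (nat_lit 5) (nat_lit 233) (nat_lit 5) (nat_lit 328) (nat_lit 296) (nat_lit 276)) (XT.lf (nat_lit 0) (nat_lit 1899598040) (nat_lit 608) (nat_lit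 4533059495) (nat_lit 684) (nat_lit 1092037031) (nat_lit 224) (nat_lit 5) (nat_lit 232) (nat_lit 5) (nat_lit 233) (nat_lit 5) (nat_lit 329) (nat_lit 296) (nat_lit 275)))))) (XT.nd (nat_lit 546) (nat_lit 2432) (nat_lit 0) (XT.nd (nat_lit 234) (nat_lit 1216) (nat_lit 0) (XT.nd (nat_lit 78) (nat_lit 1216) (nat_lit 0) (XT.lf (nat_lit 0) (nat_lit 1616407941) (nat_lit 684) (nat_lit 671293395) (nat_lit 76) (nat_lit 5318689840) (nat_lit 223) (nat_lit 5) (nat_lit 232) (nat_lit 5) (nat_lit 224) (nat_lit 5) (nat_lit 330) (nat_lit 296) (nat_lit 274)) (XT.nd (nat_lit 78) (nat_lit 608) (nat_lit 0) (XT.lf (nat_lit 0) (nat_lit 4355225581) (nat_lit 684) (nat_lit 3260114979) (nat_lit 76) (nat_lit 75783819) (nat_lit 215) (nat_lit 5) (nat_lit 224) (nat_lit 5) (nat_lit 216) (nat_lit 5) (nat_lit 331) (nat_lit 296) (nat_lit 273)) (XT.lf (nat_lit 0) (nat_lit 1859089721) (nat_lit 608) (nat_lit 5293567809) (nat_lit 684) (nat_lit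 626489437) (nat_lit 207) (nat_lit 5) (nat_lit 215) (nat_lit 5) (nat_lit 216) (nat_lit 5) (nat_lit 332) (nat_lit 296) (nat_lit 272)))) (XT.nd (nat_lit 156) (nat_lit 608) (nat_lit 0) (XT.nd (nat_lit 78) (nat_lit 532) (nat_lit 0) (XT.lf (nat_lit 0) (nat_lit 2084910622) (nat_lit 684) (nat_lit 768357183) (nat_lit 76) (nat_lit 5017068661) (nat_lit 206) (nat_lit 5) (nat_lit 215) (nat_lit 5) (nat_lit 207) (nat_lit 5) (nat_lit 333) (nat_lit 296) (nat_lit 271)) (XT.lf (nat_lit 0) (nat_lit 4545531768) (nat_lit 532) (nat_lit 294964382) (nat_lit 608) (nat_lit 3124353766) (nat_lit 199) (nat_lit 5) (nat_lit 206) (nat_lit 5) (nat_lit 207) (nat_lit 5) (nat_lit 334) (nat_lit 296) (nat_lit 270))) (XT.nd (nat_lit 78) (nat_lit 76) (nat_lit 0) (XT.lf (nat_lit 0) (nat_lit 1911243808) (nat_lit 532) (nat_lit 5749155362) (nat_lit 608) (nat_lit 402386425) (nat_lit 192) (nat_lit 5) (nat_lit 199) (nat_lit 5) (nat_lit 200) (nat_lit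 5) (nat_lit 335) (nat_lit 296) (nat_lit 269)) (XT.lf (nat_lit 0) (nat_lit 2325663921) (nat_lit 608) (nat_lit 793866721) (nat_lit 76) (nat_lit 5044332051) (nat_lit 191) (nat_lit 5) (nat_lit 199) (nat_lit 5) (nat_lit 192) (nat_lit 5) (nat_lit 336) (nat_lit 296) (nat_lit 268))))) (XT.nd (nat_lit 234) (nat_lit 1368) (nat_lit 0) (XT.nd (nat_lit 78) (nat_lit 608) (nat_lit 0) (XT.lf (nat_lit 0) (nat_lit 4738540932) (nat_lit 456) (nat_lit 369904324) (nat_lit 532) (nat_lit 3160011255) (nat_lit 185) (nat_lit 5) (nat_lit 191) (nat_lit 5) (nat_lit 192) (nat_lit 5) (nat_lit 337) (nat_lit 296) (nat_lit 267)) (XT.nd (nat_lit 78) (nat_lit 76) (nat_lit 0) (XT.lf (nat_lit 0) (nat_lit 2017279118) (nat_lit 532) (nat_lit 5945086031) (nat_lit 608) (nat_lit 414225615) (nat_lit 178) (nat_lit 5) (nat_lit 185) (nat_lit 5) (nat_lit 186) (nat_lit 5) (nat_lit 338) (nat_lit 296) (nat_lit 266)) (XT.lf (nat_lit 0) (nat_lit 2343471109)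 (nat_lit 608) (nat_lit 786997630) (nat_lit 76) (nat_lit 5357535337) (nat_lit 177) (nat_lit 5) (nat_lit 185) (nat_lit 5) (nat_lit 178) (nat_lit 5) (nat_lit 339) (nat_lit 296) (nat_lit 265)))) (XT.nd (nat_lit 156) (nat_lit 456) (nat_lit 0) (XT.nd (nat_lit 78) (nat_lit 456) (nat_lit 0) (XT.lf (nat_lit 0) (nat_lit 4971485609) (nat_lit 456) (nat_lit 190693541) (nat_lit 532) (nat_lit 3440888956) (nat_lit 171) (nat_lit 5) (nat_lit 177) (nat_lit 5) (nat_lit 178) (nat_lit 5) (nat_lit 340) (nat_lit 296) (nat_lit 264)) (XT.lf (nat_lit 0) (nat_lit 2136965986) (nat_lit 456) (nat_lit 5924093464) (nat_lit 532) (nat_lit 660684951) (nat_lit 165) (nat_lit 5) (nat_lit 171) (nat_lit 5) (nat_lit 172) (nat_lit 5) (nat_lit 341) (nat_lit 296) (nat_lit 263))) (XT.nd (nat_lit 78) (nat_lit 380) (nat_lit 0) (XT.lf (nat_lit 0) (nat_lit 2139059034) (nat_lit 532) (nat_lit 788667994) (nat_lit 76) (nat_lit 5916272081) (nat_lit 164) (nat_lit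 5) (nat_lit 171) (nat_lit 5) (nat_lit 165) (nat_lit 5) (nat_lit 342) (nat_lit 296) (nat_lit 262)) (XT.lf (nat_lit 0) (nat_lit 5003410155) (nat_lit 456) (nat_lit 3768794659) (nat_lit 76) (nat_lit 197729824) (nat_lit 159) (nat_lit 5) (nat_lit 165) (nat_lit 5) (nat_lit 160) (nat_lit 5) (nat_lit 343) (nat_lit 296) (nat_lit 261))))))))
noncomputable def xc94 : XT := (XT.nd (nat_lit 2106) (nat_lit 2964) (nat_lit 0) (XT.nd (nat_lit 1014) (nat_lit 2356) (nat_lit 0) (XT.nd (nat_lit 468) (nat_lit 1748) (nat_lit 0) (XT.nd (nat_lit 234) (nat_lit 760) (nat_lit 0) (XT.nd (nat_lit 78) (nat_lit 456) (nat_lit 0) (XT.lf (nat_lit 0) (nat_lit 2227753464) (nat_lit 456) (nat_lit 5727169321) (nat_lit 532) (nat_lit 1144713996) (nat_lit 153) (nat_lit 5) (nat_lit 159) (nat_lit 5) (nat_lit 160) (nat_lit 5) (nat_lit 344) (nat_lit 296) (nat_lit 260)) (XT.nd (nat_lit 78) (nat_lit 380) (nat_lit 0) (XT.lf (nat_lit 0) (nat_lit 1708973508)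 (nat_lit 532) (nat_lit 842426168) (nat_lit 76) (nat_lit 6681898251) (nat_lit 152) (nat_lit 5) (nat_lit 159) (nat_lit 5) (nat_lit 153) (nat_lit 5) (nat_lit 345) (nat_lit 296) (nat_lit 259)) (XT.lf (nat_lit 0) (nat_lit 4629270597) (nat_lit 456) (nat_lit 3988694596) (nat_lit 76) (nat_lit 752566816) (nat_lit 147) (nat_lit 5) (nat_lit 153) (nat_lit 5) (nat_lit 148) (nat_lit 5) (nat_lit 346) (nat_lit 296) (nat_lit 258)))) (XT.nd (nat_lit 78) (nat_lit 380) (nat_lit 0) (XT.lf (nat_lit 0) (nat_lit 2243823246) (nat_lit 380) (nat_lit 5394348852) (nat_lit 456) (nat_lit 1873703786) (nat_lit 142) (nat_lit 5) (nat_lit 147) (nat_lit 5) (nat_lit 148) (nat_lit 5) (nat_lit 347) (nat_lit 296) (nat_lit 257)) (XT.nd (nat_lit 78) (nat_lit 304) (nat_lit 0) (XT.lf (nat_lit 0) (nat_lit 1045396982) (nat_lit 456) (nat_lit 995417432) (nat_lit 76) (nat_lit 7616757921) (nat_lit 141) (nat_lit 5) (nat_lit 147) (nat_lit 5) (nat_lit 142)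 (nat_lit 5) (nat_lit 348) (nat_lit 296) (nat_lit 256)) (XT.lf (nat_lit 0) (nat_lit 4028710071) (nat_lit 380) (nat_lit 4338707464) (nat_lit 76) (nat_lit 1439257346) (nat_lit 137) (nat_lit 5) (nat_lit 142) (nat_lit 5) (nat_lit 138) (nat_lit 5) (nat_lit 349) (nat_lit 296) (nat_lit 255))))) (XT.nd (nat_lit 234) (nat_lit 988) (nat_lit 0) (XT.nd (nat_lit 78) (nat_lit 380) (nat_lit 0) (XT.lf (nat_lit 0) (nat_lit 2135050945) (nat_lit 380) (nat_lit 4965508016) (nat_lit 456) (nat_lit 2859740561) (nat_lit 132) (nat_lit 5) (nat_lit 137) (nat_lit 5) (nat_lit 138) (nat_lit 5) (nat_lit 350) (nat_lit 296) (nat_lit 254)) (XT.nd (nat_lit 78) (nat_lit 304) (nat_lit 0) (XT.lf (nat_lit 0) (nat_lit 135882949) (nat_lit 456) (nat_lit 1299449366) (nat_lit 76) (nat_lit 8683396369) (nat_lit 131) (nat_lit 5) (nat_lit 137) (nat_lit 5) (nat_lit 132) (nat_lit 5) (nat_lit 351) (nat_lit 296) (nat_lit 253)) (XT.lf (nat_lit 0) (nat_lit 3187803987)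 (nat_lit 380) (nat_lit 4873261412) (nat_lit 76) (nat_lit 2219297095) (nat_lit 127) (nat_lit 5) (nat_lit 132) (nat_lit 5) (nat_lit 128) (nat_lit 5) (nat_lit 352) (nat_lit 296) (nat_lit 252)))) (XT.nd (nat_lit 156) (nat_lit 684) (nat_lit 0) (XT.nd (nat_lit 78) (nat_lit 0) (nat_lit 0) (XT.lf (nat_lit 0) (nat_lit 1845853070) (nat_lit 304) (nat_lit 4481186988) (nat_lit 380) (nat_lit 4119950408) (nat_lit 123) (nat_lit 5) (nat_lit 127) (nat_lit 5) (nat_lit 128) (nat_lit 5) (nat_lit 353) (nat_lit 296) (nat_lit 251)) (XT.lf (nat_lit 0) (nat_lit 8796273901) (nat_lit 304) (nat_lit 764706409) (nat_lit 380) (nat_lit 1057638500) (nat_lit 123) (nat_lit 5) (nat_lit 127) (nat_lit 5) (nat_lit 128) (nat_lit 5) (nat_lit 354) (nat_lit 296) (nat_lit 250))) (XT.nd (nat_lit 78) (nat_lit 304) (nat_lit 0) (XT.lf (nat_lit 0) (nat_lit 2087525964) (nat_lit 380) (nat_lit 5653196359) (nat_lit 76) (nat_lit 3053128608) (nat_lit 118) (nat_lit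 5) (nat_lit 123) (nat_lit 5) (nat_lit 119) (nat_lit 5) (nat_lit 355) (nat_lit 296) (nat_lit 249)) (XT.lf (nat_lit 0) (nat_lit 1313895361) (nat_lit 304) (nat_lit 3983455856) (nat_lit 380) (nat_lit 5676943624) (nat_lit 114) (nat_lit 5) (nat_lit 118) (nat_lit 5) (nat_lit 119) (nat_lit 5) (nat_lit 356) (nat_lit 296) (nat_lit 248)))))) (XT.nd (nat_lit 546) (nat_lit 1064) (nat_lit 0) (XT.nd (nat_lit 234) (nat_lit 608) (nat_lit 0) (XT.nd (nat_lit 78) (nat_lit 684) (nat_lit 0) (XT.lf (nat_lit 0) (nat_lit 8536936848) (nat_lit 304) (nat_lit 77110931) (nat_lit 380) (nat_lit 2545802407) (nat_lit 114) (nat_lit 5) (nat_lit 118) (nat_lit 5) (nat_lit 119) (nat_lit 5) (nat_lit 357) (nat_lit 296) (nat_lit 247)) (XT.nd (nat_lit 78) (nat_lit 304) (nat_lit 0) (XT.lf (nat_lit 0) (nat_lit 703249922) (nat_lit 380) (nat_lit 6747163224) (nat_lit 76) (nat_lit 3899260728) (nat_lit 109) (nat_lit 5) (nat_lit 114) (nat_lit 5) (nat_lit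 110) (nat_lit 5) (nat_lit 358) (nat_lit 296) (nat_lit 246)) (XT.lf (nat_lit 0) (nat_lit 468634928) (nat_lit 304) (nat_lit 3516839540) (nat_lit 380) (nat_lit 7559369668) (nat_lit 105) (nat_lit 5) (nat_lit 109) (nat_lit 5) (nat_lit 110) (nat_lit 5) (nat_lit 359) (nat_lit 296) (nat_lit 245)))) (XT.nd (nat_lit 156) (nat_lit 380) (nat_lit 0) (XT.nd (nat_lit 78) (nat_lit 228) (nat_lit 0) (XT.lf (nat_lit 0) (nat_lit 7395407200) (nat_lit 380) (nat_lit 3779223301) (nat_lit 76) (nat_lit 570375458) (nat_lit 105) (nat_lit 5) (nat_lit 110) (nat_lit 5) (nat_lit 106) (nat_lit 5) (nat_lit 360) (nat_lit 296) (nat_lit 244)) (XT.lf (nat_lit 0) (nat_lit 3707400416) (nat_lit 228) (nat_lit 7227291103) (nat_lit 304) (nat_lit 1015682803) (nat_lit 102) (nat_lit 5) (nat_lit 105) (nat_lit 5) (nat_lit 106) (nat_lit 5) (nat_lit 361) (nat_lit 296) (nat_lit 243))) (XT.nd (nat_lit 78) (nat_lit 304) (nat_lit 0) (XT.lf (nat_lit 0) (nat_lit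 2366390290) (nat_lit 304) (nat_lit 755303174) (nat_lit 76) (nat_lit 9039665581) (nat_lit 101) (nat_lit 5) (nat_lit 105) (nat_lit 5) (nat_lit 102) (nat_lit 5) (nat_lit 362) (nat_lit 296) (nat_lit 242)) (XT.lf (nat_lit 0) (nat_lit 5866214518) (nat_lit 380) (nat_lit 5369963430) (nat_lit 76) (nat_lit 1141104747) (nat_lit 97) (nat_lit 5) (nat_lit 102) (nat_lit 5) (nat_lit 98) (nat_lit 5) (nat_lit 363) (nat_lit 296) (nat_lit 241))))) (XT.nd (nat_lit 234) (nat_lit 532) (nat_lit 0) (XT.nd (nat_lit 78) (nat_lit 304) (nat_lit 0) (XT.lf (nat_lit 0) (nat_lit 2368630451) (nat_lit 228) (nat_lit 7122209518) (nat_lit 304) (nat_lit 3108261704) (nat_lit 94) (nat_lit 5) (nat_lit 97) (nat_lit 5) (nat_lit 98) (nat_lit 5) (nat_lit 364) (nat_lit 296) (nat_lit 240)) (XT.nd (nat_lit 78) (nat_lit 228) (nat_lit 0) (XT.lf (nat_lit 0) (nat_lit 402250413) (nat_lit 304) (nat_lit 2446485034) (nat_lit 76) (nat_lit 9978335695) (nat_lit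 93) (nat_lit 5) (nat_lit 97) (nat_lit 5) (nat_lit 94) (nat_lit 5) (nat_lit 365) (nat_lit 296) (nat_lit 239)) (XT.lf (nat_lit 0) (nat_lit 3984638032) (nat_lit 304) (nat_lit 7490597220) (nat_lit 76) (nat_lit 1584861015) (nat_lit 90) (nat_lit 5) (nat_lit 94) (nat_lit 5) (nat_lit 91) (nat_lit 5) (nat_lit 366) (nat_lit 296) (nat_lit 238)))) (XT.nd (nat_lit 156) (nat_lit 304) (nat_lit 0) (XT.nd (nat_lit 78) (nat_lit 0) (nat_lit 0) (XT.lf (nat_lit 0) (nat_lit 493843956) (nat_lit 228) (nat_lit 7198697450) (nat_lit 304) (nat_lit 5607039912) (nat_lit 87) (nat_lit 5) (nat_lit 90) (nat_lit 5) (nat_lit 91) (nat_lit 5) (nat_lit 367) (nat_lit 296) (nat_lit 237)) (XT.lf (nat_lit 0) (nat_lit 8807911543) (nat_lit 228) (nat_lit 2740103989) (nat_lit 304) (nat_lit 1997155568) (nat_lit 87) (nat_lit 5) (nat_lit 90) (nat_lit 5) (nat_lit 91) (nat_lit 5) (nat_lit 368) (nat_lit 296) (nat_lit 236))) (XT.nd (nat_lit 78) (nat_lit 0)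 (nat_lit 0) (XT.lf (nat_lit 0) (nat_lit 1701229595) (nat_lit 304) (nat_lit 10251961363) (nat_lit 76) (nat_lit 1844037286) (nat_lit 83) (nat_lit 5) (nat_lit 87) (nat_lit 5) (nat_lit 84) (nat_lit 5) (nat_lit 369) (nat_lit 296) (nat_lit 235)) (XT.lf (nat_lit 0) (nat_lit 5507617156) (nat_lit 304) (nat_lit 1992106163) (nat_lit 76) (nat_lit 6555424144) (nat_lit 83) (nat_lit 5) (nat_lit 87) (nat_lit 5) (nat_lit 84) (nat_lit 5) (nat_lit 370) (nat_lit 296) (nat_lit 234))))))) (XT.nd (nat_lit 1014) (nat_lit 1292) (nat_lit 0) (XT.nd (nat_lit 468) (nat_lit 836) (nat_lit 0) (XT.nd (nat_lit 234) (nat_lit 380) (nat_lit 0) (XT.nd (nat_lit 78) (nat_lit 304) (nat_lit 0) (XT.lf (nat_lit 0) (nat_lit 6583136198) (nat_lit 152) (nat_lit 2871206601) (nat_lit 228) (nat_lit 4865686119) (nat_lit 81) (nat_lit 5) (nat_lit 83) (nat_lit 5) (nat_lit 84) (nat_lit 5) (nat_lit 371) (nat_lit 296) (nat_lit 233)) (XT.nd (nat_lit 78) (nat_lit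 76) (nat_lit 0) (XT.lf (nat_lit 0) (nat_lit 800255357) (nat_lit 228) (nat_lit 12728590338) (nat_lit 304) (nat_lit 1063738647) (nat_lit 78) (nat_lit 5) (nat_lit 81) (nat_lit 5) (nat_lit 82) (nat_lit 5) (nat_lit 372) (nat_lit 296) (nat_lit 232)) (XT.lf (nat_lit 0) (nat_lit 2867201370) (nat_lit 304) (nat_lit 5236767913) (nat_lit 76) (nat_lit 6766415135) (nat_lit 77) (nat_lit 5) (nat_lit 81) (nat_lit 5) (nat_lit 78) (nat_lit 5) (nat_lit 373) (nat_lit 296) (nat_lit 231)))) (XT.nd (nat_lit 78) (nat_lit 228) (nat_lit 0) (XT.lf (nat_lit 0) (nat_lit 3575185054) (nat_lit 152) (nat_lit 3318204662) (nat_lit 228) (nat_lit 8262859857) (nat_lit 75) (nat_lit 5) (nat_lit 77) (nat_lit 5) (nat_lit 78) (nat_lit 5) (nat_lit 374) (nat_lit 296) (nat_lit 230)) (XT.nd (nat_lit 78) (nat_lit 228) (nat_lit 0) (XT.lf (nat_lit 0) (nat_lit 11073833240) (nat_lit 228) (nat_lit 2766029530) (nat_lit 76) (nat_lit 1609831637) (nat_lit 75)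 (nat_lit 5) (nat_lit 78) (nat_lit 5) (nat_lit 76) (nat_lit 5) (nat_lit 375) (nat_lit 296) (nat_lit 229)) (XT.lf (nat_lit 0) (nat_lit 6346425461) (nat_lit 228) (nat_lit 9092733228) (nat_lit 304) (nat_lit 311007420) (nat_lit 72) (nat_lit 5) (nat_lit 75) (nat_lit 5) (nat_lit 76) (nat_lit 5) (nat_lit 376) (nat_lit 296) (nat_lit 228))))) (XT.nd (nat_lit 234) (nat_lit 380) (nat_lit 0) (XT.nd (nat_lit 78) (nat_lit 380) (nat_lit 0) (XT.lf (nat_lit 0) (nat_lit 3794084839) (nat_lit 304) (nat_lit 365531869) (nat_lit 76) (nat_lit 11899107000) (nat_lit 71) (nat_lit 5) (nat_lit 75) (nat_lit 5) (nat_lit 72) (nat_lit 5) (nat_lit 377) (nat_lit 296) (nat_lit 227)) (XT.nd (nat_lit 78) (nat_lit 228) (nat_lit 0) (XT.lf (nat_lit 0) (nat_lit 8079422193) (nat_lit 228) (nat_lit 7323253932) (nat_lit 76) (nat_lit 971876173) (nat_lit 69) (nat_lit 5) (nat_lit 72) (nat_lit 5) (nat_lit 70) (nat_lit 5) (nat_lit 378) (nat_lit 296) (nat_lit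 226)) (XT.lf (nat_lit 0) (nat_lit 1999514498) (nat_lit 228) (nat_lit 10524862611) (nat_lit 304) (nat_lit 4174553651) (nat_lit 66) (nat_lit 5) (nat_lit 69) (nat_lit 5) (nat_lit 70) (nat_lit 5) (nat_lit 379) (nat_lit 296) (nat_lit 225)))) (XT.nd (nat_lit 156) (nat_lit 152) (nat_lit 0) (XT.nd (nat_lit 78) (nat_lit 152) (nat_lit 0) (XT.lf (nat_lit 0) (nat_lit 109983029) (nat_lit 304) (nat_lit 5336909267) (nat_lit 76) (nat_lit 11584883488) (nat_lit 65) (nat_lit 5) (nat_lit 69) (nat_lit 5) (nat_lit 66) (nat_lit 5) (nat_lit 380) (nat_lit 296) (nat_lit 224)) (XT.lf (nat_lit 0) (nat_lit 4293810855) (nat_lit 152) (nat_lit 154595077) (nat_lit 228) (nat_lit 12924688794) (nat_lit 63) (nat_lit 5) (nat_lit 65) (nat_lit 5) (nat_lit 66) (nat_lit 5) (nat_lit 381) (nat_lit 296) (nat_lit 223))) (XT.nd (nat_lit 78) (nat_lit 152) (nat_lit 0) (XT.lf (nat_lit 0) (nat_lit 8990487373) (nat_lit 228) (nat_lit 3506939795) (nat_lit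 76) (nat_lit 5225026877) (nat_lit 63) (nat_lit 5) (nat_lit 66) (nat_lit 5) (nat_lit 64) (nat_lit 5) (nat_lit 382) (nat_lit 296) (nat_lit 222)) (XT.lf (nat_lit 0) (nat_lit 6422673637) (nat_lit 152) (nat_lit 7278521130) (nat_lit 228) (nat_lit 4380134282) (nat_lit 61) (nat_lit 5) (nat_lit 63) (nat_lit 5) (nat_lit 64) (nat_lit 5) (nat_lit 383) (nat_lit 296) (nat_lit 221)))))) (XT.nd (nat_lit 546) (nat_lit 532) (nat_lit 0) (XT.nd (nat_lit 234) (nat_lit 532) (nat_lit 0) (XT.nd (nat_lit 78) (nat_lit 152) (nat_lit 0) (XT.lf (nat_lit 0) (nat_lit 105197149) (nat_lit 228) (nat_lit 1782969446) (nat_lit 76) (nat_lit 16562631517) (nat_lit 60) (nat_lit 5) (nat_lit 63) (nat_lit 5) (nat_lit 61) (nat_lit 5) (nat_lit 384) (nat_lit 296) (nat_lit 220)) (XT.nd (nat_lit 78) (nat_lit 0) (nat_lit 0) (XT.lf (nat_lit 0) (nat_lit 4724672994) (nat_lit 228) (nat_lit 10406305090) (nat_lit 76) (nat_lit 3696448826) (nat_lit 58) (nat_lit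 5) (nat_lit 61) (nat_lit 5) (nat_lit 59) (nat_lit 5) (nat_lit 385) (nat_lit 296) (nat_lit 219)) (XT.lf (nat_lit 0) (nat_lit 9489845463) (nat_lit 228) (nat_lit 318194677) (nat_lit 76) (nat_lit 9407106224) (nat_lit 58) (nat_lit 5) (nat_lit 61) (nat_lit 5) (nat_lit 59) (nat_lit 5) (nat_lit 386) (nat_lit 296) (nat_lit 218)))) (XT.nd (nat_lit 156) (nat_lit 228) (nat_lit 0) (XT.nd (nat_lit 78) (nat_lit 152) (nat_lit 0) (XT.lf (nat_lit 0) (nat_lit 10221144162) (nat_lit 152) (nat_lit 4246182653) (nat_lit 228) (nat_lit 5145094989) (nat_lit 56) (nat_lit 5) (nat_lit 58) (nat_lit 5) (nat_lit 59) (nat_lit 5) (nat_lit 387) (nat_lit 296) (nat_lit 217)) (XT.lf (nat_lit 0) (nat_lit 1016194739) (nat_lit 152) (nat_lit 18576451636) (nat_lit 228) (nat_lit 429018586) (nat_lit 54) (nat_lit 5) (nat_lit 56) (nat_lit 5) (nat_lit 57) (nat_lit 4) (nat_lit 388) (nat_lit 296) (nat_lit 216))) (XT.nd (nat_lit 78) (nat_lit 152) (nat_lit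 0) (XT.lf (nat_lit 0) (nat_lit 4451252693) (nat_lit 228) (nat_lit 8648581413) (nat_lit 76) (nat_lit 7338804919) (nat_lit 53) (nat_lit 5) (nat_lit 56) (nat_lit 5) (nat_lit 54) (nat_lit 5) (nat_lit 389) (nat_lit 296) (nat_lit 215)) (XT.lf (nat_lit 0) (nat_lit 2004270986) (nat_lit 152) (nat_lit 7456455529) (nat_lit 228) (nat_lit 11407530300) (nat_lit 51) (nat_lit 5) (nat_lit 53) (nat_lit 5) (nat_lit 54) (nat_lit 5) (nat_lit 390) (nat_lit 296) (nat_lit 214))))) (XT.nd (nat_lit 234) (nat_lit 304) (nat_lit 0) (XT.nd (nat_lit 78) (nat_lit 228) (nat_lit 0) (XT.lf (nat_lit 0) (nat_lit 13104876819) (nat_lit 152) (nat_lit 1575431392) (nat_lit 228) (nat_lit 6628664543) (nat_lit 51) (nat_lit 5) (nat_lit 53) (nat_lit 5) (nat_lit 54) (nat_lit 5) (nat_lit 391) (nat_lit 296) (nat_lit 213)) (XT.nd (nat_lit 78) (nat_lit 76) (nat_lit 0) (XT.lf (nat_lit 0) (nat_lit 2737635126) (nat_lit 152) (nat_lit 17361331541) (nat_lit 228)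 (nat_lit 1662673023) (nat_lit 49) (nat_lit 5) (nat_lit 51) (nat_lit 5) (nat_lit 52) (nat_lit 4) (nat_lit 392) (nat_lit 296) (nat_lit 212)) (XT.lf (nat_lit 0) (nat_lit 3457341771) (nat_lit 228) (nat_lit 8147569052) (nat_lit 76) (nat_lit 10619811889) (nat_lit 48) (nat_lit 5) (nat_lit 51) (nat_lit 5) (nat_lit 49) (nat_lit 5) (nat_lit 393) (nat_lit 296) (nat_lit 211)))) (XT.nd (nat_lit 156) (nat_lit 152) (nat_lit 0) (XT.nd (nat_lit 78) (nat_lit 0) (nat_lit 0) (XT.lf (nat_lit 0) (nat_lit 3051289908) (nat_lit 152) (nat_lit 5649508467) (nat_lit 228) (nat_lit 14000312048) (nat_lit 46) (nat_lit 5) (nat_lit 48) (nat_lit 5) (nat_lit 49) (nat_lit 5) (nat_lit 394) (nat_lit 296) (nat_lit 210)) (XT.lf (nat_lit 0) (nat_lit 14163347391) (nat_lit 228) (nat_lit 8488728267) (nat_lit 76) (nat_lit 537864174) (nat_lit 46) (nat_lit 5) (nat_lit 49) (nat_lit 5) (nat_lit 47) (nat_lit 4) (nat_lit 395) (nat_lit 296) (nat_lit 209)))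 (XT.nd (nat_lit 78) (nat_lit 76) (nat_lit 0) (XT.lf (nat_lit 0) (nat_lit 2963392228) (nat_lit 76) (nat_lit 16885600174) (nat_lit 152) (nat_lit 3842668758) (nat_lit 45) (nat_lit 5) (nat_lit 46) (nat_lit 5) (nat_lit 47) (nat_lit 4) (nat_lit 396) (nat_lit 296) (nat_lit 208)) (XT.lf (nat_lit 0) (nat_lit 1528980375) (nat_lit 152) (nat_lit 9333763463) (nat_lit 76) (nat_lit 13343419611) (nat_lit 44) (nat_lit 5) (nat_lit 46) (nat_lit 5) (nat_lit 45) (nat_lit 5) (nat_lit 397) (nat_lit 296) (nat_lit 207))))))))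
noncomputable def xc95 : XT := (XT.nd (nat_lit 2106) (nat_lit 760) (nat_lit 0) (XT.nd (nat_lit 1014) (nat_lit 684) (nat_lit 0) (XT.nd (nat_lit 468) (nat_lit 380) (nat_lit 0) (XT.nd (nat_lit 234) (nat_lit 228) (nat_lit 0) (XT.nd (nat_lit 78) (nat_lit 76) (nat_lit 0) (XT.lf (nat_lit 0) (nat_lit 2366287023) (nat_lit 152) (nat_lit 4616583879) (nat_lit 228) (nat_lit 17752142059) (nat_lit 42) (nat_lit 5) (nat_lit 44) (nat_lit 5) (nat_lit 45) (nat_lit 5) (nat_lit 398) (nat_lit 296) (nat_lit 206)) (XT.nd (nat_lit 78) (nat_lit 76) (nat_lit 0) (XT.lf (nat_lit 0) (nat_lit 12688707008) (nat_lit 228) (nat_lit 10731146868) (nat_lit 76) (nat_lit 1857227435) (nat_lit 42) (nat_lit 5) (nat_lit 45) (nat_lit 5) (nat_lit 43) (nat_lit 4) (nat_lit 399) (nat_lit 296) (nat_lit 205)) (XT.lf (nat_lit 0) (nat_lit 1189846114) (nat_lit 76) (nat_lit 17409404010) (nat_lit 152) (nat_lit 7235158753) (nat_lit 41) (nat_lit 5) (nat_lit 42)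 (nat_lit 5) (nat_lit 43) (nat_lit 4) (nat_lit 400) (nat_lit 296) (nat_lit 204)))) (XT.nd (nat_lit 78) (nat_lit 228) (nat_lit 0) (XT.lf (nat_lit 0) (nat_lit 13645647737) (nat_lit 76) (nat_lit 11126487373) (nat_lit 152) (nat_lit 1633773426) (nat_lit 41) (nat_lit 5) (nat_lit 42) (nat_lit 5) (nat_lit 43) (nat_lit 4) (nat_lit 401) (nat_lit 296) (nat_lit 203)) (XT.nd (nat_lit 78) (nat_lit 152) (nat_lit 0) (XT.lf (nat_lit 0) (nat_lit 4032066518) (nat_lit 152) (nat_lit 601195094) (nat_lit 76) (nat_lit 22360788361) (nat_lit 40) (nat_lit 5) (nat_lit 42) (nat_lit 5) (nat_lit 41) (nat_lit 5) (nat_lit 402) (nat_lit 296) (nat_lit 202)) (XT.lf (nat_lit 0) (nat_lit 9950040814) (nat_lit 228) (nat_lit 15515585258) (nat_lit 76) (nat_lit 2130277187) (nat_lit 38) (nat_lit 5) (nat_lit 41) (nat_lit 5) (nat_lit 39) (nat_lit 4) (nat_lit 403) (nat_lit 296) (nat_lit 201))))) (XT.nd (nat_lit 234) (nat_lit 304) (nat_lit 0) (XT.nd (nat_lit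 78) (nat_lit 76) (nat_lit 0) (XT.lf (nat_lit 0) (nat_lit 16075422124) (nat_lit 228) (nat_lit 3147835352) (nat_lit 76) (nat_lit 8991661328) (nat_lit 38) (nat_lit 5) (nat_lit 41) (nat_lit 5) (nat_lit 39) (nat_lit 4) (nat_lit 404) (nat_lit 296) (nat_lit 200)) (XT.nd (nat_lit 78) (nat_lit 0) (nat_lit 0) (XT.lf (nat_lit 0) (nat_lit 9741354655) (nat_lit 76) (nat_lit 12715357756) (nat_lit 152) (nat_lit 6393630596) (nat_lit 37) (nat_lit 5) (nat_lit 38) (nat_lit 5) (nat_lit 39) (nat_lit 4) (nat_lit 405) (nat_lit 296) (nat_lit 199)) (XT.lf (nat_lit 0) (nat_lit 23042455623) (nat_lit 76) (nat_lit 5997528714) (nat_lit 152) (nat_lit 464531849) (nat_lit 37) (nat_lit 5) (nat_lit 38) (nat_lit 5) (nat_lit 39) (nat_lit 4) (nat_lit 406) (nat_lit 296) (nat_lit 198)))) (XT.nd (nat_lit 156) (nat_lit 76) (nat_lit 0) (XT.nd (nat_lit 78) (nat_lit 0) (nat_lit 0) (XT.lf (nat_lit 0) (nat_lit 5584805407) (nat_lit 228) (nat_lit 23585000743)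 (nat_lit 76) (nat_lit 1005309552) (nat_lit 34) (nat_lit 5) (nat_lit 37) (nat_lit 5) (nat_lit 35) (nat_lit 4) (nat_lit 407) (nat_lit 296) (nat_lit 197)) (XT.lf (nat_lit 0) (nat_lit 11910806492) (nat_lit 228) (nat_lit 10800818511) (nat_lit 76) (nat_lit 8150936935) (nat_lit 34) (nat_lit 5) (nat_lit 37) (nat_lit 5) (nat_lit 35) (nat_lit 4) (nat_lit 408) (nat_lit 296) (nat_lit 196))) (XT.nd (nat_lit 78) (nat_lit 0) (nat_lit 0) (XT.lf (nat_lit 0) (nat_lit 2375736016) (nat_lit 76) (nat_lit 16053531968) (nat_lit 152) (nat_lit 13141285422) (nat_lit 33) (nat_lit 5) (nat_lit 34) (nat_lit 5) (nat_lit 35) (nat_lit 4) (nat_lit 409) (nat_lit 296) (nat_lit 195)) (XT.lf (nat_lit 0) (nat_lit 16131848799) (nat_lit 76) (nat_lit 9100574988) (nat_lit 152) (nat_lit 7064688808) (nat_lit 33) (nat_lit 5) (nat_lit 34) (nat_lit 5) (nat_lit 35) (nat_lit 4) (nat_lit 410) (nat_lit 296) (nat_lit 194)))))) (XT.nd (nat_lit 546) (nat_lit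 228) (nat_lit 0) (XT.nd (nat_lit 234) (nat_lit 228) (nat_lit 0) (XT.nd (nat_lit 78) (nat_lit 228) (nat_lit 0) (XT.lf (nat_lit 0) (nat_lit 30264582276) (nat_lit 76) (nat_lit 1955745752) (nat_lit 152) (nat_lit 825723046) (nat_lit 33) (nat_lit 5) (nat_lit 34) (nat_lit 5) (nat_lit 35) (nat_lit 4) (nat_lit 411) (nat_lit 296) (nat_lit 193)) (XT.nd (nat_lit 78) (nat_lit 0) (nat_lit 0) (XT.lf (nat_lit 0) (nat_lit 5632538443) (nat_lit 228) (nat_lit 22734743513) (nat_lit 76) (nat_lit 5444320391) (nat_lit 30) (nat_lit 5) (nat_lit 33) (nat_lit 5) (nat_lit 31) (nat_lit 4) (nat_lit 412) (nat_lit 296) (nat_lit 192)) (XT.lf (nat_lit 0) (nat_lit 12296769195) (nat_lit 228) (nat_lit 9254594155) (nat_lit 76) (nat_lit 13047648961) (nat_lit 30) (nat_lit 5) (nat_lit 33) (nat_lit 5) (nat_lit 31) (nat_lit 4) (nat_lit 413) (nat_lit 296) (nat_lit 191)))) (XT.nd (nat_lit 156) (nat_lit 152) (nat_lit 0) (XT.nd (nat_lit 78) (nat_lit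 0) (nat_lit 0) (XT.lf (nat_lit 0) (nat_lit 4686999624) (nat_lit 76) (nat_lit 14500620717) (nat_lit 152) (nat_lit 16221625319) (nat_lit 29) (nat_lit 5) (nat_lit 30) (nat_lit 5) (nat_lit 31) (nat_lit 4) (nat_lit 414) (nat_lit 296) (nat_lit 190)) (XT.lf (nat_lit 0) (nat_lit 19202468476) (nat_lit 76) (nat_lit 7158028122) (nat_lit 152) (nat_lit 9881032260) (nat_lit 29) (nat_lit 5) (nat_lit 30) (nat_lit 5) (nat_lit 31) (nat_lit 4) (nat_lit 415) (nat_lit 296) (nat_lit 189))) (XT.nd (nat_lit 78) (nat_lit 152) (nat_lit 0) (XT.lf (nat_lit 0) (nat_lit 33734677141) (nat_lit 152) (nat_lit 2982742763) (nat_lit 0) (nat_lit 381778888) (nat_lit 29) (nat_lit 5) (nat_lit 31) (nat_lit 4) (nat_lit 29) (nat_lit 4) (nat_lit 416) (nat_lit 296) (nat_lit 188)) (XT.lf (nat_lit 0) (nat_lit 3449098649) (nat_lit 152) (nat_lit 26392839439) (nat_lit 76) (nat_lit 8134688998) (nat_lit 27) (nat_lit 5) (nat_lit 29) (nat_lit 5) (nat_lit 28)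 (nat_lit 4) (nat_lit 417) (nat_lit 296) (nat_lit 187))))) (XT.nd (nat_lit 234) (nat_lit 152) (nat_lit 0) (XT.nd (nat_lit 78) (nat_lit 76) (nat_lit 0) (XT.lf (nat_lit 0) (nat_lit 10412688856) (nat_lit 152) (nat_lit 12297150779) (nat_lit 76) (nat_lit 16169145316) (nat_lit 27) (nat_lit 5) (nat_lit 29) (nat_lit 5) (nat_lit 28) (nat_lit 4) (nat_lit 418) (nat_lit 296) (nat_lit 186)) (XT.nd (nat_lit 78) (nat_lit 0) (nat_lit 0) (XT.lf (nat_lit 0) (nat_lit 2233414673) (nat_lit 76) (nat_lit 15356509764) (nat_lit 152) (nat_lit 22218348568) (nat_lit 26) (nat_lit 5) (nat_lit 27) (nat_lit 5) (nat_lit 28) (nat_lit 4) (nat_lit 419) (nat_lit 296) (nat_lit 185)) (XT.lf (nat_lit 0) (nat_lit 17420710360) (nat_lit 76) (nat_lit 7669399325) (nat_lit 152) (nat_lit 15672102574) (nat_lit 26) (nat_lit 5) (nat_lit 27) (nat_lit 5) (nat_lit 28) (nat_lit 4) (nat_lit 420) (nat_lit 296) (nat_lit 184)))) (XT.nd (nat_lit 156) (nat_lit 76)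 (nat_lit 0) (XT.nd (nat_lit 78) (nat_lit 76) (nat_lit 0) (XT.lf (nat_lit 0) (nat_lit 32801487512) (nat_lit 152) (nat_lit 8714233395) (nat_lit 0) (nat_lit 229464666) (nat_lit 26) (nat_lit 5) (nat_lit 28) (nat_lit 4) (nat_lit 26) (nat_lit 4) (nat_lit 421) (nat_lit 296) (nat_lit 183)) (XT.lf (nat_lit 0) (nat_lit 6370421023) (nat_lit 76) (nat_lit 34495228500) (nat_lit 76) (nat_lit 1888356724) (nat_lit 25) (nat_lit 4) (nat_lit 26) (nat_lit 5) (nat_lit 26) (nat_lit 4) (nat_lit 422) (nat_lit 296) (nat_lit 182))) (XT.nd (nat_lit 78) (nat_lit 0) (nat_lit 0) (XT.lf (nat_lit 0) (nat_lit 5346846870) (nat_lit 152) (nat_lit 21786606541) (nat_lit 76) (nat_lit 16655893651) (nat_lit 24) (nat_lit 5) (nat_lit 26) (nat_lit 5) (nat_lit 25) (nat_lit 4) (nat_lit 423) (nat_lit 296) (nat_lit 181)) (XT.lf (nat_lit 0) (nat_lit 12745900849) (nat_lit 152) (nat_lit 6799375421) (nat_lit 76) (nat_lit 25310369806) (nat_lit 24) (nat_lit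 5) (nat_lit 26) (nat_lit 5) (nat_lit 25) (nat_lit 4) (nat_lit 424) (nat_lit 296) (nat_lit 180))))))) (XT.nd (nat_lit 1014) (nat_lit 304) (nat_lit 0) (XT.nd (nat_lit 468) (nat_lit 228) (nat_lit 0) (XT.nd (nat_lit 234) (nat_lit 152) (nat_lit 0) (XT.nd (nat_lit 78) (nat_lit 0) (nat_lit 0) (XT.lf (nat_lit 0) (nat_lit 8780698873) (nat_lit 76) (nat_lit 11655825622) (nat_lit 152) (nat_lit 25515322911) (nat_lit 23) (nat_lit 5) (nat_lit 24) (nat_lit 5) (nat_lit 25) (nat_lit 4) (nat_lit 425) (nat_lit 296) (nat_lit 179)) (XT.nd (nat_lit 78) (nat_lit 0) (nat_lit 0) (XT.lf (nat_lit 0) (nat_lit 24939714763) (nat_lit 76) (nat_lit 3472168704) (nat_lit 152) (nat_lit 18667432061) (nat_lit 23) (nat_lit 5) (nat_lit 24) (nat_lit 5) (nat_lit 25) (nat_lit 4) (nat_lit 426) (nat_lit 296) (nat_lit 178)) (XT.lf (nat_lit 0) (nat_lit 36659812511) (nat_lit 152) (nat_lit 6732091080) (nat_lit 0) (nat_lit 4847706036) (nat_lit 23) (nat_lit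 5) (nat_lit 25) (nat_lit 4) (nat_lit 23) (nat_lit 4) (nat_lit 427) (nat_lit 296) (nat_lit 177)))) (XT.nd (nat_lit 78) (nat_lit 76) (nat_lit 0) (XT.lf (nat_lit 0) (nat_lit 9257371998) (nat_lit 76) (nat_lit 36007250146) (nat_lit 76) (nat_lit 4166808302) (nat_lit 22) (nat_lit 4) (nat_lit 23) (nat_lit 5) (nat_lit 23) (nat_lit 4) (nat_lit 428) (nat_lit 296) (nat_lit 176)) (XT.nd (nat_lit 78) (nat_lit 0) (nat_lit 0) (XT.lf (nat_lit 0) (nat_lit 3455632620) (nat_lit 152) (nat_lit 24853017691) (nat_lit 76) (nat_lit 22347714025) (nat_lit 21) (nat_lit 5) (nat_lit 23) (nat_lit 5) (nat_lit 22) (nat_lit 4) (nat_lit 429) (nat_lit 296) (nat_lit 175)) (XT.lf (nat_lit 0) (nat_lit 11209495857) (nat_lit 152) (nat_lit 9139384122) (nat_lit 76) (nat_lit 31568334741) (nat_lit 21) (nat_lit 5) (nat_lit 23) (nat_lit 5) (nat_lit 22) (nat_lit 4) (nat_lit 430) (nat_lit 296) (nat_lit 174))))) (XT.nd (nat_lit 234) (nat_lit 152) (nat_lit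 0) (XT.nd (nat_lit 78) (nat_lit 0) (nat_lit 0) (XT.lf (nat_lit 0) (nat_lit 7160350763) (nat_lit 76) (nat_lit 12091344977) (nat_lit 152) (nat_lit 33962524301) (nat_lit 20) (nat_lit 5) (nat_lit 21) (nat_lit 5) (nat_lit 22) (nat_lit 4) (nat_lit 431) (nat_lit 296) (nat_lit 173)) (XT.nd (nat_lit 78) (nat_lit 0) (nat_lit 0) (XT.lf (nat_lit 0) (nat_lit 24111639596) (nat_lit 76) (nat_lit 3502846509) (nat_lit 152) (nat_lit 26933270697) (nat_lit 20) (nat_lit 5) (nat_lit 21) (nat_lit 5) (nat_lit 22) (nat_lit 4) (nat_lit 432) (nat_lit 296) (nat_lit 172)) (XT.lf (nat_lit 0) (nat_lit 36266825252) (nat_lit 152) (nat_lit 14425528580) (nat_lit 0) (nat_lit 5227786867) (nat_lit 20) (nat_lit 5) (nat_lit 22) (nat_lit 4) (nat_lit 20) (nat_lit 4) (nat_lit 433) (nat_lit 296) (nat_lit 171)))) (XT.nd (nat_lit 156) (nat_lit 76) (nat_lit 0) (XT.nd (nat_lit 78) (nat_lit 0) (nat_lit 0) (XT.lf (nat_lit 0) (nat_lit 2047016573) (nat_lit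 76) (nat_lit 43173748607) (nat_lit 76) (nat_lit 12111670975) (nat_lit 19) (nat_lit 4) (nat_lit 20) (nat_lit 5) (nat_lit 20) (nat_lit 4) (nat_lit 434) (nat_lit 296) (nat_lit 170)) (XT.lf (nat_lit 0) (nat_lit 19286054736) (nat_lit 76) (nat_lit 35290744117) (nat_lit 76) (nat_lit 4206298283) (nat_lit 19) (nat_lit 4) (nat_lit 20) (nat_lit 5) (nat_lit 20) (nat_lit 4) (nat_lit 435) (nat_lit 296) (nat_lit 169))) (XT.nd (nat_lit 78) (nat_lit 0) (nat_lit 0) (XT.lf (nat_lit 0) (nat_lit 3847468512) (nat_lit 152) (nat_lit 23295801454) (nat_lit 76) (nat_lit 33133232441) (nat_lit 18) (nat_lit 5) (nat_lit 20) (nat_lit 5) (nat_lit 19) (nat_lit 4) (nat_lit 436) (nat_lit 296) (nat_lit 168)) (XT.lf (nat_lit 0) (nat_lit 12046697199) (nat_lit 152) (nat_lit 6672451395) (nat_lit 76) (nat_lit 43094660957) (nat_lit 18) (nat_lit 5) (nat_lit 20) (nat_lit 5) (nat_lit 19) (nat_lit 4) (nat_lit 437) (nat_lit 296) (nat_lit 167)))))) (XT.nd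 (nat_lit 546) (nat_lit 76) (nat_lit 0) (XT.nd (nat_lit 234) (nat_lit 152) (nat_lit 0) (XT.nd (nat_lit 78) (nat_lit 0) (nat_lit 0) (XT.lf (nat_lit 0) (nat_lit 10635503527) (nat_lit 76) (nat_lit 9947363621) (nat_lit 152) (nat_lit 42811640657) (nat_lit 17) (nat_lit 5) (nat_lit 18) (nat_lit 5) (nat_lit 19) (nat_lit 4) (nat_lit 438) (nat_lit 296) (nat_lit 166)) (XT.nd (nat_lit 78) (nat_lit 0) (nat_lit 0) (XT.lf (nat_lit 0) (nat_lit 28578055275) (nat_lit 76) (nat_lit 853297393) (nat_lit 152) (nat_lit 35589588225) (nat_lit 17) (nat_lit 5) (nat_lit 18) (nat_lit 5) (nat_lit 19) (nat_lit 4) (nat_lit 439) (nat_lit 296) (nat_lit 165)) (XT.lf (nat_lit 0) (nat_lit 38616211230) (nat_lit 152) (nat_lit 19740147494) (nat_lit 0) (nat_lit 8337681474) (nat_lit 17) (nat_lit 5) (nat_lit 19) (nat_lit 4) (nat_lit 17) (nat_lit 4) (nat_lit 440) (nat_lit 296) (nat_lit 164)))) (XT.nd (nat_lit 156) (nat_lit 76) (nat_lit 0) (XT.nd (nat_lit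 78) (nat_lit 76) (nat_lit 0) (XT.lf (nat_lit 0) (nat_lit 48074462712) (nat_lit 152) (nat_lit 2565189551) (nat_lit 0) (nat_lit 17777745560) (nat_lit 17) (nat_lit 5) (nat_lit 19) (nat_lit 4) (nat_lit 17) (nat_lit 4) (nat_lit 441) (nat_lit 296) (nat_lit 163)) (XT.lf (nat_lit 0) (nat_lit 15405820926) (nat_lit 76) (nat_lit 42548438437) (nat_lit 76) (nat_lit 12234063620) (nat_lit 16) (nat_lit 4) (nat_lit 17) (nat_lit 5) (nat_lit 17) (nat_lit 4) (nat_lit 442) (nat_lit 296) (nat_lit 162))) (XT.nd (nat_lit 78) (nat_lit 76) (nat_lit 0) (XT.lf (nat_lit 0) (nat_lit 33948920637) (nat_lit 76) (nat_lit 34197251247) (nat_lit 76) (nat_lit 3865733066) (nat_lit 16) (nat_lit 4) (nat_lit 17) (nat_lit 5) (nat_lit 17) (nat_lit 4) (nat_lit 443) (nat_lit 296) (nat_lit 161)) (XT.lf (nat_lit 0) (nat_lit 4650903204) (nat_lit 152) (nat_lit 20906828718) (nat_lit 76) (nat_lit 48331391781) (nat_lit 15) (nat_lit 5) (nat_lit 17) (nat_lit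 5) (nat_lit 16) (nat_lit 4) (nat_lit 444) (nat_lit 296) (nat_lit 160))))) (XT.nd (nat_lit 36036) (nat_lit 0) (nat_lit 26752) (XT.nd (nat_lit 78) (nat_lit 76) (nat_lit 0) (XT.lf (nat_lit 0) (nat_lit 13335648519) (nat_lit 152) (nat_lit 3292954994) (nat_lit 76) (nat_lit 59193198698) (nat_lit 15) (nat_lit 5) (nat_lit 17) (nat_lit 5) (nat_lit 16) (nat_lit 4) (nat_lit 445) (nat_lit 296) (nat_lit 159)) (XT.nd (nat_lit 78) (nat_lit 0) (nat_lit 0) (XT.lf (nat_lit 0) (nat_lit 15126357124) (nat_lit 76) (nat_lit 7290572540) (nat_lit 152) (nat_lit 55391452239) (nat_lit 14) (nat_lit 5) (nat_lit 15) (nat_lit 5) (nat_lit 16) (nat_lit 4) (nat_lit 446) (nat_lit 296) (nat_lit 158)) (XT.lf (nat_lit 0) (nat_lit 31817212947) (nat_lit 152) (nat_lit 45728680245) (nat_lit 0) (nat_lit 2307269498) (nat_lit 14) (nat_lit 5) (nat_lit 16) (nat_lit 4) (nat_lit 14) (nat_lit 4) (nat_lit 447) (nat_lit 296) (nat_lit 157)))) (XT.nd (nat_lit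 156) (nat_lit 304) (nat_lit 0) (XT.nd (nat_lit 78) (nat_lit 76) (nat_lit 0) (XT.lf (nat_lit 0) (nat_lit 288302701) (nat_lit 228) (nat_lit 1476059555) (nat_lit 228) (nat_lit 1476059555) (nat_lit 371) (nat_lit 4) (nat_lit 374) (nat_lit 5) (nat_lit 374) (nat_lit 4) (nat_lit 306) (nat_lit 297) (nat_lit 297)) (XT.lf (nat_lit 0) (nat_lit 176048886) (nat_lit 304) (nat_lit 2329582454) (nat_lit 76) (nat_lit 3989735375) (nat_lit 370) (nat_lit 5) (nat_lit 374) (nat_lit 5) (nat_lit 371) (nat_lit 4) (nat_lit 307) (nat_lit 297) (nat_lit 296))) (XT.nd (nat_lit 78) (nat_lit 0) (nat_lit 0) (XT.lf (nat_lit 0) (nat_lit 1276580534) (nat_lit 304) (nat_lit 1960977546) (nat_lit 380) (nat_lit 3275030902) (nat_lit 366) (nat_lit 5) (nat_lit 370) (nat_lit 5) (nat_lit 371) (nat_lit 4) (nat_lit 308) (nat_lit 297) (nat_lit 295)) (XT.lf (nat_lit 0) (nat_lit 4967968474) (nat_lit 304) (nat_lit 1335652188) (nat_lit 380) (nat_lit 229428218)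 (nat_lit 366) (nat_lit 5) (nat_lit 370) (nat_lit 5) (nat_lit 371) (nat_lit 4) (nat_lit 309) (nat_lit 297) (nat_lit 294))))))))
noncomputable def xc96 : XT := (XT.nd (nat_lit 2028) (nat_lit 6840) (nat_lit 0) (XT.nd (nat_lit 1014) (nat_lit 7676) (nat_lit 0) (XT.nd (nat_lit 468) (nat_lit 3420) (nat_lit 0) (XT.nd (nat_lit 234) (nat_lit 1216) (nat_lit 0) (XT.nd (nat_lit 78) (nat_lit 532) (nat_lit 0) (XT.lf (nat_lit 0) (nat_lit 2159245905) (nat_lit 380) (nat_lit 603565029) (nat_lit 456) (nat_lit 3793209360) (nat_lit 360) (nat_lit 5) (nat_lit 365) (nat_lit 5) (nat_lit 366) (nat_lit 5) (nat_lit 310) (nat_lit 297) (nat_lit 293)) (XT.nd (nat_lit 78) (nat_lit 532) (nat_lit 0) (XT.lf (nat_lit 0) (nat_lit 5751701211) (nat_lit 456) (nat_lit 629544325) (nat_lit 76) (nat_lit 201115845) (nat_lit 360) (nat_lit 5) (nat_lit 366) (nat_lit 5) (nat_lit 361) (nat_lit 4) (nat_lit 311) (nat_lit 297) (nat_lit 292)) (XT.lf (nat_lit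 0) (nat_lit 2110947202) (nat_lit 532) (nat_lit 3396071822) (nat_lit 76) (nat_lit 1103915916) (nat_lit 353) (nat_lit 5) (nat_lit 360) (nat_lit 5) (nat_lit 354) (nat_lit 5) (nat_lit 312) (nat_lit 297) (nat_lit 291)))) (XT.nd (nat_lit 78) (nat_lit 684) (nat_lit 0) (XT.lf (nat_lit 0) (nat_lit 475217358) (nat_lit 532) (nat_lit 4558281842) (nat_lit 608) (nat_lit 1609423617) (nat_lit 346) (nat_lit 5) (nat_lit 353) (nat_lit 5) (nat_lit 354) (nat_lit 5) (nat_lit 313) (nat_lit 297) (nat_lit 290)) (XT.nd (nat_lit 78) (nat_lit 608) (nat_lit 0) (XT.lf (nat_lit 0) (nat_lit 1275400806) (nat_lit 608) (nat_lit 2230531887) (nat_lit 76) (nat_lit 3171596805) (nat_lit 345) (nat_lit 5) (nat_lit 353) (nat_lit 5) (nat_lit 346) (nat_lit 5) (nat_lit 314) (nat_lit 297) (nat_lit 289)) (XT.lf (nat_lit 0) (nat_lit 1771087645) (nat_lit 608) (nat_lit 2362885486) (nat_lit 684) (nat_lit 2581215006) (nat_lit 337) (nat_lit 5) (nat_lit 345)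 (nat_lit 5) (nat_lit 346) (nat_lit 5) (nat_lit 315) (nat_lit 297) (nat_lit 288))))) (XT.nd (nat_lit 234) (nat_lit 1900) (nat_lit 0) (XT.nd (nat_lit 78) (nat_lit 1444) (nat_lit 0) (XT.lf (nat_lit 0) (nat_lit 244403096) (nat_lit 684) (nat_lit 891739070) (nat_lit 76) (nat_lit 5620022503) (nat_lit 336) (nat_lit 5) (nat_lit 345) (nat_lit 5) (nat_lit 337) (nat_lit 5) (nat_lit 316) (nat_lit 297) (nat_lit 287)) (XT.nd (nat_lit 78) (nat_lit 760) (nat_lit 0) (XT.lf (nat_lit 0) (nat_lit 3042601522) (nat_lit 760) (nat_lit 3552949765) (nat_lit 76) (nat_lit 203933452) (nat_lit 327) (nat_lit 5) (nat_lit 337) (nat_lit 5) (nat_lit 328) (nat_lit 5) (nat_lit 317) (nat_lit 297) (nat_lit 286)) (XT.lf (nat_lit 0) (nat_lit 610224746) (nat_lit 760) (nat_lit 5249438655) (nat_lit 836) (nat_lit 986463083) (nat_lit 317) (nat_lit 5) (nat_lit 327) (nat_lit 5) (nat_lit 328) (nat_lit 5) (nat_lit 318) (nat_lit 297) (nat_lit 285)))) (XT.nd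 (nat_lit 156) (nat_lit 988) (nat_lit 0) (XT.nd (nat_lit 78) (nat_lit 836) (nat_lit 0) (XT.lf (nat_lit 0) (nat_lit 1776584456) (nat_lit 836) (nat_lit 2015154344) (nat_lit 76) (nat_lit 3103577420) (nat_lit 316) (nat_lit 5) (nat_lit 327) (nat_lit 5) (nat_lit 317) (nat_lit 5) (nat_lit 319) (nat_lit 297) (nat_lit 284)) (XT.lf (nat_lit 0) (nat_lit 2294516940) (nat_lit 836) (nat_lit 2242580513) (nat_lit 912) (nat_lit 2410622850) (nat_lit 305) (nat_lit 5) (nat_lit 316) (nat_lit 5) (nat_lit 317) (nat_lit 5) (nat_lit 320) (nat_lit 297) (nat_lit 283))) (XT.nd (nat_lit 78) (nat_lit 912) (nat_lit 0) (XT.lf (nat_lit 0) (nat_lit 305185152) (nat_lit 912) (nat_lit 303919720) (nat_lit 76) (nat_lit 6394527069) (nat_lit 304) (nat_lit 5) (nat_lit 316) (nat_lit 5) (nat_lit 305) (nat_lit 5) (nat_lit 321) (nat_lit 297) (nat_lit 282)) (XT.lf (nat_lit 0) (nat_lit 3020911580) (nat_lit 988) (nat_lit 2911407455) (nat_lit 76) (nat_lit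 1129237296) (nat_lit 292) (nat_lit 5) (nat_lit 305) (nat_lit 5) (nat_lit 293) (nat_lit 5) (nat_lit 322) (nat_lit 297) (nat_lit 281)))))) (XT.nd (nat_lit 468) (nat_lit 3116) (nat_lit 0) (XT.nd (nat_lit 234) (nat_lit 2432) (nat_lit 0) (XT.nd (nat_lit 78) (nat_lit 1140) (nat_lit 0) (XT.lf (nat_lit 0) (nat_lit 1574030316) (nat_lit 988) (nat_lit 4186041513) (nat_lit 1064) (nat_lit 1362944353) (nat_lit 279) (nat_lit 5) (nat_lit 292) (nat_lit 5) (nat_lit 293) (nat_lit 5) (nat_lit 323) (nat_lit 297) (nat_lit 280)) (XT.nd (nat_lit 78) (nat_lit 1064) (nat_lit 0) (XT.lf (nat_lit 0) (nat_lit 1316100744) (nat_lit 1064) (nat_lit 1019947088) (nat_lit 76) (nat_lit 4851475919) (nat_lit 278) (nat_lit 5) (nat_lit 292) (nat_lit 5) (nat_lit 279) (nat_lit 5) (nat_lit 324) (nat_lit 297) (nat_lit 279)) (XT.lf (nat_lit 0) (nat_lit 3629952333) (nat_lit 1064) (nat_lit 373983059) (nat_lit 1140) (nat_lit 3251003746) (nat_lit 264) (nat_lit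 5) (nat_lit 278) (nat_lit 5) (nat_lit 279) (nat_lit 5) (nat_lit 325) (nat_lit 297) (nat_lit 278)))) (XT.nd (nat_lit 78) (nat_lit 1292) (nat_lit 0) (XT.lf (nat_lit 0) (nat_lit 1046607891) (nat_lit 1140) (nat_lit 5684680101) (nat_lit 1216) (nat_lit 594372788) (nat_lit 249) (nat_lit 5) (nat_lit 264) (nat_lit 5) (nat_lit 265) (nat_lit 5) (nat_lit 326) (nat_lit 297) (nat_lit 277)) (XT.nd (nat_lit 78) (nat_lit 1216) (nat_lit 0) (XT.lf (nat_lit 0) (nat_lit 2064170380) (nat_lit 1216) (nat_lit 1564319179) (nat_lit 76) (nat_lit 3770523893) (nat_lit 248) (nat_lit 5) (nat_lit 264) (nat_lit 5) (nat_lit 249) (nat_lit 5) (nat_lit 327) (nat_lit 297) (nat_lit 276)) (XT.lf (nat_lit 0) (nat_lit 3277186089) (nat_lit 1216) (nat_lit 1470412674) (nat_lit 1292) (nat_lit 2728125153) (nat_lit 232) (nat_lit 5) (nat_lit 248) (nat_lit 5) (nat_lit 249) (nat_lit 5) (nat_lit 328) (nat_lit 297) (nat_lit 275))))) (XT.nd (nat_lit 234) (nat_lit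 1824) (nat_lit 0) (XT.nd (nat_lit 78) (nat_lit 684) (nat_lit 0) (XT.lf (nat_lit 0) (nat_lit 673225444) (nat_lit 608) (nat_lit 6795018854) (nat_lit 684) (nat_lit 87834638) (nat_lit 224) (nat_lit 5) (nat_lit 232) (nat_lit 5) (nat_lit 233) (nat_lit 5) (nat_lit 329) (nat_lit 297) (nat_lit 274)) (XT.nd (nat_lit 78) (nat_lit 608) (nat_lit 0) (XT.lf (nat_lit 0) (nat_lit 2565410922) (nat_lit 684) (nat_lit 1975657457) (nat_lit 76) (nat_lit 3097506434) (nat_lit 223) (nat_lit 5) (nat_lit 232) (nat_lit 5) (nat_lit 224) (nat_lit 5) (nat_lit 330) (nat_lit 297) (nat_lit 273)) (XT.lf (nat_lit 0) (nat_lit 3064859411) (nat_lit 608) (nat_lit 2190919743) (nat_lit 684) (nat_lit 2469002483) (nat_lit 215) (nat_lit 5) (nat_lit 223) (nat_lit 5) (nat_lit 224) (nat_lit 5) (nat_lit 331) (nat_lit 297) (nat_lit 272)))) (XT.nd (nat_lit 156) (nat_lit 1140) (nat_lit 0) (XT.nd (nat_lit 78) (nat_lit 0) (nat_lit 0) (XT.lf (nat_lit 0) (nat_lit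 166161785) (nat_lit 684) (nat_lit 7400889585) (nat_lit 76) (nat_lit 247789126) (nat_lit 206) (nat_lit 5) (nat_lit 215) (nat_lit 5) (nat_lit 207) (nat_lit 5) (nat_lit 332) (nat_lit 297) (nat_lit 271)) (XT.lf (nat_lit 0) (nat_lit 2831711583) (nat_lit 684) (nat_lit 2292088049) (nat_lit 76) (nat_lit 2783076881) (nat_lit 206) (nat_lit 5) (nat_lit 215) (nat_lit 5) (nat_lit 207) (nat_lit 5) (nat_lit 333) (nat_lit 297) (nat_lit 270))) (XT.nd (nat_lit 78) (nat_lit 608) (nat_lit 0) (XT.lf (nat_lit 0) (nat_lit 2954960874) (nat_lit 532) (nat_lit 2584400876) (nat_lit 608) (nat_lit 2463484168) (nat_lit 199) (nat_lit 5) (nat_lit 206) (nat_lit 5) (nat_lit 207) (nat_lit 5) (nat_lit 334) (nat_lit 297) (nat_lit 269)) (XT.lf (nat_lit 0) (nat_lit 182543853) (nat_lit 608) (nat_lit 7869104665) (nat_lit 76) (nat_lit 51202266) (nat_lit 191) (nat_lit 5) (nat_lit 199) (nat_lit 5) (nat_lit 192) (nat_lit 5) (nat_lit 335) (nat_lit 297)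 (nat_lit 268))))))) (XT.nd (nat_lit 1014) (nat_lit 3040) (nat_lit 0) (XT.nd (nat_lit 468) (nat_lit 2280) (nat_lit 0) (XT.nd (nat_lit 234) (nat_lit 532) (nat_lit 0) (XT.nd (nat_lit 78) (nat_lit 988) (nat_lit 0) (XT.lf (nat_lit 0) (nat_lit 2870932977) (nat_lit 608) (nat_lit 2551987062) (nat_lit 76) (nat_lit 2781862455) (nat_lit 191) (nat_lit 5) (nat_lit 199) (nat_lit 5) (nat_lit 192) (nat_lit 5) (nat_lit 336) (nat_lit 297) (nat_lit 267)) (XT.nd (nat_lit 78) (nat_lit 532) (nat_lit 0) (XT.lf (nat_lit 0) (nat_lit 2909100772) (nat_lit 456) (nat_lit 2696145109) (nat_lit 532) (nat_lit 2705600382) (nat_lit 185) (nat_lit 5) (nat_lit 191) (nat_lit 5) (nat_lit 192) (nat_lit 5) (nat_lit 337) (nat_lit 297) (nat_lit 266)) (XT.lf (nat_lit 0) (nat_lit 94133808) (nat_lit 532) (nat_lit 8293814402) (nat_lit 608) (nat_lit 33184267) (nat_lit 178) (nat_lit 5) (nat_lit 185) (nat_lit 5) (nat_lit 186) (nat_lit 5) (nat_lit 338) (nat_lit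 297) (nat_lit 265)))) (XT.nd (nat_lit 78) (nat_lit 456) (nat_lit 0) (XT.lf (nat_lit 0) (nat_lit 2686937549) (nat_lit 608) (nat_lit 2794756591) (nat_lit 76) (nat_lit 3051660497) (nat_lit 177) (nat_lit 5) (nat_lit 185) (nat_lit 5) (nat_lit 178) (nat_lit 5) (nat_lit 339) (nat_lit 297) (nat_lit 264)) (XT.nd (nat_lit 78) (nat_lit 0) (nat_lit 0) (XT.lf (nat_lit 0) (nat_lit 2887716126) (nat_lit 456) (nat_lit 2568637424) (nat_lit 532) (nat_lit 3193558002) (nat_lit 171) (nat_lit 5) (nat_lit 177) (nat_lit 5) (nat_lit 178) (nat_lit 5) (nat_lit 340) (nat_lit 297) (nat_lit 263)) (XT.lf (nat_lit 0) (nat_lit 8283027879) (nat_lit 532) (nat_lit 48306660) (nat_lit 76) (nat_lit 439433200) (nat_lit 171) (nat_lit 5) (nat_lit 178) (nat_lit 5) (nat_lit 172) (nat_lit 5) (nat_lit 341) (nat_lit 297) (nat_lit 262))))) (XT.nd (nat_lit 234) (nat_lit 1368) (nat_lit 0) (XT.nd (nat_lit 78) (nat_lit 380) (nat_lit 0) (XT.lf (nat_lit 0)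 (nat_lit 2279549911) (nat_lit 532) (nat_lit 3061646402) (nat_lit 76) (nat_lit 3552661571) (nat_lit 164) (nat_lit 5) (nat_lit 171) (nat_lit 5) (nat_lit 165) (nat_lit 5) (nat_lit 342) (nat_lit 297) (nat_lit 261)) (XT.nd (nat_lit 78) (nat_lit 0) (nat_lit 0) (XT.lf (nat_lit 0) (nat_lit 2849225897) (nat_lit 380) (nat_lit 2242341271) (nat_lit 456) (nat_lit 3929808811) (nat_lit 159) (nat_lit 5) (nat_lit 164) (nat_lit 5) (nat_lit 165) (nat_lit 5) (nat_lit 343) (nat_lit 297) (nat_lit 260)) (XT.lf (nat_lit 0) (nat_lit 7972747271) (nat_lit 456) (nat_lit 232934825) (nat_lit 76) (nat_lit 947518185) (nat_lit 159) (nat_lit 5) (nat_lit 165) (nat_lit 5) (nat_lit 160) (nat_lit 5) (nat_lit 344) (nat_lit 297) (nat_lit 259)))) (XT.nd (nat_lit 156) (nat_lit 456) (nat_lit 0) (XT.nd (nat_lit 78) (nat_lit 380) (nat_lit 0) (XT.lf (nat_lit 0) (nat_lit 1644444278) (nat_lit 532) (nat_lit 3396637530) (nat_lit 76) (nat_lit 4246686038)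 (nat_lit 152) (nat_lit 5) (nat_lit 159) (nat_lit 5) (nat_lit 153) (nat_lit 5) (nat_lit 345) (nat_lit 297) (nat_lit 258)) (XT.lf (nat_lit 0) (nat_lit 2749119557) (nat_lit 380) (nat_lit 1756473722) (nat_lit 456) (nat_lit 4921194244) (nat_lit 147) (nat_lit 5) (nat_lit 152) (nat_lit 5) (nat_lit 153) (nat_lit 5) (nat_lit 346) (nat_lit 297) (nat_lit 257))) (XT.nd (nat_lit 78) (nat_lit 456) (nat_lit 0) (XT.lf (nat_lit 0) (nat_lit 7450011557) (nat_lit 456) (nat_lit 507005280) (nat_lit 76) (nat_lit 1613059883) (nat_lit 147) (nat_lit 5) (nat_lit 153) (nat_lit 5) (nat_lit 148) (nat_lit 5) (nat_lit 347) (nat_lit 297) (nat_lit 256)) (XT.lf (nat_lit 0) (nat_lit 772954856) (nat_lit 456) (nat_lit 3847405650) (nat_lit 76) (nat_lit 5096420558) (nat_lit 141) (nat_lit 5) (nat_lit 147) (nat_lit 5) (nat_lit 142) (nat_lit 5) (nat_lit 348) (nat_lit 297) (nat_lit 255)))))) (XT.nd (nat_lit 546) (nat_lit 1292) (nat_lit 0) (XT.nd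 (nat_lit 234) (nat_lit 1064) (nat_lit 0) (XT.nd (nat_lit 78) (nat_lit 380) (nat_lit 0) (XT.lf (nat_lit 0) (nat_lit 2538960469) (nat_lit 304) (nat_lit 1149787150) (nat_lit 380) (nat_lit 6179171509) (nat_lit 137) (nat_lit 5) (nat_lit 141) (nat_lit 5) (nat_lit 142) (nat_lit 5) (nat_lit 349) (nat_lit 297) (nat_lit 254)) (XT.nd (nat_lit 78) (nat_lit 380) (nat_lit 0) (XT.lf (nat_lit 0) (nat_lit 6704225392) (nat_lit 380) (nat_lit 920252874) (nat_lit 76) (nat_lit 2398766254) (nat_lit 137) (nat_lit 5) (nat_lit 142) (nat_lit 5) (nat_lit 138) (nat_lit 5) (nat_lit 350) (nat_lit 297) (nat_lit 253)) (XT.lf (nat_lit 0) (nat_lit 5712927936) (nat_lit 380) (nat_lit 4114671454) (nat_lit 456) (nat_lit 355126285) (nat_lit 132) (nat_lit 5) (nat_lit 137) (nat_lit 5) (nat_lit 138) (nat_lit 5) (nat_lit 351) (nat_lit 297) (nat_lit 252)))) (XT.nd (nat_lit 156) (nat_lit 684) (nat_lit 0) (XT.nd (nat_lit 78) (nat_lit 0) (nat_lit 0)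 (XT.lf (nat_lit 0) (nat_lit 2165283440) (nat_lit 304) (nat_lit 461371902) (nat_lit 380) (nat_lit 7720127433) (nat_lit 127) (nat_lit 5) (nat_lit 131) (nat_lit 5) (nat_lit 132) (nat_lit 5) (nat_lit 352) (nat_lit 297) (nat_lit 251)) (XT.lf (nat_lit 0) (nat_lit 5720063288) (nat_lit 380) (nat_lit 1527858273) (nat_lit 76) (nat_lit 3266872574) (nat_lit 127) (nat_lit 5) (nat_lit 132) (nat_lit 5) (nat_lit 128) (nat_lit 5) (nat_lit 353) (nat_lit 297) (nat_lit 250))) (XT.nd (nat_lit 78) (nat_lit 380) (nat_lit 0) (XT.lf (nat_lit 0) (nat_lit 5358598261) (nat_lit 304) (nat_lit 3557142866) (nat_lit 380) (nat_lit 1771837523) (nat_lit 123) (nat_lit 5) (nat_lit 127) (nat_lit 5) (nat_lit 128) (nat_lit 5) (nat_lit 354) (nat_lit 297) (nat_lit 249)) (XT.lf (nat_lit 0) (nat_lit 1302439557) (nat_lit 380) (nat_lit 9299864453) (nat_lit 76) (nat_lit 263265260) (nat_lit 118) (nat_lit 5) (nat_lit 123) (nat_lit 5) (nat_lit 119) (nat_lit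 5) (nat_lit 355) (nat_lit 297) (nat_lit 248))))) (XT.nd (nat_lit 234) (nat_lit 684) (nat_lit 0) (XT.nd (nat_lit 78) (nat_lit 608) (nat_lit 0) (XT.lf (nat_lit 0) (nat_lit 4477050175) (nat_lit 380) (nat_lit 2391713310) (nat_lit 76) (nat_lit 4178313727) (nat_lit 118) (nat_lit 5) (nat_lit 123) (nat_lit 5) (nat_lit 119) (nat_lit 5) (nat_lit 356) (nat_lit 297) (nat_lit 247)) (XT.nd (nat_lit 78) (nat_lit 304) (nat_lit 0) (XT.lf (nat_lit 0) (nat_lit 4750753133) (nat_lit 304) (nat_lit 2997301593) (nat_lit 380) (nat_lit 3485955963) (nat_lit 114) (nat_lit 5) (nat_lit 118) (nat_lit 5) (nat_lit 119) (nat_lit 5) (nat_lit 357) (nat_lit 297) (nat_lit 246)) (XT.lf (nat_lit 0) (nat_lit 667850880) (nat_lit 304) (nat_lit 10445625360) (nat_lit 380) (nat_lit 313201854) (nat_lit 110) (nat_lit 5) (nat_lit 114) (nat_lit 5) (nat_lit 115) (nat_lit 5) (nat_lit 358) (nat_lit 297) (nat_lit 245)))) (XT.nd (nat_lit 156) (nat_lit 304)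 (nat_lit 0) (XT.nd (nat_lit 78) (nat_lit 304) (nat_lit 0) (XT.lf (nat_lit 0) (nat_lit 2949036945) (nat_lit 380) (nat_lit 3581849998) (nat_lit 76) (nat_lit 5091841404) (nat_lit 109) (nat_lit 5) (nat_lit 114) (nat_lit 5) (nat_lit 110) (nat_lit 5) (nat_lit 359) (nat_lit 297) (nat_lit 244)) (XT.lf (nat_lit 0) (nat_lit 3817405157) (nat_lit 304) (nat_lit 2479581573) (nat_lit 380) (nat_lit 5527769477) (nat_lit 105) (nat_lit 5) (nat_lit 109) (nat_lit 5) (nat_lit 110) (nat_lit 5) (nat_lit 360) (nat_lit 297) (nat_lit 243))) (XT.nd (nat_lit 78) (nat_lit 304) (nat_lit 0) (XT.lf (nat_lit 0) (nat_lit 9756039285) (nat_lit 380) (nat_lit 601183013) (nat_lit 76) (nat_lit 1675315585) (nat_lit 105) (nat_lit 5) (nat_lit 110) (nat_lit 5) (nat_lit 106) (nat_lit 5) (nat_lit 361) (nat_lit 297) (nat_lit 242)) (XT.lf (nat_lit 0) (nat_lit 1103558474) (nat_lit 304) (nat_lit 5178063920) (nat_lit 76) (nat_lit 5963068370) (nat_lit 101)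 (nat_lit 5) (nat_lit 105) (nat_lit 5) (nat_lit 102) (nat_lit 5) (nat_lit 362) (nat_lit 297) (nat_lit 241))))))))
noncomputable def xc97 : XT := (XT.nd (nat_lit 2106) (nat_lit 1824) (nat_lit 0) (XT.nd (nat_lit 1014) (nat_lit 1672) (nat_lit 0) (XT.nd (nat_lit 468) (nat_lit 912) (nat_lit 0) (XT.nd (nat_lit 234) (nat_lit 532) (nat_lit 0) (XT.nd (nat_lit 78) (nat_lit 228) (nat_lit 0) (XT.lf (nat_lit 0) (nat_lit 2476323743) (nat_lit 304) (nat_lit 2052141363) (nat_lit 380) (nat_lit 7934402655) (nat_lit 97) (nat_lit 5) (nat_lit 101) (nat_lit 5) (nat_lit 102) (nat_lit 5) (nat_lit 363) (nat_lit 297) (nat_lit 240)) (XT.nd (nat_lit 78) (nat_lit 228) (nat_lit 0) (XT.lf (nat_lit 0) (nat_lit 8090712722) (nat_lit 380) (nat_lit 2305748815) (nat_lit 76) (nat_lit 2290102186) (nat_lit 97) (nat_lit 5) (nat_lit 102) (nat_lit 5) (nat_lit 98) (nat_lit 5) (nat_lit 364) (nat_lit 297) (nat_lit 239)) (XT.lf (nat_lit 0) (nat_lit 5633382162)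 (nat_lit 228) (nat_lit 6161729113) (nat_lit 304) (nat_lit 1120811920) (nat_lit 94) (nat_lit 5) (nat_lit 97) (nat_lit 5) (nat_lit 98) (nat_lit 5) (nat_lit 365) (nat_lit 297) (nat_lit 238)))) (XT.nd (nat_lit 78) (nat_lit 228) (nat_lit 0) (XT.lf (nat_lit 0) (nat_lit 633099106) (nat_lit 228) (nat_lit 1767980021) (nat_lit 304) (nat_lit 10750668610) (nat_lit 90) (nat_lit 5) (nat_lit 93) (nat_lit 5) (nat_lit 94) (nat_lit 5) (nat_lit 366) (nat_lit 297) (nat_lit 237)) (XT.nd (nat_lit 78) (nat_lit 228) (nat_lit 0) (XT.lf (nat_lit 0) (nat_lit 6068178048) (nat_lit 304) (nat_lit 4557498709) (nat_lit 76) (nat_lit 2766785184) (nat_lit 90) (nat_lit 5) (nat_lit 94) (nat_lit 5) (nat_lit 91) (nat_lit 5) (nat_lit 367) (nat_lit 297) (nat_lit 236)) (XT.lf (nat_lit 0) (nat_lit 3635516718) (nat_lit 228) (nat_lit 6224655162) (nat_lit 304) (nat_lit 3779789126) (nat_lit 87) (nat_lit 5) (nat_lit 90) (nat_lit 5) (nat_lit 91) (nat_lit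 5) (nat_lit 368) (nat_lit 297) (nat_lit 235))))) (XT.nd (nat_lit 234) (nat_lit 456) (nat_lit 0) (XT.nd (nat_lit 78) (nat_lit 456) (nat_lit 0) (XT.lf (nat_lit 0) (nat_lit 12107932815) (nat_lit 228) (nat_lit 1666964185) (nat_lit 304) (nat_lit 119728503) (nat_lit 87) (nat_lit 5) (nat_lit 90) (nat_lit 5) (nat_lit 91) (nat_lit 5) (nat_lit 369) (nat_lit 297) (nat_lit 234)) (XT.nd (nat_lit 78) (nat_lit 152) (nat_lit 0) (XT.lf (nat_lit 0) (nat_lit 3636988541) (nat_lit 304) (nat_lit 7470183789) (nat_lit 76) (nat_lit 3046971585) (nat_lit 83) (nat_lit 5) (nat_lit 87) (nat_lit 5) (nat_lit 84) (nat_lit 5) (nat_lit 370) (nat_lit 297) (nat_lit 233)) (XT.lf (nat_lit 0) (nat_lit 966343231) (nat_lit 152) (nat_lit 6545618762) (nat_lit 228) (nat_lit 6909220273) (nat_lit 81) (nat_lit 5) (nat_lit 83) (nat_lit 5) (nat_lit 84) (nat_lit 5) (nat_lit 371) (nat_lit 297) (nat_lit 232)))) (XT.nd (nat_lit 156) (nat_lit 152) (nat_lit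 0) (XT.nd (nat_lit 78) (nat_lit 304) (nat_lit 0) (XT.lf (nat_lit 0) (nat_lit 9750580578) (nat_lit 152) (nat_lit 1792472785) (nat_lit 228) (nat_lit 3151990877) (nat_lit 81) (nat_lit 5) (nat_lit 83) (nat_lit 5) (nat_lit 84) (nat_lit 5) (nat_lit 372) (nat_lit 297) (nat_lit 231)) (XT.lf (nat_lit 0) (nat_lit 735943257) (nat_lit 304) (nat_lit 11175335845) (nat_lit 76) (nat_lit 3064684040) (nat_lit 77) (nat_lit 5) (nat_lit 81) (nat_lit 5) (nat_lit 78) (nat_lit 5) (nat_lit 373) (nat_lit 297) (nat_lit 230))) (XT.nd (nat_lit 78) (nat_lit 152) (nat_lit 0) (XT.lf (nat_lit 0) (nat_lit 4710706703) (nat_lit 304) (nat_lit 2461607898) (nat_lit 76) (nat_lit 8091060289) (nat_lit 77) (nat_lit 5) (nat_lit 81) (nat_lit 5) (nat_lit 78) (nat_lit 5) (nat_lit 374) (nat_lit 297) (nat_lit 229)) (XT.lf (nat_lit 0) (nat_lit 6585955981) (nat_lit 152) (nat_lit 2248446077) (nat_lit 228) (nat_lit 6724123847) (nat_lit 75) (nat_lit 5) (nat_lit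 77) (nat_lit 5) (nat_lit 78) (nat_lit 5) (nat_lit 375) (nat_lit 297) (nat_lit 228)))))) (XT.nd (nat_lit 546) (nat_lit 760) (nat_lit 0) (XT.nd (nat_lit 234) (nat_lit 456) (nat_lit 0) (XT.nd (nat_lit 78) (nat_lit 228) (nat_lit 0) (XT.lf (nat_lit 0) (nat_lit 10105673) (nat_lit 228) (nat_lit 13090652057) (nat_lit 304) (nat_lit 2761212597) (nat_lit 72) (nat_lit 5) (nat_lit 75) (nat_lit 5) (nat_lit 76) (nat_lit 5) (nat_lit 376) (nat_lit 297) (nat_lit 227)) (XT.nd (nat_lit 78) (nat_lit 152) (nat_lit 0) (XT.lf (nat_lit 0) (nat_lit 1375295002) (nat_lit 304) (nat_lit 6817909122) (nat_lit 76) (nat_lit 7978525715) (nat_lit 71) (nat_lit 5) (nat_lit 75) (nat_lit 5) (nat_lit 72) (nat_lit 5) (nat_lit 377) (nat_lit 297) (nat_lit 226)) (XT.lf (nat_lit 0) (nat_lit 2452786687) (nat_lit 152) (nat_lit 3118874796) (nat_lit 228) (nat_lit 10918569392) (nat_lit 69) (nat_lit 5) (nat_lit 71) (nat_lit 5) (nat_lit 72) (nat_lit 5) (nat_lit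 378) (nat_lit 297) (nat_lit 225)))) (XT.nd (nat_lit 156) (nat_lit 228) (nat_lit 0) (XT.nd (nat_lit 78) (nat_lit 228) (nat_lit 0) (XT.lf (nat_lit 0) (nat_lit 9951596695) (nat_lit 228) (nat_lit 4750813200) (nat_lit 76) (nat_lit 2114153253) (nat_lit 69) (nat_lit 5) (nat_lit 72) (nat_lit 5) (nat_lit 70) (nat_lit 5) (nat_lit 379) (nat_lit 297) (nat_lit 224)) (XT.lf (nat_lit 0) (nat_lit 4824264377) (nat_lit 228) (nat_lit 9684742823) (nat_lit 304) (nat_lit 2642302224) (nat_lit 66) (nat_lit 5) (nat_lit 69) (nat_lit 5) (nat_lit 70) (nat_lit 5) (nat_lit 380) (nat_lit 297) (nat_lit 223))) (XT.nd (nat_lit 78) (nat_lit 152) (nat_lit 0) (XT.lf (nat_lit 0) (nat_lit 1691092690) (nat_lit 304) (nat_lit 2781073911) (nat_lit 76) (nat_lit 13022924359) (nat_lit 65) (nat_lit 5) (nat_lit 69) (nat_lit 5) (nat_lit 66) (nat_lit 5) (nat_lit 381) (nat_lit 297) (nat_lit 222)) (XT.lf (nat_lit 0) (nat_lit 6148911074) (nat_lit 228) (nat_lit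 10744667602) (nat_lit 76) (nat_lit 953402358) (nat_lit 63) (nat_lit 5) (nat_lit 66) (nat_lit 5) (nat_lit 64) (nat_lit 5) (nat_lit 382) (nat_lit 297) (nat_lit 221))))) (XT.nd (nat_lit 234) (nat_lit 380) (nat_lit 0) (XT.nd (nat_lit 78) (nat_lit 380) (nat_lit 0) (XT.lf (nat_lit 0) (nat_lit 10783098701) (nat_lit 228) (nat_lit 966066298) (nat_lit 76) (nat_lit 6458989411) (nat_lit 63) (nat_lit 5) (nat_lit 66) (nat_lit 5) (nat_lit 64) (nat_lit 5) (nat_lit 383) (nat_lit 297) (nat_lit 220)) (XT.nd (nat_lit 78) (nat_lit 228) (nat_lit 0) (XT.lf (nat_lit 0) (nat_lit 9235493559) (nat_lit 152) (nat_lit 6380463929) (nat_lit 228) (nat_lit 2962421612) (nat_lit 61) (nat_lit 5) (nat_lit 63) (nat_lit 5) (nat_lit 64) (nat_lit 5) (nat_lit 384) (nat_lit 297) (nat_lit 219)) (XT.lf (nat_lit 0) (nat_lit 751644169) (nat_lit 152) (nat_lit 838582558) (nat_lit 228) (nat_lit 17369377064) (nat_lit 58) (nat_lit 5) (nat_lit 60) (nat_lit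 5) (nat_lit 61) (nat_lit 5) (nat_lit 385) (nat_lit 297) (nat_lit 218)))) (XT.nd (nat_lit 156) (nat_lit 228) (nat_lit 0) (XT.nd (nat_lit 78) (nat_lit 152) (nat_lit 0) (XT.lf (nat_lit 0) (nat_lit 6333102671) (nat_lit 228) (nat_lit 8136845493) (nat_lit 76) (nat_lit 4878046446) (nat_lit 58) (nat_lit 5) (nat_lit 61) (nat_lit 5) (nat_lit 59) (nat_lit 5) (nat_lit 386) (nat_lit 297) (nat_lit 217)) (XT.lf (nat_lit 0) (nat_lit 2222075270) (nat_lit 152) (nat_lit 8997795879) (nat_lit 228) (nat_lit 8528122685) (nat_lit 56) (nat_lit 5) (nat_lit 58) (nat_lit 5) (nat_lit 59) (nat_lit 5) (nat_lit 387) (nat_lit 297) (nat_lit 216))) (XT.nd (nat_lit 78) (nat_lit 228) (nat_lit 0) (XT.lf (nat_lit 0) (nat_lit 13009660494) (nat_lit 152) (nat_lit 3298039004) (nat_lit 228) (nat_lit 3850664557) (nat_lit 56) (nat_lit 5) (nat_lit 58) (nat_lit 5) (nat_lit 59) (nat_lit 5) (nat_lit 388) (nat_lit 297) (nat_lit 215)) (XT.lf (nat_lit 0)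 (nat_lit 980174615) (nat_lit 228) (nat_lit 17053703358) (nat_lit 76) (nat_lit 2545935089) (nat_lit 53) (nat_lit 5) (nat_lit 56) (nat_lit 5) (nat_lit 54) (nat_lit 5) (nat_lit 389) (nat_lit 297) (nat_lit 214))))))) (XT.nd (nat_lit 1014) (nat_lit 912) (nat_lit 0) (XT.nd (nat_lit 468) (nat_lit 380) (nat_lit 0) (XT.nd (nat_lit 234) (nat_lit 380) (nat_lit 0) (XT.nd (nat_lit 78) (nat_lit 152) (nat_lit 0) (XT.lf (nat_lit 0) (nat_lit 5957063002) (nat_lit 228) (nat_lit 6463686174) (nat_lit 76) (nat_lit 8589661370) (nat_lit 53) (nat_lit 5) (nat_lit 56) (nat_lit 5) (nat_lit 54) (nat_lit 5) (nat_lit 390) (nat_lit 297) (nat_lit 213)) (XT.nd (nat_lit 78) (nat_lit 0) (nat_lit 0) (XT.lf (nat_lit 0) (nat_lit 4484787555) (nat_lit 152) (nat_lit 6615330630) (nat_lit 228) (nat_lit 10353306163) (nat_lit 51) (nat_lit 5) (nat_lit 53) (nat_lit 5) (nat_lit 54) (nat_lit 5) (nat_lit 391) (nat_lit 297) (nat_lit 212)) (XT.lf (nat_lit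 0) (nat_lit 15847914812) (nat_lit 152) (nat_lit 588889902) (nat_lit 228) (nat_lit 5471747736) (nat_lit 51) (nat_lit 5) (nat_lit 53) (nat_lit 5) (nat_lit 54) (nat_lit 5) (nat_lit 392) (nat_lit 297) (nat_lit 211)))) (XT.nd (nat_lit 78) (nat_lit 228) (nat_lit 0) (XT.lf (nat_lit 0) (nat_lit 5176077955) (nat_lit 152) (nat_lit 16835910776) (nat_lit 228) (nat_lit 362997713) (nat_lit 49) (nat_lit 5) (nat_lit 51) (nat_lit 5) (nat_lit 52) (nat_lit 4) (nat_lit 393) (nat_lit 297) (nat_lit 210)) (XT.nd (nat_lit 78) (nat_lit 152) (nat_lit 0) (XT.lf (nat_lit 0) (nat_lit 4845742424) (nat_lit 228) (nat_lit 6078555874) (nat_lit 76) (nat_lit 11928436370) (nat_lit 48) (nat_lit 5) (nat_lit 51) (nat_lit 5) (nat_lit 49) (nat_lit 5) (nat_lit 394) (nat_lit 297) (nat_lit 209)) (XT.lf (nat_lit 0) (nat_lit 5433588069) (nat_lit 152) (nat_lit 4797516962) (nat_lit 228) (nat_lit 13112776423) (nat_lit 46) (nat_lit 5) (nat_lit 48) (nat_lit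 5) (nat_lit 49) (nat_lit 5) (nat_lit 395) (nat_lit 297) (nat_lit 208))))) (XT.nd (nat_lit 234) (nat_lit 228) (nat_lit 0) (XT.nd (nat_lit 78) (nat_lit 152) (nat_lit 0) (XT.lf (nat_lit 0) (nat_lit 15830094186) (nat_lit 228) (nat_lit 6491737022) (nat_lit 76) (nat_lit 1526372981) (nat_lit 46) (nat_lit 5) (nat_lit 49) (nat_lit 5) (nat_lit 47) (nat_lit 4) (nat_lit 396) (nat_lit 297) (nat_lit 207)) (XT.nd (nat_lit 78) (nat_lit 76) (nat_lit 0) (XT.lf (nat_lit 0) (nat_lit 5281872057) (nat_lit 76) (nat_lit 16389698276) (nat_lit 152) (nat_lit 2693854167) (nat_lit 45) (nat_lit 5) (nat_lit 46) (nat_lit 5) (nat_lit 47) (nat_lit 4) (nat_lit 397) (nat_lit 297) (nat_lit 206)) (XT.lf (nat_lit 0) (nat_lit 2778177566) (nat_lit 152) (nat_lit 7425025585) (nat_lit 76) (nat_lit 14692882063) (nat_lit 44) (nat_lit 5) (nat_lit 46) (nat_lit 5) (nat_lit 45) (nat_lit 5) (nat_lit 398) (nat_lit 297) (nat_lit 205)))) (XT.nd (nat_lit 156)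 (nat_lit 76) (nat_lit 0) (XT.nd (nat_lit 78) (nat_lit 0) (nat_lit 0) (XT.lf (nat_lit 0) (nat_lit 4604568075) (nat_lit 152) (nat_lit 3776901694) (nat_lit 228) (nat_lit 17059761652) (nat_lit 42) (nat_lit 5) (nat_lit 44) (nat_lit 5) (nat_lit 45) (nat_lit 5) (nat_lit 399) (nat_lit 297) (nat_lit 204)) (XT.lf (nat_lit 0) (nat_lit 14232975597) (nat_lit 228) (nat_lit 8923254566) (nat_lit 76) (nat_lit 2844101436) (nat_lit 42) (nat_lit 5) (nat_lit 45) (nat_lit 5) (nat_lit 43) (nat_lit 4) (nat_lit 400) (nat_lit 297) (nat_lit 203))) (XT.nd (nat_lit 78) (nat_lit 0) (nat_lit 0) (XT.lf (nat_lit 0) (nat_lit 3334487551) (nat_lit 76) (nat_lit 16972728459) (nat_lit 152) (nat_lit 6267576036) (nat_lit 41) (nat_lit 5) (nat_lit 42) (nat_lit 5) (nat_lit 43) (nat_lit 4) (nat_lit 401) (nat_lit 297) (nat_lit 202)) (XT.lf (nat_lit 0) (nat_lit 16102537609) (nat_lit 76) (nat_lit 10529255128) (nat_lit 152) (nat_lit 532653154) (nat_lit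 41) (nat_lit 5) (nat_lit 42) (nat_lit 5) (nat_lit 43) (nat_lit 4) (nat_lit 402) (nat_lit 297) (nat_lit 201)))))) (XT.nd (nat_lit 546) (nat_lit 380) (nat_lit 0) (XT.nd (nat_lit 234) (nat_lit 304) (nat_lit 0) (XT.nd (nat_lit 78) (nat_lit 0) (nat_lit 0) (XT.lf (nat_lit 0) (nat_lit 1418254554) (nat_lit 152) (nat_lit 3843251972) (nat_lit 228) (nat_lit 22508973842) (nat_lit 38) (nat_lit 5) (nat_lit 40) (nat_lit 5) (nat_lit 41) (nat_lit 5) (nat_lit 403) (nat_lit 297) (nat_lit 200)) (XT.nd (nat_lit 78) (nat_lit 0) (nat_lit 0) (XT.lf (nat_lit 0) (nat_lit 11339356796) (nat_lit 228) (nat_lit 13967079663) (nat_lit 76) (nat_lit 3084486674) (nat_lit 38) (nat_lit 5) (nat_lit 41) (nat_lit 5) (nat_lit 39) (nat_lit 4) (nat_lit 404) (nat_lit 297) (nat_lit 199)) (XT.lf (nat_lit 0) (nat_lit 17616728241) (nat_lit 228) (nat_lit 1286956672) (nat_lit 76) (nat_lit 10125781238) (nat_lit 38) (nat_lit 5) (nat_lit 41) (nat_lit 5) (nat_lit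 39) (nat_lit 4) (nat_lit 405) (nat_lit 297) (nat_lit 198)))) (XT.nd (nat_lit 156) (nat_lit 152) (nat_lit 0) (XT.nd (nat_lit 78) (nat_lit 76) (nat_lit 0) (XT.lf (nat_lit 0) (nat_lit 11969739293) (nat_lit 76) (nat_lit 12207483419) (nat_lit 152) (nat_lit 5507101159) (nat_lit 37) (nat_lit 5) (nat_lit 38) (nat_lit 5) (nat_lit 39) (nat_lit 4) (nat_lit 406) (nat_lit 297) (nat_lit 197)) (XT.lf (nat_lit 0) (nat_lit 557369883) (nat_lit 152) (nat_lit 4751024243) (nat_lit 76) (nat_lit 25050482520) (nat_lit 36) (nat_lit 5) (nat_lit 38) (nat_lit 5) (nat_lit 37) (nat_lit 5) (nat_lit 407) (nat_lit 297) (nat_lit 196))) (XT.nd (nat_lit 78) (nat_lit 0) (nat_lit 0) (XT.lf (nat_lit 0) (nat_lit 6775374207) (nat_lit 228) (nat_lit 22388660994) (nat_lit 76) (nat_lit 1885528696) (nat_lit 34) (nat_lit 5) (nat_lit 37) (nat_lit 5) (nat_lit 35) (nat_lit 4) (nat_lit 408) (nat_lit 297) (nat_lit 195)) (XT.lf (nat_lit 0) (nat_lit 13261358490)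 (nat_lit 228) (nat_lit 9276406394) (nat_lit 76) (nat_lit 9220765875) (nat_lit 34) (nat_lit 5) (nat_lit 37) (nat_lit 5) (nat_lit 35) (nat_lit 4) (nat_lit 409) (nat_lit 297) (nat_lit 194))))) (XT.nd (nat_lit 234) (nat_lit 228) (nat_lit 0) (XT.nd (nat_lit 78) (nat_lit 76) (nat_lit 0) (XT.lf (nat_lit 0) (nat_lit 4277322840) (nat_lit 76) (nat_lit 15686716127) (nat_lit 152) (nat_lit 12524066290) (nat_lit 33) (nat_lit 5) (nat_lit 34) (nat_lit 5) (nat_lit 35) (nat_lit 4) (nat_lit 410) (nat_lit 297) (nat_lit 193)) (XT.nd (nat_lit 78) (nat_lit 76) (nat_lit 0) (XT.lf (nat_lit 0) (nat_lit 18392808868) (nat_lit 76) (nat_lit 8549881752) (nat_lit 152) (nat_lit 6294631711) (nat_lit 33) (nat_lit 5) (nat_lit 34) (nat_lit 5) (nat_lit 35) (nat_lit 4) (nat_lit 411) (nat_lit 297) (nat_lit 192)) (XT.lf (nat_lit 0) (nat_lit 100893175) (nat_lit 152) (nat_lit 1112787208) (nat_lit 76) (nat_lit 32795854936) (nat_lit 32) (nat_lit 5)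 (nat_lit 34) (nat_lit 5) (nat_lit 33) (nat_lit 5) (nat_lit 412) (nat_lit 297) (nat_lit 191)))) (XT.nd (nat_lit 156) (nat_lit 76) (nat_lit 0) (XT.nd (nat_lit 78) (nat_lit 0) (nat_lit 0) (XT.lf (nat_lit 0) (nat_lit 6733394847) (nat_lit 228) (nat_lit 21669828268) (nat_lit 76) (nat_lit 6394674972) (nat_lit 30) (nat_lit 5) (nat_lit 33) (nat_lit 5) (nat_lit 31) (nat_lit 4) (nat_lit 413) (nat_lit 297) (nat_lit 190)) (XT.lf (nat_lit 0) (nat_lit 13570410378) (nat_lit 228) (nat_lit 7836156688) (nat_lit 76) (nat_lit 14203180342) (nat_lit 30) (nat_lit 5) (nat_lit 33) (nat_lit 5) (nat_lit 31) (nat_lit 4) (nat_lit 414) (nat_lit 297) (nat_lit 189))) (XT.nd (nat_lit 78) (nat_lit 0) (nat_lit 0) (XT.lf (nat_lit 0) (nat_lit 6507056716) (nat_lit 76) (nat_lit 14150722621) (nat_lit 152) (nat_lit 15786817365) (nat_lit 29) (nat_lit 5) (nat_lit 30) (nat_lit 5) (nat_lit 31) (nat_lit 4) (nat_lit 415) (nat_lit 297) (nat_lit 188))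 (XT.lf (nat_lit 0) (nat_lit 21409073698) (nat_lit 76) (nat_lit 6610713899) (nat_lit 152) (nat_lit 9282845059) (nat_lit 29) (nat_lit 5) (nat_lit 30) (nat_lit 5) (nat_lit 31) (nat_lit 4) (nat_lit 416) (nat_lit 297) (nat_lit 187))))))))
noncomputable def xc98 : XT := (XT.nd (nat_lit 2106) (nat_lit 152) (nat_lit 0) (XT.nd (nat_lit 1014) (nat_lit 456) (nat_lit 0) (XT.nd (nat_lit 468) (nat_lit 304) (nat_lit 0) (XT.nd (nat_lit 234) (nat_lit 76) (nat_lit 0) (XT.nd (nat_lit 78) (nat_lit 152) (nat_lit 0) (XT.lf (nat_lit 0) (nat_lit 35597010116) (nat_lit 152) (nat_lit 1470916410) (nat_lit 0) (nat_lit 1118654223) (nat_lit 29) (nat_lit 5) (nat_lit 31) (nat_lit 4) (nat_lit 29) (nat_lit 4) (nat_lit 417) (nat_lit 297) (nat_lit 186)) (XT.nd (nat_lit 78) (nat_lit 0) (nat_lit 0) (XT.lf (nat_lit 0) (nat_lit 4401745885) (nat_lit 152) (nat_lit 25582034523) (nat_lit 76) (nat_lit 9106589928) (nat_lit 27) (nat_lit 5) (nat_lit 29)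 (nat_lit 5) (nat_lit 28) (nat_lit 4) (nat_lit 418) (nat_lit 297) (nat_lit 185)) (XT.lf (nat_lit 0) (nat_lit 11549510567) (nat_lit 152) (nat_lit 11110152585) (nat_lit 76) (nat_lit 17360880122) (nat_lit 27) (nat_lit 5) (nat_lit 29) (nat_lit 5) (nat_lit 28) (nat_lit 4) (nat_lit 419) (nat_lit 297) (nat_lit 184)))) (XT.nd (nat_lit 78) (nat_lit 0) (nat_lit 0) (XT.lf (nat_lit 0) (nat_lit 3841075785) (nat_lit 76) (nat_lit 15091784338) (nat_lit 152) (nat_lit 22045128210) (nat_lit 26) (nat_lit 5) (nat_lit 27) (nat_lit 5) (nat_lit 28) (nat_lit 4) (nat_lit 420) (nat_lit 297) (nat_lit 183)) (XT.nd (nat_lit 78) (nat_lit 0) (nat_lit 0) (XT.lf (nat_lit 0) (nat_lit 19439116789) (nat_lit 76) (nat_lit 7195189345) (nat_lit 152) (nat_lit 15326954181) (nat_lit 26) (nat_lit 5) (nat_lit 27) (nat_lit 5) (nat_lit 28) (nat_lit 4) (nat_lit 421) (nat_lit 297) (nat_lit 182)) (XT.lf (nat_lit 0) (nat_lit 34560544995) (nat_lit 152) (nat_lit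 7506890158) (nat_lit 0) (nat_lit 906784224) (nat_lit 26) (nat_lit 5) (nat_lit 28) (nat_lit 4) (nat_lit 26) (nat_lit 4) (nat_lit 422) (nat_lit 297) (nat_lit 181))))) (XT.nd (nat_lit 234) (nat_lit 152) (nat_lit 0) (XT.nd (nat_lit 78) (nat_lit 76) (nat_lit 0) (XT.lf (nat_lit 0) (nat_lit 8015904184) (nat_lit 76) (nat_lit 34842134792) (nat_lit 76) (nat_lit 1155525563) (nat_lit 25) (nat_lit 4) (nat_lit 26) (nat_lit 5) (nat_lit 26) (nat_lit 4) (nat_lit 423) (nat_lit 297) (nat_lit 180)) (XT.nd (nat_lit 78) (nat_lit 0) (nat_lit 0) (XT.lf (nat_lit 0) (nat_lit 6258782595) (nat_lit 152) (nat_lit 21013172267) (nat_lit 76) (nat_lit 17808461382) (nat_lit 24) (nat_lit 5) (nat_lit 26) (nat_lit 5) (nat_lit 25) (nat_lit 4) (nat_lit 424) (nat_lit 297) (nat_lit 179)) (XT.lf (nat_lit 0) (nat_lit 13857918961) (nat_lit 152) (nat_lit 5617888267) (nat_lit 76) (nat_lit 26703555581) (nat_lit 24) (nat_lit 5) (nat_lit 26) (nat_lit 5)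 (nat_lit 25) (nat_lit 4) (nat_lit 425) (nat_lit 297) (nat_lit 178)))) (XT.nd (nat_lit 156) (nat_lit 76) (nat_lit 0) (XT.nd (nat_lit 78) (nat_lit 0) (nat_lit 0) (XT.lf (nat_lit 0) (nat_lit 10416005233) (nat_lit 76) (nat_lit 11355191803) (nat_lit 152) (nat_lit 25537496918) (nat_lit 23) (nat_lit 5) (nat_lit 24) (nat_lit 5) (nat_lit 25) (nat_lit 4) (nat_lit 426) (nat_lit 297) (nat_lit 177)) (XT.lf (nat_lit 0) (nat_lit 27019833773) (nat_lit 76) (nat_lit 2944966204) (nat_lit 152) (nat_lit 18505818440) (nat_lit 23) (nat_lit 5) (nat_lit 24) (nat_lit 5) (nat_lit 25) (nat_lit 4) (nat_lit 427) (nat_lit 297) (nat_lit 176))) (XT.nd (nat_lit 78) (nat_lit 76) (nat_lit 0) (XT.lf (nat_lit 0) (nat_lit 38445654553) (nat_lit 152) (nat_lit 5626349879) (nat_lit 0) (nat_lit 5594154018) (nat_lit 23) (nat_lit 5) (nat_lit 25) (nat_lit 4) (nat_lit 23) (nat_lit 4) (nat_lit 428) (nat_lit 297) (nat_lit 175)) (XT.lf (nat_lit 0) (nat_lit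 10829976465) (nat_lit 76) (nat_lit 36471097249) (nat_lit 76) (nat_lit 3592887912) (nat_lit 22) (nat_lit 4) (nat_lit 23) (nat_lit 5) (nat_lit 23) (nat_lit 4) (nat_lit 429) (nat_lit 297) (nat_lit 174)))))) (XT.nd (nat_lit 546) (nat_lit 228) (nat_lit 0) (XT.nd (nat_lit 234) (nat_lit 76) (nat_lit 0) (XT.nd (nat_lit 78) (nat_lit 76) (nat_lit 0) (XT.lf (nat_lit 0) (nat_lit 4224627911) (nat_lit 152) (nat_lit 24328145553) (nat_lit 76) (nat_lit 23603268901) (nat_lit 21) (nat_lit 5) (nat_lit 23) (nat_lit 5) (nat_lit 22) (nat_lit 4) (nat_lit 430) (nat_lit 297) (nat_lit 173)) (XT.nd (nat_lit 78) (nat_lit 76) (nat_lit 0) (XT.lf (nat_lit 0) (nat_lit 12191728609) (nat_lit 152) (nat_lit 8180106744) (nat_lit 76) (nat_lit 33083465809) (nat_lit 21) (nat_lit 5) (nat_lit 23) (nat_lit 5) (nat_lit 22) (nat_lit 4) (nat_lit 431) (nat_lit 297) (nat_lit 172)) (XT.lf (nat_lit 0) (nat_lit 8596527453) (nat_lit 76) (nat_lit 11871593538)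 (nat_lit 152) (nat_lit 34323309357) (nat_lit 20) (nat_lit 5) (nat_lit 21) (nat_lit 5) (nat_lit 22) (nat_lit 4) (nat_lit 432) (nat_lit 297) (nat_lit 171)))) (XT.nd (nat_lit 156) (nat_lit 76) (nat_lit 0) (XT.nd (nat_lit 78) (nat_lit 0) (nat_lit 0) (XT.lf (nat_lit 0) (nat_lit 26020781179) (nat_lit 76) (nat_lit 3042405896) (nat_lit 152) (nat_lit 27102345835) (nat_lit 20) (nat_lit 5) (nat_lit 21) (nat_lit 5) (nat_lit 22) (nat_lit 4) (nat_lit 433) (nat_lit 297) (nat_lit 170)) (XT.lf (nat_lit 0) (nat_lit 37962308233) (nat_lit 152) (nat_lit 13694204332) (nat_lit 0) (nat_lit 5922960821) (nat_lit 20) (nat_lit 5) (nat_lit 22) (nat_lit 4) (nat_lit 20) (nat_lit 4) (nat_lit 434) (nat_lit 297) (nat_lit 169))) (XT.nd (nat_lit 78) (nat_lit 0) (nat_lit 0) (XT.lf (nat_lit 0) (nat_lit 3261104528) (nat_lit 76) (nat_lit 43917148531) (nat_lit 76) (nat_lit 11856084419) (nat_lit 19) (nat_lit 4) (nat_lit 20) (nat_lit 5) (nat_lit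 20) (nat_lit 4) (nat_lit 435) (nat_lit 297) (nat_lit 168)) (XT.lf (nat_lit 0) (nat_lit 20983740706) (nat_lit 76) (nat_lit 35813726116) (nat_lit 76) (nat_lit 3731577829) (nat_lit 19) (nat_lit 4) (nat_lit 20) (nat_lit 5) (nat_lit 20) (nat_lit 4) (nat_lit 436) (nat_lit 297) (nat_lit 167))))) (XT.nd (nat_lit 234) (nat_lit 76) (nat_lit 0) (XT.nd (nat_lit 78) (nat_lit 76) (nat_lit 0) (XT.lf (nat_lit 0) (nat_lit 4534915379) (nat_lit 152) (nat_lit 22896740140) (nat_lit 76) (nat_lit 34635939350) (nat_lit 18) (nat_lit 5) (nat_lit 20) (nat_lit 5) (nat_lit 19) (nat_lit 4) (nat_lit 437) (nat_lit 297) (nat_lit 166)) (XT.nd (nat_lit 78) (nat_lit 76) (nat_lit 0) (XT.lf (nat_lit 0) (nat_lit 12963460068) (nat_lit 152) (nat_lit 5806668279) (nat_lit 76) (nat_lit 44881393927) (nat_lit 18) (nat_lit 5) (nat_lit 20) (nat_lit 5) (nat_lit 19) (nat_lit 4) (nat_lit 438) (nat_lit 297) (nat_lit 165)) (XT.lf (nat_lit 0) (nat_lit 12010074735)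 (nat_lit 76) (nat_lit 9739610959) (nat_lit 152) (nat_lit 43530137849) (nat_lit 17) (nat_lit 5) (nat_lit 18) (nat_lit 5) (nat_lit 19) (nat_lit 4) (nat_lit 439) (nat_lit 297) (nat_lit 164)))) (XT.nd (nat_lit 156) (nat_lit 76) (nat_lit 0) (XT.nd (nat_lit 78) (nat_lit 0) (nat_lit 0) (XT.lf (nat_lit 0) (nat_lit 30460160139) (nat_lit 76) (nat_lit 387465664) (nat_lit 152) (nat_lit 36107904971) (nat_lit 17) (nat_lit 5) (nat_lit 18) (nat_lit 5) (nat_lit 19) (nat_lit 4) (nat_lit 440) (nat_lit 297) (nat_lit 163)) (XT.lf (nat_lit 0) (nat_lit 40297082507) (nat_lit 152) (nat_lit 19326451317) (nat_lit 0) (nat_lit 9055618781) (nat_lit 17) (nat_lit 5) (nat_lit 19) (nat_lit 4) (nat_lit 17) (nat_lit 4) (nat_lit 441) (nat_lit 297) (nat_lit 162))) (XT.nd (nat_lit 78) (nat_lit 76) (nat_lit 0) (XT.lf (nat_lit 0) (nat_lit 50023866438) (nat_lit 152) (nat_lit 1665542712) (nat_lit 0) (nat_lit 18765259347) (nat_lit 17) (nat_lit 5)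 (nat_lit 19) (nat_lit 4) (nat_lit 17) (nat_lit 4) (nat_lit 442) (nat_lit 297) (nat_lit 161)) (XT.lf (nat_lit 0) (nat_lit 16835023545) (nat_lit 76) (nat_lit 43359557171) (nat_lit 76) (nat_lit 12084306038) (nat_lit 16) (nat_lit 4) (nat_lit 17) (nat_lit 5) (nat_lit 17) (nat_lit 4) (nat_lit 443) (nat_lit 297) (nat_lit 160))))))) (XT.nd (nat_lit 36660) (nat_lit 0) (nat_lit 18924) (XT.nd (nat_lit 36114) (nat_lit 0) (nat_lit 25764) (XT.nd (nat_lit 234) (nat_lit 76) (nat_lit 0) (XT.nd (nat_lit 78) (nat_lit 76) (nat_lit 0) (XT.lf (nat_lit 0) (nat_lit 35906250383) (nat_lit 76) (nat_lit 34771387795) (nat_lit 76) (nat_lit 3479977397) (nat_lit 16) (nat_lit 4) (nat_lit 17) (nat_lit 5) (nat_lit 17) (nat_lit 4) (nat_lit 444) (nat_lit 297) (nat_lit 159)) (XT.nd (nat_lit 78) (nat_lit 0) (nat_lit 0) (XT.lf (nat_lit 0) (nat_lit 5268039181) (nat_lit 152) (nat_lit 20612979465) (nat_lit 76) (nat_lit 50210418368) (nat_lit 15)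 (nat_lit 5) (nat_lit 17) (nat_lit 5) (nat_lit 16) (nat_lit 4) (nat_lit 445) (nat_lit 297) (nat_lit 158)) (XT.lf (nat_lit 0) (nat_lit 14199415917) (nat_lit 152) (nat_lit 2497516348) (nat_lit 76) (nat_lit 61385581877) (nat_lit 15) (nat_lit 5) (nat_lit 17) (nat_lit 5) (nat_lit 16) (nat_lit 4) (nat_lit 446) (nat_lit 297) (nat_lit 157)))) (XT.nd (nat_lit 35724) (nat_lit 0) (nat_lit 27360) (XT.lf (nat_lit 0) (nat_lit 16465608199) (nat_lit 76) (nat_lit 7082533119) (nat_lit 152) (nat_lit 56580700641) (nat_lit 14) (nat_lit 5) (nat_lit 15) (nat_lit 5) (nat_lit 16) (nat_lit 4) (nat_lit 447) (nat_lit 297) (nat_lit 156)) (XT.nd (nat_lit 78) (nat_lit 0) (nat_lit 0) (XT.lf (nat_lit 0) (nat_lit 30040889) (nat_lit 228) (nat_lit 3169769595) (nat_lit 0) (nat_lit 30040889) (nat_lit 374) (nat_lit 5) (nat_lit 377) (nat_lit 4) (nat_lit 374) (nat_lit 4) (nat_lit 304) (nat_lit 298) (nat_lit 298)) (XT.lf (nat_lit 0) (nat_lit 3158097872)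 (nat_lit 228) (nat_lit 2920684164) (nat_lit 0) (nat_lit 390527326) (nat_lit 374) (nat_lit 5) (nat_lit 377) (nat_lit 4) (nat_lit 374) (nat_lit 4) (nat_lit 305) (nat_lit 298) (nat_lit 297))))) (XT.nd (nat_lit 234) (nat_lit 988) (nat_lit 0) (XT.nd (nat_lit 78) (nat_lit 380) (nat_lit 0) (XT.lf (nat_lit 0) (nat_lit 541569536) (nat_lit 228) (nat_lit 5697784784) (nat_lit 228) (nat_lit 243252544) (nat_lit 371) (nat_lit 4) (nat_lit 374) (nat_lit 5) (nat_lit 374) (nat_lit 4) (nat_lit 306) (nat_lit 298) (nat_lit 296)) (XT.nd (nat_lit 78) (nat_lit 304) (nat_lit 0) (XT.lf (nat_lit 0) (nat_lit 2776173717) (nat_lit 304) (nat_lit 2427600269) (nat_lit 76) (nat_lit 1294303110) (nat_lit 370) (nat_lit 5) (nat_lit 374) (nat_lit 5) (nat_lit 371) (nat_lit 4) (nat_lit 307) (nat_lit 298) (nat_lit 295)) (XT.lf (nat_lit 0) (nat_lit 1141777443) (nat_lit 304) (nat_lit 4640355295) (nat_lit 380) (nat_lit 734883477) (nat_lit 366) (nat_lit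 5) (nat_lit 370) (nat_lit 5) (nat_lit 371) (nat_lit 4) (nat_lit 308) (nat_lit 298) (nat_lit 294)))) (XT.nd (nat_lit 156) (nat_lit 532) (nat_lit 0) (XT.nd (nat_lit 78) (nat_lit 380) (nat_lit 0) (XT.lf (nat_lit 0) (nat_lit 2212056842) (nat_lit 380) (nat_lit 1761456353) (nat_lit 76) (nat_lit 2564951174) (nat_lit 365) (nat_lit 5) (nat_lit 370) (nat_lit 5) (nat_lit 366) (nat_lit 5) (nat_lit 309) (nat_lit 298) (nat_lit 293)) (XT.lf (nat_lit 0) (nat_lit 1922121306) (nat_lit 380) (nat_lit 3223406769) (nat_lit 456) (nat_lit 1417516350) (nat_lit 360) (nat_lit 5) (nat_lit 365) (nat_lit 5) (nat_lit 366) (nat_lit 5) (nat_lit 310) (nat_lit 298) (nat_lit 292))) (XT.nd (nat_lit 78) (nat_lit 456) (nat_lit 0) (XT.lf (nat_lit 0) (nat_lit 1461525925) (nat_lit 456) (nat_lit 921202917) (nat_lit 76) (nat_lit 4207855280) (nat_lit 359) (nat_lit 5) (nat_lit 365) (nat_lit 5) (nat_lit 360) (nat_lit 5) (nat_lit 311) (nat_lit 298) (nat_lit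 291)) (XT.lf (nat_lit 0) (nat_lit 2884063123) (nat_lit 456) (nat_lit 1440872136) (nat_lit 532) (nat_lit 2295884711) (nat_lit 353) (nat_lit 5) (nat_lit 359) (nat_lit 5) (nat_lit 360) (nat_lit 5) (nat_lit 312) (nat_lit 298) (nat_lit 290)))))) (XT.nd (nat_lit 546) (nat_lit 4028) (nat_lit 0) (XT.nd (nat_lit 234) (nat_lit 1596) (nat_lit 0) (XT.nd (nat_lit 78) (nat_lit 608) (nat_lit 0) (XT.lf (nat_lit 0) (nat_lit 96811569) (nat_lit 532) (nat_lit 423655127) (nat_lit 608) (nat_lit 6134087654) (nat_lit 345) (nat_lit 5) (nat_lit 352) (nat_lit 5) (nat_lit 353) (nat_lit 5) (nat_lit 313) (nat_lit 298) (nat_lit 289)) (XT.nd (nat_lit 78) (nat_lit 608) (nat_lit 0) (XT.lf (nat_lit 0) (nat_lit 3321796393) (nat_lit 608) (nat_lit 2667580673) (nat_lit 76) (nat_lit 700921102) (nat_lit 345) (nat_lit 5) (nat_lit 353) (nat_lit 5) (nat_lit 346) (nat_lit 5) (nat_lit 314) (nat_lit 298) (nat_lit 288)) (XT.lf (nat_lit 0) (nat_lit 1290076746)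 (nat_lit 608) (nat_lit 4839050099) (nat_lit 684) (nat_lit 600404682) (nat_lit 337) (nat_lit 5) (nat_lit 345) (nat_lit 5) (nat_lit 346) (nat_lit 5) (nat_lit 315) (nat_lit 298) (nat_lit 287)))) (XT.nd (nat_lit 156) (nat_lit 836) (nat_lit 0) (XT.nd (nat_lit 78) (nat_lit 684) (nat_lit 0) (XT.lf (nat_lit 0) (nat_lit 2140484233) (nat_lit 684) (nat_lit 1441323324) (nat_lit 76) (nat_lit 3189546888) (nat_lit 336) (nat_lit 5) (nat_lit 345) (nat_lit 5) (nat_lit 337) (nat_lit 5) (nat_lit 316) (nat_lit 298) (nat_lit 286)) (XT.lf (nat_lit 0) (nat_lit 2653228034) (nat_lit 684) (nat_lit 2232997842) (nat_lit 760) (nat_lit 1930056626) (nat_lit 327) (nat_lit 5) (nat_lit 336) (nat_lit 5) (nat_lit 337) (nat_lit 5) (nat_lit 317) (nat_lit 298) (nat_lit 285))) (XT.nd (nat_lit 78) (nat_lit 760) (nat_lit 0) (XT.lf (nat_lit 0) (nat_lit 760086963) (nat_lit 760) (nat_lit 40817843) (nat_lit 76) (nat_lit 6063725756) (nat_lit 326) (nat_lit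 5) (nat_lit 336) (nat_lit 5) (nat_lit 327) (nat_lit 5) (nat_lit 318) (nat_lit 298) (nat_lit 284)) (XT.lf (nat_lit 0) (nat_lit 3452602161) (nat_lit 836) (nat_lit 2723120805) (nat_lit 76) (nat_lit 739382719) (nat_lit 316) (nat_lit 5) (nat_lit 327) (nat_lit 5) (nat_lit 317) (nat_lit 5) (nat_lit 319) (nat_lit 298) (nat_lit 283))))) (XT.nd (nat_lit 234) (nat_lit 2204) (nat_lit 0) (XT.nd (nat_lit 78) (nat_lit 988) (nat_lit 0) (XT.lf (nat_lit 0) (nat_lit 1536995997) (nat_lit 836) (nat_lit 4626915107) (nat_lit 912) (nat_lit 805105249) (nat_lit 305) (nat_lit 5) (nat_lit 316) (nat_lit 5) (nat_lit 317) (nat_lit 5) (nat_lit 320) (nat_lit 298) (nat_lit 282)) (XT.nd (nat_lit 78) (nat_lit 912) (nat_lit 0) (XT.lf (nat_lit 0) (nat_lit 1837905825) (nat_lit 912) (nat_lit 1133455540) (nat_lit 76) (nat_lit 4054376368) (nat_lit 304) (nat_lit 5) (nat_lit 316) (nat_lit 5) (nat_lit 305) (nat_lit 5) (nat_lit 321) (nat_lit 298) (nat_lit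 281)) (XT.lf (nat_lit 0) (nat_lit 3280567077) (nat_lit 912) (nat_lit 1213265950) (nat_lit 988) (nat_lit 2591650949) (nat_lit 292) (nat_lit 5) (nat_lit 304) (nat_lit 5) (nat_lit 305) (nat_lit 5) (nat_lit 322) (nat_lit 298) (nat_lit 280)))) (XT.nd (nat_lit 156) (nat_lit 1140) (nat_lit 0) (XT.nd (nat_lit 78) (nat_lit 0) (nat_lit 0) (XT.lf (nat_lit 0) (nat_lit 23736041) (nat_lit 1064) (nat_lit 6510255451) (nat_lit 76) (nat_lit 614772825) (nat_lit 278) (nat_lit 5) (nat_lit 292) (nat_lit 5) (nat_lit 279) (nat_lit 5) (nat_lit 323) (nat_lit 298) (nat_lit 279)) (XT.lf (nat_lit 0) (nat_lit 2637228883) (nat_lit 1064) (nat_lit 2029958258) (nat_lit 76) (nat_lit 2546885900) (nat_lit 278) (nat_lit 5) (nat_lit 292) (nat_lit 5) (nat_lit 279) (nat_lit 5) (nat_lit 324) (nat_lit 298) (nat_lit 278))) (XT.nd (nat_lit 78) (nat_lit 76) (nat_lit 0) (XT.lf (nat_lit 0) (nat_lit 2564549242) (nat_lit 1064) (nat_lit 2712451331) (nat_lit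 1140) (nat_lit 2005954513) (nat_lit 264) (nat_lit 5) (nat_lit 278) (nat_lit 5) (nat_lit 279) (nat_lit 5) (nat_lit 325) (nat_lit 298) (nat_lit 277)) (XT.lf (nat_lit 0) (nat_lit 574231624) (nat_lit 1140) (nat_lit 92272909) (nat_lit 76) (nat_lit 6688920334) (nat_lit 263) (nat_lit 5) (nat_lit 278) (nat_lit 5) (nat_lit 264) (nat_lit 5) (nat_lit 326) (nat_lit 298) (nat_lit 276))))))))
noncomputable def xc99 : XT := (XT.nd (nat_lit 2106) (nat_lit 4408) (nat_lit 0) (XT.nd (nat_lit 1014) (nat_lit 3800) (nat_lit 0) (XT.nd (nat_lit 468) (nat_lit 2812) (nat_lit 0) (XT.nd (nat_lit 234) (nat_lit 1292) (nat_lit 0) (XT.nd (nat_lit 78) (nat_lit 1292) (nat_lit 0) (XT.lf (nat_lit 0) (nat_lit 3177192404) (nat_lit 1216) (nat_lit 2769955474) (nat_lit 76) (nat_lit 1482800446) (nat_lit 248) (nat_lit 5) (nat_lit 264) (nat_lit 5) (nat_lit 249) (nat_lit 5) (nat_lit 327) (nat_lit 298) (nat_lit 275)) (XT.nd (nat_lit 78) (nat_lit 76)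 (nat_lit 0) (XT.lf (nat_lit 0) (nat_lit 2012076357) (nat_lit 1216) (nat_lit 3800787697) (nat_lit 1292) (nat_lit 1695249440) (nat_lit 232) (nat_lit 5) (nat_lit 248) (nat_lit 5) (nat_lit 249) (nat_lit 5) (nat_lit 328) (nat_lit 298) (nat_lit 274)) (XT.lf (nat_lit 0) (nat_lit 877336756) (nat_lit 1292) (nat_lit 674127943) (nat_lit 76) (nat_lit 6038229924) (nat_lit 231) (nat_lit 5) (nat_lit 248) (nat_lit 5) (nat_lit 232) (nat_lit 5) (nat_lit 329) (nat_lit 298) (nat_lit 273)))) (XT.nd (nat_lit 78) (nat_lit 684) (nat_lit 0) (XT.lf (nat_lit 0) (nat_lit 3472713383) (nat_lit 684) (nat_lit 3391984285) (nat_lit 76) (nat_lit 809172291) (nat_lit 223) (nat_lit 5) (nat_lit 232) (nat_lit 5) (nat_lit 224) (nat_lit 5) (nat_lit 330) (nat_lit 298) (nat_lit 272)) (XT.nd (nat_lit 78) (nat_lit 76) (nat_lit 0) (XT.lf (nat_lit 0) (nat_lit 1584818890) (nat_lit 608) (nat_lit 4530475668) (nat_lit 684) (nat_lit 1646235389) (nat_lit 215)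 (nat_lit 5) (nat_lit 223) (nat_lit 5) (nat_lit 224) (nat_lit 5) (nat_lit 331) (nat_lit 298) (nat_lit 271)) (XT.lf (nat_lit 0) (nat_lit 933182650) (nat_lit 684) (nat_lit 1151542790) (nat_lit 76) (nat_lit 5767835260) (nat_lit 214) (nat_lit 5) (nat_lit 223) (nat_lit 5) (nat_lit 215) (nat_lit 5) (nat_lit 332) (nat_lit 298) (nat_lit 270))))) (XT.nd (nat_lit 234) (nat_lit 1596) (nat_lit 0) (XT.nd (nat_lit 78) (nat_lit 608) (nat_lit 0) (XT.lf (nat_lit 0) (nat_lit 3534645557) (nat_lit 684) (nat_lit 3934209429) (nat_lit 76) (nat_lit 477682231) (nat_lit 206) (nat_lit 5) (nat_lit 215) (nat_lit 5) (nat_lit 207) (nat_lit 5) (nat_lit 333) (nat_lit 298) (nat_lit 269)) (XT.nd (nat_lit 78) (nat_lit 76) (nat_lit 0) (XT.lf (nat_lit 0) (nat_lit 1244706802) (nat_lit 532) (nat_lit 4949453942) (nat_lit 608) (nat_lit 1849807299) (nat_lit 199) (nat_lit 5) (nat_lit 206) (nat_lit 5) (nat_lit 207) (nat_lit 5) (nat_lit 334) (nat_lit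 298) (nat_lit 268)) (XT.lf (nat_lit 0) (nat_lit 750064658) (nat_lit 608) (nat_lit 1562643923) (nat_lit 76) (nat_lit 5832129162) (nat_lit 198) (nat_lit 5) (nat_lit 206) (nat_lit 5) (nat_lit 199) (nat_lit 5) (nat_lit 335) (nat_lit 298) (nat_lit 267)))) (XT.nd (nat_lit 156) (nat_lit 608) (nat_lit 0) (XT.nd (nat_lit 78) (nat_lit 456) (nat_lit 0) (XT.lf (nat_lit 0) (nat_lit 3369868156) (nat_lit 608) (nat_lit 4435161344) (nat_lit 76) (nat_lit 443813419) (nat_lit 191) (nat_lit 5) (nat_lit 199) (nat_lit 5) (nat_lit 192) (nat_lit 5) (nat_lit 336) (nat_lit 298) (nat_lit 266)) (XT.lf (nat_lit 0) (nat_lit 953176001) (nat_lit 456) (nat_lit 5102220279) (nat_lit 532) (nat_lit 2300989387) (nat_lit 185) (nat_lit 5) (nat_lit 191) (nat_lit 5) (nat_lit 192) (nat_lit 5) (nat_lit 337) (nat_lit 298) (nat_lit 265))) (XT.nd (nat_lit 78) (nat_lit 532) (nat_lit 0) (XT.lf (nat_lit 0) (nat_lit 332268122) (nat_lit 532) (nat_lit 1946327900)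 (nat_lit 76) (nat_lit 6188940618) (nat_lit 184) (nat_lit 5) (nat_lit 191) (nat_lit 5) (nat_lit 185) (nat_lit 5) (nat_lit 338) (nat_lit 298) (nat_lit 264)) (XT.lf (nat_lit 0) (nat_lit 2981306990) (nat_lit 608) (nat_lit 4934506130) (nat_lit 76) (nat_lit 666063298) (nat_lit 177) (nat_lit 5) (nat_lit 185) (nat_lit 5) (nat_lit 178) (nat_lit 5) (nat_lit 339) (nat_lit 298) (nat_lit 263)))))) (XT.nd (nat_lit 546) (nat_lit 1900) (nat_lit 0) (XT.nd (nat_lit 234) (nat_lit 912) (nat_lit 0) (XT.nd (nat_lit 78) (nat_lit 532) (nat_lit 0) (XT.lf (nat_lit 0) (nat_lit 670379257) (nat_lit 456) (nat_lit 5030620042) (nat_lit 532) (nat_lit 2998939458) (nat_lit 171) (nat_lit 5) (nat_lit 177) (nat_lit 5) (nat_lit 178) (nat_lit 5) (nat_lit 340) (nat_lit 298) (nat_lit 262)) (XT.nd (nat_lit 78) (nat_lit 532) (nat_lit 0) (XT.lf (nat_lit 0) (nat_lit 6475578985) (nat_lit 456) (nat_lit 2019877974) (nat_lit 532) (nat_lit 326317800) (nat_lit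 171) (nat_lit 5) (nat_lit 177) (nat_lit 5) (nat_lit 178) (nat_lit 5) (nat_lit 341) (nat_lit 298) (nat_lit 261)) (XT.lf (nat_lit 0) (nat_lit 2367886260) (nat_lit 532) (nat_lit 5473862297) (nat_lit 76) (nat_lit 1105180418) (nat_lit 164) (nat_lit 5) (nat_lit 171) (nat_lit 5) (nat_lit 165) (nat_lit 5) (nat_lit 342) (nat_lit 298) (nat_lit 260)))) (XT.nd (nat_lit 156) (nat_lit 532) (nat_lit 0) (XT.nd (nat_lit 78) (nat_lit 0) (nat_lit 0) (XT.lf (nat_lit 0) (nat_lit 354346223) (nat_lit 380) (nat_lit 4774615659) (nat_lit 456) (nat_lit 3947025621) (nat_lit 159) (nat_lit 5) (nat_lit 164) (nat_lit 5) (nat_lit 165) (nat_lit 5) (nat_lit 343) (nat_lit 298) (nat_lit 259)) (XT.lf (nat_lit 0) (nat_lit 6401307303) (nat_lit 380) (nat_lit 1573047755) (nat_lit 456) (nat_lit 1234542186) (nat_lit 159) (nat_lit 5) (nat_lit 164) (nat_lit 5) (nat_lit 165) (nat_lit 5) (nat_lit 344) (nat_lit 298) (nat_lit 258))) (XT.nd (nat_lit 78)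 (nat_lit 0) (nat_lit 0) (XT.lf (nat_lit 0) (nat_lit 1524408208) (nat_lit 532) (nat_lit 6097680434) (nat_lit 76) (nat_lit 1723412986) (nat_lit 152) (nat_lit 5) (nat_lit 159) (nat_lit 5) (nat_lit 153) (nat_lit 5) (nat_lit 345) (nat_lit 298) (nat_lit 257)) (XT.lf (nat_lit 0) (nat_lit 4333509982) (nat_lit 532) (nat_lit 39145117) (nat_lit 76) (nat_lit 5113438448) (nat_lit 152) (nat_lit 5) (nat_lit 159) (nat_lit 5) (nat_lit 153) (nat_lit 5) (nat_lit 346) (nat_lit 298) (nat_lit 256))))) (XT.nd (nat_lit 234) (nat_lit 1064) (nat_lit 0) (XT.nd (nat_lit 78) (nat_lit 456) (nat_lit 0) (XT.lf (nat_lit 0) (nat_lit 6257069080) (nat_lit 380) (nat_lit 979466734) (nat_lit 456) (nat_lit 2394099215) (nat_lit 147) (nat_lit 5) (nat_lit 152) (nat_lit 5) (nat_lit 153) (nat_lit 5) (nat_lit 347) (nat_lit 298) (nat_lit 255)) (XT.nd (nat_lit 78) (nat_lit 0) (nat_lit 0) (XT.lf (nat_lit 0) (nat_lit 441356327) (nat_lit 456) (nat_lit 6854203570)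 (nat_lit 76) (nat_lit 2483755764) (nat_lit 141) (nat_lit 5) (nat_lit 147) (nat_lit 5) (nat_lit 142) (nat_lit 5) (nat_lit 348) (nat_lit 298) (nat_lit 254)) (XT.lf (nat_lit 0) (nat_lit 3308359702) (nat_lit 456) (nat_lit 550501450) (nat_lit 76) (nat_lit 6073065872) (nat_lit 141) (nat_lit 5) (nat_lit 147) (nat_lit 5) (nat_lit 142) (nat_lit 5) (nat_lit 349) (nat_lit 298) (nat_lit 253)))) (XT.nd (nat_lit 156) (nat_lit 380) (nat_lit 0) (XT.nd (nat_lit 78) (nat_lit 380) (nat_lit 0) (XT.lf (nat_lit 0) (nat_lit 5994001472) (nat_lit 304) (nat_lit 276933215) (nat_lit 380) (nat_lit 3817914152) (nat_lit 137) (nat_lit 5) (nat_lit 141) (nat_lit 5) (nat_lit 142) (nat_lit 5) (nat_lit 350) (nat_lit 298) (nat_lit 252)) (XT.lf (nat_lit 0) (nat_lit 2444756288) (nat_lit 380) (nat_lit 6892102786) (nat_lit 456) (nat_lit 913203475) (nat_lit 132) (nat_lit 5) (nat_lit 137) (nat_lit 5) (nat_lit 138) (nat_lit 5) (nat_lit 351) (nat_lit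 298) (nat_lit 251))) (XT.nd (nat_lit 78) (nat_lit 304) (nat_lit 0) (XT.lf (nat_lit 0) (nat_lit 2035417685) (nat_lit 456) (nat_lit 1239731096) (nat_lit 76) (nat_lit 7140461867) (nat_lit 131) (nat_lit 5) (nat_lit 137) (nat_lit 5) (nat_lit 132) (nat_lit 5) (nat_lit 352) (nat_lit 298) (nat_lit 250)) (XT.lf (nat_lit 0) (nat_lit 5066542480) (nat_lit 380) (nat_lit 5032472411) (nat_lit 76) (nat_lit 486483909) (nat_lit 127) (nat_lit 5) (nat_lit 132) (nat_lit 5) (nat_lit 128) (nat_lit 5) (nat_lit 353) (nat_lit 298) (nat_lit 249))))))) (XT.nd (nat_lit 1014) (nat_lit 1824) (nat_lit 0) (XT.nd (nat_lit 468) (nat_lit 1216) (nat_lit 0) (XT.nd (nat_lit 234) (nat_lit 684) (nat_lit 0) (XT.nd (nat_lit 78) (nat_lit 380) (nat_lit 0) (XT.lf (nat_lit 0) (nat_lit 1751655894) (nat_lit 304) (nat_lit 6453600208) (nat_lit 380) (nat_lit 2554744194) (nat_lit 123) (nat_lit 5) (nat_lit 127) (nat_lit 5) (nat_lit 128) (nat_lit 5) (nat_lit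 354) (nat_lit 298) (nat_lit 248)) (XT.nd (nat_lit 78) (nat_lit 304) (nat_lit 0) (XT.lf (nat_lit 0) (nat_lit 494981303) (nat_lit 380) (nat_lit 2166158843) (nat_lit 76) (nat_lit 8278279004) (nat_lit 122) (nat_lit 5) (nat_lit 127) (nat_lit 5) (nat_lit 123) (nat_lit 5) (nat_lit 355) (nat_lit 298) (nat_lit 247)) (XT.lf (nat_lit 0) (nat_lit 3600637435) (nat_lit 380) (nat_lit 6247715785) (nat_lit 76) (nat_lit 1274649879) (nat_lit 118) (nat_lit 5) (nat_lit 123) (nat_lit 5) (nat_lit 119) (nat_lit 5) (nat_lit 356) (nat_lit 298) (nat_lit 246)))) (XT.nd (nat_lit 78) (nat_lit 380) (nat_lit 0) (XT.lf (nat_lit 0) (nat_lit 785993834) (nat_lit 304) (nat_lit 6026248244) (nat_lit 380) (nat_lit 4499483653) (nat_lit 114) (nat_lit 5) (nat_lit 118) (nat_lit 5) (nat_lit 119) (nat_lit 5) (nat_lit 357) (nat_lit 298) (nat_lit 245)) (XT.nd (nat_lit 78) (nat_lit 380) (nat_lit 0) (XT.lf (nat_lit 0) (nat_lit 8095689632) (nat_lit 304)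 (nat_lit 2045031990) (nat_lit 380) (nat_lit 1364786721) (nat_lit 114) (nat_lit 5) (nat_lit 118) (nat_lit 5) (nat_lit 119) (nat_lit 5) (nat_lit 358) (nat_lit 298) (nat_lit 244)) (XT.lf (nat_lit 0) (nat_lit 1843589880) (nat_lit 380) (nat_lit 7808852068) (nat_lit 76) (nat_lit 2051657924) (nat_lit 109) (nat_lit 5) (nat_lit 114) (nat_lit 5) (nat_lit 110) (nat_lit 5) (nat_lit 359) (nat_lit 298) (nat_lit 243))))) (XT.nd (nat_lit 234) (nat_lit 684) (nat_lit 0) (XT.nd (nat_lit 78) (nat_lit 532) (nat_lit 0) (XT.lf (nat_lit 0) (nat_lit 5134491299) (nat_lit 380) (nat_lit 514898746) (nat_lit 76) (nat_lit 6258455497) (nat_lit 109) (nat_lit 5) (nat_lit 114) (nat_lit 5) (nat_lit 110) (nat_lit 5) (nat_lit 360) (nat_lit 298) (nat_lit 242)) (XT.nd (nat_lit 78) (nat_lit 228) (nat_lit 0) (XT.lf (nat_lit 0) (nat_lit 7075212429) (nat_lit 304) (nat_lit 1476805146) (nat_lit 380) (nat_lit 3564861605) (nat_lit 105) (nat_lit 5) (nat_lit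 109) (nat_lit 5) (nat_lit 110) (nat_lit 5) (nat_lit 361) (nat_lit 298) (nat_lit 241)) (XT.lf (nat_lit 0) (nat_lit 2532679379) (nat_lit 228) (nat_lit 9556382476) (nat_lit 304) (nat_lit 242624372) (nat_lit 102) (nat_lit 5) (nat_lit 105) (nat_lit 5) (nat_lit 106) (nat_lit 5) (nat_lit 362) (nat_lit 298) (nat_lit 240)))) (XT.nd (nat_lit 156) (nat_lit 304) (nat_lit 0) (XT.nd (nat_lit 78) (nat_lit 304) (nat_lit 0) (XT.lf (nat_lit 0) (nat_lit 3143732381) (nat_lit 304) (nat_lit 2220819413) (nat_lit 76) (nat_lit 7186685578) (nat_lit 101) (nat_lit 5) (nat_lit 105) (nat_lit 5) (nat_lit 102) (nat_lit 5) (nat_lit 363) (nat_lit 298) (nat_lit 239)) (XT.lf (nat_lit 0) (nat_lit 5632684328) (nat_lit 304) (nat_lit 1009870369) (nat_lit 380) (nat_lit 6134286882) (nat_lit 97) (nat_lit 5) (nat_lit 101) (nat_lit 5) (nat_lit 102) (nat_lit 5) (nat_lit 364) (nat_lit 298) (nat_lit 238))) (XT.nd (nat_lit 78) (nat_lit 76) (nat_lit 0)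 (XT.lf (nat_lit 0) (nat_lit 678485748) (nat_lit 228) (nat_lit 9592389189) (nat_lit 304) (nat_lit 2737613789) (nat_lit 94) (nat_lit 5) (nat_lit 97) (nat_lit 5) (nat_lit 98) (nat_lit 5) (nat_lit 365) (nat_lit 298) (nat_lit 237)) (XT.lf (nat_lit 0) (nat_lit 791076821) (nat_lit 304) (nat_lit 4440769973) (nat_lit 76) (nat_lit 8013680246) (nat_lit 93) (nat_lit 5) (nat_lit 97) (nat_lit 5) (nat_lit 94) (nat_lit 5) (nat_lit 366) (nat_lit 298) (nat_lit 236)))))) (XT.nd (nat_lit 546) (nat_lit 912) (nat_lit 0) (XT.nd (nat_lit 234) (nat_lit 456) (nat_lit 0) (XT.nd (nat_lit 78) (nat_lit 228) (nat_lit 0) (XT.lf (nat_lit 0) (nat_lit 3671348594) (nat_lit 228) (nat_lit 697762439) (nat_lit 304) (nat_lit 9119807026) (nat_lit 90) (nat_lit 5) (nat_lit 93) (nat_lit 5) (nat_lit 94) (nat_lit 5) (nat_lit 367) (nat_lit 298) (nat_lit 235)) (XT.nd (nat_lit 78) (nat_lit 228) (nat_lit 0) (XT.lf (nat_lit 0) (nat_lit 8101482579) (nat_lit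 304) (nat_lit 1717678823) (nat_lit 76) (nat_lit 3919049122) (nat_lit 90) (nat_lit 5) (nat_lit 94) (nat_lit 5) (nat_lit 91) (nat_lit 5) (nat_lit 368) (nat_lit 298) (nat_lit 234)) (XT.lf (nat_lit 0) (nat_lit 6691945254) (nat_lit 228) (nat_lit 5289702658) (nat_lit 304) (nat_lit 2012268497) (nat_lit 87) (nat_lit 5) (nat_lit 90) (nat_lit 5) (nat_lit 91) (nat_lit 5) (nat_lit 369) (nat_lit 298) (nat_lit 233)))) (XT.nd (nat_lit 156) (nat_lit 152) (nat_lit 0) (XT.nd (nat_lit 78) (nat_lit 0) (nat_lit 0) (XT.lf (nat_lit 0) (nat_lit 1079556008) (nat_lit 228) (nat_lit 600403418) (nat_lit 304) (nat_lit 12577068073) (nat_lit 83) (nat_lit 5) (nat_lit 86) (nat_lit 5) (nat_lit 87) (nat_lit 5) (nat_lit 370) (nat_lit 298) (nat_lit 232)) (XT.lf (nat_lit 0) (nat_lit 5522629498) (nat_lit 304) (nat_lit 4782293436) (nat_lit 76) (nat_lit 4220116222) (nat_lit 83) (nat_lit 5) (nat_lit 87) (nat_lit 5) (nat_lit 84) (nat_lit 5) (nat_lit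 371) (nat_lit 298) (nat_lit 231))) (XT.nd (nat_lit 78) (nat_lit 0) (nat_lit 0) (XT.lf (nat_lit 0) (nat_lit 3878780415) (nat_lit 152) (nat_lit 5611045564) (nat_lit 228) (nat_lit 5310996079) (nat_lit 81) (nat_lit 5) (nat_lit 83) (nat_lit 5) (nat_lit 84) (nat_lit 5) (nat_lit 372) (nat_lit 298) (nat_lit 230)) (XT.lf (nat_lit 0) (nat_lit 12842560993) (nat_lit 152) (nat_lit 748245259) (nat_lit 228) (nat_lit 1493637203) (nat_lit 81) (nat_lit 5) (nat_lit 83) (nat_lit 5) (nat_lit 84) (nat_lit 5) (nat_lit 373) (nat_lit 298) (nat_lit 229))))) (XT.nd (nat_lit 234) (nat_lit 456) (nat_lit 0) (XT.nd (nat_lit 78) (nat_lit 152) (nat_lit 0) (XT.lf (nat_lit 0) (nat_lit 2464321838) (nat_lit 304) (nat_lit 8663738588) (nat_lit 76) (nat_lit 4245607765) (nat_lit 77) (nat_lit 5) (nat_lit 81) (nat_lit 5) (nat_lit 78) (nat_lit 5) (nat_lit 374) (nat_lit 298) (nat_lit 228)) (XT.nd (nat_lit 78) (nat_lit 0) (nat_lit 0) (XT.lf (nat_lit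 0) (nat_lit 233030281) (nat_lit 152) (nat_lit 6277839869) (nat_lit 228) (nat_lit 9160267092) (nat_lit 75) (nat_lit 5) (nat_lit 77) (nat_lit 5) (nat_lit 78) (nat_lit 5) (nat_lit 375) (nat_lit 298) (nat_lit 227)) (XT.lf (nat_lit 0) (nat_lit 9520376375) (nat_lit 152) (nat_lit 1213717608) (nat_lit 228) (nat_lit 5241785157) (nat_lit 75) (nat_lit 5) (nat_lit 77) (nat_lit 5) (nat_lit 78) (nat_lit 5) (nat_lit 376) (nat_lit 298) (nat_lit 226)))) (XT.nd (nat_lit 156) (nat_lit 152) (nat_lit 0) (XT.nd (nat_lit 78) (nat_lit 76) (nat_lit 0) (XT.lf (nat_lit 0) (nat_lit 2758846004) (nat_lit 228) (nat_lit 12358688787) (nat_lit 304) (nat_lit 1171229835) (nat_lit 72) (nat_lit 5) (nat_lit 75) (nat_lit 5) (nat_lit 76) (nat_lit 5) (nat_lit 377) (nat_lit 298) (nat_lit 225)) (XT.lf (nat_lit 0) (nat_lit 3008958137) (nat_lit 304) (nat_lit 4322036872) (nat_lit 76) (nat_lit 9277782635) (nat_lit 71) (nat_lit 5) (nat_lit 75) (nat_lit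 5) (nat_lit 72) (nat_lit 5) (nat_lit 378) (nat_lit 298) (nat_lit 224))) (XT.nd (nat_lit 78) (nat_lit 0) (nat_lit 0) (XT.lf (nat_lit 0) (nat_lit 5200305209) (nat_lit 152) (nat_lit 2110233193) (nat_lit 228) (nat_lit 9626925291) (nat_lit 69) (nat_lit 5) (nat_lit 71) (nat_lit 5) (nat_lit 72) (nat_lit 5) (nat_lit 379) (nat_lit 298) (nat_lit 223)) (XT.lf (nat_lit 0) (nat_lit 11786379714) (nat_lit 228) (nat_lit 2261479410) (nat_lit 76) (nat_lit 3226800958) (nat_lit 69) (nat_lit 5) (nat_lit 72) (nat_lit 5) (nat_lit 70) (nat_lit 5) (nat_lit 380) (nat_lit 298) (nat_lit 222))))))))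
noncomputable def xc100 : XT := (XT.nd (nat_lit 2106) (nat_lit 1292) (nat_lit 0) (XT.nd (nat_lit 1014) (nat_lit 1064) (nat_lit 0) (XT.nd (nat_lit 468) (nat_lit 532) (nat_lit 0) (XT.nd (nat_lit 234) (nat_lit 380) (nat_lit 0) (XT.nd (nat_lit 78) (nat_lit 228) (nat_lit 0) (XT.lf (nat_lit 0) (nat_lit 7575047963) (nat_lit 228) (nat_lit 8885770859) (nat_lit 304) (nat_lit 1159229848) (nat_lit 66) (nat_lit 5) (nat_lit 69) (nat_lit 5) (nat_lit 70) (nat_lit 5) (nat_lit 381) (nat_lit 298) (nat_lit 221)) (XT.nd (nat_lit 78) (nat_lit 152) (nat_lit 0) (XT.lf (nat_lit 0) (nat_lit 3229062882) (nat_lit 304) (nat_lit 304469712) (nat_lit 76) (nat_lit 14441507619) (nat_lit 65) (nat_lit 5) (nat_lit 69) (nat_lit 5) (nat_lit 66) (nat_lit 5) (nat_lit 382) (nat_lit 298) (nat_lit 220)) (XT.lf (nat_lit 0) (nat_lit 7811918898) (nat_lit 228) (nat_lit 8497996280) (nat_lit 76) (nat_lit 2027841058) (nat_lit 63) (nat_lit 5) (nat_lit 66)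 (nat_lit 5) (nat_lit 64) (nat_lit 5) (nat_lit 383) (nat_lit 298) (nat_lit 219)))) (XT.nd (nat_lit 78) (nat_lit 228) (nat_lit 0) (XT.lf (nat_lit 0) (nat_lit 1528973264) (nat_lit 152) (nat_lit 11027792030) (nat_lit 228) (nat_lit 6153858623) (nat_lit 61) (nat_lit 5) (nat_lit 63) (nat_lit 5) (nat_lit 64) (nat_lit 5) (nat_lit 384) (nat_lit 298) (nat_lit 218)) (XT.nd (nat_lit 78) (nat_lit 228) (nat_lit 0) (XT.lf (nat_lit 0) (nat_lit 11982291341) (nat_lit 152) (nat_lit 5519551675) (nat_lit 228) (nat_lit 1591103198) (nat_lit 61) (nat_lit 5) (nat_lit 63) (nat_lit 5) (nat_lit 64) (nat_lit 5) (nat_lit 385) (nat_lit 298) (nat_lit 217)) (XT.lf (nat_lit 0) (nat_lit 3053601107) (nat_lit 228) (nat_lit 16239440517) (nat_lit 76) (nat_lit 192633241) (nat_lit 58) (nat_lit 5) (nat_lit 61) (nat_lit 5) (nat_lit 59) (nat_lit 5) (nat_lit 386) (nat_lit 298) (nat_lit 216))))) (XT.nd (nat_lit 234) (nat_lit 380) (nat_lit 0) (XT.nd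 (nat_lit 78) (nat_lit 152) (nat_lit 0) (XT.lf (nat_lit 0) (nat_lit 7905591261) (nat_lit 228) (nat_lit 5947499308) (nat_lit 76) (nat_lit 6033629197) (nat_lit 58) (nat_lit 5) (nat_lit 61) (nat_lit 5) (nat_lit 59) (nat_lit 5) (nat_lit 387) (nat_lit 298) (nat_lit 215)) (XT.nd (nat_lit 78) (nat_lit 0) (nat_lit 0) (XT.lf (nat_lit 0) (nat_lit 4698331710) (nat_lit 152) (nat_lit 8223526717) (nat_lit 228) (nat_lit 7377380654) (nat_lit 56) (nat_lit 5) (nat_lit 58) (nat_lit 5) (nat_lit 59) (nat_lit 5) (nat_lit 388) (nat_lit 298) (nat_lit 214)) (XT.lf (nat_lit 0) (nat_lit 15739362136) (nat_lit 152) (nat_lit 2383190817) (nat_lit 228) (nat_lit 2600567298) (nat_lit 56) (nat_lit 5) (nat_lit 58) (nat_lit 5) (nat_lit 59) (nat_lit 5) (nat_lit 389) (nat_lit 298) (nat_lit 213)))) (XT.nd (nat_lit 156) (nat_lit 152) (nat_lit 0) (XT.nd (nat_lit 78) (nat_lit 0) (nat_lit 0) (XT.lf (nat_lit 0) (nat_lit 2341883474) (nat_lit 228) (nat_lit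 15192156515) (nat_lit 76) (nat_lit 3622985282) (nat_lit 53) (nat_lit 5) (nat_lit 56) (nat_lit 5) (nat_lit 54) (nat_lit 5) (nat_lit 390) (nat_lit 298) (nat_lit 212)) (XT.lf (nat_lit 0) (nat_lit 7429273553) (nat_lit 228) (nat_lit 4353559921) (nat_lit 76) (nat_lit 9818877561) (nat_lit 53) (nat_lit 5) (nat_lit 56) (nat_lit 5) (nat_lit 54) (nat_lit 5) (nat_lit 391) (nat_lit 298) (nat_lit 211))) (XT.nd (nat_lit 78) (nat_lit 0) (nat_lit 0) (XT.lf (nat_lit 0) (nat_lit 6900779424) (nat_lit 152) (nat_lit 5810096926) (nat_lit 228) (nat_lit 9347617248) (nat_lit 51) (nat_lit 5) (nat_lit 53) (nat_lit 5) (nat_lit 54) (nat_lit 5) (nat_lit 392) (nat_lit 298) (nat_lit 210)) (XT.lf (nat_lit 0) (nat_lit 18173983831) (nat_lit 228) (nat_lit 3993583837) (nat_lit 76) (nat_lit 360724112) (nat_lit 51) (nat_lit 5) (nat_lit 54) (nat_lit 5) (nat_lit 52) (nat_lit 4) (nat_lit 393) (nat_lit 298) (nat_lit 209)))))) (XT.nd (nat_lit 546)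 (nat_lit 380) (nat_lit 0) (XT.nd (nat_lit 234) (nat_lit 304) (nat_lit 0) (XT.nd (nat_lit 78) (nat_lit 152) (nat_lit 0) (XT.lf (nat_lit 0) (nat_lit 880670773) (nat_lit 228) (nat_lit 15465223212) (nat_lit 76) (nat_lit 6662848197) (nat_lit 48) (nat_lit 5) (nat_lit 51) (nat_lit 5) (nat_lit 49) (nat_lit 5) (nat_lit 394) (nat_lit 298) (nat_lit 208)) (XT.nd (nat_lit 78) (nat_lit 152) (nat_lit 0) (XT.lf (nat_lit 0) (nat_lit 6202049186) (nat_lit 228) (nat_lit 4080273234) (nat_lit 76) (nat_lit 13219487807) (nat_lit 48) (nat_lit 5) (nat_lit 51) (nat_lit 5) (nat_lit 49) (nat_lit 5) (nat_lit 395) (nat_lit 298) (nat_lit 207)) (XT.lf (nat_lit 0) (nat_lit 7755856210) (nat_lit 152) (nat_lit 3978602658) (nat_lit 228) (nat_lit 12273673160) (nat_lit 46) (nat_lit 5) (nat_lit 48) (nat_lit 5) (nat_lit 49) (nat_lit 5) (nat_lit 396) (nat_lit 298) (nat_lit 206)))) (XT.nd (nat_lit 156) (nat_lit 228) (nat_lit 0) (XT.nd (nat_lit 78)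 (nat_lit 76) (nat_lit 0) (XT.lf (nat_lit 0) (nat_lit 17475556324) (nat_lit 228) (nat_lit 4564090139) (nat_lit 76) (nat_lit 2488718870) (nat_lit 46) (nat_lit 5) (nat_lit 49) (nat_lit 5) (nat_lit 47) (nat_lit 4) (nat_lit 397) (nat_lit 298) (nat_lit 205)) (XT.lf (nat_lit 0) (nat_lit 7541919379) (nat_lit 76) (nat_lit 15936465195) (nat_lit 152) (nat_lit 1583139343) (nat_lit 45) (nat_lit 5) (nat_lit 46) (nat_lit 5) (nat_lit 47) (nat_lit 4) (nat_lit 398) (nat_lit 298) (nat_lit 204))) (XT.nd (nat_lit 78) (nat_lit 152) (nat_lit 0) (XT.lf (nat_lit 0) (nat_lit 3995774736) (nat_lit 152) (nat_lit 5584668820) (nat_lit 76) (nat_lit 16028342730) (nat_lit 44) (nat_lit 5) (nat_lit 46) (nat_lit 5) (nat_lit 45) (nat_lit 5) (nat_lit 399) (nat_lit 298) (nat_lit 203)) (XT.lf (nat_lit 0) (nat_lit 6785586105) (nat_lit 152) (nat_lit 2968180559) (nat_lit 228) (nat_lit 16416926668) (nat_lit 42) (nat_lit 5) (nat_lit 44) (nat_lit 5)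 (nat_lit 45) (nat_lit 5) (nat_lit 400) (nat_lit 298) (nat_lit 202))))) (XT.nd (nat_lit 234) (nat_lit 228) (nat_lit 0) (XT.nd (nat_lit 78) (nat_lit 152) (nat_lit 0) (XT.lf (nat_lit 0) (nat_lit 15756776421) (nat_lit 228) (nat_lit 7183386261) (nat_lit 76) (nat_lit 3807129425) (nat_lit 42) (nat_lit 5) (nat_lit 45) (nat_lit 5) (nat_lit 43) (nat_lit 4) (nat_lit 401) (nat_lit 298) (nat_lit 201)) (XT.nd (nat_lit 78) (nat_lit 76) (nat_lit 0) (XT.lf (nat_lit 0) (nat_lit 5422406100) (nat_lit 76) (nat_lit 16578000734) (nat_lit 152) (nat_lit 5338968875) (nat_lit 41) (nat_lit 5) (nat_lit 42) (nat_lit 5) (nat_lit 43) (nat_lit 4) (nat_lit 402) (nat_lit 298) (nat_lit 200)) (XT.lf (nat_lit 0) (nat_lit 525029248) (nat_lit 152) (nat_lit 9437219653) (nat_lit 76) (nat_lit 17985267114) (nat_lit 40) (nat_lit 5) (nat_lit 42) (nat_lit 5) (nat_lit 41) (nat_lit 5) (nat_lit 403) (nat_lit 298) (nat_lit 199)))) (XT.nd (nat_lit 156) (nat_lit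 76) (nat_lit 0) (XT.nd (nat_lit 78) (nat_lit 0) (nat_lit 0) (XT.lf (nat_lit 0) (nat_lit 3392944157) (nat_lit 152) (nat_lit 3076976802) (nat_lit 228) (nat_lit 22102027829) (nat_lit 38) (nat_lit 5) (nat_lit 40) (nat_lit 5) (nat_lit 41) (nat_lit 5) (nat_lit 404) (nat_lit 298) (nat_lit 198)) (XT.lf (nat_lit 0) (nat_lit 12707735028) (nat_lit 228) (nat_lit 12487729198) (nat_lit 76) (nat_lit 4016215516) (nat_lit 38) (nat_lit 5) (nat_lit 41) (nat_lit 5) (nat_lit 39) (nat_lit 4) (nat_lit 405) (nat_lit 298) (nat_lit 197))) (XT.nd (nat_lit 78) (nat_lit 0) (nat_lit 0) (XT.lf (nat_lit 0) (nat_lit 527804731) (nat_lit 76) (nat_lit 18620748967) (nat_lit 152) (nat_lit 10721575217) (nat_lit 37) (nat_lit 5) (nat_lit 38) (nat_lit 5) (nat_lit 39) (nat_lit 4) (nat_lit 406) (nat_lit 298) (nat_lit 196)) (XT.lf (nat_lit 0) (nat_lit 14153832883) (nat_lit 76) (nat_lit 11735424323) (nat_lit 152) (nat_lit 4655876871) (nat_lit 37) (nat_lit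 5) (nat_lit 38) (nat_lit 5) (nat_lit 39) (nat_lit 4) (nat_lit 407) (nat_lit 298) (nat_lit 195))))))) (XT.nd (nat_lit 1014) (nat_lit 532) (nat_lit 0) (XT.nd (nat_lit 468) (nat_lit 228) (nat_lit 0) (XT.nd (nat_lit 234) (nat_lit 304) (nat_lit 0) (XT.nd (nat_lit 78) (nat_lit 152) (nat_lit 0) (XT.lf (nat_lit 0) (nat_lit 1541666678) (nat_lit 152) (nat_lit 3102341083) (nat_lit 76) (nat_lit 26596496711) (nat_lit 36) (nat_lit 5) (nat_lit 38) (nat_lit 5) (nat_lit 37) (nat_lit 5) (nat_lit 408) (nat_lit 298) (nat_lit 194)) (XT.nd (nat_lit 78) (nat_lit 0) (nat_lit 0) (XT.lf (nat_lit 0) (nat_lit 7942934271) (nat_lit 228) (nat_lit 21265722113) (nat_lit 76) (nat_lit 2743357500) (nat_lit 34) (nat_lit 5) (nat_lit 37) (nat_lit 5) (nat_lit 35) (nat_lit 4) (nat_lit 409) (nat_lit 298) (nat_lit 193)) (XT.lf (nat_lit 0) (nat_lit 14595411709) (nat_lit 228) (nat_lit 7812369742) (nat_lit 76) (nat_lit 10275314039) (nat_lit 34) (nat_lit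 5) (nat_lit 37) (nat_lit 5) (nat_lit 35) (nat_lit 4) (nat_lit 410) (nat_lit 298) (nat_lit 192)))) (XT.nd (nat_lit 78) (nat_lit 228) (nat_lit 0) (XT.lf (nat_lit 0) (nat_lit 6130889714) (nat_lit 76) (nat_lit 15357598693) (nat_lit 152) (nat_lit 11946392393) (nat_lit 33) (nat_lit 5) (nat_lit 34) (nat_lit 5) (nat_lit 35) (nat_lit 4) (nat_lit 411) (nat_lit 298) (nat_lit 191)) (XT.nd (nat_lit 78) (nat_lit 228) (nat_lit 0) (XT.lf (nat_lit 0) (nat_lit 20619590406) (nat_lit 76) (nat_lit 8029952071) (nat_lit 152) (nat_lit 5557843589) (nat_lit 33) (nat_lit 5) (nat_lit 34) (nat_lit 5) (nat_lit 35) (nat_lit 4) (nat_lit 412) (nat_lit 298) (nat_lit 190)) (XT.lf (nat_lit 0) (nat_lit 507574077) (nat_lit 152) (nat_lit 482355835) (nat_lit 228) (nat_lit 34013218038) (nat_lit 30) (nat_lit 5) (nat_lit 32) (nat_lit 5) (nat_lit 33) (nat_lit 5) (nat_lit 413) (nat_lit 298) (nat_lit 189))))) (XT.nd (nat_lit 234) (nat_lit 152) (nat_lit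 0) (XT.nd (nat_lit 78) (nat_lit 76) (nat_lit 0) (XT.lf (nat_lit 0) (nat_lit 7813783203) (nat_lit 228) (nat_lit 20673248076) (nat_lit 76) (nat_lit 7328361737) (nat_lit 30) (nat_lit 5) (nat_lit 33) (nat_lit 5) (nat_lit 31) (nat_lit 4) (nat_lit 414) (nat_lit 298) (nat_lit 188)) (XT.nd (nat_lit 78) (nat_lit 76) (nat_lit 0) (XT.lf (nat_lit 0) (nat_lit 14830325128) (nat_lit 228) (nat_lit 6472527757) (nat_lit 76) (nat_lit 15349515088) (nat_lit 30) (nat_lit 5) (nat_lit 33) (nat_lit 5) (nat_lit 31) (nat_lit 4) (nat_lit 415) (nat_lit 298) (nat_lit 187)) (XT.lf (nat_lit 0) (nat_lit 8285308385) (nat_lit 76) (nat_lit 13835385012) (nat_lit 152) (nat_lit 15391860558) (nat_lit 29) (nat_lit 5) (nat_lit 30) (nat_lit 5) (nat_lit 31) (nat_lit 4) (nat_lit 416) (nat_lit 298) (nat_lit 186)))) (XT.nd (nat_lit 156) (nat_lit 152) (nat_lit 0) (XT.nd (nat_lit 78) (nat_lit 0) (nat_lit 0) (XT.lf (nat_lit 0) (nat_lit 23588277917) (nat_lit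 76) (nat_lit 6090725329) (nat_lit 152) (nat_lit 8718066985) (nat_lit 29) (nat_lit 5) (nat_lit 30) (nat_lit 5) (nat_lit 31) (nat_lit 4) (nat_lit 417) (nat_lit 298) (nat_lit 185)) (XT.lf (nat_lit 0) (nat_lit 37466402804) (nat_lit 152) (nat_lit 5656932) (nat_lit 0) (nat_lit 1835993629) (nat_lit 29) (nat_lit 5) (nat_lit 31) (nat_lit 4) (nat_lit 29) (nat_lit 4) (nat_lit 418) (nat_lit 298) (nat_lit 184))) (XT.nd (nat_lit 78) (nat_lit 0) (nat_lit 0) (XT.lf (nat_lit 0) (nat_lit 5334226461) (nat_lit 152) (nat_lit 24838900687) (nat_lit 76) (nat_lit 10065865729) (nat_lit 27) (nat_lit 5) (nat_lit 29) (nat_lit 5) (nat_lit 28) (nat_lit 4) (nat_lit 419) (nat_lit 298) (nat_lit 183)) (XT.lf (nat_lit 0) (nat_lit 12673110641) (nat_lit 152) (nat_lit 9976860199) (nat_lit 76) (nat_lit 18547801771) (nat_lit 27) (nat_lit 5) (nat_lit 29) (nat_lit 5) (nat_lit 28) (nat_lit 4) (nat_lit 420) (nat_lit 298) (nat_lit 182)))))) (XT.nd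 (nat_lit 546) (nat_lit 228) (nat_lit 0) (XT.nd (nat_lit 234) (nat_lit 228) (nat_lit 0) (XT.nd (nat_lit 78) (nat_lit 0) (nat_lit 0) (XT.lf (nat_lit 0) (nat_lit 5408526619) (nat_lit 76) (nat_lit 14860759267) (nat_lit 152) (nat_lit 21914917522) (nat_lit 26) (nat_lit 5) (nat_lit 27) (nat_lit 5) (nat_lit 28) (nat_lit 4) (nat_lit 421) (nat_lit 298) (nat_lit 181)) (XT.nd (nat_lit 78) (nat_lit 0) (nat_lit 0) (XT.lf (nat_lit 0) (nat_lit 21432211226) (nat_lit 76) (nat_lit 6747182305) (nat_lit 152) (nat_lit 15018253549) (nat_lit 26) (nat_lit 5) (nat_lit 27) (nat_lit 5) (nat_lit 28) (nat_lit 4) (nat_lit 422) (nat_lit 298) (nat_lit 180)) (XT.lf (nat_lit 0) (nat_lit 36327885294) (nat_lit 152) (nat_lit 6347640045) (nat_lit 0) (nat_lit 1565937622) (nat_lit 26) (nat_lit 5) (nat_lit 28) (nat_lit 4) (nat_lit 26) (nat_lit 4) (nat_lit 423) (nat_lit 298) (nat_lit 179)))) (XT.nd (nat_lit 156) (nat_lit 76) (nat_lit 0) (XT.nd (nat_lit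 78) (nat_lit 76) (nat_lit 0) (XT.lf (nat_lit 0) (nat_lit 9627265022) (nat_lit 76) (nat_lit 35238939449) (nat_lit 76) (nat_lit 446028955) (nat_lit 25) (nat_lit 4) (nat_lit 26) (nat_lit 5) (nat_lit 26) (nat_lit 4) (nat_lit 424) (nat_lit 298) (nat_lit 178)) (XT.lf (nat_lit 0) (nat_lit 7154935477) (nat_lit 152) (nat_lit 20298452467) (nat_lit 76) (nat_lit 18958127535) (nat_lit 24) (nat_lit 5) (nat_lit 26) (nat_lit 5) (nat_lit 25) (nat_lit 4) (nat_lit 425) (nat_lit 298) (nat_lit 177))) (XT.nd (nat_lit 78) (nat_lit 76) (nat_lit 0) (XT.lf (nat_lit 0) (nat_lit 14961413233) (nat_lit 152) (nat_lit 4480488052) (nat_lit 76) (nat_lit 28102149930) (nat_lit 24) (nat_lit 5) (nat_lit 26) (nat_lit 5) (nat_lit 25) (nat_lit 4) (nat_lit 426) (nat_lit 298) (nat_lit 176)) (XT.lf (nat_lit 0) (nat_lit 12021618950) (nat_lit 76) (nat_lit 11082869343) (nat_lit 152) (nat_lit 25603003785) (nat_lit 23) (nat_lit 5) (nat_lit 24) (nat_lit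 5) (nat_lit 25) (nat_lit 4) (nat_lit 427) (nat_lit 298) (nat_lit 175))))) (XT.nd (nat_lit 234) (nat_lit 152) (nat_lit 0) (XT.nd (nat_lit 78) (nat_lit 76) (nat_lit 0) (XT.lf (nat_lit 0) (nat_lit 29085898261) (nat_lit 76) (nat_lit 2438190711) (nat_lit 152) (nat_lit 18380781303) (nat_lit 23) (nat_lit 5) (nat_lit 24) (nat_lit 5) (nat_lit 25) (nat_lit 4) (nat_lit 428) (nat_lit 298) (nat_lit 174)) (XT.nd (nat_lit 78) (nat_lit 76) (nat_lit 0) (XT.lf (nat_lit 0) (nat_lit 40245689914) (nat_lit 152) (nat_lit 4562503996) (nat_lit 0) (nat_lit 6328494617) (nat_lit 23) (nat_lit 5) (nat_lit 25) (nat_lit 4) (nat_lit 23) (nat_lit 4) (nat_lit 429) (nat_lit 298) (nat_lit 173)) (XT.lf (nat_lit 0) (nat_lit 12375427467) (nat_lit 76) (nat_lit 36984241949) (nat_lit 76) (nat_lit 3041871044) (nat_lit 22) (nat_lit 4) (nat_lit 23) (nat_lit 5) (nat_lit 23) (nat_lit 4) (nat_lit 430) (nat_lit 298) (nat_lit 172)))) (XT.nd (nat_lit 156)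 (nat_lit 76) (nat_lit 0) (XT.nd (nat_lit 78) (nat_lit 0) (nat_lit 0) (XT.lf (nat_lit 0) (nat_lit 4978500609) (nat_lit 152) (nat_lit 23860457006) (nat_lit 76) (nat_lit 24862901944) (nat_lit 21) (nat_lit 5) (nat_lit 23) (nat_lit 5) (nat_lit 22) (nat_lit 4) (nat_lit 431) (nat_lit 298) (nat_lit 171)) (XT.lf (nat_lit 0) (nat_lit 13166348293) (nat_lit 152) (nat_lit 7262856631) (nat_lit 76) (nat_lit 34611440633) (nat_lit 21) (nat_lit 5) (nat_lit 23) (nat_lit 5) (nat_lit 22) (nat_lit 4) (nat_lit 432) (nat_lit 298) (nat_lit 170))) (XT.nd (nat_lit 78) (nat_lit 0) (nat_lit 0) (XT.lf (nat_lit 0) (nat_lit 10005678029) (nat_lit 76) (nat_lit 11678686968) (nat_lit 152) (nat_lit 34732695062) (nat_lit 20) (nat_lit 5) (nat_lit 21) (nat_lit 5) (nat_lit 22) (nat_lit 4) (nat_lit 433) (nat_lit 298) (nat_lit 169)) (XT.lf (nat_lit 0) (nat_lit 27919127675) (nat_lit 76) (nat_lit 2600615572) (nat_lit 152) (nat_lit 27313170020) (nat_lit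 20) (nat_lit 5) (nat_lit 21) (nat_lit 5) (nat_lit 22) (nat_lit 4) (nat_lit 434) (nat_lit 298) (nat_lit 168))))))))
noncomputable def xc101 : XT := (XT.nd (nat_lit 37596) (nat_lit 0) (nat_lit 11324) (XT.nd (nat_lit 36504) (nat_lit 0) (nat_lit 24396) (XT.nd (nat_lit 468) (nat_lit 152) (nat_lit 0) (XT.nd (nat_lit 234) (nat_lit 152) (nat_lit 0) (XT.nd (nat_lit 78) (nat_lit 76) (nat_lit 0) (XT.lf (nat_lit 0) (nat_lit 39673783967) (nat_lit 152) (nat_lit 13007763891) (nat_lit 0) (nat_lit 6608087056) (nat_lit 20) (nat_lit 5) (nat_lit 22) (nat_lit 4) (nat_lit 20) (nat_lit 4) (nat_lit 435) (nat_lit 298) (nat_lit 167)) (XT.nd (nat_lit 78) (nat_lit 0) (nat_lit 0) (XT.lf (nat_lit 0) (nat_lit 4445446720) (nat_lit 76) (nat_lit 44714526750) (nat_lit 76) (nat_lit 11628359765) (nat_lit 19) (nat_lit 4) (nat_lit 20) (nat_lit 5) (nat_lit 20) (nat_lit 4) (nat_lit 436) (nat_lit 298) (nat_lit 166)) (XT.lf (nat_lit 0) (nat_lit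 22668116088) (nat_lit 76) (nat_lit 36383151262) (nat_lit 76) (nat_lit 3277110419) (nat_lit 19) (nat_lit 4) (nat_lit 20) (nat_lit 5) (nat_lit 20) (nat_lit 4) (nat_lit 437) (nat_lit 298) (nat_lit 165)))) (XT.nd (nat_lit 78) (nat_lit 76) (nat_lit 0) (XT.lf (nat_lit 0) (nat_lit 5210149202) (nat_lit 152) (nat_lit 22548732968) (nat_lit 76) (nat_lit 36154525434) (nat_lit 18) (nat_lit 5) (nat_lit 20) (nat_lit 5) (nat_lit 19) (nat_lit 4) (nat_lit 438) (nat_lit 298) (nat_lit 164)) (XT.nd (nat_lit 78) (nat_lit 76) (nat_lit 0) (XT.lf (nat_lit 0) (nat_lit 13875845775) (nat_lit 152) (nat_lit 4976101942) (nat_lit 76) (nat_lit 46693377400) (nat_lit 18) (nat_lit 5) (nat_lit 20) (nat_lit 5) (nat_lit 19) (nat_lit 4) (nat_lit 439) (nat_lit 298) (nat_lit 163)) (XT.lf (nat_lit 0) (nat_lit 13365292712) (nat_lit 76) (nat_lit 9554682151) (nat_lit 152) (nat_lit 44302672178) (nat_lit 17) (nat_lit 5) (nat_lit 18) (nat_lit 5) (nat_lit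 19) (nat_lit 4) (nat_lit 440) (nat_lit 298) (nat_lit 162))))) (XT.nd (nat_lit 234) (nat_lit 152) (nat_lit 0) (XT.nd (nat_lit 78) (nat_lit 0) (nat_lit 0) (XT.lf (nat_lit 0) (nat_lit 32276388128) (nat_lit 152) (nat_lit 36609792936) (nat_lit 0) (nat_lit 62879461) (nat_lit 17) (nat_lit 5) (nat_lit 19) (nat_lit 4) (nat_lit 17) (nat_lit 4) (nat_lit 441) (nat_lit 298) (nat_lit 161)) (XT.nd (nat_lit 78) (nat_lit 0) (nat_lit 0) (XT.lf (nat_lit 0) (nat_lit 41998392889) (nat_lit 152) (nat_lit 18958087065) (nat_lit 0) (nat_lit 9768240179) (nat_lit 17) (nat_lit 5) (nat_lit 19) (nat_lit 4) (nat_lit 17) (nat_lit 4) (nat_lit 442) (nat_lit 298) (nat_lit 160)) (XT.lf (nat_lit 0) (nat_lit 52002638651) (nat_lit 152) (nat_lit 794967448) (nat_lit 0) (nat_lit 19756326676) (nat_lit 17) (nat_lit 5) (nat_lit 19) (nat_lit 4) (nat_lit 17) (nat_lit 4) (nat_lit 443) (nat_lit 298) (nat_lit 159)))) (XT.nd (nat_lit 156) (nat_lit 76) (nat_lit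 0) (XT.nd (nat_lit 78) (nat_lit 0) (nat_lit 0) (XT.lf (nat_lit 0) (nat_lit 18251590879) (nat_lit 76) (nat_lit 44221721566) (nat_lit 76) (nat_lit 11959720984) (nat_lit 16) (nat_lit 4) (nat_lit 17) (nat_lit 5) (nat_lit 17) (nat_lit 4) (nat_lit 444) (nat_lit 298) (nat_lit 158)) (XT.lf (nat_lit 0) (nat_lit 37868405495) (nat_lit 76) (nat_lit 35388682516) (nat_lit 76) (nat_lit 3111450278) (nat_lit 16) (nat_lit 4) (nat_lit 17) (nat_lit 5) (nat_lit 17) (nat_lit 4) (nat_lit 445) (nat_lit 298) (nat_lit 157))) (XT.nd (nat_lit 78) (nat_lit 0) (nat_lit 0) (XT.lf (nat_lit 0) (nat_lit 5876272534) (nat_lit 152) (nat_lit 20363187009) (nat_lit 76) (nat_lit 52121184528) (nat_lit 15) (nat_lit 5) (nat_lit 17) (nat_lit 5) (nat_lit 16) (nat_lit 4) (nat_lit 446) (nat_lit 298) (nat_lit 156)) (XT.lf (nat_lit 0) (nat_lit 15062478179) (nat_lit 152) (nat_lit 1729546848) (nat_lit 76) (nat_lit 63619822740) (nat_lit 15) (nat_lit 5) (nat_lit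 17) (nat_lit 5) (nat_lit 16) (nat_lit 4) (nat_lit 447) (nat_lit 298) (nat_lit 155)))))) (XT.nd (nat_lit 546) (nat_lit 2204) (nat_lit 0) (XT.nd (nat_lit 234) (nat_lit 684) (nat_lit 0) (XT.nd (nat_lit 78) (nat_lit 304) (nat_lit 0) (XT.lf (nat_lit 0) (nat_lit 1588765970) (nat_lit 76) (nat_lit 45610846) (nat_lit 0) (nat_lit 1588765970) (nat_lit 378) (nat_lit 5) (nat_lit 379) (nat_lit 0) (nat_lit 378) (nat_lit 4) (nat_lit 302) (nat_lit 299) (nat_lit 299)) (XT.nd (nat_lit 78) (nat_lit 228) (nat_lit 0) (XT.lf (nat_lit 0) (nat_lit 3209524636) (nat_lit 76) (nat_lit 3089313784) (nat_lit 76) (nat_lit 153198192) (nat_lit 377) (nat_lit 4) (nat_lit 378) (nat_lit 5) (nat_lit 378) (nat_lit 4) (nat_lit 303) (nat_lit 299) (nat_lit 298)) (XT.lf (nat_lit 0) (nat_lit 58657468) (nat_lit 152) (nat_lit 2820835498) (nat_lit 228) (nat_lit 3581202045) (nat_lit 374) (nat_lit 5) (nat_lit 376) (nat_lit 5) (nat_lit 377) (nat_lit 4) (nat_lit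 304) (nat_lit 299) (nat_lit 297)))) (XT.nd (nat_lit 156) (nat_lit 380) (nat_lit 0) (XT.nd (nat_lit 78) (nat_lit 304) (nat_lit 0) (XT.lf (nat_lit 0) (nat_lit 3458099307) (nat_lit 152) (nat_lit 2459330794) (nat_lit 228) (nat_lit 554728910) (nat_lit 374) (nat_lit 5) (nat_lit 376) (nat_lit 5) (nat_lit 377) (nat_lit 4) (nat_lit 305) (nat_lit 299) (nat_lit 296)) (XT.lf (nat_lit 0) (nat_lit 392453135) (nat_lit 228) (nat_lit 2010614896) (nat_lit 304) (nat_lit 4083549174) (nat_lit 370) (nat_lit 5) (nat_lit 373) (nat_lit 5) (nat_lit 374) (nat_lit 5) (nat_lit 306) (nat_lit 299) (nat_lit 295))) (XT.nd (nat_lit 78) (nat_lit 380) (nat_lit 0) (XT.lf (nat_lit 0) (nat_lit 3891863465) (nat_lit 228) (nat_lit 1466398390) (nat_lit 304) (nat_lit 1145590353) (nat_lit 370) (nat_lit 5) (nat_lit 373) (nat_lit 5) (nat_lit 374) (nat_lit 5) (nat_lit 307) (nat_lit 299) (nat_lit 294)) (XT.lf (nat_lit 0) (nat_lit 908472676) (nat_lit 304)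 (nat_lit 835562429) (nat_lit 380) (nat_lit 4780116498) (nat_lit 365) (nat_lit 5) (nat_lit 369) (nat_lit 5) (nat_lit 370) (nat_lit 5) (nat_lit 308) (nat_lit 299) (nat_lit 293))))) (XT.nd (nat_lit 234) (nat_lit 1748) (nat_lit 0) (XT.nd (nat_lit 78) (nat_lit 456) (nat_lit 0) (XT.lf (nat_lit 0) (nat_lit 4511338172) (nat_lit 304) (nat_lit 106275112) (nat_lit 380) (nat_lit 1929591282) (nat_lit 365) (nat_lit 5) (nat_lit 369) (nat_lit 5) (nat_lit 370) (nat_lit 5) (nat_lit 309) (nat_lit 299) (nat_lit 292)) (XT.nd (nat_lit 78) (nat_lit 0) (nat_lit 0) (XT.lf (nat_lit 0) (nat_lit 905085201) (nat_lit 456) (nat_lit 4972630085) (nat_lit 76) (nat_lit 695483510) (nat_lit 359) (nat_lit 5) (nat_lit 365) (nat_lit 5) (nat_lit 360) (nat_lit 5) (nat_lit 310) (nat_lit 299) (nat_lit 291)) (XT.lf (nat_lit 0) (nat_lit 3706596226) (nat_lit 456) (nat_lit 1300176021) (nat_lit 76) (nat_lit 1595095743) (nat_lit 359) (nat_lit 5) (nat_lit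 365) (nat_lit 5) (nat_lit 360) (nat_lit 5) (nat_lit 311) (nat_lit 299) (nat_lit 290)))) (XT.nd (nat_lit 156) (nat_lit 1216) (nat_lit 0) (XT.nd (nat_lit 78) (nat_lit 76) (nat_lit 0) (XT.lf (nat_lit 0) (nat_lit 2464237411) (nat_lit 456) (nat_lit 4053314662) (nat_lit 532) (nat_lit 116166306) (nat_lit 353) (nat_lit 5) (nat_lit 359) (nat_lit 5) (nat_lit 360) (nat_lit 5) (nat_lit 312) (nat_lit 299) (nat_lit 289)) (XT.lf (nat_lit 0) (nat_lit 2608894353) (nat_lit 532) (nat_lit 392084997) (nat_lit 76) (nat_lit 3667346113) (nat_lit 352) (nat_lit 5) (nat_lit 359) (nat_lit 5) (nat_lit 353) (nat_lit 5) (nat_lit 313) (nat_lit 299) (nat_lit 288))) (XT.nd (nat_lit 78) (nat_lit 684) (nat_lit 0) (XT.lf (nat_lit 0) (nat_lit 3500091852) (nat_lit 532) (nat_lit 1852666210) (nat_lit 608) (nat_lit 1353072664) (nat_lit 345) (nat_lit 5) (nat_lit 352) (nat_lit 5) (nat_lit 353) (nat_lit 5) (nat_lit 314) (nat_lit 299) (nat_lit 287))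 (XT.lf (nat_lit 0) (nat_lit 705700239) (nat_lit 608) (nat_lit 618443118) (nat_lit 684) (nat_lit 5422446044) (nat_lit 336) (nat_lit 5) (nat_lit 344) (nat_lit 5) (nat_lit 345) (nat_lit 5) (nat_lit 315) (nat_lit 299) (nat_lit 286))))))) (XT.nd (nat_lit 1014) (nat_lit 5168) (nat_lit 0) (XT.nd (nat_lit 468) (nat_lit 5472) (nat_lit 0) (XT.nd (nat_lit 234) (nat_lit 1672) (nat_lit 0) (XT.nd (nat_lit 78) (nat_lit 760) (nat_lit 0) (XT.lf (nat_lit 0) (nat_lit 4002636953) (nat_lit 684) (nat_lit 2076748582) (nat_lit 76) (nat_lit 710408302) (nat_lit 336) (nat_lit 5) (nat_lit 345) (nat_lit 5) (nat_lit 337) (nat_lit 5) (nat_lit 316) (nat_lit 299) (nat_lit 285)) (XT.nd (nat_lit 78) (nat_lit 76) (nat_lit 0) (XT.lf (nat_lit 0) (nat_lit 1971327236) (nat_lit 684) (nat_lit 4727065047) (nat_lit 760) (nat_lit 137862488) (nat_lit 327) (nat_lit 5) (nat_lit 336) (nat_lit 5) (nat_lit 337) (nat_lit 5) (nat_lit 317) (nat_lit 299) (nat_lit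 284)) (XT.lf (nat_lit 0) (nat_lit 2474374447) (nat_lit 760) (nat_lit 793648444) (nat_lit 76) (nat_lit 3617382520) (nat_lit 326) (nat_lit 5) (nat_lit 336) (nat_lit 5) (nat_lit 327) (nat_lit 5) (nat_lit 318) (nat_lit 299) (nat_lit 283)))) (XT.nd (nat_lit 78) (nat_lit 912) (nat_lit 0) (XT.lf (nat_lit 0) (nat_lit 3398238610) (nat_lit 760) (nat_lit 1712016469) (nat_lit 836) (nat_lit 1827354955) (nat_lit 316) (nat_lit 5) (nat_lit 326) (nat_lit 5) (nat_lit 327) (nat_lit 5) (nat_lit 319) (nat_lit 299) (nat_lit 282)) (XT.nd (nat_lit 78) (nat_lit 0) (nat_lit 0) (XT.lf (nat_lit 0) (nat_lit 678609431) (nat_lit 836) (nat_lit 69902565) (nat_lit 912) (nat_lit 6244758077) (nat_lit 304) (nat_lit 5) (nat_lit 315) (nat_lit 5) (nat_lit 316) (nat_lit 5) (nat_lit 320) (nat_lit 299) (nat_lit 281)) (XT.lf (nat_lit 0) (nat_lit 3334880915) (nat_lit 912) (nat_lit 2057420918) (nat_lit 76) (nat_lit 1658713272) (nat_lit 304) (nat_lit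 5) (nat_lit 316) (nat_lit 5) (nat_lit 305) (nat_lit 5) (nat_lit 321) (nat_lit 299) (nat_lit 280))))) (XT.nd (nat_lit 234) (nat_lit 3496) (nat_lit 0) (XT.nd (nat_lit 78) (nat_lit 1064) (nat_lit 0) (XT.lf (nat_lit 0) (nat_lit 2304290965) (nat_lit 912) (nat_lit 3638045496) (nat_lit 988) (nat_lit 1169906101) (nat_lit 292) (nat_lit 5) (nat_lit 304) (nat_lit 5) (nat_lit 305) (nat_lit 5) (nat_lit 322) (nat_lit 299) (nat_lit 279)) (XT.nd (nat_lit 78) (nat_lit 988) (nat_lit 0) (XT.lf (nat_lit 0) (nat_lit 1366843085) (nat_lit 988) (nat_lit 418294370) (nat_lit 76) (nat_lit 5391527792) (nat_lit 291) (nat_lit 5) (nat_lit 304) (nat_lit 5) (nat_lit 292) (nat_lit 5) (nat_lit 323) (nat_lit 299) (nat_lit 278)) (XT.lf (nat_lit 0) (nat_lit 3921212914) (nat_lit 1064) (nat_lit 3140511964) (nat_lit 76) (nat_lit 182047553) (nat_lit 278) (nat_lit 5) (nat_lit 292) (nat_lit 5) (nat_lit 279) (nat_lit 5) (nat_lit 324) (nat_lit 299)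 (nat_lit 277)))) (XT.nd (nat_lit 156) (nat_lit 2356) (nat_lit 0) (XT.nd (nat_lit 78) (nat_lit 76) (nat_lit 0) (XT.lf (nat_lit 0) (nat_lit 1397630508) (nat_lit 1064) (nat_lit 5115416909) (nat_lit 1140) (nat_lit 801069221) (nat_lit 264) (nat_lit 5) (nat_lit 278) (nat_lit 5) (nat_lit 279) (nat_lit 5) (nat_lit 325) (nat_lit 299) (nat_lit 276)) (XT.lf (nat_lit 0) (nat_lit 1719255936) (nat_lit 1140) (nat_lit 1335946265) (nat_lit 76) (nat_lit 4332149902) (nat_lit 263) (nat_lit 5) (nat_lit 278) (nat_lit 5) (nat_lit 264) (nat_lit 5) (nat_lit 326) (nat_lit 299) (nat_lit 275))) (XT.nd (nat_lit 78) (nat_lit 1216) (nat_lit 0) (XT.lf (nat_lit 0) (nat_lit 3372863799) (nat_lit 1140) (nat_lit 887008441) (nat_lit 1216) (nat_lit 3203895659) (nat_lit 248) (nat_lit 5) (nat_lit 263) (nat_lit 5) (nat_lit 264) (nat_lit 5) (nat_lit 327) (nat_lit 299) (nat_lit 274)) (XT.lf (nat_lit 0) (nat_lit 639088880) (nat_lit 1216) (nat_lit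 6200171594) (nat_lit 1292) (nat_lit 704382464) (nat_lit 232) (nat_lit 5) (nat_lit 248) (nat_lit 5) (nat_lit 249) (nat_lit 5) (nat_lit 328) (nat_lit 299) (nat_lit 273)))))) (XT.nd (nat_lit 546) (nat_lit 2584) (nat_lit 0) (XT.nd (nat_lit 234) (nat_lit 1900) (nat_lit 0) (XT.nd (nat_lit 78) (nat_lit 608) (nat_lit 0) (XT.lf (nat_lit 0) (nat_lit 1814638776) (nat_lit 1292) (nat_lit 2126313333) (nat_lit 76) (nat_lit 3685033239) (nat_lit 231) (nat_lit 5) (nat_lit 248) (nat_lit 5) (nat_lit 232) (nat_lit 5) (nat_lit 329) (nat_lit 299) (nat_lit 272)) (XT.nd (nat_lit 78) (nat_lit 0) (nat_lit 0) (XT.lf (nat_lit 0) (nat_lit 2775161093) (nat_lit 608) (nat_lit 1579126549) (nat_lit 684) (nat_lit 3357564426) (nat_lit 223) (nat_lit 5) (nat_lit 231) (nat_lit 5) (nat_lit 232) (nat_lit 5) (nat_lit 330) (nat_lit 299) (nat_lit 271)) (XT.lf (nat_lit 0) (nat_lit 6933872512) (nat_lit 684) (nat_lit 9452020) (nat_lit 76) (nat_lit 858096396)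 (nat_lit 223) (nat_lit 5) (nat_lit 232) (nat_lit 5) (nat_lit 224) (nat_lit 5) (nat_lit 331) (nat_lit 299) (nat_lit 270)))) (XT.nd (nat_lit 156) (nat_lit 608) (nat_lit 0) (XT.nd (nat_lit 78) (nat_lit 608) (nat_lit 0) (XT.lf (nat_lit 0) (nat_lit 1664291174) (nat_lit 684) (nat_lit 2827527074) (nat_lit 76) (nat_lit 3401398274) (nat_lit 214) (nat_lit 5) (nat_lit 223) (nat_lit 5) (nat_lit 215) (nat_lit 5) (nat_lit 332) (nat_lit 299) (nat_lit 269)) (XT.lf (nat_lit 0) (nat_lit 2273999362) (nat_lit 608) (nat_lit 1938965921) (nat_lit 684) (nat_lit 3775828791) (nat_lit 206) (nat_lit 5) (nat_lit 214) (nat_lit 5) (nat_lit 215) (nat_lit 5) (nat_lit 333) (nat_lit 299) (nat_lit 268))) (XT.nd (nat_lit 78) (nat_lit 608) (nat_lit 0) (XT.lf (nat_lit 0) (nat_lit 6811105245) (nat_lit 684) (nat_lit 575275731) (nat_lit 76) (nat_lit 701702048) (nat_lit 206) (nat_lit 5) (nat_lit 215) (nat_lit 5) (nat_lit 207) (nat_lit 5) (nat_lit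 334) (nat_lit 299) (nat_lit 267)) (XT.lf (nat_lit 0) (nat_lit 1275508610) (nat_lit 608) (nat_lit 3477849651) (nat_lit 76) (nat_lit 3436531397) (nat_lit 198) (nat_lit 5) (nat_lit 206) (nat_lit 5) (nat_lit 199) (nat_lit 5) (nat_lit 335) (nat_lit 299) (nat_lit 266))))) (XT.nd (nat_lit 234) (nat_lit 1520) (nat_lit 0) (XT.nd (nat_lit 78) (nat_lit 532) (nat_lit 0) (XT.lf (nat_lit 0) (nat_lit 1831135511) (nat_lit 532) (nat_lit 2011101852) (nat_lit 608) (nat_lit 4453265148) (nat_lit 191) (nat_lit 5) (nat_lit 198) (nat_lit 5) (nat_lit 199) (nat_lit 5) (nat_lit 336) (nat_lit 299) (nat_lit 265)) (XT.nd (nat_lit 78) (nat_lit 532) (nat_lit 0) (XT.lf (nat_lit 0) (nat_lit 6470161097) (nat_lit 608) (nat_lit 1108873681) (nat_lit 76) (nat_lit 825753597) (nat_lit 191) (nat_lit 5) (nat_lit 199) (nat_lit 5) (nat_lit 192) (nat_lit 5) (nat_lit 337) (nat_lit 299) (nat_lit 264)) (XT.lf (nat_lit 0) (nat_lit 651623323) (nat_lit 532)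 (nat_lit 4116425016) (nat_lit 76) (nat_lit 3748995220) (nat_lit 184) (nat_lit 5) (nat_lit 191) (nat_lit 5) (nat_lit 185) (nat_lit 5) (nat_lit 338) (nat_lit 299) (nat_lit 263)))) (XT.nd (nat_lit 156) (nat_lit 988) (nat_lit 0) (XT.nd (nat_lit 78) (nat_lit 0) (nat_lit 0) (XT.lf (nat_lit 0) (nat_lit 1407305876) (nat_lit 532) (nat_lit 1837190975) (nat_lit 608) (nat_lit 5388585159) (nat_lit 177) (nat_lit 5) (nat_lit 184) (nat_lit 5) (nat_lit 185) (nat_lit 5) (nat_lit 339) (nat_lit 299) (nat_lit 262)) (XT.lf (nat_lit 0) (nat_lit 5912503023) (nat_lit 608) (nat_lit 1649631573) (nat_lit 76) (nat_lit 1190573651) (nat_lit 177) (nat_lit 5) (nat_lit 185) (nat_lit 5) (nat_lit 178) (nat_lit 5) (nat_lit 340) (nat_lit 299) (nat_lit 261))) (XT.nd (nat_lit 78) (nat_lit 532) (nat_lit 0) (XT.lf (nat_lit 0) (nat_lit 4089744397) (nat_lit 456) (nat_lit 4573947796) (nat_lit 532) (nat_lit 212163038) (nat_lit 171) (nat_lit 5) (nat_lit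 177) (nat_lit 5) (nat_lit 178) (nat_lit 5) (nat_lit 341) (nat_lit 299) (nat_lit 260)) (XT.lf (nat_lit 0) (nat_lit 961412188) (nat_lit 456) (nat_lit 1456736120) (nat_lit 532) (nat_lit 6584690358) (nat_lit 164) (nat_lit 5) (nat_lit 170) (nat_lit 5) (nat_lit 171) (nat_lit 5) (nat_lit 342) (nat_lit 299) (nat_lit 259))))))))
noncomputable def xc102 : XT := (XT.nd (nat_lit 2106) (nat_lit 2964) (nat_lit 0) (XT.nd (nat_lit 1014) (nat_lit 2736) (nat_lit 0) (XT.nd (nat_lit 468) (nat_lit 1748) (nat_lit 0) (XT.nd (nat_lit 234) (nat_lit 456) (nat_lit 0) (XT.nd (nat_lit 78) (nat_lit 912) (nat_lit 0) (XT.lf (nat_lit 0) (nat_lit 5135640598) (nat_lit 532) (nat_lit 2239119479) (nat_lit 76) (nat_lit 1758456447) (nat_lit 164) (nat_lit 5) (nat_lit 171) (nat_lit 5) (nat_lit 165) (nat_lit 5) (nat_lit 343) (nat_lit 299) (nat_lit 258)) (XT.nd (nat_lit 78) (nat_lit 532) (nat_lit 0) (XT.lf (nat_lit 0) (nat_lit 3730612173) (nat_lit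 380) (nat_lit 4202743687) (nat_lit 456) (nat_lit 1334212226) (nat_lit 159) (nat_lit 5) (nat_lit 164) (nat_lit 5) (nat_lit 165) (nat_lit 5) (nat_lit 344) (nat_lit 299) (nat_lit 257)) (XT.lf (nat_lit 0) (nat_lit 449646182) (nat_lit 456) (nat_lit 907840951) (nat_lit 532) (nat_lit 8048800785) (nat_lit 152) (nat_lit 5) (nat_lit 158) (nat_lit 5) (nat_lit 159) (nat_lit 5) (nat_lit 345) (nat_lit 299) (nat_lit 256)))) (XT.nd (nat_lit 78) (nat_lit 456) (nat_lit 0) (XT.lf (nat_lit 0) (nat_lit 4132987421) (nat_lit 532) (nat_lit 2921978284) (nat_lit 76) (nat_lit 2492932686) (nat_lit 152) (nat_lit 5) (nat_lit 159) (nat_lit 5) (nat_lit 153) (nat_lit 5) (nat_lit 346) (nat_lit 299) (nat_lit 255)) (XT.nd (nat_lit 78) (nat_lit 76) (nat_lit 0) (XT.lf (nat_lit 0) (nat_lit 3284582885) (nat_lit 380) (nat_lit 3698706755) (nat_lit 456) (nat_lit 2710742145) (nat_lit 147) (nat_lit 5) (nat_lit 152) (nat_lit 5) (nat_lit 153) (nat_lit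 5) (nat_lit 347) (nat_lit 299) (nat_lit 254)) (XT.lf (nat_lit 0) (nat_lit 54189690) (nat_lit 456) (nat_lit 172040880) (nat_lit 76) (nat_lit 9618883856) (nat_lit 146) (nat_lit 5) (nat_lit 152) (nat_lit 5) (nat_lit 147) (nat_lit 5) (nat_lit 348) (nat_lit 299) (nat_lit 253))))) (XT.nd (nat_lit 234) (nat_lit 1064) (nat_lit 0) (XT.nd (nat_lit 78) (nat_lit 304) (nat_lit 0) (XT.lf (nat_lit 0) (nat_lit 2893641871) (nat_lit 456) (nat_lit 3746891455) (nat_lit 76) (nat_lit 3358028337) (nat_lit 141) (nat_lit 5) (nat_lit 147) (nat_lit 5) (nat_lit 142) (nat_lit 5) (nat_lit 349) (nat_lit 299) (nat_lit 252)) (XT.nd (nat_lit 78) (nat_lit 0) (nat_lit 0) (XT.lf (nat_lit 0) (nat_lit 2702157202) (nat_lit 304) (nat_lit 3099432792) (nat_lit 380) (nat_lit 4355541357) (nat_lit 137) (nat_lit 5) (nat_lit 141) (nat_lit 5) (nat_lit 142) (nat_lit 5) (nat_lit 350) (nat_lit 299) (nat_lit 251)) (XT.lf (nat_lit 0) (nat_lit 8794191133) (nat_lit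 380) (nat_lit 967464712) (nat_lit 76) (nat_lit 558897714) (nat_lit 137) (nat_lit 5) (nat_lit 142) (nat_lit 5) (nat_lit 138) (nat_lit 5) (nat_lit 351) (nat_lit 299) (nat_lit 250)))) (XT.nd (nat_lit 156) (nat_lit 304) (nat_lit 0) (XT.nd (nat_lit 78) (nat_lit 304) (nat_lit 0) (XT.lf (nat_lit 0) (nat_lit 1402085073) (nat_lit 456) (nat_lit 4767662205) (nat_lit 76) (nat_lit 4317503657) (nat_lit 131) (nat_lit 5) (nat_lit 137) (nat_lit 5) (nat_lit 132) (nat_lit 5) (nat_lit 352) (nat_lit 299) (nat_lit 249)) (XT.lf (nat_lit 0) (nat_lit 1928437465) (nat_lit 304) (nat_lit 2443211302) (nat_lit 380) (nat_lit 6287345209) (nat_lit 127) (nat_lit 5) (nat_lit 131) (nat_lit 5) (nat_lit 132) (nat_lit 5) (nat_lit 353) (nat_lit 299) (nat_lit 248))) (XT.nd (nat_lit 78) (nat_lit 304) (nat_lit 0) (XT.lf (nat_lit 0) (nat_lit 7448395966) (nat_lit 380) (nat_lit 1988137068) (nat_lit 76) (nat_lit 1398829251) (nat_lit 127) (nat_lit 5)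 (nat_lit 132) (nat_lit 5) (nat_lit 128) (nat_lit 5) (nat_lit 354) (nat_lit 299) (nat_lit 247)) (XT.lf (nat_lit 0) (nat_lit 4968188523) (nat_lit 304) (nat_lit 5678549317) (nat_lit 380) (nat_lit 369420450) (nat_lit 123) (nat_lit 5) (nat_lit 127) (nat_lit 5) (nat_lit 128) (nat_lit 5) (nat_lit 355) (nat_lit 299) (nat_lit 246)))))) (XT.nd (nat_lit 546) (nat_lit 1368) (nat_lit 0) (XT.nd (nat_lit 234) (nat_lit 684) (nat_lit 0) (XT.nd (nat_lit 78) (nat_lit 304) (nat_lit 0) (XT.lf (nat_lit 0) (nat_lit 901874200) (nat_lit 304) (nat_lit 1769855970) (nat_lit 380) (nat_lit 8530277185) (nat_lit 118) (nat_lit 5) (nat_lit 122) (nat_lit 5) (nat_lit 123) (nat_lit 5) (nat_lit 356) (nat_lit 299) (nat_lit 245)) (XT.nd (nat_lit 78) (nat_lit 304) (nat_lit 0) (XT.lf (nat_lit 0) (nat_lit 5838098251) (nat_lit 380) (nat_lit 3295223984) (nat_lit 76) (nat_lit 2258771797) (nat_lit 118) (nat_lit 5) (nat_lit 123) (nat_lit 5) (nat_lit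 119) (nat_lit 5) (nat_lit 357) (nat_lit 299) (nat_lit 244)) (XT.lf (nat_lit 0) (nat_lit 3918713362) (nat_lit 304) (nat_lit 5195202050) (nat_lit 380) (nat_lit 2473547851) (nat_lit 114) (nat_lit 5) (nat_lit 118) (nat_lit 5) (nat_lit 119) (nat_lit 5) (nat_lit 358) (nat_lit 299) (nat_lit 243)))) (XT.nd (nat_lit 156) (nat_lit 304) (nat_lit 0) (XT.nd (nat_lit 78) (nat_lit 304) (nat_lit 0) (XT.lf (nat_lit 0) (nat_lit 678742260) (nat_lit 380) (nat_lit 438423965) (nat_lit 76) (nat_lit 10671546340) (nat_lit 113) (nat_lit 5) (nat_lit 118) (nat_lit 5) (nat_lit 114) (nat_lit 5) (nat_lit 359) (nat_lit 299) (nat_lit 242)) (XT.lf (nat_lit 0) (nat_lit 3934803640) (nat_lit 380) (nat_lit 4961169328) (nat_lit 76) (nat_lit 3097536642) (nat_lit 109) (nat_lit 5) (nat_lit 114) (nat_lit 5) (nat_lit 110) (nat_lit 5) (nat_lit 360) (nat_lit 299) (nat_lit 241))) (XT.nd (nat_lit 78) (nat_lit 0) (nat_lit 0) (XT.lf (nat_lit 0) (nat_lit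 2510832494) (nat_lit 304) (nat_lit 4778437029) (nat_lit 380) (nat_lit 4915171529) (nat_lit 105) (nat_lit 5) (nat_lit 109) (nat_lit 5) (nat_lit 110) (nat_lit 5) (nat_lit 361) (nat_lit 299) (nat_lit 240)) (XT.lf (nat_lit 0) (nat_lit 10250316494) (nat_lit 304) (nat_lit 505779039) (nat_lit 380) (nat_lit 1665264935) (nat_lit 105) (nat_lit 5) (nat_lit 109) (nat_lit 5) (nat_lit 110) (nat_lit 5) (nat_lit 362) (nat_lit 299) (nat_lit 239))))) (XT.nd (nat_lit 234) (nat_lit 760) (nat_lit 0) (XT.nd (nat_lit 78) (nat_lit 304) (nat_lit 0) (XT.lf (nat_lit 0) (nat_lit 1703582293) (nat_lit 304) (nat_lit 7068646264) (nat_lit 76) (nat_lit 3870456912) (nat_lit 101) (nat_lit 5) (nat_lit 105) (nat_lit 5) (nat_lit 102) (nat_lit 5) (nat_lit 363) (nat_lit 299) (nat_lit 238)) (XT.nd (nat_lit 78) (nat_lit 0) (nat_lit 0) (XT.lf (nat_lit 0) (nat_lit 659333201) (nat_lit 304) (nat_lit 4476902354) (nat_lit 380) (nat_lit 7734044518) (nat_lit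 97) (nat_lit 5) (nat_lit 101) (nat_lit 5) (nat_lit 102) (nat_lit 5) (nat_lit 364) (nat_lit 299) (nat_lit 237)) (XT.lf (nat_lit 0) (nat_lit 8706511081) (nat_lit 380) (nat_lit 4396864488) (nat_lit 76) (nat_lit 298161) (nat_lit 97) (nat_lit 5) (nat_lit 102) (nat_lit 5) (nat_lit 98) (nat_lit 5) (nat_lit 365) (nat_lit 299) (nat_lit 236)))) (XT.nd (nat_lit 156) (nat_lit 456) (nat_lit 0) (XT.nd (nat_lit 78) (nat_lit 76) (nat_lit 0) (XT.lf (nat_lit 0) (nat_lit 3621521646) (nat_lit 228) (nat_lit 8805650313) (nat_lit 304) (nat_lit 915609116) (nat_lit 94) (nat_lit 5) (nat_lit 97) (nat_lit 5) (nat_lit 98) (nat_lit 5) (nat_lit 366) (nat_lit 299) (nat_lit 235)) (XT.lf (nat_lit 0) (nat_lit 2627407758) (nat_lit 304) (nat_lit 1699876620) (nat_lit 76) (nat_lit 9260743015) (nat_lit 93) (nat_lit 5) (nat_lit 97) (nat_lit 5) (nat_lit 94) (nat_lit 5) (nat_lit 367) (nat_lit 299) (nat_lit 234))) (XT.nd (nat_lit 78) (nat_lit 228)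 (nat_lit 0) (XT.lf (nat_lit 0) (nat_lit 6290614844) (nat_lit 304) (nat_lit 7215338645) (nat_lit 76) (nat_lit 333445897) (nat_lit 90) (nat_lit 5) (nat_lit 94) (nat_lit 5) (nat_lit 91) (nat_lit 5) (nat_lit 368) (nat_lit 299) (nat_lit 233)) (XT.lf (nat_lit 0) (nat_lit 1057097588) (nat_lit 228) (nat_lit 9042580275) (nat_lit 304) (nat_lit 3997564937) (nat_lit 87) (nat_lit 5) (nat_lit 90) (nat_lit 5) (nat_lit 91) (nat_lit 5) (nat_lit 369) (nat_lit 299) (nat_lit 232))))))) (XT.nd (nat_lit 1014) (nat_lit 1292) (nat_lit 0) (XT.nd (nat_lit 468) (nat_lit 912) (nat_lit 0) (XT.nd (nat_lit 234) (nat_lit 456) (nat_lit 0) (XT.nd (nat_lit 78) (nat_lit 304) (nat_lit 0) (XT.lf (nat_lit 0) (nat_lit 9670875950) (nat_lit 228) (nat_lit 4391091297) (nat_lit 304) (nat_lit 299694426) (nat_lit 87) (nat_lit 5) (nat_lit 90) (nat_lit 5) (nat_lit 91) (nat_lit 5) (nat_lit 370) (nat_lit 299) (nat_lit 231)) (XT.nd (nat_lit 78) (nat_lit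 0) (nat_lit 0) (XT.lf (nat_lit 0) (nat_lit 3449201293) (nat_lit 304) (nat_lit 10739670595) (nat_lit 76) (nat_lit 443880623) (nat_lit 83) (nat_lit 5) (nat_lit 87) (nat_lit 5) (nat_lit 84) (nat_lit 5) (nat_lit 371) (nat_lit 299) (nat_lit 230)) (XT.lf (nat_lit 0) (nat_lit 7362859520) (nat_lit 304) (nat_lit 2180926847) (nat_lit 76) (nat_lit 5366359156) (nat_lit 83) (nat_lit 5) (nat_lit 87) (nat_lit 5) (nat_lit 84) (nat_lit 5) (nat_lit 372) (nat_lit 299) (nat_lit 229)))) (XT.nd (nat_lit 78) (nat_lit 304) (nat_lit 0) (XT.lf (nat_lit 0) (nat_lit 6713069068) (nat_lit 152) (nat_lit 4713355854) (nat_lit 228) (nat_lit 3768468292) (nat_lit 81) (nat_lit 5) (nat_lit 83) (nat_lit 5) (nat_lit 84) (nat_lit 5) (nat_lit 373) (nat_lit 299) (nat_lit 228)) (XT.nd (nat_lit 78) (nat_lit 0) (nat_lit 0) (XT.lf (nat_lit 0) (nat_lit 117905395) (nat_lit 304) (nat_lit 15106391090) (nat_lit 76) (nat_lit 263960368) (nat_lit 77) (nat_lit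 5) (nat_lit 81) (nat_lit 5) (nat_lit 78) (nat_lit 5) (nat_lit 374) (nat_lit 299) (nat_lit 227)) (XT.lf (nat_lit 0) (nat_lit 4146603160) (nat_lit 304) (nat_lit 6240214671) (nat_lit 76) (nat_lit 5399447110) (nat_lit 77) (nat_lit 5) (nat_lit 81) (nat_lit 5) (nat_lit 78) (nat_lit 5) (nat_lit 375) (nat_lit 299) (nat_lit 226))))) (XT.nd (nat_lit 234) (nat_lit 456) (nat_lit 0) (XT.nd (nat_lit 78) (nat_lit 304) (nat_lit 0) (XT.lf (nat_lit 0) (nat_lit 2897149068) (nat_lit 152) (nat_lit 5396095599) (nat_lit 228) (nat_lit 7800063061) (nat_lit 75) (nat_lit 5) (nat_lit 77) (nat_lit 5) (nat_lit 78) (nat_lit 5) (nat_lit 376) (nat_lit 299) (nat_lit 225)) (XT.nd (nat_lit 78) (nat_lit 304) (nat_lit 0) (XT.lf (nat_lit 0) (nat_lit 12385723471) (nat_lit 152) (nat_lit 211217032) (nat_lit 228) (nat_lit 3811648378) (nat_lit 75) (nat_lit 5) (nat_lit 77) (nat_lit 5) (nat_lit 78) (nat_lit 5) (nat_lit 377) (nat_lit 299) (nat_lit 224))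 (XT.lf (nat_lit 0) (nat_lit 363197405) (nat_lit 304) (nat_lit 11302463027) (nat_lit 76) (nat_lit 5065412021) (nat_lit 71) (nat_lit 5) (nat_lit 75) (nat_lit 5) (nat_lit 72) (nat_lit 5) (nat_lit 378) (nat_lit 299) (nat_lit 223)))) (XT.nd (nat_lit 156) (nat_lit 304) (nat_lit 0) (XT.nd (nat_lit 78) (nat_lit 152) (nat_lit 0) (XT.lf (nat_lit 0) (nat_lit 4600220645) (nat_lit 304) (nat_lit 1906303007) (nat_lit 76) (nat_lit 10555174600) (nat_lit 71) (nat_lit 5) (nat_lit 75) (nat_lit 5) (nat_lit 72) (nat_lit 5) (nat_lit 379) (nat_lit 299) (nat_lit 222)) (XT.lf (nat_lit 0) (nat_lit 7876754483) (nat_lit 152) (nat_lit 1134603583) (nat_lit 228) (nat_lit 8389480640) (nat_lit 69) (nat_lit 5) (nat_lit 71) (nat_lit 5) (nat_lit 72) (nat_lit 5) (nat_lit 380) (nat_lit 299) (nat_lit 221))) (XT.nd (nat_lit 78) (nat_lit 76) (nat_lit 0) (XT.lf (nat_lit 0) (nat_lit 154469217) (nat_lit 228) (nat_lit 13435035677) (nat_lit 304) (nat_lit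 4159614031) (nat_lit 66) (nat_lit 5) (nat_lit 69) (nat_lit 5) (nat_lit 70) (nat_lit 5) (nat_lit 381) (nat_lit 299) (nat_lit 220)) (XT.lf (nat_lit 0) (nat_lit 273212445) (nat_lit 304) (nat_lit 7849400956) (nat_lit 76) (nat_lit 9982785447) (nat_lit 65) (nat_lit 5) (nat_lit 69) (nat_lit 5) (nat_lit 66) (nat_lit 5) (nat_lit 382) (nat_lit 299) (nat_lit 219)))))) (XT.nd (nat_lit 546) (nat_lit 608) (nat_lit 0) (XT.nd (nat_lit 234) (nat_lit 380) (nat_lit 0) (XT.nd (nat_lit 78) (nat_lit 152) (nat_lit 0) (XT.lf (nat_lit 0) (nat_lit 2141259740) (nat_lit 152) (nat_lit 2607122027) (nat_lit 228) (nat_lit 13722966326) (nat_lit 63) (nat_lit 5) (nat_lit 65) (nat_lit 5) (nat_lit 66) (nat_lit 5) (nat_lit 383) (nat_lit 299) (nat_lit 218)) (XT.nd (nat_lit 78) (nat_lit 152) (nat_lit 0) (XT.lf (nat_lit 0) (nat_lit 9439942684) (nat_lit 228) (nat_lit 6331396579) (nat_lit 76) (nat_lit 3074477618) (nat_lit 63) (nat_lit 5) (nat_lit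 66) (nat_lit 5) (nat_lit 64) (nat_lit 5) (nat_lit 384) (nat_lit 299) (nat_lit 217)) (XT.lf (nat_lit 0) (nat_lit 3972641467) (nat_lit 152) (nat_lit 10336949896) (nat_lit 228) (nat_lit 4920813156) (nat_lit 61) (nat_lit 5) (nat_lit 63) (nat_lit 5) (nat_lit 64) (nat_lit 5) (nat_lit 385) (nat_lit 299) (nat_lit 216)))) (XT.nd (nat_lit 156) (nat_lit 152) (nat_lit 0) (XT.nd (nat_lit 78) (nat_lit 228) (nat_lit 0) (XT.lf (nat_lit 0) (nat_lit 14669720280) (nat_lit 152) (nat_lit 4693219881) (nat_lit 228) (nat_lit 262466172) (nat_lit 61) (nat_lit 5) (nat_lit 63) (nat_lit 5) (nat_lit 64) (nat_lit 5) (nat_lit 386) (nat_lit 299) (nat_lit 215)) (XT.lf (nat_lit 0) (nat_lit 4487437791) (nat_lit 228) (nat_lit 14364049412) (nat_lit 76) (nat_lit 1178258216) (nat_lit 58) (nat_lit 5) (nat_lit 61) (nat_lit 5) (nat_lit 59) (nat_lit 5) (nat_lit 387) (nat_lit 299) (nat_lit 214))) (XT.nd (nat_lit 78) (nat_lit 152) (nat_lit 0) (XT.lf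 (nat_lit 0) (nat_lit 9445893611) (nat_lit 228) (nat_lit 3832162811) (nat_lit 76) (nat_lit 7165944847) (nat_lit 58) (nat_lit 5) (nat_lit 61) (nat_lit 5) (nat_lit 59) (nat_lit 5) (nat_lit 388) (nat_lit 299) (nat_lit 213)) (XT.lf (nat_lit 0) (nat_lit 7110555280) (nat_lit 152) (nat_lit 7485971007) (nat_lit 228) (nat_lit 6272860137) (nat_lit 56) (nat_lit 5) (nat_lit 58) (nat_lit 5) (nat_lit 59) (nat_lit 5) (nat_lit 389) (nat_lit 299) (nat_lit 212))))) (XT.nd (nat_lit 234) (nat_lit 380) (nat_lit 0) (XT.nd (nat_lit 78) (nat_lit 228) (nat_lit 0) (XT.lf (nat_lit 0) (nat_lit 18416663018) (nat_lit 152) (nat_lit 1499092841) (nat_lit 228) (nat_lit 1391359136) (nat_lit 56) (nat_lit 5) (nat_lit 58) (nat_lit 5) (nat_lit 59) (nat_lit 5) (nat_lit 390) (nat_lit 299) (nat_lit 211)) (XT.nd (nat_lit 78) (nat_lit 0) (nat_lit 0) (XT.lf (nat_lit 0) (nat_lit 3667963921) (nat_lit 228) (nat_lit 13410992242) (nat_lit 76) (nat_lit 4674904305)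 (nat_lit 53) (nat_lit 5) (nat_lit 56) (nat_lit 5) (nat_lit 54) (nat_lit 5) (nat_lit 391) (nat_lit 299) (nat_lit 210)) (XT.lf (nat_lit 0) (nat_lit 8871398306) (nat_lit 228) (nat_lit 2312391020) (nat_lit 76) (nat_lit 11029200650) (nat_lit 53) (nat_lit 5) (nat_lit 56) (nat_lit 5) (nat_lit 54) (nat_lit 5) (nat_lit 392) (nat_lit 299) (nat_lit 209)))) (XT.nd (nat_lit 156) (nat_lit 228) (nat_lit 0) (XT.nd (nat_lit 78) (nat_lit 0) (nat_lit 0) (XT.lf (nat_lit 0) (nat_lit 9258286586) (nat_lit 152) (nat_lit 5038322330) (nat_lit 228) (nat_lit 8387317987) (nat_lit 51) (nat_lit 5) (nat_lit 53) (nat_lit 5) (nat_lit 54) (nat_lit 5) (nat_lit 393) (nat_lit 299) (nat_lit 208)) (XT.lf (nat_lit 0) (nat_lit 19897359222) (nat_lit 228) (nat_lit 1999108822) (nat_lit 76) (nat_lit 1272144013) (nat_lit 51) (nat_lit 5) (nat_lit 54) (nat_lit 5) (nat_lit 52) (nat_lit 4) (nat_lit 394) (nat_lit 299) (nat_lit 207))) (XT.nd (nat_lit 78)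 (nat_lit 0) (nat_lit 0) (XT.lf (nat_lit 0) (nat_lit 2082755449) (nat_lit 228) (nat_lit 13812054359) (nat_lit 76) (nat_lit 7768751454) (nat_lit 48) (nat_lit 5) (nat_lit 51) (nat_lit 5) (nat_lit 49) (nat_lit 5) (nat_lit 395) (nat_lit 299) (nat_lit 206)) (XT.lf (nat_lit 0) (nat_lit 7529532558) (nat_lit 228) (nat_lit 2147219732) (nat_lit 76) (nat_lit 14495701383) (nat_lit 48) (nat_lit 5) (nat_lit 51) (nat_lit 5) (nat_lit 49) (nat_lit 5) (nat_lit 396) (nat_lit 299) (nat_lit 205))))))))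
noncomputable def xc103 : XT := (XT.nd (nat_lit 2106) (nat_lit 760) (nat_lit 0) (XT.nd (nat_lit 1014) (nat_lit 760) (nat_lit 0) (XT.nd (nat_lit 468) (nat_lit 456) (nat_lit 0) (XT.nd (nat_lit 234) (nat_lit 228) (nat_lit 0) (XT.nd (nat_lit 78) (nat_lit 76) (nat_lit 0) (XT.lf (nat_lit 0) (nat_lit 10023842010) (nat_lit 152) (nat_lit 3190391868) (nat_lit 228) (nat_lit 11480146569) (nat_lit 46) (nat_lit 5) (nat_lit 48) (nat_lit 5) (nat_lit 49) (nat_lit 5) (nat_lit 397) (nat_lit 299) (nat_lit 204)) (XT.nd (nat_lit 78) (nat_lit 76) (nat_lit 0) (XT.lf (nat_lit 0) (nat_lit 19103187432) (nat_lit 228) (nat_lit 2700448234) (nat_lit 76) (nat_lit 3427321146) (nat_lit 46) (nat_lit 5) (nat_lit 49) (nat_lit 5) (nat_lit 47) (nat_lit 4) (nat_lit 398) (nat_lit 299) (nat_lit 203)) (XT.lf (nat_lit 0) (nat_lit 9749128191) (nat_lit 76) (nat_lit 15523877626) (nat_lit 152) (nat_lit 507501797) (nat_lit 45) (nat_lit 5) (nat_lit 46)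 (nat_lit 5) (nat_lit 47) (nat_lit 4) (nat_lit 399) (nat_lit 299) (nat_lit 202)))) (XT.nd (nat_lit 78) (nat_lit 152) (nat_lit 0) (XT.lf (nat_lit 0) (nat_lit 5184789125) (nat_lit 152) (nat_lit 3807532164) (nat_lit 76) (nat_lit 17352509258) (nat_lit 44) (nat_lit 5) (nat_lit 46) (nat_lit 5) (nat_lit 45) (nat_lit 5) (nat_lit 400) (nat_lit 299) (nat_lit 201)) (XT.nd (nat_lit 78) (nat_lit 0) (nat_lit 0) (XT.lf (nat_lit 0) (nat_lit 8914764951) (nat_lit 152) (nat_lit 2188125980) (nat_lit 228) (nat_lit 15821086996) (nat_lit 42) (nat_lit 5) (nat_lit 44) (nat_lit 5) (nat_lit 45) (nat_lit 5) (nat_lit 401) (nat_lit 299) (nat_lit 200)) (XT.lf (nat_lit 0) (nat_lit 17263329799) (nat_lit 228) (nat_lit 5506564405) (nat_lit 76) (nat_lit 4748664399) (nat_lit 42) (nat_lit 5) (nat_lit 45) (nat_lit 5) (nat_lit 43) (nat_lit 4) (nat_lit 402) (nat_lit 299) (nat_lit 199))))) (XT.nd (nat_lit 234) (nat_lit 152) (nat_lit 0) (XT.nd (nat_lit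 78) (nat_lit 228) (nat_lit 0) (XT.lf (nat_lit 0) (nat_lit 7458849536) (nat_lit 76) (nat_lit 16223319285) (nat_lit 152) (nat_lit 4446602885) (nat_lit 41) (nat_lit 5) (nat_lit 42) (nat_lit 5) (nat_lit 43) (nat_lit 4) (nat_lit 403) (nat_lit 299) (nat_lit 198)) (XT.nd (nat_lit 78) (nat_lit 152) (nat_lit 0) (XT.lf (nat_lit 0) (nat_lit 1542718287) (nat_lit 152) (nat_lit 7881075158) (nat_lit 76) (nat_lit 19331964746) (nat_lit 40) (nat_lit 5) (nat_lit 42) (nat_lit 5) (nat_lit 41) (nat_lit 5) (nat_lit 404) (nat_lit 299) (nat_lit 197)) (XT.lf (nat_lit 0) (nat_lit 5315961594) (nat_lit 152) (nat_lit 2338319259) (nat_lit 228) (nat_lit 21744997017) (nat_lit 38) (nat_lit 5) (nat_lit 40) (nat_lit 5) (nat_lit 41) (nat_lit 5) (nat_lit 405) (nat_lit 299) (nat_lit 196)))) (XT.nd (nat_lit 156) (nat_lit 76) (nat_lit 0) (XT.nd (nat_lit 78) (nat_lit 76) (nat_lit 0) (XT.lf (nat_lit 0) (nat_lit 14058141862) (nat_lit 228) (nat_lit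 11072972013) (nat_lit 76) (nat_lit 4927723041) (nat_lit 38) (nat_lit 5) (nat_lit 41) (nat_lit 5) (nat_lit 39) (nat_lit 4) (nat_lit 406) (nat_lit 299) (nat_lit 195)) (XT.lf (nat_lit 0) (nat_lit 2315484904) (nat_lit 76) (nat_lit 18365503864) (nat_lit 152) (nat_lit 10056390121) (nat_lit 37) (nat_lit 5) (nat_lit 38) (nat_lit 5) (nat_lit 39) (nat_lit 4) (nat_lit 407) (nat_lit 299) (nat_lit 194))) (XT.nd (nat_lit 78) (nat_lit 76) (nat_lit 0) (XT.lf (nat_lit 0) (nat_lit 16298686735) (nat_lit 76) (nat_lit 11297324362) (nat_lit 152) (nat_lit 3837463515) (nat_lit 37) (nat_lit 5) (nat_lit 38) (nat_lit 5) (nat_lit 39) (nat_lit 4) (nat_lit 408) (nat_lit 299) (nat_lit 193)) (XT.lf (nat_lit 0) (nat_lit 2499949573) (nat_lit 152) (nat_lit 1507020434) (nat_lit 76) (nat_lit 28143283794) (nat_lit 36) (nat_lit 5) (nat_lit 38) (nat_lit 5) (nat_lit 37) (nat_lit 5) (nat_lit 409) (nat_lit 299) (nat_lit 192)))))) (XT.nd (nat_lit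 546) (nat_lit 304) (nat_lit 0) (XT.nd (nat_lit 234) (nat_lit 228) (nat_lit 0) (XT.nd (nat_lit 78) (nat_lit 76) (nat_lit 0) (XT.lf (nat_lit 0) (nat_lit 9090166439) (nat_lit 228) (nat_lit 20212112374) (nat_lit 76) (nat_lit 3580925398) (nat_lit 34) (nat_lit 5) (nat_lit 37) (nat_lit 5) (nat_lit 35) (nat_lit 4) (nat_lit 410) (nat_lit 299) (nat_lit 191)) (XT.nd (nat_lit 78) (nat_lit 76) (nat_lit 0) (XT.lf (nat_lit 0) (nat_lit 15915744100) (nat_lit 228) (nat_lit 6404428792) (nat_lit 76) (nat_lit 11316842560) (nat_lit 34) (nat_lit 5) (nat_lit 37) (nat_lit 5) (nat_lit 35) (nat_lit 4) (nat_lit 411) (nat_lit 299) (nat_lit 190)) (XT.lf (nat_lit 0) (nat_lit 7941027349) (nat_lit 76) (nat_lit 15064514873) (nat_lit 152) (nat_lit 11406117104) (nat_lit 33) (nat_lit 5) (nat_lit 34) (nat_lit 5) (nat_lit 35) (nat_lit 4) (nat_lit 412) (nat_lit 299) (nat_lit 189)))) (XT.nd (nat_lit 156) (nat_lit 0) (nat_lit 0) (XT.nd (nat_lit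 78) (nat_lit 228) (nat_lit 0) (XT.lf (nat_lit 0) (nat_lit 22817023694) (nat_lit 76) (nat_lit 7538994535) (nat_lit 152) (nat_lit 4852086604) (nat_lit 33) (nat_lit 5) (nat_lit 34) (nat_lit 5) (nat_lit 35) (nat_lit 4) (nat_lit 413) (nat_lit 299) (nat_lit 188)) (XT.lf (nat_lit 0) (nat_lit 1867654448) (nat_lit 228) (nat_lit 33926951658) (nat_lit 76) (nat_lit 233107700) (nat_lit 30) (nat_lit 5) (nat_lit 33) (nat_lit 5) (nat_lit 31) (nat_lit 4) (nat_lit 414) (nat_lit 299) (nat_lit 187))) (XT.nd (nat_lit 78) (nat_lit 0) (nat_lit 0) (XT.lf (nat_lit 0) (nat_lit 8876160232) (nat_lit 228) (nat_lit 19741296361) (nat_lit 76) (nat_lit 8247474081) (nat_lit 30) (nat_lit 5) (nat_lit 33) (nat_lit 5) (nat_lit 31) (nat_lit 4) (nat_lit 415) (nat_lit 299) (nat_lit 186)) (XT.lf (nat_lit 0) (nat_lit 16079082971) (nat_lit 228) (nat_lit 5159762661) (nat_lit 76) (nat_lit 16488895193) (nat_lit 30) (nat_lit 5) (nat_lit 33) (nat_lit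 5) (nat_lit 31) (nat_lit 4) (nat_lit 416) (nat_lit 299) (nat_lit 185))))) (XT.nd (nat_lit 234) (nat_lit 152) (nat_lit 0) (XT.nd (nat_lit 78) (nat_lit 76) (nat_lit 0) (XT.lf (nat_lit 0) (nat_lit 10026034635) (nat_lit 76) (nat_lit 13553058224) (nat_lit 152) (nat_lit 15034914019) (nat_lit 29) (nat_lit 5) (nat_lit 30) (nat_lit 5) (nat_lit 31) (nat_lit 4) (nat_lit 417) (nat_lit 299) (nat_lit 184)) (XT.nd (nat_lit 78) (nat_lit 76) (nat_lit 0) (XT.lf (nat_lit 0) (nat_lit 25744632078) (nat_lit 76) (nat_lit 5596371032) (nat_lit 152) (nat_lit 8184752340) (nat_lit 29) (nat_lit 5) (nat_lit 30) (nat_lit 5) (nat_lit 31) (nat_lit 4) (nat_lit 418) (nat_lit 299) (nat_lit 183)) (XT.lf (nat_lit 0) (nat_lit 1445114735) (nat_lit 76) (nat_lit 37914645495) (nat_lit 76) (nat_lit 1104378052) (nat_lit 28) (nat_lit 4) (nat_lit 29) (nat_lit 5) (nat_lit 29) (nat_lit 4) (nat_lit 419) (nat_lit 299) (nat_lit 182)))) (XT.nd (nat_lit 156)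 (nat_lit 76) (nat_lit 0) (XT.nd (nat_lit 78) (nat_lit 0) (nat_lit 0) (XT.lf (nat_lit 0) (nat_lit 6248733601) (nat_lit 152) (nat_lit 24160187161) (nat_lit 76) (nat_lit 11014536114) (nat_lit 27) (nat_lit 5) (nat_lit 29) (nat_lit 5) (nat_lit 28) (nat_lit 4) (nat_lit 420) (nat_lit 299) (nat_lit 181)) (XT.lf (nat_lit 0) (nat_lit 13785809151) (nat_lit 152) (nat_lit 8893757708) (nat_lit 76) (nat_lit 19732094478) (nat_lit 27) (nat_lit 5) (nat_lit 29) (nat_lit 5) (nat_lit 28) (nat_lit 4) (nat_lit 421) (nat_lit 299) (nat_lit 180))) (XT.nd (nat_lit 78) (nat_lit 0) (nat_lit 0) (XT.lf (nat_lit 0) (nat_lit 6939637693) (nat_lit 76) (nat_lit 14662055132) (nat_lit 152) (nat_lit 21826239555) (nat_lit 26) (nat_lit 5) (nat_lit 27) (nat_lit 5) (nat_lit 28) (nat_lit 4) (nat_lit 422) (nat_lit 299) (nat_lit 179)) (XT.lf (nat_lit 0) (nat_lit 23404163267) (nat_lit 76) (nat_lit 6323843490) (nat_lit 152) (nat_lit 14744407474) (nat_lit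 26) (nat_lit 5) (nat_lit 27) (nat_lit 5) (nat_lit 28) (nat_lit 4) (nat_lit 423) (nat_lit 299) (nat_lit 178))))))) (XT.nd (nat_lit 1014) (nat_lit 304) (nat_lit 0) (XT.nd (nat_lit 468) (nat_lit 228) (nat_lit 0) (XT.nd (nat_lit 234) (nat_lit 76) (nat_lit 0) (XT.nd (nat_lit 78) (nat_lit 152) (nat_lit 0) (XT.lf (nat_lit 0) (nat_lit 38106310739) (nat_lit 152) (nat_lit 5233085913) (nat_lit 0) (nat_lit 2208589114) (nat_lit 26) (nat_lit 5) (nat_lit 28) (nat_lit 4) (nat_lit 26) (nat_lit 4) (nat_lit 424) (nat_lit 299) (nat_lit 177)) (XT.nd (nat_lit 78) (nat_lit 0) (nat_lit 0) (XT.lf (nat_lit 0) (nat_lit 237311619) (nat_lit 152) (nat_lit 35445164466) (nat_lit 76) (nat_lit 10968564349) (nat_lit 24) (nat_lit 5) (nat_lit 26) (nat_lit 5) (nat_lit 25) (nat_lit 4) (nat_lit 425) (nat_lit 299) (nat_lit 176)) (XT.lf (nat_lit 0) (nat_lit 8037308496) (nat_lit 152) (nat_lit 19639506174) (nat_lit 76) (nat_lit 20106956489) (nat_lit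 24) (nat_lit 5) (nat_lit 26) (nat_lit 5) (nat_lit 25) (nat_lit 4) (nat_lit 426) (nat_lit 299) (nat_lit 175)))) (XT.nd (nat_lit 78) (nat_lit 76) (nat_lit 0) (XT.lf (nat_lit 0) (nat_lit 16058532285) (nat_lit 152) (nat_lit 3383931950) (nat_lit 76) (nat_lit 29508403872) (nat_lit 24) (nat_lit 5) (nat_lit 26) (nat_lit 5) (nat_lit 25) (nat_lit 4) (nat_lit 427) (nat_lit 299) (nat_lit 174)) (XT.nd (nat_lit 78) (nat_lit 0) (nat_lit 0) (XT.lf (nat_lit 0) (nat_lit 13601169922) (nat_lit 76) (nat_lit 10837564666) (nat_lit 152) (nat_lit 25710694198) (nat_lit 23) (nat_lit 5) (nat_lit 24) (nat_lit 5) (nat_lit 25) (nat_lit 4) (nat_lit 428) (nat_lit 299) (nat_lit 173)) (XT.lf (nat_lit 0) (nat_lit 31141875601) (nat_lit 76) (nat_lit 1950374532) (nat_lit 152) (nat_lit 18291039985) (nat_lit 23) (nat_lit 5) (nat_lit 24) (nat_lit 5) (nat_lit 25) (nat_lit 4) (nat_lit 429) (nat_lit 299) (nat_lit 172))))) (XT.nd (nat_lit 234) (nat_lit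 76) (nat_lit 0) (XT.nd (nat_lit 78) (nat_lit 152) (nat_lit 0) (XT.lf (nat_lit 0) (nat_lit 42062605078) (nat_lit 152) (nat_lit 3537501108) (nat_lit 0) (nat_lit 7052345100) (nat_lit 23) (nat_lit 5) (nat_lit 25) (nat_lit 4) (nat_lit 23) (nat_lit 4) (nat_lit 430) (nat_lit 299) (nat_lit 171)) (XT.nd (nat_lit 78) (nat_lit 76) (nat_lit 0) (XT.lf (nat_lit 0) (nat_lit 13897177338) (nat_lit 76) (nat_lit 37546132090) (nat_lit 76) (nat_lit 2512141686) (nat_lit 22) (nat_lit 4) (nat_lit 23) (nat_lit 5) (nat_lit 23) (nat_lit 4) (nat_lit 431) (nat_lit 299) (nat_lit 170)) (XT.lf (nat_lit 0) (nat_lit 5718989438) (nat_lit 152) (nat_lit 23447481090) (nat_lit 76) (nat_lit 26128663614) (nat_lit 21) (nat_lit 5) (nat_lit 23) (nat_lit 5) (nat_lit 22) (nat_lit 4) (nat_lit 432) (nat_lit 299) (nat_lit 169)))) (XT.nd (nat_lit 156) (nat_lit 0) (nat_lit 0) (XT.nd (nat_lit 78) (nat_lit 76) (nat_lit 0) (XT.lf (nat_lit 0) (nat_lit 14135255064)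 (nat_lit 152) (nat_lit 6384830072) (nat_lit 76) (nat_lit 36154516485) (nat_lit 21) (nat_lit 5) (nat_lit 23) (nat_lit 5) (nat_lit 22) (nat_lit 4) (nat_lit 433) (nat_lit 299) (nat_lit 168)) (XT.lf (nat_lit 0) (nat_lit 11391016391) (nat_lit 76) (nat_lit 11511511168) (nat_lit 152) (nat_lit 35189970875) (nat_lit 20) (nat_lit 5) (nat_lit 21) (nat_lit 5) (nat_lit 22) (nat_lit 4) (nat_lit 434) (nat_lit 299) (nat_lit 167))) (XT.nd (nat_lit 78) (nat_lit 0) (nat_lit 0) (XT.lf (nat_lit 0) (nat_lit 29810262690) (nat_lit 76) (nat_lit 2176171506) (nat_lit 152) (nat_lit 27564890325) (nat_lit 20) (nat_lit 5) (nat_lit 21) (nat_lit 5) (nat_lit 22) (nat_lit 4) (nat_lit 435) (nat_lit 299) (nat_lit 166)) (XT.lf (nat_lit 0) (nat_lit 41403734019) (nat_lit 152) (nat_lit 12363717826) (nat_lit 0) (nat_lit 7284638094) (nat_lit 20) (nat_lit 5) (nat_lit 22) (nat_lit 4) (nat_lit 20) (nat_lit 4) (nat_lit 436) (nat_lit 299) (nat_lit 165))))))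 (XT.nd (nat_lit 546) (nat_lit 76) (nat_lit 0) (XT.nd (nat_lit 234) (nat_lit 76) (nat_lit 0) (XT.nd (nat_lit 78) (nat_lit 76) (nat_lit 0) (XT.lf (nat_lit 0) (nat_lit 5602949113) (nat_lit 76) (nat_lit 45565684263) (nat_lit 76) (nat_lit 11427293330) (nat_lit 19) (nat_lit 4) (nat_lit 20) (nat_lit 5) (nat_lit 20) (nat_lit 4) (nat_lit 437) (nat_lit 299) (nat_lit 164)) (XT.nd (nat_lit 78) (nat_lit 76) (nat_lit 0) (XT.lf (nat_lit 0) (nat_lit 24342469271) (nat_lit 76) (nat_lit 36998647460) (nat_lit 76) (nat_lit 2841523510) (nat_lit 19) (nat_lit 4) (nat_lit 20) (nat_lit 5) (nat_lit 20) (nat_lit 4) (nat_lit 438) (nat_lit 299) (nat_lit 163)) (XT.lf (nat_lit 0) (nat_lit 5874688538) (nat_lit 152) (nat_lit 22249693612) (nat_lit 76) (nat_lit 37691143386) (nat_lit 18) (nat_lit 5) (nat_lit 20) (nat_lit 5) (nat_lit 19) (nat_lit 4) (nat_lit 439) (nat_lit 299) (nat_lit 162)))) (XT.nd (nat_lit 156) (nat_lit 0) (nat_lit 0) (XT.nd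 (nat_lit 78) (nat_lit 76) (nat_lit 0) (XT.lf (nat_lit 0) (nat_lit 14785553050) (nat_lit 152) (nat_lit 4178296316) (nat_lit 76) (nat_lit 48532996381) (nat_lit 18) (nat_lit 5) (nat_lit 20) (nat_lit 5) (nat_lit 19) (nat_lit 4) (nat_lit 440) (nat_lit 299) (nat_lit 161)) (XT.lf (nat_lit 0) (nat_lit 14704054994) (nat_lit 76) (nat_lit 9391593955) (nat_lit 152) (nat_lit 45129000145) (nat_lit 17) (nat_lit 5) (nat_lit 18) (nat_lit 5) (nat_lit 19) (nat_lit 4) (nat_lit 441) (nat_lit 299) (nat_lit 160))) (XT.nd (nat_lit 78) (nat_lit 0) (nat_lit 0) (XT.lf (nat_lit 0) (nat_lit 33722735993) (nat_lit 152) (nat_lit 36787545178) (nat_lit 0) (nat_lit 492875394) (nat_lit 17) (nat_lit 5) (nat_lit 19) (nat_lit 4) (nat_lit 17) (nat_lit 4) (nat_lit 442) (nat_lit 299) (nat_lit 159)) (XT.lf (nat_lit 0) (nat_lit 43722476929) (nat_lit 152) (nat_lit 18633100022) (nat_lit 0) (nat_lit 10476927723) (nat_lit 17) (nat_lit 5) (nat_lit 19)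 (nat_lit 4) (nat_lit 17) (nat_lit 4) (nat_lit 443) (nat_lit 299) (nat_lit 158))))) (XT.nd (nat_lit 35646) (nat_lit 0) (nat_lit 27360) (XT.nd (nat_lit 78) (nat_lit 0) (nat_lit 0) (XT.lf (nat_lit 0) (nat_lit 49855074) (nat_lit 76) (nat_lit 53963955811) (nat_lit 76) (nat_lit 20703174948) (nat_lit 16) (nat_lit 4) (nat_lit 17) (nat_lit 5) (nat_lit 17) (nat_lit 4) (nat_lit 444) (nat_lit 299) (nat_lit 157)) (XT.nd (nat_lit 78) (nat_lit 0) (nat_lit 0) (XT.lf (nat_lit 0) (nat_lit 19658330451) (nat_lit 76) (nat_lit 45134929608) (nat_lit 76) (nat_lit 11859360729) (nat_lit 16) (nat_lit 4) (nat_lit 17) (nat_lit 5) (nat_lit 17) (nat_lit 4) (nat_lit 445) (nat_lit 299) (nat_lit 156)) (XT.lf (nat_lit 0) (nat_lit 39838624500) (nat_lit 76) (nat_lit 36048941434) (nat_lit 76) (nat_lit 2759015257) (nat_lit 16) (nat_lit 4) (nat_lit 17) (nat_lit 5) (nat_lit 17) (nat_lit 4) (nat_lit 446) (nat_lit 299) (nat_lit 155)))) (XT.nd (nat_lit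 156) (nat_lit 152) (nat_lit 0) (XT.nd (nat_lit 78) (nat_lit 76) (nat_lit 0) (XT.lf (nat_lit 0) (nat_lit 1073741823) (nat_lit 0) (nat_lit 0) (nat_lit 0) (nat_lit 0) (nat_lit 379) (nat_lit 0) (nat_lit 1) (nat_lit 0) (nat_lit 1) (nat_lit 0) (nat_lit 300) (nat_lit 300) (nat_lit 300)) (XT.lf (nat_lit 0) (nat_lit 3084982466) (nat_lit 76) (nat_lit 3297645270) (nat_lit 0) (nat_lit 60783406) (nat_lit 378) (nat_lit 5) (nat_lit 379) (nat_lit 0) (nat_lit 378) (nat_lit 4) (nat_lit 301) (nat_lit 300) (nat_lit 299))) (XT.nd (nat_lit 78) (nat_lit 152) (nat_lit 0) (XT.lf (nat_lit 0) (nat_lit 6142717983) (nat_lit 76) (nat_lit 122994767) (nat_lit 0) (nat_lit 182403332) (nat_lit 378) (nat_lit 5) (nat_lit 379) (nat_lit 0) (nat_lit 378) (nat_lit 4) (nat_lit 302) (nat_lit 300) (nat_lit 298)) (XT.lf (nat_lit 0) (nat_lit 2696782353) (nat_lit 152) (nat_lit 3336444135) (nat_lit 76) (nat_lit 421643074) (nat_lit 376) (nat_lit 5) (nat_lit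 378) (nat_lit 5) (nat_lit 377) (nat_lit 4) (nat_lit 303) (nat_lit 300) (nat_lit 297))))))))
noncomputable def xc104 : XT := (XT.nd (nat_lit 2028) (nat_lit 8284) (nat_lit 0) (XT.nd (nat_lit 1014) (nat_lit 7980) (nat_lit 0) (XT.nd (nat_lit 468) (nat_lit 2128) (nat_lit 0) (XT.nd (nat_lit 234) (nat_lit 456) (nat_lit 0) (XT.nd (nat_lit 78) (nat_lit 456) (nat_lit 0) (XT.lf (nat_lit 0) (nat_lit 5669391949) (nat_lit 152) (nat_lit 69617201) (nat_lit 76) (nat_lit 726242412) (nat_lit 376) (nat_lit 5) (nat_lit 378) (nat_lit 5) (nat_lit 377) (nat_lit 4) (nat_lit 304) (nat_lit 300) (nat_lit 296)) (XT.nd (nat_lit 78) (nat_lit 228) (nat_lit 0) (XT.lf (nat_lit 0) (nat_lit 2130614409) (nat_lit 228) (nat_lit 3202308451) (nat_lit 76) (nat_lit 1144895455) (nat_lit 373) (nat_lit 5) (nat_lit 376) (nat_lit 5) (nat_lit 374) (nat_lit 5) (nat_lit 305) (nat_lit 300) (nat_lit 295)) (XT.lf (nat_lit 0) (nat_lit 162762459) (nat_lit 228)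 (nat_lit 4858458411) (nat_lit 304) (nat_lit 1472636988) (nat_lit 370) (nat_lit 5) (nat_lit 373) (nat_lit 5) (nat_lit 374) (nat_lit 5) (nat_lit 306) (nat_lit 300) (nat_lit 294)))) (XT.nd (nat_lit 78) (nat_lit 380) (nat_lit 0) (XT.lf (nat_lit 0) (nat_lit 1383275193) (nat_lit 304) (nat_lit 2895434290) (nat_lit 76) (nat_lit 2233611857) (nat_lit 369) (nat_lit 5) (nat_lit 373) (nat_lit 5) (nat_lit 370) (nat_lit 5) (nat_lit 307) (nat_lit 300) (nat_lit 293)) (XT.nd (nat_lit 78) (nat_lit 76) (nat_lit 0) (XT.lf (nat_lit 0) (nat_lit 576044011) (nat_lit 304) (nat_lit 3619410490) (nat_lit 380) (nat_lit 2338534694) (nat_lit 365) (nat_lit 5) (nat_lit 369) (nat_lit 5) (nat_lit 370) (nat_lit 5) (nat_lit 308) (nat_lit 300) (nat_lit 292)) (XT.lf (nat_lit 0) (nat_lit 450769864) (nat_lit 380) (nat_lit 2415292680) (nat_lit 76) (nat_lit 3692412295) (nat_lit 364) (nat_lit 5) (nat_lit 369) (nat_lit 5) (nat_lit 365) (nat_lit 5)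 (nat_lit 309) (nat_lit 300) (nat_lit 291))))) (XT.nd (nat_lit 234) (nat_lit 1216) (nat_lit 0) (XT.nd (nat_lit 78) (nat_lit 532) (nat_lit 0) (XT.lf (nat_lit 0) (nat_lit 1169774158) (nat_lit 380) (nat_lit 2017254132) (nat_lit 456) (nat_lit 3398749435) (nat_lit 359) (nat_lit 5) (nat_lit 364) (nat_lit 5) (nat_lit 365) (nat_lit 5) (nat_lit 310) (nat_lit 300) (nat_lit 290)) (XT.nd (nat_lit 78) (nat_lit 532) (nat_lit 0) (XT.lf (nat_lit 0) (nat_lit 4848989116) (nat_lit 380) (nat_lit 1082143479) (nat_lit 456) (nat_lit 685077464) (nat_lit 359) (nat_lit 5) (nat_lit 364) (nat_lit 5) (nat_lit 365) (nat_lit 5) (nat_lit 311) (nat_lit 300) (nat_lit 289)) (XT.lf (nat_lit 0) (nat_lit 1945621477) (nat_lit 456) (nat_lit 45125853) (nat_lit 532) (nat_lit 4658620394) (nat_lit 352) (nat_lit 5) (nat_lit 358) (nat_lit 5) (nat_lit 359) (nat_lit 5) (nat_lit 312) (nat_lit 300) (nat_lit 288)))) (XT.nd (nat_lit 156) (nat_lit 608) (nat_lit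 0) (XT.nd (nat_lit 78) (nat_lit 608) (nat_lit 0) (XT.lf (nat_lit 0) (nat_lit 4666674402) (nat_lit 532) (nat_lit 959392883) (nat_lit 76) (nat_lit 1059317490) (nat_lit 352) (nat_lit 5) (nat_lit 359) (nat_lit 5) (nat_lit 353) (nat_lit 5) (nat_lit 313) (nat_lit 300) (nat_lit 287)) (XT.lf (nat_lit 0) (nat_lit 622739033) (nat_lit 608) (nat_lit 3841109254) (nat_lit 76) (nat_lit 2260423478) (nat_lit 344) (nat_lit 5) (nat_lit 352) (nat_lit 5) (nat_lit 345) (nat_lit 5) (nat_lit 314) (nat_lit 300) (nat_lit 286))) (XT.nd (nat_lit 78) (nat_lit 0) (nat_lit 0) (XT.lf (nat_lit 0) (nat_lit 11752003) (nat_lit 608) (nat_lit 3210591562) (nat_lit 684) (nat_lit 3543867209) (nat_lit 336) (nat_lit 5) (nat_lit 344) (nat_lit 5) (nat_lit 345) (nat_lit 5) (nat_lit 315) (nat_lit 300) (nat_lit 285)) (XT.lf (nat_lit 0) (nat_lit 3994554904) (nat_lit 608) (nat_lit 1855772292) (nat_lit 684) (nat_lit 960636599) (nat_lit 336) (nat_lit 5)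 (nat_lit 344) (nat_lit 5) (nat_lit 345) (nat_lit 5) (nat_lit 316) (nat_lit 300) (nat_lit 284)))))) (XT.nd (nat_lit 468) (nat_lit 4560) (nat_lit 0) (XT.nd (nat_lit 234) (nat_lit 1900) (nat_lit 0) (XT.nd (nat_lit 78) (nat_lit 760) (nat_lit 0) (XT.lf (nat_lit 0) (nat_lit 1182211533) (nat_lit 684) (nat_lit 409332545) (nat_lit 760) (nat_lit 5267349911) (nat_lit 326) (nat_lit 5) (nat_lit 335) (nat_lit 5) (nat_lit 336) (nat_lit 5) (nat_lit 317) (nat_lit 300) (nat_lit 283)) (XT.nd (nat_lit 78) (nat_lit 760) (nat_lit 0) (XT.lf (nat_lit 0) (nat_lit 4155472095) (nat_lit 760) (nat_lit 1635541272) (nat_lit 76) (nat_lit 1118390529) (nat_lit 326) (nat_lit 5) (nat_lit 336) (nat_lit 5) (nat_lit 327) (nat_lit 5) (nat_lit 318) (nat_lit 300) (nat_lit 282)) (XT.lf (nat_lit 0) (nat_lit 2507164073) (nat_lit 760) (nat_lit 4235153224) (nat_lit 836) (nat_lit 220791859) (nat_lit 316) (nat_lit 5) (nat_lit 326) (nat_lit 5) (nat_lit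 327) (nat_lit 5) (nat_lit 319) (nat_lit 300) (nat_lit 281)))) (XT.nd (nat_lit 78) (nat_lit 1824) (nat_lit 0) (XT.lf (nat_lit 0) (nat_lit 2277188115) (nat_lit 836) (nat_lit 298955775) (nat_lit 76) (nat_lit 4443585998) (nat_lit 315) (nat_lit 5) (nat_lit 326) (nat_lit 5) (nat_lit 316) (nat_lit 5) (nat_lit 320) (nat_lit 300) (nat_lit 280)) (XT.nd (nat_lit 78) (nat_lit 988) (nat_lit 0) (XT.lf (nat_lit 0) (nat_lit 3994839489) (nat_lit 836) (nat_lit 810368729) (nat_lit 912) (nat_lit 2274044232) (nat_lit 304) (nat_lit 5) (nat_lit 315) (nat_lit 5) (nat_lit 316) (nat_lit 5) (nat_lit 321) (nat_lit 300) (nat_lit 279)) (XT.lf (nat_lit 0) (nat_lit 210244727) (nat_lit 988) (nat_lit 5912378257) (nat_lit 76) (nat_lit 1019502778) (nat_lit 291) (nat_lit 5) (nat_lit 304) (nat_lit 5) (nat_lit 292) (nat_lit 5) (nat_lit 322) (nat_lit 300) (nat_lit 278))))) (XT.nd (nat_lit 234) (nat_lit 2432) (nat_lit 0) (XT.nd (nat_lit 78) (nat_lit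 2128) (nat_lit 0) (XT.lf (nat_lit 0) (nat_lit 2686621295) (nat_lit 988) (nat_lit 1566713591) (nat_lit 76) (nat_lit 2954027259) (nat_lit 291) (nat_lit 5) (nat_lit 304) (nat_lit 5) (nat_lit 292) (nat_lit 5) (nat_lit 323) (nat_lit 300) (nat_lit 277)) (XT.nd (nat_lit 78) (nat_lit 1140) (nat_lit 0) (XT.lf (nat_lit 0) (nat_lit 2901398114) (nat_lit 988) (nat_lit 2289787486) (nat_lit 1064) (nat_lit 2084801941) (nat_lit 278) (nat_lit 5) (nat_lit 291) (nat_lit 5) (nat_lit 292) (nat_lit 5) (nat_lit 324) (nat_lit 300) (nat_lit 276)) (XT.lf (nat_lit 0) (nat_lit 122212480) (nat_lit 1064) (nat_lit 237660291) (nat_lit 1140) (nat_lit 6988404540) (nat_lit 263) (nat_lit 5) (nat_lit 277) (nat_lit 5) (nat_lit 278) (nat_lit 5) (nat_lit 325) (nat_lit 300) (nat_lit 275)))) (XT.nd (nat_lit 156) (nat_lit 1292) (nat_lit 0) (XT.nd (nat_lit 78) (nat_lit 1140) (nat_lit 0) (XT.lf (nat_lit 0) (nat_lit 2826991036) (nat_lit 1140) (nat_lit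 2683961161) (nat_lit 76) (nat_lit 1911478827) (nat_lit 263) (nat_lit 5) (nat_lit 278) (nat_lit 5) (nat_lit 264) (nat_lit 5) (nat_lit 326) (nat_lit 300) (nat_lit 274)) (XT.lf (nat_lit 0) (nat_lit 1965324127) (nat_lit 1140) (nat_lit 3354490352) (nat_lit 1216) (nat_lit 2180487494) (nat_lit 248) (nat_lit 5) (nat_lit 263) (nat_lit 5) (nat_lit 264) (nat_lit 5) (nat_lit 327) (nat_lit 300) (nat_lit 273))) (XT.nd (nat_lit 78) (nat_lit 1216) (nat_lit 0) (XT.lf (nat_lit 0) (nat_lit 259432706) (nat_lit 1216) (nat_lit 839660337) (nat_lit 76) (nat_lit 6482613137) (nat_lit 247) (nat_lit 5) (nat_lit 263) (nat_lit 5) (nat_lit 248) (nat_lit 5) (nat_lit 328) (nat_lit 300) (nat_lit 272)) (XT.lf (nat_lit 0) (nat_lit 2712597689) (nat_lit 1292) (nat_lit 3689357109) (nat_lit 76) (nat_lit 1263473552) (nat_lit 231) (nat_lit 5) (nat_lit 248) (nat_lit 5) (nat_lit 232) (nat_lit 5) (nat_lit 329) (nat_lit 300) (nat_lit 271))))))) (XT.nd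 (nat_lit 1014) (nat_lit 3648) (nat_lit 0) (XT.nd (nat_lit 468) (nat_lit 2128) (nat_lit 0) (XT.nd (nat_lit 234) (nat_lit 1216) (nat_lit 0) (XT.nd (nat_lit 78) (nat_lit 684) (nat_lit 0) (XT.lf (nat_lit 0) (nat_lit 1148185497) (nat_lit 608) (nat_lit 4056156918) (nat_lit 684) (nat_lit 2548408762) (nat_lit 223) (nat_lit 5) (nat_lit 231) (nat_lit 5) (nat_lit 232) (nat_lit 5) (nat_lit 330) (nat_lit 300) (nat_lit 270)) (XT.nd (nat_lit 78) (nat_lit 684) (nat_lit 0) (XT.lf (nat_lit 0) (nat_lit 6141790265) (nat_lit 608) (nat_lit 1602093066) (nat_lit 684) (nat_lit 99656454) (nat_lit 223) (nat_lit 5) (nat_lit 231) (nat_lit 5) (nat_lit 232) (nat_lit 5) (nat_lit 331) (nat_lit 300) (nat_lit 269)) (XT.lf (nat_lit 0) (nat_lit 2353693685) (nat_lit 684) (nat_lit 4621090706) (nat_lit 76) (nat_lit 962252071) (nat_lit 214) (nat_lit 5) (nat_lit 223) (nat_lit 5) (nat_lit 215) (nat_lit 5) (nat_lit 332) (nat_lit 300) (nat_lit 268))))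 (XT.nd (nat_lit 78) (nat_lit 608) (nat_lit 0) (XT.lf (nat_lit 0) (nat_lit 411912702) (nat_lit 608) (nat_lit 4442119271) (nat_lit 684) (nat_lit 3180048982) (nat_lit 206) (nat_lit 5) (nat_lit 214) (nat_lit 5) (nat_lit 215) (nat_lit 5) (nat_lit 333) (nat_lit 300) (nat_lit 267)) (XT.nd (nat_lit 78) (nat_lit 608) (nat_lit 0) (XT.lf (nat_lit 0) (nat_lit 5625934996) (nat_lit 608) (nat_lit 1789501327) (nat_lit 684) (nat_lit 719052024) (nat_lit 206) (nat_lit 5) (nat_lit 214) (nat_lit 5) (nat_lit 215) (nat_lit 5) (nat_lit 334) (nat_lit 300) (nat_lit 266)) (XT.lf (nat_lit 0) (nat_lit 1756580973) (nat_lit 608) (nat_lit 5517598818) (nat_lit 76) (nat_lit 963948719) (nat_lit 198) (nat_lit 5) (nat_lit 206) (nat_lit 5) (nat_lit 199) (nat_lit 5) (nat_lit 335) (nat_lit 300) (nat_lit 265))))) (XT.nd (nat_lit 234) (nat_lit 1064) (nat_lit 0) (XT.nd (nat_lit 78) (nat_lit 1064) (nat_lit 0) (XT.lf (nat_lit 0) (nat_lit 4276947433)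 (nat_lit 608) (nat_lit 276431059) (nat_lit 76) (nat_lit 3791768725) (nat_lit 198) (nat_lit 5) (nat_lit 206) (nat_lit 5) (nat_lit 199) (nat_lit 5) (nat_lit 336) (nat_lit 300) (nat_lit 264)) (XT.nd (nat_lit 78) (nat_lit 532) (nat_lit 0) (XT.lf (nat_lit 0) (nat_lit 5159414304) (nat_lit 532) (nat_lit 1706423110) (nat_lit 608) (nat_lit 1589781229) (nat_lit 191) (nat_lit 5) (nat_lit 198) (nat_lit 5) (nat_lit 199) (nat_lit 5) (nat_lit 337) (nat_lit 300) (nat_lit 263)) (XT.lf (nat_lit 0) (nat_lit 923642479) (nat_lit 532) (nat_lit 6418311068) (nat_lit 76) (nat_lit 1227817478) (nat_lit 184) (nat_lit 5) (nat_lit 191) (nat_lit 5) (nat_lit 185) (nat_lit 5) (nat_lit 338) (nat_lit 300) (nat_lit 262)))) (XT.nd (nat_lit 156) (nat_lit 532) (nat_lit 0) (XT.nd (nat_lit 78) (nat_lit 532) (nat_lit 0) (XT.lf (nat_lit 0) (nat_lit 3475766974) (nat_lit 532) (nat_lit 953935235) (nat_lit 76) (nat_lit 4257343051) (nat_lit 184) (nat_lit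 5) (nat_lit 191) (nat_lit 5) (nat_lit 185) (nat_lit 5) (nat_lit 339) (nat_lit 300) (nat_lit 261)) (XT.lf (nat_lit 0) (nat_lit 4703292068) (nat_lit 532) (nat_lit 1392724607) (nat_lit 608) (nat_lit 2712100444) (nat_lit 177) (nat_lit 5) (nat_lit 184) (nat_lit 5) (nat_lit 185) (nat_lit 5) (nat_lit 340) (nat_lit 300) (nat_lit 260))) (XT.nd (nat_lit 78) (nat_lit 76) (nat_lit 0) (XT.lf (nat_lit 0) (nat_lit 1567310020) (nat_lit 456) (nat_lit 7216262393) (nat_lit 532) (nat_lit 149613241) (nat_lit 171) (nat_lit 5) (nat_lit 177) (nat_lit 5) (nat_lit 178) (nat_lit 5) (nat_lit 341) (nat_lit 300) (nat_lit 259)) (XT.lf (nat_lit 0) (nat_lit 2444430800) (nat_lit 532) (nat_lit 1669338823) (nat_lit 76) (nat_lit 4947444661) (nat_lit 170) (nat_lit 5) (nat_lit 177) (nat_lit 5) (nat_lit 171) (nat_lit 5) (nat_lit 342) (nat_lit 300) (nat_lit 258)))))) (XT.nd (nat_lit 546) (nat_lit 1444) (nat_lit 0) (XT.nd (nat_lit 234) (nat_lit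 1292) (nat_lit 0) (XT.nd (nat_lit 78) (nat_lit 456) (nat_lit 0) (XT.lf (nat_lit 0) (nat_lit 4216565592) (nat_lit 456) (nat_lit 886397201) (nat_lit 532) (nat_lit 4090409643) (nat_lit 164) (nat_lit 5) (nat_lit 170) (nat_lit 5) (nat_lit 171) (nat_lit 5) (nat_lit 343) (nat_lit 300) (nat_lit 257)) (XT.nd (nat_lit 78) (nat_lit 76) (nat_lit 0) (XT.lf (nat_lit 0) (nat_lit 915414524) (nat_lit 380) (nat_lit 6925009935) (nat_lit 456) (nat_lit 1489118296) (nat_lit 159) (nat_lit 5) (nat_lit 164) (nat_lit 5) (nat_lit 165) (nat_lit 5) (nat_lit 344) (nat_lit 300) (nat_lit 256)) (XT.lf (nat_lit 0) (nat_lit 1176781864) (nat_lit 456) (nat_lit 2466100767) (nat_lit 76) (nat_lit 5826299798) (nat_lit 158) (nat_lit 5) (nat_lit 164) (nat_lit 5) (nat_lit 159) (nat_lit 5) (nat_lit 345) (nat_lit 300) (nat_lit 255)))) (XT.nd (nat_lit 156) (nat_lit 456) (nat_lit 0) (XT.nd (nat_lit 78) (nat_lit 380) (nat_lit 0) (XT.lf (nat_lit 0) (nat_lit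 3655283940) (nat_lit 456) (nat_lit 224296294) (nat_lit 532) (nat_lit 5733403929) (nat_lit 152) (nat_lit 5) (nat_lit 158) (nat_lit 5) (nat_lit 159) (nat_lit 5) (nat_lit 346) (nat_lit 300) (nat_lit 254)) (XT.lf (nat_lit 0) (nat_lit 159304280) (nat_lit 380) (nat_lit 6514933160) (nat_lit 456) (nat_lit 3086559375) (nat_lit 147) (nat_lit 5) (nat_lit 152) (nat_lit 5) (nat_lit 153) (nat_lit 5) (nat_lit 347) (nat_lit 300) (nat_lit 253))) (XT.nd (nat_lit 78) (nat_lit 456) (nat_lit 0) (XT.lf (nat_lit 0) (nat_lit 6517916104) (nat_lit 380) (nat_lit 3050373826) (nat_lit 456) (nat_lit 344306775) (nat_lit 147) (nat_lit 5) (nat_lit 152) (nat_lit 5) (nat_lit 153) (nat_lit 5) (nat_lit 348) (nat_lit 300) (nat_lit 252)) (XT.lf (nat_lit 0) (nat_lit 2419825711) (nat_lit 456) (nat_lit 7102546770) (nat_lit 76) (nat_lit 546240968) (nat_lit 141) (nat_lit 5) (nat_lit 147) (nat_lit 5) (nat_lit 142) (nat_lit 5) (nat_lit 349) (nat_lit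 300) (nat_lit 251))))) (XT.nd (nat_lit 234) (nat_lit 684) (nat_lit 0) (XT.nd (nat_lit 78) (nat_lit 760) (nat_lit 0) (XT.lf (nat_lit 0) (nat_lit 5279484829) (nat_lit 456) (nat_lit 736536182) (nat_lit 76) (nat_lit 4212619598) (nat_lit 141) (nat_lit 5) (nat_lit 147) (nat_lit 5) (nat_lit 142) (nat_lit 5) (nat_lit 350) (nat_lit 300) (nat_lit 250)) (XT.nd (nat_lit 78) (nat_lit 456) (nat_lit 0) (XT.lf (nat_lit 0) (nat_lit 5875368620) (nat_lit 304) (nat_lit 2362064234) (nat_lit 380) (nat_lit 2155678104) (nat_lit 137) (nat_lit 5) (nat_lit 141) (nat_lit 5) (nat_lit 142) (nat_lit 5) (nat_lit 351) (nat_lit 300) (nat_lit 249)) (XT.lf (nat_lit 0) (nat_lit 705290080) (nat_lit 456) (nat_lit 8463845023) (nat_lit 76) (nat_lit 1393255552) (nat_lit 131) (nat_lit 5) (nat_lit 137) (nat_lit 5) (nat_lit 132) (nat_lit 5) (nat_lit 352) (nat_lit 300) (nat_lit 248)))) (XT.nd (nat_lit 156) (nat_lit 380) (nat_lit 0) (XT.nd (nat_lit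 78) (nat_lit 304) (nat_lit 0) (XT.lf (nat_lit 0) (nat_lit 3635051734) (nat_lit 456) (nat_lit 1835226310) (nat_lit 76) (nat_lit 5265057534) (nat_lit 131) (nat_lit 5) (nat_lit 137) (nat_lit 5) (nat_lit 132) (nat_lit 5) (nat_lit 353) (nat_lit 300) (nat_lit 247)) (XT.lf (nat_lit 0) (nat_lit 5031604725) (nat_lit 304) (nat_lit 1627558295) (nat_lit 380) (nat_lit 4254127538) (nat_lit 127) (nat_lit 5) (nat_lit 131) (nat_lit 5) (nat_lit 132) (nat_lit 5) (nat_lit 354) (nat_lit 300) (nat_lit 246))) (XT.nd (nat_lit 78) (nat_lit 76) (nat_lit 0) (XT.lf (nat_lit 0) (nat_lit 983292066) (nat_lit 304) (nat_lit 8799862068) (nat_lit 380) (nat_lit 1313170322) (nat_lit 123) (nat_lit 5) (nat_lit 127) (nat_lit 5) (nat_lit 128) (nat_lit 5) (nat_lit 355) (nat_lit 300) (nat_lit 245)) (XT.lf (nat_lit 0) (nat_lit 1717436544) (nat_lit 380) (nat_lit 3201072596) (nat_lit 76) (nat_lit 6364812280) (nat_lit 122) (nat_lit 5) (nat_lit 127)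 (nat_lit 5) (nat_lit 123) (nat_lit 5) (nat_lit 356) (nat_lit 300) (nat_lit 244))))))))
noncomputable def xc105 : XT := (XT.nd (nat_lit 2106) (nat_lit 2356) (nat_lit 0) (XT.nd (nat_lit 1014) (nat_lit 1900) (nat_lit 0) (XT.nd (nat_lit 468) (nat_lit 1140) (nat_lit 0) (XT.nd (nat_lit 234) (nat_lit 684) (nat_lit 0) (XT.nd (nat_lit 78) (nat_lit 304) (nat_lit 0) (XT.lf (nat_lit 0) (nat_lit 3923955351) (nat_lit 304) (nat_lit 886342585) (nat_lit 380) (nat_lit 6665322107) (nat_lit 118) (nat_lit 5) (nat_lit 122) (nat_lit 5) (nat_lit 123) (nat_lit 5) (nat_lit 357) (nat_lit 300) (nat_lit 243)) (XT.nd (nat_lit 78) (nat_lit 304) (nat_lit 0) (XT.lf (nat_lit 0) (nat_lit 8020444227) (nat_lit 380) (nat_lit 434401870) (nat_lit 76) (nat_lit 3218119852) (nat_lit 118) (nat_lit 5) (nat_lit 123) (nat_lit 5) (nat_lit 119) (nat_lit 5) (nat_lit 358) (nat_lit 300) (nat_lit 242)) (XT.lf (nat_lit 0) (nat_lit 6966937137) (nat_lit 304)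 (nat_lit 4397307861) (nat_lit 380) (nat_lit 510879640) (nat_lit 114) (nat_lit 5) (nat_lit 118) (nat_lit 5) (nat_lit 119) (nat_lit 5) (nat_lit 359) (nat_lit 300) (nat_lit 241)))) (XT.nd (nat_lit 78) (nat_lit 304) (nat_lit 0) (XT.lf (nat_lit 0) (nat_lit 2481353371) (nat_lit 304) (nat_lit 180562555) (nat_lit 380) (nat_lit 9420956125) (nat_lit 109) (nat_lit 5) (nat_lit 113) (nat_lit 5) (nat_lit 114) (nat_lit 5) (nat_lit 360) (nat_lit 300) (nat_lit 240)) (XT.nd (nat_lit 78) (nat_lit 304) (nat_lit 0) (XT.lf (nat_lit 0) (nat_lit 5971884476) (nat_lit 380) (nat_lit 2204972545) (nat_lit 76) (nat_lit 4118287212) (nat_lit 109) (nat_lit 5) (nat_lit 114) (nat_lit 5) (nat_lit 110) (nat_lit 5) (nat_lit 361) (nat_lit 300) (nat_lit 239)) (XT.lf (nat_lit 0) (nat_lit 5462708627) (nat_lit 304) (nat_lit 3936032605) (nat_lit 380) (nat_lit 3114527144) (nat_lit 105) (nat_lit 5) (nat_lit 109) (nat_lit 5) (nat_lit 110) (nat_lit 5)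 (nat_lit 362) (nat_lit 300) (nat_lit 238))))) (XT.nd (nat_lit 234) (nat_lit 532) (nat_lit 0) (XT.nd (nat_lit 78) (nat_lit 304) (nat_lit 0) (XT.lf (nat_lit 0) (nat_lit 182952518) (nat_lit 304) (nat_lit 12119714772) (nat_lit 76) (nat_lit 435338785) (nat_lit 101) (nat_lit 5) (nat_lit 105) (nat_lit 5) (nat_lit 102) (nat_lit 5) (nat_lit 363) (nat_lit 300) (nat_lit 237)) (XT.nd (nat_lit 78) (nat_lit 304) (nat_lit 0) (XT.lf (nat_lit 0) (nat_lit 3591440527) (nat_lit 304) (nat_lit 4432248146) (nat_lit 76) (nat_lit 4942642133) (nat_lit 101) (nat_lit 5) (nat_lit 105) (nat_lit 5) (nat_lit 102) (nat_lit 5) (nat_lit 364) (nat_lit 300) (nat_lit 236)) (XT.lf (nat_lit 0) (nat_lit 3499644649) (nat_lit 304) (nat_lit 3601043816) (nat_lit 380) (nat_lit 6100871845) (nat_lit 97) (nat_lit 5) (nat_lit 101) (nat_lit 5) (nat_lit 102) (nat_lit 5) (nat_lit 365) (nat_lit 300) (nat_lit 235)))) (XT.nd (nat_lit 156) (nat_lit 228) (nat_lit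 0) (XT.nd (nat_lit 78) (nat_lit 304) (nat_lit 0) (XT.lf (nat_lit 0) (nat_lit 10734770660) (nat_lit 380) (nat_lit 1746586650) (nat_lit 76) (nat_lit 961912581) (nat_lit 97) (nat_lit 5) (nat_lit 102) (nat_lit 5) (nat_lit 98) (nat_lit 5) (nat_lit 366) (nat_lit 300) (nat_lit 234)) (XT.lf (nat_lit 0) (nat_lit 835129944) (nat_lit 304) (nat_lit 7213427454) (nat_lit 76) (nat_lit 5641511638) (nat_lit 93) (nat_lit 5) (nat_lit 97) (nat_lit 5) (nat_lit 94) (nat_lit 5) (nat_lit 367) (nat_lit 300) (nat_lit 233))) (XT.nd (nat_lit 78) (nat_lit 0) (nat_lit 0) (XT.lf (nat_lit 0) (nat_lit 977328693) (nat_lit 228) (nat_lit 3446844034) (nat_lit 304) (nat_lit 9519497690) (nat_lit 90) (nat_lit 5) (nat_lit 93) (nat_lit 5) (nat_lit 94) (nat_lit 5) (nat_lit 368) (nat_lit 300) (nat_lit 232)) (XT.lf (nat_lit 0) (nat_lit 8173497696) (nat_lit 304) (nat_lit 4707838614) (nat_lit 76) (nat_lit 1321973994) (nat_lit 90) (nat_lit 5) (nat_lit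 94) (nat_lit 5) (nat_lit 91) (nat_lit 5) (nat_lit 369) (nat_lit 300) (nat_lit 231)))))) (XT.nd (nat_lit 546) (nat_lit 912) (nat_lit 0) (XT.nd (nat_lit 234) (nat_lit 456) (nat_lit 0) (XT.nd (nat_lit 78) (nat_lit 304) (nat_lit 0) (XT.lf (nat_lit 0) (nat_lit 3786065214) (nat_lit 228) (nat_lit 8287350459) (nat_lit 304) (nat_lit 2396188849) (nat_lit 87) (nat_lit 5) (nat_lit 90) (nat_lit 5) (nat_lit 91) (nat_lit 5) (nat_lit 370) (nat_lit 300) (nat_lit 230)) (XT.nd (nat_lit 78) (nat_lit 228) (nat_lit 0) (XT.lf (nat_lit 0) (nat_lit 1335895791) (nat_lit 304) (nat_lit 2176829362) (nat_lit 76) (nat_lit 11230310391) (nat_lit 86) (nat_lit 5) (nat_lit 90) (nat_lit 5) (nat_lit 87) (nat_lit 5) (nat_lit 371) (nat_lit 300) (nat_lit 229)) (XT.lf (nat_lit 0) (nat_lit 5178455135) (nat_lit 304) (nat_lit 8396971984) (nat_lit 76) (nat_lit 1447138252) (nat_lit 83) (nat_lit 5) (nat_lit 87) (nat_lit 5) (nat_lit 84) (nat_lit 5) (nat_lit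 372) (nat_lit 300) (nat_lit 228)))) (XT.nd (nat_lit 156) (nat_lit 304) (nat_lit 0) (XT.nd (nat_lit 78) (nat_lit 0) (nat_lit 0) (XT.lf (nat_lit 0) (nat_lit 347700853) (nat_lit 152) (nat_lit 8817811817) (nat_lit 228) (nat_lit 6144099361) (nat_lit 81) (nat_lit 5) (nat_lit 83) (nat_lit 5) (nat_lit 84) (nat_lit 5) (nat_lit 373) (nat_lit 300) (nat_lit 227)) (XT.lf (nat_lit 0) (nat_lit 9476366353) (nat_lit 152) (nat_lit 3849929423) (nat_lit 228) (nat_lit 2277358263) (nat_lit 81) (nat_lit 5) (nat_lit 83) (nat_lit 5) (nat_lit 84) (nat_lit 5) (nat_lit 374) (nat_lit 300) (nat_lit 226))) (XT.nd (nat_lit 78) (nat_lit 0) (nat_lit 0) (XT.lf (nat_lit 0) (nat_lit 1682949030) (nat_lit 304) (nat_lit 12954305079) (nat_lit 76) (nat_lit 1268453075) (nat_lit 77) (nat_lit 5) (nat_lit 81) (nat_lit 5) (nat_lit 78) (nat_lit 5) (nat_lit 375) (nat_lit 300) (nat_lit 225)) (XT.lf (nat_lit 0) (nat_lit 5787026957) (nat_lit 304) (nat_lit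 3898025244) (nat_lit 76) (nat_lit 6528977996) (nat_lit 77) (nat_lit 5) (nat_lit 81) (nat_lit 5) (nat_lit 78) (nat_lit 5) (nat_lit 376) (nat_lit 300) (nat_lit 224))))) (XT.nd (nat_lit 234) (nat_lit 456) (nat_lit 0) (XT.nd (nat_lit 78) (nat_lit 304) (nat_lit 0) (XT.lf (nat_lit 0) (nat_lit 5488661409) (nat_lit 152) (nat_lit 4549325938) (nat_lit 228) (nat_lit 6492909288) (nat_lit 75) (nat_lit 5) (nat_lit 77) (nat_lit 5) (nat_lit 78) (nat_lit 5) (nat_lit 377) (nat_lit 300) (nat_lit 223)) (XT.nd (nat_lit 78) (nat_lit 304) (nat_lit 0) (XT.lf (nat_lit 0) (nat_lit 14434544962) (nat_lit 228) (nat_lit 1675331565) (nat_lit 76) (nat_lit 746856839) (nat_lit 75) (nat_lit 5) (nat_lit 78) (nat_lit 5) (nat_lit 76) (nat_lit 5) (nat_lit 378) (nat_lit 300) (nat_lit 222)) (XT.lf (nat_lit 0) (nat_lit 1831368826) (nat_lit 304) (nat_lit 9170279665) (nat_lit 76) (nat_lit 6187334077) (nat_lit 71) (nat_lit 5) (nat_lit 75) (nat_lit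 5) (nat_lit 72) (nat_lit 5) (nat_lit 379) (nat_lit 300) (nat_lit 221)))) (XT.nd (nat_lit 156) (nat_lit 304) (nat_lit 0) (XT.nd (nat_lit 78) (nat_lit 0) (nat_lit 0) (XT.lf (nat_lit 0) (nat_lit 444459799) (nat_lit 152) (nat_lit 5712870465) (nat_lit 228) (nat_lit 11373350900) (nat_lit 69) (nat_lit 5) (nat_lit 71) (nat_lit 5) (nat_lit 72) (nat_lit 5) (nat_lit 380) (nat_lit 300) (nat_lit 220)) (XT.lf (nat_lit 0) (nat_lit 10488813662) (nat_lit 152) (nat_lit 189344295) (nat_lit 228) (nat_lit 7202525781) (nat_lit 69) (nat_lit 5) (nat_lit 71) (nat_lit 5) (nat_lit 72) (nat_lit 5) (nat_lit 381) (nat_lit 300) (nat_lit 219))) (XT.nd (nat_lit 78) (nat_lit 76) (nat_lit 0) (XT.lf (nat_lit 0) (nat_lit 2544013391) (nat_lit 228) (nat_lit 12841026870) (nat_lit 304) (nat_lit 2854638711) (nat_lit 66) (nat_lit 5) (nat_lit 69) (nat_lit 5) (nat_lit 70) (nat_lit 5) (nat_lit 382) (nat_lit 300) (nat_lit 218)) (XT.lf (nat_lit 0) (nat_lit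 1642441730) (nat_lit 304) (nat_lit 5742087011) (nat_lit 76) (nat_lit 11222939030) (nat_lit 65) (nat_lit 5) (nat_lit 69) (nat_lit 5) (nat_lit 66) (nat_lit 5) (nat_lit 383) (nat_lit 300) (nat_lit 217))))))) (XT.nd (nat_lit 1014) (nat_lit 1064) (nat_lit 0) (XT.nd (nat_lit 468) (nat_lit 760) (nat_lit 0) (XT.nd (nat_lit 234) (nat_lit 228) (nat_lit 0) (XT.nd (nat_lit 78) (nat_lit 152) (nat_lit 0) (XT.lf (nat_lit 0) (nat_lit 4525324918) (nat_lit 152) (nat_lit 1709199078) (nat_lit 228) (nat_lit 12750399393) (nat_lit 63) (nat_lit 5) (nat_lit 65) (nat_lit 5) (nat_lit 66) (nat_lit 5) (nat_lit 384) (nat_lit 300) (nat_lit 216)) (XT.nd (nat_lit 78) (nat_lit 152) (nat_lit 0) (XT.lf (nat_lit 0) (nat_lit 11036805042) (nat_lit 228) (nat_lit 4238805166) (nat_lit 76) (nat_lit 4095924245) (nat_lit 63) (nat_lit 5) (nat_lit 66) (nat_lit 5) (nat_lit 64) (nat_lit 5) (nat_lit 385) (nat_lit 300) (nat_lit 215)) (XT.lf (nat_lit 0)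 (nat_lit 6351976244) (nat_lit 152) (nat_lit 9684030874) (nat_lit 228) (nat_lit 3732155879) (nat_lit 61) (nat_lit 5) (nat_lit 63) (nat_lit 5) (nat_lit 64) (nat_lit 5) (nat_lit 386) (nat_lit 300) (nat_lit 214)))) (XT.nd (nat_lit 78) (nat_lit 152) (nat_lit 0) (XT.lf (nat_lit 0) (nat_lit 1006979816) (nat_lit 228) (nat_lit 2881889966) (nat_lit 76) (nat_lit 16286989310) (nat_lit 60) (nat_lit 5) (nat_lit 63) (nat_lit 5) (nat_lit 61) (nat_lit 5) (nat_lit 387) (nat_lit 300) (nat_lit 213)) (XT.nd (nat_lit 78) (nat_lit 0) (nat_lit 0) (XT.lf (nat_lit 0) (nat_lit 5887240160) (nat_lit 228) (nat_lit 12568018005) (nat_lit 76) (nat_lit 2137204773) (nat_lit 58) (nat_lit 5) (nat_lit 61) (nat_lit 5) (nat_lit 59) (nat_lit 5) (nat_lit 388) (nat_lit 300) (nat_lit 212)) (XT.lf (nat_lit 0) (nat_lit 10957599774) (nat_lit 228) (nat_lit 1785037512) (nat_lit 76) (nat_lit 8277621066) (nat_lit 58) (nat_lit 5) (nat_lit 61) (nat_lit 5)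 (nat_lit 59) (nat_lit 5) (nat_lit 389) (nat_lit 300) (nat_lit 211))))) (XT.nd (nat_lit 234) (nat_lit 380) (nat_lit 0) (XT.nd (nat_lit 78) (nat_lit 228) (nat_lit 0) (XT.lf (nat_lit 0) (nat_lit 9464765160) (nat_lit 152) (nat_lit 6782789263) (nat_lit 228) (nat_lit 5211312755) (nat_lit 56) (nat_lit 5) (nat_lit 58) (nat_lit 5) (nat_lit 59) (nat_lit 5) (nat_lit 390) (nat_lit 300) (nat_lit 210)) (XT.nd (nat_lit 78) (nat_lit 228) (nat_lit 0) (XT.lf (nat_lit 0) (nat_lit 21047700017) (nat_lit 152) (nat_lit 643326913) (nat_lit 228) (nat_lit 219766720) (nat_lit 56) (nat_lit 5) (nat_lit 58) (nat_lit 5) (nat_lit 59) (nat_lit 5) (nat_lit 391) (nat_lit 300) (nat_lit 209)) (XT.lf (nat_lit 0) (nat_lit 4961737349) (nat_lit 228) (nat_lit 11704801914) (nat_lit 76) (nat_lit 5704235670) (nat_lit 53) (nat_lit 5) (nat_lit 56) (nat_lit 5) (nat_lit 54) (nat_lit 5) (nat_lit 392) (nat_lit 300) (nat_lit 208)))) (XT.nd (nat_lit 156)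 (nat_lit 228) (nat_lit 0) (XT.nd (nat_lit 78) (nat_lit 152) (nat_lit 0) (XT.lf (nat_lit 0) (nat_lit 10286797061) (nat_lit 228) (nat_lit 334655862) (nat_lit 76) (nat_lit 12223265247) (nat_lit 53) (nat_lit 5) (nat_lit 56) (nat_lit 5) (nat_lit 54) (nat_lit 5) (nat_lit 393) (nat_lit 300) (nat_lit 207)) (XT.lf (nat_lit 0) (nat_lit 11563072397) (nat_lit 152) (nat_lit 4297703216) (nat_lit 228) (nat_lit 7469432598) (nat_lit 51) (nat_lit 5) (nat_lit 53) (nat_lit 5) (nat_lit 54) (nat_lit 5) (nat_lit 394) (nat_lit 300) (nat_lit 206))) (XT.nd (nat_lit 78) (nat_lit 228) (nat_lit 0) (XT.lf (nat_lit 0) (nat_lit 21604804908) (nat_lit 228) (nat_lit 66168023) (nat_lit 76) (nat_lit 2159208492) (nat_lit 51) (nat_lit 5) (nat_lit 54) (nat_lit 5) (nat_lit 52) (nat_lit 4) (nat_lit 395) (nat_lit 300) (nat_lit 205)) (XT.lf (nat_lit 0) (nat_lit 3253414711) (nat_lit 228) (nat_lit 12230822108) (nat_lit 76) (nat_lit 8855822680) (nat_lit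 48) (nat_lit 5) (nat_lit 51) (nat_lit 5) (nat_lit 49) (nat_lit 5) (nat_lit 396) (nat_lit 300) (nat_lit 204)))))) (XT.nd (nat_lit 546) (nat_lit 608) (nat_lit 0) (XT.nd (nat_lit 234) (nat_lit 304) (nat_lit 0) (XT.nd (nat_lit 78) (nat_lit 152) (nat_lit 0) (XT.lf (nat_lit 0) (nat_lit 8831318144) (nat_lit 228) (nat_lit 274166536) (nat_lit 76) (nat_lit 15759707068) (nat_lit 48) (nat_lit 5) (nat_lit 51) (nat_lit 5) (nat_lit 49) (nat_lit 5) (nat_lit 397) (nat_lit 300) (nat_lit 203)) (XT.nd (nat_lit 78) (nat_lit 0) (nat_lit 0) (XT.lf (nat_lit 0) (nat_lit 12243032256) (nat_lit 152) (nat_lit 2430632921) (nat_lit 228) (nat_lit 10729502625) (nat_lit 46) (nat_lit 5) (nat_lit 48) (nat_lit 5) (nat_lit 49) (nat_lit 5) (nat_lit 398) (nat_lit 300) (nat_lit 202)) (XT.lf (nat_lit 0) (nat_lit 20716309842) (nat_lit 228) (nat_lit 895737665) (nat_lit 76) (nat_lit 4344487760) (nat_lit 46) (nat_lit 5) (nat_lit 49) (nat_lit 5) (nat_lit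 47) (nat_lit 4) (nat_lit 399) (nat_lit 300) (nat_lit 201)))) (XT.nd (nat_lit 156) (nat_lit 152) (nat_lit 0) (XT.nd (nat_lit 78) (nat_lit 0) (nat_lit 0) (XT.lf (nat_lit 0) (nat_lit 525474545) (nat_lit 152) (nat_lit 14619260385) (nat_lit 76) (nat_lit 11378057755) (nat_lit 44) (nat_lit 5) (nat_lit 46) (nat_lit 5) (nat_lit 45) (nat_lit 5) (nat_lit 400) (nat_lit 300) (nat_lit 200)) (XT.lf (nat_lit 0) (nat_lit 6348100870) (nat_lit 152) (nat_lit 2088713807) (nat_lit 76) (nat_lit 18667990979) (nat_lit 44) (nat_lit 5) (nat_lit 46) (nat_lit 5) (nat_lit 45) (nat_lit 5) (nat_lit 401) (nat_lit 300) (nat_lit 199))) (XT.nd (nat_lit 78) (nat_lit 0) (nat_lit 0) (XT.lf (nat_lit 0) (nat_lit 10997281198) (nat_lit 152) (nat_lit 1434559659) (nat_lit 228) (nat_lit 15269847730) (nat_lit 42) (nat_lit 5) (nat_lit 44) (nat_lit 5) (nat_lit 45) (nat_lit 5) (nat_lit 402) (nat_lit 300) (nat_lit 198)) (XT.lf (nat_lit 0) (nat_lit 18755732554)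 (nat_lit 228) (nat_lit 3888065001) (nat_lit 76) (nat_lit 5670953808) (nat_lit 42) (nat_lit 5) (nat_lit 45) (nat_lit 5) (nat_lit 43) (nat_lit 4) (nat_lit 403) (nat_lit 300) (nat_lit 197))))) (XT.nd (nat_lit 234) (nat_lit 304) (nat_lit 0) (XT.nd (nat_lit 78) (nat_lit 228) (nat_lit 0) (XT.lf (nat_lit 0) (nat_lit 9448824140) (nat_lit 76) (nat_lit 15906906911) (nat_lit 152) (nat_lit 3587885732) (nat_lit 41) (nat_lit 5) (nat_lit 42) (nat_lit 5) (nat_lit 43) (nat_lit 4) (nat_lit 404) (nat_lit 300) (nat_lit 196)) (XT.nd (nat_lit 78) (nat_lit 152) (nat_lit 0) (XT.lf (nat_lit 0) (nat_lit 2533422649) (nat_lit 152) (nat_lit 6383827439) (nat_lit 76) (nat_lit 20672730191) (nat_lit 40) (nat_lit 5) (nat_lit 42) (nat_lit 5) (nat_lit 41) (nat_lit 5) (nat_lit 405) (nat_lit 300) (nat_lit 195)) (XT.lf (nat_lit 0) (nat_lit 7192123554) (nat_lit 152) (nat_lit 1625202885) (nat_lit 228) (nat_lit 21435812714) (nat_lit 38) (nat_lit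 5) (nat_lit 40) (nat_lit 5) (nat_lit 41) (nat_lit 5) (nat_lit 406) (nat_lit 300) (nat_lit 194)))) (XT.nd (nat_lit 156) (nat_lit 228) (nat_lit 0) (XT.nd (nat_lit 78) (nat_lit 76) (nat_lit 0) (XT.lf (nat_lit 0) (nat_lit 15393426305) (nat_lit 228) (nat_lit 9718490365) (nat_lit 76) (nat_lit 5821167947) (nat_lit 38) (nat_lit 5) (nat_lit 41) (nat_lit 5) (nat_lit 39) (nat_lit 4) (nat_lit 407) (nat_lit 300) (nat_lit 193)) (XT.lf (nat_lit 0) (nat_lit 4055084271) (nat_lit 76) (nat_lit 18149320737) (nat_lit 152) (nat_lit 9427897687) (nat_lit 37) (nat_lit 5) (nat_lit 38) (nat_lit 5) (nat_lit 39) (nat_lit 4) (nat_lit 408) (nat_lit 300) (nat_lit 192))) (XT.nd (nat_lit 78) (nat_lit 228) (nat_lit 0) (XT.lf (nat_lit 0) (nat_lit 18409137454) (nat_lit 76) (nat_lit 10891439974) (nat_lit 152) (nat_lit 3049496024) (nat_lit 37) (nat_lit 5) (nat_lit 38) (nat_lit 5) (nat_lit 39) (nat_lit 4) (nat_lit 409) (nat_lit 300) (nat_lit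 191)) (XT.lf (nat_lit 0) (nat_lit 40020229) (nat_lit 152) (nat_lit 3394991005) (nat_lit 228) (nat_lit 29653849483) (nat_lit 34) (nat_lit 5) (nat_lit 36) (nat_lit 5) (nat_lit 37) (nat_lit 5) (nat_lit 410) (nat_lit 300) (nat_lit 190))))))))
noncomputable def xc106 : XT := (XT.nd (nat_lit 2106) (nat_lit 304) (nat_lit 0) (XT.nd (nat_lit 1014) (nat_lit 456) (nat_lit 0) (XT.nd (nat_lit 468) (nat_lit 304) (nat_lit 0) (XT.nd (nat_lit 234) (nat_lit 228) (nat_lit 0) (XT.nd (nat_lit 78) (nat_lit 76) (nat_lit 0) (XT.lf (nat_lit 0) (nat_lit 10219638461) (nat_lit 228) (nat_lit 19223998035) (nat_lit 76) (nat_lit 4400264907) (nat_lit 34) (nat_lit 5) (nat_lit 37) (nat_lit 5) (nat_lit 35) (nat_lit 4) (nat_lit 411) (nat_lit 300) (nat_lit 189)) (XT.nd (nat_lit 78) (nat_lit 76) (nat_lit 0) (XT.lf (nat_lit 0) (nat_lit 17225029071) (nat_lit 228) (nat_lit 5048525045) (nat_lit 76) (nat_lit 12347524290) (nat_lit 34) (nat_lit 5)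 (nat_lit 37) (nat_lit 5) (nat_lit 35) (nat_lit 4) (nat_lit 412) (nat_lit 300) (nat_lit 188)) (XT.lf (nat_lit 0) (nat_lit 9712117951) (nat_lit 76) (nat_lit 14805910419) (nat_lit 152) (nat_lit 10901220721) (nat_lit 33) (nat_lit 5) (nat_lit 34) (nat_lit 5) (nat_lit 35) (nat_lit 4) (nat_lit 413) (nat_lit 300) (nat_lit 187)))) (XT.nd (nat_lit 78) (nat_lit 228) (nat_lit 0) (XT.lf (nat_lit 0) (nat_lit 24989747785) (nat_lit 76) (nat_lit 7075319808) (nat_lit 152) (nat_lit 4175241537) (nat_lit 33) (nat_lit 5) (nat_lit 34) (nat_lit 5) (nat_lit 35) (nat_lit 4) (nat_lit 414) (nat_lit 300) (nat_lit 186)) (XT.nd (nat_lit 78) (nat_lit 0) (nat_lit 0) (XT.lf (nat_lit 0) (nat_lit 2727532171) (nat_lit 228) (nat_lit 33437819279) (nat_lit 76) (nat_lit 918995583) (nat_lit 30) (nat_lit 5) (nat_lit 33) (nat_lit 5) (nat_lit 31) (nat_lit 4) (nat_lit 415) (nat_lit 300) (nat_lit 185)) (XT.lf (nat_lit 0) (nat_lit 9922880077) (nat_lit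 228) (nat_lit 18870485806) (nat_lit 76) (nat_lit 9154019325) (nat_lit 30) (nat_lit 5) (nat_lit 33) (nat_lit 5) (nat_lit 31) (nat_lit 4) (nat_lit 416) (nat_lit 300) (nat_lit 184))))) (XT.nd (nat_lit 234) (nat_lit 228) (nat_lit 0) (XT.nd (nat_lit 78) (nat_lit 76) (nat_lit 0) (XT.lf (nat_lit 0) (nat_lit 17319159381) (nat_lit 228) (nat_lit 3894119186) (nat_lit 76) (nat_lit 17623485370) (nat_lit 30) (nat_lit 5) (nat_lit 33) (nat_lit 5) (nat_lit 31) (nat_lit 4) (nat_lit 417) (nat_lit 300) (nat_lit 183)) (XT.nd (nat_lit 78) (nat_lit 0) (nat_lit 0) (XT.lf (nat_lit 0) (nat_lit 11733326183) (nat_lit 76) (nat_lit 13302294577) (nat_lit 152) (nat_lit 14714255949) (nat_lit 29) (nat_lit 5) (nat_lit 30) (nat_lit 5) (nat_lit 31) (nat_lit 4) (nat_lit 418) (nat_lit 300) (nat_lit 182)) (XT.lf (nat_lit 0) (nat_lit 27882515223) (nat_lit 76) (nat_lit 5126053043) (nat_lit 152) (nat_lit 7681066278) (nat_lit 29) (nat_lit 5) (nat_lit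 30) (nat_lit 5) (nat_lit 31) (nat_lit 4) (nat_lit 419) (nat_lit 300) (nat_lit 181)))) (XT.nd (nat_lit 156) (nat_lit 76) (nat_lit 0) (XT.nd (nat_lit 78) (nat_lit 76) (nat_lit 0) (XT.lf (nat_lit 0) (nat_lit 2856228888) (nat_lit 76) (nat_lit 38409578619) (nat_lit 76) (nat_lit 390425913) (nat_lit 28) (nat_lit 4) (nat_lit 29) (nat_lit 5) (nat_lit 29) (nat_lit 4) (nat_lit 420) (nat_lit 300) (nat_lit 180)) (XT.lf (nat_lit 0) (nat_lit 7147365697) (nat_lit 152) (nat_lit 23542848797) (nat_lit 76) (nat_lit 11954543706) (nat_lit 27) (nat_lit 5) (nat_lit 29) (nat_lit 5) (nat_lit 28) (nat_lit 4) (nat_lit 421) (nat_lit 300) (nat_lit 179))) (XT.nd (nat_lit 78) (nat_lit 76) (nat_lit 0) (XT.lf (nat_lit 0) (nat_lit 14889839821) (nat_lit 152) (nat_lit 7857518033) (nat_lit 76) (nat_lit 20915874311) (nat_lit 27) (nat_lit 5) (nat_lit 29) (nat_lit 5) (nat_lit 28) (nat_lit 4) (nat_lit 422) (nat_lit 300) (nat_lit 178)) (XT.lf (nat_lit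 0) (nat_lit 8438104206) (nat_lit 76) (nat_lit 14494388355) (nat_lit 152) (nat_lit 21777731905) (nat_lit 26) (nat_lit 5) (nat_lit 27) (nat_lit 5) (nat_lit 28) (nat_lit 4) (nat_lit 423) (nat_lit 300) (nat_lit 177)))))) (XT.nd (nat_lit 546) (nat_lit 228) (nat_lit 0) (XT.nd (nat_lit 234) (nat_lit 76) (nat_lit 0) (XT.nd (nat_lit 78) (nat_lit 152) (nat_lit 0) (XT.lf (nat_lit 0) (nat_lit 25358984653) (nat_lit 76) (nat_lit 5923725366) (nat_lit 152) (nat_lit 14503929177) (nat_lit 26) (nat_lit 5) (nat_lit 27) (nat_lit 5) (nat_lit 28) (nat_lit 4) (nat_lit 424) (nat_lit 300) (nat_lit 176)) (XT.nd (nat_lit 78) (nat_lit 152) (nat_lit 0) (XT.lf (nat_lit 0) (nat_lit 39898561128) (nat_lit 152) (nat_lit 4160006539) (nat_lit 0) (nat_lit 2836326063) (nat_lit 26) (nat_lit 5) (nat_lit 28) (nat_lit 4) (nat_lit 26) (nat_lit 4) (nat_lit 425) (nat_lit 300) (nat_lit 175)) (XT.lf (nat_lit 0) (nat_lit 892707623) (nat_lit 152) (nat_lit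 35277548656) (nat_lit 76) (nat_lit 11860810724) (nat_lit 24) (nat_lit 5) (nat_lit 26) (nat_lit 5) (nat_lit 25) (nat_lit 4) (nat_lit 426) (nat_lit 300) (nat_lit 174)))) (XT.nd (nat_lit 156) (nat_lit 76) (nat_lit 0) (XT.nd (nat_lit 78) (nat_lit 0) (nat_lit 0) (XT.lf (nat_lit 0) (nat_lit 8907822562) (nat_lit 152) (nat_lit 19033574132) (nat_lit 76) (nat_lit 21256951052) (nat_lit 24) (nat_lit 5) (nat_lit 26) (nat_lit 5) (nat_lit 25) (nat_lit 4) (nat_lit 427) (nat_lit 300) (nat_lit 173)) (XT.lf (nat_lit 0) (nat_lit 17151351177) (nat_lit 152) (nat_lit 2325141920) (nat_lit 76) (nat_lit 30924516054) (nat_lit 24) (nat_lit 5) (nat_lit 26) (nat_lit 5) (nat_lit 25) (nat_lit 4) (nat_lit 428) (nat_lit 300) (nat_lit 172))) (XT.nd (nat_lit 78) (nat_lit 0) (nat_lit 0) (XT.lf (nat_lit 0) (nat_lit 15158137439) (nat_lit 76) (nat_lit 10618068402) (nat_lit 152) (nat_lit 25859524969) (nat_lit 23) (nat_lit 5) (nat_lit 24) (nat_lit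 5) (nat_lit 25) (nat_lit 4) (nat_lit 429) (nat_lit 300) (nat_lit 171)) (XT.lf (nat_lit 0) (nat_lit 33191600237) (nat_lit 76) (nat_lit 1480125375) (nat_lit 152) (nat_lit 18235411907) (nat_lit 23) (nat_lit 5) (nat_lit 24) (nat_lit 5) (nat_lit 25) (nat_lit 4) (nat_lit 430) (nat_lit 300) (nat_lit 170))))) (XT.nd (nat_lit 234) (nat_lit 76) (nat_lit 0) (XT.nd (nat_lit 78) (nat_lit 152) (nat_lit 0) (XT.lf (nat_lit 0) (nat_lit 43899037351) (nat_lit 152) (nat_lit 2548444684) (nat_lit 0) (nat_lit 7767257562) (nat_lit 23) (nat_lit 5) (nat_lit 25) (nat_lit 4) (nat_lit 23) (nat_lit 4) (nat_lit 431) (nat_lit 300) (nat_lit 169)) (XT.nd (nat_lit 78) (nat_lit 76) (nat_lit 0) (XT.lf (nat_lit 0) (nat_lit 15398537043) (nat_lit 76) (nat_lit 38156315546) (nat_lit 76) (nat_lit 2002167554) (nat_lit 22) (nat_lit 4) (nat_lit 23) (nat_lit 5) (nat_lit 23) (nat_lit 4) (nat_lit 432) (nat_lit 300) (nat_lit 168)) (XT.lf (nat_lit 0) (nat_lit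 6447759434) (nat_lit 152) (nat_lit 23086913039) (nat_lit 76) (nat_lit 27402555205) (nat_lit 21) (nat_lit 5) (nat_lit 23) (nat_lit 5) (nat_lit 22) (nat_lit 4) (nat_lit 433) (nat_lit 300) (nat_lit 167)))) (XT.nd (nat_lit 156) (nat_lit 0) (nat_lit 0) (XT.nd (nat_lit 78) (nat_lit 76) (nat_lit 0) (XT.lf (nat_lit 0) (nat_lit 15100283893) (nat_lit 152) (nat_lit 5543372563) (nat_lit 76) (nat_lit 37714910895) (nat_lit 21) (nat_lit 5) (nat_lit 23) (nat_lit 5) (nat_lit 22) (nat_lit 4) (nat_lit 434) (nat_lit 300) (nat_lit 166)) (XT.lf (nat_lit 0) (nat_lit 12755621819) (nat_lit 76) (nat_lit 11369028801) (nat_lit 152) (nat_lit 35694529423) (nat_lit 20) (nat_lit 5) (nat_lit 21) (nat_lit 5) (nat_lit 22) (nat_lit 4) (nat_lit 435) (nat_lit 300) (nat_lit 165))) (XT.nd (nat_lit 78) (nat_lit 0) (nat_lit 0) (XT.lf (nat_lit 0) (nat_lit 31697653034) (nat_lit 76) (nat_lit 1767837523) (nat_lit 152) (nat_lit 27856749095) (nat_lit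 20) (nat_lit 5) (nat_lit 21) (nat_lit 5) (nat_lit 22) (nat_lit 4) (nat_lit 436) (nat_lit 300) (nat_lit 164)) (XT.lf (nat_lit 0) (nat_lit 43154599488) (nat_lit 152) (nat_lit 11759722224) (nat_lit 0) (nat_lit 7954028803) (nat_lit 20) (nat_lit 5) (nat_lit 22) (nat_lit 4) (nat_lit 20) (nat_lit 4) (nat_lit 437) (nat_lit 300) (nat_lit 163))))))) (XT.nd (nat_lit 36504) (nat_lit 0) (nat_lit 23560) (XT.nd (nat_lit 468) (nat_lit 76) (nat_lit 0) (XT.nd (nat_lit 234) (nat_lit 76) (nat_lit 0) (XT.nd (nat_lit 78) (nat_lit 76) (nat_lit 0) (XT.lf (nat_lit 0) (nat_lit 6736386810) (nat_lit 76) (nat_lit 46470520480) (nat_lit 76) (nat_lit 11251762400) (nat_lit 19) (nat_lit 4) (nat_lit 20) (nat_lit 5) (nat_lit 20) (nat_lit 4) (nat_lit 438) (nat_lit 300) (nat_lit 162)) (XT.nd (nat_lit 78) (nat_lit 76) (nat_lit 0) (XT.lf (nat_lit 0) (nat_lit 26009975606) (nat_lit 76) (nat_lit 37659932796) (nat_lit 76) (nat_lit 2423517051) (nat_lit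 19) (nat_lit 4) (nat_lit 20) (nat_lit 5) (nat_lit 20) (nat_lit 4) (nat_lit 439) (nat_lit 300) (nat_lit 161)) (XT.lf (nat_lit 0) (nat_lit 6529989293) (nat_lit 152) (nat_lit 21997680843) (nat_lit 76) (nat_lit 39247914250) (nat_lit 18) (nat_lit 5) (nat_lit 20) (nat_lit 5) (nat_lit 19) (nat_lit 4) (nat_lit 440) (nat_lit 300) (nat_lit 160)))) (XT.nd (nat_lit 78) (nat_lit 76) (nat_lit 0) (XT.lf (nat_lit 0) (nat_lit 15694226534) (nat_lit 152) (nat_lit 3410923286) (nat_lit 76) (nat_lit 50402614003) (nat_lit 18) (nat_lit 5) (nat_lit 20) (nat_lit 5) (nat_lit 19) (nat_lit 4) (nat_lit 441) (nat_lit 300) (nat_lit 159)) (XT.nd (nat_lit 78) (nat_lit 0) (nat_lit 0) (XT.lf (nat_lit 0) (nat_lit 16029146388) (nat_lit 76) (nat_lit 9249429378) (nat_lit 152) (nat_lit 46008977985) (nat_lit 17) (nat_lit 5) (nat_lit 18) (nat_lit 5) (nat_lit 19) (nat_lit 4) (nat_lit 442) (nat_lit 300) (nat_lit 158)) (XT.lf (nat_lit 0) (nat_lit 35185031910)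 (nat_lit 152) (nat_lit 37023472839) (nat_lit 0) (nat_lit 911195965) (nat_lit 17) (nat_lit 5) (nat_lit 19) (nat_lit 4) (nat_lit 17) (nat_lit 4) (nat_lit 443) (nat_lit 300) (nat_lit 157))))) (XT.nd (nat_lit 35724) (nat_lit 0) (nat_lit 27056) (XT.nd (nat_lit 78) (nat_lit 76) (nat_lit 0) (XT.lf (nat_lit 0) (nat_lit 45471640399) (nat_lit 152) (nat_lit 18349667105) (nat_lit 0) (nat_lit 11183016437) (nat_lit 17) (nat_lit 5) (nat_lit 19) (nat_lit 4) (nat_lit 17) (nat_lit 4) (nat_lit 444) (nat_lit 300) (nat_lit 156)) (XT.nd (nat_lit 78) (nat_lit 0) (nat_lit 0) (XT.lf (nat_lit 0) (nat_lit 885517566) (nat_lit 76) (nat_lit 55181472928) (nat_lit 76) (nat_lit 20878491668) (nat_lit 16) (nat_lit 4) (nat_lit 17) (nat_lit 5) (nat_lit 17) (nat_lit 4) (nat_lit 445) (nat_lit 300) (nat_lit 155)) (XT.lf (nat_lit 0) (nat_lit 21057951082) (nat_lit 76) (nat_lit 46099267247) (nat_lit 76) (nat_lit 11782346863) (nat_lit 16) (nat_lit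 4) (nat_lit 17) (nat_lit 5) (nat_lit 17) (nat_lit 4) (nat_lit 446) (nat_lit 300) (nat_lit 154)))) (XT.nd (nat_lit 156) (nat_lit 228) (nat_lit 0) (XT.nd (nat_lit 78) (nat_lit 228) (nat_lit 0) (XT.lf (nat_lit 0) (nat_lit 1527368770) (nat_lit 0) (nat_lit 1527368770) (nat_lit 76) (nat_lit 168385538) (nat_lit 378) (nat_lit 5) (nat_lit 378) (nat_lit 3) (nat_lit 379) (nat_lit 0) (nat_lit 301) (nat_lit 301) (nat_lit 298)) (XT.lf (nat_lit 0) (nat_lit 2603853204) (nat_lit 228) (nat_lit 271764676) (nat_lit 228) (nat_lit 3576388642) (nat_lit 375) (nat_lit 3) (nat_lit 378) (nat_lit 3) (nat_lit 378) (nat_lit 5) (nat_lit 302) (nat_lit 301) (nat_lit 297))) (XT.nd (nat_lit 78) (nat_lit 228) (nat_lit 0) (XT.lf (nat_lit 76) (nat_lit 2936410208) (nat_lit 0) (nat_lit 2603042639) (nat_lit 228) (nat_lit 921092744) (nat_lit 376) (nat_lit 5) (nat_lit 375) (nat_lit 3) (nat_lit 378) (nat_lit 5) (nat_lit 303) (nat_lit 301) (nat_lit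 296)) (XT.lf (nat_lit 0) (nat_lit 1942556305) (nat_lit 228) (nat_lit 303915323) (nat_lit 304) (nat_lit 4225681663) (nat_lit 372) (nat_lit 5) (nat_lit 375) (nat_lit 3) (nat_lit 376) (nat_lit 5) (nat_lit 304) (nat_lit 301) (nat_lit 295)))))) (XT.nd (nat_lit 546) (nat_lit 2432) (nat_lit 0) (XT.nd (nat_lit 234) (nat_lit 760) (nat_lit 0) (XT.nd (nat_lit 78) (nat_lit 304) (nat_lit 0) (XT.lf (nat_lit 76) (nat_lit 3003265846) (nat_lit 0) (nat_lit 1789362807) (nat_lit 304) (nat_lit 1693738378) (nat_lit 373) (nat_lit 5) (nat_lit 372) (nat_lit 5) (nat_lit 376) (nat_lit 5) (nat_lit 305) (nat_lit 301) (nat_lit 294)) (XT.nd (nat_lit 78) (nat_lit 0) (nat_lit 0) (XT.lf (nat_lit 0) (nat_lit 1097983687) (nat_lit 304) (nat_lit 157653239) (nat_lit 380) (nat_lit 5248270661) (nat_lit 368) (nat_lit 5) (nat_lit 372) (nat_lit 5) (nat_lit 373) (nat_lit 5) (nat_lit 306) (nat_lit 301) (nat_lit 293)) (XT.lf (nat_lit 76) (nat_lit 3255278040)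 (nat_lit 0) (nat_lit 610220264) (nat_lit 380) (nat_lit 2658283998) (nat_lit 369) (nat_lit 5) (nat_lit 368) (nat_lit 5) (nat_lit 373) (nat_lit 5) (nat_lit 307) (nat_lit 301) (nat_lit 292)))) (XT.nd (nat_lit 156) (nat_lit 456) (nat_lit 0) (XT.nd (nat_lit 78) (nat_lit 0) (nat_lit 0) (XT.lf (nat_lit 0) (nat_lit 68857770) (nat_lit 380) (nat_lit 6377618159) (nat_lit 76) (nat_lit 100803212) (nat_lit 364) (nat_lit 5) (nat_lit 369) (nat_lit 5) (nat_lit 365) (nat_lit 5) (nat_lit 308) (nat_lit 301) (nat_lit 291)) (XT.lf (nat_lit 0) (nat_lit 2762791349) (nat_lit 380) (nat_lit 2888744557) (nat_lit 76) (nat_lit 921088792) (nat_lit 364) (nat_lit 5) (nat_lit 369) (nat_lit 5) (nat_lit 365) (nat_lit 5) (nat_lit 309) (nat_lit 301) (nat_lit 290))) (XT.nd (nat_lit 78) (nat_lit 76) (nat_lit 0) (XT.lf (nat_lit 0) (nat_lit 655907040) (nat_lit 380) (nat_lit 4789914058) (nat_lit 456) (nat_lit 1155744286) (nat_lit 359) (nat_lit 5)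 (nat_lit 364) (nat_lit 5) (nat_lit 365) (nat_lit 5) (nat_lit 310) (nat_lit 301) (nat_lit 289)) (XT.lf (nat_lit 0) (nat_lit 1479849047) (nat_lit 456) (nat_lit 2342928868) (nat_lit 76) (nat_lit 2810239454) (nat_lit 358) (nat_lit 5) (nat_lit 364) (nat_lit 5) (nat_lit 359) (nat_lit 5) (nat_lit 311) (nat_lit 301) (nat_lit 288))))) (XT.nd (nat_lit 234) (nat_lit 1368) (nat_lit 0) (XT.nd (nat_lit 78) (nat_lit 608) (nat_lit 0) (XT.lf (nat_lit 0) (nat_lit 1320966677) (nat_lit 456) (nat_lit 2769045092) (nat_lit 532) (nat_lit 2577571980) (nat_lit 352) (nat_lit 5) (nat_lit 358) (nat_lit 5) (nat_lit 359) (nat_lit 5) (nat_lit 312) (nat_lit 301) (nat_lit 287)) (XT.nd (nat_lit 78) (nat_lit 532) (nat_lit 0) (XT.lf (nat_lit 0) (nat_lit 4921699) (nat_lit 532) (nat_lit 1623196132) (nat_lit 76) (nat_lit 5077186303) (nat_lit 351) (nat_lit 5) (nat_lit 358) (nat_lit 5) (nat_lit 352) (nat_lit 5) (nat_lit 313) (nat_lit 301) (nat_lit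 286)) (XT.lf (nat_lit 0) (nat_lit 2167966500) (nat_lit 532) (nat_lit 375865053) (nat_lit 608) (nat_lit 4201706121) (nat_lit 344) (nat_lit 5) (nat_lit 351) (nat_lit 5) (nat_lit 352) (nat_lit 5) (nat_lit 314) (nat_lit 301) (nat_lit 285)))) (XT.nd (nat_lit 156) (nat_lit 684) (nat_lit 0) (XT.nd (nat_lit 78) (nat_lit 684) (nat_lit 0) (XT.lf (nat_lit 0) (nat_lit 5096469768) (nat_lit 608) (nat_lit 752423152) (nat_lit 76) (nat_lit 940026038) (nat_lit 344) (nat_lit 5) (nat_lit 352) (nat_lit 5) (nat_lit 345) (nat_lit 5) (nat_lit 315) (nat_lit 301) (nat_lit 284)) (XT.lf (nat_lit 0) (nat_lit 823222191) (nat_lit 684) (nat_lit 3658651742) (nat_lit 76) (nat_lit 2353077847) (nat_lit 335) (nat_lit 5) (nat_lit 344) (nat_lit 5) (nat_lit 336) (nat_lit 5) (nat_lit 316) (nat_lit 301) (nat_lit 283))) (XT.nd (nat_lit 78) (nat_lit 0) (nat_lit 0) (XT.lf (nat_lit 0) (nat_lit 282425107) (nat_lit 684) (nat_lit 3024100324) (nat_lit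 760) (nat_lit 3577613937) (nat_lit 326) (nat_lit 5) (nat_lit 335) (nat_lit 5) (nat_lit 336) (nat_lit 5) (nat_lit 317) (nat_lit 301) (nat_lit 282)) (XT.lf (nat_lit 0) (nat_lit 4354919958) (nat_lit 684) (nat_lit 1464001747) (nat_lit 760) (nat_lit 1117303096) (nat_lit 326) (nat_lit 5) (nat_lit 335) (nat_lit 5) (nat_lit 336) (nat_lit 5) (nat_lit 318) (nat_lit 301) (nat_lit 281))))))))
noncomputable def xc107 : XT := (XT.nd (nat_lit 2106) (nat_lit 5700) (nat_lit 0) (XT.nd (nat_lit 1014) (nat_lit 4864) (nat_lit 0) (XT.nd (nat_lit 468) (nat_lit 4256) (nat_lit 0) (XT.nd (nat_lit 234) (nat_lit 1976) (nat_lit 0) (XT.nd (nat_lit 78) (nat_lit 836) (nat_lit 0) (XT.lf (nat_lit 0) (nat_lit 1324757958) (nat_lit 836) (nat_lit 5479381647) (nat_lit 76) (nat_lit 187313561) (nat_lit 315) (nat_lit 5) (nat_lit 326) (nat_lit 5) (nat_lit 316) (nat_lit 5) (nat_lit 319) (nat_lit 301) (nat_lit 280)) (XT.nd (nat_lit 78) (nat_lit 836)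 (nat_lit 0) (XT.lf (nat_lit 0) (nat_lit 3779581009) (nat_lit 836) (nat_lit 1355879933) (nat_lit 76) (nat_lit 1913741804) (nat_lit 315) (nat_lit 5) (nat_lit 326) (nat_lit 5) (nat_lit 316) (nat_lit 5) (nat_lit 320) (nat_lit 301) (nat_lit 279)) (XT.lf (nat_lit 0) (nat_lit 2885822761) (nat_lit 836) (nat_lit 3373400832) (nat_lit 912) (nat_lit 850979317) (nat_lit 304) (nat_lit 5) (nat_lit 315) (nat_lit 5) (nat_lit 316) (nat_lit 5) (nat_lit 321) (nat_lit 301) (nat_lit 278)))) (XT.nd (nat_lit 78) (nat_lit 988) (nat_lit 0) (XT.lf (nat_lit 0) (nat_lit 31900526) (nat_lit 912) (nat_lit 1514732758) (nat_lit 988) (nat_lit 5627824542) (nat_lit 291) (nat_lit 5) (nat_lit 303) (nat_lit 5) (nat_lit 304) (nat_lit 5) (nat_lit 322) (nat_lit 301) (nat_lit 277)) (XT.nd (nat_lit 78) (nat_lit 988) (nat_lit 0) (XT.lf (nat_lit 0) (nat_lit 3971999279) (nat_lit 988) (nat_lit 2814125016) (nat_lit 76) (nat_lit 455124278) (nat_lit 291)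 (nat_lit 5) (nat_lit 304) (nat_lit 5) (nat_lit 292) (nat_lit 5) (nat_lit 323) (nat_lit 301) (nat_lit 276)) (XT.lf (nat_lit 0) (nat_lit 1597679530) (nat_lit 988) (nat_lit 4830963529) (nat_lit 1064) (nat_lit 882691873) (nat_lit 278) (nat_lit 5) (nat_lit 291) (nat_lit 5) (nat_lit 292) (nat_lit 5) (nat_lit 324) (nat_lit 301) (nat_lit 275))))) (XT.nd (nat_lit 234) (nat_lit 1976) (nat_lit 0) (XT.nd (nat_lit 78) (nat_lit 2204) (nat_lit 0) (XT.lf (nat_lit 0) (nat_lit 1502333796) (nat_lit 1064) (nat_lit 1262076921) (nat_lit 76) (nat_lit 4619975074) (nat_lit 277) (nat_lit 5) (nat_lit 291) (nat_lit 5) (nat_lit 278) (nat_lit 5) (nat_lit 325) (nat_lit 301) (nat_lit 274)) (XT.nd (nat_lit 78) (nat_lit 1140) (nat_lit 0) (XT.lf (nat_lit 0) (nat_lit 3317388338) (nat_lit 1064) (nat_lit 586655806) (nat_lit 1140) (nat_lit 3556478964) (nat_lit 263) (nat_lit 5) (nat_lit 277) (nat_lit 5) (nat_lit 278) (nat_lit 5) (nat_lit 326)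 (nat_lit 301) (nat_lit 273)) (XT.lf (nat_lit 0) (nat_lit 451117323) (nat_lit 1140) (nat_lit 5892290702) (nat_lit 1216) (nat_lit 1196610561) (nat_lit 248) (nat_lit 5) (nat_lit 263) (nat_lit 5) (nat_lit 264) (nat_lit 5) (nat_lit 327) (nat_lit 301) (nat_lit 272)))) (XT.nd (nat_lit 156) (nat_lit 684) (nat_lit 0) (XT.nd (nat_lit 78) (nat_lit 1216) (nat_lit 0) (XT.lf (nat_lit 0) (nat_lit 1191176049) (nat_lit 1216) (nat_lit 2434536111) (nat_lit 76) (nat_lit 3996434494) (nat_lit 247) (nat_lit 5) (nat_lit 263) (nat_lit 5) (nat_lit 248) (nat_lit 5) (nat_lit 328) (nat_lit 301) (nat_lit 271)) (XT.lf (nat_lit 0) (nat_lit 2331026958) (nat_lit 1216) (nat_lit 1253015917) (nat_lit 1292) (nat_lit 4123653877) (nat_lit 231) (nat_lit 5) (nat_lit 247) (nat_lit 5) (nat_lit 248) (nat_lit 5) (nat_lit 329) (nat_lit 301) (nat_lit 270))) (XT.nd (nat_lit 78) (nat_lit 684) (nat_lit 0) (XT.lf (nat_lit 0) (nat_lit 6021380877) (nat_lit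 1292) (nat_lit 580733942) (nat_lit 76) (nat_lit 1194555391) (nat_lit 231) (nat_lit 5) (nat_lit 248) (nat_lit 5) (nat_lit 232) (nat_lit 5) (nat_lit 330) (nat_lit 301) (nat_lit 269)) (XT.lf (nat_lit 0) (nat_lit 623539895) (nat_lit 684) (nat_lit 3524308812) (nat_lit 76) (nat_lit 3740536714) (nat_lit 222) (nat_lit 5) (nat_lit 231) (nat_lit 5) (nat_lit 223) (nat_lit 5) (nat_lit 331) (nat_lit 301) (nat_lit 268)))))) (XT.nd (nat_lit 546) (nat_lit 2432) (nat_lit 0) (XT.nd (nat_lit 234) (nat_lit 1216) (nat_lit 0) (XT.nd (nat_lit 78) (nat_lit 608) (nat_lit 0) (XT.lf (nat_lit 0) (nat_lit 1434588453) (nat_lit 608) (nat_lit 1582617203) (nat_lit 684) (nat_lit 4966396760) (nat_lit 214) (nat_lit 5) (nat_lit 222) (nat_lit 5) (nat_lit 223) (nat_lit 5) (nat_lit 332) (nat_lit 301) (nat_lit 267)) (XT.nd (nat_lit 78) (nat_lit 608) (nat_lit 0) (XT.lf (nat_lit 0) (nat_lit 5468821492) (nat_lit 684) (nat_lit 1540084895) (nat_lit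 76) (nat_lit 1073218571) (nat_lit 214) (nat_lit 5) (nat_lit 223) (nat_lit 5) (nat_lit 215) (nat_lit 5) (nat_lit 333) (nat_lit 301) (nat_lit 266)) (XT.lf (nat_lit 0) (nat_lit 3612343532) (nat_lit 608) (nat_lit 4373796857) (nat_lit 684) (nat_lit 197730422) (nat_lit 206) (nat_lit 5) (nat_lit 214) (nat_lit 5) (nat_lit 215) (nat_lit 5) (nat_lit 334) (nat_lit 301) (nat_lit 265)))) (XT.nd (nat_lit 156) (nat_lit 608) (nat_lit 0) (XT.nd (nat_lit 78) (nat_lit 0) (nat_lit 0) (XT.lf (nat_lit 0) (nat_lit 589889262) (nat_lit 532) (nat_lit 1619379303) (nat_lit 608) (nat_lit 6079860891) (nat_lit 198) (nat_lit 5) (nat_lit 205) (nat_lit 5) (nat_lit 206) (nat_lit 5) (nat_lit 335) (nat_lit 301) (nat_lit 264)) (XT.lf (nat_lit 0) (nat_lit 4686145940) (nat_lit 608) (nat_lit 2473656801) (nat_lit 76) (nat_lit 1237664642) (nat_lit 198) (nat_lit 5) (nat_lit 206) (nat_lit 5) (nat_lit 199) (nat_lit 5) (nat_lit 336) (nat_lit 301) (nat_lit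 263))) (XT.nd (nat_lit 78) (nat_lit 76) (nat_lit 0) (XT.lf (nat_lit 0) (nat_lit 2887614032) (nat_lit 532) (nat_lit 4338474615) (nat_lit 608) (nat_lit 1283332705) (nat_lit 191) (nat_lit 5) (nat_lit 198) (nat_lit 5) (nat_lit 199) (nat_lit 5) (nat_lit 337) (nat_lit 301) (nat_lit 262)) (XT.lf (nat_lit 0) (nat_lit 1164388826) (nat_lit 608) (nat_lit 237410306) (nat_lit 76) (nat_lit 7223491212) (nat_lit 190) (nat_lit 5) (nat_lit 198) (nat_lit 5) (nat_lit 191) (nat_lit 5) (nat_lit 338) (nat_lit 301) (nat_lit 261))))) (XT.nd (nat_lit 234) (nat_lit 1444) (nat_lit 0) (XT.nd (nat_lit 78) (nat_lit 532) (nat_lit 0) (XT.lf (nat_lit 0) (nat_lit 3674259473) (nat_lit 532) (nat_lit 3420586097) (nat_lit 76) (nat_lit 1648999550) (nat_lit 184) (nat_lit 5) (nat_lit 191) (nat_lit 5) (nat_lit 185) (nat_lit 5) (nat_lit 339) (nat_lit 301) (nat_lit 260)) (XT.nd (nat_lit 78) (nat_lit 0) (nat_lit 0) (XT.lf (nat_lit 0) (nat_lit 2156889073)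 (nat_lit 532) (nat_lit 4087483975) (nat_lit 608) (nat_lit 2622060566) (nat_lit 177) (nat_lit 5) (nat_lit 184) (nat_lit 5) (nat_lit 185) (nat_lit 5) (nat_lit 340) (nat_lit 301) (nat_lit 259)) (XT.lf (nat_lit 0) (nat_lit 7911378309) (nat_lit 532) (nat_lit 963602304) (nat_lit 608) (nat_lit 118242165) (nat_lit 177) (nat_lit 5) (nat_lit 184) (nat_lit 5) (nat_lit 185) (nat_lit 5) (nat_lit 341) (nat_lit 301) (nat_lit 258)))) (XT.nd (nat_lit 156) (nat_lit 456) (nat_lit 0) (XT.nd (nat_lit 78) (nat_lit 456) (nat_lit 0) (XT.lf (nat_lit 0) (nat_lit 2430162199) (nat_lit 532) (nat_lit 4422016496) (nat_lit 76) (nat_lit 2270425976) (nat_lit 170) (nat_lit 5) (nat_lit 177) (nat_lit 5) (nat_lit 171) (nat_lit 5) (nat_lit 342) (nat_lit 301) (nat_lit 257)) (XT.lf (nat_lit 0) (nat_lit 1378702015) (nat_lit 456) (nat_lit 3658389160) (nat_lit 532) (nat_lit 4219230889) (nat_lit 164) (nat_lit 5) (nat_lit 170) (nat_lit 5) (nat_lit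 171) (nat_lit 5) (nat_lit 343) (nat_lit 301) (nat_lit 256))) (XT.nd (nat_lit 78) (nat_lit 456) (nat_lit 0) (XT.lf (nat_lit 0) (nat_lit 7384170146) (nat_lit 456) (nat_lit 334196580) (nat_lit 532) (nat_lit 1675822068) (nat_lit 164) (nat_lit 5) (nat_lit 170) (nat_lit 5) (nat_lit 171) (nat_lit 5) (nat_lit 344) (nat_lit 301) (nat_lit 255)) (XT.lf (nat_lit 0) (nat_lit 946821562) (nat_lit 456) (nat_lit 5521950273) (nat_lit 76) (nat_lit 3066527670) (nat_lit 158) (nat_lit 5) (nat_lit 164) (nat_lit 5) (nat_lit 159) (nat_lit 5) (nat_lit 345) (nat_lit 301) (nat_lit 254))))))) (XT.nd (nat_lit 1014) (nat_lit 2660) (nat_lit 0) (XT.nd (nat_lit 468) (nat_lit 1444) (nat_lit 0) (XT.nd (nat_lit 234) (nat_lit 760) (nat_lit 0) (XT.nd (nat_lit 78) (nat_lit 380) (nat_lit 0) (XT.lf (nat_lit 0) (nat_lit 508536738) (nat_lit 456) (nat_lit 3087741418) (nat_lit 532) (nat_lit 6084433244) (nat_lit 152) (nat_lit 5) (nat_lit 158) (nat_lit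 5) (nat_lit 159) (nat_lit 5) (nat_lit 346) (nat_lit 301) (nat_lit 253)) (XT.nd (nat_lit 78) (nat_lit 380) (nat_lit 0) (XT.lf (nat_lit 0) (nat_lit 6339114913) (nat_lit 532) (nat_lit 3060585898) (nat_lit 76) (nat_lit 430387473) (nat_lit 152) (nat_lit 5) (nat_lit 159) (nat_lit 5) (nat_lit 153) (nat_lit 5) (nat_lit 347) (nat_lit 301) (nat_lit 252)) (XT.lf (nat_lit 0) (nat_lit 3207574411) (nat_lit 380) (nat_lit 5973202385) (nat_lit 456) (nat_lit 802692433) (nat_lit 147) (nat_lit 5) (nat_lit 152) (nat_lit 5) (nat_lit 153) (nat_lit 5) (nat_lit 348) (nat_lit 301) (nat_lit 251)))) (XT.nd (nat_lit 78) (nat_lit 684) (nat_lit 0) (XT.lf (nat_lit 0) (nat_lit 1914507893) (nat_lit 456) (nat_lit 492336829) (nat_lit 76) (nat_lit 7734458551) (nat_lit 146) (nat_lit 5) (nat_lit 152) (nat_lit 5) (nat_lit 147) (nat_lit 5) (nat_lit 349) (nat_lit 301) (nat_lit 250)) (XT.nd (nat_lit 78) (nat_lit 304) (nat_lit 0) (XT.lf (nat_lit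 0) (nat_lit 4724492037) (nat_lit 456) (nat_lit 4283815391) (nat_lit 76) (nat_lit 1294521800) (nat_lit 141) (nat_lit 5) (nat_lit 147) (nat_lit 5) (nat_lit 142) (nat_lit 5) (nat_lit 350) (nat_lit 301) (nat_lit 249)) (XT.lf (nat_lit 0) (nat_lit 2228353638) (nat_lit 304) (nat_lit 5397995796) (nat_lit 380) (nat_lit 2842641158) (nat_lit 137) (nat_lit 5) (nat_lit 141) (nat_lit 5) (nat_lit 142) (nat_lit 5) (nat_lit 351) (nat_lit 301) (nat_lit 248))))) (XT.nd (nat_lit 234) (nat_lit 684) (nat_lit 0) (XT.nd (nat_lit 78) (nat_lit 760) (nat_lit 0) (XT.lf (nat_lit 0) (nat_lit 8966274510) (nat_lit 304) (nat_lit 1650240195) (nat_lit 380) (nat_lit 23600880) (nat_lit 137) (nat_lit 5) (nat_lit 141) (nat_lit 5) (nat_lit 142) (nat_lit 5) (nat_lit 352) (nat_lit 301) (nat_lit 247)) (XT.nd (nat_lit 78) (nat_lit 304) (nat_lit 0) (XT.lf (nat_lit 0) (nat_lit 2853540149) (nat_lit 456) (nat_lit 5731871286) (nat_lit 76) (nat_lit 2229255905)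 (nat_lit 131) (nat_lit 5) (nat_lit 137) (nat_lit 5) (nat_lit 132) (nat_lit 5) (nat_lit 353) (nat_lit 301) (nat_lit 246)) (XT.lf (nat_lit 0) (nat_lit 1028712225) (nat_lit 304) (nat_lit 4790416921) (nat_lit 380) (nat_lit 5175256215) (nat_lit 127) (nat_lit 5) (nat_lit 131) (nat_lit 5) (nat_lit 132) (nat_lit 5) (nat_lit 354) (nat_lit 301) (nat_lit 245)))) (XT.nd (nat_lit 156) (nat_lit 304) (nat_lit 0) (XT.nd (nat_lit 78) (nat_lit 380) (nat_lit 0) (XT.lf (nat_lit 0) (nat_lit 8053053513) (nat_lit 304) (nat_lit 838465027) (nat_lit 380) (nat_lit 2287455929) (nat_lit 127) (nat_lit 5) (nat_lit 131) (nat_lit 5) (nat_lit 132) (nat_lit 5) (nat_lit 355) (nat_lit 301) (nat_lit 244)) (XT.lf (nat_lit 0) (nat_lit 703453839) (nat_lit 380) (nat_lit 7466840476) (nat_lit 76) (nat_lit 3197726093) (nat_lit 122) (nat_lit 5) (nat_lit 127) (nat_lit 5) (nat_lit 123) (nat_lit 5) (nat_lit 356) (nat_lit 301) (nat_lit 243))) (XT.nd (nat_lit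 78) (nat_lit 304) (nat_lit 0) (XT.lf (nat_lit 0) (nat_lit 3739470172) (nat_lit 380) (nat_lit 446055065) (nat_lit 76) (nat_lit 7376505696) (nat_lit 122) (nat_lit 5) (nat_lit 127) (nat_lit 5) (nat_lit 123) (nat_lit 5) (nat_lit 357) (nat_lit 301) (nat_lit 242)) (XT.lf (nat_lit 0) (nat_lit 6864772253) (nat_lit 304) (nat_lit 30088990) (nat_lit 380) (nat_lit 4866164612) (nat_lit 118) (nat_lit 5) (nat_lit 122) (nat_lit 5) (nat_lit 123) (nat_lit 5) (nat_lit 358) (nat_lit 301) (nat_lit 241)))))) (XT.nd (nat_lit 546) (nat_lit 1368) (nat_lit 0) (XT.nd (nat_lit 234) (nat_lit 608) (nat_lit 0) (XT.nd (nat_lit 78) (nat_lit 380) (nat_lit 0) (XT.lf (nat_lit 0) (nat_lit 2388964537) (nat_lit 304) (nat_lit 7787038568) (nat_lit 380) (nat_lit 1789067380) (nat_lit 114) (nat_lit 5) (nat_lit 118) (nat_lit 5) (nat_lit 119) (nat_lit 5) (nat_lit 359) (nat_lit 301) (nat_lit 240)) (XT.nd (nat_lit 78) (nat_lit 304) (nat_lit 0) (XT.lf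 (nat_lit 0) (nat_lit 1366546719) (nat_lit 380) (nat_lit 2249879849) (nat_lit 76) (nat_lit 8558029454) (nat_lit 113) (nat_lit 5) (nat_lit 118) (nat_lit 5) (nat_lit 114) (nat_lit 5) (nat_lit 360) (nat_lit 301) (nat_lit 239)) (XT.lf (nat_lit 0) (nat_lit 4603128109) (nat_lit 380) (nat_lit 7067357208) (nat_lit 76) (nat_lit 718450153) (nat_lit 109) (nat_lit 5) (nat_lit 114) (nat_lit 5) (nat_lit 110) (nat_lit 5) (nat_lit 361) (nat_lit 301) (nat_lit 238)))) (XT.nd (nat_lit 156) (nat_lit 304) (nat_lit 0) (XT.nd (nat_lit 78) (nat_lit 0) (nat_lit 0) (XT.lf (nat_lit 0) (nat_lit 476446616) (nat_lit 304) (nat_lit 7488050458) (nat_lit 380) (nat_lit 4644532658) (nat_lit 105) (nat_lit 5) (nat_lit 109) (nat_lit 5) (nat_lit 110) (nat_lit 5) (nat_lit 362) (nat_lit 301) (nat_lit 237)) (XT.lf (nat_lit 0) (nat_lit 8338015240) (nat_lit 304) (nat_lit 3124942564) (nat_lit 380) (nat_lit 1371692309) (nat_lit 105) (nat_lit 5) (nat_lit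 109) (nat_lit 5) (nat_lit 110) (nat_lit 5) (nat_lit 363) (nat_lit 301) (nat_lit 236))) (XT.nd (nat_lit 78) (nat_lit 0) (nat_lit 0) (XT.lf (nat_lit 0) (nat_lit 1971694263) (nat_lit 304) (nat_lit 9717813491) (nat_lit 76) (nat_lit 1376623719) (nat_lit 101) (nat_lit 5) (nat_lit 105) (nat_lit 5) (nat_lit 102) (nat_lit 5) (nat_lit 364) (nat_lit 301) (nat_lit 235)) (XT.lf (nat_lit 0) (nat_lit 5430497500) (nat_lit 304) (nat_lit 1880271198) (nat_lit 76) (nat_lit 5992110495) (nat_lit 101) (nat_lit 5) (nat_lit 105) (nat_lit 5) (nat_lit 102) (nat_lit 5) (nat_lit 365) (nat_lit 301) (nat_lit 234))))) (XT.nd (nat_lit 234) (nat_lit 760) (nat_lit 0) (XT.nd (nat_lit 78) (nat_lit 304) (nat_lit 0) (XT.lf (nat_lit 0) (nat_lit 6263255397) (nat_lit 304) (nat_lit 2756897161) (nat_lit 380) (nat_lit 4525773759) (nat_lit 97) (nat_lit 5) (nat_lit 101) (nat_lit 5) (nat_lit 102) (nat_lit 5) (nat_lit 366) (nat_lit 301) (nat_lit 233))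 (XT.nd (nat_lit 78) (nat_lit 76) (nat_lit 0) (XT.lf (nat_lit 0) (nat_lit 839879874) (nat_lit 228) (nat_lit 11890634874) (nat_lit 304) (nat_lit 1065368910) (nat_lit 94) (nat_lit 5) (nat_lit 97) (nat_lit 5) (nat_lit 98) (nat_lit 5) (nat_lit 367) (nat_lit 301) (nat_lit 232)) (XT.lf (nat_lit 0) (nat_lit 2518968362) (nat_lit 304) (nat_lit 4799606579) (nat_lit 76) (nat_lit 6731986499) (nat_lit 93) (nat_lit 5) (nat_lit 97) (nat_lit 5) (nat_lit 94) (nat_lit 5) (nat_lit 368) (nat_lit 301) (nat_lit 231)))) (XT.nd (nat_lit 156) (nat_lit 532) (nat_lit 0) (XT.nd (nat_lit 78) (nat_lit 0) (nat_lit 0) (XT.lf (nat_lit 0) (nat_lit 3611085746) (nat_lit 228) (nat_lit 2581318015) (nat_lit 304) (nat_lit 8120078457) (nat_lit 90) (nat_lit 5) (nat_lit 93) (nat_lit 5) (nat_lit 94) (nat_lit 5) (nat_lit 369) (nat_lit 301) (nat_lit 230)) (XT.lf (nat_lit 0) (nat_lit 10015615066) (nat_lit 304) (nat_lit 2281480040) (nat_lit 76) (nat_lit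 2283986612) (nat_lit 90) (nat_lit 5) (nat_lit 94) (nat_lit 5) (nat_lit 91) (nat_lit 5) (nat_lit 370) (nat_lit 301) (nat_lit 229))) (XT.nd (nat_lit 78) (nat_lit 304) (nat_lit 0) (XT.lf (nat_lit 0) (nat_lit 6442068415) (nat_lit 228) (nat_lit 7568389464) (nat_lit 304) (nat_lit 845581315) (nat_lit 87) (nat_lit 5) (nat_lit 90) (nat_lit 5) (nat_lit 91) (nat_lit 5) (nat_lit 371) (nat_lit 301) (nat_lit 228)) (XT.lf (nat_lit 0) (nat_lit 262481217) (nat_lit 228) (nat_lit 2660512163) (nat_lit 304) (nat_lit 12215537772) (nat_lit 83) (nat_lit 5) (nat_lit 86) (nat_lit 5) (nat_lit 87) (nat_lit 5) (nat_lit 372) (nat_lit 301) (nat_lit 227))))))))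
noncomputable def xc108 : XT := (XT.nd (nat_lit 2106) (nat_lit 1520) (nat_lit 0) (XT.nd (nat_lit 1014) (nat_lit 1292) (nat_lit 0) (XT.nd (nat_lit 468) (nat_lit 912) (nat_lit 0) (XT.nd (nat_lit 234) (nat_lit 456) (nat_lit 0) (XT.nd (nat_lit 78) (nat_lit 152) (nat_lit 0) (XT.lf (nat_lit 0) (nat_lit 6866260295) (nat_lit 304) (nat_lit 6136967928) (nat_lit 76) (nat_lit 2423666935) (nat_lit 83) (nat_lit 5) (nat_lit 87) (nat_lit 5) (nat_lit 84) (nat_lit 5) (nat_lit 373) (nat_lit 301) (nat_lit 226)) (XT.nd (nat_lit 78) (nat_lit 0) (nat_lit 0) (XT.lf (nat_lit 0) (nat_lit 2845418493) (nat_lit 152) (nat_lit 8106785874) (nat_lit 228) (nat_lit 4770981490) (nat_lit 81) (nat_lit 5) (nat_lit 83) (nat_lit 5) (nat_lit 84) (nat_lit 5) (nat_lit 374) (nat_lit 301) (nat_lit 225)) (XT.lf (nat_lit 0) (nat_lit 12175498717) (nat_lit 152) (nat_lit 3018281385) (nat_lit 228) (nat_lit 833600514) (nat_lit 81) (nat_lit 5) (nat_lit 83)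 (nat_lit 5) (nat_lit 84) (nat_lit 5) (nat_lit 375) (nat_lit 301) (nat_lit 224)))) (XT.nd (nat_lit 78) (nat_lit 152) (nat_lit 0) (XT.lf (nat_lit 0) (nat_lit 3205307114) (nat_lit 304) (nat_lit 10887210089) (nat_lit 76) (nat_lit 2245873145) (nat_lit 77) (nat_lit 5) (nat_lit 81) (nat_lit 5) (nat_lit 78) (nat_lit 5) (nat_lit 376) (nat_lit 301) (nat_lit 223)) (XT.nd (nat_lit 78) (nat_lit 152) (nat_lit 0) (XT.lf (nat_lit 0) (nat_lit 7389637391) (nat_lit 304) (nat_lit 1630767804) (nat_lit 76) (nat_lit 7636853624) (nat_lit 77) (nat_lit 5) (nat_lit 81) (nat_lit 5) (nat_lit 78) (nat_lit 5) (nat_lit 377) (nat_lit 301) (nat_lit 222)) (XT.lf (nat_lit 0) (nat_lit 8014144956) (nat_lit 152) (nat_lit 3735053970) (nat_lit 228) (nat_lit 5235009543) (nat_lit 75) (nat_lit 5) (nat_lit 77) (nat_lit 5) (nat_lit 78) (nat_lit 5) (nat_lit 378) (nat_lit 301) (nat_lit 221))))) (XT.nd (nat_lit 234) (nat_lit 456) (nat_lit 0) (XT.nd (nat_lit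 78) (nat_lit 228) (nat_lit 0) (XT.lf (nat_lit 0) (nat_lit 610891871) (nat_lit 228) (nat_lit 15640436624) (nat_lit 304) (nat_lit 1069290663) (nat_lit 72) (nat_lit 5) (nat_lit 75) (nat_lit 5) (nat_lit 76) (nat_lit 5) (nat_lit 379) (nat_lit 301) (nat_lit 220)) (XT.nd (nat_lit 78) (nat_lit 152) (nat_lit 0) (XT.lf (nat_lit 0) (nat_lit 3259931815) (nat_lit 304) (nat_lit 7115991077) (nat_lit 76) (nat_lit 7287234141) (nat_lit 71) (nat_lit 5) (nat_lit 75) (nat_lit 5) (nat_lit 72) (nat_lit 5) (nat_lit 380) (nat_lit 301) (nat_lit 219)) (XT.lf (nat_lit 0) (nat_lit 2764353345) (nat_lit 152) (nat_lit 4933482409) (nat_lit 228) (nat_lit 10317814263) (nat_lit 69) (nat_lit 5) (nat_lit 71) (nat_lit 5) (nat_lit 72) (nat_lit 5) (nat_lit 381) (nat_lit 301) (nat_lit 218)))) (XT.nd (nat_lit 156) (nat_lit 228) (nat_lit 0) (XT.nd (nat_lit 78) (nat_lit 228) (nat_lit 0) (XT.lf (nat_lit 0) (nat_lit 12321797907) (nat_lit 228) (nat_lit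 5341487492) (nat_lit 76) (nat_lit 713850078) (nat_lit 69) (nat_lit 5) (nat_lit 72) (nat_lit 5) (nat_lit 70) (nat_lit 5) (nat_lit 382) (nat_lit 301) (nat_lit 217)) (XT.lf (nat_lit 0) (nat_lit 4868340293) (nat_lit 228) (nat_lit 12286433115) (nat_lit 304) (nat_lit 1592588420) (nat_lit 66) (nat_lit 5) (nat_lit 69) (nat_lit 5) (nat_lit 70) (nat_lit 5) (nat_lit 383) (nat_lit 301) (nat_lit 216))) (XT.nd (nat_lit 78) (nat_lit 152) (nat_lit 0) (XT.lf (nat_lit 0) (nat_lit 2974619038) (nat_lit 304) (nat_lit 3706039720) (nat_lit 76) (nat_lit 12446298913) (nat_lit 65) (nat_lit 5) (nat_lit 69) (nat_lit 5) (nat_lit 66) (nat_lit 5) (nat_lit 384) (nat_lit 301) (nat_lit 215)) (XT.lf (nat_lit 0) (nat_lit 6847744470) (nat_lit 152) (nat_lit 840372676) (nat_lit 228) (nat_lit 11828117404) (nat_lit 63) (nat_lit 5) (nat_lit 65) (nat_lit 5) (nat_lit 66) (nat_lit 5) (nat_lit 385) (nat_lit 301) (nat_lit 214)))))) (XT.nd (nat_lit 546)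 (nat_lit 532) (nat_lit 0) (XT.nd (nat_lit 234) (nat_lit 532) (nat_lit 0) (XT.nd (nat_lit 78) (nat_lit 228) (nat_lit 0) (XT.lf (nat_lit 0) (nat_lit 12606163578) (nat_lit 228) (nat_lit 2214462760) (nat_lit 76) (nat_lit 5094673685) (nat_lit 63) (nat_lit 5) (nat_lit 66) (nat_lit 5) (nat_lit 64) (nat_lit 5) (nat_lit 386) (nat_lit 301) (nat_lit 213)) (XT.nd (nat_lit 78) (nat_lit 76) (nat_lit 0) (XT.lf (nat_lit 0) (nat_lit 8672948890) (nat_lit 152) (nat_lit 9066806000) (nat_lit 228) (nat_lit 2584546918) (nat_lit 61) (nat_lit 5) (nat_lit 63) (nat_lit 5) (nat_lit 64) (nat_lit 5) (nat_lit 387) (nat_lit 301) (nat_lit 212)) (XT.lf (nat_lit 0) (nat_lit 2236213307) (nat_lit 228) (nat_lit 875908175) (nat_lit 76) (nat_lit 17632829586) (nat_lit 60) (nat_lit 5) (nat_lit 63) (nat_lit 5) (nat_lit 61) (nat_lit 5) (nat_lit 388) (nat_lit 301) (nat_lit 211)))) (XT.nd (nat_lit 156) (nat_lit 228) (nat_lit 0) (XT.nd (nat_lit 78)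 (nat_lit 152) (nat_lit 0) (XT.lf (nat_lit 0) (nat_lit 7256410136) (nat_lit 228) (nat_lit 10845941861) (nat_lit 76) (nat_lit 3071901376) (nat_lit 58) (nat_lit 5) (nat_lit 61) (nat_lit 5) (nat_lit 59) (nat_lit 5) (nat_lit 389) (nat_lit 301) (nat_lit 210)) (XT.lf (nat_lit 0) (nat_lit 203356951) (nat_lit 152) (nat_lit 12242743832) (nat_lit 228) (nat_lit 9169771286) (nat_lit 56) (nat_lit 5) (nat_lit 58) (nat_lit 5) (nat_lit 59) (nat_lit 5) (nat_lit 390) (nat_lit 301) (nat_lit 209))) (XT.nd (nat_lit 78) (nat_lit 228) (nat_lit 0) (XT.lf (nat_lit 0) (nat_lit 11766705307) (nat_lit 152) (nat_lit 6111769336) (nat_lit 228) (nat_lit 4189658749) (nat_lit 56) (nat_lit 5) (nat_lit 58) (nat_lit 5) (nat_lit 59) (nat_lit 5) (nat_lit 391) (nat_lit 301) (nat_lit 208)) (XT.lf (nat_lit 0) (nat_lit 912142758) (nat_lit 228) (nat_lit 21419319279) (nat_lit 76) (nat_lit 202514337) (nat_lit 53) (nat_lit 5) (nat_lit 56) (nat_lit 5)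 (nat_lit 54) (nat_lit 5) (nat_lit 392) (nat_lit 301) (nat_lit 207))))) (XT.nd (nat_lit 234) (nat_lit 380) (nat_lit 0) (XT.nd (nat_lit 78) (nat_lit 152) (nat_lit 0) (XT.lf (nat_lit 0) (nat_lit 6226372777) (nat_lit 228) (nat_lit 10068463555) (nat_lit 76) (nat_lit 6713409903) (nat_lit 53) (nat_lit 5) (nat_lit 56) (nat_lit 5) (nat_lit 54) (nat_lit 5) (nat_lit 393) (nat_lit 301) (nat_lit 206)) (XT.nd (nat_lit 78) (nat_lit 0) (nat_lit 0) (XT.lf (nat_lit 0) (nat_lit 1616441639) (nat_lit 152) (nat_lit 10077782324) (nat_lit 228) (nat_lit 11802697814) (nat_lit 51) (nat_lit 5) (nat_lit 53) (nat_lit 5) (nat_lit 54) (nat_lit 5) (nat_lit 394) (nat_lit 301) (nat_lit 205)) (XT.lf (nat_lit 0) (nat_lit 13820641554) (nat_lit 152) (nat_lit 3586056704) (nat_lit 228) (nat_lit 6591145014) (nat_lit 51) (nat_lit 5) (nat_lit 53) (nat_lit 5) (nat_lit 54) (nat_lit 5) (nat_lit 395) (nat_lit 301) (nat_lit 204)))) (XT.nd (nat_lit 156)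 (nat_lit 152) (nat_lit 0) (XT.nd (nat_lit 78) (nat_lit 76) (nat_lit 0) (XT.lf (nat_lit 0) (nat_lit 1846389285) (nat_lit 152) (nat_lit 21471084629) (nat_lit 228) (nat_lit 1195513902) (nat_lit 49) (nat_lit 5) (nat_lit 51) (nat_lit 5) (nat_lit 52) (nat_lit 4) (nat_lit 396) (nat_lit 301) (nat_lit 203)) (XT.lf (nat_lit 0) (nat_lit 4395579880) (nat_lit 228) (nat_lit 10716708142) (nat_lit 76) (nat_lit 9926482451) (nat_lit 48) (nat_lit 5) (nat_lit 51) (nat_lit 5) (nat_lit 49) (nat_lit 5) (nat_lit 397) (nat_lit 301) (nat_lit 202))) (XT.nd (nat_lit 78) (nat_lit 0) (nat_lit 0) (XT.lf (nat_lit 0) (nat_lit 1574585396) (nat_lit 152) (nat_lit 8550946741) (nat_lit 228) (nat_lit 15454587684) (nat_lit 46) (nat_lit 5) (nat_lit 48) (nat_lit 5) (nat_lit 49) (nat_lit 5) (nat_lit 398) (nat_lit 301) (nat_lit 201)) (XT.lf (nat_lit 0) (nat_lit 14418669898) (nat_lit 152) (nat_lit 1697188723) (nat_lit 228) (nat_lit 10019199617) (nat_lit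 46) (nat_lit 5) (nat_lit 48) (nat_lit 5) (nat_lit 49) (nat_lit 5) (nat_lit 399) (nat_lit 301) (nat_lit 200))))))) (XT.nd (nat_lit 1014) (nat_lit 608) (nat_lit 0) (XT.nd (nat_lit 468) (nat_lit 532) (nat_lit 0) (XT.nd (nat_lit 234) (nat_lit 228) (nat_lit 0) (XT.nd (nat_lit 78) (nat_lit 76) (nat_lit 0) (XT.lf (nat_lit 0) (nat_lit 871879457) (nat_lit 76) (nat_lit 21454625714) (nat_lit 152) (nat_lit 4378924106) (nat_lit 45) (nat_lit 5) (nat_lit 46) (nat_lit 5) (nat_lit 47) (nat_lit 4) (nat_lit 400) (nat_lit 301) (nat_lit 199)) (XT.nd (nat_lit 78) (nat_lit 0) (nat_lit 0) (XT.lf (nat_lit 0) (nat_lit 1519654385) (nat_lit 152) (nat_lit 13278183515) (nat_lit 76) (nat_lit 12491153316) (nat_lit 44) (nat_lit 5) (nat_lit 46) (nat_lit 5) (nat_lit 45) (nat_lit 5) (nat_lit 401) (nat_lit 301) (nat_lit 198)) (XT.lf (nat_lit 0) (nat_lit 7488461958) (nat_lit 152) (nat_lit 423555143) (nat_lit 76) (nat_lit 19977306270) (nat_lit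 44) (nat_lit 5) (nat_lit 46) (nat_lit 5) (nat_lit 45) (nat_lit 5) (nat_lit 402) (nat_lit 301) (nat_lit 197)))) (XT.nd (nat_lit 78) (nat_lit 76) (nat_lit 0) (XT.lf (nat_lit 0) (nat_lit 13038080300) (nat_lit 152) (nat_lit 705412360) (nat_lit 228) (nat_lit 14760960529) (nat_lit 42) (nat_lit 5) (nat_lit 44) (nat_lit 5) (nat_lit 45) (nat_lit 5) (nat_lit 403) (nat_lit 301) (nat_lit 196)) (XT.nd (nat_lit 78) (nat_lit 76) (nat_lit 0) (XT.lf (nat_lit 0) (nat_lit 20236966941) (nat_lit 228) (nat_lit 2323402080) (nat_lit 76) (nat_lit 6576146496) (nat_lit 42) (nat_lit 5) (nat_lit 45) (nat_lit 5) (nat_lit 43) (nat_lit 4) (nat_lit 404) (nat_lit 301) (nat_lit 195)) (XT.lf (nat_lit 0) (nat_lit 11397110354) (nat_lit 76) (nat_lit 15627104077) (nat_lit 152) (nat_lit 2760358538) (nat_lit 41) (nat_lit 5) (nat_lit 42) (nat_lit 5) (nat_lit 43) (nat_lit 4) (nat_lit 405) (nat_lit 301) (nat_lit 194))))) (XT.nd (nat_lit 234) (nat_lit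 304) (nat_lit 0) (XT.nd (nat_lit 78) (nat_lit 152) (nat_lit 0) (XT.lf (nat_lit 0) (nat_lit 3499634408) (nat_lit 152) (nat_lit 4941182611) (nat_lit 76) (nat_lit 22010045194) (nat_lit 40) (nat_lit 5) (nat_lit 42) (nat_lit 5) (nat_lit 41) (nat_lit 5) (nat_lit 406) (nat_lit 301) (nat_lit 193)) (XT.nd (nat_lit 78) (nat_lit 0) (nat_lit 0) (XT.lf (nat_lit 0) (nat_lit 9026025739) (nat_lit 152) (nat_lit 935655691) (nat_lit 228) (nat_lit 21172548879) (nat_lit 38) (nat_lit 5) (nat_lit 40) (nat_lit 5) (nat_lit 41) (nat_lit 5) (nat_lit 407) (nat_lit 301) (nat_lit 192)) (XT.lf (nat_lit 0) (nat_lit 16716328336) (nat_lit 228) (nat_lit 8420196071) (nat_lit 76) (nat_lit 6698614952) (nat_lit 38) (nat_lit 5) (nat_lit 41) (nat_lit 5) (nat_lit 39) (nat_lit 4) (nat_lit 408) (nat_lit 301) (nat_lit 191)))) (XT.nd (nat_lit 156) (nat_lit 228) (nat_lit 0) (XT.nd (nat_lit 78) (nat_lit 0) (nat_lit 0) (XT.lf (nat_lit 0) (nat_lit 5750999049)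 (nat_lit 76) (nat_lit 17970689564) (nat_lit 152) (nat_lit 8833946855) (nat_lit 37) (nat_lit 5) (nat_lit 38) (nat_lit 5) (nat_lit 39) (nat_lit 4) (nat_lit 409) (nat_lit 301) (nat_lit 190)) (XT.lf (nat_lit 0) (nat_lit 20489821529) (nat_lit 76) (nat_lit 10516133857) (nat_lit 152) (nat_lit 2289730650) (nat_lit 37) (nat_lit 5) (nat_lit 38) (nat_lit 5) (nat_lit 39) (nat_lit 4) (nat_lit 410) (nat_lit 301) (nat_lit 189))) (XT.nd (nat_lit 78) (nat_lit 0) (nat_lit 0) (XT.lf (nat_lit 0) (nat_lit 1571189465) (nat_lit 152) (nat_lit 2791908515) (nat_lit 228) (nat_lit 29693584337) (nat_lit 34) (nat_lit 5) (nat_lit 36) (nat_lit 5) (nat_lit 37) (nat_lit 5) (nat_lit 411) (nat_lit 301) (nat_lit 188)) (XT.lf (nat_lit 0) (nat_lit 11333812710) (nat_lit 228) (nat_lit 18297769810) (nat_lit 76) (nat_lit 5203317955) (nat_lit 34) (nat_lit 5) (nat_lit 37) (nat_lit 5) (nat_lit 35) (nat_lit 4) (nat_lit 412) (nat_lit 301) (nat_lit 187))))))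 (XT.nd (nat_lit 546) (nat_lit 228) (nat_lit 0) (XT.nd (nat_lit 234) (nat_lit 304) (nat_lit 0) (XT.nd (nat_lit 78) (nat_lit 76) (nat_lit 0) (XT.lf (nat_lit 0) (nat_lit 18525843143) (nat_lit 228) (nat_lit 3740807818) (nat_lit 76) (nat_lit 13369450117) (nat_lit 34) (nat_lit 5) (nat_lit 37) (nat_lit 5) (nat_lit 35) (nat_lit 4) (nat_lit 413) (nat_lit 301) (nat_lit 186)) (XT.nd (nat_lit 78) (nat_lit 0) (nat_lit 0) (XT.lf (nat_lit 0) (nat_lit 11448348850) (nat_lit 76) (nat_lit 14580335728) (nat_lit 152) (nat_lit 10429803299) (nat_lit 33) (nat_lit 5) (nat_lit 34) (nat_lit 5) (nat_lit 35) (nat_lit 4) (nat_lit 414) (nat_lit 301) (nat_lit 185)) (XT.lf (nat_lit 0) (nat_lit 27142224063) (nat_lit 76) (nat_lit 6637334738) (nat_lit 152) (nat_lit 3525300681) (nat_lit 33) (nat_lit 5) (nat_lit 34) (nat_lit 5) (nat_lit 35) (nat_lit 4) (nat_lit 415) (nat_lit 301) (nat_lit 184)))) (XT.nd (nat_lit 156) (nat_lit 76) (nat_lit 0)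 (XT.nd (nat_lit 78) (nat_lit 0) (nat_lit 0) (XT.lf (nat_lit 0) (nat_lit 3567062057) (nat_lit 228) (nat_lit 33020517502) (nat_lit 76) (nat_lit 1586488772) (nat_lit 30) (nat_lit 5) (nat_lit 33) (nat_lit 5) (nat_lit 31) (nat_lit 4) (nat_lit 416) (nat_lit 301) (nat_lit 183)) (XT.lf (nat_lit 0) (nat_lit 10956201354) (nat_lit 228) (nat_lit 18057535958) (nat_lit 76) (nat_lit 10049924682) (nat_lit 30) (nat_lit 5) (nat_lit 33) (nat_lit 5) (nat_lit 31) (nat_lit 4) (nat_lit 417) (nat_lit 301) (nat_lit 182))) (XT.nd (nat_lit 78) (nat_lit 76) (nat_lit 0) (XT.lf (nat_lit 0) (nat_lit 18552942778) (nat_lit 228) (nat_lit 2672045264) (nat_lit 76) (nat_lit 18755379036) (nat_lit 30) (nat_lit 5) (nat_lit 33) (nat_lit 5) (nat_lit 31) (nat_lit 4) (nat_lit 418) (nat_lit 301) (nat_lit 181)) (XT.lf (nat_lit 0) (nat_lit 13411097019) (nat_lit 76) (nat_lit 13081742908) (nat_lit 152) (nat_lit 14428277189) (nat_lit 29) (nat_lit 5) (nat_lit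 30) (nat_lit 5) (nat_lit 31) (nat_lit 4) (nat_lit 419) (nat_lit 301) (nat_lit 180))))) (XT.nd (nat_lit 234) (nat_lit 76) (nat_lit 0) (XT.nd (nat_lit 78) (nat_lit 152) (nat_lit 0) (XT.lf (nat_lit 0) (nat_lit 30006147040) (nat_lit 76) (nat_lit 4678261328) (nat_lit 152) (nat_lit 7205278423) (nat_lit 29) (nat_lit 5) (nat_lit 30) (nat_lit 5) (nat_lit 31) (nat_lit 4) (nat_lit 420) (nat_lit 301) (nat_lit 179)) (XT.nd (nat_lit 78) (nat_lit 0) (nat_lit 0) (XT.lf (nat_lit 0) (nat_lit 296164879) (nat_lit 152) (nat_lit 38657086660) (nat_lit 76) (nat_lit 3932005841) (nat_lit 27) (nat_lit 5) (nat_lit 29) (nat_lit 5) (nat_lit 28) (nat_lit 4) (nat_lit 421) (nat_lit 301) (nat_lit 178)) (XT.lf (nat_lit 0) (nat_lit 8032132684) (nat_lit 152) (nat_lit 22984034838) (nat_lit 76) (nat_lit 12887759627) (nat_lit 27) (nat_lit 5) (nat_lit 29) (nat_lit 5) (nat_lit 28) (nat_lit 4) (nat_lit 422) (nat_lit 301) (nat_lit 177)))) (XT.nd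 (nat_lit 156) (nat_lit 0) (nat_lit 0) (XT.nd (nat_lit 78) (nat_lit 76) (nat_lit 0) (XT.lf (nat_lit 0) (nat_lit 15987356390) (nat_lit 152) (nat_lit 6864991707) (nat_lit 76) (nat_lit 22101194822) (nat_lit 27) (nat_lit 5) (nat_lit 29) (nat_lit 5) (nat_lit 28) (nat_lit 4) (nat_lit 423) (nat_lit 301) (nat_lit 176)) (XT.lf (nat_lit 0) (nat_lit 9907457515) (nat_lit 76) (nat_lit 14356566191) (nat_lit 152) (nat_lit 21768141026) (nat_lit 26) (nat_lit 5) (nat_lit 27) (nat_lit 5) (nat_lit 28) (nat_lit 4) (nat_lit 424) (nat_lit 301) (nat_lit 175))) (XT.nd (nat_lit 78) (nat_lit 0) (nat_lit 0) (XT.lf (nat_lit 0) (nat_lit 27300540777) (nat_lit 76) (nat_lit 5545462551) (nat_lit 152) (nat_lit 14295432648) (nat_lit 26) (nat_lit 5) (nat_lit 27) (nat_lit 5) (nat_lit 28) (nat_lit 4) (nat_lit 425) (nat_lit 301) (nat_lit 174)) (XT.lf (nat_lit 0) (nat_lit 41707320269) (nat_lit 152) (nat_lit 3125345946) (nat_lit 0) (nat_lit 3450663913)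 (nat_lit 26) (nat_lit 5) (nat_lit 28) (nat_lit 4) (nat_lit 26) (nat_lit 4) (nat_lit 426) (nat_lit 301) (nat_lit 173))))))))
noncomputable def xc109 : XT := (XT.nd (nat_lit 37674) (nat_lit 0) (nat_lit 14364) (XT.nd (nat_lit 1014) (nat_lit 228) (nat_lit 0) (XT.nd (nat_lit 468) (nat_lit 304) (nat_lit 0) (XT.nd (nat_lit 234) (nat_lit 76) (nat_lit 0) (XT.nd (nat_lit 78) (nat_lit 0) (nat_lit 0) (XT.lf (nat_lit 0) (nat_lit 1530551775) (nat_lit 152) (nat_lit 35175567128) (nat_lit 76) (nat_lit 12747495112) (nat_lit 24) (nat_lit 5) (nat_lit 26) (nat_lit 5) (nat_lit 25) (nat_lit 4) (nat_lit 427) (nat_lit 301) (nat_lit 172)) (XT.nd (nat_lit 78) (nat_lit 0) (nat_lit 0) (XT.lf (nat_lit 0) (nat_lit 9768322213) (nat_lit 152) (nat_lit 18478068747) (nat_lit 76) (nat_lit 22410057706) (nat_lit 24) (nat_lit 5) (nat_lit 26) (nat_lit 5) (nat_lit 25) (nat_lit 4) (nat_lit 428) (nat_lit 301) (nat_lit 171)) (XT.lf (nat_lit 0) (nat_lit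 18241877124) (nat_lit 152) (nat_lit 1301194616) (nat_lit 76) (nat_lit 32352638063) (nat_lit 24) (nat_lit 5) (nat_lit 26) (nat_lit 5) (nat_lit 25) (nat_lit 4) (nat_lit 429) (nat_lit 301) (nat_lit 170)))) (XT.nd (nat_lit 78) (nat_lit 0) (nat_lit 0) (XT.lf (nat_lit 0) (nat_lit 16695860560) (nat_lit 76) (nat_lit 10423250850) (nat_lit 152) (nat_lit 26048554138) (nat_lit 23) (nat_lit 5) (nat_lit 24) (nat_lit 5) (nat_lit 25) (nat_lit 4) (nat_lit 430) (nat_lit 301) (nat_lit 169)) (XT.nd (nat_lit 78) (nat_lit 0) (nat_lit 0) (XT.lf (nat_lit 0) (nat_lit 35238784165) (nat_lit 76) (nat_lit 1026121754) (nat_lit 152) (nat_lit 18212807682) (nat_lit 23) (nat_lit 5) (nat_lit 24) (nat_lit 5) (nat_lit 25) (nat_lit 4) (nat_lit 431) (nat_lit 301) (nat_lit 168)) (XT.lf (nat_lit 0) (nat_lit 45757580835) (nat_lit 152) (nat_lit 1592584463) (nat_lit 0) (nat_lit 8474723502) (nat_lit 23) (nat_lit 5) (nat_lit 25) (nat_lit 4) (nat_lit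 23) (nat_lit 4) (nat_lit 432) (nat_lit 301) (nat_lit 167))))) (XT.nd (nat_lit 234) (nat_lit 152) (nat_lit 0) (XT.nd (nat_lit 78) (nat_lit 76) (nat_lit 0) (XT.lf (nat_lit 0) (nat_lit 16882685994) (nat_lit 76) (nat_lit 38814436526) (nat_lit 76) (nat_lit 1510495017) (nat_lit 22) (nat_lit 4) (nat_lit 23) (nat_lit 5) (nat_lit 23) (nat_lit 4) (nat_lit 433) (nat_lit 301) (nat_lit 166)) (XT.nd (nat_lit 78) (nat_lit 0) (nat_lit 0) (XT.lf (nat_lit 0) (nat_lit 7166406952) (nat_lit 152) (nat_lit 22776605468) (nat_lit 76) (nat_lit 28686533720) (nat_lit 21) (nat_lit 5) (nat_lit 23) (nat_lit 5) (nat_lit 22) (nat_lit 4) (nat_lit 434) (nat_lit 301) (nat_lit 165)) (XT.lf (nat_lit 0) (nat_lit 16063209628) (nat_lit 152) (nat_lit 4735969893) (nat_lit 76) (nat_lit 39294806628) (nat_lit 21) (nat_lit 5) (nat_lit 23) (nat_lit 5) (nat_lit 22) (nat_lit 4) (nat_lit 435) (nat_lit 301) (nat_lit 164)))) (XT.nd (nat_lit 156) (nat_lit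 76) (nat_lit 0) (XT.nd (nat_lit 78) (nat_lit 0) (nat_lit 0) (XT.lf (nat_lit 0) (nat_lit 14102448204) (nat_lit 76) (nat_lit 11250275269) (nat_lit 152) (nat_lit 36245862452) (nat_lit 20) (nat_lit 5) (nat_lit 21) (nat_lit 5) (nat_lit 22) (nat_lit 4) (nat_lit 436) (nat_lit 301) (nat_lit 163)) (XT.lf (nat_lit 0) (nat_lit 33584658091) (nat_lit 76) (nat_lit 1374441196) (nat_lit 152) (nat_lit 28188079865) (nat_lit 20) (nat_lit 5) (nat_lit 21) (nat_lit 5) (nat_lit 22) (nat_lit 4) (nat_lit 437) (nat_lit 301) (nat_lit 162))) (XT.nd (nat_lit 78) (nat_lit 76) (nat_lit 0) (XT.lf (nat_lit 0) (nat_lit 44928786391) (nat_lit 152) (nat_lit 11193570412) (nat_lit 0) (nat_lit 8617620508) (nat_lit 20) (nat_lit 5) (nat_lit 22) (nat_lit 4) (nat_lit 20) (nat_lit 4) (nat_lit 438) (nat_lit 301) (nat_lit 161)) (XT.lf (nat_lit 0) (nat_lit 7848412643) (nat_lit 76) (nat_lit 47429030185) (nat_lit 76) (nat_lit 11100720938) (nat_lit 19)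 (nat_lit 4) (nat_lit 20) (nat_lit 5) (nat_lit 20) (nat_lit 4) (nat_lit 439) (nat_lit 301) (nat_lit 160)))))) (XT.nd (nat_lit 36114) (nat_lit 0) (nat_lit 26372) (XT.nd (nat_lit 234) (nat_lit 152) (nat_lit 0) (XT.nd (nat_lit 78) (nat_lit 76) (nat_lit 0) (XT.lf (nat_lit 0) (nat_lit 27673706164) (nat_lit 76) (nat_lit 38366812421) (nat_lit 76) (nat_lit 2021859131) (nat_lit 19) (nat_lit 4) (nat_lit 20) (nat_lit 5) (nat_lit 20) (nat_lit 4) (nat_lit 440) (nat_lit 301) (nat_lit 159)) (XT.nd (nat_lit 78) (nat_lit 0) (nat_lit 0) (XT.lf (nat_lit 0) (nat_lit 7177449061) (nat_lit 152) (nat_lit 21790890959) (nat_lit 76) (nat_lit 40826931999) (nat_lit 18) (nat_lit 5) (nat_lit 20) (nat_lit 5) (nat_lit 19) (nat_lit 4) (nat_lit 441) (nat_lit 301) (nat_lit 158)) (XT.lf (nat_lit 0) (nat_lit 16603461184) (nat_lit 152) (nat_lit 2671774956) (nat_lit 76) (nat_lit 52304576230) (nat_lit 18) (nat_lit 5) (nat_lit 20) (nat_lit 5) (nat_lit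 19) (nat_lit 4) (nat_lit 442) (nat_lit 301) (nat_lit 157)))) (XT.nd (nat_lit 156) (nat_lit 76) (nat_lit 0) (XT.nd (nat_lit 78) (nat_lit 0) (nat_lit 0) (XT.lf (nat_lit 0) (nat_lit 17343247043) (nat_lit 76) (nat_lit 9127334169) (nat_lit 152) (nat_lit 46942558508) (nat_lit 17) (nat_lit 5) (nat_lit 18) (nat_lit 5) (nat_lit 19) (nat_lit 4) (nat_lit 443) (nat_lit 301) (nat_lit 156)) (XT.lf (nat_lit 0) (nat_lit 36665329628) (nat_lit 152) (nat_lit 37316287784) (nat_lit 0) (nat_lit 1318901632) (nat_lit 17) (nat_lit 5) (nat_lit 19) (nat_lit 4) (nat_lit 17) (nat_lit 4) (nat_lit 444) (nat_lit 301) (nat_lit 155))) (XT.nd (nat_lit 78) (nat_lit 76) (nat_lit 0) (XT.lf (nat_lit 0) (nat_lit 47248165107) (nat_lit 152) (nat_lit 18106089895) (nat_lit 0) (nat_lit 11887797987) (nat_lit 17) (nat_lit 5) (nat_lit 19) (nat_lit 4) (nat_lit 17) (nat_lit 4) (nat_lit 445) (nat_lit 301) (nat_lit 154)) (XT.lf (nat_lit 0) (nat_lit 1698365344)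 (nat_lit 76) (nat_lit 56458557650) (nat_lit 76) (nat_lit 21084657400) (nat_lit 16) (nat_lit 4) (nat_lit 17) (nat_lit 5) (nat_lit 17) (nat_lit 4) (nat_lit 446) (nat_lit 301) (nat_lit 153))))) (XT.nd (nat_lit 234) (nat_lit 684) (nat_lit 0) (XT.nd (nat_lit 78) (nat_lit 228) (nat_lit 0) (XT.lf (nat_lit 0) (nat_lit 2740701414) (nat_lit 228) (nat_lit 244504262) (nat_lit 228) (nat_lit 244504262) (nat_lit 375) (nat_lit 3) (nat_lit 378) (nat_lit 3) (nat_lit 378) (nat_lit 5) (nat_lit 302) (nat_lit 302) (nat_lit 296)) (XT.nd (nat_lit 78) (nat_lit 0) (nat_lit 0) (XT.lf (nat_lit 0) (nat_lit 1853126915) (nat_lit 228) (nat_lit 3801896447) (nat_lit 304) (nat_lit 814161896) (nat_lit 372) (nat_lit 5) (nat_lit 375) (nat_lit 3) (nat_lit 376) (nat_lit 5) (nat_lit 303) (nat_lit 302) (nat_lit 295)) (XT.lf (nat_lit 0) (nat_lit 4644692597) (nat_lit 228) (nat_lit 619658718) (nat_lit 304) (nat_lit 1217849655) (nat_lit 372) (nat_lit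 5) (nat_lit 375) (nat_lit 3) (nat_lit 376) (nat_lit 5) (nat_lit 304) (nat_lit 302) (nat_lit 294)))) (XT.nd (nat_lit 156) (nat_lit 380) (nat_lit 0) (XT.nd (nat_lit 78) (nat_lit 0) (nat_lit 0) (XT.lf (nat_lit 0) (nat_lit 922361066) (nat_lit 304) (nat_lit 3854787652) (nat_lit 380) (nat_lit 1720720780) (nat_lit 368) (nat_lit 5) (nat_lit 372) (nat_lit 5) (nat_lit 373) (nat_lit 5) (nat_lit 305) (nat_lit 302) (nat_lit 293)) (XT.lf (nat_lit 0) (nat_lit 3629205413) (nat_lit 304) (nat_lit 574701062) (nat_lit 380) (nat_lit 2312616021) (nat_lit 368) (nat_lit 5) (nat_lit 372) (nat_lit 5) (nat_lit 373) (nat_lit 5) (nat_lit 306) (nat_lit 302) (nat_lit 292))) (XT.nd (nat_lit 78) (nat_lit 380) (nat_lit 0) (XT.lf (nat_lit 76) (nat_lit 2801135139) (nat_lit 0) (nat_lit 3540902126) (nat_lit 380) (nat_lit 196045163) (nat_lit 369) (nat_lit 5) (nat_lit 368) (nat_lit 5) (nat_lit 373) (nat_lit 5) (nat_lit 307) (nat_lit 302) (nat_lit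 291)) (XT.lf (nat_lit 0) (nat_lit 2430771148) (nat_lit 380) (nat_lit 353749841) (nat_lit 456) (nat_lit 3777958737) (nat_lit 363) (nat_lit 5) (nat_lit 368) (nat_lit 5) (nat_lit 369) (nat_lit 5) (nat_lit 308) (nat_lit 302) (nat_lit 290))))))) (XT.nd (nat_lit 1014) (nat_lit 7448) (nat_lit 0) (XT.nd (nat_lit 468) (nat_lit 3116) (nat_lit 0) (XT.nd (nat_lit 234) (nat_lit 988) (nat_lit 0) (XT.nd (nat_lit 78) (nat_lit 456) (nat_lit 0) (XT.lf (nat_lit 76) (nat_lit 3133009857) (nat_lit 0) (nat_lit 1931705540) (nat_lit 456) (nat_lit 1524950506) (nat_lit 364) (nat_lit 5) (nat_lit 363) (nat_lit 5) (nat_lit 369) (nat_lit 5) (nat_lit 309) (nat_lit 302) (nat_lit 289)) (XT.nd (nat_lit 78) (nat_lit 0) (nat_lit 76) (XT.lf (nat_lit 76) (nat_lit 45189944) (nat_lit 0) (nat_lit 999654869) (nat_lit 532) (nat_lit 5575342549) (nat_lit 358) (nat_lit 5) (nat_lit 357) (nat_lit 5) (nat_lit 364) (nat_lit 5) (nat_lit 310) (nat_lit 302)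 (nat_lit 288)) (XT.lf (nat_lit 0) (nat_lit 3601986940) (nat_lit 456) (nat_lit 3003940595) (nat_lit 76) (nat_lit 47092939) (nat_lit 358) (nat_lit 5) (nat_lit 364) (nat_lit 5) (nat_lit 359) (nat_lit 5) (nat_lit 311) (nat_lit 302) (nat_lit 287)))) (XT.nd (nat_lit 78) (nat_lit 608) (nat_lit 0) (XT.lf (nat_lit 0) (nat_lit 616923100) (nat_lit 456) (nat_lit 5543517913) (nat_lit 532) (nat_lit 528733474) (nat_lit 352) (nat_lit 5) (nat_lit 358) (nat_lit 5) (nat_lit 359) (nat_lit 5) (nat_lit 312) (nat_lit 302) (nat_lit 286)) (XT.nd (nat_lit 78) (nat_lit 532) (nat_lit 0) (XT.lf (nat_lit 0) (nat_lit 1969399784) (nat_lit 532) (nat_lit 2398448907) (nat_lit 76) (nat_lit 2359821031) (nat_lit 351) (nat_lit 5) (nat_lit 358) (nat_lit 5) (nat_lit 352) (nat_lit 5) (nat_lit 313) (nat_lit 302) (nat_lit 285)) (XT.lf (nat_lit 0) (nat_lit 1347654274) (nat_lit 532) (nat_lit 3109682445) (nat_lit 608) (nat_lit 2312129016) (nat_lit 344)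 (nat_lit 5) (nat_lit 351) (nat_lit 5) (nat_lit 352) (nat_lit 5) (nat_lit 314) (nat_lit 302) (nat_lit 284))))) (XT.nd (nat_lit 234) (nat_lit 2432) (nat_lit 0) (XT.nd (nat_lit 78) (nat_lit 608) (nat_lit 0) (XT.lf (nat_lit 0) (nat_lit 141416314) (nat_lit 608) (nat_lit 1618896903) (nat_lit 76) (nat_lit 5054064279) (nat_lit 343) (nat_lit 5) (nat_lit 351) (nat_lit 5) (nat_lit 344) (nat_lit 5) (nat_lit 315) (nat_lit 302) (nat_lit 283)) (XT.nd (nat_lit 78) (nat_lit 0) (nat_lit 0) (XT.lf (nat_lit 0) (nat_lit 2260903081) (nat_lit 608) (nat_lit 299050678) (nat_lit 684) (nat_lit 4301922199) (nat_lit 335) (nat_lit 5) (nat_lit 343) (nat_lit 5) (nat_lit 344) (nat_lit 5) (nat_lit 316) (nat_lit 302) (nat_lit 282)) (XT.lf (nat_lit 0) (nat_lit 4997393072) (nat_lit 684) (nat_lit 692388108) (nat_lit 76) (nat_lit 1222687859) (nat_lit 335) (nat_lit 5) (nat_lit 344) (nat_lit 5) (nat_lit 336) (nat_lit 5) (nat_lit 317) (nat_lit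 302) (nat_lit 281)))) (XT.nd (nat_lit 156) (nat_lit 912) (nat_lit 0) (XT.nd (nat_lit 78) (nat_lit 760) (nat_lit 0) (XT.lf (nat_lit 0) (nat_lit 487936377) (nat_lit 760) (nat_lit 3633988130) (nat_lit 76) (nat_lit 2843900378) (nat_lit 325) (nat_lit 5) (nat_lit 335) (nat_lit 5) (nat_lit 326) (nat_lit 5) (nat_lit 318) (nat_lit 302) (nat_lit 280)) (XT.lf (nat_lit 0) (nat_lit 399290239) (nat_lit 760) (nat_lit 2457708920) (nat_lit 836) (nat_lit 4165294820) (nat_lit 315) (nat_lit 5) (nat_lit 325) (nat_lit 5) (nat_lit 326) (nat_lit 5) (nat_lit 319) (nat_lit 302) (nat_lit 279))) (XT.nd (nat_lit 78) (nat_lit 912) (nat_lit 0) (XT.lf (nat_lit 0) (nat_lit 4568766257) (nat_lit 760) (nat_lit 688330635) (nat_lit 836) (nat_lit 1824614703) (nat_lit 315) (nat_lit 5) (nat_lit 325) (nat_lit 5) (nat_lit 326) (nat_lit 5) (nat_lit 320) (nat_lit 302) (nat_lit 278)) (XT.lf (nat_lit 0) (nat_lit 527064638) (nat_lit 912) (nat_lit 5467223974)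 (nat_lit 76) (nat_lit 1149937753) (nat_lit 303) (nat_lit 5) (nat_lit 315) (nat_lit 5) (nat_lit 304) (nat_lit 5) (nat_lit 321) (nat_lit 302) (nat_lit 277)))))) (XT.nd (nat_lit 546) (nat_lit 3192) (nat_lit 0) (XT.nd (nat_lit 234) (nat_lit 2280) (nat_lit 0) (XT.nd (nat_lit 78) (nat_lit 1976) (nat_lit 0) (XT.lf (nat_lit 0) (nat_lit 2871552581) (nat_lit 912) (nat_lit 1249765537) (nat_lit 76) (nat_lit 3088037377) (nat_lit 303) (nat_lit 5) (nat_lit 315) (nat_lit 5) (nat_lit 304) (nat_lit 5) (nat_lit 322) (nat_lit 302) (nat_lit 276)) (XT.nd (nat_lit 78) (nat_lit 1064) (nat_lit 0) (XT.lf (nat_lit 0) (nat_lit 3095455271) (nat_lit 912) (nat_lit 2149305348) (nat_lit 988) (nat_lit 2032973708) (nat_lit 291) (nat_lit 5) (nat_lit 303) (nat_lit 5) (nat_lit 304) (nat_lit 5) (nat_lit 323) (nat_lit 302) (nat_lit 275)) (XT.lf (nat_lit 0) (nat_lit 189118896) (nat_lit 988) (nat_lit 89199279) (nat_lit 1064) (nat_lit 7071473526)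 (nat_lit 277) (nat_lit 5) (nat_lit 290) (nat_lit 5) (nat_lit 291) (nat_lit 5) (nat_lit 324) (nat_lit 302) (nat_lit 274)))) (XT.nd (nat_lit 156) (nat_lit 1216) (nat_lit 0) (XT.nd (nat_lit 78) (nat_lit 1064) (nat_lit 0) (XT.lf (nat_lit 0) (nat_lit 2611265051) (nat_lit 1064) (nat_lit 2747093904) (nat_lit 76) (nat_lit 2065296051) (nat_lit 277) (nat_lit 5) (nat_lit 291) (nat_lit 5) (nat_lit 278) (nat_lit 5) (nat_lit 325) (nat_lit 302) (nat_lit 273)) (XT.lf (nat_lit 0) (nat_lit 1772742327) (nat_lit 1064) (nat_lit 3192378329) (nat_lit 1140) (nat_lit 2536128051) (nat_lit 263) (nat_lit 5) (nat_lit 277) (nat_lit 5) (nat_lit 278) (nat_lit 5) (nat_lit 326) (nat_lit 302) (nat_lit 272))) (XT.nd (nat_lit 78) (nat_lit 1216) (nat_lit 0) (XT.lf (nat_lit 0) (nat_lit 6425213771) (nat_lit 1064) (nat_lit 926496697) (nat_lit 1140) (nat_lit 230637078) (nat_lit 263) (nat_lit 5) (nat_lit 277) (nat_lit 5) (nat_lit 278) (nat_lit 5)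 (nat_lit 327) (nat_lit 302) (nat_lit 271)) (XT.lf (nat_lit 0) (nat_lit 2085961740) (nat_lit 1216) (nat_lit 4139330298) (nat_lit 76) (nat_lit 1440494139) (nat_lit 247) (nat_lit 5) (nat_lit 263) (nat_lit 5) (nat_lit 248) (nat_lit 5) (nat_lit 328) (nat_lit 302) (nat_lit 270))))) (XT.nd (nat_lit 234) (nat_lit 1292) (nat_lit 0) (XT.nd (nat_lit 78) (nat_lit 684) (nat_lit 0) (XT.lf (nat_lit 0) (nat_lit 562026395) (nat_lit 1216) (nat_lit 3868753430) (nat_lit 1292) (nat_lit 3322016342) (nat_lit 231) (nat_lit 5) (nat_lit 247) (nat_lit 5) (nat_lit 248) (nat_lit 5) (nat_lit 329) (nat_lit 302) (nat_lit 269)) (XT.nd (nat_lit 78) (nat_lit 684) (nat_lit 0) (XT.lf (nat_lit 0) (nat_lit 5429602615) (nat_lit 1216) (nat_lit 1396381483) (nat_lit 1292) (nat_lit 1017067432) (nat_lit 231) (nat_lit 5) (nat_lit 247) (nat_lit 5) (nat_lit 248) (nat_lit 5) (nat_lit 330) (nat_lit 302) (nat_lit 268)) (XT.lf (nat_lit 0) (nat_lit 1305269874)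 (nat_lit 684) (nat_lit 5464761725) (nat_lit 76) (nat_lit 1166384242) (nat_lit 222) (nat_lit 5) (nat_lit 231) (nat_lit 5) (nat_lit 223) (nat_lit 5) (nat_lit 331) (nat_lit 302) (nat_lit 267)))) (XT.nd (nat_lit 156) (nat_lit 684) (nat_lit 0) (XT.nd (nat_lit 78) (nat_lit 608) (nat_lit 0) (XT.lf (nat_lit 0) (nat_lit 3655895283) (nat_lit 684) (nat_lit 563620819) (nat_lit 76) (nat_lit 3813424318) (nat_lit 222) (nat_lit 5) (nat_lit 231) (nat_lit 5) (nat_lit 223) (nat_lit 5) (nat_lit 332) (nat_lit 302) (nat_lit 266)) (XT.lf (nat_lit 0) (nat_lit 4513980449) (nat_lit 608) (nat_lit 1548801672) (nat_lit 684) (nat_lit 2070038608) (nat_lit 214) (nat_lit 5) (nat_lit 222) (nat_lit 5) (nat_lit 223) (nat_lit 5) (nat_lit 333) (nat_lit 302) (nat_lit 265))) (XT.nd (nat_lit 78) (nat_lit 0) (nat_lit 0) (XT.lf (nat_lit 0) (nat_lit 274885966) (nat_lit 684) (nat_lit 6761815641) (nat_lit 76) (nat_lit 1199697492) (nat_lit 205) (nat_lit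 5) (nat_lit 214) (nat_lit 5) (nat_lit 206) (nat_lit 5) (nat_lit 334) (nat_lit 302) (nat_lit 264)) (XT.lf (nat_lit 0) (nat_lit 2644748298) (nat_lit 684) (nat_lit 1643541561) (nat_lit 76) (nat_lit 4054323759) (nat_lit 205) (nat_lit 5) (nat_lit 214) (nat_lit 5) (nat_lit 206) (nat_lit 5) (nat_lit 335) (nat_lit 302) (nat_lit 263))))))))
noncomputable def xc110 : XT := (XT.nd (nat_lit 2106) (nat_lit 3876) (nat_lit 0) (XT.nd (nat_lit 1014) (nat_lit 3268) (nat_lit 0) (XT.nd (nat_lit 468) (nat_lit 1900) (nat_lit 0) (XT.nd (nat_lit 234) (nat_lit 988) (nat_lit 0) (XT.nd (nat_lit 78) (nat_lit 608) (nat_lit 0) (XT.lf (nat_lit 0) (nat_lit 3640728633) (nat_lit 532) (nat_lit 1425563195) (nat_lit 608) (nat_lit 3386333858) (nat_lit 198) (nat_lit 5) (nat_lit 205) (nat_lit 5) (nat_lit 206) (nat_lit 5) (nat_lit 336) (nat_lit 302) (nat_lit 262)) (XT.nd (nat_lit 78) (nat_lit 76) (nat_lit 0) (XT.lf (nat_lit 0) (nat_lit 486867304)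 (nat_lit 532) (nat_lit 7056266653) (nat_lit 608) (nat_lit 1023352429) (nat_lit 191) (nat_lit 5) (nat_lit 198) (nat_lit 5) (nat_lit 199) (nat_lit 5) (nat_lit 337) (nat_lit 302) (nat_lit 261)) (XT.lf (nat_lit 0) (nat_lit 1393194490) (nat_lit 608) (nat_lit 2727328329) (nat_lit 76) (nat_lit 4562553556) (nat_lit 190) (nat_lit 5) (nat_lit 198) (nat_lit 5) (nat_lit 191) (nat_lit 5) (nat_lit 338) (nat_lit 302) (nat_lit 260)))) (XT.nd (nat_lit 78) (nat_lit 532) (nat_lit 0) (XT.lf (nat_lit 0) (nat_lit 2771121506) (nat_lit 456) (nat_lit 1065742971) (nat_lit 532) (nat_lit 4966765244) (nat_lit 184) (nat_lit 5) (nat_lit 190) (nat_lit 5) (nat_lit 191) (nat_lit 5) (nat_lit 339) (nat_lit 302) (nat_lit 259)) (XT.nd (nat_lit 78) (nat_lit 532) (nat_lit 0) (XT.lf (nat_lit 0) (nat_lit 6351088935) (nat_lit 532) (nat_lit 516064174) (nat_lit 76) (nat_lit 2060753963) (nat_lit 184) (nat_lit 5) (nat_lit 191) (nat_lit 5) (nat_lit 185)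 (nat_lit 5) (nat_lit 340) (nat_lit 302) (nat_lit 258)) (XT.lf (nat_lit 0) (nat_lit 5199253492) (nat_lit 532) (nat_lit 3752920105) (nat_lit 608) (nat_lit 103420157) (nat_lit 177) (nat_lit 5) (nat_lit 184) (nat_lit 5) (nat_lit 185) (nat_lit 5) (nat_lit 341) (nat_lit 302) (nat_lit 257))))) (XT.nd (nat_lit 234) (nat_lit 912) (nat_lit 0) (XT.nd (nat_lit 78) (nat_lit 456) (nat_lit 0) (XT.lf (nat_lit 0) (nat_lit 1864540003) (nat_lit 456) (nat_lit 506416336) (nat_lit 532) (nat_lit 6816238343) (nat_lit 170) (nat_lit 5) (nat_lit 176) (nat_lit 5) (nat_lit 177) (nat_lit 5) (nat_lit 342) (nat_lit 302) (nat_lit 256)) (XT.nd (nat_lit 78) (nat_lit 456) (nat_lit 0) (XT.lf (nat_lit 0) (nat_lit 4936149127) (nat_lit 532) (nat_lit 1572912368) (nat_lit 76) (nat_lit 2813113491) (nat_lit 170) (nat_lit 5) (nat_lit 177) (nat_lit 5) (nat_lit 171) (nat_lit 5) (nat_lit 343) (nat_lit 302) (nat_lit 255)) (XT.lf (nat_lit 0) (nat_lit 4372594712)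 (nat_lit 456) (nat_lit 3206206333) (nat_lit 532) (nat_lit 1882409889) (nat_lit 164) (nat_lit 5) (nat_lit 170) (nat_lit 5) (nat_lit 171) (nat_lit 5) (nat_lit 344) (nat_lit 302) (nat_lit 254)))) (XT.nd (nat_lit 156) (nat_lit 456) (nat_lit 0) (XT.nd (nat_lit 78) (nat_lit 0) (nat_lit 0) (XT.lf (nat_lit 0) (nat_lit 663083017) (nat_lit 456) (nat_lit 8729346712) (nat_lit 76) (nat_lit 212396860) (nat_lit 158) (nat_lit 5) (nat_lit 164) (nat_lit 5) (nat_lit 159) (nat_lit 5) (nat_lit 345) (nat_lit 302) (nat_lit 253)) (XT.lf (nat_lit 0) (nat_lit 3285230549) (nat_lit 456) (nat_lit 2737417378) (nat_lit 76) (nat_lit 3728419447) (nat_lit 158) (nat_lit 5) (nat_lit 164) (nat_lit 5) (nat_lit 159) (nat_lit 5) (nat_lit 346) (nat_lit 302) (nat_lit 252))) (XT.nd (nat_lit 78) (nat_lit 0) (nat_lit 0) (XT.lf (nat_lit 0) (nat_lit 3445060799) (nat_lit 456) (nat_lit 2529909377) (nat_lit 532) (nat_lit 3927076334) (nat_lit 152) (nat_lit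 5) (nat_lit 158) (nat_lit 5) (nat_lit 159) (nat_lit 5) (nat_lit 347) (nat_lit 302) (nat_lit 251)) (XT.lf (nat_lit 0) (nat_lit 8740022667) (nat_lit 532) (nat_lit 255217523) (nat_lit 76) (nat_lit 1062494614) (nat_lit 152) (nat_lit 5) (nat_lit 159) (nat_lit 5) (nat_lit 153) (nat_lit 5) (nat_lit 348) (nat_lit 302) (nat_lit 250)))))) (XT.nd (nat_lit 546) (nat_lit 1368) (nat_lit 0) (XT.nd (nat_lit 234) (nat_lit 1064) (nat_lit 0) (XT.nd (nat_lit 78) (nat_lit 380) (nat_lit 0) (XT.lf (nat_lit 0) (nat_lit 1385693753) (nat_lit 456) (nat_lit 4057850221) (nat_lit 76) (nat_lit 4772897268) (nat_lit 146) (nat_lit 5) (nat_lit 152) (nat_lit 5) (nat_lit 147) (nat_lit 5) (nat_lit 349) (nat_lit 302) (nat_lit 249)) (XT.nd (nat_lit 78) (nat_lit 0) (nat_lit 0) (XT.lf (nat_lit 0) (nat_lit 2367612146) (nat_lit 380) (nat_lit 1759452674) (nat_lit 456) (nat_lit 6252969067) (nat_lit 141) (nat_lit 5) (nat_lit 146) (nat_lit 5) (nat_lit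 147) (nat_lit 5) (nat_lit 350) (nat_lit 302) (nat_lit 248)) (XT.lf (nat_lit 0) (nat_lit 6970168315) (nat_lit 456) (nat_lit 1554560239) (nat_lit 76) (nat_lit 2023237369) (nat_lit 141) (nat_lit 5) (nat_lit 147) (nat_lit 5) (nat_lit 142) (nat_lit 5) (nat_lit 351) (nat_lit 302) (nat_lit 247)))) (XT.nd (nat_lit 156) (nat_lit 304) (nat_lit 0) (XT.nd (nat_lit 78) (nat_lit 456) (nat_lit 0) (XT.lf (nat_lit 0) (nat_lit 5124956511) (nat_lit 304) (nat_lit 4800046382) (nat_lit 380) (nat_lit 795155765) (nat_lit 137) (nat_lit 5) (nat_lit 141) (nat_lit 5) (nat_lit 142) (nat_lit 5) (nat_lit 352) (nat_lit 302) (nat_lit 246)) (XT.lf (nat_lit 0) (nat_lit 1085864033) (nat_lit 380) (nat_lit 930978926) (nat_lit 456) (nat_lit 8880503270) (nat_lit 131) (nat_lit 5) (nat_lit 136) (nat_lit 5) (nat_lit 137) (nat_lit 5) (nat_lit 353) (nat_lit 302) (nat_lit 245))) (XT.nd (nat_lit 78) (nat_lit 304) (nat_lit 0) (XT.lf (nat_lit 0) (nat_lit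 4944133975) (nat_lit 456) (nat_lit 3089340585) (nat_lit 76) (nat_lit 3044745786) (nat_lit 131) (nat_lit 5) (nat_lit 137) (nat_lit 5) (nat_lit 132) (nat_lit 5) (nat_lit 354) (nat_lit 302) (nat_lit 244)) (XT.lf (nat_lit 0) (nat_lit 3846467423) (nat_lit 304) (nat_lit 4120614848) (nat_lit 380) (nat_lit 3297217363) (nat_lit 127) (nat_lit 5) (nat_lit 131) (nat_lit 5) (nat_lit 132) (nat_lit 5) (nat_lit 355) (nat_lit 302) (nat_lit 243))))) (XT.nd (nat_lit 234) (nat_lit 684) (nat_lit 0) (XT.nd (nat_lit 78) (nat_lit 684) (nat_lit 0) (XT.lf (nat_lit 0) (nat_lit 11000367284) (nat_lit 304) (nat_lit 73798997) (nat_lit 380) (nat_lit 382005298) (nat_lit 127) (nat_lit 5) (nat_lit 131) (nat_lit 5) (nat_lit 132) (nat_lit 5) (nat_lit 356) (nat_lit 302) (nat_lit 242)) (XT.nd (nat_lit 78) (nat_lit 304) (nat_lit 0) (XT.lf (nat_lit 0) (nat_lit 2637674475) (nat_lit 380) (nat_lit 4922836264) (nat_lit 76) (nat_lit 4090501612) (nat_lit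 122) (nat_lit 5) (nat_lit 127) (nat_lit 5) (nat_lit 123) (nat_lit 5) (nat_lit 357) (nat_lit 302) (nat_lit 241)) (XT.lf (nat_lit 0) (nat_lit 2272291670) (nat_lit 304) (nat_lit 3458600431) (nat_lit 380) (nat_lit 6120986549) (nat_lit 118) (nat_lit 5) (nat_lit 122) (nat_lit 5) (nat_lit 123) (nat_lit 5) (nat_lit 358) (nat_lit 302) (nat_lit 240)))) (XT.nd (nat_lit 156) (nat_lit 304) (nat_lit 0) (XT.nd (nat_lit 78) (nat_lit 380) (nat_lit 0) (XT.lf (nat_lit 0) (nat_lit 8938284279) (nat_lit 380) (nat_lit 2334317900) (nat_lit 76) (nat_lit 785539585) (nat_lit 118) (nat_lit 5) (nat_lit 123) (nat_lit 5) (nat_lit 119) (nat_lit 5) (nat_lit 359) (nat_lit 302) (nat_lit 239)) (XT.lf (nat_lit 0) (nat_lit 20874008) (nat_lit 380) (nat_lit 7126748343) (nat_lit 76) (nat_lit 5121519907) (nat_lit 113) (nat_lit 5) (nat_lit 118) (nat_lit 5) (nat_lit 114) (nat_lit 5) (nat_lit 360) (nat_lit 302) (nat_lit 238))) (XT.nd (nat_lit 78)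 (nat_lit 0) (nat_lit 0) (XT.lf (nat_lit 0) (nat_lit 328774519) (nat_lit 304) (nat_lit 2856351243) (nat_lit 380) (nat_lit 9300671318) (nat_lit 109) (nat_lit 5) (nat_lit 113) (nat_lit 5) (nat_lit 114) (nat_lit 5) (nat_lit 361) (nat_lit 302) (nat_lit 237)) (XT.lf (nat_lit 0) (nat_lit 6497412407) (nat_lit 380) (nat_lit 4620862246) (nat_lit 76) (nat_lit 1589094483) (nat_lit 109) (nat_lit 5) (nat_lit 114) (nat_lit 5) (nat_lit 110) (nat_lit 5) (nat_lit 362) (nat_lit 302) (nat_lit 236))))))) (XT.nd (nat_lit 1014) (nat_lit 1748) (nat_lit 0) (XT.nd (nat_lit 468) (nat_lit 912) (nat_lit 0) (XT.nd (nat_lit 234) (nat_lit 608) (nat_lit 0) (XT.nd (nat_lit 78) (nat_lit 304) (nat_lit 0) (XT.lf (nat_lit 0) (nat_lit 3123191815) (nat_lit 304) (nat_lit 6810584185) (nat_lit 380) (nat_lit 3001081600) (nat_lit 105) (nat_lit 5) (nat_lit 109) (nat_lit 5) (nat_lit 110) (nat_lit 5) (nat_lit 363) (nat_lit 302) (nat_lit 235)) (XT.nd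 (nat_lit 78) (nat_lit 228) (nat_lit 0) (XT.lf (nat_lit 0) (nat_lit 311812443) (nat_lit 380) (nat_lit 2027896900) (nat_lit 76) (nat_lit 10828973005) (nat_lit 104) (nat_lit 5) (nat_lit 109) (nat_lit 5) (nat_lit 105) (nat_lit 5) (nat_lit 364) (nat_lit 302) (nat_lit 234)) (XT.lf (nat_lit 0) (nat_lit 3711732235) (nat_lit 304) (nat_lit 7402605767) (nat_lit 76) (nat_lit 2292863302) (nat_lit 101) (nat_lit 5) (nat_lit 105) (nat_lit 5) (nat_lit 102) (nat_lit 5) (nat_lit 365) (nat_lit 302) (nat_lit 233)))) (XT.nd (nat_lit 78) (nat_lit 304) (nat_lit 0) (XT.lf (nat_lit 0) (nat_lit 605962783) (nat_lit 304) (nat_lit 6625203792) (nat_lit 380) (nat_lit 6421193068) (nat_lit 97) (nat_lit 5) (nat_lit 101) (nat_lit 5) (nat_lit 102) (nat_lit 5) (nat_lit 366) (nat_lit 302) (nat_lit 232)) (XT.nd (nat_lit 78) (nat_lit 304) (nat_lit 0) (XT.lf (nat_lit 0) (nat_lit 8957158723) (nat_lit 304) (nat_lit 1942085017) (nat_lit 380) (nat_lit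 3004346254) (nat_lit 97) (nat_lit 5) (nat_lit 101) (nat_lit 5) (nat_lit 102) (nat_lit 5) (nat_lit 367) (nat_lit 302) (nat_lit 231)) (XT.lf (nat_lit 0) (nat_lit 534553290) (nat_lit 304) (nat_lit 10780520449) (nat_lit 76) (nat_lit 2846255625) (nat_lit 93) (nat_lit 5) (nat_lit 97) (nat_lit 5) (nat_lit 94) (nat_lit 5) (nat_lit 368) (nat_lit 302) (nat_lit 230))))) (XT.nd (nat_lit 234) (nat_lit 456) (nat_lit 0) (XT.nd (nat_lit 78) (nat_lit 456) (nat_lit 0) (XT.lf (nat_lit 0) (nat_lit 4158100916) (nat_lit 304) (nat_lit 2464356677) (nat_lit 76) (nat_lit 7802293263) (nat_lit 93) (nat_lit 5) (nat_lit 97) (nat_lit 5) (nat_lit 94) (nat_lit 5) (nat_lit 369) (nat_lit 302) (nat_lit 229)) (XT.nd (nat_lit 78) (nat_lit 228) (nat_lit 0) (XT.lf (nat_lit 0) (nat_lit 6174350161) (nat_lit 228) (nat_lit 1745446837) (nat_lit 304) (nat_lit 6775402779) (nat_lit 90) (nat_lit 5) (nat_lit 93) (nat_lit 5) (nat_lit 94) (nat_lit 5) (nat_lit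 370) (nat_lit 302) (nat_lit 228)) (XT.lf (nat_lit 0) (nat_lit 71677593) (nat_lit 228) (nat_lit 11750338065) (nat_lit 304) (nat_lit 3150924165) (nat_lit 87) (nat_lit 5) (nat_lit 90) (nat_lit 5) (nat_lit 91) (nat_lit 5) (nat_lit 371) (nat_lit 302) (nat_lit 227)))) (XT.nd (nat_lit 156) (nat_lit 152) (nat_lit 0) (XT.nd (nat_lit 78) (nat_lit 228) (nat_lit 0) (XT.lf (nat_lit 0) (nat_lit 645558811) (nat_lit 304) (nat_lit 6231325085) (nat_lit 76) (nat_lit 8379728641) (nat_lit 86) (nat_lit 5) (nat_lit 90) (nat_lit 5) (nat_lit 87) (nat_lit 5) (nat_lit 372) (nat_lit 302) (nat_lit 226)) (XT.lf (nat_lit 0) (nat_lit 2673257274) (nat_lit 228) (nat_lit 1816361174) (nat_lit 304) (nat_lit 11058337835) (nat_lit 83) (nat_lit 5) (nat_lit 86) (nat_lit 5) (nat_lit 87) (nat_lit 5) (nat_lit 373) (nat_lit 302) (nat_lit 225))) (XT.nd (nat_lit 78) (nat_lit 152) (nat_lit 0) (XT.lf (nat_lit 0) (nat_lit 8516730625) (nat_lit 304) (nat_lit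 3953357846) (nat_lit 76) (nat_lit 3375926887) (nat_lit 83) (nat_lit 5) (nat_lit 87) (nat_lit 5) (nat_lit 84) (nat_lit 5) (nat_lit 374) (nat_lit 302) (nat_lit 224)) (XT.lf (nat_lit 0) (nat_lit 5275287236) (nat_lit 152) (nat_lit 7430430305) (nat_lit 228) (nat_lit 3446073559) (nat_lit 81) (nat_lit 5) (nat_lit 83) (nat_lit 5) (nat_lit 84) (nat_lit 5) (nat_lit 375) (nat_lit 302) (nat_lit 223)))))) (XT.nd (nat_lit 546) (nat_lit 836) (nat_lit 0) (XT.nd (nat_lit 234) (nat_lit 456) (nat_lit 0) (XT.nd (nat_lit 78) (nat_lit 380) (nat_lit 0) (XT.lf (nat_lit 0) (nat_lit 555612693) (nat_lit 228) (nat_lit 1654830665) (nat_lit 76) (nat_lit 14255759986) (nat_lit 80) (nat_lit 5) (nat_lit 83) (nat_lit 5) (nat_lit 81) (nat_lit 5) (nat_lit 376) (nat_lit 302) (nat_lit 222)) (XT.nd (nat_lit 78) (nat_lit 152) (nat_lit 0) (XT.lf (nat_lit 0) (nat_lit 4688844604) (nat_lit 304) (nat_lit 8899070861) (nat_lit 76) (nat_lit 3198692338)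 (nat_lit 77) (nat_lit 5) (nat_lit 81) (nat_lit 5) (nat_lit 78) (nat_lit 5) (nat_lit 377) (nat_lit 302) (nat_lit 221)) (XT.lf (nat_lit 0) (nat_lit 578941869) (nat_lit 152) (nat_lit 8384918987) (nat_lit 228) (nat_lit 8152235904) (nat_lit 75) (nat_lit 5) (nat_lit 77) (nat_lit 5) (nat_lit 78) (nat_lit 5) (nat_lit 378) (nat_lit 302) (nat_lit 220)))) (XT.nd (nat_lit 156) (nat_lit 152) (nat_lit 0) (XT.nd (nat_lit 78) (nat_lit 304) (nat_lit 0) (XT.lf (nat_lit 0) (nat_lit 10479872071) (nat_lit 152) (nat_lit 2950930882) (nat_lit 228) (nat_lit 4022762983) (nat_lit 75) (nat_lit 5) (nat_lit 77) (nat_lit 5) (nat_lit 78) (nat_lit 5) (nat_lit 379) (nat_lit 302) (nat_lit 219)) (XT.lf (nat_lit 0) (nat_lit 253735818) (nat_lit 304) (nat_lit 14938881607) (nat_lit 76) (nat_lit 2607651500) (nat_lit 71) (nat_lit 5) (nat_lit 75) (nat_lit 5) (nat_lit 72) (nat_lit 5) (nat_lit 380) (nat_lit 302) (nat_lit 218))) (XT.nd (nat_lit 78)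 (nat_lit 152) (nat_lit 0) (XT.lf (nat_lit 0) (nat_lit 4652500176) (nat_lit 304) (nat_lit 5133790748) (nat_lit 76) (nat_lit 8367647791) (nat_lit 71) (nat_lit 5) (nat_lit 75) (nat_lit 5) (nat_lit 72) (nat_lit 5) (nat_lit 381) (nat_lit 302) (nat_lit 217)) (XT.lf (nat_lit 0) (nat_lit 5021437732) (nat_lit 152) (nat_lit 4185291038) (nat_lit 228) (nat_lit 9310789955) (nat_lit 69) (nat_lit 5) (nat_lit 71) (nat_lit 5) (nat_lit 72) (nat_lit 5) (nat_lit 382) (nat_lit 302) (nat_lit 216))))) (XT.nd (nat_lit 234) (nat_lit 532) (nat_lit 0) (XT.nd (nat_lit 78) (nat_lit 304) (nat_lit 0) (XT.lf (nat_lit 0) (nat_lit 13940551578) (nat_lit 228) (nat_lit 3361790566) (nat_lit 76) (nat_lit 1588379983) (nat_lit 69) (nat_lit 5) (nat_lit 72) (nat_lit 5) (nat_lit 70) (nat_lit 5) (nat_lit 383) (nat_lit 302) (nat_lit 215)) (XT.nd (nat_lit 78) (nat_lit 76) (nat_lit 0) (XT.lf (nat_lit 0) (nat_lit 7133352233) (nat_lit 228) (nat_lit 11769151322)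 (nat_lit 304) (nat_lit 370039508) (nat_lit 66) (nat_lit 5) (nat_lit 69) (nat_lit 5) (nat_lit 70) (nat_lit 5) (nat_lit 384) (nat_lit 302) (nat_lit 214)) (XT.lf (nat_lit 0) (nat_lit 4273117723) (nat_lit 304) (nat_lit 1735677032) (nat_lit 76) (nat_lit 13655461009) (nat_lit 65) (nat_lit 5) (nat_lit 69) (nat_lit 5) (nat_lit 66) (nat_lit 5) (nat_lit 385) (nat_lit 302) (nat_lit 213)))) (XT.nd (nat_lit 156) (nat_lit 380) (nat_lit 0) (XT.nd (nat_lit 78) (nat_lit 0) (nat_lit 0) (XT.lf (nat_lit 0) (nat_lit 9112628862) (nat_lit 228) (nat_lit 10951382940) (nat_lit 76) (nat_lit 1667687) (nat_lit 63) (nat_lit 5) (nat_lit 66) (nat_lit 5) (nat_lit 64) (nat_lit 5) (nat_lit 386) (nat_lit 302) (nat_lit 212)) (XT.lf (nat_lit 0) (nat_lit 14151522003) (nat_lit 228) (nat_lit 252895360) (nat_lit 76) (nat_lit 6073106988) (nat_lit 63) (nat_lit 5) (nat_lit 66) (nat_lit 5) (nat_lit 64) (nat_lit 5) (nat_lit 387) (nat_lit 302) (nat_lit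 211))) (XT.nd (nat_lit 78) (nat_lit 228) (nat_lit 0) (XT.lf (nat_lit 0) (nat_lit 10941256275) (nat_lit 152) (nat_lit 8483172703) (nat_lit 228) (nat_lit 1474814367) (nat_lit 61) (nat_lit 5) (nat_lit 63) (nat_lit 5) (nat_lit 64) (nat_lit 5) (nat_lit 388) (nat_lit 302) (nat_lit 210)) (XT.lf (nat_lit 0) (nat_lit 1091436395) (nat_lit 152) (nat_lit 2352550072) (nat_lit 228) (nat_lit 17888891685) (nat_lit 58) (nat_lit 5) (nat_lit 60) (nat_lit 5) (nat_lit 61) (nat_lit 5) (nat_lit 389) (nat_lit 302) (nat_lit 209))))))))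
noncomputable def xc111 : XT := (XT.nd (nat_lit 2106) (nat_lit 1140) (nat_lit 0) (XT.nd (nat_lit 1014) (nat_lit 836) (nat_lit 0) (XT.nd (nat_lit 468) (nat_lit 532) (nat_lit 0) (XT.nd (nat_lit 234) (nat_lit 380) (nat_lit 0) (XT.nd (nat_lit 78) (nat_lit 152) (nat_lit 0) (XT.lf (nat_lit 0) (nat_lit 8598197804) (nat_lit 228) (nat_lit 9192701319) (nat_lit 76) (nat_lit 3984663997) (nat_lit 58) (nat_lit 5) (nat_lit 61) (nat_lit 5) (nat_lit 59) (nat_lit 5) (nat_lit 390) (nat_lit 302) (nat_lit 208)) (XT.nd (nat_lit 78) (nat_lit 0) (nat_lit 0) (XT.lf (nat_lit 0) (nat_lit 2168678235) (nat_lit 152) (nat_lit 11760993521) (nat_lit 228) (nat_lit 8301181523) (nat_lit 56) (nat_lit 5) (nat_lit 58) (nat_lit 5) (nat_lit 59) (nat_lit 5) (nat_lit 391) (nat_lit 302) (nat_lit 207)) (XT.lf (nat_lit 0) (nat_lit 14021862364) (nat_lit 152) (nat_lit 5470818895) (nat_lit 228) (nat_lit 3204976763) (nat_lit 56) (nat_lit 5) (nat_lit 58)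 (nat_lit 5) (nat_lit 59) (nat_lit 5) (nat_lit 392) (nat_lit 302) (nat_lit 206)))) (XT.nd (nat_lit 78) (nat_lit 152) (nat_lit 0) (XT.lf (nat_lit 0) (nat_lit 2022791805) (nat_lit 228) (nat_lit 20132304279) (nat_lit 76) (nat_lit 1022227789) (nat_lit 53) (nat_lit 5) (nat_lit 56) (nat_lit 5) (nat_lit 54) (nat_lit 5) (nat_lit 393) (nat_lit 302) (nat_lit 205)) (XT.nd (nat_lit 78) (nat_lit 152) (nat_lit 0) (XT.lf (nat_lit 0) (nat_lit 7464896741) (nat_lit 228) (nat_lit 8497124666) (nat_lit 76) (nat_lit 7704752028) (nat_lit 53) (nat_lit 5) (nat_lit 56) (nat_lit 5) (nat_lit 54) (nat_lit 5) (nat_lit 394) (nat_lit 302) (nat_lit 204)) (XT.lf (nat_lit 0) (nat_lit 3519961087) (nat_lit 152) (nat_lit 9564021029) (nat_lit 228) (nat_lit 11086516068) (nat_lit 51) (nat_lit 5) (nat_lit 53) (nat_lit 5) (nat_lit 54) (nat_lit 5) (nat_lit 395) (nat_lit 302) (nat_lit 203))))) (XT.nd (nat_lit 234) (nat_lit 304) (nat_lit 0) (XT.nd (nat_lit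 78) (nat_lit 228) (nat_lit 0) (XT.lf (nat_lit 0) (nat_lit 16036257110) (nat_lit 152) (nat_lit 2901313390) (nat_lit 228) (nat_lit 5749789383) (nat_lit 51) (nat_lit 5) (nat_lit 53) (nat_lit 5) (nat_lit 54) (nat_lit 5) (nat_lit 396) (nat_lit 302) (nat_lit 202)) (XT.nd (nat_lit 78) (nat_lit 76) (nat_lit 0) (XT.lf (nat_lit 0) (nat_lit 3707699268) (nat_lit 152) (nat_lit 21313345453) (nat_lit 228) (nat_lit 197057402) (nat_lit 49) (nat_lit 5) (nat_lit 51) (nat_lit 5) (nat_lit 52) (nat_lit 4) (nat_lit 397) (nat_lit 302) (nat_lit 201)) (XT.lf (nat_lit 0) (nat_lit 5512047830) (nat_lit 228) (nat_lit 9265150069) (nat_lit 76) (nat_lit 10983052577) (nat_lit 48) (nat_lit 5) (nat_lit 51) (nat_lit 5) (nat_lit 49) (nat_lit 5) (nat_lit 398) (nat_lit 302) (nat_lit 200)))) (XT.nd (nat_lit 156) (nat_lit 152) (nat_lit 0) (XT.nd (nat_lit 78) (nat_lit 0) (nat_lit 0) (XT.lf (nat_lit 0) (nat_lit 3377499340) (nat_lit 152) (nat_lit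 8024598264) (nat_lit 228) (nat_lit 14916100958) (nat_lit 46) (nat_lit 5) (nat_lit 48) (nat_lit 5) (nat_lit 49) (nat_lit 5) (nat_lit 399) (nat_lit 302) (nat_lit 199)) (XT.lf (nat_lit 0) (nat_lit 16555770172) (nat_lit 152) (nat_lit 988029745) (nat_lit 228) (nat_lit 9346839338) (nat_lit 46) (nat_lit 5) (nat_lit 48) (nat_lit 5) (nat_lit 49) (nat_lit 5) (nat_lit 400) (nat_lit 302) (nat_lit 198))) (XT.nd (nat_lit 78) (nat_lit 76) (nat_lit 0) (XT.lf (nat_lit 0) (nat_lit 2606821773) (nat_lit 76) (nat_lit 21329954778) (nat_lit 152) (nat_lit 3541468536) (nat_lit 45) (nat_lit 5) (nat_lit 46) (nat_lit 5) (nat_lit 47) (nat_lit 4) (nat_lit 401) (nat_lit 302) (nat_lit 197)) (XT.lf (nat_lit 0) (nat_lit 2487494562) (nat_lit 152) (nat_lit 11999033799) (nat_lit 76) (nat_lit 13593339917) (nat_lit 44) (nat_lit 5) (nat_lit 46) (nat_lit 5) (nat_lit 45) (nat_lit 5) (nat_lit 402) (nat_lit 302) (nat_lit 196)))))) (XT.nd (nat_lit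 546) (nat_lit 380) (nat_lit 0) (XT.nd (nat_lit 234) (nat_lit 304) (nat_lit 0) (XT.nd (nat_lit 78) (nat_lit 0) (nat_lit 0) (XT.lf (nat_lit 0) (nat_lit 1216104927) (nat_lit 152) (nat_lit 7404089713) (nat_lit 228) (nat_lit 20078474555) (nat_lit 42) (nat_lit 5) (nat_lit 44) (nat_lit 5) (nat_lit 45) (nat_lit 5) (nat_lit 403) (nat_lit 302) (nat_lit 195)) (XT.nd (nat_lit 78) (nat_lit 0) (nat_lit 0) (XT.lf (nat_lit 0) (nat_lit 15040621325) (nat_lit 228) (nat_lit 14291044970) (nat_lit 76) (nat_lit 1257800) (nat_lit 42) (nat_lit 5) (nat_lit 45) (nat_lit 5) (nat_lit 43) (nat_lit 4) (nat_lit 404) (nat_lit 302) (nat_lit 194)) (XT.lf (nat_lit 0) (nat_lit 21709909119) (nat_lit 228) (nat_lit 808313050) (nat_lit 76) (nat_lit 7466299281) (nat_lit 42) (nat_lit 5) (nat_lit 45) (nat_lit 5) (nat_lit 43) (nat_lit 4) (nat_lit 405) (nat_lit 302) (nat_lit 193)))) (XT.nd (nat_lit 156) (nat_lit 152) (nat_lit 0) (XT.nd (nat_lit 78)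 (nat_lit 76) (nat_lit 0) (XT.lf (nat_lit 0) (nat_lit 13308277590) (nat_lit 76) (nat_lit 15382362631) (nat_lit 152) (nat_lit 1961687755) (nat_lit 41) (nat_lit 5) (nat_lit 42) (nat_lit 5) (nat_lit 43) (nat_lit 4) (nat_lit 406) (nat_lit 302) (nat_lit 192)) (XT.lf (nat_lit 0) (nat_lit 4443730877) (nat_lit 152) (nat_lit 3549065887) (nat_lit 76) (nat_lit 23346313273) (nat_lit 40) (nat_lit 5) (nat_lit 42) (nat_lit 5) (nat_lit 41) (nat_lit 5) (nat_lit 407) (nat_lit 302) (nat_lit 191))) (XT.nd (nat_lit 78) (nat_lit 0) (nat_lit 0) (XT.lf (nat_lit 0) (nat_lit 10822057221) (nat_lit 152) (nat_lit 267803709) (nat_lit 228) (nat_lit 20953414651) (nat_lit 38) (nat_lit 5) (nat_lit 40) (nat_lit 5) (nat_lit 41) (nat_lit 5) (nat_lit 408) (nat_lit 302) (nat_lit 190)) (XT.lf (nat_lit 0) (nat_lit 18029486810) (nat_lit 228) (nat_lit 7174216786) (nat_lit 76) (nat_lit 7562041084) (nat_lit 38) (nat_lit 5) (nat_lit 41) (nat_lit 5)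 (nat_lit 39) (nat_lit 4) (nat_lit 409) (nat_lit 302) (nat_lit 189))))) (XT.nd (nat_lit 234) (nat_lit 76) (nat_lit 0) (XT.nd (nat_lit 78) (nat_lit 228) (nat_lit 0) (XT.lf (nat_lit 0) (nat_lit 7407422177) (nat_lit 76) (nat_lit 17828208973) (nat_lit 152) (nat_lit 8272508702) (nat_lit 37) (nat_lit 5) (nat_lit 38) (nat_lit 5) (nat_lit 39) (nat_lit 4) (nat_lit 410) (nat_lit 302) (nat_lit 188)) (XT.nd (nat_lit 78) (nat_lit 228) (nat_lit 0) (XT.lf (nat_lit 0) (nat_lit 22545189142) (nat_lit 76) (nat_lit 10169869059) (nat_lit 152) (nat_lit 1556037561) (nat_lit 37) (nat_lit 5) (nat_lit 38) (nat_lit 5) (nat_lit 39) (nat_lit 4) (nat_lit 411) (nat_lit 302) (nat_lit 187)) (XT.lf (nat_lit 0) (nat_lit 3060467320) (nat_lit 152) (nat_lit 2211199543) (nat_lit 228) (nat_lit 29783297860) (nat_lit 34) (nat_lit 5) (nat_lit 36) (nat_lit 5) (nat_lit 37) (nat_lit 5) (nat_lit 412) (nat_lit 302) (nat_lit 186)))) (XT.nd (nat_lit 156)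 (nat_lit 76) (nat_lit 0) (XT.nd (nat_lit 78) (nat_lit 0) (nat_lit 0) (XT.lf (nat_lit 0) (nat_lit 12435053499) (nat_lit 228) (nat_lit 17430030110) (nat_lit 76) (nat_lit 5991941860) (nat_lit 34) (nat_lit 5) (nat_lit 37) (nat_lit 5) (nat_lit 35) (nat_lit 4) (nat_lit 413) (nat_lit 302) (nat_lit 185)) (XT.lf (nat_lit 0) (nat_lit 19820673202) (nat_lit 228) (nat_lit 2477621574) (nat_lit 76) (nat_lit 14384634947) (nat_lit 34) (nat_lit 5) (nat_lit 37) (nat_lit 5) (nat_lit 35) (nat_lit 4) (nat_lit 414) (nat_lit 302) (nat_lit 184))) (XT.nd (nat_lit 78) (nat_lit 0) (nat_lit 0) (XT.lf (nat_lit 0) (nat_lit 13153725378) (nat_lit 76) (nat_lit 14386440301) (nat_lit 152) (nat_lit 9990077882) (nat_lit 33) (nat_lit 5) (nat_lit 34) (nat_lit 5) (nat_lit 35) (nat_lit 4) (nat_lit 415) (nat_lit 302) (nat_lit 183)) (XT.lf (nat_lit 0) (nat_lit 29278749099) (nat_lit 76) (nat_lit 6223536821) (nat_lit 152) (nat_lit 2900361143) (nat_lit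 33) (nat_lit 5) (nat_lit 34) (nat_lit 5) (nat_lit 35) (nat_lit 4) (nat_lit 416) (nat_lit 302) (nat_lit 182))))))) (XT.nd (nat_lit 1014) (nat_lit 456) (nat_lit 0) (XT.nd (nat_lit 468) (nat_lit 228) (nat_lit 0) (XT.nd (nat_lit 234) (nat_lit 228) (nat_lit 0) (XT.nd (nat_lit 78) (nat_lit 0) (nat_lit 0) (XT.lf (nat_lit 0) (nat_lit 4388282534) (nat_lit 228) (nat_lit 32672235530) (nat_lit 76) (nat_lit 2237272540) (nat_lit 30) (nat_lit 5) (nat_lit 33) (nat_lit 5) (nat_lit 31) (nat_lit 4) (nat_lit 417) (nat_lit 302) (nat_lit 181)) (XT.nd (nat_lit 78) (nat_lit 0) (nat_lit 0) (XT.lf (nat_lit 0) (nat_lit 11978293818) (nat_lit 228) (nat_lit 17299361554) (nat_lit 76) (nat_lit 10937042913) (nat_lit 30) (nat_lit 5) (nat_lit 33) (nat_lit 5) (nat_lit 31) (nat_lit 4) (nat_lit 418) (nat_lit 302) (nat_lit 180)) (XT.lf (nat_lit 0) (nat_lit 19782741181) (nat_lit 228) (nat_lit 1490167318) (nat_lit 76) (nat_lit 19886603990) (nat_lit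 30) (nat_lit 5) (nat_lit 33) (nat_lit 5) (nat_lit 31) (nat_lit 4) (nat_lit 419) (nat_lit 302) (nat_lit 179)))) (XT.nd (nat_lit 78) (nat_lit 152) (nat_lit 0) (XT.lf (nat_lit 0) (nat_lit 15063096299) (nat_lit 76) (nat_lit 12890143442) (nat_lit 152) (nat_lit 14175475172) (nat_lit 29) (nat_lit 5) (nat_lit 30) (nat_lit 5) (nat_lit 31) (nat_lit 4) (nat_lit 420) (nat_lit 302) (nat_lit 178)) (XT.nd (nat_lit 78) (nat_lit 152) (nat_lit 0) (XT.lf (nat_lit 0) (nat_lit 32119599771) (nat_lit 76) (nat_lit 4251568630) (nat_lit 152) (nat_lit 6755756841) (nat_lit 29) (nat_lit 5) (nat_lit 30) (nat_lit 5) (nat_lit 31) (nat_lit 4) (nat_lit 421) (nat_lit 302) (nat_lit 177)) (XT.lf (nat_lit 0) (nat_lit 955871199) (nat_lit 152) (nat_lit 38588547393) (nat_lit 76) (nat_lit 4607810298) (nat_lit 27) (nat_lit 5) (nat_lit 29) (nat_lit 5) (nat_lit 28) (nat_lit 4) (nat_lit 422) (nat_lit 302) (nat_lit 176))))) (XT.nd (nat_lit 234) (nat_lit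 152) (nat_lit 0) (XT.nd (nat_lit 78) (nat_lit 76) (nat_lit 0) (XT.lf (nat_lit 0) (nat_lit 8904962077) (nat_lit 152) (nat_lit 22481078342) (nat_lit 76) (nat_lit 13815988806) (nat_lit 27) (nat_lit 5) (nat_lit 29) (nat_lit 5) (nat_lit 28) (nat_lit 4) (nat_lit 423) (nat_lit 302) (nat_lit 175)) (XT.nd (nat_lit 78) (nat_lit 76) (nat_lit 0) (XT.lf (nat_lit 0) (nat_lit 17080438647) (nat_lit 152) (nat_lit 5913196272) (nat_lit 76) (nat_lit 23290052405) (nat_lit 27) (nat_lit 5) (nat_lit 29) (nat_lit 5) (nat_lit 28) (nat_lit 4) (nat_lit 424) (nat_lit 302) (nat_lit 174)) (XT.lf (nat_lit 0) (nat_lit 11351075983) (nat_lit 76) (nat_lit 14247482035) (nat_lit 152) (nat_lit 21796316904) (nat_lit 26) (nat_lit 5) (nat_lit 27) (nat_lit 5) (nat_lit 28) (nat_lit 4) (nat_lit 425) (nat_lit 302) (nat_lit 173)))) (XT.nd (nat_lit 156) (nat_lit 152) (nat_lit 0) (XT.nd (nat_lit 78) (nat_lit 0) (nat_lit 0) (XT.lf (nat_lit 0) (nat_lit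 29232561605) (nat_lit 76) (nat_lit 5187767065) (nat_lit 152) (nat_lit 14117627324) (nat_lit 26) (nat_lit 5) (nat_lit 27) (nat_lit 5) (nat_lit 28) (nat_lit 4) (nat_lit 426) (nat_lit 302) (nat_lit 172)) (XT.lf (nat_lit 0) (nat_lit 43535222228) (nat_lit 152) (nat_lit 2126203328) (nat_lit 0) (nat_lit 4053050895) (nat_lit 26) (nat_lit 5) (nat_lit 28) (nat_lit 4) (nat_lit 26) (nat_lit 4) (nat_lit 427) (nat_lit 302) (nat_lit 171))) (XT.nd (nat_lit 78) (nat_lit 0) (nat_lit 0) (XT.lf (nat_lit 0) (nat_lit 2152453739) (nat_lit 152) (nat_lit 35137132579) (nat_lit 76) (nat_lit 13630306492) (nat_lit 24) (nat_lit 5) (nat_lit 26) (nat_lit 5) (nat_lit 25) (nat_lit 4) (nat_lit 428) (nat_lit 302) (nat_lit 170)) (XT.lf (nat_lit 0) (nat_lit 10620581016) (nat_lit 152) (nat_lit 17970564632) (nat_lit 76) (nat_lit 23568171599) (nat_lit 24) (nat_lit 5) (nat_lit 26) (nat_lit 5) (nat_lit 25) (nat_lit 4) (nat_lit 429) (nat_lit 302)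 (nat_lit 169)))))) (XT.nd (nat_lit 546) (nat_lit 228) (nat_lit 0) (XT.nd (nat_lit 234) (nat_lit 152) (nat_lit 0) (XT.nd (nat_lit 78) (nat_lit 76) (nat_lit 0) (XT.lf (nat_lit 0) (nat_lit 19332054930) (nat_lit 152) (nat_lit 309311835) (nat_lit 76) (nat_lit 33794879498) (nat_lit 24) (nat_lit 5) (nat_lit 26) (nat_lit 5) (nat_lit 25) (nat_lit 4) (nat_lit 430) (nat_lit 302) (nat_lit 168)) (XT.nd (nat_lit 78) (nat_lit 0) (nat_lit 0) (XT.lf (nat_lit 0) (nat_lit 18217547950) (nat_lit 76) (nat_lit 10252057713) (nat_lit 152) (nat_lit 26276936411) (nat_lit 23) (nat_lit 5) (nat_lit 24) (nat_lit 5) (nat_lit 25) (nat_lit 4) (nat_lit 431) (nat_lit 302) (nat_lit 167)) (XT.lf (nat_lit 0) (nat_lit 37287026887) (nat_lit 76) (nat_lit 587108647) (nat_lit 152) (nat_lit 18222226523) (nat_lit 23) (nat_lit 5) (nat_lit 24) (nat_lit 5) (nat_lit 25) (nat_lit 4) (nat_lit 432) (nat_lit 302) (nat_lit 166)))) (XT.nd (nat_lit 156) (nat_lit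 76) (nat_lit 0) (XT.nd (nat_lit 78) (nat_lit 76) (nat_lit 0) (XT.lf (nat_lit 0) (nat_lit 47640792155) (nat_lit 152) (nat_lit 667307457) (nat_lit 0) (nat_lit 9176178152) (nat_lit 23) (nat_lit 5) (nat_lit 25) (nat_lit 4) (nat_lit 23) (nat_lit 4) (nat_lit 433) (nat_lit 302) (nat_lit 165)) (XT.lf (nat_lit 0) (nat_lit 18352681364) (nat_lit 76) (nat_lit 39520232157) (nat_lit 76) (nat_lit 1035744296) (nat_lit 22) (nat_lit 4) (nat_lit 23) (nat_lit 5) (nat_lit 23) (nat_lit 4) (nat_lit 434) (nat_lit 302) (nat_lit 164))) (XT.nd (nat_lit 78) (nat_lit 0) (nat_lit 0) (XT.lf (nat_lit 0) (nat_lit 7876464421) (nat_lit 152) (nat_lit 22514560091) (nat_lit 76) (nat_lit 29982516535) (nat_lit 21) (nat_lit 5) (nat_lit 23) (nat_lit 5) (nat_lit 22) (nat_lit 4) (nat_lit 435) (nat_lit 302) (nat_lit 163)) (XT.lf (nat_lit 0) (nat_lit 17025751801) (nat_lit 152) (nat_lit 3960239727) (nat_lit 76) (nat_lit 40896356461) (nat_lit 21) (nat_lit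 5) (nat_lit 23) (nat_lit 5) (nat_lit 22) (nat_lit 4) (nat_lit 436) (nat_lit 302) (nat_lit 162))))) (XT.nd (nat_lit 234) (nat_lit 152) (nat_lit 0) (XT.nd (nat_lit 78) (nat_lit 0) (nat_lit 0) (XT.lf (nat_lit 0) (nat_lit 15434332783) (nat_lit 76) (nat_lit 11154354932) (nat_lit 152) (nat_lit 36843557061) (nat_lit 20) (nat_lit 5) (nat_lit 21) (nat_lit 5) (nat_lit 22) (nat_lit 4) (nat_lit 437) (nat_lit 302) (nat_lit 161)) (XT.nd (nat_lit 78) (nat_lit 0) (nat_lit 0) (XT.lf (nat_lit 0) (nat_lit 35474538740) (nat_lit 76) (nat_lit 994869971) (nat_lit 152) (nat_lit 28558303557) (nat_lit 20) (nat_lit 5) (nat_lit 21) (nat_lit 5) (nat_lit 22) (nat_lit 4) (nat_lit 438) (nat_lit 302) (nat_lit 160)) (XT.lf (nat_lit 0) (nat_lit 46728670832) (nat_lit 152) (nat_lit 10663185160) (nat_lit 0) (nat_lit 9276724901) (nat_lit 20) (nat_lit 5) (nat_lit 22) (nat_lit 4) (nat_lit 20) (nat_lit 4) (nat_lit 439) (nat_lit 302) (nat_lit 159))))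 (XT.nd (nat_lit 156) (nat_lit 76) (nat_lit 0) (XT.nd (nat_lit 78) (nat_lit 0) (nat_lit 0) (XT.lf (nat_lit 0) (nat_lit 8941565305) (nat_lit 76) (nat_lit 48441300741) (nat_lit 76) (nat_lit 10973195545) (nat_lit 19) (nat_lit 4) (nat_lit 20) (nat_lit 5) (nat_lit 20) (nat_lit 4) (nat_lit 440) (nat_lit 302) (nat_lit 158)) (XT.lf (nat_lit 0) (nat_lit 29336636070) (nat_lit 76) (nat_lit 39119175678) (nat_lit 76) (nat_lit 1635381875) (nat_lit 19) (nat_lit 4) (nat_lit 20) (nat_lit 5) (nat_lit 20) (nat_lit 4) (nat_lit 441) (nat_lit 302) (nat_lit 157))) (XT.nd (nat_lit 78) (nat_lit 0) (nat_lit 0) (XT.lf (nat_lit 0) (nat_lit 7818411227) (nat_lit 152) (nat_lit 21627650669) (nat_lit 76) (nat_lit 42430267926) (nat_lit 18) (nat_lit 5) (nat_lit 20) (nat_lit 5) (nat_lit 19) (nat_lit 4) (nat_lit 442) (nat_lit 302) (nat_lit 156)) (XT.lf (nat_lit 0) (nat_lit 17514806470) (nat_lit 152) (nat_lit 1958756342) (nat_lit 76) (nat_lit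 54241216398) (nat_lit 18) (nat_lit 5) (nat_lit 20) (nat_lit 5) (nat_lit 19) (nat_lit 4) (nat_lit 443) (nat_lit 302) (nat_lit 155))))))))
noncomputable def xc112 : XT := (XT.nd (nat_lit 37674) (nat_lit 0) (nat_lit 9120) (XT.nd (nat_lit 36660) (nat_lit 0) (nat_lit 19760) (XT.nd (nat_lit 36114) (nat_lit 0) (nat_lit 25308) (XT.nd (nat_lit 35880) (nat_lit 0) (nat_lit 26600) (XT.nd (nat_lit 78) (nat_lit 0) (nat_lit 0) (XT.lf (nat_lit 0) (nat_lit 18648940123) (nat_lit 76) (nat_lit 9024513520) (nat_lit 152) (nat_lit 47929788213) (nat_lit 17) (nat_lit 5) (nat_lit 18) (nat_lit 5) (nat_lit 19) (nat_lit 4) (nat_lit 444) (nat_lit 302) (nat_lit 154)) (XT.nd (nat_lit 78) (nat_lit 0) (nat_lit 0) (XT.lf (nat_lit 0) (nat_lit 38165654075) (nat_lit 152) (nat_lit 37664837365) (nat_lit 0) (nat_lit 1717003688) (nat_lit 17) (nat_lit 5) (nat_lit 19) (nat_lit 4) (nat_lit 17) (nat_lit 4) (nat_lit 445) (nat_lit 302) (nat_lit 153))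 (XT.lf (nat_lit 0) (nat_lit 49054313515) (nat_lit 152) (nat_lit 17900788075) (nat_lit 0) (nat_lit 12592524167) (nat_lit 17) (nat_lit 5) (nat_lit 19) (nat_lit 4) (nat_lit 17) (nat_lit 4) (nat_lit 446) (nat_lit 302) (nat_lit 152)))) (XT.nd (nat_lit 78) (nat_lit 380) (nat_lit 0) (XT.lf (nat_lit 0) (nat_lit 1151086916) (nat_lit 0) (nat_lit 1151086916) (nat_lit 228) (nat_lit 938098219) (nat_lit 372) (nat_lit 5) (nat_lit 372) (nat_lit 3) (nat_lit 375) (nat_lit 3) (nat_lit 303) (nat_lit 303) (nat_lit 294)) (XT.nd (nat_lit 78) (nat_lit 0) (nat_lit 0) (XT.lf (nat_lit 0) (nat_lit 827390644) (nat_lit 380) (nat_lit 1028312610) (nat_lit 380) (nat_lit 4639364443) (nat_lit 367) (nat_lit 3) (nat_lit 372) (nat_lit 3) (nat_lit 372) (nat_lit 5) (nat_lit 304) (nat_lit 303) (nat_lit 293)) (XT.lf (nat_lit 76) (nat_lit 2186124800) (nat_lit 0) (nat_lit 1304103703) (nat_lit 380) (nat_lit 3021859156) (nat_lit 368) (nat_lit 5) (nat_lit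 367) (nat_lit 3) (nat_lit 372) (nat_lit 5) (nat_lit 305) (nat_lit 303) (nat_lit 292))))) (XT.nd (nat_lit 234) (nat_lit 988) (nat_lit 0) (XT.nd (nat_lit 78) (nat_lit 304) (nat_lit 0) (XT.lf (nat_lit 76) (nat_lit 5464401208) (nat_lit 0) (nat_lit 676319732) (nat_lit 380) (nat_lit 391755008) (nat_lit 368) (nat_lit 5) (nat_lit 367) (nat_lit 3) (nat_lit 372) (nat_lit 5) (nat_lit 306) (nat_lit 303) (nat_lit 291)) (XT.nd (nat_lit 78) (nat_lit 0) (nat_lit 0) (XT.lf (nat_lit 0) (nat_lit 2193609595) (nat_lit 380) (nat_lit 4300780512) (nat_lit 456) (nat_lit 60855872) (nat_lit 363) (nat_lit 5) (nat_lit 368) (nat_lit 5) (nat_lit 369) (nat_lit 5) (nat_lit 307) (nat_lit 303) (nat_lit 290)) (XT.lf (nat_lit 0) (nat_lit 4768397086) (nat_lit 380) (nat_lit 947609904) (nat_lit 456) (nat_lit 865066788) (nat_lit 363) (nat_lit 5) (nat_lit 368) (nat_lit 5) (nat_lit 369) (nat_lit 5) (nat_lit 308) (nat_lit 303) (nat_lit 289)))) (XT.nd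 (nat_lit 156) (nat_lit 532) (nat_lit 0) (XT.nd (nat_lit 78) (nat_lit 0) (nat_lit 0) (XT.lf (nat_lit 0) (nat_lit 725134043) (nat_lit 456) (nat_lit 4117531155) (nat_lit 532) (nat_lit 1767007909) (nat_lit 357) (nat_lit 5) (nat_lit 363) (nat_lit 5) (nat_lit 364) (nat_lit 5) (nat_lit 309) (nat_lit 303) (nat_lit 288)) (XT.lf (nat_lit 0) (nat_lit 3218551144) (nat_lit 456) (nat_lit 659237192) (nat_lit 532) (nat_lit 2763402560) (nat_lit 357) (nat_lit 5) (nat_lit 363) (nat_lit 5) (nat_lit 364) (nat_lit 5) (nat_lit 310) (nat_lit 303) (nat_lit 287))) (XT.nd (nat_lit 78) (nat_lit 532) (nat_lit 0) (XT.lf (nat_lit 76) (nat_lit 2904271345) (nat_lit 0) (nat_lit 2819389186) (nat_lit 532) (nat_lit 951960832) (nat_lit 358) (nat_lit 5) (nat_lit 357) (nat_lit 5) (nat_lit 364) (nat_lit 5) (nat_lit 311) (nat_lit 303) (nat_lit 286)) (XT.lf (nat_lit 0) (nat_lit 1478626805) (nat_lit 532) (nat_lit 194587061) (nat_lit 608) (nat_lit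 5039975025) (nat_lit 350) (nat_lit 5) (nat_lit 357) (nat_lit 5) (nat_lit 358) (nat_lit 5) (nat_lit 312) (nat_lit 303) (nat_lit 285)))))) (XT.nd (nat_lit 468) (nat_lit 3648) (nat_lit 0) (XT.nd (nat_lit 234) (nat_lit 1368) (nat_lit 0) (XT.nd (nat_lit 78) (nat_lit 532) (nat_lit 0) (XT.lf (nat_lit 76) (nat_lit 3493343835) (nat_lit 0) (nat_lit 415999439) (nat_lit 608) (nat_lit 2843934643) (nat_lit 351) (nat_lit 5) (nat_lit 350) (nat_lit 5) (nat_lit 358) (nat_lit 5) (nat_lit 313) (nat_lit 303) (nat_lit 284)) (XT.nd (nat_lit 78) (nat_lit 76) (nat_lit 0) (XT.lf (nat_lit 0) (nat_lit 444334900) (nat_lit 532) (nat_lit 5898430612) (nat_lit 608) (nat_lit 453976175) (nat_lit 344) (nat_lit 5) (nat_lit 351) (nat_lit 5) (nat_lit 352) (nat_lit 5) (nat_lit 314) (nat_lit 303) (nat_lit 283)) (XT.lf (nat_lit 0) (nat_lit 1921991710) (nat_lit 608) (nat_lit 2596136200) (nat_lit 76) (nat_lit 2324259694) (nat_lit 343) (nat_lit 5)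 (nat_lit 351) (nat_lit 5) (nat_lit 344) (nat_lit 5) (nat_lit 315) (nat_lit 303) (nat_lit 282)))) (XT.nd (nat_lit 78) (nat_lit 760) (nat_lit 0) (XT.lf (nat_lit 0) (nat_lit 1235714715) (nat_lit 608) (nat_lit 3054844955) (nat_lit 684) (nat_lit 2600855056) (nat_lit 335) (nat_lit 5) (nat_lit 343) (nat_lit 5) (nat_lit 344) (nat_lit 5) (nat_lit 316) (nat_lit 303) (nat_lit 281)) (XT.nd (nat_lit 78) (nat_lit 760) (nat_lit 0) (XT.lf (nat_lit 0) (nat_lit 5179569324) (nat_lit 608) (nat_lit 1497230185) (nat_lit 684) (nat_lit 266772995) (nat_lit 335) (nat_lit 5) (nat_lit 343) (nat_lit 5) (nat_lit 344) (nat_lit 5) (nat_lit 317) (nat_lit 303) (nat_lit 280)) (XT.lf (nat_lit 0) (nat_lit 2040428338) (nat_lit 760) (nat_lit 4789195287) (nat_lit 76) (nat_lit 168765856) (nat_lit 325) (nat_lit 5) (nat_lit 335) (nat_lit 5) (nat_lit 326) (nat_lit 5) (nat_lit 318) (nat_lit 303) (nat_lit 279))))) (XT.nd (nat_lit 234) (nat_lit 1976)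 (nat_lit 0) (XT.nd (nat_lit 78) (nat_lit 1672) (nat_lit 0) (XT.lf (nat_lit 0) (nat_lit 4368134121) (nat_lit 760) (nat_lit 792347355) (nat_lit 76) (nat_lit 1895644086) (nat_lit 325) (nat_lit 5) (nat_lit 335) (nat_lit 5) (nat_lit 326) (nat_lit 5) (nat_lit 319) (nat_lit 303) (nat_lit 278)) (XT.nd (nat_lit 78) (nat_lit 912) (nat_lit 0) (XT.lf (nat_lit 0) (nat_lit 3333001322) (nat_lit 760) (nat_lit 3390763827) (nat_lit 836) (nat_lit 393137541) (nat_lit 315) (nat_lit 5) (nat_lit 325) (nat_lit 5) (nat_lit 326) (nat_lit 5) (nat_lit 320) (nat_lit 303) (nat_lit 277)) (XT.lf (nat_lit 0) (nat_lit 349494425) (nat_lit 836) (nat_lit 1520961002) (nat_lit 912) (nat_lit 5310377867) (nat_lit 303) (nat_lit 5) (nat_lit 314) (nat_lit 5) (nat_lit 315) (nat_lit 5) (nat_lit 321) (nat_lit 303) (nat_lit 276)))) (XT.nd (nat_lit 156) (nat_lit 1064) (nat_lit 0) (XT.nd (nat_lit 78) (nat_lit 912) (nat_lit 0) (XT.lf (nat_lit 0) (nat_lit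 4165165351) (nat_lit 912) (nat_lit 2628405277) (nat_lit 76) (nat_lit 453908482) (nat_lit 303) (nat_lit 5) (nat_lit 315) (nat_lit 5) (nat_lit 304) (nat_lit 5) (nat_lit 322) (nat_lit 303) (nat_lit 275)) (XT.lf (nat_lit 0) (nat_lit 1660518382) (nat_lit 912) (nat_lit 4829927912) (nat_lit 988) (nat_lit 826872128) (nat_lit 291) (nat_lit 5) (nat_lit 303) (nat_lit 5) (nat_lit 304) (nat_lit 5) (nat_lit 323) (nat_lit 303) (nat_lit 274))) (XT.nd (nat_lit 78) (nat_lit 988) (nat_lit 0) (XT.lf (nat_lit 0) (nat_lit 1425305331) (nat_lit 988) (nat_lit 1329398488) (nat_lit 76) (nat_lit 4635412900) (nat_lit 290) (nat_lit 5) (nat_lit 303) (nat_lit 5) (nat_lit 291) (nat_lit 5) (nat_lit 324) (nat_lit 303) (nat_lit 273)) (XT.lf (nat_lit 0) (nat_lit 3124010789) (nat_lit 988) (nat_lit 567909023) (nat_lit 1064) (nat_lit 3774070925) (nat_lit 277) (nat_lit 5) (nat_lit 290) (nat_lit 5) (nat_lit 291) (nat_lit 5) (nat_lit 325) (nat_lit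 303) (nat_lit 272))))))) (XT.nd (nat_lit 1014) (nat_lit 4028) (nat_lit 0) (XT.nd (nat_lit 468) (nat_lit 2432) (nat_lit 0) (XT.nd (nat_lit 234) (nat_lit 1900) (nat_lit 0) (XT.nd (nat_lit 78) (nat_lit 1216) (nat_lit 0) (XT.lf (nat_lit 0) (nat_lit 122484329) (nat_lit 1064) (nat_lit 5869923410) (nat_lit 1140) (nat_lit 1552797869) (nat_lit 263) (nat_lit 5) (nat_lit 277) (nat_lit 5) (nat_lit 278) (nat_lit 5) (nat_lit 326) (nat_lit 303) (nat_lit 271)) (XT.nd (nat_lit 78) (nat_lit 1140) (nat_lit 0) (XT.lf (nat_lit 0) (nat_lit 706291001) (nat_lit 1140) (nat_lit 2887582074) (nat_lit 76) (nat_lit 4033184725) (nat_lit 262) (nat_lit 5) (nat_lit 277) (nat_lit 5) (nat_lit 263) (nat_lit 5) (nat_lit 327) (nat_lit 303) (nat_lit 270)) (XT.lf (nat_lit 0) (nat_lit 1745139528) (nat_lit 1140) (nat_lit 1211073682) (nat_lit 1216) (nat_lit 4756100421) (nat_lit 247) (nat_lit 5) (nat_lit 262) (nat_lit 5) (nat_lit 263) (nat_lit 5)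 (nat_lit 328) (nat_lit 303) (nat_lit 269)))) (XT.nd (nat_lit 78) (nat_lit 1900) (nat_lit 0) (XT.lf (nat_lit 0) (nat_lit 5253847343) (nat_lit 1216) (nat_lit 1293965128) (nat_lit 76) (nat_lit 1252944562) (nat_lit 247) (nat_lit 5) (nat_lit 263) (nat_lit 5) (nat_lit 248) (nat_lit 5) (nat_lit 329) (nat_lit 303) (nat_lit 268)) (XT.nd (nat_lit 78) (nat_lit 684) (nat_lit 0) (XT.lf (nat_lit 0) (nat_lit 3519319078) (nat_lit 1216) (nat_lit 4087510294) (nat_lit 1292) (nat_lit 285467064) (nat_lit 231) (nat_lit 5) (nat_lit 247) (nat_lit 5) (nat_lit 248) (nat_lit 5) (nat_lit 330) (nat_lit 303) (nat_lit 267)) (XT.lf (nat_lit 0) (nat_lit 448868219) (nat_lit 608) (nat_lit 1513756761) (nat_lit 684) (nat_lit 6024640236) (nat_lit 222) (nat_lit 5) (nat_lit 230) (nat_lit 5) (nat_lit 231) (nat_lit 5) (nat_lit 331) (nat_lit 303) (nat_lit 266))))) (XT.nd (nat_lit 234) (nat_lit 1748) (nat_lit 0) (XT.nd (nat_lit 78) (nat_lit 684)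 (nat_lit 0) (XT.lf (nat_lit 0) (nat_lit 4270300971) (nat_lit 684) (nat_lit 2651600443) (nat_lit 76) (nat_lit 1163192762) (nat_lit 222) (nat_lit 5) (nat_lit 231) (nat_lit 5) (nat_lit 223) (nat_lit 5) (nat_lit 332) (nat_lit 303) (nat_lit 265)) (XT.nd (nat_lit 78) (nat_lit 76) (nat_lit 0) (XT.lf (nat_lit 0) (nat_lit 2355833719) (nat_lit 608) (nat_lit 4273037536) (nat_lit 684) (nat_lit 1557568163) (nat_lit 214) (nat_lit 5) (nat_lit 222) (nat_lit 5) (nat_lit 223) (nat_lit 5) (nat_lit 333) (nat_lit 303) (nat_lit 264)) (XT.lf (nat_lit 0) (nat_lit 723985995) (nat_lit 684) (nat_lit 787341452) (nat_lit 76) (nat_lit 6780158211) (nat_lit 213) (nat_lit 5) (nat_lit 222) (nat_lit 5) (nat_lit 214) (nat_lit 5) (nat_lit 334) (nat_lit 303) (nat_lit 263)))) (XT.nd (nat_lit 156) (nat_lit 608) (nat_lit 0) (XT.nd (nat_lit 78) (nat_lit 532) (nat_lit 0) (XT.lf (nat_lit 0) (nat_lit 3044721328) (nat_lit 684) (nat_lit 3990714955)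 (nat_lit 76) (nat_lit 1363751828) (nat_lit 205) (nat_lit 5) (nat_lit 214) (nat_lit 5) (nat_lit 206) (nat_lit 5) (nat_lit 335) (nat_lit 303) (nat_lit 262)) (XT.lf (nat_lit 0) (nat_lit 1218259932) (nat_lit 532) (nat_lit 4198695633) (nat_lit 608) (nat_lit 3093737608) (nat_lit 198) (nat_lit 5) (nat_lit 205) (nat_lit 5) (nat_lit 206) (nat_lit 5) (nat_lit 336) (nat_lit 303) (nat_lit 261))) (XT.nd (nat_lit 78) (nat_lit 608) (nat_lit 0) (XT.lf (nat_lit 0) (nat_lit 6608978387) (nat_lit 532) (nat_lit 1239847212) (nat_lit 608) (nat_lit 777090751) (nat_lit 198) (nat_lit 5) (nat_lit 205) (nat_lit 5) (nat_lit 206) (nat_lit 5) (nat_lit 337) (nat_lit 303) (nat_lit 260)) (XT.lf (nat_lit 0) (nat_lit 1577421639) (nat_lit 608) (nat_lit 5350295892) (nat_lit 76) (nat_lit 1816447212) (nat_lit 190) (nat_lit 5) (nat_lit 198) (nat_lit 5) (nat_lit 191) (nat_lit 5) (nat_lit 338) (nat_lit 303) (nat_lit 259)))))) (XT.nd (nat_lit 546)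 (nat_lit 1976) (nat_lit 0) (XT.nd (nat_lit 234) (nat_lit 1064) (nat_lit 0) (XT.nd (nat_lit 78) (nat_lit 532) (nat_lit 0) (XT.lf (nat_lit 0) (nat_lit 67488730) (nat_lit 456) (nat_lit 3903010795) (nat_lit 532) (nat_lit 4895748513) (nat_lit 184) (nat_lit 5) (nat_lit 190) (nat_lit 5) (nat_lit 191) (nat_lit 5) (nat_lit 339) (nat_lit 303) (nat_lit 258)) (XT.nd (nat_lit 78) (nat_lit 532) (nat_lit 0) (XT.lf (nat_lit 0) (nat_lit 5701385701) (nat_lit 456) (nat_lit 738982642) (nat_lit 532) (nat_lit 2551499544) (nat_lit 184) (nat_lit 5) (nat_lit 190) (nat_lit 5) (nat_lit 191) (nat_lit 5) (nat_lit 340) (nat_lit 303) (nat_lit 257)) (XT.lf (nat_lit 0) (nat_lit 2348804941) (nat_lit 532) (nat_lit 6634663053) (nat_lit 608) (nat_lit 137837609) (nat_lit 177) (nat_lit 5) (nat_lit 184) (nat_lit 5) (nat_lit 185) (nat_lit 5) (nat_lit 341) (nat_lit 303) (nat_lit 256)))) (XT.nd (nat_lit 156) (nat_lit 532) (nat_lit 0) (XT.nd (nat_lit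 78) (nat_lit 456) (nat_lit 0) (XT.lf (nat_lit 0) (nat_lit 2295989006) (nat_lit 608) (nat_lit 1115389808) (nat_lit 76) (nat_lit 5842785113) (nat_lit 176) (nat_lit 5) (nat_lit 184) (nat_lit 5) (nat_lit 177) (nat_lit 5) (nat_lit 342) (nat_lit 303) (nat_lit 255)) (XT.lf (nat_lit 0) (nat_lit 4748096661) (nat_lit 456) (nat_lit 51686784) (nat_lit 532) (nat_lit 4591213247) (nat_lit 170) (nat_lit 5) (nat_lit 176) (nat_lit 5) (nat_lit 177) (nat_lit 5) (nat_lit 343) (nat_lit 303) (nat_lit 254))) (XT.nd (nat_lit 78) (nat_lit 76) (nat_lit 0) (XT.lf (nat_lit 0) (nat_lit 1214192669) (nat_lit 456) (nat_lit 6175125693) (nat_lit 532) (nat_lit 2142317993) (nat_lit 164) (nat_lit 5) (nat_lit 170) (nat_lit 5) (nat_lit 171) (nat_lit 5) (nat_lit 344) (nat_lit 303) (nat_lit 253)) (XT.lf (nat_lit 0) (nat_lit 375630831) (nat_lit 532) (nat_lit 2393291394) (nat_lit 76) (nat_lit 6907392830) (nat_lit 163) (nat_lit 5) (nat_lit 170) (nat_lit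 5) (nat_lit 164) (nat_lit 5) (nat_lit 345) (nat_lit 303) (nat_lit 252))))) (XT.nd (nat_lit 234) (nat_lit 1140) (nat_lit 0) (XT.nd (nat_lit 78) (nat_lit 456) (nat_lit 0) (XT.lf (nat_lit 0) (nat_lit 2925698168) (nat_lit 456) (nat_lit 6126963615) (nat_lit 76) (nat_lit 772065801) (nat_lit 158) (nat_lit 5) (nat_lit 164) (nat_lit 5) (nat_lit 159) (nat_lit 5) (nat_lit 346) (nat_lit 303) (nat_lit 251)) (XT.nd (nat_lit 78) (nat_lit 456) (nat_lit 0) (XT.lf (nat_lit 0) (nat_lit 5561188107) (nat_lit 456) (nat_lit 38701551) (nat_lit 76) (nat_lit 4377453619) (nat_lit 158) (nat_lit 5) (nat_lit 164) (nat_lit 5) (nat_lit 159) (nat_lit 5) (nat_lit 347) (nat_lit 303) (nat_lit 250)) (XT.lf (nat_lit 0) (nat_lit 6301987850) (nat_lit 456) (nat_lit 1992681686) (nat_lit 532) (nat_lit 1839317969) (nat_lit 152) (nat_lit 5) (nat_lit 158) (nat_lit 5) (nat_lit 159) (nat_lit 5) (nat_lit 348) (nat_lit 303) (nat_lit 249)))) (XT.nd (nat_lit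 156) (nat_lit 684) (nat_lit 0) (XT.nd (nat_lit 78) (nat_lit 0) (nat_lit 0) (XT.lf (nat_lit 0) (nat_lit 799001248) (nat_lit 456) (nat_lit 7786059312) (nat_lit 76) (nat_lit 1710050053) (nat_lit 146) (nat_lit 5) (nat_lit 152) (nat_lit 5) (nat_lit 147) (nat_lit 5) (nat_lit 349) (nat_lit 303) (nat_lit 248)) (XT.lf (nat_lit 0) (nat_lit 3497519667) (nat_lit 456) (nat_lit 1433451321) (nat_lit 76) (nat_lit 5529025904) (nat_lit 146) (nat_lit 5) (nat_lit 152) (nat_lit 5) (nat_lit 147) (nat_lit 5) (nat_lit 350) (nat_lit 303) (nat_lit 247))) (XT.nd (nat_lit 78) (nat_lit 304) (nat_lit 0) (XT.lf (nat_lit 0) (nat_lit 5157852031) (nat_lit 380) (nat_lit 1129119868) (nat_lit 456) (nat_lit 4342574388) (nat_lit 141) (nat_lit 5) (nat_lit 146) (nat_lit 5) (nat_lit 147) (nat_lit 5) (nat_lit 351) (nat_lit 303) (nat_lit 246)) (XT.lf (nat_lit 0) (nat_lit 1114268287) (nat_lit 304) (nat_lit 8058882772) (nat_lit 380) (nat_lit 1630655218)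 (nat_lit 137) (nat_lit 5) (nat_lit 141) (nat_lit 5) (nat_lit 142) (nat_lit 5) (nat_lit 352) (nat_lit 303) (nat_lit 245))))))))
noncomputable def xc113 : XT := (XT.nd (nat_lit 2106) (nat_lit 2584) (nat_lit 0) (XT.nd (nat_lit 1014) (nat_lit 1976) (nat_lit 0) (XT.nd (nat_lit 468) (nat_lit 1596) (nat_lit 0) (XT.nd (nat_lit 234) (nat_lit 684) (nat_lit 0) (XT.nd (nat_lit 78) (nat_lit 380) (nat_lit 0) (XT.lf (nat_lit 0) (nat_lit 1168077738) (nat_lit 380) (nat_lit 3047906207) (nat_lit 76) (nat_lit 6766145081) (nat_lit 136) (nat_lit 5) (nat_lit 141) (nat_lit 5) (nat_lit 137) (nat_lit 5) (nat_lit 353) (nat_lit 303) (nat_lit 244)) (XT.nd (nat_lit 78) (nat_lit 0) (nat_lit 0) (XT.lf (nat_lit 0) (nat_lit 3799177177) (nat_lit 380) (nat_lit 217635426) (nat_lit 456) (nat_lit 7148554173) (nat_lit 131) (nat_lit 5) (nat_lit 136) (nat_lit 5) (nat_lit 137) (nat_lit 5) (nat_lit 354) (nat_lit 303) (nat_lit 243)) (XT.lf (nat_lit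 0) (nat_lit 6982351123) (nat_lit 456) (nat_lit 529097021) (nat_lit 76) (nat_lit 3841726960) (nat_lit 131) (nat_lit 5) (nat_lit 137) (nat_lit 5) (nat_lit 132) (nat_lit 5) (nat_lit 355) (nat_lit 303) (nat_lit 242)))) (XT.nd (nat_lit 78) (nat_lit 380) (nat_lit 0) (XT.lf (nat_lit 0) (nat_lit 6588776171) (nat_lit 304) (nat_lit 3477417779) (nat_lit 380) (nat_lit 1479556885) (nat_lit 127) (nat_lit 5) (nat_lit 131) (nat_lit 5) (nat_lit 132) (nat_lit 5) (nat_lit 356) (nat_lit 303) (nat_lit 241)) (XT.nd (nat_lit 78) (nat_lit 0) (nat_lit 0) (XT.lf (nat_lit 0) (nat_lit 1466228652) (nat_lit 380) (nat_lit 9586870498) (nat_lit 76) (nat_lit 690674482) (nat_lit 122) (nat_lit 5) (nat_lit 127) (nat_lit 5) (nat_lit 123) (nat_lit 5) (nat_lit 357) (nat_lit 303) (nat_lit 240)) (XT.lf (nat_lit 0) (nat_lit 4520100988) (nat_lit 380) (nat_lit 2461406990) (nat_lit 76) (nat_lit 4964318306) (nat_lit 122) (nat_lit 5) (nat_lit 127) (nat_lit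 5) (nat_lit 123) (nat_lit 5) (nat_lit 358) (nat_lit 303) (nat_lit 239))))) (XT.nd (nat_lit 234) (nat_lit 912) (nat_lit 0) (XT.nd (nat_lit 78) (nat_lit 380) (nat_lit 0) (XT.lf (nat_lit 0) (nat_lit 4923995229) (nat_lit 304) (nat_lit 2754431237) (nat_lit 380) (nat_lit 4475140751) (nat_lit 118) (nat_lit 5) (nat_lit 122) (nat_lit 5) (nat_lit 123) (nat_lit 5) (nat_lit 359) (nat_lit 303) (nat_lit 238)) (XT.nd (nat_lit 78) (nat_lit 76) (nat_lit 0) (XT.lf (nat_lit 0) (nat_lit 151656895) (nat_lit 304) (nat_lit 10787664695) (nat_lit 380) (nat_lit 1427995663) (nat_lit 114) (nat_lit 5) (nat_lit 118) (nat_lit 5) (nat_lit 119) (nat_lit 5) (nat_lit 360) (nat_lit 303) (nat_lit 237)) (XT.lf (nat_lit 0) (nat_lit 1744240285) (nat_lit 380) (nat_lit 4777701095) (nat_lit 76) (nat_lit 6063044258) (nat_lit 113) (nat_lit 5) (nat_lit 118) (nat_lit 5) (nat_lit 114) (nat_lit 5) (nat_lit 361) (nat_lit 303) (nat_lit 236)))) (XT.nd (nat_lit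 156) (nat_lit 608) (nat_lit 0) (XT.nd (nat_lit 78) (nat_lit 0) (nat_lit 0) (XT.lf (nat_lit 0) (nat_lit 2876361475) (nat_lit 304) (nat_lit 2101275374) (nat_lit 380) (nat_lit 7831292719) (nat_lit 109) (nat_lit 5) (nat_lit 113) (nat_lit 5) (nat_lit 114) (nat_lit 5) (nat_lit 362) (nat_lit 303) (nat_lit 235)) (XT.lf (nat_lit 0) (nat_lit 8347712718) (nat_lit 380) (nat_lit 2253582110) (nat_lit 76) (nat_lit 2437116856) (nat_lit 109) (nat_lit 5) (nat_lit 114) (nat_lit 5) (nat_lit 110) (nat_lit 5) (nat_lit 363) (nat_lit 303) (nat_lit 234))) (XT.nd (nat_lit 78) (nat_lit 304) (nat_lit 0) (XT.lf (nat_lit 0) (nat_lit 5698225867) (nat_lit 304) (nat_lit 6164578602) (nat_lit 380) (nat_lit 1410666280) (nat_lit 105) (nat_lit 5) (nat_lit 109) (nat_lit 5) (nat_lit 110) (nat_lit 5) (nat_lit 364) (nat_lit 303) (nat_lit 233)) (XT.lf (nat_lit 0) (nat_lit 359660567) (nat_lit 228) (nat_lit 1564629720) (nat_lit 304) (nat_lit 11590885527)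 (nat_lit 101) (nat_lit 5) (nat_lit 104) (nat_lit 5) (nat_lit 105) (nat_lit 5) (nat_lit 365) (nat_lit 303) (nat_lit 232)))))) (XT.nd (nat_lit 546) (nat_lit 912) (nat_lit 0) (XT.nd (nat_lit 234) (nat_lit 760) (nat_lit 0) (XT.nd (nat_lit 78) (nat_lit 304) (nat_lit 0) (XT.lf (nat_lit 0) (nat_lit 5407481547) (nat_lit 304) (nat_lit 5167579473) (nat_lit 76) (nat_lit 3186364888) (nat_lit 101) (nat_lit 5) (nat_lit 105) (nat_lit 5) (nat_lit 102) (nat_lit 5) (nat_lit 366) (nat_lit 303) (nat_lit 231)) (XT.nd (nat_lit 78) (nat_lit 0) (nat_lit 0) (XT.lf (nat_lit 0) (nat_lit 3057156874) (nat_lit 304) (nat_lit 5952582179) (nat_lit 380) (nat_lit 5004896125) (nat_lit 97) (nat_lit 5) (nat_lit 101) (nat_lit 5) (nat_lit 102) (nat_lit 5) (nat_lit 367) (nat_lit 303) (nat_lit 230)) (XT.lf (nat_lit 0) (nat_lit 11588024172) (nat_lit 304) (nat_lit 1154349774) (nat_lit 380) (nat_lit 1532406025) (nat_lit 97) (nat_lit 5) (nat_lit 101)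 (nat_lit 5) (nat_lit 102) (nat_lit 5) (nat_lit 368) (nat_lit 303) (nat_lit 229)))) (XT.nd (nat_lit 156) (nat_lit 456) (nat_lit 0) (XT.nd (nat_lit 78) (nat_lit 0) (nat_lit 0) (XT.lf (nat_lit 0) (nat_lit 2068612707) (nat_lit 304) (nat_lit 8696908782) (nat_lit 76) (nat_lit 3774698798) (nat_lit 93) (nat_lit 5) (nat_lit 97) (nat_lit 5) (nat_lit 94) (nat_lit 5) (nat_lit 369) (nat_lit 303) (nat_lit 228)) (XT.lf (nat_lit 0) (nat_lit 5756652505) (nat_lit 304) (nat_lit 201367688) (nat_lit 76) (nat_lit 8854862551) (nat_lit 93) (nat_lit 5) (nat_lit 97) (nat_lit 5) (nat_lit 94) (nat_lit 5) (nat_lit 370) (nat_lit 303) (nat_lit 227))) (XT.nd (nat_lit 78) (nat_lit 228) (nat_lit 0) (XT.lf (nat_lit 0) (nat_lit 8673589378) (nat_lit 228) (nat_lit 936927296) (nat_lit 304) (nat_lit 5481560486) (nat_lit 90) (nat_lit 5) (nat_lit 93) (nat_lit 5) (nat_lit 94) (nat_lit 5) (nat_lit 371) (nat_lit 303) (nat_lit 226)) (XT.lf (nat_lit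 0) (nat_lit 2400503517) (nat_lit 228) (nat_lit 11217374059) (nat_lit 304) (nat_lit 1760640771) (nat_lit 87) (nat_lit 5) (nat_lit 90) (nat_lit 5) (nat_lit 91) (nat_lit 5) (nat_lit 372) (nat_lit 303) (nat_lit 225))))) (XT.nd (nat_lit 234) (nat_lit 608) (nat_lit 0) (XT.nd (nat_lit 78) (nat_lit 228) (nat_lit 0) (XT.lf (nat_lit 0) (nat_lit 2078359659) (nat_lit 304) (nat_lit 4130874202) (nat_lit 76) (nat_lit 9462321850) (nat_lit 86) (nat_lit 5) (nat_lit 90) (nat_lit 5) (nat_lit 87) (nat_lit 5) (nat_lit 373) (nat_lit 303) (nat_lit 224)) (XT.nd (nat_lit 78) (nat_lit 0) (nat_lit 0) (XT.lf (nat_lit 0) (nat_lit 5018420230) (nat_lit 228) (nat_lit 999925104) (nat_lit 304) (nat_lit 9953886565) (nat_lit 83) (nat_lit 5) (nat_lit 86) (nat_lit 5) (nat_lit 87) (nat_lit 5) (nat_lit 374) (nat_lit 303) (nat_lit 223)) (XT.lf (nat_lit 0) (nat_lit 10133795858) (nat_lit 304) (nat_lit 1840156225) (nat_lit 76) (nat_lit 4306264872)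 (nat_lit 83) (nat_lit 5) (nat_lit 87) (nat_lit 5) (nat_lit 84) (nat_lit 5) (nat_lit 375) (nat_lit 303) (nat_lit 222)))) (XT.nd (nat_lit 156) (nat_lit 152) (nat_lit 0) (XT.nd (nat_lit 78) (nat_lit 304) (nat_lit 0) (XT.lf (nat_lit 0) (nat_lit 7643467794) (nat_lit 152) (nat_lit 6786570525) (nat_lit 228) (nat_lit 2165689741) (nat_lit 81) (nat_lit 5) (nat_lit 83) (nat_lit 5) (nat_lit 84) (nat_lit 5) (nat_lit 376) (nat_lit 303) (nat_lit 221)) (XT.lf (nat_lit 0) (nat_lit 476905419) (nat_lit 228) (nat_lit 1417206336) (nat_lit 304) (nat_lit 15026118976) (nat_lit 77) (nat_lit 5) (nat_lit 80) (nat_lit 5) (nat_lit 81) (nat_lit 5) (nat_lit 377) (nat_lit 303) (nat_lit 220))) (XT.nd (nat_lit 78) (nat_lit 152) (nat_lit 0) (XT.lf (nat_lit 0) (nat_lit 6137247030) (nat_lit 304) (nat_lit 6984163893) (nat_lit 76) (nat_lit 4129268057) (nat_lit 77) (nat_lit 5) (nat_lit 81) (nat_lit 5) (nat_lit 78) (nat_lit 5) (nat_lit 378) (nat_lit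 303) (nat_lit 219)) (XT.lf (nat_lit 0) (nat_lit 2756798247) (nat_lit 152) (nat_lit 7766394025) (nat_lit 228) (nat_lit 7067388567) (nat_lit 75) (nat_lit 5) (nat_lit 77) (nat_lit 5) (nat_lit 78) (nat_lit 5) (nat_lit 379) (nat_lit 303) (nat_lit 218))))))) (XT.nd (nat_lit 1014) (nat_lit 1140) (nat_lit 0) (XT.nd (nat_lit 468) (nat_lit 684) (nat_lit 0) (XT.nd (nat_lit 234) (nat_lit 456) (nat_lit 0) (XT.nd (nat_lit 78) (nat_lit 304) (nat_lit 0) (XT.lf (nat_lit 0) (nat_lit 12891829517) (nat_lit 152) (nat_lit 2194728196) (nat_lit 228) (nat_lit 2852752267) (nat_lit 75) (nat_lit 5) (nat_lit 77) (nat_lit 5) (nat_lit 78) (nat_lit 5) (nat_lit 380) (nat_lit 303) (nat_lit 217)) (XT.nd (nat_lit 78) (nat_lit 0) (nat_lit 0) (XT.lf (nat_lit 0) (nat_lit 1518406539) (nat_lit 304) (nat_lit 13255319840) (nat_lit 76) (nat_lit 3522576798) (nat_lit 71) (nat_lit 5) (nat_lit 75) (nat_lit 5) (nat_lit 72) (nat_lit 5) (nat_lit 381) (nat_lit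 303) (nat_lit 216)) (XT.lf (nat_lit 0) (nat_lit 6012520469) (nat_lit 304) (nat_lit 3218165427) (nat_lit 76) (nat_lit 9431003200) (nat_lit 71) (nat_lit 5) (nat_lit 75) (nat_lit 5) (nat_lit 72) (nat_lit 5) (nat_lit 382) (nat_lit 303) (nat_lit 215)))) (XT.nd (nat_lit 78) (nat_lit 304) (nat_lit 0) (XT.lf (nat_lit 0) (nat_lit 7221429328) (nat_lit 152) (nat_lit 3466099233) (nat_lit 228) (nat_lit 8349130775) (nat_lit 69) (nat_lit 5) (nat_lit 71) (nat_lit 5) (nat_lit 72) (nat_lit 5) (nat_lit 383) (nat_lit 303) (nat_lit 214)) (XT.nd (nat_lit 78) (nat_lit 304) (nat_lit 0) (XT.lf (nat_lit 0) (nat_lit 15536164424) (nat_lit 228) (nat_lit 1445544132) (nat_lit 76) (nat_lit 2440173528) (nat_lit 69) (nat_lit 5) (nat_lit 72) (nat_lit 5) (nat_lit 70) (nat_lit 5) (nat_lit 384) (nat_lit 303) (nat_lit 213)) (XT.lf (nat_lit 0) (nat_lit 800335679) (nat_lit 304) (nat_lit 10478786410) (nat_lit 76) (nat_lit 8536259958) (nat_lit 65)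 (nat_lit 5) (nat_lit 69) (nat_lit 5) (nat_lit 66) (nat_lit 5) (nat_lit 385) (nat_lit 303) (nat_lit 212))))) (XT.nd (nat_lit 234) (nat_lit 380) (nat_lit 0) (XT.nd (nat_lit 78) (nat_lit 152) (nat_lit 0) (XT.lf (nat_lit 0) (nat_lit 177776460) (nat_lit 152) (nat_lit 5365087327) (nat_lit 228) (nat_lit 14676853607) (nat_lit 63) (nat_lit 5) (nat_lit 65) (nat_lit 5) (nat_lit 66) (nat_lit 5) (nat_lit 386) (nat_lit 303) (nat_lit 211)) (XT.nd (nat_lit 78) (nat_lit 152) (nat_lit 0) (XT.lf (nat_lit 0) (nat_lit 10519185901) (nat_lit 228) (nat_lit 9310991144) (nat_lit 76) (nat_lit 803264409) (nat_lit 63) (nat_lit 5) (nat_lit 66) (nat_lit 5) (nat_lit 64) (nat_lit 5) (nat_lit 387) (nat_lit 303) (nat_lit 210)) (XT.lf (nat_lit 0) (nat_lit 1683963688) (nat_lit 152) (nat_lit 14008464247) (nat_lit 228) (nat_lit 5365724470) (nat_lit 61) (nat_lit 5) (nat_lit 63) (nat_lit 5) (nat_lit 64) (nat_lit 5) (nat_lit 388) (nat_lit 303)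 (nat_lit 209)))) (XT.nd (nat_lit 156) (nat_lit 152) (nat_lit 0) (XT.nd (nat_lit 78) (nat_lit 228) (nat_lit 0) (XT.lf (nat_lit 0) (nat_lit 13162338639) (nat_lit 152) (nat_lit 7931147499) (nat_lit 228) (nat_lit 399943936) (nat_lit 61) (nat_lit 5) (nat_lit 63) (nat_lit 5) (nat_lit 64) (nat_lit 5) (nat_lit 389) (nat_lit 303) (nat_lit 208)) (XT.lf (nat_lit 0) (nat_lit 3020283809) (nat_lit 152) (nat_lit 1610566147) (nat_lit 228) (nat_lit 17309318911) (nat_lit 58) (nat_lit 5) (nat_lit 60) (nat_lit 5) (nat_lit 61) (nat_lit 5) (nat_lit 390) (nat_lit 303) (nat_lit 207))) (XT.nd (nat_lit 78) (nat_lit 152) (nat_lit 0) (XT.lf (nat_lit 0) (nat_lit 9915711430) (nat_lit 228) (nat_lit 7603444373) (nat_lit 76) (nat_lit 4877703380) (nat_lit 58) (nat_lit 5) (nat_lit 61) (nat_lit 5) (nat_lit 59) (nat_lit 5) (nat_lit 391) (nat_lit 303) (nat_lit 206)) (XT.lf (nat_lit 0) (nat_lit 4080491881) (nat_lit 152) (nat_lit 11313528646)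 (nat_lit 228) (nat_lit 7472186144) (nat_lit 56) (nat_lit 5) (nat_lit 58) (nat_lit 5) (nat_lit 59) (nat_lit 5) (nat_lit 392) (nat_lit 303) (nat_lit 205)))))) (XT.nd (nat_lit 546) (nat_lit 532) (nat_lit 0) (XT.nd (nat_lit 234) (nat_lit 380) (nat_lit 0) (XT.nd (nat_lit 78) (nat_lit 228) (nat_lit 0) (XT.lf (nat_lit 0) (nat_lit 16235482603) (nat_lit 152) (nat_lit 4857958336) (nat_lit 228) (nat_lit 2254494197) (nat_lit 56) (nat_lit 5) (nat_lit 58) (nat_lit 5) (nat_lit 59) (nat_lit 5) (nat_lit 393) (nat_lit 303) (nat_lit 204)) (XT.nd (nat_lit 78) (nat_lit 0) (nat_lit 0) (XT.lf (nat_lit 0) (nat_lit 3104575347) (nat_lit 228) (nat_lit 18917445451) (nat_lit 76) (nat_lit 1819826495) (nat_lit 53) (nat_lit 5) (nat_lit 56) (nat_lit 5) (nat_lit 54) (nat_lit 5) (nat_lit 394) (nat_lit 303) (nat_lit 203)) (XT.lf (nat_lit 0) (nat_lit 8680202660) (nat_lit 228) (nat_lit 6986186022) (nat_lit 76) (nat_lit 8680488639) (nat_lit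 53) (nat_lit 5) (nat_lit 56) (nat_lit 5) (nat_lit 54) (nat_lit 5) (nat_lit 395) (nat_lit 303) (nat_lit 202)))) (XT.nd (nat_lit 156) (nat_lit 228) (nat_lit 0) (XT.nd (nat_lit 78) (nat_lit 0) (nat_lit 0) (XT.lf (nat_lit 0) (nat_lit 5374100026) (nat_lit 152) (nat_lit 9081694073) (nat_lit 228) (nat_lit 10410286325) (nat_lit 51) (nat_lit 5) (nat_lit 53) (nat_lit 5) (nat_lit 54) (nat_lit 5) (nat_lit 396) (nat_lit 303) (nat_lit 201)) (XT.lf (nat_lit 0) (nat_lit 18214956577) (nat_lit 152) (nat_lit 2241510475) (nat_lit 228) (nat_lit 4942841099) (nat_lit 51) (nat_lit 5) (nat_lit 53) (nat_lit 5) (nat_lit 54) (nat_lit 5) (nat_lit 397) (nat_lit 303) (nat_lit 200))) (XT.nd (nat_lit 78) (nat_lit 0) (nat_lit 0) (XT.lf (nat_lit 0) (nat_lit 756914401) (nat_lit 228) (nat_lit 20432347065) (nat_lit 76) (nat_lit 4756623698) (nat_lit 48) (nat_lit 5) (nat_lit 51) (nat_lit 5) (nat_lit 49) (nat_lit 5) (nat_lit 398) (nat_lit 303)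 (nat_lit 199)) (XT.lf (nat_lit 0) (nat_lit 6605489720) (nat_lit 228) (nat_lit 7871826112) (nat_lit 76) (nat_lit 12027762981) (nat_lit 48) (nat_lit 5) (nat_lit 51) (nat_lit 5) (nat_lit 49) (nat_lit 5) (nat_lit 399) (nat_lit 303) (nat_lit 198))))) (XT.nd (nat_lit 234) (nat_lit 304) (nat_lit 0) (XT.nd (nat_lit 78) (nat_lit 76) (nat_lit 0) (XT.lf (nat_lit 0) (nat_lit 5133717697) (nat_lit 152) (nat_lit 7527399668) (nat_lit 228) (nat_lit 14418985669) (nat_lit 46) (nat_lit 5) (nat_lit 48) (nat_lit 5) (nat_lit 49) (nat_lit 5) (nat_lit 400) (nat_lit 303) (nat_lit 197)) (XT.nd (nat_lit 78) (nat_lit 76) (nat_lit 0) (XT.lf (nat_lit 0) (nat_lit 18659135876) (nat_lit 152) (nat_lit 301227391) (nat_lit 228) (nat_lit 8710158772) (nat_lit 46) (nat_lit 5) (nat_lit 48) (nat_lit 5) (nat_lit 49) (nat_lit 5) (nat_lit 401) (nat_lit 303) (nat_lit 196)) (XT.lf (nat_lit 0) (nat_lit 4295721056) (nat_lit 76) (nat_lit 21245647834) (nat_lit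 152) (nat_lit 2734503719) (nat_lit 45) (nat_lit 5) (nat_lit 46) (nat_lit 5) (nat_lit 47) (nat_lit 4) (nat_lit 402) (nat_lit 303) (nat_lit 195)))) (XT.nd (nat_lit 156) (nat_lit 76) (nat_lit 0) (XT.nd (nat_lit 78) (nat_lit 152) (nat_lit 0) (XT.lf (nat_lit 0) (nat_lit 3431428989) (nat_lit 152) (nat_lit 10777804679) (nat_lit 76) (nat_lit 14686833396) (nat_lit 44) (nat_lit 5) (nat_lit 46) (nat_lit 5) (nat_lit 45) (nat_lit 5) (nat_lit 403) (nat_lit 303) (nat_lit 194)) (XT.lf (nat_lit 0) (nat_lit 2818286246) (nat_lit 152) (nat_lit 6919554575) (nat_lit 228) (nat_lit 19795902700) (nat_lit 42) (nat_lit 5) (nat_lit 44) (nat_lit 5) (nat_lit 45) (nat_lit 5) (nat_lit 404) (nat_lit 303) (nat_lit 193))) (XT.nd (nat_lit 78) (nat_lit 76) (nat_lit 0) (XT.lf (nat_lit 0) (nat_lit 16332454693) (nat_lit 228) (nat_lit 13181144190) (nat_lit 76) (nat_lit 673983290) (nat_lit 42) (nat_lit 5) (nat_lit 45) (nat_lit 5) (nat_lit 43) (nat_lit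 4) (nat_lit 405) (nat_lit 303) (nat_lit 192)) (XT.lf (nat_lit 0) (nat_lit 674415433) (nat_lit 76) (nat_lit 22509404657) (nat_lit 152) (nat_lit 7675450629) (nat_lit 41) (nat_lit 5) (nat_lit 42) (nat_lit 5) (nat_lit 43) (nat_lit 4) (nat_lit 406) (nat_lit 303) (nat_lit 191))))))))
noncomputable def xc114 : XT := (XT.nd (nat_lit 2106) (nat_lit 456) (nat_lit 0) (XT.nd (nat_lit 1014) (nat_lit 532) (nat_lit 0) (XT.nd (nat_lit 468) (nat_lit 532) (nat_lit 0) (XT.nd (nat_lit 234) (nat_lit 76) (nat_lit 0) (XT.nd (nat_lit 78) (nat_lit 228) (nat_lit 0) (XT.lf (nat_lit 0) (nat_lit 15186698248) (nat_lit 76) (nat_lit 15171239893) (nat_lit 152) (nat_lit 1189657494) (nat_lit 41) (nat_lit 5) (nat_lit 42) (nat_lit 5) (nat_lit 43) (nat_lit 4) (nat_lit 407) (nat_lit 303) (nat_lit 190)) (XT.nd (nat_lit 78) (nat_lit 152) (nat_lit 0) (XT.lf (nat_lit 0) (nat_lit 5367982041) (nat_lit 152) (nat_lit 2203608179) (nat_lit 76) (nat_lit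 24683866140) (nat_lit 40) (nat_lit 5) (nat_lit 42) (nat_lit 5) (nat_lit 41) (nat_lit 5) (nat_lit 408) (nat_lit 303) (nat_lit 189)) (XT.lf (nat_lit 0) (nat_lit 12207933026) (nat_lit 228) (nat_lit 20400266333) (nat_lit 76) (nat_lit 372717277) (nat_lit 38) (nat_lit 5) (nat_lit 41) (nat_lit 5) (nat_lit 39) (nat_lit 4) (nat_lit 409) (nat_lit 303) (nat_lit 188)))) (XT.nd (nat_lit 78) (nat_lit 76) (nat_lit 0) (XT.lf (nat_lit 0) (nat_lit 19335446938) (nat_lit 228) (nat_lit 5976883041) (nat_lit 76) (nat_lit 8413341646) (nat_lit 38) (nat_lit 5) (nat_lit 41) (nat_lit 5) (nat_lit 39) (nat_lit 4) (nat_lit 410) (nat_lit 303) (nat_lit 187)) (XT.nd (nat_lit 78) (nat_lit 0) (nat_lit 0) (XT.lf (nat_lit 0) (nat_lit 9028356461) (nat_lit 76) (nat_lit 17720580666) (nat_lit 152) (nat_lit 7741669391) (nat_lit 37) (nat_lit 5) (nat_lit 38) (nat_lit 5) (nat_lit 39) (nat_lit 4) (nat_lit 411) (nat_lit 303) (nat_lit 186)) (XT.lf (nat_lit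 0) (nat_lit 24579517261) (nat_lit 76) (nat_lit 9851203406) (nat_lit 152) (nat_lit 846393861) (nat_lit 37) (nat_lit 5) (nat_lit 38) (nat_lit 5) (nat_lit 39) (nat_lit 4) (nat_lit 412) (nat_lit 303) (nat_lit 185))))) (XT.nd (nat_lit 234) (nat_lit 304) (nat_lit 0) (XT.nd (nat_lit 78) (nat_lit 0) (nat_lit 0) (XT.lf (nat_lit 0) (nat_lit 4511638651) (nat_lit 152) (nat_lit 1651212382) (nat_lit 228) (nat_lit 29921688863) (nat_lit 34) (nat_lit 5) (nat_lit 36) (nat_lit 5) (nat_lit 37) (nat_lit 5) (nat_lit 413) (nat_lit 303) (nat_lit 184)) (XT.nd (nat_lit 78) (nat_lit 0) (nat_lit 0) (XT.lf (nat_lit 0) (nat_lit 13525634002) (nat_lit 228) (nat_lit 16617581034) (nat_lit 76) (nat_lit 6767914996) (nat_lit 34) (nat_lit 5) (nat_lit 37) (nat_lit 5) (nat_lit 35) (nat_lit 4) (nat_lit 414) (nat_lit 303) (nat_lit 183)) (XT.lf (nat_lit 0) (nat_lit 21111923396) (nat_lit 228) (nat_lit 1255493930) (nat_lit 76) (nat_lit 15395023394)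 (nat_lit 34) (nat_lit 5) (nat_lit 37) (nat_lit 5) (nat_lit 35) (nat_lit 4) (nat_lit 415) (nat_lit 303) (nat_lit 182)))) (XT.nd (nat_lit 156) (nat_lit 228) (nat_lit 0) (XT.nd (nat_lit 78) (nat_lit 0) (nat_lit 0) (XT.lf (nat_lit 0) (nat_lit 14832083075) (nat_lit 76) (nat_lit 14222967530) (nat_lit 152) (nat_lit 9580364142) (nat_lit 33) (nat_lit 5) (nat_lit 34) (nat_lit 5) (nat_lit 35) (nat_lit 4) (nat_lit 416) (nat_lit 303) (nat_lit 181)) (XT.lf (nat_lit 0) (nat_lit 31403466849) (nat_lit 76) (nat_lit 5832508964) (nat_lit 152) (nat_lit 2298618505) (nat_lit 33) (nat_lit 5) (nat_lit 34) (nat_lit 5) (nat_lit 35) (nat_lit 4) (nat_lit 417) (nat_lit 303) (nat_lit 180))) (XT.nd (nat_lit 78) (nat_lit 0) (nat_lit 0) (XT.lf (nat_lit 0) (nat_lit 5193141130) (nat_lit 228) (nat_lit 32390363293) (nat_lit 76) (nat_lit 2872954299) (nat_lit 30) (nat_lit 5) (nat_lit 33) (nat_lit 5) (nat_lit 31) (nat_lit 4) (nat_lit 418) (nat_lit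 303) (nat_lit 179)) (XT.lf (nat_lit 0) (nat_lit 12991244690) (nat_lit 228) (nat_lit 16593061524) (nat_lit 76) (nat_lit 11817157679) (nat_lit 30) (nat_lit 5) (nat_lit 33) (nat_lit 5) (nat_lit 31) (nat_lit 4) (nat_lit 419) (nat_lit 303) (nat_lit 178)))))) (XT.nd (nat_lit 546) (nat_lit 228) (nat_lit 0) (XT.nd (nat_lit 234) (nat_lit 228) (nat_lit 0) (XT.nd (nat_lit 78) (nat_lit 76) (nat_lit 0) (XT.lf (nat_lit 0) (nat_lit 21010788522) (nat_lit 228) (nat_lit 345279253) (nat_lit 76) (nat_lit 21019127817) (nat_lit 30) (nat_lit 5) (nat_lit 33) (nat_lit 5) (nat_lit 31) (nat_lit 4) (nat_lit 420) (nat_lit 303) (nat_lit 177)) (XT.nd (nat_lit 78) (nat_lit 0) (nat_lit 0) (XT.lf (nat_lit 0) (nat_lit 16692919596) (nat_lit 76) (nat_lit 12726322951) (nat_lit 152) (nat_lit 13954448228) (nat_lit 29) (nat_lit 5) (nat_lit 30) (nat_lit 5) (nat_lit 31) (nat_lit 4) (nat_lit 421) (nat_lit 303) (nat_lit 176)) (XT.lf (nat_lit 0) (nat_lit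 34226809519) (nat_lit 76) (nat_lit 3844625598) (nat_lit 152) (nat_lit 6330962362) (nat_lit 29) (nat_lit 5) (nat_lit 30) (nat_lit 5) (nat_lit 31) (nat_lit 4) (nat_lit 422) (nat_lit 303) (nat_lit 175)))) (XT.nd (nat_lit 156) (nat_lit 76) (nat_lit 0) (XT.nd (nat_lit 78) (nat_lit 0) (nat_lit 0) (XT.lf (nat_lit 0) (nat_lit 1598008900) (nat_lit 152) (nat_lit 38588458629) (nat_lit 76) (nat_lit 5271866345) (nat_lit 27) (nat_lit 5) (nat_lit 29) (nat_lit 5) (nat_lit 28) (nat_lit 4) (nat_lit 423) (nat_lit 303) (nat_lit 174)) (XT.lf (nat_lit 0) (nat_lit 9767704691) (nat_lit 152) (nat_lit 22031486240) (nat_lit 76) (nat_lit 14740975012) (nat_lit 27) (nat_lit 5) (nat_lit 29) (nat_lit 5) (nat_lit 28) (nat_lit 4) (nat_lit 424) (nat_lit 303) (nat_lit 173))) (XT.nd (nat_lit 78) (nat_lit 76) (nat_lit 0) (XT.lf (nat_lit 0) (nat_lit 18171098168) (nat_lit 152) (nat_lit 4999306285) (nat_lit 76) (nat_lit 24484391396) (nat_lit 27)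 (nat_lit 5) (nat_lit 29) (nat_lit 5) (nat_lit 28) (nat_lit 4) (nat_lit 425) (nat_lit 303) (nat_lit 172)) (XT.lf (nat_lit 0) (nat_lit 12772195257) (nat_lit 76) (nat_lit 14166110999) (nat_lit 152) (nat_lit 21861208057) (nat_lit 26) (nat_lit 5) (nat_lit 27) (nat_lit 5) (nat_lit 28) (nat_lit 4) (nat_lit 426) (nat_lit 303) (nat_lit 171))))) (XT.nd (nat_lit 234) (nat_lit 76) (nat_lit 0) (XT.nd (nat_lit 78) (nat_lit 152) (nat_lit 0) (XT.lf (nat_lit 0) (nat_lit 31158652040) (nat_lit 76) (nat_lit 4849423867) (nat_lit 152) (nat_lit 13969313082) (nat_lit 26) (nat_lit 5) (nat_lit 27) (nat_lit 5) (nat_lit 28) (nat_lit 4) (nat_lit 427) (nat_lit 303) (nat_lit 170)) (XT.nd (nat_lit 78) (nat_lit 152) (nat_lit 0) (XT.lf (nat_lit 0) (nat_lit 45384857321) (nat_lit 152) (nat_lit 1159823534) (nat_lit 0) (nat_lit 4644872475) (nat_lit 26) (nat_lit 5) (nat_lit 28) (nat_lit 4) (nat_lit 26) (nat_lit 4) (nat_lit 428) (nat_lit 303)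 (nat_lit 169)) (XT.lf (nat_lit 0) (nat_lit 2759948844) (nat_lit 152) (nat_lit 35160327938) (nat_lit 76) (nat_lit 14510877980) (nat_lit 24) (nat_lit 5) (nat_lit 26) (nat_lit 5) (nat_lit 25) (nat_lit 4) (nat_lit 429) (nat_lit 303) (nat_lit 168)))) (XT.nd (nat_lit 156) (nat_lit 0) (nat_lit 0) (XT.nd (nat_lit 78) (nat_lit 76) (nat_lit 0) (XT.lf (nat_lit 0) (nat_lit 11466306692) (nat_lit 152) (nat_lit 17508789708) (nat_lit 76) (nat_lit 24733141303) (nat_lit 24) (nat_lit 5) (nat_lit 26) (nat_lit 5) (nat_lit 25) (nat_lit 4) (nat_lit 430) (nat_lit 303) (nat_lit 167)) (XT.lf (nat_lit 0) (nat_lit 666147417) (nat_lit 76) (nat_lit 19764028155) (nat_lit 152) (nat_lit 34593568830) (nat_lit 23) (nat_lit 5) (nat_lit 24) (nat_lit 5) (nat_lit 25) (nat_lit 4) (nat_lit 431) (nat_lit 303) (nat_lit 166))) (XT.nd (nat_lit 78) (nat_lit 0) (nat_lit 0) (XT.lf (nat_lit 0) (nat_lit 19726287202) (nat_lit 76) (nat_lit 10103506085) (nat_lit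 152) (nat_lit 26543918882) (nat_lit 23) (nat_lit 5) (nat_lit 24) (nat_lit 5) (nat_lit 25) (nat_lit 4) (nat_lit 432) (nat_lit 303) (nat_lit 165)) (XT.lf (nat_lit 0) (nat_lit 39339824891) (nat_lit 76) (nat_lit 161893402) (nat_lit 152) (nat_lit 18262751938) (nat_lit 23) (nat_lit 5) (nat_lit 24) (nat_lit 5) (nat_lit 25) (nat_lit 4) (nat_lit 433) (nat_lit 303) (nat_lit 164))))))) (XT.nd (nat_lit 36738) (nat_lit 0) (nat_lit 24092) (XT.nd (nat_lit 468) (nat_lit 228) (nat_lit 0) (XT.nd (nat_lit 234) (nat_lit 76) (nat_lit 0) (XT.nd (nat_lit 78) (nat_lit 76) (nat_lit 0) (XT.lf (nat_lit 0) (nat_lit 234445421) (nat_lit 76) (nat_lit 49319004161) (nat_lit 76) (nat_lit 9640812799) (nat_lit 22) (nat_lit 4) (nat_lit 23) (nat_lit 5) (nat_lit 23) (nat_lit 4) (nat_lit 434) (nat_lit 303) (nat_lit 163)) (XT.nd (nat_lit 78) (nat_lit 76) (nat_lit 0) (XT.lf (nat_lit 0) (nat_lit 19811466903) (nat_lit 76) (nat_lit 40273529324) (nat_lit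 76) (nat_lit 576604946) (nat_lit 22) (nat_lit 4) (nat_lit 23) (nat_lit 5) (nat_lit 23) (nat_lit 4) (nat_lit 435) (nat_lit 303) (nat_lit 162)) (XT.lf (nat_lit 0) (nat_lit 8579404843) (nat_lit 152) (nat_lit 22298919940) (nat_lit 76) (nat_lit 31292385850) (nat_lit 21) (nat_lit 5) (nat_lit 23) (nat_lit 5) (nat_lit 22) (nat_lit 4) (nat_lit 436) (nat_lit 303) (nat_lit 161)))) (XT.nd (nat_lit 78) (nat_lit 76) (nat_lit 0) (XT.lf (nat_lit 0) (nat_lit 17989579199) (nat_lit 152) (nat_lit 3213923662) (nat_lit 76) (nat_lit 42521687756) (nat_lit 21) (nat_lit 5) (nat_lit 23) (nat_lit 5) (nat_lit 22) (nat_lit 4) (nat_lit 437) (nat_lit 303) (nat_lit 160)) (XT.nd (nat_lit 78) (nat_lit 0) (nat_lit 0) (XT.lf (nat_lit 0) (nat_lit 16754004423) (nat_lit 76) (nat_lit 11080437560) (nat_lit 152) (nat_lit 37487292215) (nat_lit 20) (nat_lit 5) (nat_lit 21) (nat_lit 5) (nat_lit 22) (nat_lit 4) (nat_lit 438) (nat_lit 303) (nat_lit 159))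 (XT.lf (nat_lit 0) (nat_lit 37370465830) (nat_lit 76) (nat_lit 628067507) (nat_lit 152) (nat_lit 28966924939) (nat_lit 20) (nat_lit 5) (nat_lit 21) (nat_lit 5) (nat_lit 22) (nat_lit 4) (nat_lit 439) (nat_lit 303) (nat_lit 158))))) (XT.nd (nat_lit 234) (nat_lit 152) (nat_lit 0) (XT.nd (nat_lit 78) (nat_lit 76) (nat_lit 0) (XT.lf (nat_lit 0) (nat_lit 48556603960) (nat_lit 152) (nat_lit 10166611336) (nat_lit 0) (nat_lit 9932607736) (nat_lit 20) (nat_lit 5) (nat_lit 22) (nat_lit 4) (nat_lit 20) (nat_lit 4) (nat_lit 440) (nat_lit 303) (nat_lit 157)) (XT.nd (nat_lit 78) (nat_lit 0) (nat_lit 0) (XT.lf (nat_lit 0) (nat_lit 10018277041) (nat_lit 76) (nat_lit 49507509554) (nat_lit 76) (nat_lit 10868281673) (nat_lit 19) (nat_lit 4) (nat_lit 20) (nat_lit 5) (nat_lit 20) (nat_lit 4) (nat_lit 441) (nat_lit 303) (nat_lit 156)) (XT.lf (nat_lit 0) (nat_lit 31001652411) (nat_lit 76) (nat_lit 39916993464) (nat_lit 76) (nat_lit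 1262977566) (nat_lit 19) (nat_lit 4) (nat_lit 20) (nat_lit 5) (nat_lit 20) (nat_lit 4) (nat_lit 442) (nat_lit 303) (nat_lit 155)))) (XT.nd (nat_lit 156) (nat_lit 76) (nat_lit 0) (XT.nd (nat_lit 78) (nat_lit 0) (nat_lit 0) (XT.lf (nat_lit 0) (nat_lit 8454168854) (nat_lit 152) (nat_lit 21506410419) (nat_lit 76) (nat_lit 44059974878) (nat_lit 18) (nat_lit 5) (nat_lit 20) (nat_lit 5) (nat_lit 19) (nat_lit 4) (nat_lit 443) (nat_lit 303) (nat_lit 154)) (XT.lf (nat_lit 0) (nat_lit 18429770364) (nat_lit 152) (nat_lit 1269878479) (nat_lit 76) (nat_lit 56214859602) (nat_lit 18) (nat_lit 5) (nat_lit 20) (nat_lit 5) (nat_lit 19) (nat_lit 4) (nat_lit 444) (nat_lit 303) (nat_lit 153))) (XT.nd (nat_lit 78) (nat_lit 0) (nat_lit 0) (XT.lf (nat_lit 0) (nat_lit 19948719070) (nat_lit 76) (nat_lit 8940228968) (nat_lit 152) (nat_lit 48970804632) (nat_lit 17) (nat_lit 5) (nat_lit 18) (nat_lit 5) (nat_lit 19) (nat_lit 4) (nat_lit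 445) (nat_lit 303) (nat_lit 152)) (XT.lf (nat_lit 0) (nat_lit 39688005692) (nat_lit 152) (nat_lit 38068098490) (nat_lit 0) (nat_lit 2106467430) (nat_lit 17) (nat_lit 5) (nat_lit 19) (nat_lit 4) (nat_lit 17) (nat_lit 4) (nat_lit 446) (nat_lit 303) (nat_lit 151)))))) (XT.nd (nat_lit 546) (nat_lit 1672) (nat_lit 0) (XT.nd (nat_lit 234) (nat_lit 456) (nat_lit 0) (XT.nd (nat_lit 78) (nat_lit 380) (nat_lit 0) (XT.lf (nat_lit 0) (nat_lit 1721281337) (nat_lit 380) (nat_lit 767021936) (nat_lit 380) (nat_lit 767021936) (nat_lit 367) (nat_lit 3) (nat_lit 372) (nat_lit 3) (nat_lit 372) (nat_lit 5) (nat_lit 304) (nat_lit 304) (nat_lit 292)) (XT.nd (nat_lit 78) (nat_lit 380) (nat_lit 0) (XT.lf (nat_lit 76) (nat_lit 1643888332) (nat_lit 0) (nat_lit 4406005037) (nat_lit 380) (nat_lit 479486964) (nat_lit 368) (nat_lit 5) (nat_lit 367) (nat_lit 3) (nat_lit 372) (nat_lit 5) (nat_lit 305) (nat_lit 304) (nat_lit 291)) (XT.lf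 (nat_lit 0) (nat_lit 2059045692) (nat_lit 380) (nat_lit 1674976395) (nat_lit 456) (nat_lit 2816656665) (nat_lit 362) (nat_lit 5) (nat_lit 367) (nat_lit 3) (nat_lit 368) (nat_lit 5) (nat_lit 306) (nat_lit 304) (nat_lit 290)))) (XT.nd (nat_lit 156) (nat_lit 0) (nat_lit 0) (XT.nd (nat_lit 78) (nat_lit 456) (nat_lit 0) (XT.lf (nat_lit 76) (nat_lit 1605821363) (nat_lit 0) (nat_lit 2975946291) (nat_lit 456) (nat_lit 1993259038) (nat_lit 363) (nat_lit 5) (nat_lit 362) (nat_lit 5) (nat_lit 368) (nat_lit 5) (nat_lit 307) (nat_lit 304) (nat_lit 289)) (XT.lf (nat_lit 0) (nat_lit 489385691) (nat_lit 456) (nat_lit 1640065753) (nat_lit 532) (nat_lit 4472945520) (nat_lit 356) (nat_lit 5) (nat_lit 362) (nat_lit 5) (nat_lit 363) (nat_lit 5) (nat_lit 308) (nat_lit 304) (nat_lit 288))) (XT.nd (nat_lit 78) (nat_lit 0) (nat_lit 0) (XT.lf (nat_lit 76) (nat_lit 1750850882) (nat_lit 0) (nat_lit 1178792834) (nat_lit 532) (nat_lit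 3702732729) (nat_lit 357) (nat_lit 5) (nat_lit 356) (nat_lit 5) (nat_lit 363) (nat_lit 5) (nat_lit 309) (nat_lit 304) (nat_lit 287)) (XT.lf (nat_lit 76) (nat_lit 5225102432) (nat_lit 0) (nat_lit 143161958) (nat_lit 532) (nat_lit 1297310111) (nat_lit 357) (nat_lit 5) (nat_lit 356) (nat_lit 5) (nat_lit 363) (nat_lit 5) (nat_lit 310) (nat_lit 304) (nat_lit 286))))) (XT.nd (nat_lit 234) (nat_lit 1216) (nat_lit 0) (XT.nd (nat_lit 78) (nat_lit 0) (nat_lit 0) (XT.lf (nat_lit 0) (nat_lit 1097098658) (nat_lit 532) (nat_lit 4630417680) (nat_lit 608) (nat_lit 973785744) (nat_lit 350) (nat_lit 5) (nat_lit 357) (nat_lit 5) (nat_lit 358) (nat_lit 5) (nat_lit 311) (nat_lit 304) (nat_lit 285)) (XT.nd (nat_lit 78) (nat_lit 0) (nat_lit 0) (XT.lf (nat_lit 0) (nat_lit 3466136966) (nat_lit 532) (nat_lit 1089838713) (nat_lit 608) (nat_lit 2183941889) (nat_lit 350) (nat_lit 5) (nat_lit 357) (nat_lit 5) (nat_lit 358) (nat_lit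 5) (nat_lit 312) (nat_lit 304) (nat_lit 284)) (XT.lf (nat_lit 76) (nat_lit 2553506791) (nat_lit 0) (nat_lit 3292590855) (nat_lit 608) (nat_lit 935463937) (nat_lit 351) (nat_lit 5) (nat_lit 350) (nat_lit 5) (nat_lit 358) (nat_lit 5) (nat_lit 313) (nat_lit 304) (nat_lit 283)))) (XT.nd (nat_lit 156) (nat_lit 608) (nat_lit 0) (XT.nd (nat_lit 78) (nat_lit 0) (nat_lit 0) (XT.lf (nat_lit 0) (nat_lit 1371756297) (nat_lit 608) (nat_lit 564382412) (nat_lit 684) (nat_lit 4890128336) (nat_lit 342) (nat_lit 5) (nat_lit 350) (nat_lit 5) (nat_lit 351) (nat_lit 5) (nat_lit 314) (nat_lit 304) (nat_lit 282)) (XT.lf (nat_lit 76) (nat_lit 3209674732) (nat_lit 0) (nat_lit 469388751) (nat_lit 684) (nat_lit 3194542198) (nat_lit 343) (nat_lit 5) (nat_lit 342) (nat_lit 5) (nat_lit 351) (nat_lit 5) (nat_lit 315) (nat_lit 304) (nat_lit 281))) (XT.nd (nat_lit 78) (nat_lit 76) (nat_lit 0) (XT.lf (nat_lit 0) (nat_lit 123600616) (nat_lit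 608) (nat_lit 5869882097) (nat_lit 684) (nat_lit 930803264) (nat_lit 335) (nat_lit 5) (nat_lit 343) (nat_lit 5) (nat_lit 344) (nat_lit 5) (nat_lit 316) (nat_lit 304) (nat_lit 280)) (XT.lf (nat_lit 0) (nat_lit 1337421276) (nat_lit 684) (nat_lit 2950134556) (nat_lit 76) (nat_lit 2689664547) (nat_lit 334) (nat_lit 5) (nat_lit 343) (nat_lit 5) (nat_lit 335) (nat_lit 5) (nat_lit 317) (nat_lit 304) (nat_lit 279))))))))
noncomputable def xc115 : XT := (XT.nd (nat_lit 2106) (nat_lit 6080) (nat_lit 0) (XT.nd (nat_lit 1014) (nat_lit 4560) (nat_lit 0) (XT.nd (nat_lit 468) (nat_lit 4560) (nat_lit 0) (XT.nd (nat_lit 234) (nat_lit 1824) (nat_lit 0) (XT.nd (nat_lit 78) (nat_lit 836) (nat_lit 0) (XT.lf (nat_lit 0) (nat_lit 971159556) (nat_lit 684) (nat_lit 2617331776) (nat_lit 760) (nat_lit 3445023137) (nat_lit 325) (nat_lit 5) (nat_lit 334) (nat_lit 5) (nat_lit 335) (nat_lit 5) (nat_lit 318) (nat_lit 304) (nat_lit 278))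 (XT.nd (nat_lit 78) (nat_lit 836) (nat_lit 0) (XT.lf (nat_lit 0) (nat_lit 5016593589) (nat_lit 684) (nat_lit 846151864) (nat_lit 760) (nat_lit 1230134158) (nat_lit 325) (nat_lit 5) (nat_lit 334) (nat_lit 5) (nat_lit 335) (nat_lit 5) (nat_lit 319) (nat_lit 304) (nat_lit 277)) (XT.lf (nat_lit 0) (nat_lit 987090476) (nat_lit 836) (nat_lit 5160773751) (nat_lit 76) (nat_lit 1007215099) (nat_lit 314) (nat_lit 5) (nat_lit 325) (nat_lit 5) (nat_lit 315) (nat_lit 5) (nat_lit 320) (nat_lit 304) (nat_lit 276)))) (XT.nd (nat_lit 78) (nat_lit 1824) (nat_lit 0) (XT.lf (nat_lit 0) (nat_lit 3204694346) (nat_lit 836) (nat_lit 1065426214) (nat_lit 76) (nat_lit 2949948871) (nat_lit 314) (nat_lit 5) (nat_lit 325) (nat_lit 5) (nat_lit 315) (nat_lit 5) (nat_lit 321) (nat_lit 304) (nat_lit 275)) (XT.nd (nat_lit 78) (nat_lit 988) (nat_lit 0) (XT.lf (nat_lit 0) (nat_lit 3160352535) (nat_lit 836) (nat_lit 2289955202) (nat_lit 912)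 (nat_lit 1837903072) (nat_lit 303) (nat_lit 5) (nat_lit 314) (nat_lit 5) (nat_lit 315) (nat_lit 5) (nat_lit 322) (nat_lit 304) (nat_lit 274)) (XT.lf (nat_lit 0) (nat_lit 120047397) (nat_lit 912) (nat_lit 220846762) (nat_lit 988) (nat_lit 7019111820) (nat_lit 290) (nat_lit 5) (nat_lit 302) (nat_lit 5) (nat_lit 303) (nat_lit 5) (nat_lit 323) (nat_lit 304) (nat_lit 273))))) (XT.nd (nat_lit 234) (nat_lit 3572) (nat_lit 0) (XT.nd (nat_lit 78) (nat_lit 988) (nat_lit 0) (XT.lf (nat_lit 0) (nat_lit 2542035671) (nat_lit 988) (nat_lit 2946258463) (nat_lit 76) (nat_lit 1945339454) (nat_lit 290) (nat_lit 5) (nat_lit 303) (nat_lit 5) (nat_lit 291) (nat_lit 5) (nat_lit 324) (nat_lit 304) (nat_lit 272)) (XT.nd (nat_lit 78) (nat_lit 0) (nat_lit 0) (XT.lf (nat_lit 0) (nat_lit 1447369478) (nat_lit 988) (nat_lit 3313340685) (nat_lit 1064) (nat_lit 2750255782) (nat_lit 277) (nat_lit 5) (nat_lit 290) (nat_lit 5) (nat_lit 291)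 (nat_lit 5) (nat_lit 325) (nat_lit 304) (nat_lit 271)) (XT.lf (nat_lit 0) (nat_lit 5978800324) (nat_lit 988) (nat_lit 1033653773) (nat_lit 1064) (nat_lit 579208591) (nat_lit 277) (nat_lit 5) (nat_lit 290) (nat_lit 5) (nat_lit 291) (nat_lit 5) (nat_lit 326) (nat_lit 304) (nat_lit 270)))) (XT.nd (nat_lit 156) (nat_lit 2432) (nat_lit 0) (XT.nd (nat_lit 78) (nat_lit 0) (nat_lit 0) (XT.lf (nat_lit 0) (nat_lit 1604186371) (nat_lit 1140) (nat_lit 4729378857) (nat_lit 76) (nat_lit 1341388190) (nat_lit 262) (nat_lit 5) (nat_lit 277) (nat_lit 5) (nat_lit 263) (nat_lit 5) (nat_lit 327) (nat_lit 304) (nat_lit 269)) (XT.lf (nat_lit 0) (nat_lit 3807439418) (nat_lit 1140) (nat_lit 158044657) (nat_lit 76) (nat_lit 3796143142) (nat_lit 262) (nat_lit 5) (nat_lit 277) (nat_lit 5) (nat_lit 263) (nat_lit 5) (nat_lit 328) (nat_lit 304) (nat_lit 268))) (XT.nd (nat_lit 78) (nat_lit 1292) (nat_lit 0) (XT.lf (nat_lit 0) (nat_lit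 4586049134) (nat_lit 1140) (nat_lit 1475907897) (nat_lit 1216) (nat_lit 1789424456) (nat_lit 247) (nat_lit 5) (nat_lit 262) (nat_lit 5) (nat_lit 263) (nat_lit 5) (nat_lit 329) (nat_lit 304) (nat_lit 267)) (XT.lf (nat_lit 0) (nat_lit 400125091) (nat_lit 1292) (nat_lit 6453242948) (nat_lit 76) (nat_lit 1091313575) (nat_lit 230) (nat_lit 5) (nat_lit 247) (nat_lit 5) (nat_lit 231) (nat_lit 5) (nat_lit 330) (nat_lit 304) (nat_lit 266)))))) (XT.nd (nat_lit 546) (nat_lit 2128) (nat_lit 0) (XT.nd (nat_lit 234) (nat_lit 1216) (nat_lit 0) (XT.nd (nat_lit 78) (nat_lit 1216) (nat_lit 0) (XT.lf (nat_lit 0) (nat_lit 2610199337) (nat_lit 1292) (nat_lit 1670377561) (nat_lit 76) (nat_lit 3759980490) (nat_lit 230) (nat_lit 5) (nat_lit 247) (nat_lit 5) (nat_lit 231) (nat_lit 5) (nat_lit 331) (nat_lit 304) (nat_lit 265)) (XT.nd (nat_lit 78) (nat_lit 608) (nat_lit 0) (XT.lf (nat_lit 0) (nat_lit 3265542441) (nat_lit 608) (nat_lit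 1596978128) (nat_lit 684) (nat_lit 3277541856) (nat_lit 222) (nat_lit 5) (nat_lit 230) (nat_lit 5) (nat_lit 231) (nat_lit 5) (nat_lit 332) (nat_lit 304) (nat_lit 264)) (XT.lf (nat_lit 0) (nat_lit 76551515) (nat_lit 608) (nat_lit 7080510266) (nat_lit 684) (nat_lit 1086281742) (nat_lit 214) (nat_lit 5) (nat_lit 222) (nat_lit 5) (nat_lit 223) (nat_lit 5) (nat_lit 333) (nat_lit 304) (nat_lit 263)))) (XT.nd (nat_lit 156) (nat_lit 532) (nat_lit 0) (XT.nd (nat_lit 78) (nat_lit 608) (nat_lit 0) (XT.lf (nat_lit 0) (nat_lit 1159554094) (nat_lit 684) (nat_lit 3155569776) (nat_lit 76) (nat_lit 4033939765) (nat_lit 213) (nat_lit 5) (nat_lit 222) (nat_lit 5) (nat_lit 214) (nat_lit 5) (nat_lit 334) (nat_lit 304) (nat_lit 262)) (XT.lf (nat_lit 0) (nat_lit 1979641666) (nat_lit 608) (nat_lit 1438048507) (nat_lit 684) (nat_lit 5040967607) (nat_lit 205) (nat_lit 5) (nat_lit 213) (nat_lit 5) (nat_lit 214) (nat_lit 5) (nat_lit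 335) (nat_lit 304) (nat_lit 261))) (XT.nd (nat_lit 78) (nat_lit 532) (nat_lit 0) (XT.lf (nat_lit 0) (nat_lit 5739125259) (nat_lit 684) (nat_lit 1307198441) (nat_lit 76) (nat_lit 1525376430) (nat_lit 205) (nat_lit 5) (nat_lit 214) (nat_lit 5) (nat_lit 206) (nat_lit 5) (nat_lit 336) (nat_lit 304) (nat_lit 260)) (XT.lf (nat_lit 0) (nat_lit 4030562967) (nat_lit 532) (nat_lit 4102828464) (nat_lit 608) (nat_lit 554672918) (nat_lit 198) (nat_lit 5) (nat_lit 205) (nat_lit 5) (nat_lit 206) (nat_lit 5) (nat_lit 337) (nat_lit 304) (nat_lit 259))))) (XT.nd (nat_lit 234) (nat_lit 1064) (nat_lit 0) (XT.nd (nat_lit 78) (nat_lit 456) (nat_lit 0) (XT.lf (nat_lit 0) (nat_lit 689731918) (nat_lit 532) (nat_lit 1037472149) (nat_lit 608) (nat_lit 7081105577) (nat_lit 190) (nat_lit 5) (nat_lit 197) (nat_lit 5) (nat_lit 198) (nat_lit 5) (nat_lit 338) (nat_lit 304) (nat_lit 258)) (XT.nd (nat_lit 78) (nat_lit 456) (nat_lit 0) (XT.lf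 (nat_lit 0) (nat_lit 4085773860) (nat_lit 608) (nat_lit 2719231991) (nat_lit 76) (nat_lit 2126434160) (nat_lit 190) (nat_lit 5) (nat_lit 198) (nat_lit 5) (nat_lit 191) (nat_lit 5) (nat_lit 339) (nat_lit 304) (nat_lit 257)) (XT.lf (nat_lit 0) (nat_lit 2833717809) (nat_lit 456) (nat_lit 3671817024) (nat_lit 532) (nat_lit 2553039747) (nat_lit 184) (nat_lit 5) (nat_lit 190) (nat_lit 5) (nat_lit 191) (nat_lit 5) (nat_lit 340) (nat_lit 304) (nat_lit 256)))) (XT.nd (nat_lit 156) (nat_lit 456) (nat_lit 0) (XT.nd (nat_lit 78) (nat_lit 608) (nat_lit 0) (XT.lf (nat_lit 0) (nat_lit 8556120882) (nat_lit 456) (nat_lit 423012223) (nat_lit 532) (nat_lit 210975384) (nat_lit 184) (nat_lit 5) (nat_lit 190) (nat_lit 5) (nat_lit 191) (nat_lit 5) (nat_lit 341) (nat_lit 304) (nat_lit 255)) (XT.lf (nat_lit 0) (nat_lit 2191315260) (nat_lit 608) (nat_lit 4201867556) (nat_lit 76) (nat_lit 2930804492) (nat_lit 176) (nat_lit 5) (nat_lit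 184) (nat_lit 5) (nat_lit 177) (nat_lit 5) (nat_lit 342) (nat_lit 304) (nat_lit 254))) (XT.nd (nat_lit 78) (nat_lit 0) (nat_lit 0) (XT.lf (nat_lit 0) (nat_lit 1573546680) (nat_lit 456) (nat_lit 3069086335) (nat_lit 532) (nat_lit 4819771563) (nat_lit 170) (nat_lit 5) (nat_lit 176) (nat_lit 5) (nat_lit 177) (nat_lit 5) (nat_lit 343) (nat_lit 304) (nat_lit 253)) (XT.lf (nat_lit 0) (nat_lit 7169879955) (nat_lit 532) (nat_lit 2052938257) (nat_lit 76) (nat_lit 382104575) (nat_lit 170) (nat_lit 5) (nat_lit 177) (nat_lit 5) (nat_lit 171) (nat_lit 5) (nat_lit 344) (nat_lit 304) (nat_lit 252))))))) (XT.nd (nat_lit 1014) (nat_lit 2736) (nat_lit 0) (XT.nd (nat_lit 468) (nat_lit 1520) (nat_lit 0) (XT.nd (nat_lit 234) (nat_lit 912) (nat_lit 0) (XT.nd (nat_lit 78) (nat_lit 380) (nat_lit 0) (XT.lf (nat_lit 0) (nat_lit 46838357) (nat_lit 532) (nat_lit 5798818459) (nat_lit 76) (nat_lit 3905291817) (nat_lit 163) (nat_lit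 5) (nat_lit 170) (nat_lit 5) (nat_lit 164) (nat_lit 5) (nat_lit 345) (nat_lit 304) (nat_lit 251)) (XT.nd (nat_lit 78) (nat_lit 0) (nat_lit 0) (XT.lf (nat_lit 0) (nat_lit 205856446) (nat_lit 380) (nat_lit 2329009914) (nat_lit 456) (nat_lit 7366365049) (nat_lit 158) (nat_lit 5) (nat_lit 163) (nat_lit 5) (nat_lit 164) (nat_lit 5) (nat_lit 346) (nat_lit 304) (nat_lit 250)) (XT.lf (nat_lit 0) (nat_lit 5127450318) (nat_lit 456) (nat_lit 3610929467) (nat_lit 76) (nat_lit 1316763298) (nat_lit 158) (nat_lit 5) (nat_lit 164) (nat_lit 5) (nat_lit 159) (nat_lit 5) (nat_lit 347) (nat_lit 304) (nat_lit 249)))) (XT.nd (nat_lit 78) (nat_lit 456) (nat_lit 0) (XT.lf (nat_lit 0) (nat_lit 2632718064) (nat_lit 456) (nat_lit 5173021919) (nat_lit 532) (nat_lit 2407711626) (nat_lit 152) (nat_lit 5) (nat_lit 158) (nat_lit 5) (nat_lit 159) (nat_lit 5) (nat_lit 348) (nat_lit 304) (nat_lit 248)) (XT.nd (nat_lit 78) (nat_lit 380) (nat_lit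 0) (XT.lf (nat_lit 0) (nat_lit 180864804) (nat_lit 532) (nat_lit 1291841862) (nat_lit 76) (nat_lit 8903865046) (nat_lit 151) (nat_lit 5) (nat_lit 158) (nat_lit 5) (nat_lit 152) (nat_lit 5) (nat_lit 349) (nat_lit 304) (nat_lit 247)) (XT.lf (nat_lit 0) (nat_lit 2832927695) (nat_lit 456) (nat_lit 5353491181) (nat_lit 76) (nat_lit 2356440600) (nat_lit 146) (nat_lit 5) (nat_lit 152) (nat_lit 5) (nat_lit 147) (nat_lit 5) (nat_lit 350) (nat_lit 304) (nat_lit 246))))) (XT.nd (nat_lit 234) (nat_lit 760) (nat_lit 0) (XT.nd (nat_lit 78) (nat_lit 380) (nat_lit 0) (XT.lf (nat_lit 0) (nat_lit 1134171977) (nat_lit 380) (nat_lit 4430589624) (nat_lit 456) (nat_lit 5149383413) (nat_lit 141) (nat_lit 5) (nat_lit 146) (nat_lit 5) (nat_lit 147) (nat_lit 5) (nat_lit 351) (nat_lit 304) (nat_lit 245)) (XT.nd (nat_lit 78) (nat_lit 380) (nat_lit 0) (XT.lf (nat_lit 0) (nat_lit 7875705248) (nat_lit 380) (nat_lit 519090752) (nat_lit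 456) (nat_lit 2495300719) (nat_lit 141) (nat_lit 5) (nat_lit 146) (nat_lit 5) (nat_lit 147) (nat_lit 5) (nat_lit 352) (nat_lit 304) (nat_lit 244)) (XT.lf (nat_lit 0) (nat_lit 266895149) (nat_lit 380) (nat_lit 7335652645) (nat_lit 76) (nat_lit 3467730251) (nat_lit 136) (nat_lit 5) (nat_lit 141) (nat_lit 5) (nat_lit 137) (nat_lit 5) (nat_lit 353) (nat_lit 304) (nat_lit 243)))) (XT.nd (nat_lit 156) (nat_lit 380) (nat_lit 0) (XT.nd (nat_lit 78) (nat_lit 380) (nat_lit 0) (XT.lf (nat_lit 0) (nat_lit 3061076836) (nat_lit 380) (nat_lit 587473117) (nat_lit 76) (nat_lit 7606609183) (nat_lit 136) (nat_lit 5) (nat_lit 141) (nat_lit 5) (nat_lit 137) (nat_lit 5) (nat_lit 354) (nat_lit 304) (nat_lit 242)) (XT.lf (nat_lit 0) (nat_lit 5970009873) (nat_lit 456) (nat_lit 5009366324) (nat_lit 76) (nat_lit 465295981) (nat_lit 131) (nat_lit 5) (nat_lit 137) (nat_lit 5) (nat_lit 132) (nat_lit 5) (nat_lit 355) (nat_lit 304) (nat_lit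 241))) (XT.nd (nat_lit 78) (nat_lit 76) (nat_lit 0) (XT.lf (nat_lit 0) (nat_lit 1994586742) (nat_lit 304) (nat_lit 6997813634) (nat_lit 380) (nat_lit 2646697460) (nat_lit 127) (nat_lit 5) (nat_lit 131) (nat_lit 5) (nat_lit 132) (nat_lit 5) (nat_lit 356) (nat_lit 304) (nat_lit 240)) (XT.lf (nat_lit 0) (nat_lit 277099229) (nat_lit 380) (nat_lit 2579045756) (nat_lit 76) (nat_lit 8982661141) (nat_lit 126) (nat_lit 5) (nat_lit 131) (nat_lit 5) (nat_lit 127) (nat_lit 5) (nat_lit 357) (nat_lit 304) (nat_lit 239)))))) (XT.nd (nat_lit 546) (nat_lit 1140) (nat_lit 0) (XT.nd (nat_lit 234) (nat_lit 988) (nat_lit 0) (XT.nd (nat_lit 78) (nat_lit 304) (nat_lit 0) (XT.lf (nat_lit 0) (nat_lit 3260988598) (nat_lit 380) (nat_lit 7341355873) (nat_lit 76) (nat_lit 1440619615) (nat_lit 122) (nat_lit 5) (nat_lit 127) (nat_lit 5) (nat_lit 123) (nat_lit 5) (nat_lit 358) (nat_lit 304) (nat_lit 238)) (XT.nd (nat_lit 78) (nat_lit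 304) (nat_lit 0) (XT.lf (nat_lit 0) (nat_lit 6355483712) (nat_lit 380) (nat_lit 75908676) (nat_lit 76) (nat_lit 5821233193) (nat_lit 122) (nat_lit 5) (nat_lit 127) (nat_lit 5) (nat_lit 123) (nat_lit 5) (nat_lit 359) (nat_lit 304) (nat_lit 237)) (XT.lf (nat_lit 0) (nat_lit 7506944428) (nat_lit 304) (nat_lit 2075515295) (nat_lit 380) (nat_lit 2884938952) (nat_lit 118) (nat_lit 5) (nat_lit 122) (nat_lit 5) (nat_lit 123) (nat_lit 5) (nat_lit 360) (nat_lit 304) (nat_lit 236)))) (XT.nd (nat_lit 156) (nat_lit 608) (nat_lit 0) (XT.nd (nat_lit 78) (nat_lit 0) (nat_lit 0) (XT.lf (nat_lit 0) (nat_lit 230428928) (nat_lit 380) (nat_lit 10079788008) (nat_lit 76) (nat_lit 2377834394) (nat_lit 113) (nat_lit 5) (nat_lit 118) (nat_lit 5) (nat_lit 114) (nat_lit 5) (nat_lit 361) (nat_lit 304) (nat_lit 235)) (XT.lf (nat_lit 0) (nat_lit 3420415225) (nat_lit 380) (nat_lit 2505300486) (nat_lit 76) (nat_lit 6987586877) (nat_lit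 113) (nat_lit 5) (nat_lit 118) (nat_lit 5) (nat_lit 114) (nat_lit 5) (nat_lit 362) (nat_lit 304) (nat_lit 234))) (XT.nd (nat_lit 78) (nat_lit 304) (nat_lit 0) (XT.lf (nat_lit 0) (nat_lit 5354700317) (nat_lit 304) (nat_lit 1371810661) (nat_lit 380) (nat_lit 6418198002) (nat_lit 109) (nat_lit 5) (nat_lit 113) (nat_lit 5) (nat_lit 114) (nat_lit 5) (nat_lit 363) (nat_lit 304) (nat_lit 233)) (XT.lf (nat_lit 0) (nat_lit 41680510) (nat_lit 304) (nat_lit 10117216720) (nat_lit 380) (nat_lit 3223356711) (nat_lit 105) (nat_lit 5) (nat_lit 109) (nat_lit 5) (nat_lit 110) (nat_lit 5) (nat_lit 364) (nat_lit 304) (nat_lit 232))))) (XT.nd (nat_lit 234) (nat_lit 836) (nat_lit 0) (XT.nd (nat_lit 78) (nat_lit 228) (nat_lit 0) (XT.lf (nat_lit 0) (nat_lit 128440701) (nat_lit 380) (nat_lit 5418267175) (nat_lit 76) (nat_lit 8078334270) (nat_lit 104) (nat_lit 5) (nat_lit 109) (nat_lit 5) (nat_lit 105) (nat_lit 5) (nat_lit 365)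 (nat_lit 304) (nat_lit 231)) (XT.nd (nat_lit 78) (nat_lit 0) (nat_lit 0) (XT.lf (nat_lit 0) (nat_lit 2717480523) (nat_lit 228) (nat_lit 794938373) (nat_lit 304) (nat_lit 10361854064) (nat_lit 101) (nat_lit 5) (nat_lit 104) (nat_lit 5) (nat_lit 105) (nat_lit 5) (nat_lit 366) (nat_lit 304) (nat_lit 230)) (XT.lf (nat_lit 0) (nat_lit 7063152449) (nat_lit 304) (nat_lit 3006550238) (nat_lit 76) (nat_lit 4059329467) (nat_lit 101) (nat_lit 5) (nat_lit 105) (nat_lit 5) (nat_lit 102) (nat_lit 5) (nat_lit 367) (nat_lit 304) (nat_lit 229)))) (XT.nd (nat_lit 156) (nat_lit 532) (nat_lit 0) (XT.nd (nat_lit 78) (nat_lit 0) (nat_lit 0) (XT.lf (nat_lit 0) (nat_lit 5442221761) (nat_lit 304) (nat_lit 5309802563) (nat_lit 380) (nat_lit 3638469594) (nat_lit 97) (nat_lit 5) (nat_lit 101) (nat_lit 5) (nat_lit 102) (nat_lit 5) (nat_lit 368) (nat_lit 304) (nat_lit 228)) (XT.lf (nat_lit 0) (nat_lit 14162218471) (nat_lit 304) (nat_lit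 391546207) (nat_lit 380) (nat_lit 105976832) (nat_lit 97) (nat_lit 5) (nat_lit 101) (nat_lit 5) (nat_lit 102) (nat_lit 5) (nat_lit 369) (nat_lit 304) (nat_lit 227))) (XT.nd (nat_lit 78) (nat_lit 228) (nat_lit 0) (XT.lf (nat_lit 0) (nat_lit 3561553187) (nat_lit 304) (nat_lit 6688961978) (nat_lit 76) (nat_lit 4682600431) (nat_lit 93) (nat_lit 5) (nat_lit 97) (nat_lit 5) (nat_lit 94) (nat_lit 5) (nat_lit 370) (nat_lit 304) (nat_lit 226)) (XT.lf (nat_lit 0) (nat_lit 2035073840) (nat_lit 228) (nat_lit 5303046535) (nat_lit 304) (nat_lit 7876512174) (nat_lit 90) (nat_lit 5) (nat_lit 93) (nat_lit 5) (nat_lit 94) (nat_lit 5) (nat_lit 371) (nat_lit 304) (nat_lit 225))))))))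
noncomputable def xc116 : XT := (XT.nd (nat_lit 2106) (nat_lit 1824) (nat_lit 0) (XT.nd (nat_lit 1014) (nat_lit 1368) (nat_lit 0) (XT.nd (nat_lit 468) (nat_lit 912) (nat_lit 0) (XT.nd (nat_lit 234) (nat_lit 380) (nat_lit 0) (XT.nd (nat_lit 78) (nat_lit 304) (nat_lit 0) (XT.lf (nat_lit 0) (nat_lit 11114972205) (nat_lit 228) (nat_lit 153570371) (nat_lit 304) (nat_lit 4234842841) (nat_lit 90) (nat_lit 5) (nat_lit 93) (nat_lit 5) (nat_lit 94) (nat_lit 5) (nat_lit 372) (nat_lit 304) (nat_lit 224)) (XT.nd (nat_lit 78) (nat_lit 76) (nat_lit 0) (XT.lf (nat_lit 0) (nat_lit 4665633522) (nat_lit 228) (nat_lit 10719250971) (nat_lit 304) (nat_lit 413883107) (nat_lit 87) (nat_lit 5) (nat_lit 90) (nat_lit 5) (nat_lit 91) (nat_lit 5) (nat_lit 373) (nat_lit 304) (nat_lit 223)) (XT.lf (nat_lit 0) (nat_lit 3473007634) (nat_lit 304) (nat_lit 2098715372) (nat_lit 76) (nat_lit 10529678497) (nat_lit 86) (nat_lit 5) (nat_lit 90)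 (nat_lit 5) (nat_lit 87) (nat_lit 5) (nat_lit 374) (nat_lit 304) (nat_lit 222)))) (XT.nd (nat_lit 78) (nat_lit 152) (nat_lit 0) (XT.lf (nat_lit 0) (nat_lit 7303919804) (nat_lit 228) (nat_lit 208990719) (nat_lit 304) (nat_lit 8898745594) (nat_lit 83) (nat_lit 5) (nat_lit 86) (nat_lit 5) (nat_lit 87) (nat_lit 5) (nat_lit 375) (nat_lit 304) (nat_lit 221)) (XT.nd (nat_lit 78) (nat_lit 0) (nat_lit 0) (XT.lf (nat_lit 0) (nat_lit 212472972) (nat_lit 152) (nat_lit 11510783193) (nat_lit 228) (nat_lit 5006490999) (nat_lit 81) (nat_lit 5) (nat_lit 83) (nat_lit 5) (nat_lit 84) (nat_lit 5) (nat_lit 376) (nat_lit 304) (nat_lit 220)) (XT.lf (nat_lit 0) (nat_lit 9955835210) (nat_lit 152) (nat_lit 6173151250) (nat_lit 228) (nat_lit 926328239) (nat_lit 81) (nat_lit 5) (nat_lit 83) (nat_lit 5) (nat_lit 84) (nat_lit 5) (nat_lit 377) (nat_lit 304) (nat_lit 219))))) (XT.nd (nat_lit 234) (nat_lit 456) (nat_lit 0) (XT.nd (nat_lit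 78) (nat_lit 152) (nat_lit 0) (XT.lf (nat_lit 0) (nat_lit 2579348514) (nat_lit 228) (nat_lit 633290077) (nat_lit 304) (nat_lit 14177061602) (nat_lit 77) (nat_lit 5) (nat_lit 80) (nat_lit 5) (nat_lit 81) (nat_lit 5) (nat_lit 378) (nat_lit 304) (nat_lit 218)) (XT.nd (nat_lit 78) (nat_lit 152) (nat_lit 0) (XT.lf (nat_lit 0) (nat_lit 7554032070) (nat_lit 304) (nat_lit 5137058501) (nat_lit 76) (nat_lit 5039850735) (nat_lit 77) (nat_lit 5) (nat_lit 81) (nat_lit 5) (nat_lit 78) (nat_lit 5) (nat_lit 379) (nat_lit 304) (nat_lit 217)) (XT.lf (nat_lit 0) (nat_lit 4875969461) (nat_lit 152) (nat_lit 7179259038) (nat_lit 228) (nat_lit 6026309636) (nat_lit 75) (nat_lit 5) (nat_lit 77) (nat_lit 5) (nat_lit 78) (nat_lit 5) (nat_lit 380) (nat_lit 304) (nat_lit 216)))) (XT.nd (nat_lit 156) (nat_lit 152) (nat_lit 0) (XT.nd (nat_lit 78) (nat_lit 304) (nat_lit 0) (XT.lf (nat_lit 0) (nat_lit 15255737088) (nat_lit 152) (nat_lit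 1464330422) (nat_lit 228) (nat_lit 1721732322) (nat_lit 75) (nat_lit 5) (nat_lit 77) (nat_lit 5) (nat_lit 78) (nat_lit 5) (nat_lit 381) (nat_lit 304) (nat_lit 215)) (XT.lf (nat_lit 0) (nat_lit 2748857073) (nat_lit 304) (nat_lit 11643621140) (nat_lit 76) (nat_lit 4416920097) (nat_lit 71) (nat_lit 5) (nat_lit 75) (nat_lit 5) (nat_lit 72) (nat_lit 5) (nat_lit 382) (nat_lit 304) (nat_lit 214))) (XT.nd (nat_lit 78) (nat_lit 152) (nat_lit 0) (XT.lf (nat_lit 0) (nat_lit 7343282819) (nat_lit 304) (nat_lit 1363877094) (nat_lit 76) (nat_lit 10479628436) (nat_lit 71) (nat_lit 5) (nat_lit 75) (nat_lit 5) (nat_lit 72) (nat_lit 5) (nat_lit 383) (nat_lit 304) (nat_lit 213)) (XT.lf (nat_lit 0) (nat_lit 9369779688) (nat_lit 152) (nat_lit 2773823811) (nat_lit 228) (nat_lit 7429859313) (nat_lit 69) (nat_lit 5) (nat_lit 71) (nat_lit 5) (nat_lit 72) (nat_lit 5) (nat_lit 384) (nat_lit 304) (nat_lit 212)))))) (XT.nd (nat_lit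 546) (nat_lit 532) (nat_lit 0) (XT.nd (nat_lit 234) (nat_lit 380) (nat_lit 0) (XT.nd (nat_lit 78) (nat_lit 228) (nat_lit 0) (XT.lf (nat_lit 0) (nat_lit 420607460) (nat_lit 228) (nat_lit 16695493967) (nat_lit 304) (nat_lit 2854795506) (nat_lit 66) (nat_lit 5) (nat_lit 69) (nat_lit 5) (nat_lit 70) (nat_lit 5) (nat_lit 385) (nat_lit 304) (nat_lit 211)) (XT.nd (nat_lit 78) (nat_lit 152) (nat_lit 0) (XT.lf (nat_lit 0) (nat_lit 1930990057) (nat_lit 304) (nat_lit 8888242483) (nat_lit 76) (nat_lit 9557198565) (nat_lit 65) (nat_lit 5) (nat_lit 69) (nat_lit 5) (nat_lit 66) (nat_lit 5) (nat_lit 386) (nat_lit 304) (nat_lit 210)) (XT.lf (nat_lit 0) (nat_lit 2069341710) (nat_lit 152) (nat_lit 4732351556) (nat_lit 228) (nat_lit 13991632475) (nat_lit 63) (nat_lit 5) (nat_lit 65) (nat_lit 5) (nat_lit 66) (nat_lit 5) (nat_lit 387) (nat_lit 304) (nat_lit 209)))) (XT.nd (nat_lit 156) (nat_lit 228) (nat_lit 0) (XT.nd (nat_lit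 78) (nat_lit 152) (nat_lit 0) (XT.lf (nat_lit 0) (nat_lit 11902890588) (nat_lit 228) (nat_lit 7734412419) (nat_lit 76) (nat_lit 1582896974) (nat_lit 63) (nat_lit 5) (nat_lit 66) (nat_lit 5) (nat_lit 64) (nat_lit 5) (nat_lit 388) (nat_lit 304) (nat_lit 208)) (XT.lf (nat_lit 0) (nat_lit 3572195877) (nat_lit 152) (nat_lit 13645688674) (nat_lit 228) (nat_lit 4440176920) (nat_lit 61) (nat_lit 5) (nat_lit 63) (nat_lit 5) (nat_lit 64) (nat_lit 5) (nat_lit 389) (nat_lit 304) (nat_lit 207))) (XT.nd (nat_lit 78) (nat_lit 152) (nat_lit 0) (XT.lf (nat_lit 0) (nat_lit 630384941) (nat_lit 228) (nat_lit 6772108514) (nat_lit 76) (nat_lit 14704645854) (nat_lit 60) (nat_lit 5) (nat_lit 63) (nat_lit 5) (nat_lit 61) (nat_lit 5) (nat_lit 390) (nat_lit 304) (nat_lit 206)) (XT.lf (nat_lit 0) (nat_lit 4898152500) (nat_lit 152) (nat_lit 892966997) (nat_lit 228) (nat_lit 16776435668) (nat_lit 58) (nat_lit 5) (nat_lit 60) (nat_lit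 5) (nat_lit 61) (nat_lit 5) (nat_lit 391) (nat_lit 304) (nat_lit 205))))) (XT.nd (nat_lit 234) (nat_lit 380) (nat_lit 0) (XT.nd (nat_lit 78) (nat_lit 152) (nat_lit 0) (XT.lf (nat_lit 0) (nat_lit 11211926944) (nat_lit 228) (nat_lit 6073570529) (nat_lit 76) (nat_lit 5753131911) (nat_lit 58) (nat_lit 5) (nat_lit 61) (nat_lit 5) (nat_lit 59) (nat_lit 5) (nat_lit 392) (nat_lit 304) (nat_lit 204)) (XT.nd (nat_lit 78) (nat_lit 0) (nat_lit 0) (XT.lf (nat_lit 0) (nat_lit 5943648742) (nat_lit 152) (nat_lit 10898580014) (nat_lit 228) (nat_lit 6680204284) (nat_lit 56) (nat_lit 5) (nat_lit 58) (nat_lit 5) (nat_lit 59) (nat_lit 5) (nat_lit 393) (nat_lit 304) (nat_lit 203)) (XT.lf (nat_lit 0) (nat_lit 18412587960) (nat_lit 152) (nat_lit 4271314084) (nat_lit 228) (nat_lit 1335578106) (nat_lit 56) (nat_lit 5) (nat_lit 58) (nat_lit 5) (nat_lit 59) (nat_lit 5) (nat_lit 394) (nat_lit 304) (nat_lit 202)))) (XT.nd (nat_lit 156)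 (nat_lit 152) (nat_lit 0) (XT.nd (nat_lit 78) (nat_lit 0) (nat_lit 0) (XT.lf (nat_lit 0) (nat_lit 4160197089) (nat_lit 228) (nat_lit 17770549023) (nat_lit 76) (nat_lit 2597328134) (nat_lit 53) (nat_lit 5) (nat_lit 56) (nat_lit 5) (nat_lit 54) (nat_lit 5) (nat_lit 395) (nat_lit 304) (nat_lit 201)) (XT.lf (nat_lit 0) (nat_lit 9875059694) (nat_lit 228) (nat_lit 5531286368) (nat_lit 76) (nat_lit 9642754603) (nat_lit 53) (nat_lit 5) (nat_lit 56) (nat_lit 5) (nat_lit 54) (nat_lit 5) (nat_lit 396) (nat_lit 304) (nat_lit 200))) (XT.nd (nat_lit 78) (nat_lit 0) (nat_lit 0) (XT.lf (nat_lit 0) (nat_lit 7183489778) (nat_lit 152) (nat_lit 8629055266) (nat_lit 228) (nat_lit 9771680385) (nat_lit 51) (nat_lit 5) (nat_lit 53) (nat_lit 5) (nat_lit 54) (nat_lit 5) (nat_lit 397) (nat_lit 304) (nat_lit 199)) (XT.lf (nat_lit 0) (nat_lit 20361567169) (nat_lit 152) (nat_lit 1604785275) (nat_lit 228) (nat_lit 4167908342) (nat_lit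 51) (nat_lit 5) (nat_lit 53) (nat_lit 5) (nat_lit 54) (nat_lit 5) (nat_lit 398) (nat_lit 304) (nat_lit 198))))))) (XT.nd (nat_lit 1014) (nat_lit 836) (nat_lit 0) (XT.nd (nat_lit 468) (nat_lit 456) (nat_lit 0) (XT.nd (nat_lit 234) (nat_lit 152) (nat_lit 0) (XT.nd (nat_lit 78) (nat_lit 152) (nat_lit 0) (XT.lf (nat_lit 0) (nat_lit 1680670818) (nat_lit 228) (nat_lit 19422717032) (nat_lit 76) (nat_lit 5593709619) (nat_lit 48) (nat_lit 5) (nat_lit 51) (nat_lit 5) (nat_lit 49) (nat_lit 5) (nat_lit 399) (nat_lit 304) (nat_lit 197)) (XT.nd (nat_lit 78) (nat_lit 152) (nat_lit 0) (XT.lf (nat_lit 0) (nat_lit 7678459251) (nat_lit 228) (nat_lit 6532640657) (nat_lit 76) (nat_lit 13062758210) (nat_lit 48) (nat_lit 5) (nat_lit 51) (nat_lit 5) (nat_lit 49) (nat_lit 5) (nat_lit 400) (nat_lit 304) (nat_lit 196)) (XT.lf (nat_lit 0) (nat_lit 6847624954) (nat_lit 152) (nat_lit 7057645691) (nat_lit 228) (nat_lit 13961180728) (nat_lit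 46) (nat_lit 5) (nat_lit 48) (nat_lit 5) (nat_lit 49) (nat_lit 5) (nat_lit 401) (nat_lit 304) (nat_lit 195)))) (XT.nd (nat_lit 78) (nat_lit 152) (nat_lit 0) (XT.lf (nat_lit 0) (nat_lit 20371828668) (nat_lit 228) (nat_lit 7745479108) (nat_lit 76) (nat_lit 357928775) (nat_lit 46) (nat_lit 5) (nat_lit 49) (nat_lit 5) (nat_lit 47) (nat_lit 4) (nat_lit 402) (nat_lit 304) (nat_lit 194)) (XT.nd (nat_lit 78) (nat_lit 76) (nat_lit 0) (XT.lf (nat_lit 0) (nat_lit 5942826857) (nat_lit 76) (nat_lit 21200384045) (nat_lit 152) (nat_lit 1955751883) (nat_lit 45) (nat_lit 5) (nat_lit 46) (nat_lit 5) (nat_lit 47) (nat_lit 4) (nat_lit 403) (nat_lit 304) (nat_lit 193)) (XT.lf (nat_lit 0) (nat_lit 4353779523) (nat_lit 152) (nat_lit 9610706042) (nat_lit 76) (nat_lit 15773770079) (nat_lit 44) (nat_lit 5) (nat_lit 46) (nat_lit 5) (nat_lit 45) (nat_lit 5) (nat_lit 404) (nat_lit 304) (nat_lit 192))))) (XT.nd (nat_lit 234) (nat_lit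 228) (nat_lit 0) (XT.nd (nat_lit 78) (nat_lit 76) (nat_lit 0) (XT.lf (nat_lit 0) (nat_lit 4378655525) (nat_lit 152) (nat_lit 6461048434) (nat_lit 228) (nat_lit 19555652067) (nat_lit 42) (nat_lit 5) (nat_lit 44) (nat_lit 5) (nat_lit 45) (nat_lit 5) (nat_lit 405) (nat_lit 304) (nat_lit 191)) (XT.nd (nat_lit 78) (nat_lit 76) (nat_lit 0) (XT.lf (nat_lit 0) (nat_lit 17614788338) (nat_lit 228) (nat_lit 12126270165) (nat_lit 76) (nat_lit 1328275517) (nat_lit 42) (nat_lit 5) (nat_lit 45) (nat_lit 5) (nat_lit 43) (nat_lit 4) (nat_lit 406) (nat_lit 304) (nat_lit 190)) (XT.lf (nat_lit 0) (nat_lit 2130737537) (nat_lit 76) (nat_lit 22531683285) (nat_lit 152) (nat_lit 7099033668) (nat_lit 41) (nat_lit 5) (nat_lit 42) (nat_lit 5) (nat_lit 43) (nat_lit 4) (nat_lit 407) (nat_lit 304) (nat_lit 189)))) (XT.nd (nat_lit 156) (nat_lit 152) (nat_lit 0) (XT.nd (nat_lit 78) (nat_lit 76) (nat_lit 0) (XT.lf (nat_lit 0) (nat_lit 17036560983)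 (nat_lit 76) (nat_lit 14992393098) (nat_lit 152) (nat_lit 442162288) (nat_lit 41) (nat_lit 5) (nat_lit 42) (nat_lit 5) (nat_lit 43) (nat_lit 4) (nat_lit 408) (nat_lit 304) (nat_lit 188)) (XT.lf (nat_lit 0) (nat_lit 6274557591) (nat_lit 152) (nat_lit 901133443) (nat_lit 76) (nat_lit 26024969803) (nat_lit 40) (nat_lit 5) (nat_lit 42) (nat_lit 5) (nat_lit 41) (nat_lit 5) (nat_lit 409) (nat_lit 304) (nat_lit 187))) (XT.nd (nat_lit 78) (nat_lit 0) (nat_lit 0) (XT.lf (nat_lit 0) (nat_lit 13316962788) (nat_lit 228) (nat_lit 19640856606) (nat_lit 76) (nat_lit 990150571) (nat_lit 38) (nat_lit 5) (nat_lit 41) (nat_lit 5) (nat_lit 39) (nat_lit 4) (nat_lit 410) (nat_lit 304) (nat_lit 186)) (XT.lf (nat_lit 0) (nat_lit 20636667405) (nat_lit 228) (nat_lit 4824716020) (nat_lit 76) (nat_lit 9254335852) (nat_lit 38) (nat_lit 5) (nat_lit 41) (nat_lit 5) (nat_lit 39) (nat_lit 4) (nat_lit 411) (nat_lit 304) (nat_lit 185))))))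 (XT.nd (nat_lit 546) (nat_lit 456) (nat_lit 0) (XT.nd (nat_lit 234) (nat_lit 76) (nat_lit 0) (XT.nd (nat_lit 78) (nat_lit 228) (nat_lit 0) (XT.lf (nat_lit 0) (nat_lit 10617627005) (nat_lit 76) (nat_lit 17646604178) (nat_lit 152) (nat_lit 7239623525) (nat_lit 37) (nat_lit 5) (nat_lit 38) (nat_lit 5) (nat_lit 39) (nat_lit 4) (nat_lit 412) (nat_lit 304) (nat_lit 184)) (XT.nd (nat_lit 78) (nat_lit 228) (nat_lit 0) (XT.lf (nat_lit 0) (nat_lit 26596922051) (nat_lit 76) (nat_lit 9558784259) (nat_lit 152) (nat_lit 158876989) (nat_lit 37) (nat_lit 5) (nat_lit 38) (nat_lit 5) (nat_lit 39) (nat_lit 4) (nat_lit 413) (nat_lit 304) (nat_lit 183)) (XT.lf (nat_lit 0) (nat_lit 5928312451) (nat_lit 152) (nat_lit 1110379117) (nat_lit 228) (nat_lit 30107577880) (nat_lit 34) (nat_lit 5) (nat_lit 36) (nat_lit 5) (nat_lit 37) (nat_lit 5) (nat_lit 414) (nat_lit 304) (nat_lit 182)))) (XT.nd (nat_lit 156) (nat_lit 76) (nat_lit 0)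 (XT.nd (nat_lit 78) (nat_lit 0) (nat_lit 0) (XT.lf (nat_lit 0) (nat_lit 14607742825) (nat_lit 228) (nat_lit 15857413037) (nat_lit 76) (nat_lit 7532942153) (nat_lit 34) (nat_lit 5) (nat_lit 37) (nat_lit 5) (nat_lit 35) (nat_lit 4) (nat_lit 415) (nat_lit 304) (nat_lit 181)) (XT.lf (nat_lit 0) (nat_lit 22401921684) (nat_lit 228) (nat_lit 71124351) (nat_lit 76) (nat_lit 16402495171) (nat_lit 34) (nat_lit 5) (nat_lit 37) (nat_lit 5) (nat_lit 35) (nat_lit 4) (nat_lit 416) (nat_lit 304) (nat_lit 180))) (XT.nd (nat_lit 78) (nat_lit 0) (nat_lit 0) (XT.lf (nat_lit 0) (nat_lit 16487099234) (nat_lit 76) (nat_lit 14088749797) (nat_lit 152) (nat_lit 9199082374) (nat_lit 33) (nat_lit 5) (nat_lit 34) (nat_lit 5) (nat_lit 35) (nat_lit 4) (nat_lit 417) (nat_lit 304) (nat_lit 179)) (XT.lf (nat_lit 0) (nat_lit 33520380240) (nat_lit 76) (nat_lit 5462914564) (nat_lit 152) (nat_lit 1718360854) (nat_lit 33) (nat_lit 5) (nat_lit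 34) (nat_lit 5) (nat_lit 35) (nat_lit 4) (nat_lit 418) (nat_lit 304) (nat_lit 178))))) (XT.nd (nat_lit 234) (nat_lit 152) (nat_lit 0) (XT.nd (nat_lit 78) (nat_lit 76) (nat_lit 0) (XT.lf (nat_lit 0) (nat_lit 5983500469) (nat_lit 228) (nat_lit 32172481106) (nat_lit 76) (nat_lit 3495068635) (nat_lit 30) (nat_lit 5) (nat_lit 33) (nat_lit 5) (nat_lit 31) (nat_lit 4) (nat_lit 419) (nat_lit 304) (nat_lit 177)) (XT.nd (nat_lit 78) (nat_lit 76) (nat_lit 0) (XT.lf (nat_lit 0) (nat_lit 13997064657) (nat_lit 228) (nat_lit 15935908627) (nat_lit 76) (nat_lit 12691988630) (nat_lit 30) (nat_lit 5) (nat_lit 33) (nat_lit 5) (nat_lit 31) (nat_lit 4) (nat_lit 420) (nat_lit 304) (nat_lit 176)) (XT.lf (nat_lit 0) (nat_lit 780906237) (nat_lit 76) (nat_lit 21465850961) (nat_lit 152) (nat_lit 21381463342) (nat_lit 29) (nat_lit 5) (nat_lit 30) (nat_lit 5) (nat_lit 31) (nat_lit 4) (nat_lit 421) (nat_lit 304) (nat_lit 175)))) (XT.nd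 (nat_lit 156) (nat_lit 152) (nat_lit 0) (XT.nd (nat_lit 78) (nat_lit 0) (nat_lit 0) (XT.lf (nat_lit 0) (nat_lit 18304019567) (nat_lit 76) (nat_lit 12589190222) (nat_lit 152) (nat_lit 13763890234) (nat_lit 29) (nat_lit 5) (nat_lit 30) (nat_lit 5) (nat_lit 31) (nat_lit 4) (nat_lit 422) (nat_lit 304) (nat_lit 174)) (XT.lf (nat_lit 0) (nat_lit 36331586992) (nat_lit 76) (nat_lit 3456156192) (nat_lit 152) (nat_lit 5929443233) (nat_lit 29) (nat_lit 5) (nat_lit 30) (nat_lit 5) (nat_lit 31) (nat_lit 4) (nat_lit 423) (nat_lit 304) (nat_lit 173))) (XT.nd (nat_lit 78) (nat_lit 0) (nat_lit 0) (XT.lf (nat_lit 0) (nat_lit 2224195529) (nat_lit 152) (nat_lit 38654826512) (nat_lit 76) (nat_lit 5925659754) (nat_lit 27) (nat_lit 5) (nat_lit 29) (nat_lit 5) (nat_lit 28) (nat_lit 4) (nat_lit 424) (nat_lit 304) (nat_lit 172)) (XT.lf (nat_lit 0) (nat_lit 10622140067) (nat_lit 152) (nat_lit 21632929977) (nat_lit 76) (nat_lit 15664405641)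 (nat_lit 27) (nat_lit 5) (nat_lit 29) (nat_lit 5) (nat_lit 28) (nat_lit 4) (nat_lit 425) (nat_lit 304) (nat_lit 171))))))))
noncomputable def xc117 : XT := (XT.nd (nat_lit 37908) (nat_lit 0) (nat_lit 13756) (XT.nd (nat_lit 1014) (nat_lit 304) (nat_lit 0) (XT.nd (nat_lit 468) (nat_lit 228) (nat_lit 0) (XT.nd (nat_lit 234) (nat_lit 152) (nat_lit 0) (XT.nd (nat_lit 78) (nat_lit 76) (nat_lit 0) (XT.lf (nat_lit 0) (nat_lit 19261283768) (nat_lit 152) (nat_lit 4120643871) (nat_lit 76) (nat_lit 25686108942) (nat_lit 27) (nat_lit 5) (nat_lit 29) (nat_lit 5) (nat_lit 28) (nat_lit 4) (nat_lit 426) (nat_lit 304) (nat_lit 170)) (XT.nd (nat_lit 78) (nat_lit 0) (nat_lit 0) (XT.lf (nat_lit 0) (nat_lit 14173917996) (nat_lit 76) (nat_lit 14111505775) (nat_lit 152) (nat_lit 21961856861) (nat_lit 26) (nat_lit 5) (nat_lit 27) (nat_lit 5) (nat_lit 28) (nat_lit 4) (nat_lit 427) (nat_lit 304) (nat_lit 169)) (XT.lf (nat_lit 0)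 (nat_lit 33082301776) (nat_lit 76) (nat_lit 4529286628) (nat_lit 152) (nat_lit 13849375543) (nat_lit 26) (nat_lit 5) (nat_lit 27) (nat_lit 5) (nat_lit 28) (nat_lit 4) (nat_lit 428) (nat_lit 304) (nat_lit 168)))) (XT.nd (nat_lit 78) (nat_lit 152) (nat_lit 0) (XT.lf (nat_lit 0) (nat_lit 47258777840) (nat_lit 152) (nat_lit 223588083) (nat_lit 0) (nat_lit 5227455574) (nat_lit 26) (nat_lit 5) (nat_lit 28) (nat_lit 4) (nat_lit 26) (nat_lit 4) (nat_lit 429) (nat_lit 304) (nat_lit 167)) (XT.nd (nat_lit 78) (nat_lit 0) (nat_lit 0) (XT.lf (nat_lit 0) (nat_lit 3354502887) (nat_lit 152) (nat_lit 35243398104) (nat_lit 76) (nat_lit 15390791267) (nat_lit 24) (nat_lit 5) (nat_lit 26) (nat_lit 5) (nat_lit 25) (nat_lit 4) (nat_lit 430) (nat_lit 304) (nat_lit 166)) (XT.lf (nat_lit 0) (nat_lit 12307145969) (nat_lit 152) (nat_lit 17090616824) (nat_lit 76) (nat_lit 25906773356) (nat_lit 24) (nat_lit 5) (nat_lit 26) (nat_lit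 5) (nat_lit 25) (nat_lit 4) (nat_lit 431) (nat_lit 304) (nat_lit 165))))) (XT.nd (nat_lit 234) (nat_lit 152) (nat_lit 0) (XT.nd (nat_lit 78) (nat_lit 0) (nat_lit 0) (XT.lf (nat_lit 0) (nat_lit 1620319036) (nat_lit 76) (nat_lit 19914120496) (nat_lit 152) (nat_lit 35125234515) (nat_lit 23) (nat_lit 5) (nat_lit 24) (nat_lit 5) (nat_lit 25) (nat_lit 4) (nat_lit 432) (nat_lit 304) (nat_lit 164)) (XT.nd (nat_lit 78) (nat_lit 0) (nat_lit 0) (XT.lf (nat_lit 0) (nat_lit 21225053679) (nat_lit 76) (nat_lit 9976680681) (nat_lit 152) (nat_lit 26848837050) (nat_lit 23) (nat_lit 5) (nat_lit 24) (nat_lit 5) (nat_lit 25) (nat_lit 4) (nat_lit 433) (nat_lit 304) (nat_lit 163)) (XT.lf (nat_lit 0) (nat_lit 41152332015) (nat_lit 152) (nat_lit 18085299050) (nat_lit 0) (nat_lit 245766888) (nat_lit 23) (nat_lit 5) (nat_lit 25) (nat_lit 4) (nat_lit 23) (nat_lit 4) (nat_lit 434) (nat_lit 304) (nat_lit 162)))) (XT.nd (nat_lit 156)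 (nat_lit 76) (nat_lit 0) (XT.nd (nat_lit 78) (nat_lit 0) (nat_lit 0) (XT.lf (nat_lit 0) (nat_lit 1123231307) (nat_lit 76) (nat_lit 50378856036) (nat_lit 76) (nat_lit 9454103514) (nat_lit 22) (nat_lit 4) (nat_lit 23) (nat_lit 5) (nat_lit 23) (nat_lit 4) (nat_lit 435) (nat_lit 304) (nat_lit 161)) (XT.lf (nat_lit 0) (nat_lit 21261881322) (nat_lit 76) (nat_lit 41074241757) (nat_lit 76) (nat_lit 131831570) (nat_lit 22) (nat_lit 4) (nat_lit 23) (nat_lit 5) (nat_lit 23) (nat_lit 4) (nat_lit 436) (nat_lit 304) (nat_lit 160))) (XT.nd (nat_lit 78) (nat_lit 0) (nat_lit 0) (XT.lf (nat_lit 0) (nat_lit 9276646061) (nat_lit 152) (nat_lit 22127962046) (nat_lit 76) (nat_lit 32617992961) (nat_lit 21) (nat_lit 5) (nat_lit 23) (nat_lit 5) (nat_lit 22) (nat_lit 4) (nat_lit 437) (nat_lit 304) (nat_lit 159)) (XT.lf (nat_lit 0) (nat_lit 18956314218) (nat_lit 152) (nat_lit 2494879730) (nat_lit 76) (nat_lit 44172906870) (nat_lit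 21) (nat_lit 5) (nat_lit 23) (nat_lit 5) (nat_lit 22) (nat_lit 4) (nat_lit 438) (nat_lit 304) (nat_lit 158)))))) (XT.nd (nat_lit 546) (nat_lit 76) (nat_lit 0) (XT.nd (nat_lit 234) (nat_lit 152) (nat_lit 0) (XT.nd (nat_lit 78) (nat_lit 0) (nat_lit 0) (XT.lf (nat_lit 0) (nat_lit 18064091476) (nat_lit 76) (nat_lit 11027754994) (nat_lit 152) (nat_lit 38176835520) (nat_lit 20) (nat_lit 5) (nat_lit 21) (nat_lit 5) (nat_lit 22) (nat_lit 4) (nat_lit 439) (nat_lit 304) (nat_lit 157)) (XT.nd (nat_lit 78) (nat_lit 0) (nat_lit 0) (XT.lf (nat_lit 0) (nat_lit 39275528272) (nat_lit 76) (nat_lit 273030219) (nat_lit 152) (nat_lit 29413529326) (nat_lit 20) (nat_lit 5) (nat_lit 21) (nat_lit 5) (nat_lit 22) (nat_lit 4) (nat_lit 440) (nat_lit 304) (nat_lit 156)) (XT.lf (nat_lit 0) (nat_lit 50414916749) (nat_lit 152) (nat_lit 9702008980) (nat_lit 0) (nat_lit 10586492358) (nat_lit 20) (nat_lit 5) (nat_lit 22) (nat_lit 4) (nat_lit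 20) (nat_lit 4) (nat_lit 441) (nat_lit 304) (nat_lit 155)))) (XT.nd (nat_lit 156) (nat_lit 76) (nat_lit 0) (XT.nd (nat_lit 78) (nat_lit 0) (nat_lit 0) (XT.lf (nat_lit 0) (nat_lit 11080880944) (nat_lit 76) (nat_lit 50627921749) (nat_lit 76) (nat_lit 10785140061) (nat_lit 19) (nat_lit 4) (nat_lit 20) (nat_lit 5) (nat_lit 20) (nat_lit 4) (nat_lit 442) (nat_lit 304) (nat_lit 154)) (XT.lf (nat_lit 0) (nat_lit 32671561781) (nat_lit 76) (nat_lit 40760315800) (nat_lit 76) (nat_lit 903594988) (nat_lit 19) (nat_lit 4) (nat_lit 20) (nat_lit 5) (nat_lit 20) (nat_lit 4) (nat_lit 443) (nat_lit 304) (nat_lit 153))) (XT.nd (nat_lit 78) (nat_lit 0) (nat_lit 0) (XT.lf (nat_lit 0) (nat_lit 9085968386) (nat_lit 152) (nat_lit 21425738117) (nat_lit 76) (nat_lit 45718091321) (nat_lit 18) (nat_lit 5) (nat_lit 20) (nat_lit 5) (nat_lit 19) (nat_lit 4) (nat_lit 444) (nat_lit 304) (nat_lit 152)) (XT.lf (nat_lit 0) (nat_lit 19349823151)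 (nat_lit 152) (nat_lit 603251906) (nat_lit 76) (nat_lit 58227826941) (nat_lit 18) (nat_lit 5) (nat_lit 20) (nat_lit 5) (nat_lit 19) (nat_lit 4) (nat_lit 445) (nat_lit 304) (nat_lit 151))))) (XT.nd (nat_lit 36036) (nat_lit 0) (nat_lit 25232) (XT.nd (nat_lit 35880) (nat_lit 0) (nat_lit 26220) (XT.lf (nat_lit 0) (nat_lit 21244994521) (nat_lit 76) (nat_lit 8873795477) (nat_lit 152) (nat_lit 50065833920) (nat_lit 17) (nat_lit 5) (nat_lit 18) (nat_lit 5) (nat_lit 19) (nat_lit 4) (nat_lit 446) (nat_lit 304) (nat_lit 150)) (XT.nd (nat_lit 78) (nat_lit 0) (nat_lit 0) (XT.lf (nat_lit 0) (nat_lit 501589588) (nat_lit 0) (nat_lit 501589588) (nat_lit 380) (nat_lit 2271516903) (nat_lit 362) (nat_lit 5) (nat_lit 362) (nat_lit 3) (nat_lit 367) (nat_lit 3) (nat_lit 305) (nat_lit 305) (nat_lit 290)) (XT.lf (nat_lit 0) (nat_lit 4213096640) (nat_lit 0) (nat_lit 267202804) (nat_lit 380) (nat_lit 2091950851) (nat_lit 362) (nat_lit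 5) (nat_lit 362) (nat_lit 3) (nat_lit 367) (nat_lit 3) (nat_lit 306) (nat_lit 305) (nat_lit 289)))) (XT.nd (nat_lit 156) (nat_lit 532) (nat_lit 0) (XT.nd (nat_lit 78) (nat_lit 0) (nat_lit 0) (XT.lf (nat_lit 0) (nat_lit 341641086) (nat_lit 456) (nat_lit 5716695471) (nat_lit 532) (nat_lit 539888602) (nat_lit 356) (nat_lit 5) (nat_lit 362) (nat_lit 5) (nat_lit 363) (nat_lit 5) (nat_lit 307) (nat_lit 305) (nat_lit 288)) (XT.lf (nat_lit 0) (nat_lit 2739265146) (nat_lit 456) (nat_lit 2432591836) (nat_lit 532) (nat_lit 1454584850) (nat_lit 356) (nat_lit 5) (nat_lit 362) (nat_lit 5) (nat_lit 363) (nat_lit 5) (nat_lit 308) (nat_lit 305) (nat_lit 287))) (XT.nd (nat_lit 78) (nat_lit 532) (nat_lit 0) (XT.lf (nat_lit 76) (nat_lit 916930140) (nat_lit 0) (nat_lit 4209795314) (nat_lit 532) (nat_lit 1531316163) (nat_lit 357) (nat_lit 5) (nat_lit 356) (nat_lit 5) (nat_lit 363) (nat_lit 5) (nat_lit 309) (nat_lit 305) (nat_lit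 286)) (XT.lf (nat_lit 0) (nat_lit 812865667) (nat_lit 532) (nat_lit 2334249626) (nat_lit 608) (nat_lit 3545232106) (nat_lit 349) (nat_lit 5) (nat_lit 356) (nat_lit 5) (nat_lit 357) (nat_lit 5) (nat_lit 310) (nat_lit 305) (nat_lit 285))))))) (XT.nd (nat_lit 1014) (nat_lit 7904) (nat_lit 0) (XT.nd (nat_lit 468) (nat_lit 2356) (nat_lit 0) (XT.nd (nat_lit 234) (nat_lit 684) (nat_lit 0) (XT.nd (nat_lit 78) (nat_lit 532) (nat_lit 0) (XT.lf (nat_lit 76) (nat_lit 1130897159) (nat_lit 0) (nat_lit 1989487996) (nat_lit 608) (nat_lit 3609196220) (nat_lit 350) (nat_lit 5) (nat_lit 349) (nat_lit 5) (nat_lit 357) (nat_lit 5) (nat_lit 311) (nat_lit 305) (nat_lit 284)) (XT.nd (nat_lit 78) (nat_lit 532) (nat_lit 0) (XT.lf (nat_lit 76) (nat_lit 4697519230) (nat_lit 0) (nat_lit 738154145) (nat_lit 608) (nat_lit 1334168304) (nat_lit 350) (nat_lit 5) (nat_lit 349) (nat_lit 5) (nat_lit 357) (nat_lit 5) (nat_lit 312) (nat_lit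 305) (nat_lit 283)) (XT.lf (nat_lit 0) (nat_lit 926540240) (nat_lit 608) (nat_lit 5289605197) (nat_lit 684) (nat_lit 596821552) (nat_lit 342) (nat_lit 5) (nat_lit 350) (nat_lit 5) (nat_lit 351) (nat_lit 5) (nat_lit 313) (nat_lit 305) (nat_lit 282)))) (XT.nd (nat_lit 78) (nat_lit 684) (nat_lit 0) (XT.lf (nat_lit 0) (nat_lit 3175515508) (nat_lit 608) (nat_lit 1660982064) (nat_lit 684) (nat_lit 2022134407) (nat_lit 342) (nat_lit 5) (nat_lit 350) (nat_lit 5) (nat_lit 351) (nat_lit 5) (nat_lit 314) (nat_lit 305) (nat_lit 281)) (XT.nd (nat_lit 78) (nat_lit 684) (nat_lit 0) (XT.lf (nat_lit 76) (nat_lit 2065449060) (nat_lit 0) (nat_lit 3367548717) (nat_lit 684) (nat_lit 1474496297) (nat_lit 343) (nat_lit 5) (nat_lit 342) (nat_lit 5) (nat_lit 351) (nat_lit 5) (nat_lit 315) (nat_lit 305) (nat_lit 280)) (XT.lf (nat_lit 0) (nat_lit 723875104) (nat_lit 684) (nat_lit 1079912499) (nat_lit 760) (nat_lit 5155685230) (nat_lit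 333) (nat_lit 5) (nat_lit 342) (nat_lit 5) (nat_lit 343) (nat_lit 5) (nat_lit 316) (nat_lit 305) (nat_lit 279))))) (XT.nd (nat_lit 234) (nat_lit 1672) (nat_lit 0) (XT.nd (nat_lit 78) (nat_lit 684) (nat_lit 0) (XT.lf (nat_lit 76) (nat_lit 2783880953) (nat_lit 0) (nat_lit 125880211) (nat_lit 760) (nat_lit 4104329178) (nat_lit 334) (nat_lit 5) (nat_lit 333) (nat_lit 5) (nat_lit 343) (nat_lit 5) (nat_lit 317) (nat_lit 305) (nat_lit 278)) (XT.nd (nat_lit 78) (nat_lit 760) (nat_lit 0) (XT.lf (nat_lit 0) (nat_lit 5114019901) (nat_lit 684) (nat_lit 352725296) (nat_lit 76) (nat_lit 1605069087) (nat_lit 334) (nat_lit 5) (nat_lit 343) (nat_lit 5) (nat_lit 335) (nat_lit 5) (nat_lit 318) (nat_lit 305) (nat_lit 277)) (XT.lf (nat_lit 0) (nat_lit 212752321) (nat_lit 760) (nat_lit 3474582319) (nat_lit 76) (nat_lit 3444974453) (nat_lit 324) (nat_lit 5) (nat_lit 334) (nat_lit 5) (nat_lit 325) (nat_lit 5) (nat_lit 319) (nat_lit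 305) (nat_lit 276)))) (XT.nd (nat_lit 156) (nat_lit 912) (nat_lit 0) (XT.nd (nat_lit 78) (nat_lit 0) (nat_lit 0) (XT.lf (nat_lit 0) (nat_lit 540000651) (nat_lit 760) (nat_lit 1807230440) (nat_lit 836) (nat_lit 4848708566) (nat_lit 314) (nat_lit 5) (nat_lit 324) (nat_lit 5) (nat_lit 325) (nat_lit 5) (nat_lit 320) (nat_lit 305) (nat_lit 275)) (XT.lf (nat_lit 0) (nat_lit 4513522936) (nat_lit 836) (nat_lit 2569869056) (nat_lit 76) (nat_lit 179099797) (nat_lit 314) (nat_lit 5) (nat_lit 325) (nat_lit 5) (nat_lit 315) (nat_lit 5) (nat_lit 321) (nat_lit 305) (nat_lit 274))) (XT.nd (nat_lit 78) (nat_lit 76) (nat_lit 0) (XT.lf (nat_lit 0) (nat_lit 1599579813) (nat_lit 836) (nat_lit 5111602130) (nat_lit 912) (nat_lit 620911863) (nat_lit 303) (nat_lit 5) (nat_lit 314) (nat_lit 5) (nat_lit 315) (nat_lit 5) (nat_lit 322) (nat_lit 305) (nat_lit 273)) (XT.lf (nat_lit 0) (nat_lit 1500405572) (nat_lit 912) (nat_lit 1524938370)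 (nat_lit 76) (nat_lit 4379226779) (nat_lit 302) (nat_lit 5) (nat_lit 314) (nat_lit 5) (nat_lit 303) (nat_lit 5) (nat_lit 323) (nat_lit 305) (nat_lit 272)))))) (XT.nd (nat_lit 546) (nat_lit 3648) (nat_lit 0) (XT.nd (nat_lit 234) (nat_lit 2280) (nat_lit 0) (XT.nd (nat_lit 78) (nat_lit 1064) (nat_lit 0) (XT.lf (nat_lit 0) (nat_lit 2805652915) (nat_lit 912) (nat_lit 829992535) (nat_lit 988) (nat_lit 3844550069) (nat_lit 290) (nat_lit 5) (nat_lit 302) (nat_lit 5) (nat_lit 303) (nat_lit 5) (nat_lit 324) (nat_lit 305) (nat_lit 271)) (XT.nd (nat_lit 78) (nat_lit 1064) (nat_lit 0) (XT.lf (nat_lit 0) (nat_lit 5801532345) (nat_lit 988) (nat_lit 327455411) (nat_lit 76) (nat_lit 1430143300) (nat_lit 290) (nat_lit 5) (nat_lit 303) (nat_lit 5) (nat_lit 291) (nat_lit 5) (nat_lit 325) (nat_lit 305) (nat_lit 270)) (XT.lf (nat_lit 0) (nat_lit 371573981) (nat_lit 1064) (nat_lit 3473053086) (nat_lit 76) (nat_lit 3796114132)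 (nat_lit 276) (nat_lit 5) (nat_lit 290) (nat_lit 5) (nat_lit 277) (nat_lit 5) (nat_lit 326) (nat_lit 305) (nat_lit 269)))) (XT.nd (nat_lit 156) (nat_lit 1216) (nat_lit 0) (XT.nd (nat_lit 78) (nat_lit 0) (nat_lit 0) (XT.lf (nat_lit 0) (nat_lit 1029845626) (nat_lit 1064) (nat_lit 1452450373) (nat_lit 1140) (nat_lit 5243427905) (nat_lit 262) (nat_lit 5) (nat_lit 276) (nat_lit 5) (nat_lit 277) (nat_lit 5) (nat_lit 327) (nat_lit 305) (nat_lit 268)) (XT.lf (nat_lit 0) (nat_lit 4642564085) (nat_lit 1140) (nat_lit 2137119563) (nat_lit 76) (nat_lit 1034020977) (nat_lit 262) (nat_lit 5) (nat_lit 277) (nat_lit 5) (nat_lit 263) (nat_lit 5) (nat_lit 328) (nat_lit 305) (nat_lit 267))) (XT.nd (nat_lit 78) (nat_lit 76) (nat_lit 0) (XT.lf (nat_lit 0) (nat_lit 2541309600) (nat_lit 1140) (nat_lit 4307939023) (nat_lit 1216) (nat_lit 1055662129) (nat_lit 247) (nat_lit 5) (nat_lit 262) (nat_lit 5) (nat_lit 263) (nat_lit 5) (nat_lit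 329) (nat_lit 305) (nat_lit 266)) (XT.lf (nat_lit 0) (nat_lit 1066535710) (nat_lit 1216) (nat_lit 658264558) (nat_lit 76) (nat_lit 6274805908) (nat_lit 246) (nat_lit 5) (nat_lit 262) (nat_lit 5) (nat_lit 247) (nat_lit 5) (nat_lit 330) (nat_lit 305) (nat_lit 265))))) (XT.nd (nat_lit 234) (nat_lit 1824) (nat_lit 0) (XT.nd (nat_lit 78) (nat_lit 608) (nat_lit 0) (XT.lf (nat_lit 0) (nat_lit 3226199531) (nat_lit 1292) (nat_lit 3898332749) (nat_lit 76) (nat_lit 972477419) (nat_lit 230) (nat_lit 5) (nat_lit 247) (nat_lit 5) (nat_lit 231) (nat_lit 5) (nat_lit 331) (nat_lit 305) (nat_lit 264)) (XT.nd (nat_lit 78) (nat_lit 0) (nat_lit 0) (XT.lf (nat_lit 0) (nat_lit 966831344) (nat_lit 608) (nat_lit 4463075210) (nat_lit 684) (nat_lit 2768081594) (nat_lit 222) (nat_lit 5) (nat_lit 230) (nat_lit 5) (nat_lit 231) (nat_lit 5) (nat_lit 332) (nat_lit 305) (nat_lit 263)) (XT.lf (nat_lit 0) (nat_lit 6005801273) (nat_lit 608)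 (nat_lit 1680525764) (nat_lit 684) (nat_lit 616100380) (nat_lit 222) (nat_lit 5) (nat_lit 230) (nat_lit 5) (nat_lit 231) (nat_lit 5) (nat_lit 333) (nat_lit 305) (nat_lit 262)))) (XT.nd (nat_lit 156) (nat_lit 1140) (nat_lit 0) (XT.nd (nat_lit 78) (nat_lit 0) (nat_lit 0) (XT.lf (nat_lit 0) (nat_lit 1555918064) (nat_lit 684) (nat_lit 5649067080) (nat_lit 76) (nat_lit 1204979781) (nat_lit 213) (nat_lit 5) (nat_lit 222) (nat_lit 5) (nat_lit 214) (nat_lit 5) (nat_lit 334) (nat_lit 305) (nat_lit 261)) (XT.lf (nat_lit 0) (nat_lit 3770025253) (nat_lit 684) (nat_lit 578418012) (nat_lit 76) (nat_lit 4172449987) (nat_lit 213) (nat_lit 5) (nat_lit 222) (nat_lit 5) (nat_lit 214) (nat_lit 5) (nat_lit 335) (nat_lit 305) (nat_lit 260))) (XT.nd (nat_lit 78) (nat_lit 532) (nat_lit 0) (XT.lf (nat_lit 0) (nat_lit 4684655472) (nat_lit 608) (nat_lit 1361661367) (nat_lit 684) (nat_lit 2588985994) (nat_lit 205) (nat_lit 5) (nat_lit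 213) (nat_lit 5) (nat_lit 214) (nat_lit 5) (nat_lit 336) (nat_lit 305) (nat_lit 259)) (XT.lf (nat_lit 0) (nat_lit 1321697316) (nat_lit 532) (nat_lit 7055942529) (nat_lit 608) (nat_lit 375928052) (nat_lit 198) (nat_lit 5) (nat_lit 205) (nat_lit 5) (nat_lit 206) (nat_lit 5) (nat_lit 337) (nat_lit 305) (nat_lit 258))))))))
noncomputable def xc118 : XT := (XT.nd (nat_lit 2106) (nat_lit 3724) (nat_lit 0) (XT.nd (nat_lit 1014) (nat_lit 2812) (nat_lit 0) (XT.nd (nat_lit 468) (nat_lit 2280) (nat_lit 0) (XT.nd (nat_lit 234) (nat_lit 1064) (nat_lit 0) (XT.nd (nat_lit 78) (nat_lit 532) (nat_lit 0) (XT.lf (nat_lit 0) (nat_lit 1872222320) (nat_lit 608) (nat_lit 2125691021) (nat_lit 76) (nat_lit 4876767293) (nat_lit 197) (nat_lit 5) (nat_lit 205) (nat_lit 5) (nat_lit 198) (nat_lit 5) (nat_lit 338) (nat_lit 305) (nat_lit 257)) (XT.nd (nat_lit 78) (nat_lit 0) (nat_lit 0) (XT.lf (nat_lit 0) (nat_lit 3350329785) (nat_lit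 532) (nat_lit 815607620) (nat_lit 608) (nat_lit 4833830723) (nat_lit 190) (nat_lit 5) (nat_lit 197) (nat_lit 5) (nat_lit 198) (nat_lit 5) (nat_lit 339) (nat_lit 305) (nat_lit 256)) (XT.lf (nat_lit 0) (nat_lit 6528103481) (nat_lit 608) (nat_lit 169483870) (nat_lit 76) (nat_lit 2431054343) (nat_lit 190) (nat_lit 5) (nat_lit 198) (nat_lit 5) (nat_lit 191) (nat_lit 5) (nat_lit 340) (nat_lit 305) (nat_lit 255)))) (XT.nd (nat_lit 78) (nat_lit 608) (nat_lit 0) (XT.lf (nat_lit 0) (nat_lit 5524257120) (nat_lit 456) (nat_lit 3453680371) (nat_lit 532) (nat_lit 282961865) (nat_lit 184) (nat_lit 5) (nat_lit 190) (nat_lit 5) (nat_lit 191) (nat_lit 5) (nat_lit 341) (nat_lit 305) (nat_lit 254)) (XT.nd (nat_lit 78) (nat_lit 0) (nat_lit 0) (XT.lf (nat_lit 0) (nat_lit 1962525749) (nat_lit 532) (nat_lit 77136269) (nat_lit 608) (nat_lit 7357579265) (nat_lit 176) (nat_lit 5) (nat_lit 183) (nat_lit 5) (nat_lit 184) (nat_lit 5)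 (nat_lit 342) (nat_lit 305) (nat_lit 253)) (XT.lf (nat_lit 0) (nat_lit 4453791073) (nat_lit 608) (nat_lit 1714629777) (nat_lit 76) (nat_lit 3368363272) (nat_lit 176) (nat_lit 5) (nat_lit 184) (nat_lit 5) (nat_lit 177) (nat_lit 5) (nat_lit 343) (nat_lit 305) (nat_lit 252))))) (XT.nd (nat_lit 234) (nat_lit 1292) (nat_lit 0) (XT.nd (nat_lit 78) (nat_lit 532) (nat_lit 0) (XT.lf (nat_lit 0) (nat_lit 4208426358) (nat_lit 456) (nat_lit 2731113688) (nat_lit 532) (nat_lit 2741016841) (nat_lit 170) (nat_lit 5) (nat_lit 176) (nat_lit 5) (nat_lit 177) (nat_lit 5) (nat_lit 344) (nat_lit 305) (nat_lit 251)) (XT.nd (nat_lit 78) (nat_lit 76) (nat_lit 0) (XT.lf (nat_lit 0) (nat_lit 466676490) (nat_lit 456) (nat_lit 9021583803) (nat_lit 532) (nat_lit 340749537) (nat_lit 164) (nat_lit 5) (nat_lit 170) (nat_lit 5) (nat_lit 171) (nat_lit 5) (nat_lit 345) (nat_lit 305) (nat_lit 250)) (XT.lf (nat_lit 0) (nat_lit 2131726795) (nat_lit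 532) (nat_lit 3383530991) (nat_lit 76) (nat_lit 4464807914) (nat_lit 163) (nat_lit 5) (nat_lit 170) (nat_lit 5) (nat_lit 164) (nat_lit 5) (nat_lit 346) (nat_lit 305) (nat_lit 249)))) (XT.nd (nat_lit 156) (nat_lit 912) (nat_lit 0) (XT.nd (nat_lit 78) (nat_lit 0) (nat_lit 0) (XT.lf (nat_lit 0) (nat_lit 2775899338) (nat_lit 380) (nat_lit 1882457782) (nat_lit 456) (nat_lit 5477607410) (nat_lit 158) (nat_lit 5) (nat_lit 163) (nat_lit 5) (nat_lit 164) (nat_lit 5) (nat_lit 347) (nat_lit 305) (nat_lit 248)) (XT.lf (nat_lit 0) (nat_lit 7273903864) (nat_lit 456) (nat_lit 1174396331) (nat_lit 76) (nat_lit 1847863447) (nat_lit 158) (nat_lit 5) (nat_lit 164) (nat_lit 5) (nat_lit 159) (nat_lit 5) (nat_lit 348) (nat_lit 305) (nat_lit 247))) (XT.nd (nat_lit 78) (nat_lit 456) (nat_lit 0) (XT.lf (nat_lit 0) (nat_lit 5231611009) (nat_lit 456) (nat_lit 4767116372) (nat_lit 532) (nat_lit 461533386) (nat_lit 152) (nat_lit 5)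 (nat_lit 158) (nat_lit 5) (nat_lit 159) (nat_lit 5) (nat_lit 349) (nat_lit 305) (nat_lit 246)) (XT.lf (nat_lit 0) (nat_lit 1177925941) (nat_lit 380) (nat_lit 941069448) (nat_lit 456) (nat_lit 8510110040) (nat_lit 146) (nat_lit 5) (nat_lit 151) (nat_lit 5) (nat_lit 152) (nat_lit 5) (nat_lit 350) (nat_lit 305) (nat_lit 245)))))) (XT.nd (nat_lit 546) (nat_lit 1368) (nat_lit 0) (XT.nd (nat_lit 234) (nat_lit 1064) (nat_lit 0) (XT.nd (nat_lit 78) (nat_lit 380) (nat_lit 0) (XT.lf (nat_lit 0) (nat_lit 4812492215) (nat_lit 456) (nat_lit 3000993919) (nat_lit 76) (nat_lit 2988062319) (nat_lit 146) (nat_lit 5) (nat_lit 152) (nat_lit 5) (nat_lit 147) (nat_lit 5) (nat_lit 351) (nat_lit 305) (nat_lit 244)) (XT.nd (nat_lit 78) (nat_lit 0) (nat_lit 0) (XT.lf (nat_lit 0) (nat_lit 3656660880) (nat_lit 380) (nat_lit 3938359049) (nat_lit 456) (nat_lit 3383912585) (nat_lit 141) (nat_lit 5) (nat_lit 146) (nat_lit 5) (nat_lit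 147) (nat_lit 5) (nat_lit 352) (nat_lit 305) (nat_lit 243)) (XT.lf (nat_lit 0) (nat_lit 10456378802) (nat_lit 456) (nat_lit 634546532) (nat_lit 76) (nat_lit 70866210) (nat_lit 141) (nat_lit 5) (nat_lit 147) (nat_lit 5) (nat_lit 142) (nat_lit 5) (nat_lit 353) (nat_lit 305) (nat_lit 242)))) (XT.nd (nat_lit 156) (nat_lit 304) (nat_lit 0) (XT.nd (nat_lit 78) (nat_lit 380) (nat_lit 0) (XT.lf (nat_lit 0) (nat_lit 2078743523) (nat_lit 380) (nat_lit 5078178267) (nat_lit 76) (nat_lit 4190674536) (nat_lit 136) (nat_lit 5) (nat_lit 141) (nat_lit 5) (nat_lit 137) (nat_lit 5) (nat_lit 354) (nat_lit 305) (nat_lit 241)) (XT.lf (nat_lit 0) (nat_lit 1836114376) (nat_lit 380) (nat_lit 3085747066) (nat_lit 456) (nat_lit 6617228741) (nat_lit 131) (nat_lit 5) (nat_lit 136) (nat_lit 5) (nat_lit 137) (nat_lit 5) (nat_lit 355) (nat_lit 305) (nat_lit 240))) (XT.nd (nat_lit 78) (nat_lit 304) (nat_lit 0) (XT.lf (nat_lit 0) (nat_lit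 7878630104) (nat_lit 456) (nat_lit 2731846243) (nat_lit 76) (nat_lit 1125014323) (nat_lit 131) (nat_lit 5) (nat_lit 137) (nat_lit 5) (nat_lit 132) (nat_lit 5) (nat_lit 356) (nat_lit 305) (nat_lit 239)) (XT.lf (nat_lit 0) (nat_lit 4458423445) (nat_lit 304) (nat_lit 6506003220) (nat_lit 380) (nat_lit 972158929) (nat_lit 127) (nat_lit 5) (nat_lit 131) (nat_lit 5) (nat_lit 132) (nat_lit 5) (nat_lit 357) (nat_lit 305) (nat_lit 238))))) (XT.nd (nat_lit 234) (nat_lit 684) (nat_lit 0) (XT.nd (nat_lit 78) (nat_lit 608) (nat_lit 0) (XT.lf (nat_lit 0) (nat_lit 1955037234) (nat_lit 380) (nat_lit 288626508) (nat_lit 76) (nat_lit 9899635716) (nat_lit 126) (nat_lit 5) (nat_lit 131) (nat_lit 5) (nat_lit 127) (nat_lit 5) (nat_lit 358) (nat_lit 305) (nat_lit 237)) (XT.nd (nat_lit 78) (nat_lit 304) (nat_lit 0) (XT.lf (nat_lit 0) (nat_lit 5009089804) (nat_lit 380) (nat_lit 5173887303) (nat_lit 76) (nat_lit 2171202609) (nat_lit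 122) (nat_lit 5) (nat_lit 127) (nat_lit 5) (nat_lit 123) (nat_lit 5) (nat_lit 359) (nat_lit 305) (nat_lit 236)) (XT.lf (nat_lit 0) (nat_lit 2284558342) (nat_lit 304) (nat_lit 5885755840) (nat_lit 380) (nat_lit 4400616503) (nat_lit 118) (nat_lit 5) (nat_lit 122) (nat_lit 5) (nat_lit 123) (nat_lit 5) (nat_lit 360) (nat_lit 305) (nat_lit 235)))) (XT.nd (nat_lit 156) (nat_lit 304) (nat_lit 0) (XT.nd (nat_lit 78) (nat_lit 380) (nat_lit 0) (XT.lf (nat_lit 0) (nat_lit 10027589977) (nat_lit 304) (nat_lit 1419947895) (nat_lit 380) (nat_lit 1346021929) (nat_lit 118) (nat_lit 5) (nat_lit 122) (nat_lit 5) (nat_lit 123) (nat_lit 5) (nat_lit 361) (nat_lit 305) (nat_lit 234)) (XT.lf (nat_lit 0) (nat_lit 1813892990) (nat_lit 380) (nat_lit 8036811122) (nat_lit 76) (nat_lit 3170190097) (nat_lit 113) (nat_lit 5) (nat_lit 118) (nat_lit 5) (nat_lit 114) (nat_lit 5) (nat_lit 362) (nat_lit 305) (nat_lit 233))) (XT.nd (nat_lit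 78) (nat_lit 304) (nat_lit 0) (XT.lf (nat_lit 0) (nat_lit 5053659909) (nat_lit 380) (nat_lit 303400738) (nat_lit 76) (nat_lit 7897234552) (nat_lit 113) (nat_lit 5) (nat_lit 118) (nat_lit 5) (nat_lit 114) (nat_lit 5) (nat_lit 363) (nat_lit 305) (nat_lit 232)) (XT.lf (nat_lit 0) (nat_lit 7770075984) (nat_lit 304) (nat_lit 665954919) (nat_lit 380) (nat_lit 5057314308) (nat_lit 109) (nat_lit 5) (nat_lit 113) (nat_lit 5) (nat_lit 114) (nat_lit 5) (nat_lit 364) (nat_lit 305) (nat_lit 231))))))) (XT.nd (nat_lit 1014) (nat_lit 1596) (nat_lit 0) (XT.nd (nat_lit 468) (nat_lit 912) (nat_lit 0) (XT.nd (nat_lit 234) (nat_lit 608) (nat_lit 0) (XT.nd (nat_lit 78) (nat_lit 304) (nat_lit 0) (XT.lf (nat_lit 0) (nat_lit 2313706973) (nat_lit 304) (nat_lit 9642567120) (nat_lit 380) (nat_lit 1782209653) (nat_lit 105) (nat_lit 5) (nat_lit 109) (nat_lit 5) (nat_lit 110) (nat_lit 5) (nat_lit 365) (nat_lit 305) (nat_lit 230)) (XT.nd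 (nat_lit 78) (nat_lit 228) (nat_lit 0) (XT.lf (nat_lit 0) (nat_lit 1596215098) (nat_lit 380) (nat_lit 3346610213) (nat_lit 76) (nat_lit 9046617328) (nat_lit 104) (nat_lit 5) (nat_lit 109) (nat_lit 5) (nat_lit 105) (nat_lit 5) (nat_lit 366) (nat_lit 305) (nat_lit 229)) (XT.lf (nat_lit 0) (nat_lit 5011305946) (nat_lit 228) (nat_lit 49034203) (nat_lit 304) (nat_lit 9186464019) (nat_lit 101) (nat_lit 5) (nat_lit 104) (nat_lit 5) (nat_lit 105) (nat_lit 5) (nat_lit 367) (nat_lit 305) (nat_lit 228)))) (XT.nd (nat_lit 78) (nat_lit 608) (nat_lit 0) (XT.lf (nat_lit 0) (nat_lit 8682763542) (nat_lit 304) (nat_lit 913641251) (nat_lit 76) (nat_lit 4913858556) (nat_lit 101) (nat_lit 5) (nat_lit 105) (nat_lit 5) (nat_lit 102) (nat_lit 5) (nat_lit 368) (nat_lit 305) (nat_lit 227)) (XT.nd (nat_lit 78) (nat_lit 304) (nat_lit 0) (XT.lf (nat_lit 0) (nat_lit 7767190913) (nat_lit 304) (nat_lit 4694888815) (nat_lit 380) (nat_lit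 2318107785) (nat_lit 97) (nat_lit 5) (nat_lit 101) (nat_lit 5) (nat_lit 102) (nat_lit 5) (nat_lit 369) (nat_lit 305) (nat_lit 226)) (XT.lf (nat_lit 0) (nat_lit 1273229367) (nat_lit 304) (nat_lit 13414585291) (nat_lit 76) (nat_lit 369969284) (nat_lit 93) (nat_lit 5) (nat_lit 97) (nat_lit 5) (nat_lit 94) (nat_lit 5) (nat_lit 370) (nat_lit 305) (nat_lit 225))))) (XT.nd (nat_lit 234) (nat_lit 684) (nat_lit 0) (XT.nd (nat_lit 78) (nat_lit 228) (nat_lit 0) (XT.lf (nat_lit 0) (nat_lit 5017143395) (nat_lit 304) (nat_lit 4751018275) (nat_lit 76) (nat_lit 5572122340) (nat_lit 93) (nat_lit 5) (nat_lit 97) (nat_lit 5) (nat_lit 94) (nat_lit 5) (nat_lit 371) (nat_lit 305) (nat_lit 224)) (XT.nd (nat_lit 78) (nat_lit 0) (nat_lit 0) (XT.lf (nat_lit 0) (nat_lit 4213771828) (nat_lit 228) (nat_lit 4674308083) (nat_lit 304) (nat_lit 6742744957) (nat_lit 90) (nat_lit 5) (nat_lit 93) (nat_lit 5) (nat_lit 94) (nat_lit 5) (nat_lit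 372) (nat_lit 305) (nat_lit 223)) (XT.lf (nat_lit 0) (nat_lit 12903514304) (nat_lit 304) (nat_lit 2430856443) (nat_lit 76) (nat_lit 594866847) (nat_lit 90) (nat_lit 5) (nat_lit 94) (nat_lit 5) (nat_lit 91) (nat_lit 5) (nat_lit 373) (nat_lit 305) (nat_lit 222)))) (XT.nd (nat_lit 156) (nat_lit 380) (nat_lit 0) (XT.nd (nat_lit 78) (nat_lit 0) (nat_lit 0) (XT.lf (nat_lit 0) (nat_lit 875511452) (nat_lit 304) (nat_lit 9369743786) (nat_lit 76) (nat_lit 5988471258) (nat_lit 86) (nat_lit 5) (nat_lit 90) (nat_lit 5) (nat_lit 87) (nat_lit 5) (nat_lit 374) (nat_lit 305) (nat_lit 221)) (XT.lf (nat_lit 0) (nat_lit 4833015740) (nat_lit 304) (nat_lit 129359880) (nat_lit 76) (nat_lit 11584080485) (nat_lit 86) (nat_lit 5) (nat_lit 90) (nat_lit 5) (nat_lit 87) (nat_lit 5) (nat_lit 375) (nat_lit 305) (nat_lit 220))) (XT.nd (nat_lit 78) (nat_lit 152) (nat_lit 0) (XT.lf (nat_lit 0) (nat_lit 8982251935) (nat_lit 304) (nat_lit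 7336483876) (nat_lit 76) (nat_lit 547647572) (nat_lit 83) (nat_lit 5) (nat_lit 87) (nat_lit 5) (nat_lit 84) (nat_lit 5) (nat_lit 376) (nat_lit 305) (nat_lit 219)) (XT.lf (nat_lit 0) (nat_lit 2241238794) (nat_lit 152) (nat_lit 11062886892) (nat_lit 228) (nat_lit 3890343793) (nat_lit 81) (nat_lit 5) (nat_lit 83) (nat_lit 5) (nat_lit 84) (nat_lit 5) (nat_lit 377) (nat_lit 305) (nat_lit 218)))))) (XT.nd (nat_lit 546) (nat_lit 684) (nat_lit 0) (XT.nd (nat_lit 234) (nat_lit 608) (nat_lit 0) (XT.nd (nat_lit 78) (nat_lit 228) (nat_lit 0) (XT.lf (nat_lit 0) (nat_lit 269967226) (nat_lit 228) (nat_lit 5315536114) (nat_lit 76) (nat_lit 11945303922) (nat_lit 80) (nat_lit 5) (nat_lit 83) (nat_lit 5) (nat_lit 81) (nat_lit 5) (nat_lit 378) (nat_lit 305) (nat_lit 217)) (XT.nd (nat_lit 78) (nat_lit 0) (nat_lit 0) (XT.lf (nat_lit 0) (nat_lit 4499512239) (nat_lit 304) (nat_lit 13251663577) (nat_lit 76) (nat_lit 124230632)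 (nat_lit 77) (nat_lit 5) (nat_lit 81) (nat_lit 5) (nat_lit 78) (nat_lit 5) (nat_lit 379) (nat_lit 305) (nat_lit 216)) (XT.lf (nat_lit 0) (nat_lit 8942560497) (nat_lit 304) (nat_lit 3352598941) (nat_lit 76) (nat_lit 5932590828) (nat_lit 77) (nat_lit 5) (nat_lit 81) (nat_lit 5) (nat_lit 78) (nat_lit 5) (nat_lit 380) (nat_lit 305) (nat_lit 215)))) (XT.nd (nat_lit 156) (nat_lit 456) (nat_lit 0) (XT.nd (nat_lit 78) (nat_lit 0) (nat_lit 0) (XT.lf (nat_lit 0) (nat_lit 6941814259) (nat_lit 152) (nat_lit 6621588634) (nat_lit 228) (nat_lit 5025931437) (nat_lit 75) (nat_lit 5) (nat_lit 77) (nat_lit 5) (nat_lit 78) (nat_lit 5) (nat_lit 381) (nat_lit 305) (nat_lit 214)) (XT.lf (nat_lit 0) (nat_lit 17577065234) (nat_lit 152) (nat_lit 757728126) (nat_lit 228) (nat_lit 626619740) (nat_lit 75) (nat_lit 5) (nat_lit 77) (nat_lit 5) (nat_lit 78) (nat_lit 5) (nat_lit 382) (nat_lit 305) (nat_lit 213))) (XT.nd (nat_lit 78) (nat_lit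 152) (nat_lit 0) (XT.lf (nat_lit 0) (nat_lit 3948203111) (nat_lit 304) (nat_lit 10098916866) (nat_lit 76) (nat_lit 5292821040) (nat_lit 71) (nat_lit 5) (nat_lit 75) (nat_lit 5) (nat_lit 72) (nat_lit 5) (nat_lit 383) (nat_lit 305) (nat_lit 212)) (XT.lf (nat_lit 0) (nat_lit 442692603) (nat_lit 152) (nat_lit 8209493963) (nat_lit 228) (nat_lit 11077321225) (nat_lit 69) (nat_lit 5) (nat_lit 71) (nat_lit 5) (nat_lit 72) (nat_lit 5) (nat_lit 384) (nat_lit 305) (nat_lit 211))))) (XT.nd (nat_lit 234) (nat_lit 380) (nat_lit 0) (XT.nd (nat_lit 78) (nat_lit 304) (nat_lit 0) (XT.lf (nat_lit 0) (nat_lit 11471692646) (nat_lit 152) (nat_lit 2106488616) (nat_lit 228) (nat_lit 6550157878) (nat_lit 69) (nat_lit 5) (nat_lit 71) (nat_lit 5) (nat_lit 72) (nat_lit 5) (nat_lit 385) (nat_lit 305) (nat_lit 210)) (XT.nd (nat_lit 78) (nat_lit 76) (nat_lit 0) (XT.lf (nat_lit 0) (nat_lit 2261060687) (nat_lit 228) (nat_lit 16432195413)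 (nat_lit 304) (nat_lit 1844644517) (nat_lit 66) (nat_lit 5) (nat_lit 69) (nat_lit 5) (nat_lit 70) (nat_lit 5) (nat_lit 386) (nat_lit 305) (nat_lit 209)) (XT.lf (nat_lit 0) (nat_lit 3032038157) (nat_lit 304) (nat_lit 7359331722) (nat_lit 76) (nat_lit 10564859765) (nat_lit 65) (nat_lit 5) (nat_lit 69) (nat_lit 5) (nat_lit 66) (nat_lit 5) (nat_lit 387) (nat_lit 305) (nat_lit 208)))) (XT.nd (nat_lit 156) (nat_lit 228) (nat_lit 0) (XT.nd (nat_lit 78) (nat_lit 0) (nat_lit 0) (XT.lf (nat_lit 0) (nat_lit 3909376486) (nat_lit 152) (nat_lit 4126194673) (nat_lit 228) (nat_lit 13350464548) (nat_lit 63) (nat_lit 5) (nat_lit 65) (nat_lit 5) (nat_lit 66) (nat_lit 5) (nat_lit 388) (nat_lit 305) (nat_lit 207)) (XT.lf (nat_lit 0) (nat_lit 13266791435) (nat_lit 228) (nat_lit 6217073071) (nat_lit 76) (nat_lit 2342547738) (nat_lit 63) (nat_lit 5) (nat_lit 66) (nat_lit 5) (nat_lit 64) (nat_lit 5) (nat_lit 389) (nat_lit 305)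 (nat_lit 206))) (XT.nd (nat_lit 78) (nat_lit 76) (nat_lit 0) (XT.lf (nat_lit 0) (nat_lit 5411582771) (nat_lit 152) (nat_lit 13316978930) (nat_lit 228) (nat_lit 3549233595) (nat_lit 61) (nat_lit 5) (nat_lit 63) (nat_lit 5) (nat_lit 64) (nat_lit 5) (nat_lit 390) (nat_lit 305) (nat_lit 205)) (XT.lf (nat_lit 0) (nat_lit 1624212803) (nat_lit 228) (nat_lit 5273927795) (nat_lit 76) (nat_lit 15842792151) (nat_lit 60) (nat_lit 5) (nat_lit 63) (nat_lit 5) (nat_lit 61) (nat_lit 5) (nat_lit 391) (nat_lit 305) (nat_lit 204))))))))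
noncomputable def xc119 : XT := (XT.nd (nat_lit 2106) (nat_lit 1140) (nat_lit 0) (XT.nd (nat_lit 1014) (nat_lit 912) (nat_lit 0) (XT.nd (nat_lit 468) (nat_lit 608) (nat_lit 0) (XT.nd (nat_lit 234) (nat_lit 228) (nat_lit 0) (XT.nd (nat_lit 78) (nat_lit 152) (nat_lit 0) (XT.lf (nat_lit 0) (nat_lit 6729761207) (nat_lit 152) (nat_lit 197806591) (nat_lit 228) (nat_lit 16287964377) (nat_lit 58) (nat_lit 5) (nat_lit 60) (nat_lit 5) (nat_lit 61) (nat_lit 5) (nat_lit 392) (nat_lit 305) (nat_lit 203)) (XT.nd (nat_lit 78) (nat_lit 152) (nat_lit 0) (XT.lf (nat_lit 0) (nat_lit 12489696923) (nat_lit 228) (nat_lit 4598715551) (nat_lit 76) (nat_lit 6612970123) (nat_lit 58) (nat_lit 5) (nat_lit 61) (nat_lit 5) (nat_lit 59) (nat_lit 5) (nat_lit 393) (nat_lit 305) (nat_lit 202)) (XT.lf (nat_lit 0) (nat_lit 7762774592) (nat_lit 152) (nat_lit 10514485956) (nat_lit 228) (nat_lit 5922793988) (nat_lit 56) (nat_lit 5) (nat_lit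 58) (nat_lit 5) (nat_lit 59) (nat_lit 5) (nat_lit 394) (nat_lit 305) (nat_lit 201)))) (XT.nd (nat_lit 78) (nat_lit 228) (nat_lit 0) (XT.lf (nat_lit 0) (nat_lit 20557991217) (nat_lit 152) (nat_lit 3709112286) (nat_lit 228) (nat_lit 445726590) (nat_lit 56) (nat_lit 5) (nat_lit 58) (nat_lit 5) (nat_lit 59) (nat_lit 5) (nat_lit 395) (nat_lit 305) (nat_lit 200)) (XT.nd (nat_lit 78) (nat_lit 0) (nat_lit 0) (XT.lf (nat_lit 0) (nat_lit 5192236938) (nat_lit 228) (nat_lit 16687660412) (nat_lit 76) (nat_lit 3356657012) (nat_lit 53) (nat_lit 5) (nat_lit 56) (nat_lit 5) (nat_lit 54) (nat_lit 5) (nat_lit 396) (nat_lit 305) (nat_lit 199)) (XT.lf (nat_lit 0) (nat_lit 11052121131) (nat_lit 228) (nat_lit 4128287987) (nat_lit 76) (nat_lit 10593599411) (nat_lit 53) (nat_lit 5) (nat_lit 56) (nat_lit 5) (nat_lit 54) (nat_lit 5) (nat_lit 397) (nat_lit 305) (nat_lit 198))))) (XT.nd (nat_lit 234) (nat_lit 228) (nat_lit 0) (XT.nd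 (nat_lit 78) (nat_lit 228) (nat_lit 0) (XT.lf (nat_lit 0) (nat_lit 8952549709) (nat_lit 152) (nat_lit 8204460406) (nat_lit 228) (nat_lit 9168502650) (nat_lit 51) (nat_lit 5) (nat_lit 53) (nat_lit 5) (nat_lit 54) (nat_lit 5) (nat_lit 398) (nat_lit 305) (nat_lit 197)) (XT.nd (nat_lit 78) (nat_lit 228) (nat_lit 0) (XT.lf (nat_lit 0) (nat_lit 22480720240) (nat_lit 152) (nat_lit 989369108) (nat_lit 228) (nat_lit 3422724091) (nat_lit 51) (nat_lit 5) (nat_lit 53) (nat_lit 5) (nat_lit 54) (nat_lit 5) (nat_lit 399) (nat_lit 305) (nat_lit 196)) (XT.lf (nat_lit 0) (nat_lit 2580416030) (nat_lit 228) (nat_lit 18475942001) (nat_lit 76) (nat_lit 6416047451) (nat_lit 48) (nat_lit 5) (nat_lit 51) (nat_lit 5) (nat_lit 49) (nat_lit 5) (nat_lit 400) (nat_lit 305) (nat_lit 195)))) (XT.nd (nat_lit 156) (nat_lit 76) (nat_lit 0) (XT.nd (nat_lit 78) (nat_lit 152) (nat_lit 0) (XT.lf (nat_lit 0) (nat_lit 8733400492) (nat_lit 228)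 (nat_lit 5243710613) (nat_lit 76) (nat_lit 14090103620) (nat_lit 48) (nat_lit 5) (nat_lit 51) (nat_lit 5) (nat_lit 49) (nat_lit 5) (nat_lit 401) (nat_lit 305) (nat_lit 194)) (XT.lf (nat_lit 0) (nat_lit 8523405033) (nat_lit 152) (nat_lit 6613728001) (nat_lit 228) (nat_lit 13540752779) (nat_lit 46) (nat_lit 5) (nat_lit 48) (nat_lit 5) (nat_lit 49) (nat_lit 5) (nat_lit 402) (nat_lit 305) (nat_lit 193))) (XT.nd (nat_lit 78) (nat_lit 76) (nat_lit 0) (XT.lf (nat_lit 0) (nat_lit 21780077459) (nat_lit 228) (nat_lit 6532593043) (nat_lit 76) (nat_lit 992795789) (nat_lit 46) (nat_lit 5) (nat_lit 49) (nat_lit 5) (nat_lit 47) (nat_lit 4) (nat_lit 403) (nat_lit 305) (nat_lit 192)) (XT.lf (nat_lit 0) (nat_lit 7552192980) (nat_lit 76) (nat_lit 21192948282) (nat_lit 152) (nat_lit 1203050183) (nat_lit 45) (nat_lit 5) (nat_lit 46) (nat_lit 5) (nat_lit 47) (nat_lit 4) (nat_lit 404) (nat_lit 305) (nat_lit 191)))))) (XT.nd (nat_lit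 546) (nat_lit 380) (nat_lit 0) (XT.nd (nat_lit 234) (nat_lit 304) (nat_lit 0) (XT.nd (nat_lit 78) (nat_lit 152) (nat_lit 0) (XT.lf (nat_lit 0) (nat_lit 5256763221) (nat_lit 152) (nat_lit 8494151384) (nat_lit 76) (nat_lit 16856212780) (nat_lit 44) (nat_lit 5) (nat_lit 46) (nat_lit 5) (nat_lit 45) (nat_lit 5) (nat_lit 405) (nat_lit 305) (nat_lit 190)) (XT.nd (nat_lit 78) (nat_lit 0) (nat_lit 0) (XT.lf (nat_lit 0) (nat_lit 5901117738) (nat_lit 152) (nat_lit 6027023558) (nat_lit 228) (nat_lit 19356076259) (nat_lit 42) (nat_lit 5) (nat_lit 44) (nat_lit 5) (nat_lit 45) (nat_lit 5) (nat_lit 406) (nat_lit 305) (nat_lit 189)) (XT.lf (nat_lit 0) (nat_lit 18890107286) (nat_lit 228) (nat_lit 11123003552) (nat_lit 76) (nat_lit 1965798141) (nat_lit 42) (nat_lit 5) (nat_lit 45) (nat_lit 5) (nat_lit 43) (nat_lit 4) (nat_lit 407) (nat_lit 305) (nat_lit 188)))) (XT.nd (nat_lit 156) (nat_lit 152) (nat_lit 0) (XT.nd (nat_lit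 78) (nat_lit 76) (nat_lit 0) (XT.lf (nat_lit 0) (nat_lit 3548311884) (nat_lit 76) (nat_lit 22592115345) (nat_lit 152) (nat_lit 6551630959) (nat_lit 41) (nat_lit 5) (nat_lit 42) (nat_lit 5) (nat_lit 43) (nat_lit 4) (nat_lit 408) (nat_lit 305) (nat_lit 187)) (XT.lf (nat_lit 0) (nat_lit 277281313) (nat_lit 152) (nat_lit 14564492862) (nat_lit 76) (nat_lit 18581801958) (nat_lit 40) (nat_lit 5) (nat_lit 42) (nat_lit 5) (nat_lit 41) (nat_lit 5) (nat_lit 409) (nat_lit 305) (nat_lit 186))) (XT.nd (nat_lit 78) (nat_lit 0) (nat_lit 0) (XT.lf (nat_lit 0) (nat_lit 369054861) (nat_lit 152) (nat_lit 6800026307) (nat_lit 228) (nat_lit 27006323105) (nat_lit 38) (nat_lit 5) (nat_lit 40) (nat_lit 5) (nat_lit 41) (nat_lit 5) (nat_lit 410) (nat_lit 305) (nat_lit 185)) (XT.lf (nat_lit 0) (nat_lit 14416624156) (nat_lit 228) (nat_lit 18937389575) (nat_lit 76) (nat_lit 1591305532) (nat_lit 38) (nat_lit 5) (nat_lit 41) (nat_lit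 5) (nat_lit 39) (nat_lit 4) (nat_lit 411) (nat_lit 305) (nat_lit 184))))) (XT.nd (nat_lit 234) (nat_lit 228) (nat_lit 0) (XT.nd (nat_lit 78) (nat_lit 152) (nat_lit 0) (XT.lf (nat_lit 0) (nat_lit 21935527121) (nat_lit 228) (nat_lit 3714416015) (nat_lit 76) (nat_lit 10086772184) (nat_lit 38) (nat_lit 5) (nat_lit 41) (nat_lit 5) (nat_lit 39) (nat_lit 4) (nat_lit 412) (nat_lit 305) (nat_lit 183)) (XT.nd (nat_lit 78) (nat_lit 76) (nat_lit 0) (XT.lf (nat_lit 0) (nat_lit 12178892972) (nat_lit 76) (nat_lit 17605171964) (nat_lit 152) (nat_lit 6764667874) (nat_lit 37) (nat_lit 5) (nat_lit 38) (nat_lit 5) (nat_lit 39) (nat_lit 4) (nat_lit 413) (nat_lit 305) (nat_lit 182)) (XT.lf (nat_lit 0) (nat_lit 498421938) (nat_lit 152) (nat_lit 8787888550) (nat_lit 76) (nat_lit 28097915619) (nat_lit 36) (nat_lit 5) (nat_lit 38) (nat_lit 5) (nat_lit 37) (nat_lit 5) (nat_lit 414) (nat_lit 305) (nat_lit 181)))) (XT.nd (nat_lit 156)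 (nat_lit 76) (nat_lit 0) (XT.nd (nat_lit 78) (nat_lit 0) (nat_lit 0) (XT.lf (nat_lit 0) (nat_lit 7313933188) (nat_lit 152) (nat_lit 587210487) (nat_lit 228) (nat_lit 30339901599) (nat_lit 34) (nat_lit 5) (nat_lit 36) (nat_lit 5) (nat_lit 37) (nat_lit 5) (nat_lit 415) (nat_lit 305) (nat_lit 180)) (XT.lf (nat_lit 0) (nat_lit 15683490242) (nat_lit 228) (nat_lit 15146694266) (nat_lit 76) (nat_lit 8288659617) (nat_lit 34) (nat_lit 5) (nat_lit 37) (nat_lit 5) (nat_lit 35) (nat_lit 4) (nat_lit 416) (nat_lit 305) (nat_lit 179))) (XT.nd (nat_lit 78) (nat_lit 0) (nat_lit 0) (XT.lf (nat_lit 0) (nat_lit 1100093323) (nat_lit 76) (nat_lit 22603407511) (nat_lit 152) (nat_lit 16319351666) (nat_lit 33) (nat_lit 5) (nat_lit 34) (nat_lit 5) (nat_lit 35) (nat_lit 4) (nat_lit 417) (nat_lit 305) (nat_lit 178)) (XT.lf (nat_lit 0) (nat_lit 18122303848) (nat_lit 76) (nat_lit 13982703875) (nat_lit 152) (nat_lit 8844747849) (nat_lit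 33) (nat_lit 5) (nat_lit 34) (nat_lit 5) (nat_lit 35) (nat_lit 4) (nat_lit 418) (nat_lit 305) (nat_lit 177))))))) (XT.nd (nat_lit 1014) (nat_lit 456) (nat_lit 0) (XT.nd (nat_lit 468) (nat_lit 380) (nat_lit 0) (XT.nd (nat_lit 234) (nat_lit 76) (nat_lit 0) (XT.nd (nat_lit 78) (nat_lit 228) (nat_lit 0) (XT.lf (nat_lit 0) (nat_lit 35633362168) (nat_lit 76) (nat_lit 5113492859) (nat_lit 152) (nat_lit 1157963140) (nat_lit 33) (nat_lit 5) (nat_lit 34) (nat_lit 5) (nat_lit 35) (nat_lit 4) (nat_lit 419) (nat_lit 305) (nat_lit 176)) (XT.nd (nat_lit 78) (nat_lit 0) (nat_lit 0) (XT.lf (nat_lit 0) (nat_lit 6761143955) (nat_lit 228) (nat_lit 32016349964) (nat_lit 76) (nat_lit 4105082074) (nat_lit 30) (nat_lit 5) (nat_lit 33) (nat_lit 5) (nat_lit 31) (nat_lit 4) (nat_lit 420) (nat_lit 305) (nat_lit 175)) (XT.lf (nat_lit 0) (nat_lit 14997693560) (nat_lit 228) (nat_lit 15325339696) (nat_lit 76) (nat_lit 13563196230) (nat_lit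 30) (nat_lit 5) (nat_lit 33) (nat_lit 5) (nat_lit 31) (nat_lit 4) (nat_lit 421) (nat_lit 305) (nat_lit 174)))) (XT.nd (nat_lit 78) (nat_lit 0) (nat_lit 0) (XT.lf (nat_lit 0) (nat_lit 1882306612) (nat_lit 76) (nat_lit 21606018316) (nat_lit 152) (nat_lit 21431459242) (nat_lit 29) (nat_lit 5) (nat_lit 30) (nat_lit 5) (nat_lit 31) (nat_lit 4) (nat_lit 422) (nat_lit 305) (nat_lit 173)) (XT.nd (nat_lit 78) (nat_lit 0) (nat_lit 0) (XT.lf (nat_lit 0) (nat_lit 19899716064) (nat_lit 76) (nat_lit 12477731779) (nat_lit 152) (nat_lit 13602585582) (nat_lit 29) (nat_lit 5) (nat_lit 30) (nat_lit 5) (nat_lit 31) (nat_lit 4) (nat_lit 423) (nat_lit 305) (nat_lit 172)) (XT.lf (nat_lit 0) (nat_lit 38437627719) (nat_lit 76) (nat_lit 3084953355) (nat_lit 152) (nat_lit 5549830064) (nat_lit 29) (nat_lit 5) (nat_lit 30) (nat_lit 5) (nat_lit 31) (nat_lit 4) (nat_lit 424) (nat_lit 305) (nat_lit 171))))) (XT.nd (nat_lit 234) (nat_lit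 228) (nat_lit 0) (XT.nd (nat_lit 78) (nat_lit 0) (nat_lit 0) (XT.lf (nat_lit 0) (nat_lit 2835974050) (nat_lit 152) (nat_lit 38785829705) (nat_lit 76) (nat_lit 6570615351) (nat_lit 27) (nat_lit 5) (nat_lit 29) (nat_lit 5) (nat_lit 28) (nat_lit 4) (nat_lit 425) (nat_lit 305) (nat_lit 170)) (XT.nd (nat_lit 78) (nat_lit 0) (nat_lit 0) (XT.lf (nat_lit 0) (nat_lit 11469981604) (nat_lit 152) (nat_lit 21283236709) (nat_lit 76) (nat_lit 16587916260) (nat_lit 27) (nat_lit 5) (nat_lit 29) (nat_lit 5) (nat_lit 28) (nat_lit 4) (nat_lit 426) (nat_lit 305) (nat_lit 169)) (XT.lf (nat_lit 0) (nat_lit 20352886684) (nat_lit 152) (nat_lit 3274669821) (nat_lit 76) (nat_lit 26897059637) (nat_lit 27) (nat_lit 5) (nat_lit 29) (nat_lit 5) (nat_lit 28) (nat_lit 4) (nat_lit 427) (nat_lit 305) (nat_lit 168)))) (XT.nd (nat_lit 156) (nat_lit 152) (nat_lit 0) (XT.nd (nat_lit 78) (nat_lit 0) (nat_lit 0) (XT.lf (nat_lit 0) (nat_lit 15559223084)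 (nat_lit 76) (nat_lit 14082792740) (nat_lit 152) (nat_lit 22097395158) (nat_lit 26) (nat_lit 5) (nat_lit 27) (nat_lit 5) (nat_lit 28) (nat_lit 4) (nat_lit 428) (nat_lit 305) (nat_lit 167)) (XT.lf (nat_lit 0) (nat_lit 35006894664) (nat_lit 76) (nat_lit 4226273762) (nat_lit 152) (nat_lit 13756781656) (nat_lit 26) (nat_lit 5) (nat_lit 27) (nat_lit 5) (nat_lit 28) (nat_lit 4) (nat_lit 429) (nat_lit 305) (nat_lit 166))) (XT.nd (nat_lit 78) (nat_lit 76) (nat_lit 0) (XT.lf (nat_lit 0) (nat_lit 698626038) (nat_lit 76) (nat_lit 48467593148) (nat_lit 76) (nat_lit 5110162136) (nat_lit 25) (nat_lit 4) (nat_lit 26) (nat_lit 5) (nat_lit 26) (nat_lit 4) (nat_lit 430) (nat_lit 305) (nat_lit 165)) (XT.lf (nat_lit 0) (nat_lit 3937516688) (nat_lit 152) (nat_lit 35384742207) (nat_lit 76) (nat_lit 16271580843) (nat_lit 24) (nat_lit 5) (nat_lit 26) (nat_lit 5) (nat_lit 25) (nat_lit 4) (nat_lit 431) (nat_lit 305) (nat_lit 164))))))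 (XT.nd (nat_lit 546) (nat_lit 228) (nat_lit 0) (XT.nd (nat_lit 234) (nat_lit 152) (nat_lit 0) (XT.nd (nat_lit 78) (nat_lit 76) (nat_lit 0) (XT.lf (nat_lit 0) (nat_lit 13144689196) (nat_lit 152) (nat_lit 16714055873) (nat_lit 76) (nat_lit 27090836594) (nat_lit 24) (nat_lit 5) (nat_lit 26) (nat_lit 5) (nat_lit 25) (nat_lit 4) (nat_lit 432) (nat_lit 305) (nat_lit 163)) (XT.nd (nat_lit 78) (nat_lit 0) (nat_lit 0) (XT.lf (nat_lit 0) (nat_lit 2549489638) (nat_lit 76) (nat_lit 20094135774) (nat_lit 152) (nat_lit 35701904756) (nat_lit 23) (nat_lit 5) (nat_lit 24) (nat_lit 5) (nat_lit 25) (nat_lit 4) (nat_lit 433) (nat_lit 305) (nat_lit 162)) (XT.lf (nat_lit 0) (nat_lit 22716718911) (nat_lit 76) (nat_lit 9870730289) (nat_lit 152) (nat_lit 27191111100) (nat_lit 23) (nat_lit 5) (nat_lit 24) (nat_lit 5) (nat_lit 25) (nat_lit 4) (nat_lit 434) (nat_lit 305) (nat_lit 161)))) (XT.nd (nat_lit 156) (nat_lit 76) (nat_lit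 0) (XT.nd (nat_lit 78) (nat_lit 76) (nat_lit 0) (XT.lf (nat_lit 0) (nat_lit 42827249867) (nat_lit 152) (nat_lit 17788492628) (nat_lit 0) (nat_lit 638909710) (nat_lit 23) (nat_lit 5) (nat_lit 25) (nat_lit 4) (nat_lit 23) (nat_lit 4) (nat_lit 435) (nat_lit 305) (nat_lit 160)) (XT.lf (nat_lit 0) (nat_lit 1988064568) (nat_lit 76) (nat_lit 51494597011) (nat_lit 76) (nat_lit 9289113489) (nat_lit 22) (nat_lit 4) (nat_lit 23) (nat_lit 5) (nat_lit 23) (nat_lit 4) (nat_lit 436) (nat_lit 305) (nat_lit 159))) (XT.nd (nat_lit 78) (nat_lit 0) (nat_lit 0) (XT.lf (nat_lit 0) (nat_lit 293910808) (nat_lit 152) (nat_lit 41625488622) (nat_lit 76) (nat_lit 22409787497) (nat_lit 21) (nat_lit 5) (nat_lit 23) (nat_lit 5) (nat_lit 22) (nat_lit 4) (nat_lit 437) (nat_lit 305) (nat_lit 158)) (XT.lf (nat_lit 0) (nat_lit 9969554804) (nat_lit 152) (nat_lit 22000090575) (nat_lit 76) (nat_lit 33961162343) (nat_lit 21) (nat_lit 5) (nat_lit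 23) (nat_lit 5) (nat_lit 22) (nat_lit 4) (nat_lit 438) (nat_lit 305) (nat_lit 157))))) (XT.nd (nat_lit 234) (nat_lit 152) (nat_lit 0) (XT.nd (nat_lit 78) (nat_lit 76) (nat_lit 0) (XT.lf (nat_lit 0) (nat_lit 19927537006) (nat_lit 152) (nat_lit 1801075313) (nat_lit 76) (nat_lit 45852103389) (nat_lit 21) (nat_lit 5) (nat_lit 23) (nat_lit 5) (nat_lit 22) (nat_lit 4) (nat_lit 439) (nat_lit 305) (nat_lit 156)) (XT.nd (nat_lit 78) (nat_lit 0) (nat_lit 0) (XT.lf (nat_lit 0) (nat_lit 19367129236) (nat_lit 76) (nat_lit 10995598019) (nat_lit 152) (nat_lit 38912040236) (nat_lit 20) (nat_lit 5) (nat_lit 21) (nat_lit 5) (nat_lit 22) (nat_lit 4) (nat_lit 440) (nat_lit 305) (nat_lit 155)) (XT.lf (nat_lit 0) (nat_lit 41122229131) (nat_lit 152) (nat_lit 29827267920) (nat_lit 0) (nat_lit 69806695) (nat_lit 20) (nat_lit 5) (nat_lit 22) (nat_lit 4) (nat_lit 20) (nat_lit 4) (nat_lit 441) (nat_lit 305) (nat_lit 154)))) (XT.nd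 (nat_lit 156) (nat_lit 76) (nat_lit 0) (XT.nd (nat_lit 78) (nat_lit 76) (nat_lit 0) (XT.lf (nat_lit 0) (nat_lit 52305924596) (nat_lit 152) (nat_lit 9267646781) (nat_lit 0) (nat_lit 11239563036) (nat_lit 20) (nat_lit 5) (nat_lit 22) (nat_lit 4) (nat_lit 20) (nat_lit 4) (nat_lit 442) (nat_lit 305) (nat_lit 153)) (XT.lf (nat_lit 0) (nat_lit 12131617855) (nat_lit 76) (nat_lit 51802888074) (nat_lit 76) (nat_lit 10722993383) (nat_lit 19) (nat_lit 4) (nat_lit 20) (nat_lit 5) (nat_lit 20) (nat_lit 4) (nat_lit 443) (nat_lit 305) (nat_lit 152))) (XT.nd (nat_lit 78) (nat_lit 76) (nat_lit 0) (XT.lf (nat_lit 0) (nat_lit 34349097453) (nat_lit 76) (nat_lit 41649269616) (nat_lit 76) (nat_lit 556235964) (nat_lit 19) (nat_lit 4) (nat_lit 20) (nat_lit 5) (nat_lit 20) (nat_lit 4) (nat_lit 444) (nat_lit 305) (nat_lit 151)) (XT.lf (nat_lit 0) (nat_lit 9715013142) (nat_lit 152) (nat_lit 21384313244) (nat_lit 76) (nat_lit 47406645274)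 (nat_lit 18) (nat_lit 5) (nat_lit 20) (nat_lit 5) (nat_lit 19) (nat_lit 4) (nat_lit 445) (nat_lit 305) (nat_lit 150))))))))
noncomputable def xc120 : XT := (XT.nd (nat_lit 37908) (nat_lit 0) (nat_lit 8664) (XT.nd (nat_lit 36894) (nat_lit 0) (nat_lit 17404) (XT.nd (nat_lit 36348) (nat_lit 0) (nat_lit 24016) (XT.nd (nat_lit 36114) (nat_lit 0) (nat_lit 25156) (XT.nd (nat_lit 35958) (nat_lit 0) (nat_lit 25688) (XT.lf (nat_lit 0) (nat_lit 43773665) (nat_lit 76) (nat_lit 20233048167) (nat_lit 152) (nat_lit 60239086740) (nat_lit 17) (nat_lit 5) (nat_lit 18) (nat_lit 5) (nat_lit 19) (nat_lit 4) (nat_lit 446) (nat_lit 305) (nat_lit 149)) (XT.nd (nat_lit 78) (nat_lit 0) (nat_lit 0) (XT.lf (nat_lit 0) (nat_lit 152318254) (nat_lit 532) (nat_lit 1572957893) (nat_lit 532) (nat_lit 1572957893) (nat_lit 355) (nat_lit 3) (nat_lit 362) (nat_lit 3) (nat_lit 362) (nat_lit 5) (nat_lit 306) (nat_lit 306) (nat_lit 288)) (XT.lf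 (nat_lit 76) (nat_lit 39816472) (nat_lit 0) (nat_lit 2598049486) (nat_lit 532) (nat_lit 3985797408) (nat_lit 356) (nat_lit 5) (nat_lit 355) (nat_lit 3) (nat_lit 362) (nat_lit 5) (nat_lit 307) (nat_lit 306) (nat_lit 287)))) (XT.nd (nat_lit 78) (nat_lit 532) (nat_lit 0) (XT.lf (nat_lit 76) (nat_lit 3337843837) (nat_lit 0) (nat_lit 1643690741) (nat_lit 532) (nat_lit 1672000498) (nat_lit 356) (nat_lit 5) (nat_lit 355) (nat_lit 3) (nat_lit 362) (nat_lit 5) (nat_lit 308) (nat_lit 306) (nat_lit 286)) (XT.nd (nat_lit 78) (nat_lit 0) (nat_lit 76) (XT.lf (nat_lit 0) (nat_lit 607718547) (nat_lit 532) (nat_lit 4554424) (nat_lit 608) (nat_lit 6074582872) (nat_lit 348) (nat_lit 5) (nat_lit 355) (nat_lit 3) (nat_lit 356) (nat_lit 5) (nat_lit 309) (nat_lit 306) (nat_lit 285)) (XT.lf (nat_lit 0) (nat_lit 2873191335) (nat_lit 532) (nat_lit 3318512417) (nat_lit 608) (nat_lit 530514387) (nat_lit 349) (nat_lit 5) (nat_lit 356)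 (nat_lit 5) (nat_lit 357) (nat_lit 5) (nat_lit 310) (nat_lit 306) (nat_lit 284))))) (XT.nd (nat_lit 234) (nat_lit 608) (nat_lit 0) (XT.nd (nat_lit 78) (nat_lit 608) (nat_lit 0) (XT.lf (nat_lit 76) (nat_lit 102253024) (nat_lit 0) (nat_lit 5026922353) (nat_lit 608) (nat_lit 1631855118) (nat_lit 350) (nat_lit 5) (nat_lit 349) (nat_lit 5) (nat_lit 357) (nat_lit 5) (nat_lit 311) (nat_lit 306) (nat_lit 283)) (XT.nd (nat_lit 78) (nat_lit 0) (nat_lit 0) (XT.lf (nat_lit 0) (nat_lit 589522948) (nat_lit 608) (nat_lit 3163517162) (nat_lit 684) (nat_lit 3049328650) (nat_lit 341) (nat_lit 5) (nat_lit 349) (nat_lit 5) (nat_lit 350) (nat_lit 5) (nat_lit 312) (nat_lit 306) (nat_lit 282)) (XT.lf (nat_lit 76) (nat_lit 378722227) (nat_lit 0) (nat_lit 2388660570) (nat_lit 684) (nat_lit 4079460531) (nat_lit 342) (nat_lit 5) (nat_lit 341) (nat_lit 5) (nat_lit 350) (nat_lit 5) (nat_lit 313) (nat_lit 306) (nat_lit 281)))) (XT.nd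 (nat_lit 156) (nat_lit 0) (nat_lit 0) (XT.nd (nat_lit 78) (nat_lit 608) (nat_lit 0) (XT.lf (nat_lit 76) (nat_lit 4043447308) (nat_lit 0) (nat_lit 919966856) (nat_lit 684) (nat_lit 1930711185) (nat_lit 342) (nat_lit 5) (nat_lit 341) (nat_lit 5) (nat_lit 350) (nat_lit 5) (nat_lit 314) (nat_lit 306) (nat_lit 280)) (XT.lf (nat_lit 0) (nat_lit 213524733) (nat_lit 684) (nat_lit 6110814336) (nat_lit 760) (nat_lit 620364134) (nat_lit 333) (nat_lit 5) (nat_lit 342) (nat_lit 5) (nat_lit 343) (nat_lit 5) (nat_lit 315) (nat_lit 306) (nat_lit 279))) (XT.nd (nat_lit 78) (nat_lit 0) (nat_lit 0) (XT.lf (nat_lit 0) (nat_lit 2345901266) (nat_lit 684) (nat_lit 2387943073) (nat_lit 760) (nat_lit 2263555350) (nat_lit 333) (nat_lit 5) (nat_lit 342) (nat_lit 5) (nat_lit 343) (nat_lit 5) (nat_lit 316) (nat_lit 306) (nat_lit 278)) (XT.lf (nat_lit 76) (nat_lit 1424976469) (nat_lit 0) (nat_lit 3057610241) (nat_lit 760) (nat_lit 2570932019)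 (nat_lit 334) (nat_lit 5) (nat_lit 333) (nat_lit 5) (nat_lit 343) (nat_lit 5) (nat_lit 317) (nat_lit 306) (nat_lit 277)))))) (XT.nd (nat_lit 468) (nat_lit 4256) (nat_lit 0) (XT.nd (nat_lit 234) (nat_lit 1672) (nat_lit 0) (XT.nd (nat_lit 78) (nat_lit 684) (nat_lit 0) (XT.lf (nat_lit 76) (nat_lit 5352274558) (nat_lit 0) (nat_lit 1283517648) (nat_lit 760) (nat_lit 477006829) (nat_lit 334) (nat_lit 5) (nat_lit 333) (nat_lit 5) (nat_lit 343) (nat_lit 5) (nat_lit 318) (nat_lit 306) (nat_lit 276)) (XT.nd (nat_lit 78) (nat_lit 0) (nat_lit 0) (XT.lf (nat_lit 0) (nat_lit 1603578393) (nat_lit 760) (nat_lit 4979335426) (nat_lit 76) (nat_lit 591808325) (nat_lit 324) (nat_lit 5) (nat_lit 334) (nat_lit 5) (nat_lit 325) (nat_lit 5) (nat_lit 319) (nat_lit 306) (nat_lit 275)) (XT.lf (nat_lit 0) (nat_lit 3699090211) (nat_lit 760) (nat_lit 1000316536) (nat_lit 76) (nat_lit 2540137637) (nat_lit 324) (nat_lit 5) (nat_lit 334)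 (nat_lit 5) (nat_lit 325) (nat_lit 5) (nat_lit 320) (nat_lit 306) (nat_lit 274)))) (XT.nd (nat_lit 78) (nat_lit 912) (nat_lit 0) (XT.lf (nat_lit 0) (nat_lit 3109424480) (nat_lit 760) (nat_lit 2711364091) (nat_lit 836) (nat_lit 1486667755) (nat_lit 314) (nat_lit 5) (nat_lit 324) (nat_lit 5) (nat_lit 325) (nat_lit 5) (nat_lit 321) (nat_lit 306) (nat_lit 273)) (XT.nd (nat_lit 78) (nat_lit 836) (nat_lit 0) (XT.lf (nat_lit 0) (nat_lit 560878499) (nat_lit 836) (nat_lit 70475446) (nat_lit 76) (nat_lit 6747580025) (nat_lit 313) (nat_lit 5) (nat_lit 324) (nat_lit 5) (nat_lit 314) (nat_lit 5) (nat_lit 322) (nat_lit 306) (nat_lit 272)) (XT.lf (nat_lit 0) (nat_lit 2631683897) (nat_lit 912) (nat_lit 3268673235) (nat_lit 76) (nat_lit 1552046710) (nat_lit 302) (nat_lit 5) (nat_lit 314) (nat_lit 5) (nat_lit 303) (nat_lit 5) (nat_lit 323) (nat_lit 306) (nat_lit 271))))) (XT.nd (nat_lit 234) (nat_lit 2280) (nat_lit 0) (XT.nd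 (nat_lit 78) (nat_lit 1064) (nat_lit 0) (XT.lf (nat_lit 0) (nat_lit 1001941208) (nat_lit 912) (nat_lit 3716936349) (nat_lit 988) (nat_lit 2810612021) (nat_lit 290) (nat_lit 5) (nat_lit 302) (nat_lit 5) (nat_lit 303) (nat_lit 5) (nat_lit 324) (nat_lit 306) (nat_lit 270)) (XT.nd (nat_lit 78) (nat_lit 1064) (nat_lit 0) (XT.lf (nat_lit 0) (nat_lit 5417868592) (nat_lit 912) (nat_lit 1422825547) (nat_lit 988) (nat_lit 769072068) (nat_lit 290) (nat_lit 5) (nat_lit 302) (nat_lit 5) (nat_lit 303) (nat_lit 5) (nat_lit 325) (nat_lit 306) (nat_lit 269)) (XT.lf (nat_lit 0) (nat_lit 1278999748) (nat_lit 1064) (nat_lit 5447297944) (nat_lit 76) (nat_lit 966665816) (nat_lit 276) (nat_lit 5) (nat_lit 290) (nat_lit 5) (nat_lit 277) (nat_lit 5) (nat_lit 326) (nat_lit 306) (nat_lit 268)))) (XT.nd (nat_lit 156) (nat_lit 1216) (nat_lit 0) (XT.nd (nat_lit 78) (nat_lit 1064) (nat_lit 0) (XT.lf (nat_lit 0) (nat_lit 3351012292) (nat_lit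 1064) (nat_lit 989610575) (nat_lit 76) (nat_lit 3438502004) (nat_lit 276) (nat_lit 5) (nat_lit 290) (nat_lit 5) (nat_lit 277) (nat_lit 5) (nat_lit 327) (nat_lit 306) (nat_lit 267)) (XT.lf (nat_lit 0) (nat_lit 3623006137) (nat_lit 1064) (nat_lit 1840224814) (nat_lit 1140) (nat_lit 2405332989) (nat_lit 262) (nat_lit 5) (nat_lit 276) (nat_lit 5) (nat_lit 277) (nat_lit 5) (nat_lit 328) (nat_lit 306) (nat_lit 266))) (XT.nd (nat_lit 78) (nat_lit 76) (nat_lit 0) (XT.lf (nat_lit 0) (nat_lit 383438923) (nat_lit 1140) (nat_lit 7220687352) (nat_lit 1216) (nat_lit 357633843) (nat_lit 247) (nat_lit 5) (nat_lit 262) (nat_lit 5) (nat_lit 263) (nat_lit 5) (nat_lit 329) (nat_lit 306) (nat_lit 265)) (XT.lf (nat_lit 0) (nat_lit 1723863673) (nat_lit 1216) (nat_lit 2905017581) (nat_lit 76) (nat_lit 3428200805) (nat_lit 246) (nat_lit 5) (nat_lit 262) (nat_lit 5) (nat_lit 247) (nat_lit 5) (nat_lit 330) (nat_lit 306) (nat_lit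 264))))))) (XT.nd (nat_lit 1014) (nat_lit 3420) (nat_lit 0) (XT.nd (nat_lit 468) (nat_lit 2204) (nat_lit 0) (XT.nd (nat_lit 234) (nat_lit 1292) (nat_lit 0) (XT.nd (nat_lit 78) (nat_lit 608) (nat_lit 0) (XT.lf (nat_lit 0) (nat_lit 1891954413) (nat_lit 1216) (nat_lit 1933480402) (nat_lit 1292) (nat_lit 4330808531) (nat_lit 230) (nat_lit 5) (nat_lit 246) (nat_lit 5) (nat_lit 247) (nat_lit 5) (nat_lit 331) (nat_lit 306) (nat_lit 263)) (XT.nd (nat_lit 78) (nat_lit 608) (nat_lit 0) (XT.lf (nat_lit 0) (nat_lit 5975517035) (nat_lit 1292) (nat_lit 1424550818) (nat_lit 76) (nat_lit 858777236) (nat_lit 230) (nat_lit 5) (nat_lit 247) (nat_lit 5) (nat_lit 231) (nat_lit 5) (nat_lit 332) (nat_lit 306) (nat_lit 262)) (XT.lf (nat_lit 0) (nat_lit 3561168866) (nat_lit 608) (nat_lit 4631567750) (nat_lit 684) (nat_lit 171737894) (nat_lit 222) (nat_lit 5) (nat_lit 230) (nat_lit 5) (nat_lit 231) (nat_lit 5) (nat_lit 333) (nat_lit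 306) (nat_lit 261)))) (XT.nd (nat_lit 78) (nat_lit 608) (nat_lit 0) (XT.lf (nat_lit 0) (nat_lit 186971092) (nat_lit 608) (nat_lit 1743209951) (nat_lit 684) (nat_lit 6543558997) (nat_lit 213) (nat_lit 5) (nat_lit 221) (nat_lit 5) (nat_lit 222) (nat_lit 5) (nat_lit 334) (nat_lit 306) (nat_lit 260)) (XT.nd (nat_lit 78) (nat_lit 608) (nat_lit 0) (XT.lf (nat_lit 0) (nat_lit 4103260204) (nat_lit 684) (nat_lit 3224540201) (nat_lit 76) (nat_lit 1258111727) (nat_lit 213) (nat_lit 5) (nat_lit 222) (nat_lit 5) (nat_lit 214) (nat_lit 5) (nat_lit 335) (nat_lit 306) (nat_lit 259)) (XT.lf (nat_lit 0) (nat_lit 1960939975) (nat_lit 608) (nat_lit 4368865497) (nat_lit 684) (nat_lit 2372021182) (nat_lit 205) (nat_lit 5) (nat_lit 213) (nat_lit 5) (nat_lit 214) (nat_lit 5) (nat_lit 336) (nat_lit 306) (nat_lit 258))))) (XT.nd (nat_lit 234) (nat_lit 1064) (nat_lit 0) (XT.nd (nat_lit 78) (nat_lit 1140) (nat_lit 0) (XT.lf (nat_lit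 0) (nat_lit 7318950020) (nat_lit 608) (nat_lit 1289844042) (nat_lit 684) (nat_lit 212879872) (nat_lit 205) (nat_lit 5) (nat_lit 213) (nat_lit 5) (nat_lit 214) (nat_lit 5) (nat_lit 337) (nat_lit 306) (nat_lit 257)) (XT.nd (nat_lit 78) (nat_lit 532) (nat_lit 0) (XT.lf (nat_lit 0) (nat_lit 1981890713) (nat_lit 608) (nat_lit 5062712803) (nat_lit 76) (nat_lit 1899653566) (nat_lit 197) (nat_lit 5) (nat_lit 205) (nat_lit 5) (nat_lit 198) (nat_lit 5) (nat_lit 338) (nat_lit 306) (nat_lit 256)) (XT.lf (nat_lit 0) (nat_lit 329979111) (nat_lit 532) (nat_lit 3894339922) (nat_lit 608) (nat_lit 4846575294) (nat_lit 190) (nat_lit 5) (nat_lit 197) (nat_lit 5) (nat_lit 198) (nat_lit 5) (nat_lit 339) (nat_lit 306) (nat_lit 255)))) (XT.nd (nat_lit 156) (nat_lit 608) (nat_lit 0) (XT.nd (nat_lit 78) (nat_lit 456) (nat_lit 0) (XT.lf (nat_lit 0) (nat_lit 5939204189) (nat_lit 532) (nat_lit 601609741) (nat_lit 608) (nat_lit 2660334925)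 (nat_lit 190) (nat_lit 5) (nat_lit 197) (nat_lit 5) (nat_lit 198) (nat_lit 5) (nat_lit 340) (nat_lit 306) (nat_lit 254)) (XT.lf (nat_lit 0) (nat_lit 2351595977) (nat_lit 456) (nat_lit 6581548486) (nat_lit 532) (nat_lit 401997668) (nat_lit 184) (nat_lit 5) (nat_lit 190) (nat_lit 5) (nat_lit 191) (nat_lit 5) (nat_lit 341) (nat_lit 306) (nat_lit 253))) (XT.nd (nat_lit 78) (nat_lit 532) (nat_lit 0) (XT.lf (nat_lit 0) (nat_lit 1883033881) (nat_lit 532) (nat_lit 1345796042) (nat_lit 76) (nat_lit 6243895825) (nat_lit 183) (nat_lit 5) (nat_lit 190) (nat_lit 5) (nat_lit 184) (nat_lit 5) (nat_lit 342) (nat_lit 306) (nat_lit 252)) (XT.lf (nat_lit 0) (nat_lit 4232841896) (nat_lit 608) (nat_lit 5119814823) (nat_lit 76) (nat_lit 261551116) (nat_lit 176) (nat_lit 5) (nat_lit 184) (nat_lit 5) (nat_lit 177) (nat_lit 5) (nat_lit 343) (nat_lit 306) (nat_lit 251)))))) (XT.nd (nat_lit 546) (nat_lit 1520) (nat_lit 0) (XT.nd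 (nat_lit 234) (nat_lit 912) (nat_lit 0) (XT.nd (nat_lit 78) (nat_lit 532) (nat_lit 0) (XT.lf (nat_lit 0) (nat_lit 711087253) (nat_lit 456) (nat_lit 5953787659) (nat_lit 532) (nat_lit 3094726507) (nat_lit 170) (nat_lit 5) (nat_lit 176) (nat_lit 5) (nat_lit 177) (nat_lit 5) (nat_lit 344) (nat_lit 306) (nat_lit 250)) (XT.nd (nat_lit 78) (nat_lit 532) (nat_lit 0) (XT.lf (nat_lit 0) (nat_lit 6773809395) (nat_lit 456) (nat_lit 2407688218) (nat_lit 532) (nat_lit 727528741) (nat_lit 170) (nat_lit 5) (nat_lit 176) (nat_lit 5) (nat_lit 177) (nat_lit 5) (nat_lit 345) (nat_lit 306) (nat_lit 249)) (XT.lf (nat_lit 0) (nat_lit 1678676013) (nat_lit 532) (nat_lit 7125992668) (nat_lit 76) (nat_lit 1257748198) (nat_lit 163) (nat_lit 5) (nat_lit 170) (nat_lit 5) (nat_lit 164) (nat_lit 5) (nat_lit 346) (nat_lit 306) (nat_lit 248)))) (XT.nd (nat_lit 156) (nat_lit 532) (nat_lit 0) (XT.nd (nat_lit 78) (nat_lit 380) (nat_lit 0)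 (XT.lf (nat_lit 0) (nat_lit 4159561423) (nat_lit 532) (nat_lit 1044418558) (nat_lit 76) (nat_lit 5015716372) (nat_lit 163) (nat_lit 5) (nat_lit 170) (nat_lit 5) (nat_lit 164) (nat_lit 5) (nat_lit 347) (nat_lit 306) (nat_lit 247)) (XT.lf (nat_lit 0) (nat_lit 5275867050) (nat_lit 380) (nat_lit 1452153846) (nat_lit 456) (nat_lit 3653295242) (nat_lit 158) (nat_lit 5) (nat_lit 163) (nat_lit 5) (nat_lit 164) (nat_lit 5) (nat_lit 348) (nat_lit 306) (nat_lit 246))) (XT.nd (nat_lit 78) (nat_lit 76) (nat_lit 0) (XT.lf (nat_lit 0) (nat_lit 1212813730) (nat_lit 456) (nat_lit 8169210477) (nat_lit 532) (nat_lit 1165521484) (nat_lit 152) (nat_lit 5) (nat_lit 158) (nat_lit 5) (nat_lit 159) (nat_lit 5) (nat_lit 349) (nat_lit 306) (nat_lit 245)) (XT.lf (nat_lit 0) (nat_lit 1399316099) (nat_lit 532) (nat_lit 2967796427) (nat_lit 76) (nat_lit 6350371070) (nat_lit 151) (nat_lit 5) (nat_lit 158) (nat_lit 5) (nat_lit 152) (nat_lit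 5) (nat_lit 350) (nat_lit 306) (nat_lit 244))))) (XT.nd (nat_lit 234) (nat_lit 760) (nat_lit 0) (XT.nd (nat_lit 78) (nat_lit 380) (nat_lit 0) (XT.lf (nat_lit 0) (nat_lit 3602748639) (nat_lit 380) (nat_lit 413872331) (nat_lit 456) (nat_lit 6875598565) (nat_lit 146) (nat_lit 5) (nat_lit 151) (nat_lit 5) (nat_lit 152) (nat_lit 5) (nat_lit 351) (nat_lit 306) (nat_lit 243)) (XT.nd (nat_lit 78) (nat_lit 380) (nat_lit 0) (XT.lf (nat_lit 0) (nat_lit 6742687218) (nat_lit 456) (nat_lit 722184073) (nat_lit 76) (nat_lit 3606433098) (nat_lit 146) (nat_lit 5) (nat_lit 152) (nat_lit 5) (nat_lit 147) (nat_lit 5) (nat_lit 352) (nat_lit 306) (nat_lit 242)) (XT.lf (nat_lit 0) (nat_lit 6111976451) (nat_lit 380) (nat_lit 3467247624) (nat_lit 456) (nat_lit 1675690750) (nat_lit 141) (nat_lit 5) (nat_lit 146) (nat_lit 5) (nat_lit 147) (nat_lit 5) (nat_lit 353) (nat_lit 306) (nat_lit 241)))) (XT.nd (nat_lit 156) (nat_lit 380) (nat_lit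 0) (XT.nd (nat_lit 78) (nat_lit 0) (nat_lit 0) (XT.lf (nat_lit 0) (nat_lit 1032434301) (nat_lit 380) (nat_lit 9750997821) (nat_lit 76) (nat_lit 660422598) (nat_lit 136) (nat_lit 5) (nat_lit 141) (nat_lit 5) (nat_lit 137) (nat_lit 5) (nat_lit 354) (nat_lit 306) (nat_lit 240)) (XT.lf (nat_lit 0) (nat_lit 3841399467) (nat_lit 380) (nat_lit 2895200817) (nat_lit 76) (nat_lit 4899779048) (nat_lit 136) (nat_lit 5) (nat_lit 141) (nat_lit 5) (nat_lit 137) (nat_lit 5) (nat_lit 355) (nat_lit 306) (nat_lit 239))) (XT.nd (nat_lit 78) (nat_lit 0) (nat_lit 0) (XT.lf (nat_lit 0) (nat_lit 4203625284) (nat_lit 380) (nat_lit 2538890990) (nat_lit 456) (nat_lit 5091939094) (nat_lit 131) (nat_lit 5) (nat_lit 136) (nat_lit 5) (nat_lit 137) (nat_lit 5) (nat_lit 356) (nat_lit 306) (nat_lit 238)) (XT.lf (nat_lit 0) (nat_lit 9745227421) (nat_lit 456) (nat_lit 525366272) (nat_lit 76) (nat_lit 1767454981) (nat_lit 131) (nat_lit 5)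 (nat_lit 137) (nat_lit 5) (nat_lit 132) (nat_lit 5) (nat_lit 357) (nat_lit 306) (nat_lit 237))))))))
noncomputable def xc121 : XT := (XT.nd (nat_lit 2106) (nat_lit 2508) (nat_lit 0) (XT.nd (nat_lit 1014) (nat_lit 1976) (nat_lit 0) (XT.nd (nat_lit 468) (nat_lit 1216) (nat_lit 0) (XT.nd (nat_lit 234) (nat_lit 684) (nat_lit 0) (XT.nd (nat_lit 78) (nat_lit 304) (nat_lit 0) (XT.lf (nat_lit 0) (nat_lit 639210908) (nat_lit 380) (nat_lit 5394055833) (nat_lit 76) (nat_lit 6212510181) (nat_lit 126) (nat_lit 5) (nat_lit 131) (nat_lit 5) (nat_lit 127) (nat_lit 5) (nat_lit 358) (nat_lit 306) (nat_lit 236)) (XT.nd (nat_lit 78) (nat_lit 0) (nat_lit 0) (XT.lf (nat_lit 0) (nat_lit 1973086472) (nat_lit 304) (nat_lit 1633350115) (nat_lit 380) (nat_lit 8852830724) (nat_lit 122) (nat_lit 5) (nat_lit 126) (nat_lit 5) (nat_lit 127) (nat_lit 5) (nat_lit 359) (nat_lit 306) (nat_lit 235)) (XT.lf (nat_lit 0) (nat_lit 6714901708)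 (nat_lit 380) (nat_lit 3078458954) (nat_lit 76) (nat_lit 2884245565) (nat_lit 122) (nat_lit 5) (nat_lit 127) (nat_lit 5) (nat_lit 123) (nat_lit 5) (nat_lit 360) (nat_lit 306) (nat_lit 234)))) (XT.nd (nat_lit 78) (nat_lit 380) (nat_lit 0) (XT.lf (nat_lit 0) (nat_lit 4581674914) (nat_lit 304) (nat_lit 5365403410) (nat_lit 380) (nat_lit 2954513452) (nat_lit 118) (nat_lit 5) (nat_lit 122) (nat_lit 5) (nat_lit 123) (nat_lit 5) (nat_lit 361) (nat_lit 306) (nat_lit 233)) (XT.nd (nat_lit 78) (nat_lit 304) (nat_lit 0) (XT.lf (nat_lit 0) (nat_lit 142910062) (nat_lit 380) (nat_lit 641566841) (nat_lit 76) (nat_lit 12347734232) (nat_lit 117) (nat_lit 5) (nat_lit 122) (nat_lit 5) (nat_lit 118) (nat_lit 5) (nat_lit 362) (nat_lit 306) (nat_lit 232)) (XT.lf (nat_lit 0) (nat_lit 3354360486) (nat_lit 380) (nat_lit 6067178793) (nat_lit 76) (nat_lit 3944926934) (nat_lit 113) (nat_lit 5) (nat_lit 118) (nat_lit 5) (nat_lit 114)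 (nat_lit 5) (nat_lit 363) (nat_lit 306) (nat_lit 231))))) (XT.nd (nat_lit 234) (nat_lit 608) (nat_lit 0) (XT.nd (nat_lit 78) (nat_lit 304) (nat_lit 0) (XT.lf (nat_lit 0) (nat_lit 1870340596) (nat_lit 304) (nat_lit 4795675645) (nat_lit 380) (nat_lit 6941625903) (nat_lit 109) (nat_lit 5) (nat_lit 113) (nat_lit 5) (nat_lit 114) (nat_lit 5) (nat_lit 364) (nat_lit 306) (nat_lit 230)) (XT.nd (nat_lit 78) (nat_lit 304) (nat_lit 0) (XT.lf (nat_lit 0) (nat_lit 10110461769) (nat_lit 380) (nat_lit 3726757160) (nat_lit 76) (nat_lit 17840010) (nat_lit 109) (nat_lit 5) (nat_lit 114) (nat_lit 5) (nat_lit 110) (nat_lit 5) (nat_lit 365) (nat_lit 306) (nat_lit 229)) (XT.lf (nat_lit 0) (nat_lit 4523542394) (nat_lit 304) (nat_lit 9198347950) (nat_lit 380) (nat_lit 386106936) (nat_lit 105) (nat_lit 5) (nat_lit 109) (nat_lit 5) (nat_lit 110) (nat_lit 5) (nat_lit 366) (nat_lit 306) (nat_lit 228)))) (XT.nd (nat_lit 156) (nat_lit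 304) (nat_lit 0) (XT.nd (nat_lit 78) (nat_lit 228) (nat_lit 0) (XT.lf (nat_lit 0) (nat_lit 3023987662) (nat_lit 380) (nat_lit 1341056047) (nat_lit 76) (nat_lit 10002277352) (nat_lit 104) (nat_lit 5) (nat_lit 109) (nat_lit 5) (nat_lit 105) (nat_lit 5) (nat_lit 367) (nat_lit 306) (nat_lit 227)) (XT.lf (nat_lit 0) (nat_lit 6578379934) (nat_lit 304) (nat_lit 7392557785) (nat_lit 76) (nat_lit 661887305) (nat_lit 101) (nat_lit 5) (nat_lit 105) (nat_lit 5) (nat_lit 102) (nat_lit 5) (nat_lit 368) (nat_lit 306) (nat_lit 226))) (XT.nd (nat_lit 78) (nat_lit 0) (nat_lit 0) (XT.lf (nat_lit 0) (nat_lit 1138961051) (nat_lit 304) (nat_lit 9142141620) (nat_lit 380) (nat_lit 4623948056) (nat_lit 97) (nat_lit 5) (nat_lit 101) (nat_lit 5) (nat_lit 102) (nat_lit 5) (nat_lit 369) (nat_lit 306) (nat_lit 225)) (XT.lf (nat_lit 0) (nat_lit 10037818573) (nat_lit 304) (nat_lit 4105970352) (nat_lit 380) (nat_lit 1040195183) (nat_lit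 97) (nat_lit 5) (nat_lit 101) (nat_lit 5) (nat_lit 102) (nat_lit 5) (nat_lit 370) (nat_lit 306) (nat_lit 224)))))) (XT.nd (nat_lit 546) (nat_lit 912) (nat_lit 0) (XT.nd (nat_lit 234) (nat_lit 532) (nat_lit 0) (XT.nd (nat_lit 78) (nat_lit 228) (nat_lit 0) (XT.lf (nat_lit 0) (nat_lit 2620886066) (nat_lit 304) (nat_lit 11740699974) (nat_lit 76) (nat_lit 1108295446) (nat_lit 93) (nat_lit 5) (nat_lit 97) (nat_lit 5) (nat_lit 94) (nat_lit 5) (nat_lit 371) (nat_lit 306) (nat_lit 223)) (XT.nd (nat_lit 78) (nat_lit 228) (nat_lit 0) (XT.lf (nat_lit 0) (nat_lit 6438977909) (nat_lit 304) (nat_lit 2877701371) (nat_lit 76) (nat_lit 6445331722) (nat_lit 93) (nat_lit 5) (nat_lit 97) (nat_lit 5) (nat_lit 94) (nat_lit 5) (nat_lit 372) (nat_lit 306) (nat_lit 222)) (XT.lf (nat_lit 0) (nat_lit 6336269225) (nat_lit 228) (nat_lit 4071932133) (nat_lit 304) (nat_lit 5653611920) (nat_lit 90) (nat_lit 5) (nat_lit 93) (nat_lit 5)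 (nat_lit 94) (nat_lit 5) (nat_lit 373) (nat_lit 306) (nat_lit 221)))) (XT.nd (nat_lit 156) (nat_lit 228) (nat_lit 0) (XT.nd (nat_lit 78) (nat_lit 304) (nat_lit 0) (XT.lf (nat_lit 0) (nat_lit 14514520147) (nat_lit 304) (nat_lit 535935338) (nat_lit 76) (nat_lit 1319619930) (nat_lit 90) (nat_lit 5) (nat_lit 94) (nat_lit 5) (nat_lit 91) (nat_lit 5) (nat_lit 374) (nat_lit 306) (nat_lit 220)) (XT.lf (nat_lit 0) (nat_lit 2121017453) (nat_lit 304) (nat_lit 7677712844) (nat_lit 76) (nat_lit 6885126981) (nat_lit 86) (nat_lit 5) (nat_lit 90) (nat_lit 5) (nat_lit 87) (nat_lit 5) (nat_lit 375) (nat_lit 306) (nat_lit 219))) (XT.nd (nat_lit 78) (nat_lit 0) (nat_lit 0) (XT.lf (nat_lit 0) (nat_lit 1817886482) (nat_lit 228) (nat_lit 4361323159) (nat_lit 304) (nat_lit 10827309098) (nat_lit 83) (nat_lit 5) (nat_lit 86) (nat_lit 5) (nat_lit 87) (nat_lit 5) (nat_lit 376) (nat_lit 306) (nat_lit 218)) (XT.lf (nat_lit 0) (nat_lit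 10426215969) (nat_lit 304) (nat_lit 5631406074) (nat_lit 76) (nat_lit 1279231593) (nat_lit 83) (nat_lit 5) (nat_lit 87) (nat_lit 5) (nat_lit 84) (nat_lit 5) (nat_lit 377) (nat_lit 306) (nat_lit 217))))) (XT.nd (nat_lit 234) (nat_lit 456) (nat_lit 0) (XT.nd (nat_lit 78) (nat_lit 304) (nat_lit 0) (XT.lf (nat_lit 0) (nat_lit 4214774037) (nat_lit 152) (nat_lit 10647087763) (nat_lit 228) (nat_lit 2813405378) (nat_lit 81) (nat_lit 5) (nat_lit 83) (nat_lit 5) (nat_lit 84) (nat_lit 5) (nat_lit 378) (nat_lit 306) (nat_lit 216)) (XT.nd (nat_lit 78) (nat_lit 228) (nat_lit 0) (XT.lf (nat_lit 0) (nat_lit 1414334536) (nat_lit 228) (nat_lit 3601351341) (nat_lit 76) (nat_lit 13006695499) (nat_lit 80) (nat_lit 5) (nat_lit 83) (nat_lit 5) (nat_lit 81) (nat_lit 5) (nat_lit 379) (nat_lit 306) (nat_lit 215)) (XT.lf (nat_lit 0) (nat_lit 5762563106) (nat_lit 304) (nat_lit 11767105411) (nat_lit 76) (nat_lit 847903737) (nat_lit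 77) (nat_lit 5) (nat_lit 81) (nat_lit 5) (nat_lit 78) (nat_lit 5) (nat_lit 380) (nat_lit 306) (nat_lit 214)))) (XT.nd (nat_lit 156) (nat_lit 304) (nat_lit 0) (XT.nd (nat_lit 78) (nat_lit 152) (nat_lit 0) (XT.lf (nat_lit 0) (nat_lit 10306046534) (nat_lit 304) (nat_lit 1625887518) (nat_lit 76) (nat_lit 6809545433) (nat_lit 77) (nat_lit 5) (nat_lit 81) (nat_lit 5) (nat_lit 78) (nat_lit 5) (nat_lit 381) (nat_lit 306) (nat_lit 213)) (XT.lf (nat_lit 0) (nat_lit 8959443476) (nat_lit 152) (nat_lit 6091564247) (nat_lit 228) (nat_lit 4063345738) (nat_lit 75) (nat_lit 5) (nat_lit 77) (nat_lit 5) (nat_lit 78) (nat_lit 5) (nat_lit 382) (nat_lit 306) (nat_lit 212))) (XT.nd (nat_lit 78) (nat_lit 0) (nat_lit 0) (XT.lf (nat_lit 0) (nat_lit 365450661) (nat_lit 228) (nat_lit 65081006) (nat_lit 304) (nat_lit 19067783233) (nat_lit 71) (nat_lit 5) (nat_lit 74) (nat_lit 5) (nat_lit 75) (nat_lit 5) (nat_lit 383) (nat_lit 306)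 (nat_lit 211)) (XT.lf (nat_lit 0) (nat_lit 5119416031) (nat_lit 304) (nat_lit 8616595552) (nat_lit 76) (nat_lit 6152325193) (nat_lit 71) (nat_lit 5) (nat_lit 75) (nat_lit 5) (nat_lit 72) (nat_lit 5) (nat_lit 384) (nat_lit 306) (nat_lit 210))))))) (XT.nd (nat_lit 1014) (nat_lit 1140) (nat_lit 0) (XT.nd (nat_lit 468) (nat_lit 760) (nat_lit 0) (XT.nd (nat_lit 234) (nat_lit 228) (nat_lit 0) (XT.nd (nat_lit 78) (nat_lit 228) (nat_lit 0) (XT.lf (nat_lit 0) (nat_lit 2223759369) (nat_lit 152) (nat_lit 7727089549) (nat_lit 228) (nat_lit 10339158129) (nat_lit 69) (nat_lit 5) (nat_lit 71) (nat_lit 5) (nat_lit 72) (nat_lit 5) (nat_lit 385) (nat_lit 306) (nat_lit 209)) (XT.nd (nat_lit 78) (nat_lit 228) (nat_lit 0) (XT.lf (nat_lit 0) (nat_lit 13532140501) (nat_lit 152) (nat_lit 1462218000) (nat_lit 228) (nat_lit 5707358991) (nat_lit 69) (nat_lit 5) (nat_lit 71) (nat_lit 5) (nat_lit 72) (nat_lit 5) (nat_lit 386) (nat_lit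 306) (nat_lit 208)) (XT.lf (nat_lit 0) (nat_lit 4051802304) (nat_lit 228) (nat_lit 16204864006) (nat_lit 304) (nat_lit 867092107) (nat_lit 66) (nat_lit 5) (nat_lit 69) (nat_lit 5) (nat_lit 70) (nat_lit 5) (nat_lit 387) (nat_lit 306) (nat_lit 207)))) (XT.nd (nat_lit 78) (nat_lit 152) (nat_lit 0) (XT.lf (nat_lit 0) (nat_lit 4106238435) (nat_lit 304) (nat_lit 5887626016) (nat_lit 76) (nat_lit 11561365594) (nat_lit 65) (nat_lit 5) (nat_lit 69) (nat_lit 5) (nat_lit 66) (nat_lit 5) (nat_lit 388) (nat_lit 306) (nat_lit 206)) (XT.nd (nat_lit 78) (nat_lit 0) (nat_lit 0) (XT.lf (nat_lit 0) (nat_lit 5702550442) (nat_lit 152) (nat_lit 3544798657) (nat_lit 228) (nat_lit 12750962554) (nat_lit 63) (nat_lit 5) (nat_lit 65) (nat_lit 5) (nat_lit 66) (nat_lit 5) (nat_lit 389) (nat_lit 306) (nat_lit 205)) (XT.lf (nat_lit 0) (nat_lit 14613814057) (nat_lit 228) (nat_lit 4754634635) (nat_lit 76) (nat_lit 3084106905) (nat_lit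 63) (nat_lit 5) (nat_lit 66) (nat_lit 5) (nat_lit 64) (nat_lit 5) (nat_lit 390) (nat_lit 306) (nat_lit 204))))) (XT.nd (nat_lit 234) (nat_lit 380) (nat_lit 0) (XT.nd (nat_lit 78) (nat_lit 228) (nat_lit 0) (XT.lf (nat_lit 0) (nat_lit 7206714700) (nat_lit 152) (nat_lit 13020776728) (nat_lit 228) (nat_lit 2690352291) (nat_lit 61) (nat_lit 5) (nat_lit 63) (nat_lit 5) (nat_lit 64) (nat_lit 5) (nat_lit 391) (nat_lit 306) (nat_lit 203)) (XT.nd (nat_lit 78) (nat_lit 152) (nat_lit 0) (XT.lf (nat_lit 0) (nat_lit 2591891317) (nat_lit 228) (nat_lit 3828465759) (nat_lit 76) (nat_lit 16975071788) (nat_lit 60) (nat_lit 5) (nat_lit 63) (nat_lit 5) (nat_lit 61) (nat_lit 5) (nat_lit 392) (nat_lit 306) (nat_lit 202)) (XT.lf (nat_lit 0) (nat_lit 8047428749) (nat_lit 228) (nat_lit 15369587468) (nat_lit 76) (nat_lit 467462358) (nat_lit 58) (nat_lit 5) (nat_lit 61) (nat_lit 5) (nat_lit 59) (nat_lit 5) (nat_lit 393) (nat_lit 306)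 (nat_lit 201)))) (XT.nd (nat_lit 156) (nat_lit 228) (nat_lit 0) (XT.nd (nat_lit 78) (nat_lit 152) (nat_lit 0) (XT.lf (nat_lit 0) (nat_lit 13751759091) (nat_lit 228) (nat_lit 3174737067) (nat_lit 76) (nat_lit 7459152850) (nat_lit 58) (nat_lit 5) (nat_lit 61) (nat_lit 5) (nat_lit 59) (nat_lit 5) (nat_lit 394) (nat_lit 306) (nat_lit 200)) (XT.lf (nat_lit 0) (nat_lit 9542284643) (nat_lit 152) (nat_lit 10159686340) (nat_lit 228) (nat_lit 5197643964) (nat_lit 56) (nat_lit 5) (nat_lit 58) (nat_lit 5) (nat_lit 59) (nat_lit 5) (nat_lit 395) (nat_lit 306) (nat_lit 199))) (XT.nd (nat_lit 78) (nat_lit 152) (nat_lit 0) (XT.lf (nat_lit 0) (nat_lit 409293578) (nat_lit 228) (nat_lit 2756246202) (nat_lit 76) (nat_lit 22262883744) (nat_lit 55) (nat_lit 5) (nat_lit 58) (nat_lit 5) (nat_lit 56) (nat_lit 5) (nat_lit 396) (nat_lit 306) (nat_lit 198)) (XT.lf (nat_lit 0) (nat_lit 6203159042) (nat_lit 228) (nat_lit 15665050446)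 (nat_lit 76) (nat_lit 4099650091) (nat_lit 53) (nat_lit 5) (nat_lit 56) (nat_lit 5) (nat_lit 54) (nat_lit 5) (nat_lit 397) (nat_lit 306) (nat_lit 197)))))) (XT.nd (nat_lit 546) (nat_lit 608) (nat_lit 0) (XT.nd (nat_lit 234) (nat_lit 380) (nat_lit 0) (XT.nd (nat_lit 78) (nat_lit 152) (nat_lit 0) (XT.lf (nat_lit 0) (nat_lit 12213932334) (nat_lit 228) (nat_lit 2773263055) (nat_lit 76) (nat_lit 11534993188) (nat_lit 53) (nat_lit 5) (nat_lit 56) (nat_lit 5) (nat_lit 54) (nat_lit 5) (nat_lit 398) (nat_lit 306) (nat_lit 196)) (XT.nd (nat_lit 78) (nat_lit 0) (nat_lit 0) (XT.lf (nat_lit 0) (nat_lit 10685501011) (nat_lit 152) (nat_lit 7806361475) (nat_lit 228) (nat_lit 8598682487) (nat_lit 51) (nat_lit 5) (nat_lit 53) (nat_lit 5) (nat_lit 54) (nat_lit 5) (nat_lit 399) (nat_lit 306) (nat_lit 195)) (XT.lf (nat_lit 0) (nat_lit 24576864965) (nat_lit 152) (nat_lit 393581498) (nat_lit 228) (nat_lit 2705138588) (nat_lit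 51) (nat_lit 5) (nat_lit 53) (nat_lit 5) (nat_lit 54) (nat_lit 5) (nat_lit 400) (nat_lit 306) (nat_lit 194)))) (XT.nd (nat_lit 156) (nat_lit 152) (nat_lit 0) (XT.nd (nat_lit 78) (nat_lit 0) (nat_lit 0) (XT.lf (nat_lit 0) (nat_lit 3458398863) (nat_lit 228) (nat_lit 17588560781) (nat_lit 76) (nat_lit 7225482917) (nat_lit 48) (nat_lit 5) (nat_lit 51) (nat_lit 5) (nat_lit 49) (nat_lit 5) (nat_lit 401) (nat_lit 306) (nat_lit 193)) (XT.lf (nat_lit 0) (nat_lit 9772655276) (nat_lit 228) (nat_lit 4001352533) (nat_lit 76) (nat_lit 15111791236) (nat_lit 48) (nat_lit 5) (nat_lit 51) (nat_lit 5) (nat_lit 49) (nat_lit 5) (nat_lit 402) (nat_lit 306) (nat_lit 192))) (XT.nd (nat_lit 78) (nat_lit 0) (nat_lit 0) (XT.lf (nat_lit 0) (nat_lit 10165054332) (nat_lit 152) (nat_lit 6194129603) (nat_lit 228) (nat_lit 13155889141) (nat_lit 46) (nat_lit 5) (nat_lit 48) (nat_lit 5) (nat_lit 49) (nat_lit 5) (nat_lit 403) (nat_lit 306)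 (nat_lit 191)) (XT.lf (nat_lit 0) (nat_lit 23184817262) (nat_lit 228) (nat_lit 5366283683) (nat_lit 76) (nat_lit 1610881248) (nat_lit 46) (nat_lit 5) (nat_lit 49) (nat_lit 5) (nat_lit 47) (nat_lit 4) (nat_lit 404) (nat_lit 306) (nat_lit 190))))) (XT.nd (nat_lit 234) (nat_lit 304) (nat_lit 0) (XT.nd (nat_lit 78) (nat_lit 228) (nat_lit 0) (XT.lf (nat_lit 0) (nat_lit 9127690164) (nat_lit 76) (nat_lit 21222225953) (nat_lit 152) (nat_lit 474343635) (nat_lit 45) (nat_lit 5) (nat_lit 46) (nat_lit 5) (nat_lit 47) (nat_lit 4) (nat_lit 405) (nat_lit 306) (nat_lit 189)) (XT.nd (nat_lit 78) (nat_lit 152) (nat_lit 0) (XT.lf (nat_lit 0) (nat_lit 6142499215) (nat_lit 152) (nat_lit 7424745707) (nat_lit 76) (nat_lit 17936156491) (nat_lit 44) (nat_lit 5) (nat_lit 46) (nat_lit 5) (nat_lit 45) (nat_lit 5) (nat_lit 406) (nat_lit 306) (nat_lit 188)) (XT.lf (nat_lit 0) (nat_lit 7389398839) (nat_lit 152) (nat_lit 5616019459) (nat_lit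 228) (nat_lit 19195646877) (nat_lit 42) (nat_lit 5) (nat_lit 44) (nat_lit 5) (nat_lit 45) (nat_lit 5) (nat_lit 407) (nat_lit 306) (nat_lit 187)))) (XT.nd (nat_lit 156) (nat_lit 228) (nat_lit 0) (XT.nd (nat_lit 78) (nat_lit 76) (nat_lit 0) (XT.lf (nat_lit 0) (nat_lit 20160812106) (nat_lit 228) (nat_lit 10168113474) (nat_lit 76) (nat_lit 2588137491) (nat_lit 42) (nat_lit 5) (nat_lit 45) (nat_lit 5) (nat_lit 43) (nat_lit 4) (nat_lit 408) (nat_lit 306) (nat_lit 186)) (XT.lf (nat_lit 0) (nat_lit 4930708286) (nat_lit 76) (nat_lit 22689693643) (nat_lit 152) (nat_lit 6031454730) (nat_lit 41) (nat_lit 5) (nat_lit 42) (nat_lit 5) (nat_lit 43) (nat_lit 4) (nat_lit 409) (nat_lit 306) (nat_lit 185))) (XT.nd (nat_lit 78) (nat_lit 152) (nat_lit 0) (XT.lf (nat_lit 0) (nat_lit 967870886) (nat_lit 152) (nat_lit 13748980348) (nat_lit 76) (nat_lit 19688878822) (nat_lit 40) (nat_lit 5) (nat_lit 42) (nat_lit 5) (nat_lit 41)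 (nat_lit 5) (nat_lit 410) (nat_lit 306) (nat_lit 184)) (XT.lf (nat_lit 0) (nat_lit 1620294912) (nat_lit 152) (nat_lit 6438179108) (nat_lit 228) (nat_lit 27121880025) (nat_lit 38) (nat_lit 5) (nat_lit 40) (nat_lit 5) (nat_lit 41) (nat_lit 5) (nat_lit 411) (nat_lit 306) (nat_lit 183))))))))
noncomputable def xc122 : XT := (XT.nd (nat_lit 2106) (nat_lit 152) (nat_lit 0) (XT.nd (nat_lit 1014) (nat_lit 608) (nat_lit 0) (XT.nd (nat_lit 468) (nat_lit 380) (nat_lit 0) (XT.nd (nat_lit 234) (nat_lit 228) (nat_lit 0) (XT.nd (nat_lit 78) (nat_lit 76) (nat_lit 0) (XT.lf (nat_lit 0) (nat_lit 15509083748) (nat_lit 228) (nat_lit 18287024383) (nat_lit 76) (nat_lit 2177691548) (nat_lit 38) (nat_lit 5) (nat_lit 41) (nat_lit 5) (nat_lit 39) (nat_lit 4) (nat_lit 412) (nat_lit 306) (nat_lit 182)) (XT.nd (nat_lit 78) (nat_lit 76) (nat_lit 0) (XT.lf (nat_lit 0) (nat_lit 23234331641) (nat_lit 228) (nat_lit 2642851526) (nat_lit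 76) (nat_lit 10912333457) (nat_lit 38) (nat_lit 5) (nat_lit 41) (nat_lit 5) (nat_lit 39) (nat_lit 4) (nat_lit 413) (nat_lit 306) (nat_lit 181)) (XT.lf (nat_lit 0) (nat_lit 13715658721) (nat_lit 76) (nat_lit 17595264780) (nat_lit 152) (nat_lit 6315195471) (nat_lit 37) (nat_lit 5) (nat_lit 38) (nat_lit 5) (nat_lit 39) (nat_lit 4) (nat_lit 414) (nat_lit 306) (nat_lit 180)))) (XT.nd (nat_lit 78) (nat_lit 152) (nat_lit 0) (XT.lf (nat_lit 0) (nat_lit 1134424618) (nat_lit 152) (nat_lit 7901813173) (nat_lit 76) (nat_lit 29450812222) (nat_lit 36) (nat_lit 5) (nat_lit 38) (nat_lit 5) (nat_lit 37) (nat_lit 5) (nat_lit 415) (nat_lit 306) (nat_lit 179)) (XT.nd (nat_lit 78) (nat_lit 0) (nat_lit 0) (XT.lf (nat_lit 0) (nat_lit 8671791531) (nat_lit 152) (nat_lit 80291026) (nat_lit 228) (nat_lit 30617707641) (nat_lit 34) (nat_lit 5) (nat_lit 36) (nat_lit 5) (nat_lit 37) (nat_lit 5) (nat_lit 416) (nat_lit 306) (nat_lit 178))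 (XT.lf (nat_lit 0) (nat_lit 16754914105) (nat_lit 228) (nat_lit 14482760509) (nat_lit 76) (nat_lit 9036639982) (nat_lit 34) (nat_lit 5) (nat_lit 37) (nat_lit 5) (nat_lit 35) (nat_lit 4) (nat_lit 417) (nat_lit 306) (nat_lit 177))))) (XT.nd (nat_lit 234) (nat_lit 304) (nat_lit 0) (XT.nd (nat_lit 78) (nat_lit 0) (nat_lit 0) (XT.lf (nat_lit 0) (nat_lit 2240466643) (nat_lit 76) (nat_lit 22768200595) (nat_lit 152) (nat_lit 16196983676) (nat_lit 33) (nat_lit 5) (nat_lit 34) (nat_lit 5) (nat_lit 35) (nat_lit 4) (nat_lit 418) (nat_lit 306) (nat_lit 176)) (XT.nd (nat_lit 78) (nat_lit 0) (nat_lit 0) (XT.lf (nat_lit 0) (nat_lit 19741089973) (nat_lit 76) (nat_lit 13903826601) (nat_lit 152) (nat_lit 8515965489) (nat_lit 33) (nat_lit 5) (nat_lit 34) (nat_lit 5) (nat_lit 35) (nat_lit 4) (nat_lit 419) (nat_lit 306) (nat_lit 175)) (XT.lf (nat_lit 0) (nat_lit 37746165955) (nat_lit 76) (nat_lit 4783054547) (nat_lit 152) (nat_lit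 615881844) (nat_lit 33) (nat_lit 5) (nat_lit 34) (nat_lit 5) (nat_lit 35) (nat_lit 4) (nat_lit 420) (nat_lit 306) (nat_lit 174)))) (XT.nd (nat_lit 156) (nat_lit 76) (nat_lit 0) (XT.nd (nat_lit 78) (nat_lit 0) (nat_lit 0) (XT.lf (nat_lit 0) (nat_lit 7527781150) (nat_lit 228) (nat_lit 31919902415) (nat_lit 76) (nat_lit 4704397585) (nat_lit 30) (nat_lit 5) (nat_lit 33) (nat_lit 5) (nat_lit 31) (nat_lit 4) (nat_lit 421) (nat_lit 306) (nat_lit 173)) (XT.lf (nat_lit 0) (nat_lit 15995005801) (nat_lit 228) (nat_lit 14758946442) (nat_lit 76) (nat_lit 14432386340) (nat_lit 30) (nat_lit 5) (nat_lit 33) (nat_lit 5) (nat_lit 31) (nat_lit 4) (nat_lit 422) (nat_lit 306) (nat_lit 172))) (XT.nd (nat_lit 78) (nat_lit 0) (nat_lit 0) (XT.lf (nat_lit 0) (nat_lit 2954868927) (nat_lit 76) (nat_lit 21779311342) (nat_lit 152) (nat_lit 21516906554) (nat_lit 29) (nat_lit 5) (nat_lit 30) (nat_lit 5) (nat_lit 31) (nat_lit 4) (nat_lit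 423) (nat_lit 306) (nat_lit 171)) (XT.lf (nat_lit 0) (nat_lit 21483205718) (nat_lit 76) (nat_lit 12391007885) (nat_lit 152) (nat_lit 13469404445) (nat_lit 29) (nat_lit 5) (nat_lit 30) (nat_lit 5) (nat_lit 31) (nat_lit 4) (nat_lit 424) (nat_lit 306) (nat_lit 170)))))) (XT.nd (nat_lit 546) (nat_lit 304) (nat_lit 0) (XT.nd (nat_lit 234) (nat_lit 152) (nat_lit 0) (XT.nd (nat_lit 78) (nat_lit 152) (nat_lit 0) (XT.lf (nat_lit 0) (nat_lit 40548521766) (nat_lit 76) (nat_lit 2729874919) (nat_lit 152) (nat_lit 5190831078) (nat_lit 29) (nat_lit 5) (nat_lit 30) (nat_lit 5) (nat_lit 31) (nat_lit 4) (nat_lit 425) (nat_lit 306) (nat_lit 169)) (XT.nd (nat_lit 78) (nat_lit 0) (nat_lit 0) (XT.lf (nat_lit 0) (nat_lit 3434817675) (nat_lit 152) (nat_lit 38979811230) (nat_lit 76) (nat_lit 7208101239) (nat_lit 27) (nat_lit 5) (nat_lit 29) (nat_lit 5) (nat_lit 28) (nat_lit 4) (nat_lit 426) (nat_lit 306) (nat_lit 168)) (XT.lf (nat_lit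 0) (nat_lit 12312881443) (nat_lit 152) (nat_lit 20980381028) (nat_lit 76) (nat_lit 17513094939) (nat_lit 27) (nat_lit 5) (nat_lit 29) (nat_lit 5) (nat_lit 28) (nat_lit 4) (nat_lit 427) (nat_lit 306) (nat_lit 167)))) (XT.nd (nat_lit 156) (nat_lit 76) (nat_lit 0) (XT.nd (nat_lit 78) (nat_lit 76) (nat_lit 0) (XT.lf (nat_lit 0) (nat_lit 21447745509) (nat_lit 152) (nat_lit 2458975175) (nat_lit 76) (nat_lit 28119059962) (nat_lit 27) (nat_lit 5) (nat_lit 29) (nat_lit 5) (nat_lit 28) (nat_lit 4) (nat_lit 428) (nat_lit 306) (nat_lit 166)) (XT.lf (nat_lit 0) (nat_lit 16930974373) (nat_lit 76) (nat_lit 14079168303) (nat_lit 152) (nat_lit 22267040164) (nat_lit 26) (nat_lit 5) (nat_lit 27) (nat_lit 5) (nat_lit 28) (nat_lit 4) (nat_lit 429) (nat_lit 306) (nat_lit 165))) (XT.nd (nat_lit 78) (nat_lit 76) (nat_lit 0) (XT.lf (nat_lit 0) (nat_lit 36935717616) (nat_lit 76) (nat_lit 3939364675) (nat_lit 152) (nat_lit 13690575544)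 (nat_lit 26) (nat_lit 5) (nat_lit 27) (nat_lit 5) (nat_lit 28) (nat_lit 4) (nat_lit 430) (nat_lit 306) (nat_lit 164)) (XT.lf (nat_lit 0) (nat_lit 1599502908) (nat_lit 76) (nat_lit 49505399538) (nat_lit 76) (nat_lit 4785817489) (nat_lit 25) (nat_lit 4) (nat_lit 26) (nat_lit 5) (nat_lit 26) (nat_lit 4) (nat_lit 431) (nat_lit 306) (nat_lit 163))))) (XT.nd (nat_lit 234) (nat_lit 152) (nat_lit 0) (XT.nd (nat_lit 78) (nat_lit 76) (nat_lit 0) (XT.lf (nat_lit 0) (nat_lit 4510330392) (nat_lit 152) (nat_lit 35582906360) (nat_lit 76) (nat_lit 17154738014) (nat_lit 24) (nat_lit 5) (nat_lit 26) (nat_lit 5) (nat_lit 25) (nat_lit 4) (nat_lit 432) (nat_lit 306) (nat_lit 162)) (XT.nd (nat_lit 78) (nat_lit 76) (nat_lit 0) (XT.lf (nat_lit 0) (nat_lit 13980474729) (nat_lit 152) (nat_lit 16377246371) (nat_lit 76) (nat_lit 28287066299) (nat_lit 24) (nat_lit 5) (nat_lit 26) (nat_lit 5) (nat_lit 25) (nat_lit 4) (nat_lit 433) (nat_lit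 306) (nat_lit 161)) (XT.lf (nat_lit 0) (nat_lit 3455987552) (nat_lit 76) (nat_lit 20303512457) (nat_lit 152) (nat_lit 36323261838) (nat_lit 23) (nat_lit 5) (nat_lit 24) (nat_lit 5) (nat_lit 25) (nat_lit 4) (nat_lit 434) (nat_lit 306) (nat_lit 160)))) (XT.nd (nat_lit 156) (nat_lit 152) (nat_lit 0) (XT.nd (nat_lit 78) (nat_lit 0) (nat_lit 0) (XT.lf (nat_lit 0) (nat_lit 24204058561) (nat_lit 76) (nat_lit 9784864440) (nat_lit 152) (nat_lit 27570242432) (nat_lit 23) (nat_lit 5) (nat_lit 24) (nat_lit 5) (nat_lit 25) (nat_lit 4) (nat_lit 435) (nat_lit 306) (nat_lit 159)) (XT.lf (nat_lit 0) (nat_lit 44527137485) (nat_lit 152) (nat_lit 17530965020) (nat_lit 0) (nat_lit 1021702050) (nat_lit 23) (nat_lit 5) (nat_lit 25) (nat_lit 4) (nat_lit 23) (nat_lit 4) (nat_lit 436) (nat_lit 306) (nat_lit 158))) (XT.nd (nat_lit 78) (nat_lit 76) (nat_lit 0) (XT.lf (nat_lit 0) (nat_lit 2831132201) (nat_lit 76) (nat_lit 52666520692)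 (nat_lit 76) (nat_lit 9144925993) (nat_lit 22) (nat_lit 4) (nat_lit 23) (nat_lit 5) (nat_lit 23) (nat_lit 4) (nat_lit 437) (nat_lit 306) (nat_lit 157)) (XT.lf (nat_lit 0) (nat_lit 705261494) (nat_lit 152) (nat_lit 42105602472) (nat_lit 76) (nat_lit 23436090435) (nat_lit 21) (nat_lit 5) (nat_lit 23) (nat_lit 5) (nat_lit 22) (nat_lit 4) (nat_lit 438) (nat_lit 306) (nat_lit 156))))))) (XT.nd (nat_lit 37050) (nat_lit 0) (nat_lit 19532) (XT.nd (nat_lit 468) (nat_lit 0) (nat_lit 0) (XT.nd (nat_lit 234) (nat_lit 76) (nat_lit 0) (XT.nd (nat_lit 78) (nat_lit 76) (nat_lit 0) (XT.lf (nat_lit 0) (nat_lit 10659450537) (nat_lit 152) (nat_lit 21913830372) (nat_lit 76) (nat_lit 35323695576) (nat_lit 21) (nat_lit 5) (nat_lit 23) (nat_lit 5) (nat_lit 22) (nat_lit 4) (nat_lit 439) (nat_lit 306) (nat_lit 155)) (XT.nd (nat_lit 78) (nat_lit 76) (nat_lit 0) (XT.lf (nat_lit 0) (nat_lit 20904789415) (nat_lit 152) (nat_lit 1130580465)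 (nat_lit 76) (nat_lit 47561354222) (nat_lit 21) (nat_lit 5) (nat_lit 23) (nat_lit 5) (nat_lit 22) (nat_lit 4) (nat_lit 440) (nat_lit 306) (nat_lit 154)) (XT.lf (nat_lit 0) (nat_lit 20665567014) (nat_lit 76) (nat_lit 10983313424) (nat_lit 152) (nat_lit 39692842531) (nat_lit 20) (nat_lit 5) (nat_lit 21) (nat_lit 5) (nat_lit 22) (nat_lit 4) (nat_lit 441) (nat_lit 306) (nat_lit 153)))) (XT.nd (nat_lit 78) (nat_lit 76) (nat_lit 0) (XT.lf (nat_lit 0) (nat_lit 42723430321) (nat_lit 152) (nat_lit 30017792300) (nat_lit 0) (nat_lit 397605659) (nat_lit 20) (nat_lit 5) (nat_lit 22) (nat_lit 4) (nat_lit 20) (nat_lit 4) (nat_lit 442) (nat_lit 306) (nat_lit 152)) (XT.nd (nat_lit 78) (nat_lit 76) (nat_lit 0) (XT.lf (nat_lit 0) (nat_lit 54231931767) (nat_lit 152) (nat_lit 8861895934) (nat_lit 0) (nat_lit 11892968144) (nat_lit 20) (nat_lit 5) (nat_lit 22) (nat_lit 4) (nat_lit 20) (nat_lit 4) (nat_lit 443) (nat_lit 306) (nat_lit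 151)) (XT.lf (nat_lit 0) (nat_lit 13172642914) (nat_lit 76) (nat_lit 53032843009) (nat_lit 76) (nat_lit 10681123113) (nat_lit 19) (nat_lit 4) (nat_lit 20) (nat_lit 5) (nat_lit 20) (nat_lit 4) (nat_lit 444) (nat_lit 306) (nat_lit 150))))) (XT.nd (nat_lit 36270) (nat_lit 0) (nat_lit 24396) (XT.nd (nat_lit 36114) (nat_lit 0) (nat_lit 25004) (XT.lf (nat_lit 0) (nat_lit 36036926224) (nat_lit 76) (nat_lit 42584056727) (nat_lit 76) (nat_lit 219952100) (nat_lit 19) (nat_lit 4) (nat_lit 20) (nat_lit 5) (nat_lit 20) (nat_lit 4) (nat_lit 445) (nat_lit 306) (nat_lit 149)) (XT.nd (nat_lit 78) (nat_lit 532) (nat_lit 0) (XT.lf (nat_lit 0) (nat_lit 2462784139) (nat_lit 532) (nat_lit 431673139) (nat_lit 532) (nat_lit 431673139) (nat_lit 355) (nat_lit 3) (nat_lit 362) (nat_lit 3) (nat_lit 362) (nat_lit 5) (nat_lit 307) (nat_lit 307) (nat_lit 286)) (XT.lf (nat_lit 0) (nat_lit 522955269) (nat_lit 532) (nat_lit 4294204576)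 (nat_lit 608) (nat_lit 1866418455) (nat_lit 348) (nat_lit 5) (nat_lit 355) (nat_lit 3) (nat_lit 356) (nat_lit 5) (nat_lit 308) (nat_lit 307) (nat_lit 285)))) (XT.nd (nat_lit 156) (nat_lit 608) (nat_lit 0) (XT.nd (nat_lit 78) (nat_lit 0) (nat_lit 0) (XT.lf (nat_lit 0) (nat_lit 2727188748) (nat_lit 532) (nat_lit 1022205201) (nat_lit 608) (nat_lit 2968341999) (nat_lit 348) (nat_lit 5) (nat_lit 355) (nat_lit 3) (nat_lit 356) (nat_lit 5) (nat_lit 309) (nat_lit 307) (nat_lit 284)) (XT.lf (nat_lit 76) (nat_lit 2348319834) (nat_lit 0) (nat_lit 2587333569) (nat_lit 608) (nat_lit 1819187402) (nat_lit 349) (nat_lit 5) (nat_lit 348) (nat_lit 5) (nat_lit 356) (nat_lit 5) (nat_lit 310) (nat_lit 307) (nat_lit 283))) (XT.nd (nat_lit 78) (nat_lit 0) (nat_lit 76) (XT.lf (nat_lit 0) (nat_lit 336273936) (nat_lit 608) (nat_lit 1002680888) (nat_lit 684) (nat_lit 5456232357) (nat_lit 340) (nat_lit 5) (nat_lit 348) (nat_lit 5)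 (nat_lit 349) (nat_lit 5) (nat_lit 311) (nat_lit 307) (nat_lit 282)) (XT.lf (nat_lit 0) (nat_lit 2463108079) (nat_lit 608) (nat_lit 4349769285) (nat_lit 684) (nat_lit 25088081) (nat_lit 341) (nat_lit 5) (nat_lit 349) (nat_lit 5) (nat_lit 350) (nat_lit 5) (nat_lit 312) (nat_lit 307) (nat_lit 281)))))) (XT.nd (nat_lit 546) (nat_lit 3572) (nat_lit 0) (XT.nd (nat_lit 234) (nat_lit 684) (nat_lit 0) (XT.nd (nat_lit 78) (nat_lit 684) (nat_lit 0) (XT.lf (nat_lit 0) (nat_lit 4598587452) (nat_lit 608) (nat_lit 838408571) (nat_lit 684) (nat_lit 1446744117) (nat_lit 341) (nat_lit 5) (nat_lit 349) (nat_lit 5) (nat_lit 350) (nat_lit 5) (nat_lit 313) (nat_lit 307) (nat_lit 280)) (XT.nd (nat_lit 78) (nat_lit 684) (nat_lit 0) (XT.lf (nat_lit 76) (nat_lit 2786372371) (nat_lit 0) (nat_lit 3962191565) (nat_lit 684) (nat_lit 183867748) (nat_lit 342) (nat_lit 5) (nat_lit 341) (nat_lit 5) (nat_lit 350) (nat_lit 5) (nat_lit 314)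 (nat_lit 307) (nat_lit 279)) (XT.lf (nat_lit 0) (nat_lit 1874999467) (nat_lit 684) (nat_lit 511759933) (nat_lit 760) (nat_lit 4597311109) (nat_lit 332) (nat_lit 5) (nat_lit 341) (nat_lit 5) (nat_lit 342) (nat_lit 5) (nat_lit 315) (nat_lit 307) (nat_lit 278)))) (XT.nd (nat_lit 156) (nat_lit 684) (nat_lit 0) (XT.nd (nat_lit 78) (nat_lit 0) (nat_lit 76) (XT.lf (nat_lit 76) (nat_lit 3247098833) (nat_lit 0) (nat_lit 702885819) (nat_lit 760) (nat_lit 3088529595) (nat_lit 333) (nat_lit 5) (nat_lit 332) (nat_lit 5) (nat_lit 342) (nat_lit 5) (nat_lit 316) (nat_lit 307) (nat_lit 277)) (XT.lf (nat_lit 0) (nat_lit 6031130351) (nat_lit 684) (nat_lit 23193093) (nat_lit 760) (nat_lit 1042000803) (nat_lit 333) (nat_lit 5) (nat_lit 342) (nat_lit 5) (nat_lit 343) (nat_lit 5) (nat_lit 317) (nat_lit 307) (nat_lit 276))) (XT.nd (nat_lit 78) (nat_lit 0) (nat_lit 0) (XT.lf (nat_lit 0) (nat_lit 973775726) (nat_lit 760) (nat_lit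 3285983024) (nat_lit 836) (nat_lit 2896618925) (nat_lit 323) (nat_lit 5) (nat_lit 333) (nat_lit 5) (nat_lit 334) (nat_lit 5) (nat_lit 318) (nat_lit 307) (nat_lit 275)) (XT.lf (nat_lit 76) (nat_lit 616976163) (nat_lit 0) (nat_lit 2373402121) (nat_lit 836) (nat_lit 4229447845) (nat_lit 324) (nat_lit 5) (nat_lit 323) (nat_lit 5) (nat_lit 334) (nat_lit 5) (nat_lit 319) (nat_lit 307) (nat_lit 274))))) (XT.nd (nat_lit 234) (nat_lit 2812) (nat_lit 0) (XT.nd (nat_lit 78) (nat_lit 760) (nat_lit 0) (XT.lf (nat_lit 76) (nat_lit 4657295520) (nat_lit 0) (nat_lit 376607807) (nat_lit 836) (nat_lit 2252326649) (nat_lit 324) (nat_lit 5) (nat_lit 323) (nat_lit 5) (nat_lit 334) (nat_lit 5) (nat_lit 320) (nat_lit 307) (nat_lit 273)) (XT.nd (nat_lit 78) (nat_lit 76) (nat_lit 0) (XT.lf (nat_lit 0) (nat_lit 1428026527) (nat_lit 760) (nat_lit 5675955103) (nat_lit 836) (nat_lit 251730257) (nat_lit 314) (nat_lit 5) (nat_lit 324)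 (nat_lit 5) (nat_lit 325) (nat_lit 5) (nat_lit 321) (nat_lit 307) (nat_lit 272)) (XT.lf (nat_lit 0) (nat_lit 1740254829) (nat_lit 836) (nat_lit 1836005062) (nat_lit 76) (nat_lit 3851537541) (nat_lit 313) (nat_lit 5) (nat_lit 324) (nat_lit 5) (nat_lit 314) (nat_lit 5) (nat_lit 322) (nat_lit 307) (nat_lit 271)))) (XT.nd (nat_lit 156) (nat_lit 1976) (nat_lit 0) (XT.nd (nat_lit 78) (nat_lit 0) (nat_lit 0) (XT.lf (nat_lit 0) (nat_lit 2374966336) (nat_lit 836) (nat_lit 1372793455) (nat_lit 912) (nat_lit 3755426079) (nat_lit 302) (nat_lit 5) (nat_lit 313) (nat_lit 5) (nat_lit 314) (nat_lit 5) (nat_lit 323) (nat_lit 307) (nat_lit 270)) (XT.lf (nat_lit 0) (nat_lit 5782312614) (nat_lit 912) (nat_lit 888018627) (nat_lit 76) (nat_lit 911538573) (nat_lit 302) (nat_lit 5) (nat_lit 314) (nat_lit 5) (nat_lit 303) (nat_lit 5) (nat_lit 324) (nat_lit 307) (nat_lit 269))) (XT.nd (nat_lit 78) (nat_lit 988) (nat_lit 0) (XT.lf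 (nat_lit 0) (nat_lit 198987534) (nat_lit 988) (nat_lit 4178839013) (nat_lit 76) (nat_lit 3285416206) (nat_lit 289) (nat_lit 5) (nat_lit 302) (nat_lit 5) (nat_lit 290) (nat_lit 5) (nat_lit 325) (nat_lit 307) (nat_lit 268)) (XT.lf (nat_lit 0) (nat_lit 197214181) (nat_lit 988) (nat_lit 1976953556) (nat_lit 1064) (nat_lit 5573804431) (nat_lit 276) (nat_lit 5) (nat_lit 289) (nat_lit 5) (nat_lit 290) (nat_lit 5) (nat_lit 326) (nat_lit 307) (nat_lit 267))))))))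
noncomputable def xc123 : XT := (XT.nd (nat_lit 2106) (nat_lit 4636) (nat_lit 0) (XT.nd (nat_lit 1014) (nat_lit 4256) (nat_lit 0) (XT.nd (nat_lit 468) (nat_lit 2508) (nat_lit 0) (XT.nd (nat_lit 234) (nat_lit 2356) (nat_lit 0) (XT.nd (nat_lit 78) (nat_lit 1140) (nat_lit 0) (XT.lf (nat_lit 0) (nat_lit 4199205751) (nat_lit 1064) (nat_lit 3098450762) (nat_lit 76) (nat_lit 537903119) (nat_lit 276) (nat_lit 5) (nat_lit 290) (nat_lit 5) (nat_lit 277) (nat_lit 5) (nat_lit 327) (nat_lit 307) (nat_lit 266)) (XT.nd (nat_lit 78) (nat_lit 76) (nat_lit 0) (XT.lf (nat_lit 0) (nat_lit 1448051120) (nat_lit 1064) (nat_lit 4815310132) (nat_lit 1140) (nat_lit 1663095718) (nat_lit 262) (nat_lit 5) (nat_lit 276) (nat_lit 5) (nat_lit 277) (nat_lit 5) (nat_lit 328) (nat_lit 307) (nat_lit 265)) (XT.lf (nat_lit 0) (nat_lit 339205828) (nat_lit 1140) (nat_lit 1877242804) (nat_lit 76) (nat_lit 5804245819) (nat_lit 261) (nat_lit 5)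 (nat_lit 276) (nat_lit 5) (nat_lit 262) (nat_lit 5) (nat_lit 329) (nat_lit 307) (nat_lit 264)))) (XT.nd (nat_lit 78) (nat_lit 1216) (nat_lit 0) (XT.lf (nat_lit 0) (nat_lit 2347541638) (nat_lit 1216) (nat_lit 5269081837) (nat_lit 76) (nat_lit 501290257) (nat_lit 246) (nat_lit 5) (nat_lit 262) (nat_lit 5) (nat_lit 247) (nat_lit 5) (nat_lit 330) (nat_lit 307) (nat_lit 263)) (XT.nd (nat_lit 78) (nat_lit 1216) (nat_lit 0) (XT.lf (nat_lit 0) (nat_lit 4405401342) (nat_lit 1216) (nat_lit 532898142) (nat_lit 76) (nat_lit 3280101428) (nat_lit 246) (nat_lit 5) (nat_lit 262) (nat_lit 5) (nat_lit 247) (nat_lit 5) (nat_lit 331) (nat_lit 307) (nat_lit 262)) (XT.lf (nat_lit 0) (nat_lit 4383872522) (nat_lit 1216) (nat_lit 2132958590) (nat_lit 1292) (nat_lit 1805345242) (nat_lit 230) (nat_lit 5) (nat_lit 246) (nat_lit 5) (nat_lit 247) (nat_lit 5) (nat_lit 332) (nat_lit 307) (nat_lit 261))))) (XT.nd (nat_lit 234) (nat_lit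 1216) (nat_lit 0) (XT.nd (nat_lit 78) (nat_lit 608) (nat_lit 0) (XT.lf (nat_lit 0) (nat_lit 230121287) (nat_lit 684) (nat_lit 7438034061) (nat_lit 76) (nat_lit 761679856) (nat_lit 221) (nat_lit 5) (nat_lit 230) (nat_lit 5) (nat_lit 222) (nat_lit 5) (nat_lit 333) (nat_lit 307) (nat_lit 260)) (XT.nd (nat_lit 78) (nat_lit 608) (nat_lit 0) (XT.lf (nat_lit 0) (nat_lit 2302857019) (nat_lit 684) (nat_lit 2477017508) (nat_lit 76) (nat_lit 3759964568) (nat_lit 221) (nat_lit 5) (nat_lit 230) (nat_lit 5) (nat_lit 222) (nat_lit 5) (nat_lit 334) (nat_lit 307) (nat_lit 259)) (XT.lf (nat_lit 0) (nat_lit 2637064342) (nat_lit 608) (nat_lit 1778690193) (nat_lit 684) (nat_lit 4238074652) (nat_lit 213) (nat_lit 5) (nat_lit 221) (nat_lit 5) (nat_lit 222) (nat_lit 5) (nat_lit 335) (nat_lit 307) (nat_lit 258)))) (XT.nd (nat_lit 156) (nat_lit 608) (nat_lit 0) (XT.nd (nat_lit 78) (nat_lit 608) (nat_lit 0) (XT.lf (nat_lit 0) (nat_lit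 6583474231) (nat_lit 684) (nat_lit 876183664) (nat_lit 76) (nat_lit 1311862764) (nat_lit 213) (nat_lit 5) (nat_lit 222) (nat_lit 5) (nat_lit 214) (nat_lit 5) (nat_lit 336) (nat_lit 307) (nat_lit 257)) (XT.lf (nat_lit 0) (nat_lit 4440889420) (nat_lit 608) (nat_lit 4390545865) (nat_lit 684) (nat_lit 60875311) (nat_lit 205) (nat_lit 5) (nat_lit 213) (nat_lit 5) (nat_lit 214) (nat_lit 5) (nat_lit 337) (nat_lit 307) (nat_lit 256))) (XT.nd (nat_lit 78) (nat_lit 0) (nat_lit 0) (XT.lf (nat_lit 0) (nat_lit 868127742) (nat_lit 532) (nat_lit 1193015196) (nat_lit 608) (nat_lit 6955811705) (nat_lit 197) (nat_lit 5) (nat_lit 204) (nat_lit 5) (nat_lit 205) (nat_lit 5) (nat_lit 338) (nat_lit 307) (nat_lit 255)) (XT.lf (nat_lit 0) (nat_lit 4267326156) (nat_lit 608) (nat_lit 2774786630) (nat_lit 76) (nat_lit 2102577282) (nat_lit 197) (nat_lit 5) (nat_lit 205) (nat_lit 5) (nat_lit 198) (nat_lit 5) (nat_lit 339) (nat_lit 307)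 (nat_lit 254)))))) (XT.nd (nat_lit 546) (nat_lit 2128) (nat_lit 0) (XT.nd (nat_lit 234) (nat_lit 1064) (nat_lit 0) (XT.nd (nat_lit 78) (nat_lit 532) (nat_lit 0) (XT.lf (nat_lit 0) (nat_lit 2755766359) (nat_lit 532) (nat_lit 3779649627) (nat_lit 608) (nat_lit 2740991272) (nat_lit 190) (nat_lit 5) (nat_lit 197) (nat_lit 5) (nat_lit 198) (nat_lit 5) (nat_lit 340) (nat_lit 307) (nat_lit 253)) (XT.nd (nat_lit 78) (nat_lit 532) (nat_lit 0) (XT.lf (nat_lit 0) (nat_lit 8462902523) (nat_lit 532) (nat_lit 394880856) (nat_lit 608) (nat_lit 554726254) (nat_lit 190) (nat_lit 5) (nat_lit 197) (nat_lit 5) (nat_lit 198) (nat_lit 5) (nat_lit 341) (nat_lit 307) (nat_lit 252)) (XT.lf (nat_lit 0) (nat_lit 1699650651) (nat_lit 532) (nat_lit 4761748230) (nat_lit 76) (nat_lit 3089757079) (nat_lit 183) (nat_lit 5) (nat_lit 190) (nat_lit 5) (nat_lit 184) (nat_lit 5) (nat_lit 342) (nat_lit 307) (nat_lit 251)))) (XT.nd (nat_lit 156)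 (nat_lit 532) (nat_lit 0) (XT.nd (nat_lit 78) (nat_lit 0) (nat_lit 0) (XT.lf (nat_lit 0) (nat_lit 989769415) (nat_lit 532) (nat_lit 3003569261) (nat_lit 608) (nat_lit 5700992309) (nat_lit 176) (nat_lit 5) (nat_lit 183) (nat_lit 5) (nat_lit 184) (nat_lit 5) (nat_lit 343) (nat_lit 307) (nat_lit 250)) (XT.lf (nat_lit 0) (nat_lit 6370152106) (nat_lit 608) (nat_lit 2881875238) (nat_lit 76) (nat_lit 589362878) (nat_lit 176) (nat_lit 5) (nat_lit 184) (nat_lit 5) (nat_lit 177) (nat_lit 5) (nat_lit 344) (nat_lit 307) (nat_lit 249))) (XT.nd (nat_lit 78) (nat_lit 76) (nat_lit 0) (XT.lf (nat_lit 0) (nat_lit 3100507488) (nat_lit 456) (nat_lit 5738848976) (nat_lit 532) (nat_lit 1152890045) (nat_lit 170) (nat_lit 5) (nat_lit 176) (nat_lit 5) (nat_lit 177) (nat_lit 5) (nat_lit 345) (nat_lit 307) (nat_lit 248)) (XT.lf (nat_lit 0) (nat_lit 1202136310) (nat_lit 532) (nat_lit 883553710) (nat_lit 76) (nat_lit 8061862339) (nat_lit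 169) (nat_lit 5) (nat_lit 176) (nat_lit 5) (nat_lit 170) (nat_lit 5) (nat_lit 346) (nat_lit 307) (nat_lit 247))))) (XT.nd (nat_lit 234) (nat_lit 1292) (nat_lit 0) (XT.nd (nat_lit 78) (nat_lit 380) (nat_lit 0) (XT.lf (nat_lit 0) (nat_lit 3635718647) (nat_lit 532) (nat_lit 4970240057) (nat_lit 76) (nat_lit 1700300276) (nat_lit 163) (nat_lit 5) (nat_lit 170) (nat_lit 5) (nat_lit 164) (nat_lit 5) (nat_lit 347) (nat_lit 307) (nat_lit 246)) (XT.nd (nat_lit 78) (nat_lit 0) (nat_lit 0) (XT.lf (nat_lit 0) (nat_lit 1249141010) (nat_lit 380) (nat_lit 4898362679) (nat_lit 456) (nat_lit 4322083130) (nat_lit 158) (nat_lit 5) (nat_lit 163) (nat_lit 5) (nat_lit 164) (nat_lit 5) (nat_lit 348) (nat_lit 307) (nat_lit 245)) (XT.lf (nat_lit 0) (nat_lit 7712105859) (nat_lit 380) (nat_lit 1036883822) (nat_lit 456) (nat_lit 1888409802) (nat_lit 158) (nat_lit 5) (nat_lit 163) (nat_lit 5) (nat_lit 164) (nat_lit 5) (nat_lit 349)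 (nat_lit 307) (nat_lit 244)))) (XT.nd (nat_lit 156) (nat_lit 760) (nat_lit 0) (XT.nd (nat_lit 78) (nat_lit 0) (nat_lit 0) (XT.lf (nat_lit 0) (nat_lit 634025226) (nat_lit 532) (nat_lit 7260376641) (nat_lit 76) (nat_lit 2914846406) (nat_lit 151) (nat_lit 5) (nat_lit 158) (nat_lit 5) (nat_lit 152) (nat_lit 5) (nat_lit 350) (nat_lit 307) (nat_lit 243)) (XT.lf (nat_lit 0) (nat_lit 3199632017) (nat_lit 532) (nat_lit 782211425) (nat_lit 76) (nat_lit 7003698660) (nat_lit 151) (nat_lit 5) (nat_lit 158) (nat_lit 5) (nat_lit 152) (nat_lit 5) (nat_lit 351) (nat_lit 307) (nat_lit 242))) (XT.nd (nat_lit 78) (nat_lit 380) (nat_lit 0) (XT.lf (nat_lit 0) (nat_lit 5866827908) (nat_lit 456) (nat_lit 5204212944) (nat_lit 76) (nat_lit 95358961) (nat_lit 146) (nat_lit 5) (nat_lit 152) (nat_lit 5) (nat_lit 147) (nat_lit 5) (nat_lit 352) (nat_lit 307) (nat_lit 241)) (XT.lf (nat_lit 0) (nat_lit 1518643177) (nat_lit 380) (nat_lit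 7124229633) (nat_lit 456) (nat_lit 2708958747) (nat_lit 141) (nat_lit 5) (nat_lit 146) (nat_lit 5) (nat_lit 147) (nat_lit 5) (nat_lit 353) (nat_lit 307) (nat_lit 240))))))) (XT.nd (nat_lit 1014) (nat_lit 2204) (nat_lit 0) (XT.nd (nat_lit 468) (nat_lit 1292) (nat_lit 0) (XT.nd (nat_lit 234) (nat_lit 760) (nat_lit 0) (XT.nd (nat_lit 78) (nat_lit 380) (nat_lit 0) (XT.lf (nat_lit 0) (nat_lit 8506303550) (nat_lit 380) (nat_lit 3015828918) (nat_lit 456) (nat_lit 20108694) (nat_lit 141) (nat_lit 5) (nat_lit 146) (nat_lit 5) (nat_lit 147) (nat_lit 5) (nat_lit 354) (nat_lit 307) (nat_lit 239)) (XT.nd (nat_lit 78) (nat_lit 0) (nat_lit 0) (XT.lf (nat_lit 0) (nat_lit 2714177852) (nat_lit 380) (nat_lit 7776224068) (nat_lit 76) (nat_lit 1246627776) (nat_lit 136) (nat_lit 5) (nat_lit 141) (nat_lit 5) (nat_lit 137) (nat_lit 5) (nat_lit 355) (nat_lit 307) (nat_lit 238)) (XT.lf (nat_lit 0) (nat_lit 5559331278) (nat_lit 380)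 (nat_lit 780791125) (nat_lit 76) (nat_lit 5596668051) (nat_lit 136) (nat_lit 5) (nat_lit 141) (nat_lit 5) (nat_lit 137) (nat_lit 5) (nat_lit 356) (nat_lit 307) (nat_lit 237)))) (XT.nd (nat_lit 78) (nat_lit 380) (nat_lit 0) (XT.lf (nat_lit 0) (nat_lit 6509418723) (nat_lit 380) (nat_lit 2012335043) (nat_lit 456) (nat_lit 3619844303) (nat_lit 131) (nat_lit 5) (nat_lit 136) (nat_lit 5) (nat_lit 137) (nat_lit 5) (nat_lit 357) (nat_lit 307) (nat_lit 236)) (XT.nd (nat_lit 78) (nat_lit 76) (nat_lit 0) (XT.lf (nat_lit 0) (nat_lit 1648102971) (nat_lit 304) (nat_lit 9941979907) (nat_lit 380) (nat_lit 761967152) (nat_lit 127) (nat_lit 5) (nat_lit 131) (nat_lit 5) (nat_lit 132) (nat_lit 5) (nat_lit 358) (nat_lit 307) (nat_lit 235)) (XT.lf (nat_lit 0) (nat_lit 2186330654) (nat_lit 380) (nat_lit 3389013670) (nat_lit 76) (nat_lit 6991434898) (nat_lit 126) (nat_lit 5) (nat_lit 131) (nat_lit 5) (nat_lit 127) (nat_lit 5)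 (nat_lit 359) (nat_lit 307) (nat_lit 234))))) (XT.nd (nat_lit 234) (nat_lit 684) (nat_lit 0) (XT.nd (nat_lit 78) (nat_lit 304) (nat_lit 0) (XT.lf (nat_lit 0) (nat_lit 4177899141) (nat_lit 304) (nat_lit 1040795769) (nat_lit 380) (nat_lit 7568711275) (nat_lit 122) (nat_lit 5) (nat_lit 126) (nat_lit 5) (nat_lit 127) (nat_lit 5) (nat_lit 360) (nat_lit 307) (nat_lit 233)) (XT.nd (nat_lit 78) (nat_lit 304) (nat_lit 0) (XT.lf (nat_lit 0) (nat_lit 8382593656) (nat_lit 380) (nat_lit 1049363983) (nat_lit 76) (nat_lit 3581487304) (nat_lit 122) (nat_lit 5) (nat_lit 127) (nat_lit 5) (nat_lit 123) (nat_lit 5) (nat_lit 361) (nat_lit 307) (nat_lit 232)) (XT.lf (nat_lit 0) (nat_lit 6819775384) (nat_lit 304) (nat_lit 4869446758) (nat_lit 380) (nat_lit 1555617943) (nat_lit 118) (nat_lit 5) (nat_lit 122) (nat_lit 5) (nat_lit 123) (nat_lit 5) (nat_lit 362) (nat_lit 307) (nat_lit 231)))) (XT.nd (nat_lit 156) (nat_lit 304) (nat_lit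 0) (XT.nd (nat_lit 78) (nat_lit 0) (nat_lit 0) (XT.lf (nat_lit 0) (nat_lit 1435301441) (nat_lit 304) (nat_lit 141716051) (nat_lit 380) (nat_lit 11905805859) (nat_lit 113) (nat_lit 5) (nat_lit 117) (nat_lit 5) (nat_lit 118) (nat_lit 5) (nat_lit 363) (nat_lit 307) (nat_lit 230)) (XT.lf (nat_lit 0) (nat_lit 4855736618) (nat_lit 380) (nat_lit 4165362822) (nat_lit 76) (nat_lit 4703892269) (nat_lit 113) (nat_lit 5) (nat_lit 118) (nat_lit 5) (nat_lit 114) (nat_lit 5) (nat_lit 364) (nat_lit 307) (nat_lit 229))) (XT.nd (nat_lit 78) (nat_lit 0) (nat_lit 0) (XT.lf (nat_lit 0) (nat_lit 3989852429) (nat_lit 304) (nat_lit 4255925886) (nat_lit 380) (nat_lit 5728266507) (nat_lit 109) (nat_lit 5) (nat_lit 113) (nat_lit 5) (nat_lit 114) (nat_lit 5) (nat_lit 365) (nat_lit 307) (nat_lit 228)) (XT.lf (nat_lit 0) (nat_lit 11759749371) (nat_lit 380) (nat_lit 1801028975) (nat_lit 76) (nat_lit 669132626) (nat_lit 109) (nat_lit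 5) (nat_lit 114) (nat_lit 5) (nat_lit 110) (nat_lit 5) (nat_lit 366) (nat_lit 307) (nat_lit 227)))))) (XT.nd (nat_lit 546) (nat_lit 988) (nat_lit 0) (XT.nd (nat_lit 234) (nat_lit 608) (nat_lit 0) (XT.nd (nat_lit 78) (nat_lit 228) (nat_lit 0) (XT.lf (nat_lit 0) (nat_lit 949765476) (nat_lit 380) (nat_lit 7823551642) (nat_lit 76) (nat_lit 5717447527) (nat_lit 104) (nat_lit 5) (nat_lit 109) (nat_lit 5) (nat_lit 105) (nat_lit 5) (nat_lit 367) (nat_lit 307) (nat_lit 226)) (XT.nd (nat_lit 78) (nat_lit 0) (nat_lit 0) (XT.lf (nat_lit 0) (nat_lit 615790751) (nat_lit 228) (nat_lit 3805510901) (nat_lit 304) (nat_lit 10337456373) (nat_lit 101) (nat_lit 5) (nat_lit 104) (nat_lit 5) (nat_lit 105) (nat_lit 5) (nat_lit 368) (nat_lit 307) (nat_lit 225)) (XT.lf (nat_lit 0) (nat_lit 8063991364) (nat_lit 304) (nat_lit 5616483734) (nat_lit 76) (nat_lit 1352313248) (nat_lit 101) (nat_lit 5) (nat_lit 105) (nat_lit 5) (nat_lit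 102) (nat_lit 5) (nat_lit 369) (nat_lit 307) (nat_lit 224)))) (XT.nd (nat_lit 156) (nat_lit 228) (nat_lit 0) (XT.nd (nat_lit 78) (nat_lit 76) (nat_lit 0) (XT.lf (nat_lit 0) (nat_lit 3151393894) (nat_lit 304) (nat_lit 8707896036) (nat_lit 380) (nat_lit 3454456948) (nat_lit 97) (nat_lit 5) (nat_lit 101) (nat_lit 5) (nat_lit 102) (nat_lit 5) (nat_lit 370) (nat_lit 307) (nat_lit 223)) (XT.lf (nat_lit 0) (nat_lit 194827863) (nat_lit 380) (nat_lit 3344480595) (nat_lit 76) (nat_lit 12062802559) (nat_lit 96) (nat_lit 5) (nat_lit 101) (nat_lit 5) (nat_lit 97) (nat_lit 5) (nat_lit 371) (nat_lit 307) (nat_lit 222))) (XT.nd (nat_lit 78) (nat_lit 0) (nat_lit 0) (XT.lf (nat_lit 0) (nat_lit 3933804116) (nat_lit 304) (nat_lit 10135787524) (nat_lit 76) (nat_lit 1827025584) (nat_lit 93) (nat_lit 5) (nat_lit 97) (nat_lit 5) (nat_lit 94) (nat_lit 5) (nat_lit 372) (nat_lit 307) (nat_lit 221)) (XT.lf (nat_lit 0) (nat_lit 7830488477)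 (nat_lit 304) (nat_lit 1063902850) (nat_lit 76) (nat_lit 7304207474) (nat_lit 93) (nat_lit 5) (nat_lit 97) (nat_lit 5) (nat_lit 94) (nat_lit 5) (nat_lit 373) (nat_lit 307) (nat_lit 220))))) (XT.nd (nat_lit 234) (nat_lit 456) (nat_lit 0) (XT.nd (nat_lit 78) (nat_lit 304) (nat_lit 0) (XT.lf (nat_lit 0) (nat_lit 8407858143) (nat_lit 228) (nat_lit 3494113482) (nat_lit 304) (nat_lit 4605937419) (nat_lit 90) (nat_lit 5) (nat_lit 93) (nat_lit 5) (nat_lit 94) (nat_lit 5) (nat_lit 374) (nat_lit 307) (nat_lit 219)) (XT.nd (nat_lit 78) (nat_lit 76) (nat_lit 0) (XT.lf (nat_lit 0) (nat_lit 1328800629) (nat_lit 228) (nat_lit 14787571889) (nat_lit 304) (nat_lit 709508863) (nat_lit 87) (nat_lit 5) (nat_lit 90) (nat_lit 5) (nat_lit 91) (nat_lit 5) (nat_lit 375) (nat_lit 307) (nat_lit 218)) (XT.lf (nat_lit 0) (nat_lit 3333899231) (nat_lit 304) (nat_lit 6048186321) (nat_lit 76) (nat_lit 7767523552) (nat_lit 86) (nat_lit 5)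 (nat_lit 90) (nat_lit 5) (nat_lit 87) (nat_lit 5) (nat_lit 376) (nat_lit 307) (nat_lit 217)))) (XT.nd (nat_lit 156) (nat_lit 228) (nat_lit 0) (XT.nd (nat_lit 78) (nat_lit 0) (nat_lit 0) (XT.lf (nat_lit 0) (nat_lit 3714047084) (nat_lit 228) (nat_lit 3784019581) (nat_lit 304) (nat_lit 9984365201) (nat_lit 83) (nat_lit 5) (nat_lit 86) (nat_lit 5) (nat_lit 87) (nat_lit 5) (nat_lit 377) (nat_lit 307) (nat_lit 216)) (XT.lf (nat_lit 0) (nat_lit 11846078022) (nat_lit 304) (nat_lit 3985688705) (nat_lit 76) (nat_lit 1991710334) (nat_lit 83) (nat_lit 5) (nat_lit 87) (nat_lit 5) (nat_lit 84) (nat_lit 5) (nat_lit 378) (nat_lit 307) (nat_lit 215))) (XT.nd (nat_lit 78) (nat_lit 76) (nat_lit 0) (XT.lf (nat_lit 0) (nat_lit 6138086029) (nat_lit 152) (nat_lit 10261734880) (nat_lit 228) (nat_lit 1772679131) (nat_lit 81) (nat_lit 5) (nat_lit 83) (nat_lit 5) (nat_lit 84) (nat_lit 5) (nat_lit 379) (nat_lit 307) (nat_lit 214))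 (XT.lf (nat_lit 0) (nat_lit 2527806418) (nat_lit 228) (nat_lit 1943296248) (nat_lit 76) (nat_lit 14059571884) (nat_lit 80) (nat_lit 5) (nat_lit 83) (nat_lit 5) (nat_lit 81) (nat_lit 5) (nat_lit 380) (nat_lit 307) (nat_lit 213))))))))
noncomputable def xc124 : XT := (XT.nd (nat_lit 2106) (nat_lit 1520) (nat_lit 0) (XT.nd (nat_lit 1014) (nat_lit 1216) (nat_lit 0) (XT.nd (nat_lit 468) (nat_lit 684) (nat_lit 0) (XT.nd (nat_lit 234) (nat_lit 456) (nat_lit 0) (XT.nd (nat_lit 78) (nat_lit 152) (nat_lit 0) (XT.lf (nat_lit 0) (nat_lit 6998749924) (nat_lit 304) (nat_lit 10346051203) (nat_lit 76) (nat_lit 1551959179) (nat_lit 77) (nat_lit 5) (nat_lit 81) (nat_lit 5) (nat_lit 78) (nat_lit 5) (nat_lit 381) (nat_lit 307) (nat_lit 212)) (XT.nd (nat_lit 78) (nat_lit 0) (nat_lit 0) (XT.lf (nat_lit 0) (nat_lit 48681308) (nat_lit 152) (nat_lit 11599354309) (nat_lit 228) (nat_lit 7624471189) (nat_lit 75) (nat_lit 5) (nat_lit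 77) (nat_lit 5) (nat_lit 78) (nat_lit 5) (nat_lit 382) (nat_lit 307) (nat_lit 211)) (XT.lf (nat_lit 0) (nat_lit 10933736055) (nat_lit 152) (nat_lit 5587467883) (nat_lit 228) (nat_lit 3135794096) (nat_lit 75) (nat_lit 5) (nat_lit 77) (nat_lit 5) (nat_lit 78) (nat_lit 5) (nat_lit 383) (nat_lit 307) (nat_lit 210)))) (XT.nd (nat_lit 78) (nat_lit 152) (nat_lit 0) (XT.lf (nat_lit 0) (nat_lit 1464906965) (nat_lit 304) (nat_lit 17972915684) (nat_lit 76) (nat_lit 614584842) (nat_lit 71) (nat_lit 5) (nat_lit 75) (nat_lit 5) (nat_lit 72) (nat_lit 5) (nat_lit 384) (nat_lit 307) (nat_lit 209)) (XT.nd (nat_lit 78) (nat_lit 152) (nat_lit 0) (XT.lf (nat_lit 0) (nat_lit 6265332215) (nat_lit 304) (nat_lit 7192287481) (nat_lit 76) (nat_lit 6997390303) (nat_lit 71) (nat_lit 5) (nat_lit 75) (nat_lit 5) (nat_lit 72) (nat_lit 5) (nat_lit 385) (nat_lit 307) (nat_lit 208)) (XT.lf (nat_lit 0) (nat_lit 3956779991) (nat_lit 152) (nat_lit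 7272042746) (nat_lit 228) (nat_lit 9640300228) (nat_lit 69) (nat_lit 5) (nat_lit 71) (nat_lit 5) (nat_lit 72) (nat_lit 5) (nat_lit 386) (nat_lit 307) (nat_lit 207))))) (XT.nd (nat_lit 234) (nat_lit 380) (nat_lit 0) (XT.nd (nat_lit 78) (nat_lit 304) (nat_lit 0) (XT.lf (nat_lit 0) (nat_lit 15555879318) (nat_lit 152) (nat_lit 839230666) (nat_lit 228) (nat_lit 4898936416) (nat_lit 69) (nat_lit 5) (nat_lit 71) (nat_lit 5) (nat_lit 72) (nat_lit 5) (nat_lit 387) (nat_lit 307) (nat_lit 206)) (XT.nd (nat_lit 78) (nat_lit 0) (nat_lit 0) (XT.lf (nat_lit 0) (nat_lit 78923923) (nat_lit 304) (nat_lit 15932339767) (nat_lit 76) (nat_lit 5717643199) (nat_lit 65) (nat_lit 5) (nat_lit 69) (nat_lit 5) (nat_lit 66) (nat_lit 5) (nat_lit 388) (nat_lit 307) (nat_lit 205)) (XT.lf (nat_lit 0) (nat_lit 5156222774) (nat_lit 304) (nat_lit 4468924738) (nat_lit 76) (nat_lit 12548757072) (nat_lit 65) (nat_lit 5) (nat_lit 69) (nat_lit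 5) (nat_lit 66) (nat_lit 5) (nat_lit 389) (nat_lit 307) (nat_lit 204)))) (XT.nd (nat_lit 156) (nat_lit 228) (nat_lit 0) (XT.nd (nat_lit 78) (nat_lit 0) (nat_lit 0) (XT.lf (nat_lit 0) (nat_lit 7453316523) (nat_lit 152) (nat_lit 2986441085) (nat_lit 228) (nat_lit 12190880505) (nat_lit 63) (nat_lit 5) (nat_lit 65) (nat_lit 5) (nat_lit 66) (nat_lit 5) (nat_lit 390) (nat_lit 307) (nat_lit 203)) (XT.lf (nat_lit 0) (nat_lit 15946769793) (nat_lit 228) (nat_lit 3342979558) (nat_lit 76) (nat_lit 3809378473) (nat_lit 63) (nat_lit 5) (nat_lit 66) (nat_lit 5) (nat_lit 64) (nat_lit 5) (nat_lit 391) (nat_lit 307) (nat_lit 202))) (XT.nd (nat_lit 78) (nat_lit 76) (nat_lit 0) (XT.lf (nat_lit 0) (nat_lit 8961972080) (nat_lit 152) (nat_lit 12755625151) (nat_lit 228) (nat_lit 1861120065) (nat_lit 61) (nat_lit 5) (nat_lit 63) (nat_lit 5) (nat_lit 64) (nat_lit 5) (nat_lit 392) (nat_lit 307) (nat_lit 201)) (XT.lf (nat_lit 0) (nat_lit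 3535848575) (nat_lit 228) (nat_lit 2431697647) (nat_lit 76) (nat_lit 18103605563) (nat_lit 60) (nat_lit 5) (nat_lit 63) (nat_lit 5) (nat_lit 61) (nat_lit 5) (nat_lit 393) (nat_lit 307) (nat_lit 200)))))) (XT.nd (nat_lit 546) (nat_lit 532) (nat_lit 0) (XT.nd (nat_lit 234) (nat_lit 380) (nat_lit 0) (XT.nd (nat_lit 78) (nat_lit 152) (nat_lit 0) (XT.lf (nat_lit 0) (nat_lit 9150377107) (nat_lit 228) (nat_lit 14314228538) (nat_lit 76) (nat_lit 1110412077) (nat_lit 58) (nat_lit 5) (nat_lit 61) (nat_lit 5) (nat_lit 59) (nat_lit 5) (nat_lit 394) (nat_lit 307) (nat_lit 199)) (XT.nd (nat_lit 78) (nat_lit 152) (nat_lit 0) (XT.lf (nat_lit 0) (nat_lit 15000744384) (nat_lit 228) (nat_lit 1797700971) (nat_lit 76) (nat_lit 8293535054) (nat_lit 58) (nat_lit 5) (nat_lit 61) (nat_lit 5) (nat_lit 59) (nat_lit 5) (nat_lit 395) (nat_lit 307) (nat_lit 198)) (XT.lf (nat_lit 0) (nat_lit 11286397291) (nat_lit 152) (nat_lit 9832716919)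 (nat_lit 228) (nat_lit 4502565795) (nat_lit 56) (nat_lit 5) (nat_lit 58) (nat_lit 5) (nat_lit 59) (nat_lit 5) (nat_lit 396) (nat_lit 307) (nat_lit 197)))) (XT.nd (nat_lit 156) (nat_lit 152) (nat_lit 0) (XT.nd (nat_lit 78) (nat_lit 152) (nat_lit 0) (XT.lf (nat_lit 0) (nat_lit 1231670703) (nat_lit 228) (nat_lit 1407295633) (nat_lit 76) (nat_lit 23527874164) (nat_lit 55) (nat_lit 5) (nat_lit 58) (nat_lit 5) (nat_lit 56) (nat_lit 5) (nat_lit 397) (nat_lit 307) (nat_lit 196)) (XT.lf (nat_lit 0) (nat_lit 7195319414) (nat_lit 228) (nat_lit 14699202375) (nat_lit 76) (nat_lit 4828062695) (nat_lit 53) (nat_lit 5) (nat_lit 56) (nat_lit 5) (nat_lit 54) (nat_lit 5) (nat_lit 398) (nat_lit 307) (nat_lit 195))) (XT.nd (nat_lit 78) (nat_lit 152) (nat_lit 0) (XT.lf (nat_lit 0) (nat_lit 13362938266) (nat_lit 228) (nat_lit 1462480767) (nat_lit 76) (nat_lit 12468832402) (nat_lit 53) (nat_lit 5) (nat_lit 56) (nat_lit 5) (nat_lit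 54) (nat_lit 5) (nat_lit 399) (nat_lit 307) (nat_lit 194)) (XT.lf (nat_lit 0) (nat_lit 12386379748) (nat_lit 152) (nat_lit 7433301170) (nat_lit 228) (nat_lit 8060267013) (nat_lit 51) (nat_lit 5) (nat_lit 53) (nat_lit 5) (nat_lit 54) (nat_lit 5) (nat_lit 400) (nat_lit 307) (nat_lit 193))))) (XT.nd (nat_lit 234) (nat_lit 304) (nat_lit 0) (XT.nd (nat_lit 78) (nat_lit 228) (nat_lit 0) (XT.lf (nat_lit 0) (nat_lit 26471876435) (nat_lit 228) (nat_lit 1830707340) (nat_lit 76) (nat_lit 180581355) (nat_lit 51) (nat_lit 5) (nat_lit 54) (nat_lit 5) (nat_lit 52) (nat_lit 4) (nat_lit 401) (nat_lit 307) (nat_lit 192)) (XT.nd (nat_lit 78) (nat_lit 0) (nat_lit 0) (XT.lf (nat_lit 0) (nat_lit 4316765168) (nat_lit 228) (nat_lit 16757315276) (nat_lit 76) (nat_lit 8023785761) (nat_lit 48) (nat_lit 5) (nat_lit 51) (nat_lit 5) (nat_lit 49) (nat_lit 5) (nat_lit 402) (nat_lit 307) (nat_lit 191)) (XT.lf (nat_lit 0) (nat_lit 10798470215)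 (nat_lit 228) (nat_lit 2802070461) (nat_lit 76) (nat_lit 16129745319) (nat_lit 48) (nat_lit 5) (nat_lit 51) (nat_lit 5) (nat_lit 49) (nat_lit 5) (nat_lit 403) (nat_lit 307) (nat_lit 190)))) (XT.nd (nat_lit 156) (nat_lit 152) (nat_lit 0) (XT.nd (nat_lit 78) (nat_lit 0) (nat_lit 0) (XT.lf (nat_lit 0) (nat_lit 11776394075) (nat_lit 152) (nat_lit 5797419569) (nat_lit 228) (nat_lit 12804891180) (nat_lit 46) (nat_lit 5) (nat_lit 48) (nat_lit 5) (nat_lit 49) (nat_lit 5) (nat_lit 404) (nat_lit 307) (nat_lit 189)) (XT.lf (nat_lit 0) (nat_lit 24588569415) (nat_lit 228) (nat_lit 4243185897) (nat_lit 76) (nat_lit 2213738352) (nat_lit 46) (nat_lit 5) (nat_lit 49) (nat_lit 5) (nat_lit 47) (nat_lit 4) (nat_lit 405) (nat_lit 307) (nat_lit 188))) (XT.nd (nat_lit 78) (nat_lit 0) (nat_lit 0) (XT.lf (nat_lit 0) (nat_lit 227788142) (nat_lit 152) (nat_lit 21057109797) (nat_lit 76) (nat_lit 10442929728) (nat_lit 44) (nat_lit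 5) (nat_lit 46) (nat_lit 5) (nat_lit 45) (nat_lit 5) (nat_lit 406) (nat_lit 307) (nat_lit 187)) (XT.lf (nat_lit 0) (nat_lit 7013015210) (nat_lit 152) (nat_lit 6399274091) (nat_lit 76) (nat_lit 19015533794) (nat_lit 44) (nat_lit 5) (nat_lit 46) (nat_lit 5) (nat_lit 45) (nat_lit 5) (nat_lit 407) (nat_lit 307) (nat_lit 186))))))) (XT.nd (nat_lit 1014) (nat_lit 684) (nat_lit 0) (XT.nd (nat_lit 468) (nat_lit 380) (nat_lit 0) (XT.nd (nat_lit 234) (nat_lit 228) (nat_lit 0) (XT.nd (nat_lit 78) (nat_lit 76) (nat_lit 0) (XT.lf (nat_lit 0) (nat_lit 8847057400) (nat_lit 152) (nat_lit 5226657827) (nat_lit 228) (nat_lit 19072947455) (nat_lit 42) (nat_lit 5) (nat_lit 44) (nat_lit 5) (nat_lit 45) (nat_lit 5) (nat_lit 408) (nat_lit 307) (nat_lit 185)) (XT.nd (nat_lit 78) (nat_lit 76) (nat_lit 0) (XT.lf (nat_lit 0) (nat_lit 21429225498) (nat_lit 228) (nat_lit 9258546467) (nat_lit 76) (nat_lit 3196807543) (nat_lit 42) (nat_lit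 5) (nat_lit 45) (nat_lit 5) (nat_lit 43) (nat_lit 4) (nat_lit 409) (nat_lit 307) (nat_lit 184)) (XT.lf (nat_lit 0) (nat_lit 6281332001) (nat_lit 76) (nat_lit 22823504292) (nat_lit 152) (nat_lit 5536816171) (nat_lit 41) (nat_lit 5) (nat_lit 42) (nat_lit 5) (nat_lit 43) (nat_lit 4) (nat_lit 410) (nat_lit 307) (nat_lit 183)))) (XT.nd (nat_lit 78) (nat_lit 152) (nat_lit 0) (XT.lf (nat_lit 0) (nat_lit 1640012993) (nat_lit 152) (nat_lit 12980898057) (nat_lit 76) (nat_lit 20797617394) (nat_lit 40) (nat_lit 5) (nat_lit 42) (nat_lit 5) (nat_lit 41) (nat_lit 5) (nat_lit 411) (nat_lit 307) (nat_lit 182)) (XT.nd (nat_lit 78) (nat_lit 0) (nat_lit 0) (XT.lf (nat_lit 0) (nat_lit 2837881424) (nat_lit 152) (nat_lit 6097958482) (nat_lit 228) (nat_lit 27280778414) (nat_lit 38) (nat_lit 5) (nat_lit 40) (nat_lit 5) (nat_lit 41) (nat_lit 5) (nat_lit 412) (nat_lit 307) (nat_lit 181)) (XT.lf (nat_lit 0) (nat_lit 16596432675) (nat_lit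 228) (nat_lit 17687094367) (nat_lit 76) (nat_lit 2750748613) (nat_lit 38) (nat_lit 5) (nat_lit 41) (nat_lit 5) (nat_lit 39) (nat_lit 4) (nat_lit 413) (nat_lit 307) (nat_lit 180))))) (XT.nd (nat_lit 234) (nat_lit 228) (nat_lit 0) (XT.nd (nat_lit 78) (nat_lit 152) (nat_lit 0) (XT.lf (nat_lit 0) (nat_lit 24535319274) (nat_lit 228) (nat_lit 1607048968) (nat_lit 76) (nat_lit 11732641633) (nat_lit 38) (nat_lit 5) (nat_lit 41) (nat_lit 5) (nat_lit 39) (nat_lit 4) (nat_lit 414) (nat_lit 307) (nat_lit 179)) (XT.nd (nat_lit 78) (nat_lit 76) (nat_lit 0) (XT.lf (nat_lit 0) (nat_lit 15231284351) (nat_lit 76) (nat_lit 17615947361) (nat_lit 152) (nat_lit 5889690039) (nat_lit 37) (nat_lit 5) (nat_lit 38) (nat_lit 5) (nat_lit 39) (nat_lit 4) (nat_lit 415) (nat_lit 307) (nat_lit 178)) (XT.lf (nat_lit 0) (nat_lit 1753856567) (nat_lit 152) (nat_lit 7055153709) (nat_lit 76) (nat_lit 30815021982) (nat_lit 36) (nat_lit 5) (nat_lit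 38) (nat_lit 5) (nat_lit 37) (nat_lit 5) (nat_lit 416) (nat_lit 307) (nat_lit 177)))) (XT.nd (nat_lit 156) (nat_lit 76) (nat_lit 0) (XT.nd (nat_lit 78) (nat_lit 0) (nat_lit 0) (XT.lf (nat_lit 0) (nat_lit 9597266729) (nat_lit 228) (nat_lit 30532381933) (nat_lit 76) (nat_lit 403691271) (nat_lit 34) (nat_lit 5) (nat_lit 37) (nat_lit 5) (nat_lit 35) (nat_lit 4) (nat_lit 417) (nat_lit 307) (nat_lit 176)) (XT.lf (nat_lit 0) (nat_lit 17823985466) (nat_lit 228) (nat_lit 13863105719) (nat_lit 76) (nat_lit 9778396713) (nat_lit 34) (nat_lit 5) (nat_lit 37) (nat_lit 5) (nat_lit 35) (nat_lit 4) (nat_lit 418) (nat_lit 307) (nat_lit 175))) (XT.nd (nat_lit 78) (nat_lit 0) (nat_lit 0) (XT.lf (nat_lit 0) (nat_lit 3351483565) (nat_lit 76) (nat_lit 22967403515) (nat_lit 152) (nat_lit 16106072997) (nat_lit 33) (nat_lit 5) (nat_lit 34) (nat_lit 5) (nat_lit 35) (nat_lit 4) (nat_lit 419) (nat_lit 307) (nat_lit 174)) (XT.lf (nat_lit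 0) (nat_lit 21346723568) (nat_lit 76) (nat_lit 13851190819) (nat_lit 152) (nat_lit 8211424852) (nat_lit 33) (nat_lit 5) (nat_lit 34) (nat_lit 5) (nat_lit 35) (nat_lit 4) (nat_lit 420) (nat_lit 307) (nat_lit 173)))))) (XT.nd (nat_lit 546) (nat_lit 228) (nat_lit 0) (XT.nd (nat_lit 234) (nat_lit 228) (nat_lit 0) (XT.nd (nat_lit 78) (nat_lit 228) (nat_lit 0) (XT.lf (nat_lit 0) (nat_lit 39862435299) (nat_lit 76) (nat_lit 4470477659) (nat_lit 152) (nat_lit 90649948) (nat_lit 33) (nat_lit 5) (nat_lit 34) (nat_lit 5) (nat_lit 35) (nat_lit 4) (nat_lit 421) (nat_lit 307) (nat_lit 172)) (XT.nd (nat_lit 78) (nat_lit 0) (nat_lit 0) (XT.lf (nat_lit 0) (nat_lit 8285052870) (nat_lit 228) (nat_lit 31881234007) (nat_lit 76) (nat_lit 5294358856) (nat_lit 30) (nat_lit 5) (nat_lit 33) (nat_lit 5) (nat_lit 31) (nat_lit 4) (nat_lit 422) (nat_lit 307) (nat_lit 171)) (XT.lf (nat_lit 0) (nat_lit 16990815475) (nat_lit 228) (nat_lit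 14234466796) (nat_lit 76) (nat_lit 15301114574) (nat_lit 30) (nat_lit 5) (nat_lit 33) (nat_lit 5) (nat_lit 31) (nat_lit 4) (nat_lit 423) (nat_lit 307) (nat_lit 170)))) (XT.nd (nat_lit 156) (nat_lit 152) (nat_lit 0) (XT.nd (nat_lit 78) (nat_lit 0) (nat_lit 0) (XT.lf (nat_lit 0) (nat_lit 4001280210) (nat_lit 76) (nat_lit 21985063646) (nat_lit 152) (nat_lit 21636919862) (nat_lit 29) (nat_lit 5) (nat_lit 30) (nat_lit 5) (nat_lit 31) (nat_lit 4) (nat_lit 424) (nat_lit 307) (nat_lit 169)) (XT.lf (nat_lit 0) (nat_lit 23057571031) (nat_lit 76) (nat_lit 12328148766) (nat_lit 152) (nat_lit 13363298337) (nat_lit 29) (nat_lit 5) (nat_lit 30) (nat_lit 5) (nat_lit 31) (nat_lit 4) (nat_lit 425) (nat_lit 307) (nat_lit 168))) (XT.nd (nat_lit 78) (nat_lit 152) (nat_lit 0) (XT.lf (nat_lit 0) (nat_lit 42667762993) (nat_lit 76) (nat_lit 2389839753) (nat_lit 152) (nat_lit 4851227621) (nat_lit 29) (nat_lit 5) (nat_lit 30) (nat_lit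 5) (nat_lit 31) (nat_lit 4) (nat_lit 426) (nat_lit 307) (nat_lit 167)) (XT.lf (nat_lit 0) (nat_lit 4022134429) (nat_lit 152) (nat_lit 39235270827) (nat_lit 76) (nat_lit 7839432811) (nat_lit 27) (nat_lit 5) (nat_lit 29) (nat_lit 5) (nat_lit 28) (nat_lit 4) (nat_lit 427) (nat_lit 307) (nat_lit 166))))) (XT.nd (nat_lit 234) (nat_lit 152) (nat_lit 0) (XT.nd (nat_lit 78) (nat_lit 76) (nat_lit 0) (XT.lf (nat_lit 0) (nat_lit 13152435094) (nat_lit 152) (nat_lit 20722477177) (nat_lit 76) (nat_lit 18441486366) (nat_lit 27) (nat_lit 5) (nat_lit 29) (nat_lit 5) (nat_lit 28) (nat_lit 4) (nat_lit 428) (nat_lit 307) (nat_lit 165)) (XT.nd (nat_lit 78) (nat_lit 76) (nat_lit 0) (XT.lf (nat_lit 0) (nat_lit 22547650892) (nat_lit 152) (nat_lit 1671273283) (nat_lit 76) (nat_lit 29353892516) (nat_lit 27) (nat_lit 5) (nat_lit 29) (nat_lit 5) (nat_lit 28) (nat_lit 4) (nat_lit 429) (nat_lit 307) (nat_lit 164)) (XT.lf (nat_lit 0)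 (nat_lit 18291928956) (nat_lit 76) (nat_lit 14099895489) (nat_lit 152) (nat_lit 22470090630) (nat_lit 26) (nat_lit 5) (nat_lit 27) (nat_lit 5) (nat_lit 28) (nat_lit 4) (nat_lit 430) (nat_lit 307) (nat_lit 163)))) (XT.nd (nat_lit 156) (nat_lit 76) (nat_lit 0) (XT.nd (nat_lit 78) (nat_lit 76) (nat_lit 0) (XT.lf (nat_lit 0) (nat_lit 38871969098) (nat_lit 76) (nat_lit 3667596234) (nat_lit 152) (nat_lit 13649874617) (nat_lit 26) (nat_lit 5) (nat_lit 27) (nat_lit 5) (nat_lit 28) (nat_lit 4) (nat_lit 431) (nat_lit 307) (nat_lit 162)) (XT.lf (nat_lit 0) (nat_lit 2476895187) (nat_lit 76) (nat_lit 50598232931) (nat_lit 76) (nat_lit 4479161539) (nat_lit 25) (nat_lit 4) (nat_lit 26) (nat_lit 5) (nat_lit 26) (nat_lit 4) (nat_lit 432) (nat_lit 307) (nat_lit 161))) (XT.nd (nat_lit 78) (nat_lit 0) (nat_lit 0) (XT.lf (nat_lit 0) (nat_lit 5074227543) (nat_lit 152) (nat_lit 35836576873) (nat_lit 76) (nat_lit 18041714724)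 (nat_lit 24) (nat_lit 5) (nat_lit 26) (nat_lit 5) (nat_lit 25) (nat_lit 4) (nat_lit 433) (nat_lit 307) (nat_lit 160)) (XT.lf (nat_lit 0) (nat_lit 14815993087) (nat_lit 152) (nat_lit 16078450483) (nat_lit 76) (nat_lit 29497168161) (nat_lit 24) (nat_lit 5) (nat_lit 26) (nat_lit 5) (nat_lit 25) (nat_lit 4) (nat_lit 434) (nat_lit 307) (nat_lit 159))))))))
noncomputable def xc125 : XT := (XT.nd (nat_lit 38220) (nat_lit 0) (nat_lit 10564) (XT.nd (nat_lit 37128) (nat_lit 0) (nat_lit 21508) (XT.nd (nat_lit 468) (nat_lit 152) (nat_lit 0) (XT.nd (nat_lit 234) (nat_lit 152) (nat_lit 0) (XT.nd (nat_lit 78) (nat_lit 0) (nat_lit 0) (XT.lf (nat_lit 0) (nat_lit 4342034249) (nat_lit 76) (nat_lit 20541755931) (nat_lit 152) (nat_lit 36989074256) (nat_lit 23) (nat_lit 5) (nat_lit 24) (nat_lit 5) (nat_lit 25) (nat_lit 4) (nat_lit 435) (nat_lit 307) (nat_lit 158)) (XT.nd (nat_lit 78) (nat_lit 0) (nat_lit 0) (XT.lf (nat_lit 0)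 (nat_lit 25689759998) (nat_lit 76) (nat_lit 9718350276) (nat_lit 152) (nat_lit 27985810446) (nat_lit 23) (nat_lit 5) (nat_lit 24) (nat_lit 5) (nat_lit 25) (nat_lit 4) (nat_lit 436) (nat_lit 307) (nat_lit 157)) (XT.lf (nat_lit 0) (nat_lit 46254195008) (nat_lit 152) (nat_lit 17311128690) (nat_lit 0) (nat_lit 1395104595) (nat_lit 23) (nat_lit 5) (nat_lit 25) (nat_lit 4) (nat_lit 23) (nat_lit 4) (nat_lit 437) (nat_lit 307) (nat_lit 156)))) (XT.nd (nat_lit 78) (nat_lit 76) (nat_lit 0) (XT.lf (nat_lit 0) (nat_lit 3654520024) (nat_lit 76) (nat_lit 53895008886) (nat_lit 76) (nat_lit 9020686817) (nat_lit 22) (nat_lit 4) (nat_lit 23) (nat_lit 5) (nat_lit 23) (nat_lit 4) (nat_lit 438) (nat_lit 307) (nat_lit 155)) (XT.nd (nat_lit 78) (nat_lit 0) (nat_lit 0) (XT.lf (nat_lit 0) (nat_lit 1105845638) (nat_lit 152) (nat_lit 42644243439) (nat_lit 76) (nat_lit 24472860879) (nat_lit 21) (nat_lit 5) (nat_lit 23) (nat_lit 5)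 (nat_lit 22) (nat_lit 4) (nat_lit 439) (nat_lit 307) (nat_lit 154)) (XT.lf (nat_lit 0) (nat_lit 11347609101) (nat_lit 152) (nat_lit 21867820907) (nat_lit 76) (nat_lit 36707375114) (nat_lit 21) (nat_lit 5) (nat_lit 23) (nat_lit 5) (nat_lit 22) (nat_lit 4) (nat_lit 440) (nat_lit 307) (nat_lit 153))))) (XT.nd (nat_lit 234) (nat_lit 76) (nat_lit 0) (XT.nd (nat_lit 78) (nat_lit 76) (nat_lit 0) (XT.lf (nat_lit 0) (nat_lit 21889578775) (nat_lit 152) (nat_lit 481561592) (nat_lit 76) (nat_lit 49302727539) (nat_lit 21) (nat_lit 5) (nat_lit 23) (nat_lit 5) (nat_lit 22) (nat_lit 4) (nat_lit 441) (nat_lit 307) (nat_lit 152)) (XT.nd (nat_lit 78) (nat_lit 0) (nat_lit 0) (XT.lf (nat_lit 0) (nat_lit 21961774858) (nat_lit 76) (nat_lit 10990301247) (nat_lit 152) (nat_lit 40519258957) (nat_lit 20) (nat_lit 5) (nat_lit 21) (nat_lit 5) (nat_lit 22) (nat_lit 4) (nat_lit 442) (nat_lit 307) (nat_lit 151)) (XT.lf (nat_lit 0) (nat_lit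 44351569573) (nat_lit 152) (nat_lit 30254461748) (nat_lit 0) (nat_lit 716541807) (nat_lit 20) (nat_lit 5) (nat_lit 22) (nat_lit 4) (nat_lit 20) (nat_lit 4) (nat_lit 443) (nat_lit 307) (nat_lit 150)))) (XT.nd (nat_lit 36270) (nat_lit 0) (nat_lit 25004) (XT.nd (nat_lit 78) (nat_lit 76) (nat_lit 0) (XT.lf (nat_lit 0) (nat_lit 56195235683) (nat_lit 152) (nat_lit 8483224344) (nat_lit 0) (nat_lit 12547823187) (nat_lit 20) (nat_lit 5) (nat_lit 22) (nat_lit 4) (nat_lit 20) (nat_lit 4) (nat_lit 444) (nat_lit 307) (nat_lit 149)) (XT.lf (nat_lit 0) (nat_lit 14206031762) (nat_lit 76) (nat_lit 54318303078) (nat_lit 76) (nat_lit 10658866571) (nat_lit 19) (nat_lit 4) (nat_lit 20) (nat_lit 5) (nat_lit 20) (nat_lit 4) (nat_lit 445) (nat_lit 307) (nat_lit 148))) (XT.nd (nat_lit 78) (nat_lit 0) (nat_lit 0) (XT.lf (nat_lit 0) (nat_lit 669003123) (nat_lit 0) (nat_lit 669003123) (nat_lit 532) (nat_lit 2020152756) (nat_lit 348)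 (nat_lit 5) (nat_lit 348) (nat_lit 3) (nat_lit 355) (nat_lit 3) (nat_lit 308) (nat_lit 308) (nat_lit 284)) (XT.lf (nat_lit 0) (nat_lit 4634384809) (nat_lit 0) (nat_lit 193246534) (nat_lit 532) (nat_lit 1924455069) (nat_lit 348) (nat_lit 5) (nat_lit 348) (nat_lit 3) (nat_lit 355) (nat_lit 3) (nat_lit 309) (nat_lit 308) (nat_lit 283)))))) (XT.nd (nat_lit 546) (nat_lit 2204) (nat_lit 0) (XT.nd (nat_lit 234) (nat_lit 684) (nat_lit 0) (XT.nd (nat_lit 78) (nat_lit 0) (nat_lit 0) (XT.lf (nat_lit 0) (nat_lit 188338074) (nat_lit 608) (nat_lit 5581923161) (nat_lit 684) (nat_lit 1020501754) (nat_lit 340) (nat_lit 5) (nat_lit 348) (nat_lit 5) (nat_lit 349) (nat_lit 5) (nat_lit 310) (nat_lit 308) (nat_lit 282)) (XT.nd (nat_lit 78) (nat_lit 0) (nat_lit 0) (XT.lf (nat_lit 0) (nat_lit 2268451435) (nat_lit 608) (nat_lit 2217920836) (nat_lit 684) (nat_lit 2345437525) (nat_lit 340) (nat_lit 5) (nat_lit 348) (nat_lit 5) (nat_lit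 349) (nat_lit 5) (nat_lit 311) (nat_lit 308) (nat_lit 281)) (XT.lf (nat_lit 76) (nat_lit 1226892403) (nat_lit 0) (nat_lit 3117331929) (nat_lit 684) (nat_lit 2531924280) (nat_lit 341) (nat_lit 5) (nat_lit 340) (nat_lit 5) (nat_lit 349) (nat_lit 5) (nat_lit 312) (nat_lit 308) (nat_lit 280)))) (XT.nd (nat_lit 156) (nat_lit 0) (nat_lit 76) (XT.nd (nat_lit 78) (nat_lit 684) (nat_lit 0) (XT.lf (nat_lit 76) (nat_lit 4776896864) (nat_lit 0) (nat_lit 1651100913) (nat_lit 684) (nat_lit 495504584) (nat_lit 341) (nat_lit 5) (nat_lit 340) (nat_lit 5) (nat_lit 349) (nat_lit 5) (nat_lit 313) (nat_lit 308) (nat_lit 279)) (XT.lf (nat_lit 76) (nat_lit 1429725910) (nat_lit 0) (nat_lit 79537183) (nat_lit 760) (nat_lit 5464449498) (nat_lit 332) (nat_lit 5) (nat_lit 331) (nat_lit 5) (nat_lit 341) (nat_lit 5) (nat_lit 314) (nat_lit 308) (nat_lit 278))) (XT.nd (nat_lit 78) (nat_lit 0) (nat_lit 0) (XT.lf (nat_lit 0) (nat_lit 3527735666)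 (nat_lit 684) (nat_lit 1933356060) (nat_lit 760) (nat_lit 1565336379) (nat_lit 332) (nat_lit 5) (nat_lit 341) (nat_lit 5) (nat_lit 342) (nat_lit 5) (nat_lit 315) (nat_lit 308) (nat_lit 277)) (XT.lf (nat_lit 76) (nat_lit 1774766501) (nat_lit 0) (nat_lit 3778809001) (nat_lit 760) (nat_lit 1528795469) (nat_lit 333) (nat_lit 5) (nat_lit 332) (nat_lit 5) (nat_lit 342) (nat_lit 5) (nat_lit 316) (nat_lit 308) (nat_lit 276))))) (XT.nd (nat_lit 234) (nat_lit 1520) (nat_lit 0) (XT.nd (nat_lit 78) (nat_lit 0) (nat_lit 0) (XT.lf (nat_lit 0) (nat_lit 440028456) (nat_lit 760) (nat_lit 1556319943) (nat_lit 836) (nat_lit 5145059150) (nat_lit 322) (nat_lit 5) (nat_lit 332) (nat_lit 5) (nat_lit 333) (nat_lit 5) (nat_lit 317) (nat_lit 308) (nat_lit 275)) (XT.nd (nat_lit 78) (nat_lit 0) (nat_lit 76) (XT.lf (nat_lit 76) (nat_lit 2292760286) (nat_lit 0) (nat_lit 98385764) (nat_lit 836) (nat_lit 4812042402) (nat_lit 323) (nat_lit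 5) (nat_lit 322) (nat_lit 5) (nat_lit 333) (nat_lit 5) (nat_lit 318) (nat_lit 308) (nat_lit 274)) (XT.lf (nat_lit 0) (nat_lit 4368209582) (nat_lit 760) (nat_lit 1041306100) (nat_lit 836) (nat_lit 1858329402) (nat_lit 323) (nat_lit 5) (nat_lit 333) (nat_lit 5) (nat_lit 334) (nat_lit 5) (nat_lit 319) (nat_lit 308) (nat_lit 273)))) (XT.nd (nat_lit 156) (nat_lit 760) (nat_lit 0) (XT.nd (nat_lit 78) (nat_lit 836) (nat_lit 0) (XT.lf (nat_lit 76) (nat_lit 2955768761) (nat_lit 0) (nat_lit 3413829305) (nat_lit 836) (nat_lit 965936327) (nat_lit 324) (nat_lit 5) (nat_lit 323) (nat_lit 5) (nat_lit 334) (nat_lit 5) (nat_lit 320) (nat_lit 308) (nat_lit 272)) (XT.lf (nat_lit 0) (nat_lit 952786810) (nat_lit 836) (nat_lit 366493214) (nat_lit 912) (nat_lit 6087308543) (nat_lit 312) (nat_lit 5) (nat_lit 323) (nat_lit 5) (nat_lit 324) (nat_lit 5) (nat_lit 321) (nat_lit 308) (nat_lit 271))) (XT.nd (nat_lit 78) (nat_lit 836)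 (nat_lit 0) (XT.lf (nat_lit 0) (nat_lit 2893002672) (nat_lit 836) (nat_lit 3701811643) (nat_lit 76) (nat_lit 885212469) (nat_lit 313) (nat_lit 5) (nat_lit 324) (nat_lit 5) (nat_lit 314) (nat_lit 5) (nat_lit 322) (nat_lit 308) (nat_lit 270)) (XT.lf (nat_lit 0) (nat_lit 448949087) (nat_lit 836) (nat_lit 4403387511) (nat_lit 912) (nat_lit 2704542737) (nat_lit 302) (nat_lit 5) (nat_lit 313) (nat_lit 5) (nat_lit 314) (nat_lit 5) (nat_lit 323) (nat_lit 308) (nat_lit 269))))))) (XT.nd (nat_lit 1014) (nat_lit 4180) (nat_lit 0) (XT.nd (nat_lit 468) (nat_lit 3648) (nat_lit 0) (XT.nd (nat_lit 234) (nat_lit 2128) (nat_lit 0) (XT.nd (nat_lit 78) (nat_lit 988) (nat_lit 0) (XT.lf (nat_lit 0) (nat_lit 4754633391) (nat_lit 836) (nat_lit 2094310821) (nat_lit 912) (nat_lit 787775853) (nat_lit 302) (nat_lit 5) (nat_lit 313) (nat_lit 5) (nat_lit 314) (nat_lit 5) (nat_lit 324) (nat_lit 308) (nat_lit 268)) (XT.nd (nat_lit 78)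 (nat_lit 0) (nat_lit 0) (XT.lf (nat_lit 0) (nat_lit 1122528007) (nat_lit 988) (nat_lit 6281145649) (nat_lit 76) (nat_lit 316199864) (nat_lit 289) (nat_lit 5) (nat_lit 302) (nat_lit 5) (nat_lit 290) (nat_lit 5) (nat_lit 325) (nat_lit 308) (nat_lit 267)) (XT.lf (nat_lit 0) (nat_lit 3068023798) (nat_lit 988) (nat_lit 1931965550) (nat_lit 76) (nat_lit 2805520987) (nat_lit 289) (nat_lit 5) (nat_lit 302) (nat_lit 5) (nat_lit 290) (nat_lit 5) (nat_lit 326) (nat_lit 308) (nat_lit 266)))) (XT.nd (nat_lit 78) (nat_lit 1140) (nat_lit 0) (XT.lf (nat_lit 0) (nat_lit 2552111999) (nat_lit 988) (nat_lit 2489536965) (nat_lit 1064) (nat_lit 2853007596) (nat_lit 276) (nat_lit 5) (nat_lit 289) (nat_lit 5) (nat_lit 290) (nat_lit 5) (nat_lit 327) (nat_lit 308) (nat_lit 265)) (XT.nd (nat_lit 78) (nat_lit 1140) (nat_lit 0) (XT.lf (nat_lit 0) (nat_lit 7041588758) (nat_lit 1064) (nat_lit 823352518) (nat_lit 76) (nat_lit 122554991)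 (nat_lit 276) (nat_lit 5) (nat_lit 290) (nat_lit 5) (nat_lit 277) (nat_lit 5) (nat_lit 328) (nat_lit 308) (nat_lit 264)) (XT.lf (nat_lit 0) (nat_lit 1008160313) (nat_lit 1140) (nat_lit 4256421290) (nat_lit 76) (nat_lit 2817987472) (nat_lit 261) (nat_lit 5) (nat_lit 276) (nat_lit 5) (nat_lit 262) (nat_lit 5) (nat_lit 329) (nat_lit 308) (nat_lit 263))))) (XT.nd (nat_lit 234) (nat_lit 1292) (nat_lit 0) (XT.nd (nat_lit 78) (nat_lit 1216) (nat_lit 0) (XT.lf (nat_lit 0) (nat_lit 404300575) (nat_lit 1140) (nat_lit 2558406964) (nat_lit 1216) (nat_lit 5218709024) (nat_lit 246) (nat_lit 5) (nat_lit 261) (nat_lit 5) (nat_lit 262) (nat_lit 5) (nat_lit 330) (nat_lit 308) (nat_lit 262)) (XT.nd (nat_lit 78) (nat_lit 1216) (nat_lit 0) (XT.lf (nat_lit 0) (nat_lit 4971192896) (nat_lit 1216) (nat_lit 3039513549) (nat_lit 76) (nat_lit 272692653) (nat_lit 246) (nat_lit 5) (nat_lit 262) (nat_lit 5) (nat_lit 247) (nat_lit 5)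 (nat_lit 331) (nat_lit 308) (nat_lit 261)) (XT.lf (nat_lit 0) (nat_lit 1804423523) (nat_lit 1216) (nat_lit 5229344313) (nat_lit 1292) (nat_lit 1354886061) (nat_lit 230) (nat_lit 5) (nat_lit 246) (nat_lit 5) (nat_lit 247) (nat_lit 5) (nat_lit 332) (nat_lit 308) (nat_lit 260)))) (XT.nd (nat_lit 156) (nat_lit 608) (nat_lit 0) (XT.nd (nat_lit 78) (nat_lit 608) (nat_lit 0) (XT.lf (nat_lit 0) (nat_lit 630895774) (nat_lit 1292) (nat_lit 1693033364) (nat_lit 76) (nat_lit 6173493472) (nat_lit 229) (nat_lit 5) (nat_lit 246) (nat_lit 5) (nat_lit 230) (nat_lit 5) (nat_lit 333) (nat_lit 308) (nat_lit 259)) (XT.lf (nat_lit 0) (nat_lit 2641195110) (nat_lit 684) (nat_lit 5264391655) (nat_lit 76) (nat_lit 703725378) (nat_lit 221) (nat_lit 5) (nat_lit 230) (nat_lit 5) (nat_lit 222) (nat_lit 5) (nat_lit 334) (nat_lit 308) (nat_lit 258))) (XT.nd (nat_lit 78) (nat_lit 608) (nat_lit 0) (XT.lf (nat_lit 0) (nat_lit 4706088539)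 (nat_lit 684) (nat_lit 224353831) (nat_lit 76) (nat_lit 3794312171) (nat_lit 221) (nat_lit 5) (nat_lit 230) (nat_lit 5) (nat_lit 222) (nat_lit 5) (nat_lit 335) (nat_lit 308) (nat_lit 257)) (XT.lf (nat_lit 0) (nat_lit 5020337002) (nat_lit 608) (nat_lit 1816200152) (nat_lit 684) (nat_lit 2007038821) (nat_lit 213) (nat_lit 5) (nat_lit 221) (nat_lit 5) (nat_lit 222) (nat_lit 5) (nat_lit 336) (nat_lit 308) (nat_lit 256)))))) (XT.nd (nat_lit 546) (nat_lit 1900) (nat_lit 0) (XT.nd (nat_lit 234) (nat_lit 1064) (nat_lit 0) (XT.nd (nat_lit 78) (nat_lit 532) (nat_lit 0) (XT.lf (nat_lit 0) (nat_lit 49139965) (nat_lit 684) (nat_lit 7536725010) (nat_lit 76) (nat_lit 1380536888) (nat_lit 204) (nat_lit 5) (nat_lit 213) (nat_lit 5) (nat_lit 205) (nat_lit 5) (nat_lit 337) (nat_lit 308) (nat_lit 255)) (XT.nd (nat_lit 78) (nat_lit 532) (nat_lit 0) (XT.lf (nat_lit 0) (nat_lit 2140255514) (nat_lit 684) (nat_lit 2257287925) (nat_lit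 76) (nat_lit 4694387185) (nat_lit 204) (nat_lit 5) (nat_lit 213) (nat_lit 5) (nat_lit 205) (nat_lit 5) (nat_lit 338) (nat_lit 308) (nat_lit 254)) (XT.lf (nat_lit 0) (nat_lit 3198430292) (nat_lit 532) (nat_lit 1084302269) (nat_lit 608) (nat_lit 4938855184) (nat_lit 197) (nat_lit 5) (nat_lit 204) (nat_lit 5) (nat_lit 205) (nat_lit 5) (nat_lit 339) (nat_lit 308) (nat_lit 253)))) (XT.nd (nat_lit 156) (nat_lit 532) (nat_lit 0) (XT.nd (nat_lit 78) (nat_lit 532) (nat_lit 0) (XT.lf (nat_lit 0) (nat_lit 6493544377) (nat_lit 608) (nat_lit 558277608) (nat_lit 76) (nat_lit 2303211495) (nat_lit 197) (nat_lit 5) (nat_lit 205) (nat_lit 5) (nat_lit 198) (nat_lit 5) (nat_lit 340) (nat_lit 308) (nat_lit 252)) (XT.lf (nat_lit 0) (nat_lit 5115645377) (nat_lit 532) (nat_lit 3674808847) (nat_lit 608) (nat_lit 701455264) (nat_lit 190) (nat_lit 5) (nat_lit 197) (nat_lit 5) (nat_lit 198) (nat_lit 5) (nat_lit 341) (nat_lit 308)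 (nat_lit 251))) (XT.nd (nat_lit 78) (nat_lit 0) (nat_lit 0) (XT.lf (nat_lit 0) (nat_lit 1304899434) (nat_lit 456) (nat_lit 167194837) (nat_lit 532) (nat_lit 8161023913) (nat_lit 183) (nat_lit 5) (nat_lit 189) (nat_lit 5) (nat_lit 190) (nat_lit 5) (nat_lit 342) (nat_lit 308) (nat_lit 250)) (XT.lf (nat_lit 0) (nat_lit 3735396976) (nat_lit 532) (nat_lit 2616614878) (nat_lit 76) (nat_lit 3425201981) (nat_lit 183) (nat_lit 5) (nat_lit 190) (nat_lit 5) (nat_lit 184) (nat_lit 5) (nat_lit 343) (nat_lit 308) (nat_lit 249))))) (XT.nd (nat_lit 234) (nat_lit 836) (nat_lit 0) (XT.nd (nat_lit 78) (nat_lit 532) (nat_lit 0) (XT.lf (nat_lit 0) (nat_lit 3285017063) (nat_lit 532) (nat_lit 2776848024) (nat_lit 608) (nat_lit 3863927146) (nat_lit 176) (nat_lit 5) (nat_lit 183) (nat_lit 5) (nat_lit 184) (nat_lit 5) (nat_lit 344) (nat_lit 308) (nat_lit 248)) (XT.nd (nat_lit 78) (nat_lit 532) (nat_lit 0) (XT.lf (nat_lit 0) (nat_lit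 8456180746) (nat_lit 608) (nat_lit 714081302) (nat_lit 76) (nat_lit 908641680) (nat_lit 176) (nat_lit 5) (nat_lit 184) (nat_lit 5) (nat_lit 177) (nat_lit 5) (nat_lit 345) (nat_lit 308) (nat_lit 247)) (XT.lf (nat_lit 0) (nat_lit 716149868) (nat_lit 532) (nat_lit 4816672068) (nat_lit 76) (nat_lit 4702290835) (nat_lit 169) (nat_lit 5) (nat_lit 176) (nat_lit 5) (nat_lit 170) (nat_lit 5) (nat_lit 346) (nat_lit 308) (nat_lit 246)))) (XT.nd (nat_lit 156) (nat_lit 380) (nat_lit 0) (XT.nd (nat_lit 78) (nat_lit 0) (nat_lit 0) (XT.lf (nat_lit 0) (nat_lit 1319973197) (nat_lit 456) (nat_lit 1756599735) (nat_lit 532) (nat_lit 7319449060) (nat_lit 163) (nat_lit 5) (nat_lit 169) (nat_lit 5) (nat_lit 170) (nat_lit 5) (nat_lit 347) (nat_lit 308) (nat_lit 245)) (XT.lf (nat_lit 0) (nat_lit 5542021193) (nat_lit 532) (nat_lit 2885835720) (nat_lit 76) (nat_lit 2132890614) (nat_lit 163) (nat_lit 5) (nat_lit 170) (nat_lit 5) (nat_lit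 164) (nat_lit 5) (nat_lit 348) (nat_lit 308) (nat_lit 244))) (XT.nd (nat_lit 78) (nat_lit 0) (nat_lit 0) (XT.lf (nat_lit 0) (nat_lit 3498229607) (nat_lit 380) (nat_lit 4599843036) (nat_lit 456) (nat_lit 2631857957) (nat_lit 158) (nat_lit 5) (nat_lit 163) (nat_lit 5) (nat_lit 164) (nat_lit 5) (nat_lit 349) (nat_lit 308) (nat_lit 243)) (XT.lf (nat_lit 0) (nat_lit 10090667449) (nat_lit 380) (nat_lit 635494683) (nat_lit 456) (nat_lit 178180866) (nat_lit 158) (nat_lit 5) (nat_lit 163) (nat_lit 5) (nat_lit 164) (nat_lit 5) (nat_lit 350) (nat_lit 308) (nat_lit 242))))))))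
noncomputable def xc126 : XT := (XT.nd (nat_lit 2106) (nat_lit 2888) (nat_lit 0) (XT.nd (nat_lit 1014) (nat_lit 2432) (nat_lit 0) (XT.nd (nat_lit 468) (nat_lit 1368) (nat_lit 0) (XT.nd (nat_lit 234) (nat_lit 760) (nat_lit 0) (XT.nd (nat_lit 78) (nat_lit 380) (nat_lit 0) (XT.lf (nat_lit 0) (nat_lit 2360168735) (nat_lit 532) (nat_lit 5269820081) (nat_lit 76) (nat_lit 3451628165) (nat_lit 151) (nat_lit 5) (nat_lit 158) (nat_lit 5) (nat_lit 152) (nat_lit 5) (nat_lit 351) (nat_lit 308) (nat_lit 241)) (XT.nd (nat_lit 78) (nat_lit 0) (nat_lit 0) (XT.lf (nat_lit 0) (nat_lit 1365004858) (nat_lit 380) (nat_lit 3601138110) (nat_lit 456) (nat_lit 6298174923) (nat_lit 146) (nat_lit 5) (nat_lit 151) (nat_lit 5) (nat_lit 152) (nat_lit 5) (nat_lit 352) (nat_lit 308) (nat_lit 240)) (XT.lf (nat_lit 0) (nat_lit 7677111240) (nat_lit 456) (nat_lit 3192515473) (nat_lit 76) (nat_lit 582081581) (nat_lit 146) (nat_lit 5) (nat_lit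 152) (nat_lit 5) (nat_lit 147) (nat_lit 5) (nat_lit 353) (nat_lit 308) (nat_lit 239)))) (XT.nd (nat_lit 78) (nat_lit 380) (nat_lit 0) (XT.lf (nat_lit 0) (nat_lit 3710773157) (nat_lit 380) (nat_lit 6798698138) (nat_lit 456) (nat_lit 1134059764) (nat_lit 141) (nat_lit 5) (nat_lit 146) (nat_lit 5) (nat_lit 147) (nat_lit 5) (nat_lit 354) (nat_lit 308) (nat_lit 238)) (XT.nd (nat_lit 78) (nat_lit 304) (nat_lit 0) (XT.lf (nat_lit 0) (nat_lit 1556245557) (nat_lit 456) (nat_lit 1010791370) (nat_lit 76) (nat_lit 9273581278) (nat_lit 140) (nat_lit 5) (nat_lit 146) (nat_lit 5) (nat_lit 141) (nat_lit 5) (nat_lit 355) (nat_lit 308) (nat_lit 237)) (XT.lf (nat_lit 0) (nat_lit 4351612728) (nat_lit 380) (nat_lit 5872359609) (nat_lit 76) (nat_lit 1817905863) (nat_lit 136) (nat_lit 5) (nat_lit 141) (nat_lit 5) (nat_lit 137) (nat_lit 5) (nat_lit 356) (nat_lit 308) (nat_lit 236))))) (XT.nd (nat_lit 234) (nat_lit 608) (nat_lit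 0) (XT.nd (nat_lit 78) (nat_lit 380) (nat_lit 0) (XT.lf (nat_lit 0) (nat_lit 1295978406) (nat_lit 380) (nat_lit 5953279421) (nat_lit 456) (nat_lit 4999376796) (nat_lit 131) (nat_lit 5) (nat_lit 136) (nat_lit 5) (nat_lit 137) (nat_lit 5) (nat_lit 357) (nat_lit 308) (nat_lit 235)) (XT.nd (nat_lit 78) (nat_lit 380) (nat_lit 0) (XT.lf (nat_lit 0) (nat_lit 8759263147) (nat_lit 380) (nat_lit 1504581165) (nat_lit 456) (nat_lit 2196859876) (nat_lit 131) (nat_lit 5) (nat_lit 136) (nat_lit 5) (nat_lit 137) (nat_lit 5) (nat_lit 358) (nat_lit 308) (nat_lit 234)) (XT.lf (nat_lit 0) (nat_lit 713928831) (nat_lit 380) (nat_lit 8913769944) (nat_lit 76) (nat_lit 3050118689) (nat_lit 126) (nat_lit 5) (nat_lit 131) (nat_lit 5) (nat_lit 127) (nat_lit 5) (nat_lit 359) (nat_lit 308) (nat_lit 233)))) (XT.nd (nat_lit 156) (nat_lit 304) (nat_lit 0) (XT.nd (nat_lit 78) (nat_lit 304) (nat_lit 0) (XT.lf (nat_lit 0) (nat_lit 3692153790)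 (nat_lit 380) (nat_lit 1448207091) (nat_lit 76) (nat_lit 7759712597) (nat_lit 126) (nat_lit 5) (nat_lit 131) (nat_lit 5) (nat_lit 127) (nat_lit 5) (nat_lit 360) (nat_lit 308) (nat_lit 232)) (XT.lf (nat_lit 0) (nat_lit 6325688820) (nat_lit 304) (nat_lit 467292666) (nat_lit 380) (nat_lit 6335027614) (nat_lit 122) (nat_lit 5) (nat_lit 126) (nat_lit 5) (nat_lit 127) (nat_lit 5) (nat_lit 361) (nat_lit 308) (nat_lit 231))) (XT.nd (nat_lit 78) (nat_lit 0) (nat_lit 0) (XT.lf (nat_lit 0) (nat_lit 937110399) (nat_lit 304) (nat_lit 9088045585) (nat_lit 380) (nat_lit 3336486471) (nat_lit 118) (nat_lit 5) (nat_lit 122) (nat_lit 5) (nat_lit 123) (nat_lit 5) (nat_lit 362) (nat_lit 308) (nat_lit 230)) (XT.lf (nat_lit 0) (nat_lit 9004432952) (nat_lit 304) (nat_lit 4396321231) (nat_lit 380) (nat_lit 200145928) (nat_lit 118) (nat_lit 5) (nat_lit 122) (nat_lit 5) (nat_lit 123) (nat_lit 5) (nat_lit 363) (nat_lit 308) (nat_lit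 229)))))) (XT.nd (nat_lit 546) (nat_lit 1140) (nat_lit 0) (XT.nd (nat_lit 234) (nat_lit 608) (nat_lit 0) (XT.nd (nat_lit 78) (nat_lit 304) (nat_lit 0) (XT.lf (nat_lit 0) (nat_lit 2982871797) (nat_lit 380) (nat_lit 10384407220) (nat_lit 76) (nat_lit 478839583) (nat_lit 113) (nat_lit 5) (nat_lit 118) (nat_lit 5) (nat_lit 114) (nat_lit 5) (nat_lit 364) (nat_lit 308) (nat_lit 228)) (XT.nd (nat_lit 78) (nat_lit 304) (nat_lit 0) (XT.lf (nat_lit 0) (nat_lit 6321745522) (nat_lit 380) (nat_lit 2326112816) (nat_lit 76) (nat_lit 5448852498) (nat_lit 113) (nat_lit 5) (nat_lit 118) (nat_lit 5) (nat_lit 114) (nat_lit 5) (nat_lit 365) (nat_lit 308) (nat_lit 227)) (XT.lf (nat_lit 0) (nat_lit 6054501924) (nat_lit 304) (nat_lit 3739226222) (nat_lit 380) (nat_lit 4560112454) (nat_lit 109) (nat_lit 5) (nat_lit 113) (nat_lit 5) (nat_lit 114) (nat_lit 5) (nat_lit 366) (nat_lit 308) (nat_lit 226)))) (XT.nd (nat_lit 156) (nat_lit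 228) (nat_lit 0) (XT.nd (nat_lit 78) (nat_lit 76) (nat_lit 0) (XT.lf (nat_lit 0) (nat_lit 66812192) (nat_lit 304) (nat_lit 13315081250) (nat_lit 380) (nat_lit 1236437930) (nat_lit 105) (nat_lit 5) (nat_lit 109) (nat_lit 5) (nat_lit 110) (nat_lit 5) (nat_lit 367) (nat_lit 308) (nat_lit 225)) (XT.lf (nat_lit 0) (nat_lit 2241049706) (nat_lit 380) (nat_lit 6131013351) (nat_lit 76) (nat_lit 6515167161) (nat_lit 104) (nat_lit 5) (nat_lit 109) (nat_lit 5) (nat_lit 105) (nat_lit 5) (nat_lit 368) (nat_lit 308) (nat_lit 224))) (XT.nd (nat_lit 78) (nat_lit 0) (nat_lit 0) (XT.lf (nat_lit 0) (nat_lit 2542614756) (nat_lit 228) (nat_lit 3255681113) (nat_lit 304) (nat_lit 9365531496) (nat_lit 101) (nat_lit 5) (nat_lit 104) (nat_lit 5) (nat_lit 105) (nat_lit 5) (nat_lit 369) (nat_lit 308) (nat_lit 223)) (XT.lf (nat_lit 0) (nat_lit 9520219741) (nat_lit 304) (nat_lit 3901812269) (nat_lit 76) (nat_lit 2024958547) (nat_lit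 101) (nat_lit 5) (nat_lit 105) (nat_lit 5) (nat_lit 102) (nat_lit 5) (nat_lit 370) (nat_lit 308) (nat_lit 222))))) (XT.nd (nat_lit 234) (nat_lit 532) (nat_lit 0) (XT.nd (nat_lit 78) (nat_lit 304) (nat_lit 0) (XT.lf (nat_lit 0) (nat_lit 5110639276) (nat_lit 304) (nat_lit 8301294446) (nat_lit 380) (nat_lit 2324977686) (nat_lit 97) (nat_lit 5) (nat_lit 101) (nat_lit 5) (nat_lit 102) (nat_lit 5) (nat_lit 371) (nat_lit 308) (nat_lit 221)) (XT.nd (nat_lit 78) (nat_lit 228) (nat_lit 0) (XT.lf (nat_lit 0) (nat_lit 1374508130) (nat_lit 380) (nat_lit 1610739280) (nat_lit 76) (nat_lit 13049389579) (nat_lit 96) (nat_lit 5) (nat_lit 101) (nat_lit 5) (nat_lit 97) (nat_lit 5) (nat_lit 372) (nat_lit 308) (nat_lit 220)) (XT.lf (nat_lit 0) (nat_lit 5215256327) (nat_lit 304) (nat_lit 8595075167) (nat_lit 76) (nat_lit 2527968196) (nat_lit 93) (nat_lit 5) (nat_lit 97) (nat_lit 5) (nat_lit 94) (nat_lit 5) (nat_lit 373) (nat_lit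 308) (nat_lit 219)))) (XT.nd (nat_lit 156) (nat_lit 304) (nat_lit 0) (XT.nd (nat_lit 78) (nat_lit 0) (nat_lit 0) (XT.lf (nat_lit 0) (nat_lit 709070944) (nat_lit 228) (nat_lit 8492699752) (nat_lit 304) (nat_lit 7448391248) (nat_lit 90) (nat_lit 5) (nat_lit 93) (nat_lit 5) (nat_lit 94) (nat_lit 5) (nat_lit 374) (nat_lit 308) (nat_lit 218)) (XT.lf (nat_lit 0) (nat_lit 10433588883) (nat_lit 228) (nat_lit 2939141791) (nat_lit 304) (nat_lit 3596709698) (nat_lit 90) (nat_lit 5) (nat_lit 93) (nat_lit 5) (nat_lit 94) (nat_lit 5) (nat_lit 375) (nat_lit 308) (nat_lit 217))) (XT.nd (nat_lit 78) (nat_lit 0) (nat_lit 0) (XT.lf (nat_lit 0) (nat_lit 399244214) (nat_lit 304) (nat_lit 14149281045) (nat_lit 76) (nat_lit 2748591957) (nat_lit 86) (nat_lit 5) (nat_lit 90) (nat_lit 5) (nat_lit 87) (nat_lit 5) (nat_lit 376) (nat_lit 308) (nat_lit 216)) (XT.lf (nat_lit 0) (nat_lit 4517195740) (nat_lit 304) (nat_lit 4476537454)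 (nat_lit 76) (nat_lit 8637595881) (nat_lit 86) (nat_lit 5) (nat_lit 90) (nat_lit 5) (nat_lit 87) (nat_lit 5) (nat_lit 377) (nat_lit 308) (nat_lit 215))))))) (XT.nd (nat_lit 1014) (nat_lit 1292) (nat_lit 0) (XT.nd (nat_lit 468) (nat_lit 760) (nat_lit 0) (XT.nd (nat_lit 234) (nat_lit 456) (nat_lit 0) (XT.nd (nat_lit 78) (nat_lit 152) (nat_lit 0) (XT.lf (nat_lit 0) (nat_lit 5561375753) (nat_lit 228) (nat_lit 3230047215) (nat_lit 304) (nat_lit 9183167369) (nat_lit 83) (nat_lit 5) (nat_lit 86) (nat_lit 5) (nat_lit 87) (nat_lit 5) (nat_lit 378) (nat_lit 308) (nat_lit 214)) (XT.nd (nat_lit 78) (nat_lit 152) (nat_lit 0) (XT.lf (nat_lit 0) (nat_lit 13244985269) (nat_lit 304) (nat_lit 2394768697) (nat_lit 76) (nat_lit 2686867238) (nat_lit 83) (nat_lit 5) (nat_lit 87) (nat_lit 5) (nat_lit 84) (nat_lit 5) (nat_lit 379) (nat_lit 308) (nat_lit 213)) (XT.lf (nat_lit 0) (nat_lit 8015949764) (nat_lit 152) (nat_lit 9905277835)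 (nat_lit 228) (nat_lit 765318070) (nat_lit 81) (nat_lit 5) (nat_lit 83) (nat_lit 5) (nat_lit 84) (nat_lit 5) (nat_lit 380) (nat_lit 308) (nat_lit 212)))) (XT.nd (nat_lit 78) (nat_lit 380) (nat_lit 0) (XT.lf (nat_lit 0) (nat_lit 3613200272) (nat_lit 228) (nat_lit 336880618) (nat_lit 76) (nat_lit 15105994274) (nat_lit 80) (nat_lit 5) (nat_lit 83) (nat_lit 5) (nat_lit 81) (nat_lit 5) (nat_lit 381) (nat_lit 308) (nat_lit 211)) (XT.nd (nat_lit 78) (nat_lit 152) (nat_lit 0) (XT.lf (nat_lit 0) (nat_lit 8210984007) (nat_lit 304) (nat_lit 8984204093) (nat_lit 76) (nat_lit 2238180816) (nat_lit 77) (nat_lit 5) (nat_lit 81) (nat_lit 5) (nat_lit 78) (nat_lit 5) (nat_lit 382) (nat_lit 308) (nat_lit 210)) (XT.lf (nat_lit 0) (nat_lit 1705975995) (nat_lit 152) (nat_lit 11280496792) (nat_lit 228) (nat_lit 6834319874) (nat_lit 75) (nat_lit 5) (nat_lit 77) (nat_lit 5) (nat_lit 78) (nat_lit 5) (nat_lit 383) (nat_lit 308) (nat_lit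 209))))) (XT.nd (nat_lit 234) (nat_lit 456) (nat_lit 0) (XT.nd (nat_lit 78) (nat_lit 304) (nat_lit 0) (XT.lf (nat_lit 0) (nat_lit 12869354202) (nat_lit 152) (nat_lit 5107676244) (nat_lit 228) (nat_lit 2240658743) (nat_lit 75) (nat_lit 5) (nat_lit 77) (nat_lit 5) (nat_lit 78) (nat_lit 5) (nat_lit 384) (nat_lit 308) (nat_lit 208)) (XT.nd (nat_lit 78) (nat_lit 0) (nat_lit 0) (XT.lf (nat_lit 0) (nat_lit 2472284955) (nat_lit 304) (nat_lit 16878310982) (nat_lit 76) (nat_lit 1274280013) (nat_lit 71) (nat_lit 5) (nat_lit 75) (nat_lit 5) (nat_lit 72) (nat_lit 5) (nat_lit 385) (nat_lit 308) (nat_lit 207)) (XT.lf (nat_lit 0) (nat_lit 7388661872) (nat_lit 304) (nat_lit 5821850113) (nat_lit 76) (nat_lit 7829892231) (nat_lit 71) (nat_lit 5) (nat_lit 75) (nat_lit 5) (nat_lit 72) (nat_lit 5) (nat_lit 386) (nat_lit 308) (nat_lit 206)))) (XT.nd (nat_lit 156) (nat_lit 304) (nat_lit 0) (XT.nd (nat_lit 78) (nat_lit 0) (nat_lit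 0) (XT.lf (nat_lit 0) (nat_lit 5646138344) (nat_lit 152) (nat_lit 6842773083) (nat_lit 228) (nat_lit 8978399192) (nat_lit 69) (nat_lit 5) (nat_lit 71) (nat_lit 5) (nat_lit 72) (nat_lit 5) (nat_lit 387) (nat_lit 308) (nat_lit 205)) (XT.lf (nat_lit 0) (nat_lit 17547463420) (nat_lit 152) (nat_lit 235833853) (nat_lit 228) (nat_lit 4122496700) (nat_lit 69) (nat_lit 5) (nat_lit 71) (nat_lit 5) (nat_lit 72) (nat_lit 5) (nat_lit 388) (nat_lit 308) (nat_lit 204))) (XT.nd (nat_lit 78) (nat_lit 0) (nat_lit 0) (XT.lf (nat_lit 0) (nat_lit 981094734) (nat_lit 304) (nat_lit 14861445826) (nat_lit 76) (nat_lit 6511066194) (nat_lit 65) (nat_lit 5) (nat_lit 69) (nat_lit 5) (nat_lit 66) (nat_lit 5) (nat_lit 389) (nat_lit 308) (nat_lit 203)) (XT.lf (nat_lit 0) (nat_lit 6184504693) (nat_lit 304) (nat_lit 3099240894) (nat_lit 76) (nat_lit 13529000075) (nat_lit 65) (nat_lit 5) (nat_lit 69) (nat_lit 5) (nat_lit 66) (nat_lit 5)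 (nat_lit 390) (nat_lit 308) (nat_lit 202)))))) (XT.nd (nat_lit 546) (nat_lit 608) (nat_lit 0) (XT.nd (nat_lit 234) (nat_lit 380) (nat_lit 0) (XT.nd (nat_lit 78) (nat_lit 152) (nat_lit 0) (XT.lf (nat_lit 0) (nat_lit 9165924943) (nat_lit 152) (nat_lit 2449489373) (nat_lit 228) (nat_lit 11668105718) (nat_lit 63) (nat_lit 5) (nat_lit 65) (nat_lit 5) (nat_lit 66) (nat_lit 5) (nat_lit 391) (nat_lit 308) (nat_lit 201)) (XT.nd (nat_lit 78) (nat_lit 152) (nat_lit 0) (XT.lf (nat_lit 0) (nat_lit 17268363869) (nat_lit 228) (nat_lit 1978197669) (nat_lit 76) (nat_lit 4520085843) (nat_lit 63) (nat_lit 5) (nat_lit 66) (nat_lit 5) (nat_lit 64) (nat_lit 5) (nat_lit 392) (nat_lit 308) (nat_lit 200)) (XT.lf (nat_lit 0) (nat_lit 10681539074) (nat_lit 152) (nat_lit 12520163187) (nat_lit 228) (nat_lit 1059245310) (nat_lit 61) (nat_lit 5) (nat_lit 63) (nat_lit 5) (nat_lit 64) (nat_lit 5) (nat_lit 393) (nat_lit 308) (nat_lit 199))))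 (XT.nd (nat_lit 156) (nat_lit 152) (nat_lit 0) (XT.nd (nat_lit 78) (nat_lit 152) (nat_lit 0) (XT.lf (nat_lit 0) (nat_lit 4458401097) (nat_lit 228) (nat_lit 1079799782) (nat_lit 76) (nat_lit 19230446054) (nat_lit 60) (nat_lit 5) (nat_lit 63) (nat_lit 5) (nat_lit 61) (nat_lit 5) (nat_lit 394) (nat_lit 308) (nat_lit 198)) (XT.lf (nat_lit 0) (nat_lit 10236958828) (nat_lit 228) (nat_lit 13314259075) (nat_lit 76) (nat_lit 1736547370) (nat_lit 58) (nat_lit 5) (nat_lit 61) (nat_lit 5) (nat_lit 59) (nat_lit 5) (nat_lit 395) (nat_lit 308) (nat_lit 197))) (XT.nd (nat_lit 78) (nat_lit 152) (nat_lit 0) (XT.lf (nat_lit 0) (nat_lit 16239184587) (nat_lit 228) (nat_lit 463868584) (nat_lit 76) (nat_lit 9117897349) (nat_lit 58) (nat_lit 5) (nat_lit 61) (nat_lit 5) (nat_lit 59) (nat_lit 5) (nat_lit 396) (nat_lit 308) (nat_lit 196)) (XT.lf (nat_lit 0) (nat_lit 12999147102) (nat_lit 152) (nat_lit 9532204025) (nat_lit 228) (nat_lit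 3835486592) (nat_lit 56) (nat_lit 5) (nat_lit 58) (nat_lit 5) (nat_lit 59) (nat_lit 5) (nat_lit 397) (nat_lit 308) (nat_lit 195))))) (XT.nd (nat_lit 234) (nat_lit 380) (nat_lit 0) (XT.nd (nat_lit 78) (nat_lit 152) (nat_lit 0) (XT.lf (nat_lit 0) (nat_lit 2032216183) (nat_lit 228) (nat_lit 100058422) (nat_lit 76) (nat_lit 24796538089) (nat_lit 55) (nat_lit 5) (nat_lit 58) (nat_lit 5) (nat_lit 56) (nat_lit 5) (nat_lit 398) (nat_lit 308) (nat_lit 194)) (XT.nd (nat_lit 78) (nat_lit 0) (nat_lit 0) (XT.lf (nat_lit 0) (nat_lit 8170973135) (nat_lit 228) (nat_lit 13786799631) (nat_lit 76) (nat_lit 5543573915) (nat_lit 53) (nat_lit 5) (nat_lit 56) (nat_lit 5) (nat_lit 54) (nat_lit 5) (nat_lit 399) (nat_lit 308) (nat_lit 193)) (XT.lf (nat_lit 0) (nat_lit 14501490626) (nat_lit 228) (nat_lit 192395176) (nat_lit 76) (nat_lit 13396945276) (nat_lit 53) (nat_lit 5) (nat_lit 56) (nat_lit 5) (nat_lit 54) (nat_lit 5) (nat_lit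 400) (nat_lit 308) (nat_lit 192)))) (XT.nd (nat_lit 156) (nat_lit 228) (nat_lit 0) (XT.nd (nat_lit 78) (nat_lit 0) (nat_lit 0) (XT.lf (nat_lit 0) (nat_lit 14059049194) (nat_lit 152) (nat_lit 7083907757) (nat_lit 228) (nat_lit 7551414312) (nat_lit 51) (nat_lit 5) (nat_lit 53) (nat_lit 5) (nat_lit 54) (nat_lit 5) (nat_lit 401) (nat_lit 308) (nat_lit 191)) (XT.lf (nat_lit 0) (nat_lit 27978836409) (nat_lit 228) (nat_lit 606452858) (nat_lit 76) (nat_lit 730875505) (nat_lit 51) (nat_lit 5) (nat_lit 54) (nat_lit 5) (nat_lit 52) (nat_lit 4) (nat_lit 402) (nat_lit 308) (nat_lit 190))) (XT.nd (nat_lit 78) (nat_lit 0) (nat_lit 0) (XT.lf (nat_lit 0) (nat_lit 5157564513) (nat_lit 228) (nat_lit 15979138959) (nat_lit 76) (nat_lit 8812655010) (nat_lit 48) (nat_lit 5) (nat_lit 51) (nat_lit 5) (nat_lit 49) (nat_lit 5) (nat_lit 403) (nat_lit 308) (nat_lit 189)) (XT.lf (nat_lit 0) (nat_lit 11813003340) (nat_lit 228) (nat_lit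 1642544443) (nat_lit 76) (nat_lit 17145827655) (nat_lit 48) (nat_lit 5) (nat_lit 51) (nat_lit 5) (nat_lit 49) (nat_lit 5) (nat_lit 404) (nat_lit 308) (nat_lit 188))))))))
noncomputable def xc127 : XT := (XT.nd (nat_lit 2106) (nat_lit 456) (nat_lit 0) (XT.nd (nat_lit 1014) (nat_lit 760) (nat_lit 0) (XT.nd (nat_lit 468) (nat_lit 456) (nat_lit 0) (XT.nd (nat_lit 234) (nat_lit 152) (nat_lit 0) (XT.nd (nat_lit 78) (nat_lit 152) (nat_lit 0) (XT.lf (nat_lit 0) (nat_lit 13361081988) (nat_lit 152) (nat_lit 5422248064) (nat_lit 228) (nat_lit 12486168055) (nat_lit 46) (nat_lit 5) (nat_lit 48) (nat_lit 5) (nat_lit 49) (nat_lit 5) (nat_lit 405) (nat_lit 308) (nat_lit 187)) (XT.nd (nat_lit 78) (nat_lit 152) (nat_lit 0) (XT.lf (nat_lit 0) (nat_lit 25993780116) (nat_lit 228) (nat_lit 3160106985) (nat_lit 76) (nat_lit 2802848841) (nat_lit 46) (nat_lit 5) (nat_lit 49) (nat_lit 5) (nat_lit 47) (nat_lit 4) (nat_lit 406) (nat_lit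 308) (nat_lit 186)) (XT.lf (nat_lit 0) (nat_lit 900875202) (nat_lit 152) (nat_lit 20476964852) (nat_lit 76) (nat_lit 11281744423) (nat_lit 44) (nat_lit 5) (nat_lit 46) (nat_lit 5) (nat_lit 45) (nat_lit 5) (nat_lit 407) (nat_lit 308) (nat_lit 185)))) (XT.nd (nat_lit 78) (nat_lit 152) (nat_lit 0) (XT.lf (nat_lit 0) (nat_lit 7870253643) (nat_lit 152) (nat_lit 5414690916) (nat_lit 76) (nat_lit 20096220005) (nat_lit 44) (nat_lit 5) (nat_lit 46) (nat_lit 5) (nat_lit 45) (nat_lit 5) (nat_lit 408) (nat_lit 308) (nat_lit 184)) (XT.nd (nat_lit 78) (nat_lit 0) (nat_lit 0) (XT.lf (nat_lit 0) (nat_lit 10277495604) (nat_lit 152) (nat_lit 4857637771) (nat_lit 228) (nat_lit 18986667759) (nat_lit 42) (nat_lit 5) (nat_lit 44) (nat_lit 5) (nat_lit 45) (nat_lit 5) (nat_lit 409) (nat_lit 308) (nat_lit 183)) (XT.lf (nat_lit 0) (nat_lit 22697598567) (nat_lit 228) (nat_lit 8391416057) (nat_lit 76) (nat_lit 3793254636) (nat_lit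 42) (nat_lit 5) (nat_lit 45) (nat_lit 5) (nat_lit 43) (nat_lit 4) (nat_lit 410) (nat_lit 308) (nat_lit 182))))) (XT.nd (nat_lit 234) (nat_lit 152) (nat_lit 0) (XT.nd (nat_lit 78) (nat_lit 228) (nat_lit 0) (XT.lf (nat_lit 0) (nat_lit 7603434385) (nat_lit 76) (nat_lit 22992722418) (nat_lit 152) (nat_lit 5066119637) (nat_lit 41) (nat_lit 5) (nat_lit 42) (nat_lit 5) (nat_lit 43) (nat_lit 4) (nat_lit 411) (nat_lit 308) (nat_lit 181)) (XT.nd (nat_lit 78) (nat_lit 152) (nat_lit 0) (XT.lf (nat_lit 0) (nat_lit 2295402448) (nat_lit 152) (nat_lit 12257541795) (nat_lit 76) (nat_lit 21909878659) (nat_lit 40) (nat_lit 5) (nat_lit 42) (nat_lit 5) (nat_lit 41) (nat_lit 5) (nat_lit 412) (nat_lit 308) (nat_lit 180)) (XT.lf (nat_lit 0) (nat_lit 4024891432) (nat_lit 152) (nat_lit 5778148628) (nat_lit 228) (nat_lit 27482029544) (nat_lit 38) (nat_lit 5) (nat_lit 40) (nat_lit 5) (nat_lit 41) (nat_lit 5) (nat_lit 413) (nat_lit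 308) (nat_lit 179)))) (XT.nd (nat_lit 156) (nat_lit 152) (nat_lit 0) (XT.nd (nat_lit 78) (nat_lit 0) (nat_lit 0) (XT.lf (nat_lit 0) (nat_lit 17680692338) (nat_lit 228) (nat_lit 17135097388) (nat_lit 76) (nat_lit 3311851821) (nat_lit 38) (nat_lit 5) (nat_lit 41) (nat_lit 5) (nat_lit 39) (nat_lit 4) (nat_lit 414) (nat_lit 308) (nat_lit 178)) (XT.lf (nat_lit 0) (nat_lit 25840666894) (nat_lit 228) (nat_lit 604182951) (nat_lit 76) (nat_lit 12549262387) (nat_lit 38) (nat_lit 5) (nat_lit 41) (nat_lit 5) (nat_lit 39) (nat_lit 4) (nat_lit 415) (nat_lit 308) (nat_lit 177))) (XT.nd (nat_lit 78) (nat_lit 76) (nat_lit 0) (XT.lf (nat_lit 0) (nat_lit 16728995686) (nat_lit 76) (nat_lit 17666364359) (nat_lit 152) (nat_lit 5486720738) (nat_lit 37) (nat_lit 5) (nat_lit 38) (nat_lit 5) (nat_lit 39) (nat_lit 4) (nat_lit 416) (nat_lit 308) (nat_lit 176)) (XT.lf (nat_lit 0) (nat_lit 2358267165) (nat_lit 152) (nat_lit 6245304069)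 (nat_lit 76) (nat_lit 32192564728) (nat_lit 36) (nat_lit 5) (nat_lit 38) (nat_lit 5) (nat_lit 37) (nat_lit 5) (nat_lit 417) (nat_lit 308) (nat_lit 175)))))) (XT.nd (nat_lit 546) (nat_lit 304) (nat_lit 0) (XT.nd (nat_lit 234) (nat_lit 228) (nat_lit 0) (XT.nd (nat_lit 78) (nat_lit 76) (nat_lit 0) (XT.lf (nat_lit 0) (nat_lit 10435110884) (nat_lit 228) (nat_lit 30424918823) (nat_lit 76) (nat_lit 872751070) (nat_lit 34) (nat_lit 5) (nat_lit 37) (nat_lit 5) (nat_lit 35) (nat_lit 4) (nat_lit 418) (nat_lit 308) (nat_lit 174)) (XT.nd (nat_lit 78) (nat_lit 76) (nat_lit 0) (XT.lf (nat_lit 0) (nat_lit 18892613916) (nat_lit 228) (nat_lit 13285373096) (nat_lit 76) (nat_lit 10515388479) (nat_lit 34) (nat_lit 5) (nat_lit 37) (nat_lit 5) (nat_lit 35) (nat_lit 4) (nat_lit 419) (nat_lit 308) (nat_lit 173)) (XT.lf (nat_lit 0) (nat_lit 4435912437) (nat_lit 76) (nat_lit 23200357096) (nat_lit 152) (nat_lit 16045546835) (nat_lit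 33) (nat_lit 5) (nat_lit 34) (nat_lit 5) (nat_lit 35) (nat_lit 4) (nat_lit 420) (nat_lit 308) (nat_lit 172)))) (XT.nd (nat_lit 156) (nat_lit 152) (nat_lit 0) (XT.nd (nat_lit 78) (nat_lit 76) (nat_lit 0) (XT.lf (nat_lit 0) (nat_lit 22942352814) (nat_lit 76) (nat_lit 13823941568) (nat_lit 152) (nat_lit 7929895412) (nat_lit 33) (nat_lit 5) (nat_lit 34) (nat_lit 5) (nat_lit 35) (nat_lit 4) (nat_lit 421) (nat_lit 308) (nat_lit 171)) (XT.lf (nat_lit 0) (nat_lit 410949127) (nat_lit 152) (nat_lit 3759604756) (nat_lit 76) (nat_lit 41570614828) (nat_lit 32) (nat_lit 5) (nat_lit 34) (nat_lit 5) (nat_lit 33) (nat_lit 5) (nat_lit 422) (nat_lit 308) (nat_lit 170))) (XT.nd (nat_lit 78) (nat_lit 0) (nat_lit 0) (XT.lf (nat_lit 0) (nat_lit 9034536010) (nat_lit 228) (nat_lit 31898595261) (nat_lit 76) (nat_lit 5876254324) (nat_lit 30) (nat_lit 5) (nat_lit 33) (nat_lit 5) (nat_lit 31) (nat_lit 4) (nat_lit 423) (nat_lit 308)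 (nat_lit 169)) (XT.lf (nat_lit 0) (nat_lit 17986881253) (nat_lit 228) (nat_lit 13749776755) (nat_lit 76) (nat_lit 16170890440) (nat_lit 30) (nat_lit 5) (nat_lit 33) (nat_lit 5) (nat_lit 31) (nat_lit 4) (nat_lit 424) (nat_lit 308) (nat_lit 168))))) (XT.nd (nat_lit 234) (nat_lit 228) (nat_lit 0) (XT.nd (nat_lit 78) (nat_lit 0) (nat_lit 0) (XT.lf (nat_lit 0) (nat_lit 5024104190) (nat_lit 76) (nat_lit 22222684142) (nat_lit 152) (nat_lit 21790699069) (nat_lit 29) (nat_lit 5) (nat_lit 30) (nat_lit 5) (nat_lit 31) (nat_lit 4) (nat_lit 425) (nat_lit 308) (nat_lit 167)) (XT.nd (nat_lit 78) (nat_lit 0) (nat_lit 0) (XT.lf (nat_lit 0) (nat_lit 24625789010) (nat_lit 76) (nat_lit 12288351080) (nat_lit 152) (nat_lit 13283295939) (nat_lit 29) (nat_lit 5) (nat_lit 30) (nat_lit 5) (nat_lit 31) (nat_lit 4) (nat_lit 426) (nat_lit 308) (nat_lit 166)) (XT.lf (nat_lit 0) (nat_lit 44798757871) (nat_lit 76) (nat_lit 2063824122)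 (nat_lit 152) (nat_lit 4529869937) (nat_lit 29) (nat_lit 5) (nat_lit 30) (nat_lit 5) (nat_lit 31) (nat_lit 4) (nat_lit 427) (nat_lit 308) (nat_lit 165)))) (XT.nd (nat_lit 156) (nat_lit 76) (nat_lit 0) (XT.nd (nat_lit 78) (nat_lit 0) (nat_lit 0) (XT.lf (nat_lit 0) (nat_lit 4599271480) (nat_lit 152) (nat_lit 39550857804) (nat_lit 76) (nat_lit 8465876551) (nat_lit 27) (nat_lit 5) (nat_lit 29) (nat_lit 5) (nat_lit 28) (nat_lit 4) (nat_lit 428) (nat_lit 308) (nat_lit 164)) (XT.lf (nat_lit 0) (nat_lit 13990185834) (nat_lit 152) (nat_lit 20507771737) (nat_lit 76) (nat_lit 19374595768) (nat_lit 27) (nat_lit 5) (nat_lit 29) (nat_lit 5) (nat_lit 28) (nat_lit 4) (nat_lit 429) (nat_lit 308) (nat_lit 163))) (XT.nd (nat_lit 78) (nat_lit 76) (nat_lit 0) (XT.lf (nat_lit 0) (nat_lit 23654350018) (nat_lit 152) (nat_lit 909392302) (nat_lit 76) (nat_lit 30603310079) (nat_lit 27) (nat_lit 5) (nat_lit 29) (nat_lit 5) (nat_lit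 28) (nat_lit 4) (nat_lit 430) (nat_lit 308) (nat_lit 162)) (XT.lf (nat_lit 0) (nat_lit 19644745032) (nat_lit 76) (nat_lit 14144300721) (nat_lit 152) (nat_lit 22705923258) (nat_lit 26) (nat_lit 5) (nat_lit 27) (nat_lit 5) (nat_lit 28) (nat_lit 4) (nat_lit 431) (nat_lit 308) (nat_lit 161))))))) (XT.nd (nat_lit 1014) (nat_lit 0) (nat_lit 0) (XT.nd (nat_lit 468) (nat_lit 228) (nat_lit 0) (XT.nd (nat_lit 234) (nat_lit 76) (nat_lit 0) (XT.nd (nat_lit 78) (nat_lit 152) (nat_lit 0) (XT.lf (nat_lit 0) (nat_lit 40818767207) (nat_lit 76) (nat_lit 3410059428) (nat_lit 152) (nat_lit 13633865913) (nat_lit 26) (nat_lit 5) (nat_lit 27) (nat_lit 5) (nat_lit 28) (nat_lit 4) (nat_lit 432) (nat_lit 308) (nat_lit 160)) (XT.nd (nat_lit 78) (nat_lit 76) (nat_lit 0) (XT.lf (nat_lit 0) (nat_lit 3332997868) (nat_lit 76) (nat_lit 51746372592) (nat_lit 76) (nat_lit 4189150981) (nat_lit 25) (nat_lit 4) (nat_lit 26) (nat_lit 5) (nat_lit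 26) (nat_lit 4) (nat_lit 433) (nat_lit 308) (nat_lit 159)) (XT.lf (nat_lit 0) (nat_lit 5630438948) (nat_lit 152) (nat_lit 36144573909) (nat_lit 76) (nat_lit 18933927208) (nat_lit 24) (nat_lit 5) (nat_lit 26) (nat_lit 5) (nat_lit 25) (nat_lit 4) (nat_lit 434) (nat_lit 308) (nat_lit 158)))) (XT.nd (nat_lit 78) (nat_lit 76) (nat_lit 0) (XT.lf (nat_lit 0) (nat_lit 15652690918) (nat_lit 152) (nat_lit 15816046453) (nat_lit 76) (nat_lit 30722822082) (nat_lit 24) (nat_lit 5) (nat_lit 26) (nat_lit 5) (nat_lit 25) (nat_lit 4) (nat_lit 435) (nat_lit 308) (nat_lit 157)) (XT.nd (nat_lit 78) (nat_lit 0) (nat_lit 0) (XT.lf (nat_lit 0) (nat_lit 5209751276) (nat_lit 76) (nat_lit 20808435698) (nat_lit 152) (nat_lit 37699193805) (nat_lit 23) (nat_lit 5) (nat_lit 24) (nat_lit 5) (nat_lit 25) (nat_lit 4) (nat_lit 436) (nat_lit 308) (nat_lit 156)) (XT.lf (nat_lit 0) (nat_lit 27176429497) (nat_lit 76) (nat_lit 9670509609) (nat_lit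 152) (nat_lit 28437469536) (nat_lit 23) (nat_lit 5) (nat_lit 24) (nat_lit 5) (nat_lit 25) (nat_lit 4) (nat_lit 437) (nat_lit 308) (nat_lit 155))))) (XT.nd (nat_lit 234) (nat_lit 76) (nat_lit 0) (XT.nd (nat_lit 78) (nat_lit 152) (nat_lit 0) (XT.lf (nat_lit 0) (nat_lit 48010605285) (nat_lit 152) (nat_lit 17127507247) (nat_lit 0) (nat_lit 1760033880) (nat_lit 23) (nat_lit 5) (nat_lit 25) (nat_lit 4) (nat_lit 23) (nat_lit 4) (nat_lit 438) (nat_lit 308) (nat_lit 154)) (XT.nd (nat_lit 78) (nat_lit 76) (nat_lit 0) (XT.lf (nat_lit 0) (nat_lit 4460219209) (nat_lit 76) (nat_lit 55180529690) (nat_lit 76) (nat_lit 8915600988) (nat_lit 22) (nat_lit 4) (nat_lit 23) (nat_lit 5) (nat_lit 23) (nat_lit 4) (nat_lit 439) (nat_lit 308) (nat_lit 153)) (XT.lf (nat_lit 0) (nat_lit 1496666685) (nat_lit 152) (nat_lit 43240634455) (nat_lit 76) (nat_lit 25521579395) (nat_lit 21) (nat_lit 5) (nat_lit 23) (nat_lit 5) (nat_lit 22) (nat_lit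 4) (nat_lit 440) (nat_lit 308) (nat_lit 152)))) (XT.nd (nat_lit 156) (nat_lit 0) (nat_lit 0) (XT.nd (nat_lit 78) (nat_lit 76) (nat_lit 0) (XT.lf (nat_lit 0) (nat_lit 12035266187) (nat_lit 152) (nat_lit 21860810595) (nat_lit 76) (nat_lit 38113967911) (nat_lit 21) (nat_lit 5) (nat_lit 23) (nat_lit 5) (nat_lit 22) (nat_lit 4) (nat_lit 441) (nat_lit 308) (nat_lit 151)) (XT.lf (nat_lit 0) (nat_lit 150664518) (nat_lit 76) (nat_lit 22734165253) (nat_lit 152) (nat_lit 50929070353) (nat_lit 20) (nat_lit 5) (nat_lit 21) (nat_lit 5) (nat_lit 22) (nat_lit 4) (nat_lit 442) (nat_lit 308) (nat_lit 150))) (XT.nd (nat_lit 78) (nat_lit 0) (nat_lit 0) (XT.lf (nat_lit 0) (nat_lit 23258049947) (nat_lit 76) (nat_lit 11016012189) (nat_lit 152) (nat_lit 41391384139) (nat_lit 20) (nat_lit 5) (nat_lit 21) (nat_lit 5) (nat_lit 22) (nat_lit 4) (nat_lit 443) (nat_lit 308) (nat_lit 149)) (XT.lf (nat_lit 0) (nat_lit 46008666139) (nat_lit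 152) (nat_lit 30536339807) (nat_lit 0) (nat_lit 1027422526) (nat_lit 20) (nat_lit 5) (nat_lit 22) (nat_lit 4) (nat_lit 20) (nat_lit 4) (nat_lit 444) (nat_lit 308) (nat_lit 148)))))) (XT.nd (nat_lit 36738) (nat_lit 0) (nat_lit 22192) (XT.nd (nat_lit 36426) (nat_lit 0) (nat_lit 23636) (XT.nd (nat_lit 36270) (nat_lit 0) (nat_lit 24244) (XT.lf (nat_lit 0) (nat_lit 58198131082) (nat_lit 152) (nat_lit 8130191178) (nat_lit 0) (nat_lit 13205213673) (nat_lit 20) (nat_lit 5) (nat_lit 22) (nat_lit 4) (nat_lit 20) (nat_lit 4) (nat_lit 445) (nat_lit 308) (nat_lit 147)) (XT.nd (nat_lit 78) (nat_lit 0) (nat_lit 0) (XT.lf (nat_lit 0) (nat_lit 73317115) (nat_lit 684) (nat_lit 1660606661) (nat_lit 684) (nat_lit 1660606661) (nat_lit 339) (nat_lit 3) (nat_lit 348) (nat_lit 3) (nat_lit 348) (nat_lit 5) (nat_lit 309) (nat_lit 309) (nat_lit 282)) (XT.lf (nat_lit 0) (nat_lit 2160318850) (nat_lit 684) (nat_lit 47183722) (nat_lit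 684) (nat_lit 4621556146) (nat_lit 339) (nat_lit 3) (nat_lit 348) (nat_lit 3) (nat_lit 348) (nat_lit 5) (nat_lit 310) (nat_lit 309) (nat_lit 281)))) (XT.nd (nat_lit 156) (nat_lit 608) (nat_lit 0) (XT.nd (nat_lit 78) (nat_lit 0) (nat_lit 76) (XT.lf (nat_lit 76) (nat_lit 3349978916) (nat_lit 0) (nat_lit 838134500) (nat_lit 684) (nat_lit 2683590388) (nat_lit 340) (nat_lit 5) (nat_lit 339) (nat_lit 3) (nat_lit 348) (nat_lit 5) (nat_lit 311) (nat_lit 309) (nat_lit 280)) (XT.lf (nat_lit 0) (nat_lit 6206474434) (nat_lit 608) (nat_lit 113863676) (nat_lit 684) (nat_lit 597454743) (nat_lit 340) (nat_lit 5) (nat_lit 348) (nat_lit 5) (nat_lit 349) (nat_lit 5) (nat_lit 312) (nat_lit 309) (nat_lit 279))) (XT.nd (nat_lit 78) (nat_lit 0) (nat_lit 0) (XT.lf (nat_lit 0) (nat_lit 1261058745) (nat_lit 684) (nat_lit 3565656901) (nat_lit 760) (nat_lit 2139220654) (nat_lit 331) (nat_lit 5) (nat_lit 340) (nat_lit 5) (nat_lit 341)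 (nat_lit 5) (nat_lit 313) (nat_lit 309) (nat_lit 278)) (XT.lf (nat_lit 0) (nat_lit 3206435625) (nat_lit 684) (nat_lit 42982688) (nat_lit 760) (nat_lit 3768102485) (nat_lit 331) (nat_lit 5) (nat_lit 340) (nat_lit 5) (nat_lit 341) (nat_lit 5) (nat_lit 314) (nat_lit 309) (nat_lit 277))))) (XT.nd (nat_lit 234) (nat_lit 760) (nat_lit 0) (XT.nd (nat_lit 78) (nat_lit 684) (nat_lit 0) (XT.lf (nat_lit 76) (nat_lit 3614525666) (nat_lit 0) (nat_lit 1559484452) (nat_lit 760) (nat_lit 1897777905) (nat_lit 332) (nat_lit 5) (nat_lit 331) (nat_lit 5) (nat_lit 341) (nat_lit 5) (nat_lit 315) (nat_lit 309) (nat_lit 276)) (XT.nd (nat_lit 78) (nat_lit 0) (nat_lit 0) (XT.lf (nat_lit 0) (nat_lit 6088190) (nat_lit 760) (nat_lit 6915703038) (nat_lit 836) (nat_lit 207880917) (nat_lit 322) (nat_lit 5) (nat_lit 332) (nat_lit 5) (nat_lit 333) (nat_lit 5) (nat_lit 316) (nat_lit 309) (nat_lit 275)) (XT.lf (nat_lit 0) (nat_lit 1911541294)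 (nat_lit 760) (nat_lit 3200959674) (nat_lit 836) (nat_lit 2076795706) (nat_lit 322) (nat_lit 5) (nat_lit 332) (nat_lit 5) (nat_lit 333) (nat_lit 5) (nat_lit 317) (nat_lit 309) (nat_lit 274)))) (XT.nd (nat_lit 156) (nat_lit 760) (nat_lit 0) (XT.nd (nat_lit 78) (nat_lit 0) (nat_lit 0) (XT.lf (nat_lit 76) (nat_lit 593757724) (nat_lit 0) (nat_lit 3220007645) (nat_lit 836) (nat_lit 3438801019) (nat_lit 323) (nat_lit 5) (nat_lit 322) (nat_lit 5) (nat_lit 333) (nat_lit 5) (nat_lit 318) (nat_lit 309) (nat_lit 273)) (XT.lf (nat_lit 76) (nat_lit 4525300667) (nat_lit 0) (nat_lit 1215494172) (nat_lit 836) (nat_lit 1577950567) (nat_lit 323) (nat_lit 5) (nat_lit 322) (nat_lit 5) (nat_lit 333) (nat_lit 5) (nat_lit 319) (nat_lit 309) (nat_lit 272))) (XT.nd (nat_lit 78) (nat_lit 0) (nat_lit 0) (XT.lf (nat_lit 0) (nat_lit 288449699) (nat_lit 836) (nat_lit 6232264543) (nat_lit 912) (nat_lit 867448733) (nat_lit 312) (nat_lit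 5) (nat_lit 323) (nat_lit 5) (nat_lit 324) (nat_lit 5) (nat_lit 320) (nat_lit 309) (nat_lit 271)) (XT.lf (nat_lit 0) (nat_lit 2157911328) (nat_lit 836) (nat_lit 2250129815) (nat_lit 912) (nat_lit 3051829381) (nat_lit 312) (nat_lit 5) (nat_lit 323) (nat_lit 5) (nat_lit 324) (nat_lit 5) (nat_lit 321) (nat_lit 309) (nat_lit 270))))))))
noncomputable def xc128 : XT := (XT.nd (nat_lit 2028) (nat_lit 5776) (nat_lit 0) (XT.nd (nat_lit 1014) (nat_lit 3952) (nat_lit 0) (XT.nd (nat_lit 468) (nat_lit 4180) (nat_lit 0) (XT.nd (nat_lit 234) (nat_lit 1900) (nat_lit 0) (XT.nd (nat_lit 78) (nat_lit 836) (nat_lit 0) (XT.lf (nat_lit 76) (nat_lit 1844391111) (nat_lit 0) (nat_lit 2196855692) (nat_lit 912) (nat_lit 3493787333) (nat_lit 313) (nat_lit 5) (nat_lit 312) (nat_lit 5) (nat_lit 324) (nat_lit 5) (nat_lit 322) (nat_lit 309) (nat_lit 269)) (XT.nd (nat_lit 78) (nat_lit 912) (nat_lit 0) (XT.lf (nat_lit 0) (nat_lit 5946354453)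 (nat_lit 836) (nat_lit 1549493479) (nat_lit 76) (nat_lit 117683973) (nat_lit 313) (nat_lit 5) (nat_lit 324) (nat_lit 5) (nat_lit 314) (nat_lit 5) (nat_lit 323) (nat_lit 309) (nat_lit 268)) (XT.lf (nat_lit 0) (nat_lit 200917482) (nat_lit 912) (nat_lit 4993060804) (nat_lit 76) (nat_lit 2500653791) (nat_lit 301) (nat_lit 5) (nat_lit 313) (nat_lit 5) (nat_lit 302) (nat_lit 5) (nat_lit 324) (nat_lit 309) (nat_lit 267)))) (XT.nd (nat_lit 78) (nat_lit 1900) (nat_lit 0) (XT.lf (nat_lit 0) (nat_lit 2051257269) (nat_lit 912) (nat_lit 726448833) (nat_lit 76) (nat_lit 5001206871) (nat_lit 301) (nat_lit 5) (nat_lit 313) (nat_lit 5) (nat_lit 302) (nat_lit 5) (nat_lit 325) (nat_lit 309) (nat_lit 266)) (XT.nd (nat_lit 78) (nat_lit 988) (nat_lit 0) (XT.lf (nat_lit 0) (nat_lit 3697574269) (nat_lit 912) (nat_lit 240618902) (nat_lit 988) (nat_lit 3928129787) (nat_lit 289) (nat_lit 5) (nat_lit 301) (nat_lit 5) (nat_lit 302)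 (nat_lit 5) (nat_lit 326) (nat_lit 309) (nat_lit 265)) (XT.lf (nat_lit 0) (nat_lit 251036541) (nat_lit 988) (nat_lit 5610155988) (nat_lit 1064) (nat_lit 2095811325) (nat_lit 276) (nat_lit 5) (nat_lit 289) (nat_lit 5) (nat_lit 290) (nat_lit 5) (nat_lit 327) (nat_lit 309) (nat_lit 264))))) (XT.nd (nat_lit 234) (nat_lit 3040) (nat_lit 0) (XT.nd (nat_lit 78) (nat_lit 1140) (nat_lit 0) (XT.lf (nat_lit 0) (nat_lit 4842815610) (nat_lit 988) (nat_lit 2991478048) (nat_lit 1064) (nat_lit 216370500) (nat_lit 276) (nat_lit 5) (nat_lit 289) (nat_lit 5) (nat_lit 290) (nat_lit 5) (nat_lit 328) (nat_lit 309) (nat_lit 263)) (XT.nd (nat_lit 78) (nat_lit 0) (nat_lit 0) (XT.lf (nat_lit 0) (nat_lit 1392456942) (nat_lit 1064) (nat_lit 255771343) (nat_lit 1140) (nat_lit 6499569840) (nat_lit 261) (nat_lit 5) (nat_lit 275) (nat_lit 5) (nat_lit 276) (nat_lit 5) (nat_lit 329) (nat_lit 309) (nat_lit 262)) (XT.lf (nat_lit 0) (nat_lit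 3571841192) (nat_lit 1140) (nat_lit 2122005867) (nat_lit 76) (nat_lit 2553740709) (nat_lit 261) (nat_lit 5) (nat_lit 276) (nat_lit 5) (nat_lit 262) (nat_lit 5) (nat_lit 330) (nat_lit 309) (nat_lit 261)))) (XT.nd (nat_lit 156) (nat_lit 1900) (nat_lit 0) (XT.nd (nat_lit 78) (nat_lit 0) (nat_lit 0) (XT.lf (nat_lit 0) (nat_lit 2656360123) (nat_lit 1140) (nat_lit 2876406893) (nat_lit 1216) (nat_lit 2818243786) (nat_lit 246) (nat_lit 5) (nat_lit 261) (nat_lit 5) (nat_lit 262) (nat_lit 5) (nat_lit 331) (nat_lit 309) (nat_lit 260)) (XT.lf (nat_lit 0) (nat_lit 7526988131) (nat_lit 1216) (nat_lit 880118559) (nat_lit 76) (nat_lit 51222841) (nat_lit 246) (nat_lit 5) (nat_lit 262) (nat_lit 5) (nat_lit 247) (nat_lit 5) (nat_lit 332) (nat_lit 309) (nat_lit 259))) (XT.nd (nat_lit 78) (nat_lit 608) (nat_lit 0) (XT.lf (nat_lit 0) (nat_lit 1014335849) (nat_lit 1292) (nat_lit 4491114535) (nat_lit 76) (nat_lit 3062493460) (nat_lit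 229) (nat_lit 5) (nat_lit 246) (nat_lit 5) (nat_lit 230) (nat_lit 5) (nat_lit 333) (nat_lit 309) (nat_lit 258)) (XT.lf (nat_lit 0) (nat_lit 476372381) (nat_lit 608) (nat_lit 2491268889) (nat_lit 684) (nat_lit 5713914108) (nat_lit 221) (nat_lit 5) (nat_lit 229) (nat_lit 5) (nat_lit 230) (nat_lit 5) (nat_lit 334) (nat_lit 309) (nat_lit 257)))))) (XT.nd (nat_lit 468) (nat_lit 2128) (nat_lit 0) (XT.nd (nat_lit 234) (nat_lit 1140) (nat_lit 0) (XT.nd (nat_lit 78) (nat_lit 684) (nat_lit 0) (XT.lf (nat_lit 0) (nat_lit 4986591943) (nat_lit 684) (nat_lit 3163125150) (nat_lit 76) (nat_lit 648670796) (nat_lit 221) (nat_lit 5) (nat_lit 230) (nat_lit 5) (nat_lit 222) (nat_lit 5) (nat_lit 335) (nat_lit 309) (nat_lit 256)) (XT.nd (nat_lit 78) (nat_lit 76) (nat_lit 0) (XT.lf (nat_lit 0) (nat_lit 2001365771) (nat_lit 608) (nat_lit 5065300068) (nat_lit 684) (nat_lit 1852066211) (nat_lit 213) (nat_lit 5) (nat_lit 221) (nat_lit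 5) (nat_lit 222) (nat_lit 5) (nat_lit 336) (nat_lit 309) (nat_lit 255)) (XT.lf (nat_lit 0) (nat_lit 152523499) (nat_lit 684) (nat_lit 1701681620) (nat_lit 76) (nat_lit 7188775902) (nat_lit 212) (nat_lit 5) (nat_lit 221) (nat_lit 5) (nat_lit 213) (nat_lit 5) (nat_lit 337) (nat_lit 309) (nat_lit 254)))) (XT.nd (nat_lit 78) (nat_lit 532) (nat_lit 0) (XT.lf (nat_lit 0) (nat_lit 2188219554) (nat_lit 684) (nat_lit 5503532430) (nat_lit 76) (nat_lit 1478430895) (nat_lit 204) (nat_lit 5) (nat_lit 213) (nat_lit 5) (nat_lit 205) (nat_lit 5) (nat_lit 338) (nat_lit 309) (nat_lit 253)) (XT.nd (nat_lit 78) (nat_lit 532) (nat_lit 0) (XT.lf (nat_lit 0) (nat_lit 4279808219) (nat_lit 684) (nat_lit 131516922) (nat_lit 76) (nat_lit 4890051715) (nat_lit 204) (nat_lit 5) (nat_lit 213) (nat_lit 5) (nat_lit 205) (nat_lit 5) (nat_lit 339) (nat_lit 309) (nat_lit 252)) (XT.lf (nat_lit 0) (nat_lit 5466368042) (nat_lit 532) (nat_lit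 980623039) (nat_lit 608) (nat_lit 2989150284) (nat_lit 197) (nat_lit 5) (nat_lit 204) (nat_lit 5) (nat_lit 205) (nat_lit 5) (nat_lit 340) (nat_lit 309) (nat_lit 251))))) (XT.nd (nat_lit 234) (nat_lit 1064) (nat_lit 0) (XT.nd (nat_lit 78) (nat_lit 532) (nat_lit 0) (XT.lf (nat_lit 0) (nat_lit 1624409558) (nat_lit 532) (nat_lit 7057309231) (nat_lit 608) (nat_lit 893173667) (nat_lit 190) (nat_lit 5) (nat_lit 197) (nat_lit 5) (nat_lit 198) (nat_lit 5) (nat_lit 341) (nat_lit 309) (nat_lit 250)) (XT.nd (nat_lit 78) (nat_lit 456) (nat_lit 0) (XT.lf (nat_lit 0) (nat_lit 1252540773) (nat_lit 608) (nat_lit 2314161174) (nat_lit 76) (nat_lit 6150410845) (nat_lit 189) (nat_lit 5) (nat_lit 197) (nat_lit 5) (nat_lit 190) (nat_lit 5) (nat_lit 342) (nat_lit 309) (nat_lit 249)) (XT.lf (nat_lit 0) (nat_lit 3441550060) (nat_lit 532) (nat_lit 6355064482) (nat_lit 76) (nat_lit 66831506) (nat_lit 183) (nat_lit 5) (nat_lit 190)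 (nat_lit 5) (nat_lit 184) (nat_lit 5) (nat_lit 343) (nat_lit 309) (nat_lit 248)))) (XT.nd (nat_lit 156) (nat_lit 532) (nat_lit 0) (XT.nd (nat_lit 78) (nat_lit 532) (nat_lit 0) (XT.lf (nat_lit 0) (nat_lit 5718282531) (nat_lit 532) (nat_lit 538467270) (nat_lit 76) (nat_lit 3756775262) (nat_lit 183) (nat_lit 5) (nat_lit 190) (nat_lit 5) (nat_lit 184) (nat_lit 5) (nat_lit 344) (nat_lit 309) (nat_lit 247)) (XT.lf (nat_lit 0) (nat_lit 5519070041) (nat_lit 532) (nat_lit 2561512392) (nat_lit 608) (nat_lit 2087022893) (nat_lit 176) (nat_lit 5) (nat_lit 183) (nat_lit 5) (nat_lit 184) (nat_lit 5) (nat_lit 345) (nat_lit 309) (nat_lit 246))) (XT.nd (nat_lit 78) (nat_lit 0) (nat_lit 0) (XT.lf (nat_lit 0) (nat_lit 179612380) (nat_lit 532) (nat_lit 8911214827) (nat_lit 76) (nat_lit 1235567810) (nat_lit 169) (nat_lit 5) (nat_lit 176) (nat_lit 5) (nat_lit 170) (nat_lit 5) (nat_lit 346) (nat_lit 309) (nat_lit 245)) (XT.lf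 (nat_lit 0) (nat_lit 2510143241) (nat_lit 532) (nat_lit 2821098358) (nat_lit 76) (nat_lit 5156966996) (nat_lit 169) (nat_lit 5) (nat_lit 176) (nat_lit 5) (nat_lit 170) (nat_lit 5) (nat_lit 347) (nat_lit 309) (nat_lit 244))))))) (XT.nd (nat_lit 1014) (nat_lit 2508) (nat_lit 0) (XT.nd (nat_lit 468) (nat_lit 1520) (nat_lit 0) (XT.nd (nat_lit 234) (nat_lit 912) (nat_lit 0) (XT.nd (nat_lit 78) (nat_lit 380) (nat_lit 0) (XT.lf (nat_lit 0) (nat_lit 3478665149) (nat_lit 456) (nat_lit 1431457391) (nat_lit 532) (nat_lit 5744783030) (nat_lit 163) (nat_lit 5) (nat_lit 169) (nat_lit 5) (nat_lit 170) (nat_lit 5) (nat_lit 348) (nat_lit 309) (nat_lit 243)) (XT.nd (nat_lit 78) (nat_lit 380) (nat_lit 0) (XT.lf (nat_lit 0) (nat_lit 7402344404) (nat_lit 532) (nat_lit 867111952) (nat_lit 76) (nat_lit 2556554332) (nat_lit 163) (nat_lit 5) (nat_lit 170) (nat_lit 5) (nat_lit 164) (nat_lit 5) (nat_lit 349) (nat_lit 309) (nat_lit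 242)) (XT.lf (nat_lit 0) (nat_lit 5687835150) (nat_lit 380) (nat_lit 4317939633) (nat_lit 456) (nat_lit 995395026) (nat_lit 158) (nat_lit 5) (nat_lit 163) (nat_lit 5) (nat_lit 164) (nat_lit 5) (nat_lit 350) (nat_lit 309) (nat_lit 241)))) (XT.nd (nat_lit 78) (nat_lit 380) (nat_lit 0) (XT.lf (nat_lit 0) (nat_lit 1245088798) (nat_lit 456) (nat_lit 219890715) (nat_lit 532) (nat_lit 9716524150) (nat_lit 151) (nat_lit 5) (nat_lit 157) (nat_lit 5) (nat_lit 158) (nat_lit 5) (nat_lit 351) (nat_lit 309) (nat_lit 240)) (XT.nd (nat_lit 78) (nat_lit 380) (nat_lit 0) (XT.lf (nat_lit 0) (nat_lit 4040100719) (nat_lit 532) (nat_lit 3346316173) (nat_lit 76) (nat_lit 3978719632) (nat_lit 151) (nat_lit 5) (nat_lit 158) (nat_lit 5) (nat_lit 152) (nat_lit 5) (nat_lit 352) (nat_lit 309) (nat_lit 239)) (XT.lf (nat_lit 0) (nat_lit 3467145686) (nat_lit 380) (nat_lit 3230054145) (nat_lit 456) (nat_lit 4856949344) (nat_lit 146) (nat_lit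 5) (nat_lit 151) (nat_lit 5) (nat_lit 152) (nat_lit 5) (nat_lit 353) (nat_lit 309) (nat_lit 238))))) (XT.nd (nat_lit 234) (nat_lit 760) (nat_lit 0) (XT.nd (nat_lit 78) (nat_lit 760) (nat_lit 0) (XT.lf (nat_lit 0) (nat_lit 9447888801) (nat_lit 456) (nat_lit 1244909035) (nat_lit 76) (nat_lit 1055630231) (nat_lit 146) (nat_lit 5) (nat_lit 152) (nat_lit 5) (nat_lit 147) (nat_lit 5) (nat_lit 354) (nat_lit 309) (nat_lit 237)) (XT.nd (nat_lit 78) (nat_lit 304) (nat_lit 0) (XT.lf (nat_lit 0) (nat_lit 385346239) (nat_lit 456) (nat_lit 6105118855) (nat_lit 76) (nat_lit 5456207617) (nat_lit 140) (nat_lit 5) (nat_lit 146) (nat_lit 5) (nat_lit 141) (nat_lit 5) (nat_lit 355) (nat_lit 309) (nat_lit 236)) (XT.lf (nat_lit 0) (nat_lit 972417014) (nat_lit 304) (nat_lit 2125916113) (nat_lit 380) (nat_lit 9052076473) (nat_lit 136) (nat_lit 5) (nat_lit 140) (nat_lit 5) (nat_lit 141) (nat_lit 5) (nat_lit 356) (nat_lit 309) (nat_lit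 235)))) (XT.nd (nat_lit 156) (nat_lit 380) (nat_lit 0) (XT.nd (nat_lit 78) (nat_lit 380) (nat_lit 0) (XT.lf (nat_lit 0) (nat_lit 5948849338) (nat_lit 380) (nat_lit 4034060437) (nat_lit 76) (nat_lit 2375675440) (nat_lit 136) (nat_lit 5) (nat_lit 141) (nat_lit 5) (nat_lit 137) (nat_lit 5) (nat_lit 357) (nat_lit 309) (nat_lit 234)) (XT.lf (nat_lit 0) (nat_lit 3329578014) (nat_lit 380) (nat_lit 5580301173) (nat_lit 456) (nat_lit 3662387462) (nat_lit 131) (nat_lit 5) (nat_lit 136) (nat_lit 5) (nat_lit 137) (nat_lit 5) (nat_lit 358) (nat_lit 309) (nat_lit 233))) (XT.nd (nat_lit 78) (nat_lit 380) (nat_lit 0) (XT.lf (nat_lit 0) (nat_lit 10958662648) (nat_lit 380) (nat_lit 1014207309) (nat_lit 456) (nat_lit 819104859) (nat_lit 131) (nat_lit 5) (nat_lit 136) (nat_lit 5) (nat_lit 137) (nat_lit 5) (nat_lit 359) (nat_lit 309) (nat_lit 232)) (XT.lf (nat_lit 0) (nat_lit 2133631372) (nat_lit 380) (nat_lit 7198195674) (nat_lit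 76) (nat_lit 3683888902) (nat_lit 126) (nat_lit 5) (nat_lit 131) (nat_lit 5) (nat_lit 127) (nat_lit 5) (nat_lit 360) (nat_lit 309) (nat_lit 231)))))) (XT.nd (nat_lit 546) (nat_lit 1216) (nat_lit 0) (XT.nd (nat_lit 234) (nat_lit 684) (nat_lit 0) (XT.nd (nat_lit 78) (nat_lit 304) (nat_lit 0) (XT.lf (nat_lit 0) (nat_lit 442206185) (nat_lit 304) (nat_lit 4722520912) (nat_lit 380) (nat_lit 8081021024) (nat_lit 122) (nat_lit 5) (nat_lit 126) (nat_lit 5) (nat_lit 127) (nat_lit 5) (nat_lit 361) (nat_lit 309) (nat_lit 230)) (XT.nd (nat_lit 78) (nat_lit 304) (nat_lit 0) (XT.lf (nat_lit 0) (nat_lit 8333966058) (nat_lit 380) (nat_lit 5060337108) (nat_lit 76) (nat_lit 86970837) (nat_lit 122) (nat_lit 5) (nat_lit 127) (nat_lit 5) (nat_lit 123) (nat_lit 5) (nat_lit 362) (nat_lit 309) (nat_lit 229)) (XT.lf (nat_lit 0) (nat_lit 2887616242) (nat_lit 304) (nat_lit 8759513234) (nat_lit 380) (nat_lit 2075279557) (nat_lit 118)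 (nat_lit 5) (nat_lit 122) (nat_lit 5) (nat_lit 123) (nat_lit 5) (nat_lit 363) (nat_lit 309) (nat_lit 228)))) (XT.nd (nat_lit 156) (nat_lit 304) (nat_lit 0) (XT.nd (nat_lit 78) (nat_lit 304) (nat_lit 0) (XT.lf (nat_lit 0) (nat_lit 1093734187) (nat_lit 380) (nat_lit 2839768306) (nat_lit 76) (nat_lit 10036187697) (nat_lit 117) (nat_lit 5) (nat_lit 122) (nat_lit 5) (nat_lit 118) (nat_lit 5) (nat_lit 364) (nat_lit 309) (nat_lit 227)) (XT.lf (nat_lit 0) (nat_lit 4354238345) (nat_lit 380) (nat_lit 8788938572) (nat_lit 76) (nat_lit 1079460557) (nat_lit 113) (nat_lit 5) (nat_lit 118) (nat_lit 5) (nat_lit 114) (nat_lit 5) (nat_lit 365) (nat_lit 309) (nat_lit 226))) (XT.nd (nat_lit 78) (nat_lit 304) (nat_lit 0) (XT.lf (nat_lit 0) (nat_lit 7755941959) (nat_lit 380) (nat_lit 544439049) (nat_lit 76) (nat_lit 6181498448) (nat_lit 113) (nat_lit 5) (nat_lit 118) (nat_lit 5) (nat_lit 114) (nat_lit 5) (nat_lit 366) (nat_lit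 309) (nat_lit 225)) (XT.lf (nat_lit 0) (nat_lit 8069442592) (nat_lit 304) (nat_lit 3244015468) (nat_lit 380) (nat_lit 3433835379) (nat_lit 109) (nat_lit 5) (nat_lit 113) (nat_lit 5) (nat_lit 114) (nat_lit 5) (nat_lit 367) (nat_lit 309) (nat_lit 224))))) (XT.nd (nat_lit 234) (nat_lit 608) (nat_lit 0) (XT.nd (nat_lit 78) (nat_lit 304) (nat_lit 0) (XT.lf (nat_lit 0) (nat_lit 1915165286) (nat_lit 304) (nat_lit 13081813436) (nat_lit 380) (nat_lit 23120109) (nat_lit 105) (nat_lit 5) (nat_lit 109) (nat_lit 5) (nat_lit 110) (nat_lit 5) (nat_lit 368) (nat_lit 309) (nat_lit 223)) (XT.nd (nat_lit 78) (nat_lit 228) (nat_lit 0) (XT.lf (nat_lit 0) (nat_lit 3498583078) (nat_lit 380) (nat_lit 4498330650) (nat_lit 76) (nat_lit 7300872160) (nat_lit 104) (nat_lit 5) (nat_lit 109) (nat_lit 5) (nat_lit 105) (nat_lit 5) (nat_lit 369) (nat_lit 309) (nat_lit 222)) (XT.lf (nat_lit 0) (nat_lit 4417696369) (nat_lit 228) (nat_lit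 2727472467) (nat_lit 304) (nat_lit 8438043705) (nat_lit 101) (nat_lit 5) (nat_lit 104) (nat_lit 5) (nat_lit 105) (nat_lit 5) (nat_lit 370) (nat_lit 309) (nat_lit 221)))) (XT.nd (nat_lit 156) (nat_lit 304) (nat_lit 0) (XT.nd (nat_lit 78) (nat_lit 304) (nat_lit 0) (XT.lf (nat_lit 0) (nat_lit 10950428685) (nat_lit 304) (nat_lit 2243802091) (nat_lit 76) (nat_lit 2681499463) (nat_lit 101) (nat_lit 5) (nat_lit 105) (nat_lit 5) (nat_lit 102) (nat_lit 5) (nat_lit 371) (nat_lit 309) (nat_lit 220)) (XT.lf (nat_lit 0) (nat_lit 7021620407) (nat_lit 304) (nat_lit 7920831470) (nat_lit 380) (nat_lit 1232399776) (nat_lit 97) (nat_lit 5) (nat_lit 101) (nat_lit 5) (nat_lit 102) (nat_lit 5) (nat_lit 372) (nat_lit 309) (nat_lit 219))) (XT.nd (nat_lit 78) (nat_lit 0) (nat_lit 0) (XT.lf (nat_lit 0) (nat_lit 71118602) (nat_lit 228) (nat_lit 2451760883) (nat_lit 304) (nat_lit 13959278738) (nat_lit 93) (nat_lit 5) (nat_lit 96)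 (nat_lit 5) (nat_lit 97) (nat_lit 5) (nat_lit 373) (nat_lit 309) (nat_lit 218)) (XT.lf (nat_lit 0) (nat_lit 6468365999) (nat_lit 304) (nat_lit 7114039701) (nat_lit 76) (nat_lit 3212848475) (nat_lit 93) (nat_lit 5) (nat_lit 97) (nat_lit 5) (nat_lit 94) (nat_lit 5) (nat_lit 374) (nat_lit 309) (nat_lit 217))))))))
noncomputable def xc129 : XT := (XT.nd (nat_lit 2106) (nat_lit 1672) (nat_lit 0) (XT.nd (nat_lit 1014) (nat_lit 1520) (nat_lit 0) (XT.nd (nat_lit 468) (nat_lit 912) (nat_lit 0) (XT.nd (nat_lit 234) (nat_lit 228) (nat_lit 0) (XT.nd (nat_lit 78) (nat_lit 304) (nat_lit 0) (XT.lf (nat_lit 0) (nat_lit 2452182874) (nat_lit 228) (nat_lit 8106902983) (nat_lit 304) (nat_lit 6557856730) (nat_lit 90) (nat_lit 5) (nat_lit 93) (nat_lit 5) (nat_lit 94) (nat_lit 5) (nat_lit 375) (nat_lit 309) (nat_lit 216)) (XT.nd (nat_lit 78) (nat_lit 304) (nat_lit 0) (XT.lf (nat_lit 0) (nat_lit 12418285678) (nat_lit 228) (nat_lit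 2405395888) (nat_lit 304) (nat_lit 2623070935) (nat_lit 90) (nat_lit 5) (nat_lit 93) (nat_lit 5) (nat_lit 94) (nat_lit 5) (nat_lit 376) (nat_lit 309) (nat_lit 215)) (XT.lf (nat_lit 0) (nat_lit 1462949241) (nat_lit 304) (nat_lit 12871726023) (nat_lit 76) (nat_lit 3449541582) (nat_lit 86) (nat_lit 5) (nat_lit 90) (nat_lit 5) (nat_lit 87) (nat_lit 5) (nat_lit 377) (nat_lit 309) (nat_lit 214)))) (XT.nd (nat_lit 78) (nat_lit 228) (nat_lit 0) (XT.lf (nat_lit 0) (nat_lit 5673806468) (nat_lit 304) (nat_lit 2958373914) (nat_lit 76) (nat_lit 9497201297) (nat_lit 86) (nat_lit 5) (nat_lit 90) (nat_lit 5) (nat_lit 87) (nat_lit 5) (nat_lit 378) (nat_lit 309) (nat_lit 213)) (XT.nd (nat_lit 78) (nat_lit 0) (nat_lit 0) (XT.lf (nat_lit 0) (nat_lit 7364476104) (nat_lit 228) (nat_lit 2697772505) (nat_lit 304) (nat_lit 8421119938) (nat_lit 83) (nat_lit 5) (nat_lit 86) (nat_lit 5) (nat_lit 87) (nat_lit 5) (nat_lit 379) (nat_lit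 309) (nat_lit 212)) (XT.lf (nat_lit 0) (nat_lit 14625957136) (nat_lit 304) (nat_lit 854310250) (nat_lit 76) (nat_lit 3366403968) (nat_lit 83) (nat_lit 5) (nat_lit 87) (nat_lit 5) (nat_lit 84) (nat_lit 5) (nat_lit 380) (nat_lit 309) (nat_lit 211))))) (XT.nd (nat_lit 234) (nat_lit 456) (nat_lit 0) (XT.nd (nat_lit 78) (nat_lit 228) (nat_lit 0) (XT.lf (nat_lit 0) (nat_lit 207259534) (nat_lit 228) (nat_lit 9366908688) (nat_lit 76) (nat_lit 9643570437) (nat_lit 80) (nat_lit 5) (nat_lit 83) (nat_lit 5) (nat_lit 81) (nat_lit 5) (nat_lit 381) (nat_lit 309) (nat_lit 210)) (XT.nd (nat_lit 78) (nat_lit 0) (nat_lit 0) (XT.lf (nat_lit 0) (nat_lit 1246489559) (nat_lit 228) (nat_lit 3438695549) (nat_lit 304) (nat_lit 14913445180) (nat_lit 77) (nat_lit 5) (nat_lit 80) (nat_lit 5) (nat_lit 81) (nat_lit 5) (nat_lit 382) (nat_lit 309) (nat_lit 209)) (XT.lf (nat_lit 0) (nat_lit 9402050624) (nat_lit 304) (nat_lit 7677494336)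 (nat_lit 76) (nat_lit 2908269837) (nat_lit 77) (nat_lit 5) (nat_lit 81) (nat_lit 5) (nat_lit 78) (nat_lit 5) (nat_lit 383) (nat_lit 309) (nat_lit 208)))) (XT.nd (nat_lit 156) (nat_lit 304) (nat_lit 0) (XT.nd (nat_lit 78) (nat_lit 0) (nat_lit 0) (XT.lf (nat_lit 0) (nat_lit 3317937862) (nat_lit 152) (nat_lit 10990352788) (nat_lit 228) (nat_lit 6078952212) (nat_lit 75) (nat_lit 5) (nat_lit 77) (nat_lit 5) (nat_lit 78) (nat_lit 5) (nat_lit 384) (nat_lit 309) (nat_lit 207)) (XT.lf (nat_lit 0) (nat_lit 14770757728) (nat_lit 152) (nat_lit 4650655164) (nat_lit 228) (nat_lit 1375453983) (nat_lit 75) (nat_lit 5) (nat_lit 77) (nat_lit 5) (nat_lit 78) (nat_lit 5) (nat_lit 385) (nat_lit 309) (nat_lit 206))) (XT.nd (nat_lit 78) (nat_lit 0) (nat_lit 0) (XT.lf (nat_lit 0) (nat_lit 3454579416) (nat_lit 304) (nat_lit 15844654493) (nat_lit 76) (nat_lit 1916955228) (nat_lit 71) (nat_lit 5) (nat_lit 75) (nat_lit 5) (nat_lit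 72) (nat_lit 5) (nat_lit 386) (nat_lit 309) (nat_lit 205)) (XT.lf (nat_lit 0) (nat_lit 8491997371) (nat_lit 304) (nat_lit 4501354336) (nat_lit 76) (nat_lit 8651630566) (nat_lit 71) (nat_lit 5) (nat_lit 75) (nat_lit 5) (nat_lit 72) (nat_lit 5) (nat_lit 387) (nat_lit 309) (nat_lit 204)))))) (XT.nd (nat_lit 546) (nat_lit 760) (nat_lit 0) (XT.nd (nat_lit 234) (nat_lit 304) (nat_lit 0) (XT.nd (nat_lit 78) (nat_lit 304) (nat_lit 0) (XT.lf (nat_lit 0) (nat_lit 7296015429) (nat_lit 152) (nat_lit 6437790515) (nat_lit 228) (nat_lit 8351238732) (nat_lit 69) (nat_lit 5) (nat_lit 71) (nat_lit 5) (nat_lit 72) (nat_lit 5) (nat_lit 388) (nat_lit 309) (nat_lit 203)) (XT.nd (nat_lit 78) (nat_lit 304) (nat_lit 0) (XT.lf (nat_lit 0) (nat_lit 19165037340) (nat_lit 228) (nat_lit 3029549415) (nat_lit 76) (nat_lit 342760553) (nat_lit 69) (nat_lit 5) (nat_lit 72) (nat_lit 5) (nat_lit 70) (nat_lit 5) (nat_lit 389) (nat_lit 309)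 (nat_lit 202)) (XT.lf (nat_lit 0) (nat_lit 1858678290) (nat_lit 304) (nat_lit 13847336204) (nat_lit 76) (nat_lit 7292592637) (nat_lit 65) (nat_lit 5) (nat_lit 69) (nat_lit 5) (nat_lit 66) (nat_lit 5) (nat_lit 390) (nat_lit 309) (nat_lit 201)))) (XT.nd (nat_lit 156) (nat_lit 152) (nat_lit 0) (XT.nd (nat_lit 78) (nat_lit 152) (nat_lit 0) (XT.lf (nat_lit 0) (nat_lit 7193487129) (nat_lit 304) (nat_lit 1774788027) (nat_lit 76) (nat_lit 14503990909) (nat_lit 65) (nat_lit 5) (nat_lit 69) (nat_lit 5) (nat_lit 66) (nat_lit 5) (nat_lit 391) (nat_lit 309) (nat_lit 200)) (XT.lf (nat_lit 0) (nat_lit 10844436411) (nat_lit 152) (nat_lit 1932395352) (nat_lit 228) (nat_lit 11180651291) (nat_lit 63) (nat_lit 5) (nat_lit 65) (nat_lit 5) (nat_lit 66) (nat_lit 5) (nat_lit 392) (nat_lit 309) (nat_lit 199))) (XT.nd (nat_lit 78) (nat_lit 152) (nat_lit 0) (XT.lf (nat_lit 0) (nat_lit 18581203156) (nat_lit 228) (nat_lit 656573408)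 (nat_lit 76) (nat_lit 5217877141) (nat_lit 63) (nat_lit 5) (nat_lit 66) (nat_lit 5) (nat_lit 64) (nat_lit 5) (nat_lit 393) (nat_lit 309) (nat_lit 198)) (XT.lf (nat_lit 0) (nat_lit 12369416514) (nat_lit 152) (nat_lit 12313120595) (nat_lit 228) (nat_lit 282550282) (nat_lit 61) (nat_lit 5) (nat_lit 63) (nat_lit 5) (nat_lit 64) (nat_lit 5) (nat_lit 394) (nat_lit 309) (nat_lit 197))))) (XT.nd (nat_lit 234) (nat_lit 380) (nat_lit 0) (XT.nd (nat_lit 78) (nat_lit 152) (nat_lit 0) (XT.lf (nat_lit 0) (nat_lit 235457491) (nat_lit 152) (nat_lit 5128566942) (nat_lit 228) (nat_lit 20124389005) (nat_lit 58) (nat_lit 5) (nat_lit 60) (nat_lit 5) (nat_lit 61) (nat_lit 5) (nat_lit 395) (nat_lit 309) (nat_lit 196)) (XT.nd (nat_lit 78) (nat_lit 152) (nat_lit 0) (XT.lf (nat_lit 0) (nat_lit 11309521838) (nat_lit 228) (nat_lit 12366343725) (nat_lit 76) (nat_lit 2347436260) (nat_lit 58) (nat_lit 5) (nat_lit 61) (nat_lit 5) (nat_lit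 59) (nat_lit 5) (nat_lit 396) (nat_lit 309) (nat_lit 195)) (XT.lf (nat_lit 0) (nat_lit 846840382) (nat_lit 152) (nat_lit 16630819550) (nat_lit 228) (nat_lit 9095251195) (nat_lit 56) (nat_lit 5) (nat_lit 58) (nat_lit 5) (nat_lit 59) (nat_lit 5) (nat_lit 397) (nat_lit 309) (nat_lit 194)))) (XT.nd (nat_lit 156) (nat_lit 152) (nat_lit 0) (XT.nd (nat_lit 78) (nat_lit 228) (nat_lit 0) (XT.lf (nat_lit 0) (nat_lit 14684397122) (nat_lit 152) (nat_lit 9256859559) (nat_lit 228) (nat_lit 3194442060) (nat_lit 56) (nat_lit 5) (nat_lit 58) (nat_lit 5) (nat_lit 59) (nat_lit 5) (nat_lit 398) (nat_lit 309) (nat_lit 193)) (XT.lf (nat_lit 0) (nat_lit 1192195636) (nat_lit 152) (nat_lit 1632209008) (nat_lit 228) (nat_lit 24890217797) (nat_lit 53) (nat_lit 5) (nat_lit 55) (nat_lit 5) (nat_lit 56) (nat_lit 5) (nat_lit 399) (nat_lit 309) (nat_lit 192))) (XT.nd (nat_lit 78) (nat_lit 152) (nat_lit 0) (XT.lf (nat_lit 0) (nat_lit 9132281176)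 (nat_lit 228) (nat_lit 12924714286) (nat_lit 76) (nat_lit 6247791716) (nat_lit 53) (nat_lit 5) (nat_lit 56) (nat_lit 5) (nat_lit 54) (nat_lit 5) (nat_lit 400) (nat_lit 309) (nat_lit 191)) (XT.lf (nat_lit 0) (nat_lit 1061071631) (nat_lit 152) (nat_lit 14580982651) (nat_lit 228) (nat_lit 13270224958) (nat_lit 51) (nat_lit 5) (nat_lit 53) (nat_lit 5) (nat_lit 54) (nat_lit 5) (nat_lit 401) (nat_lit 309) (nat_lit 190))))))) (XT.nd (nat_lit 1014) (nat_lit 684) (nat_lit 0) (XT.nd (nat_lit 468) (nat_lit 608) (nat_lit 0) (XT.nd (nat_lit 234) (nat_lit 152) (nat_lit 0) (XT.nd (nat_lit 78) (nat_lit 228) (nat_lit 0) (XT.lf (nat_lit 0) (nat_lit 15707211520) (nat_lit 152) (nat_lit 6756890209) (nat_lit 228) (nat_lit 7070387027) (nat_lit 51) (nat_lit 5) (nat_lit 53) (nat_lit 5) (nat_lit 54) (nat_lit 5) (nat_lit 402) (nat_lit 309) (nat_lit 189)) (XT.nd (nat_lit 78) (nat_lit 76) (nat_lit 0) (XT.lf (nat_lit 0) (nat_lit 592664356)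 (nat_lit 152) (nat_lit 28903120031) (nat_lit 228) (nat_lit 679433023) (nat_lit 49) (nat_lit 5) (nat_lit 51) (nat_lit 5) (nat_lit 52) (nat_lit 4) (nat_lit 403) (nat_lit 309) (nat_lit 188)) (XT.lf (nat_lit 0) (nat_lit 5982756515) (nat_lit 228) (nat_lit 15251146010) (nat_lit 76) (nat_lit 9593723958) (nat_lit 48) (nat_lit 5) (nat_lit 51) (nat_lit 5) (nat_lit 49) (nat_lit 5) (nat_lit 404) (nat_lit 309) (nat_lit 187)))) (XT.nd (nat_lit 78) (nat_lit 152) (nat_lit 0) (XT.lf (nat_lit 0) (nat_lit 12818330398) (nat_lit 228) (nat_lit 519619691) (nat_lit 76) (nat_lit 18161842579) (nat_lit 48) (nat_lit 5) (nat_lit 51) (nat_lit 5) (nat_lit 49) (nat_lit 5) (nat_lit 405) (nat_lit 309) (nat_lit 186)) (XT.nd (nat_lit 78) (nat_lit 0) (nat_lit 0) (XT.lf (nat_lit 0) (nat_lit 14922623366) (nat_lit 152) (nat_lit 5067341662) (nat_lit 228) (nat_lit 12198230841) (nat_lit 46) (nat_lit 5) (nat_lit 48) (nat_lit 5) (nat_lit 49) (nat_lit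 5) (nat_lit 406) (nat_lit 309) (nat_lit 185)) (XT.lf (nat_lit 0) (nat_lit 27402826830) (nat_lit 228) (nat_lit 2114016152) (nat_lit 76) (nat_lit 3379627621) (nat_lit 46) (nat_lit 5) (nat_lit 49) (nat_lit 5) (nat_lit 47) (nat_lit 4) (nat_lit 407) (nat_lit 309) (nat_lit 184))))) (XT.nd (nat_lit 234) (nat_lit 304) (nat_lit 0) (XT.nd (nat_lit 78) (nat_lit 152) (nat_lit 0) (XT.lf (nat_lit 0) (nat_lit 1555909203) (nat_lit 152) (nat_lit 19948981178) (nat_lit 76) (nat_lit 12115556171) (nat_lit 44) (nat_lit 5) (nat_lit 46) (nat_lit 5) (nat_lit 45) (nat_lit 5) (nat_lit 408) (nat_lit 309) (nat_lit 183)) (XT.nd (nat_lit 78) (nat_lit 152) (nat_lit 0) (XT.lf (nat_lit 0) (nat_lit 8716077509) (nat_lit 152) (nat_lit 4468109683) (nat_lit 76) (nat_lit 21180038076) (nat_lit 44) (nat_lit 5) (nat_lit 46) (nat_lit 5) (nat_lit 45) (nat_lit 5) (nat_lit 409) (nat_lit 309) (nat_lit 182)) (XT.lf (nat_lit 0) (nat_lit 11683969668) (nat_lit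 152) (nat_lit 4507731321) (nat_lit 228) (nat_lit 18935598436) (nat_lit 42) (nat_lit 5) (nat_lit 44) (nat_lit 5) (nat_lit 45) (nat_lit 5) (nat_lit 410) (nat_lit 309) (nat_lit 181)))) (XT.nd (nat_lit 156) (nat_lit 228) (nat_lit 0) (XT.nd (nat_lit 78) (nat_lit 76) (nat_lit 0) (XT.lf (nat_lit 0) (nat_lit 23968116782) (nat_lit 228) (nat_lit 7563992920) (nat_lit 76) (nat_lit 4378861933) (nat_lit 42) (nat_lit 5) (nat_lit 45) (nat_lit 5) (nat_lit 43) (nat_lit 4) (nat_lit 411) (nat_lit 309) (nat_lit 180)) (XT.lf (nat_lit 0) (nat_lit 8900122979) (nat_lit 76) (nat_lit 23196608152) (nat_lit 152) (nat_lit 4617857190) (nat_lit 41) (nat_lit 5) (nat_lit 42) (nat_lit 5) (nat_lit 43) (nat_lit 4) (nat_lit 412) (nat_lit 309) (nat_lit 179))) (XT.nd (nat_lit 78) (nat_lit 152) (nat_lit 0) (XT.lf (nat_lit 0) (nat_lit 2935655856) (nat_lit 152) (nat_lit 11576363152) (nat_lit 76) (nat_lit 23027475465) (nat_lit 40) (nat_lit 5) (nat_lit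 42) (nat_lit 5) (nat_lit 41) (nat_lit 5) (nat_lit 413) (nat_lit 309) (nat_lit 178)) (XT.lf (nat_lit 0) (nat_lit 5184259690) (nat_lit 152) (nat_lit 5477604305) (nat_lit 228) (nat_lit 27724746418) (nat_lit 38) (nat_lit 5) (nat_lit 40) (nat_lit 5) (nat_lit 41) (nat_lit 5) (nat_lit 414) (nat_lit 309) (nat_lit 177)))))) (XT.nd (nat_lit 546) (nat_lit 304) (nat_lit 0) (XT.nd (nat_lit 234) (nat_lit 304) (nat_lit 0) (XT.nd (nat_lit 78) (nat_lit 76) (nat_lit 0) (XT.lf (nat_lit 0) (nat_lit 18763819945) (nat_lit 228) (nat_lit 16628686732) (nat_lit 76) (nat_lit 3862315633) (nat_lit 38) (nat_lit 5) (nat_lit 41) (nat_lit 5) (nat_lit 39) (nat_lit 4) (nat_lit 415) (nat_lit 309) (nat_lit 176)) (XT.nd (nat_lit 78) (nat_lit 0) (nat_lit 0) (XT.lf (nat_lit 0) (nat_lit 375765434) (nat_lit 76) (nat_lit 26780342133) (nat_lit 152) (nat_lit 12991556093) (nat_lit 37) (nat_lit 5) (nat_lit 38) (nat_lit 5) (nat_lit 39) (nat_lit 4) (nat_lit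 416) (nat_lit 309) (nat_lit 175)) (XT.lf (nat_lit 0) (nat_lit 18211893744) (nat_lit 76) (nat_lit 17745736548) (nat_lit 152) (nat_lit 5104937214) (nat_lit 37) (nat_lit 5) (nat_lit 38) (nat_lit 5) (nat_lit 39) (nat_lit 4) (nat_lit 417) (nat_lit 309) (nat_lit 174)))) (XT.nd (nat_lit 156) (nat_lit 76) (nat_lit 0) (XT.nd (nat_lit 78) (nat_lit 152) (nat_lit 0) (XT.lf (nat_lit 0) (nat_lit 2949134796) (nat_lit 152) (nat_lit 5469797464) (nat_lit 76) (nat_lit 33585424417) (nat_lit 36) (nat_lit 5) (nat_lit 38) (nat_lit 5) (nat_lit 37) (nat_lit 5) (nat_lit 418) (nat_lit 309) (nat_lit 173)) (XT.lf (nat_lit 0) (nat_lit 11266522353) (nat_lit 228) (nat_lit 30372981150) (nat_lit 76) (nat_lit 1329651917) (nat_lit 34) (nat_lit 5) (nat_lit 37) (nat_lit 5) (nat_lit 35) (nat_lit 4) (nat_lit 419) (nat_lit 309) (nat_lit 172))) (XT.nd (nat_lit 78) (nat_lit 76) (nat_lit 0) (XT.lf (nat_lit 0) (nat_lit 19962652666) (nat_lit 228) (nat_lit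 12747346680) (nat_lit 76) (nat_lit 11249023255) (nat_lit 34) (nat_lit 5) (nat_lit 37) (nat_lit 5) (nat_lit 35) (nat_lit 4) (nat_lit 420) (nat_lit 309) (nat_lit 171)) (XT.lf (nat_lit 0) (nat_lit 5496395188) (nat_lit 76) (nat_lit 23466479484) (nat_lit 152) (nat_lit 16014415972) (nat_lit 33) (nat_lit 5) (nat_lit 34) (nat_lit 5) (nat_lit 35) (nat_lit 4) (nat_lit 421) (nat_lit 309) (nat_lit 170))))) (XT.nd (nat_lit 234) (nat_lit 76) (nat_lit 0) (XT.nd (nat_lit 78) (nat_lit 228) (nat_lit 0) (XT.lf (nat_lit 0) (nat_lit 24531016969) (nat_lit 76) (nat_lit 13821292509) (nat_lit 152) (nat_lit 7670222111) (nat_lit 33) (nat_lit 5) (nat_lit 34) (nat_lit 5) (nat_lit 35) (nat_lit 4) (nat_lit 422) (nat_lit 309) (nat_lit 169)) (XT.nd (nat_lit 78) (nat_lit 152) (nat_lit 0) (XT.lf (nat_lit 0) (nat_lit 896928840) (nat_lit 152) (nat_lit 2988747734) (nat_lit 76) (nat_lit 43213467599) (nat_lit 32) (nat_lit 5) (nat_lit 34) (nat_lit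 5) (nat_lit 33) (nat_lit 5) (nat_lit 423) (nat_lit 309) (nat_lit 168)) (XT.lf (nat_lit 0) (nat_lit 9777748123) (nat_lit 228) (nat_lit 31970384143) (nat_lit 76) (nat_lit 6451321011) (nat_lit 30) (nat_lit 5) (nat_lit 33) (nat_lit 5) (nat_lit 31) (nat_lit 4) (nat_lit 424) (nat_lit 309) (nat_lit 167)))) (XT.nd (nat_lit 156) (nat_lit 0) (nat_lit 0) (XT.nd (nat_lit 78) (nat_lit 76) (nat_lit 0) (XT.lf (nat_lit 0) (nat_lit 18984911024) (nat_lit 228) (nat_lit 13302882703) (nat_lit 76) (nat_lit 17043181287) (nat_lit 30) (nat_lit 5) (nat_lit 33) (nat_lit 5) (nat_lit 31) (nat_lit 4) (nat_lit 425) (nat_lit 309) (nat_lit 166)) (XT.lf (nat_lit 0) (nat_lit 6025789305) (nat_lit 76) (nat_lit 22491653842) (nat_lit 152) (nat_lit 21977525528) (nat_lit 29) (nat_lit 5) (nat_lit 30) (nat_lit 5) (nat_lit 31) (nat_lit 4) (nat_lit 426) (nat_lit 309) (nat_lit 165))) (XT.nd (nat_lit 78) (nat_lit 0) (nat_lit 0) (XT.lf (nat_lit 0) (nat_lit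 26190739369) (nat_lit 76) (nat_lit 12270874598) (nat_lit 152) (nat_lit 13228499173) (nat_lit 29) (nat_lit 5) (nat_lit 30) (nat_lit 5) (nat_lit 31) (nat_lit 4) (nat_lit 427) (nat_lit 309) (nat_lit 164)) (XT.lf (nat_lit 0) (nat_lit 46944833897) (nat_lit 76) (nat_lit 1750858249) (nat_lit 152) (nat_lit 4225673177) (nat_lit 29) (nat_lit 5) (nat_lit 30) (nat_lit 5) (nat_lit 31) (nat_lit 4) (nat_lit 428) (nat_lit 309) (nat_lit 163))))))))
noncomputable def xc130 : XT := (XT.nd (nat_lit 38376) (nat_lit 0) (nat_lit 11856) (XT.nd (nat_lit 1014) (nat_lit 76) (nat_lit 0) (XT.nd (nat_lit 468) (nat_lit 304) (nat_lit 0) (XT.nd (nat_lit 234) (nat_lit 152) (nat_lit 0) (XT.nd (nat_lit 78) (nat_lit 0) (nat_lit 0) (XT.lf (nat_lit 0) (nat_lit 5167519223) (nat_lit 152) (nat_lit 39925364359) (nat_lit 76) (nat_lit 9088653635) (nat_lit 27) (nat_lit 5) (nat_lit 29) (nat_lit 5) (nat_lit 28) (nat_lit 4) (nat_lit 429) (nat_lit 309)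 (nat_lit 162)) (XT.nd (nat_lit 78) (nat_lit 0) (nat_lit 0) (XT.lf (nat_lit 0) (nat_lit 14827628884) (nat_lit 152) (nat_lit 20334636754) (nat_lit 76) (nat_lit 20313892658) (nat_lit 27) (nat_lit 5) (nat_lit 29) (nat_lit 5) (nat_lit 28) (nat_lit 4) (nat_lit 430) (nat_lit 309) (nat_lit 161)) (XT.lf (nat_lit 0) (nat_lit 24769550883) (nat_lit 152) (nat_lit 171268114) (nat_lit 76) (nat_lit 31869039495) (nat_lit 27) (nat_lit 5) (nat_lit 29) (nat_lit 5) (nat_lit 28) (nat_lit 4) (nat_lit 431) (nat_lit 309) (nat_lit 160)))) (XT.nd (nat_lit 78) (nat_lit 76) (nat_lit 0) (XT.lf (nat_lit 0) (nat_lit 20991989360) (nat_lit 76) (nat_lit 14211770818) (nat_lit 152) (nat_lit 22973989361) (nat_lit 26) (nat_lit 5) (nat_lit 27) (nat_lit 5) (nat_lit 28) (nat_lit 4) (nat_lit 432) (nat_lit 309) (nat_lit 159)) (XT.nd (nat_lit 78) (nat_lit 76) (nat_lit 0) (XT.lf (nat_lit 0) (nat_lit 42779157385) (nat_lit 76) (nat_lit 3165896236) (nat_lit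 152) (nat_lit 13641802672) (nat_lit 26) (nat_lit 5) (nat_lit 27) (nat_lit 5) (nat_lit 28) (nat_lit 4) (nat_lit 433) (nat_lit 309) (nat_lit 158)) (XT.lf (nat_lit 0) (nat_lit 4169905350) (nat_lit 76) (nat_lit 52950184896) (nat_lit 76) (nat_lit 3914801565) (nat_lit 25) (nat_lit 4) (nat_lit 26) (nat_lit 5) (nat_lit 26) (nat_lit 4) (nat_lit 434) (nat_lit 309) (nat_lit 157))))) (XT.nd (nat_lit 234) (nat_lit 152) (nat_lit 0) (XT.nd (nat_lit 78) (nat_lit 76) (nat_lit 0) (XT.lf (nat_lit 0) (nat_lit 6180146328) (nat_lit 152) (nat_lit 36505845549) (nat_lit 76) (nat_lit 19832759466) (nat_lit 24) (nat_lit 5) (nat_lit 26) (nat_lit 5) (nat_lit 25) (nat_lit 4) (nat_lit 435) (nat_lit 309) (nat_lit 156)) (XT.nd (nat_lit 78) (nat_lit 76) (nat_lit 0) (XT.lf (nat_lit 0) (nat_lit 16491974763) (nat_lit 152) (nat_lit 15588522432) (nat_lit 76) (nat_lit 31965685815) (nat_lit 24) (nat_lit 5) (nat_lit 26) (nat_lit 5) (nat_lit 25)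 (nat_lit 4) (nat_lit 436) (nat_lit 309) (nat_lit 155)) (XT.lf (nat_lit 0) (nat_lit 6061166823) (nat_lit 76) (nat_lit 21103182774) (nat_lit 152) (nat_lit 38453552898) (nat_lit 23) (nat_lit 5) (nat_lit 24) (nat_lit 5) (nat_lit 25) (nat_lit 4) (nat_lit 437) (nat_lit 309) (nat_lit 154)))) (XT.nd (nat_lit 156) (nat_lit 152) (nat_lit 0) (XT.nd (nat_lit 78) (nat_lit 0) (nat_lit 0) (XT.lf (nat_lit 0) (nat_lit 28666599089) (nat_lit 76) (nat_lit 9640716164) (nat_lit 152) (nat_lit 28924946321) (nat_lit 23) (nat_lit 5) (nat_lit 24) (nat_lit 5) (nat_lit 25) (nat_lit 4) (nat_lit 438) (nat_lit 309) (nat_lit 153)) (XT.lf (nat_lit 0) (nat_lit 49798538135) (nat_lit 152) (nat_lit 16978729672) (nat_lit 0) (nat_lit 2117365150) (nat_lit 23) (nat_lit 5) (nat_lit 25) (nat_lit 4) (nat_lit 23) (nat_lit 4) (nat_lit 439) (nat_lit 309) (nat_lit 152))) (XT.nd (nat_lit 78) (nat_lit 76) (nat_lit 0) (XT.lf (nat_lit 0) (nat_lit 5250132472)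 (nat_lit 76) (nat_lit 56523635785) (nat_lit 76) (nat_lit 8828929670) (nat_lit 22) (nat_lit 4) (nat_lit 23) (nat_lit 5) (nat_lit 23) (nat_lit 4) (nat_lit 440) (nat_lit 309) (nat_lit 151)) (XT.lf (nat_lit 0) (nat_lit 1878682038) (nat_lit 152) (nat_lit 43894120538) (nat_lit 76) (nat_lit 26583704004) (nat_lit 21) (nat_lit 5) (nat_lit 23) (nat_lit 5) (nat_lit 22) (nat_lit 4) (nat_lit 441) (nat_lit 309) (nat_lit 150)))))) (XT.nd (nat_lit 36816) (nat_lit 0) (nat_lit 22876) (XT.nd (nat_lit 234) (nat_lit 0) (nat_lit 0) (XT.nd (nat_lit 78) (nat_lit 76) (nat_lit 0) (XT.lf (nat_lit 0) (nat_lit 12723620632) (nat_lit 152) (nat_lit 21891651465) (nat_lit 76) (nat_lit 39545228916) (nat_lit 21) (nat_lit 5) (nat_lit 23) (nat_lit 5) (nat_lit 22) (nat_lit 4) (nat_lit 442) (nat_lit 309) (nat_lit 149)) (XT.nd (nat_lit 78) (nat_lit 0) (nat_lit 0) (XT.lf (nat_lit 0) (nat_lit 774040612) (nat_lit 76) (nat_lit 23121046428) (nat_lit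 152) (nat_lit 52123493350) (nat_lit 20) (nat_lit 5) (nat_lit 21) (nat_lit 5) (nat_lit 22) (nat_lit 4) (nat_lit 443) (nat_lit 309) (nat_lit 148)) (XT.lf (nat_lit 0) (nat_lit 24556622668) (nat_lit 76) (nat_lit 11059945193) (nat_lit 152) (nat_lit 42309388660) (nat_lit 20) (nat_lit 5) (nat_lit 21) (nat_lit 5) (nat_lit 22) (nat_lit 4) (nat_lit 444) (nat_lit 309) (nat_lit 147)))) (XT.nd (nat_lit 36426) (nat_lit 0) (nat_lit 23560) (XT.nd (nat_lit 36348) (nat_lit 0) (nat_lit 24244) (XT.lf (nat_lit 0) (nat_lit 47696730326) (nat_lit 152) (nat_lit 30862595150) (nat_lit 0) (nat_lit 1331017814) (nat_lit 20) (nat_lit 5) (nat_lit 22) (nat_lit 4) (nat_lit 20) (nat_lit 4) (nat_lit 445) (nat_lit 309) (nat_lit 146)) (XT.lf (nat_lit 0) (nat_lit 2067666109) (nat_lit 684) (nat_lit 683728298) (nat_lit 684) (nat_lit 683728298) (nat_lit 339) (nat_lit 3) (nat_lit 348) (nat_lit 3) (nat_lit 348) (nat_lit 5) (nat_lit 310) (nat_lit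 310) (nat_lit 280))) (XT.nd (nat_lit 78) (nat_lit 684) (nat_lit 0) (XT.lf (nat_lit 76) (nat_lit 1983695364) (nat_lit 0) (nat_lit 4128752964) (nat_lit 684) (nat_lit 801990401) (nat_lit 340) (nat_lit 5) (nat_lit 339) (nat_lit 3) (nat_lit 348) (nat_lit 5) (nat_lit 311) (nat_lit 310) (nat_lit 279)) (XT.lf (nat_lit 0) (nat_lit 1104504960) (nat_lit 684) (nat_lit 1548139226) (nat_lit 760) (nat_lit 4308860590) (nat_lit 330) (nat_lit 5) (nat_lit 339) (nat_lit 3) (nat_lit 340) (nat_lit 5) (nat_lit 312) (nat_lit 310) (nat_lit 278))))) (XT.nd (nat_lit 234) (nat_lit 684) (nat_lit 0) (XT.nd (nat_lit 78) (nat_lit 0) (nat_lit 76) (XT.lf (nat_lit 76) (nat_lit 1926326374) (nat_lit 0) (nat_lit 1071295408) (nat_lit 760) (nat_lit 4013808223) (nat_lit 331) (nat_lit 5) (nat_lit 330) (nat_lit 5) (nat_lit 340) (nat_lit 5) (nat_lit 313) (nat_lit 310) (nat_lit 277)) (XT.nd (nat_lit 78) (nat_lit 0) (nat_lit 0) (XT.lf (nat_lit 0) (nat_lit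 4897770309) (nat_lit 684) (nat_lit 1572514969) (nat_lit 760) (nat_lit 594110845) (nat_lit 331) (nat_lit 5) (nat_lit 340) (nat_lit 5) (nat_lit 341) (nat_lit 5) (nat_lit 314) (nat_lit 310) (nat_lit 276)) (XT.lf (nat_lit 76) (nat_lit 2034369036) (nat_lit 0) (nat_lit 4781873318) (nat_lit 760) (nat_lit 303918113) (nat_lit 332) (nat_lit 5) (nat_lit 331) (nat_lit 5) (nat_lit 341) (nat_lit 5) (nat_lit 315) (nat_lit 310) (nat_lit 275)))) (XT.nd (nat_lit 156) (nat_lit 0) (nat_lit 76) (XT.nd (nat_lit 78) (nat_lit 0) (nat_lit 0) (XT.lf (nat_lit 0) (nat_lit 1531266634) (nat_lit 760) (nat_lit 1452282660) (nat_lit 836) (nat_lit 4195185710) (nat_lit 321) (nat_lit 5) (nat_lit 331) (nat_lit 5) (nat_lit 332) (nat_lit 5) (nat_lit 316) (nat_lit 310) (nat_lit 274)) (XT.lf (nat_lit 76) (nat_lit 2291968743) (nat_lit 0) (nat_lit 1079507476) (nat_lit 836) (nat_lit 3868862624) (nat_lit 322) (nat_lit 5) (nat_lit 321) (nat_lit 5) (nat_lit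 332) (nat_lit 5) (nat_lit 317) (nat_lit 310) (nat_lit 273))) (XT.nd (nat_lit 78) (nat_lit 0) (nat_lit 0) (XT.lf (nat_lit 0) (nat_lit 5226002579) (nat_lit 760) (nat_lit 1175453595) (nat_lit 836) (nat_lit 903604681) (nat_lit 322) (nat_lit 5) (nat_lit 332) (nat_lit 5) (nat_lit 333) (nat_lit 5) (nat_lit 318) (nat_lit 310) (nat_lit 272)) (XT.lf (nat_lit 76) (nat_lit 2712305963) (nat_lit 0) (nat_lit 4398313540) (nat_lit 836) (nat_lit 261913490) (nat_lit 323) (nat_lit 5) (nat_lit 322) (nat_lit 5) (nat_lit 333) (nat_lit 5) (nat_lit 319) (nat_lit 310) (nat_lit 271))))))) (XT.nd (nat_lit 1014) (nat_lit 5320) (nat_lit 0) (XT.nd (nat_lit 468) (nat_lit 4104) (nat_lit 0) (XT.nd (nat_lit 234) (nat_lit 836) (nat_lit 0) (XT.nd (nat_lit 78) (nat_lit 0) (nat_lit 0) (XT.lf (nat_lit 0) (nat_lit 1528800858) (nat_lit 836) (nat_lit 757919923) (nat_lit 912) (nat_lit 5156369974) (nat_lit 311) (nat_lit 5) (nat_lit 322) (nat_lit 5)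 (nat_lit 323) (nat_lit 5) (nat_lit 320) (nat_lit 310) (nat_lit 270)) (XT.nd (nat_lit 78) (nat_lit 0) (nat_lit 76) (XT.lf (nat_lit 76) (nat_lit 3282678031) (nat_lit 0) (nat_lit 57121216) (nat_lit 912) (nat_lit 4176771938) (nat_lit 312) (nat_lit 5) (nat_lit 311) (nat_lit 5) (nat_lit 323) (nat_lit 5) (nat_lit 321) (nat_lit 310) (nat_lit 269)) (XT.lf (nat_lit 0) (nat_lit 5176189419) (nat_lit 836) (nat_lit 195411953) (nat_lit 912) (nat_lit 2221560213) (nat_lit 312) (nat_lit 5) (nat_lit 323) (nat_lit 5) (nat_lit 324) (nat_lit 5) (nat_lit 322) (nat_lit 310) (nat_lit 268)))) (XT.nd (nat_lit 78) (nat_lit 912) (nat_lit 0) (XT.lf (nat_lit 76) (nat_lit 4001138504) (nat_lit 0) (nat_lit 3049061088) (nat_lit 912) (nat_lit 622410580) (nat_lit 313) (nat_lit 5) (nat_lit 312) (nat_lit 5) (nat_lit 324) (nat_lit 5) (nat_lit 323) (nat_lit 310) (nat_lit 267)) (XT.nd (nat_lit 78) (nat_lit 0) (nat_lit 76) (XT.lf (nat_lit 76) (nat_lit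 530410520) (nat_lit 0) (nat_lit 622924368) (nat_lit 988) (nat_lit 6602249903) (nat_lit 301) (nat_lit 5) (nat_lit 300) (nat_lit 5) (nat_lit 313) (nat_lit 5) (nat_lit 324) (nat_lit 310) (nat_lit 266)) (XT.lf (nat_lit 0) (nat_lit 2970860428) (nat_lit 912) (nat_lit 2973628666) (nat_lit 76) (nat_lit 1896377395) (nat_lit 301) (nat_lit 5) (nat_lit 313) (nat_lit 5) (nat_lit 302) (nat_lit 5) (nat_lit 325) (nat_lit 310) (nat_lit 265))))) (XT.nd (nat_lit 234) (nat_lit 2204) (nat_lit 0) (XT.nd (nat_lit 78) (nat_lit 1064) (nat_lit 0) (XT.lf (nat_lit 0) (nat_lit 1384823272) (nat_lit 912) (nat_lit 3424696513) (nat_lit 988) (nat_lit 3120220883) (nat_lit 289) (nat_lit 5) (nat_lit 301) (nat_lit 5) (nat_lit 302) (nat_lit 5) (nat_lit 326) (nat_lit 310) (nat_lit 264)) (XT.nd (nat_lit 78) (nat_lit 1064) (nat_lit 0) (XT.lf (nat_lit 0) (nat_lit 5893896702) (nat_lit 912) (nat_lit 787743729) (nat_lit 988) (nat_lit 1340322931) (nat_lit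 289) (nat_lit 5) (nat_lit 301) (nat_lit 5) (nat_lit 302) (nat_lit 5) (nat_lit 327) (nat_lit 310) (nat_lit 263)) (XT.lf (nat_lit 0) (nat_lit 474803954) (nat_lit 1064) (nat_lit 5713672780) (nat_lit 76) (nat_lit 1928619823) (nat_lit 275) (nat_lit 5) (nat_lit 289) (nat_lit 5) (nat_lit 276) (nat_lit 5) (nat_lit 328) (nat_lit 310) (nat_lit 262)))) (XT.nd (nat_lit 156) (nat_lit 1140) (nat_lit 0) (XT.nd (nat_lit 78) (nat_lit 1064) (nat_lit 0) (XT.lf (nat_lit 0) (nat_lit 2297376428) (nat_lit 1064) (nat_lit 1163375755) (nat_lit 76) (nat_lit 4754564195) (nat_lit 275) (nat_lit 5) (nat_lit 289) (nat_lit 5) (nat_lit 276) (nat_lit 5) (nat_lit 329) (nat_lit 310) (nat_lit 261)) (XT.lf (nat_lit 0) (nat_lit 3551830285) (nat_lit 1064) (nat_lit 608811396) (nat_lit 1140) (nat_lit 4156288482) (nat_lit 261) (nat_lit 5) (nat_lit 275) (nat_lit 5) (nat_lit 276) (nat_lit 5) (nat_lit 330) (nat_lit 310) (nat_lit 260))) (XT.nd (nat_lit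 78) (nat_lit 1140) (nat_lit 0) (XT.lf (nat_lit 0) (nat_lit 6067002903) (nat_lit 1140) (nat_lit 53412239) (nat_lit 76) (nat_lit 2301588308) (nat_lit 261) (nat_lit 5) (nat_lit 276) (nat_lit 5) (nat_lit 262) (nat_lit 5) (nat_lit 331) (nat_lit 310) (nat_lit 259)) (XT.lf (nat_lit 0) (nat_lit 4847400283) (nat_lit 1140) (nat_lit 3190098215) (nat_lit 1216) (nat_lit 492548372) (nat_lit 246) (nat_lit 5) (nat_lit 261) (nat_lit 5) (nat_lit 262) (nat_lit 5) (nat_lit 332) (nat_lit 310) (nat_lit 258)))))) (XT.nd (nat_lit 546) (nat_lit 2128) (nat_lit 0) (XT.nd (nat_lit 234) (nat_lit 1292) (nat_lit 0) (XT.nd (nat_lit 78) (nat_lit 608) (nat_lit 0) (XT.lf (nat_lit 0) (nat_lit 1223875407) (nat_lit 1216) (nat_lit 141183101) (nat_lit 1292) (nat_lit 7276873559) (nat_lit 229) (nat_lit 5) (nat_lit 245) (nat_lit 5) (nat_lit 246) (nat_lit 5) (nat_lit 333) (nat_lit 310) (nat_lit 257)) (XT.nd (nat_lit 78) (nat_lit 608) (nat_lit 0)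 (XT.lf (nat_lit 0) (nat_lit 3290629459) (nat_lit 1292) (nat_lit 2479342140) (nat_lit 76) (nat_lit 2986415867) (nat_lit 229) (nat_lit 5) (nat_lit 246) (nat_lit 5) (nat_lit 230) (nat_lit 5) (nat_lit 334) (nat_lit 310) (nat_lit 256)) (XT.lf (nat_lit 0) (nat_lit 2616125209) (nat_lit 608) (nat_lit 2641426571) (nat_lit 684) (nat_lit 3617240532) (nat_lit 221) (nat_lit 5) (nat_lit 229) (nat_lit 5) (nat_lit 230) (nat_lit 5) (nat_lit 335) (nat_lit 310) (nat_lit 255)))) (XT.nd (nat_lit 156) (nat_lit 608) (nat_lit 0) (XT.nd (nat_lit 78) (nat_lit 684) (nat_lit 0) (XT.lf (nat_lit 0) (nat_lit 7272263771) (nat_lit 684) (nat_lit 1128507872) (nat_lit 76) (nat_lit 596336836) (nat_lit 221) (nat_lit 5) (nat_lit 230) (nat_lit 5) (nat_lit 222) (nat_lit 5) (nat_lit 336) (nat_lit 310) (nat_lit 254)) (XT.lf (nat_lit 0) (nat_lit 245551832) (nat_lit 684) (nat_lit 4954721967) (nat_lit 76) (nat_lit 3922008793) (nat_lit 212) (nat_lit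 5) (nat_lit 221) (nat_lit 5) (nat_lit 213) (nat_lit 5) (nat_lit 337) (nat_lit 310) (nat_lit 253))) (XT.nd (nat_lit 78) (nat_lit 0) (nat_lit 0) (XT.lf (nat_lit 0) (nat_lit 343116783) (nat_lit 608) (nat_lit 1871606234) (nat_lit 684) (nat_lit 7036767383) (nat_lit 204) (nat_lit 5) (nat_lit 212) (nat_lit 5) (nat_lit 213) (nat_lit 5) (nat_lit 338) (nat_lit 310) (nat_lit 252)) (XT.lf (nat_lit 0) (nat_lit 4268764237) (nat_lit 684) (nat_lit 3539036809) (nat_lit 76) (nat_lit 1576019661) (nat_lit 204) (nat_lit 5) (nat_lit 213) (nat_lit 5) (nat_lit 205) (nat_lit 5) (nat_lit 339) (nat_lit 310) (nat_lit 251))))) (XT.nd (nat_lit 234) (nat_lit 988) (nat_lit 0) (XT.nd (nat_lit 78) (nat_lit 608) (nat_lit 0) (XT.lf (nat_lit 0) (nat_lit 1970564748) (nat_lit 532) (nat_lit 4412791734) (nat_lit 608) (nat_lit 3136816071) (nat_lit 197) (nat_lit 5) (nat_lit 204) (nat_lit 5) (nat_lit 205) (nat_lit 5) (nat_lit 340) (nat_lit 310) (nat_lit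 250)) (XT.nd (nat_lit 78) (nat_lit 608) (nat_lit 0) (XT.lf (nat_lit 0) (nat_lit 7677663109) (nat_lit 532) (nat_lit 881652346) (nat_lit 608) (nat_lit 1101380589) (nat_lit 197) (nat_lit 5) (nat_lit 204) (nat_lit 5) (nat_lit 205) (nat_lit 5) (nat_lit 341) (nat_lit 310) (nat_lit 249)) (XT.lf (nat_lit 0) (nat_lit 1001809378) (nat_lit 608) (nat_lit 6057391209) (nat_lit 76) (nat_lit 2745182258) (nat_lit 189) (nat_lit 5) (nat_lit 197) (nat_lit 5) (nat_lit 190) (nat_lit 5) (nat_lit 342) (nat_lit 310) (nat_lit 248)))) (XT.nd (nat_lit 156) (nat_lit 532) (nat_lit 0) (XT.nd (nat_lit 78) (nat_lit 456) (nat_lit 0) (XT.lf (nat_lit 0) (nat_lit 3138492092) (nat_lit 608) (nat_lit 322651181) (nat_lit 76) (nat_lit 6491151170) (nat_lit 189) (nat_lit 5) (nat_lit 197) (nat_lit 5) (nat_lit 190) (nat_lit 5) (nat_lit 343) (nat_lit 310) (nat_lit 247)) (XT.lf (nat_lit 0) (nat_lit 5361130198) (nat_lit 532) (nat_lit 4451885295) (nat_lit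 76) (nat_lit 290989093) (nat_lit 183) (nat_lit 5) (nat_lit 190) (nat_lit 5) (nat_lit 184) (nat_lit 5) (nat_lit 344) (nat_lit 310) (nat_lit 246))) (XT.nd (nat_lit 78) (nat_lit 0) (nat_lit 0) (XT.lf (nat_lit 0) (nat_lit 1507644025) (nat_lit 532) (nat_lit 6160110093) (nat_lit 608) (nat_lit 2592009067) (nat_lit 176) (nat_lit 5) (nat_lit 183) (nat_lit 5) (nat_lit 184) (nat_lit 5) (nat_lit 345) (nat_lit 310) (nat_lit 245)) (XT.lf (nat_lit 0) (nat_lit 7697558030) (nat_lit 532) (nat_lit 2356859910) (nat_lit 608) (nat_lit 365467242) (nat_lit 176) (nat_lit 5) (nat_lit 183) (nat_lit 5) (nat_lit 184) (nat_lit 5) (nat_lit 346) (nat_lit 310) (nat_lit 244))))))))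
noncomputable def xc131 : XT := (XT.nd (nat_lit 2106) (nat_lit 3344) (nat_lit 0) (XT.nd (nat_lit 1014) (nat_lit 2584) (nat_lit 0) (XT.nd (nat_lit 468) (nat_lit 1520) (nat_lit 0) (XT.nd (nat_lit 234) (nat_lit 912) (nat_lit 0) (XT.nd (nat_lit 78) (nat_lit 456) (nat_lit 0) (XT.lf (nat_lit 0) (nat_lit 1905883156) (nat_lit 532) (nat_lit 7100809648) (nat_lit 76) (nat_lit 1577108083) (nat_lit 169) (nat_lit 5) (nat_lit 176) (nat_lit 5) (nat_lit 170) (nat_lit 5) (nat_lit 347) (nat_lit 310) (nat_lit 243)) (XT.nd (nat_lit 78) (nat_lit 456) (nat_lit 0) (XT.lf (nat_lit 0) (nat_lit 4256207154) (nat_lit 532) (nat_lit 888506431) (nat_lit 76) (nat_lit 5607281092) (nat_lit 169) (nat_lit 5) (nat_lit 176) (nat_lit 5) (nat_lit 170) (nat_lit 5) (nat_lit 348) (nat_lit 310) (nat_lit 242)) (XT.lf (nat_lit 0) (nat_lit 5580473267) (nat_lit 456) (nat_lit 1118250358) (nat_lit 532) (nat_lit 4225874281) (nat_lit 163) (nat_lit 5) (nat_lit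 169) (nat_lit 5) (nat_lit 170) (nat_lit 5) (nat_lit 349) (nat_lit 310) (nat_lit 241)))) (XT.nd (nat_lit 78) (nat_lit 532) (nat_lit 0) (XT.lf (nat_lit 0) (nat_lit 1113040185) (nat_lit 380) (nat_lit 8118890227) (nat_lit 456) (nat_lit 1869940069) (nat_lit 158) (nat_lit 5) (nat_lit 163) (nat_lit 5) (nat_lit 164) (nat_lit 5) (nat_lit 350) (nat_lit 310) (nat_lit 240)) (XT.nd (nat_lit 78) (nat_lit 456) (nat_lit 0) (XT.lf (nat_lit 0) (nat_lit 580143745) (nat_lit 456) (nat_lit 3465680972) (nat_lit 76) (nat_lit 7237458865) (nat_lit 157) (nat_lit 5) (nat_lit 163) (nat_lit 5) (nat_lit 158) (nat_lit 5) (nat_lit 351) (nat_lit 310) (nat_lit 239)) (XT.lf (nat_lit 0) (nat_lit 3069010911) (nat_lit 532) (nat_lit 8211360749) (nat_lit 76) (nat_lit 189138576) (nat_lit 151) (nat_lit 5) (nat_lit 158) (nat_lit 5) (nat_lit 152) (nat_lit 5) (nat_lit 352) (nat_lit 310) (nat_lit 238))))) (XT.nd (nat_lit 234) (nat_lit 760) (nat_lit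 0) (XT.nd (nat_lit 78) (nat_lit 760) (nat_lit 0) (XT.lf (nat_lit 0) (nat_lit 5678060195) (nat_lit 532) (nat_lit 1484599418) (nat_lit 76) (nat_lit 4497310763) (nat_lit 151) (nat_lit 5) (nat_lit 158) (nat_lit 5) (nat_lit 152) (nat_lit 5) (nat_lit 353) (nat_lit 310) (nat_lit 237)) (XT.nd (nat_lit 78) (nat_lit 380) (nat_lit 0) (XT.lf (nat_lit 0) (nat_lit 5514029961) (nat_lit 380) (nat_lit 2875341001) (nat_lit 456) (nat_lit 3466065471) (nat_lit 146) (nat_lit 5) (nat_lit 151) (nat_lit 5) (nat_lit 152) (nat_lit 5) (nat_lit 354) (nat_lit 310) (nat_lit 236)) (XT.lf (nat_lit 0) (nat_lit 656640537) (nat_lit 380) (nat_lit 10533032233) (nat_lit 456) (nat_lit 866875619) (nat_lit 141) (nat_lit 5) (nat_lit 146) (nat_lit 5) (nat_lit 147) (nat_lit 5) (nat_lit 355) (nat_lit 310) (nat_lit 235)))) (XT.nd (nat_lit 156) (nat_lit 380) (nat_lit 0) (XT.nd (nat_lit 78) (nat_lit 304) (nat_lit 0) (XT.lf (nat_lit 0) (nat_lit 1839676273)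 (nat_lit 456) (nat_lit 4351809539) (nat_lit 76) (nat_lit 6069755305) (nat_lit 140) (nat_lit 5) (nat_lit 146) (nat_lit 5) (nat_lit 141) (nat_lit 5) (nat_lit 356) (nat_lit 310) (nat_lit 234)) (XT.lf (nat_lit 0) (nat_lit 2919067475) (nat_lit 304) (nat_lit 1691394846) (nat_lit 380) (nat_lit 7861351486) (nat_lit 136) (nat_lit 5) (nat_lit 140) (nat_lit 5) (nat_lit 141) (nat_lit 5) (nat_lit 357) (nat_lit 310) (nat_lit 233))) (XT.nd (nat_lit 78) (nat_lit 380) (nat_lit 0) (XT.lf (nat_lit 0) (nat_lit 7509809142) (nat_lit 380) (nat_lit 2256251106) (nat_lit 76) (nat_lit 2921290505) (nat_lit 136) (nat_lit 5) (nat_lit 141) (nat_lit 5) (nat_lit 137) (nat_lit 5) (nat_lit 358) (nat_lit 310) (nat_lit 232)) (XT.lf (nat_lit 0) (nat_lit 5309680506) (nat_lit 380) (nat_lit 5227796333) (nat_lit 456) (nat_lit 2370646646) (nat_lit 131) (nat_lit 5) (nat_lit 136) (nat_lit 5) (nat_lit 137) (nat_lit 5) (nat_lit 359) (nat_lit 310) (nat_lit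 231)))))) (XT.nd (nat_lit 546) (nat_lit 1216) (nat_lit 0) (XT.nd (nat_lit 234) (nat_lit 684) (nat_lit 0) (XT.nd (nat_lit 78) (nat_lit 608) (nat_lit 0) (XT.lf (nat_lit 0) (nat_lit 507020077) (nat_lit 456) (nat_lit 27722789) (nat_lit 76) (nat_lit 12600734146) (nat_lit 130) (nat_lit 5) (nat_lit 136) (nat_lit 5) (nat_lit 131) (nat_lit 5) (nat_lit 360) (nat_lit 310) (nat_lit 230)) (XT.nd (nat_lit 78) (nat_lit 304) (nat_lit 0) (XT.lf (nat_lit 0) (nat_lit 3515657728) (nat_lit 380) (nat_lit 5544985763) (nat_lit 76) (nat_lit 4305543897) (nat_lit 126) (nat_lit 5) (nat_lit 131) (nat_lit 5) (nat_lit 127) (nat_lit 5) (nat_lit 361) (nat_lit 310) (nat_lit 229)) (XT.lf (nat_lit 0) (nat_lit 2306303094) (nat_lit 304) (nat_lit 4310785691) (nat_lit 380) (nat_lit 6986663052) (nat_lit 122) (nat_lit 5) (nat_lit 126) (nat_lit 5) (nat_lit 127) (nat_lit 5) (nat_lit 362) (nat_lit 310) (nat_lit 228)))) (XT.nd (nat_lit 156) (nat_lit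 380) (nat_lit 0) (XT.nd (nat_lit 78) (nat_lit 304) (nat_lit 0) (XT.lf (nat_lit 0) (nat_lit 9848780767) (nat_lit 380) (nat_lit 3382166903) (nat_lit 76) (nat_lit 616387544) (nat_lit 122) (nat_lit 5) (nat_lit 127) (nat_lit 5) (nat_lit 123) (nat_lit 5) (nat_lit 363) (nat_lit 310) (nat_lit 227)) (XT.lf (nat_lit 0) (nat_lit 4786284064) (nat_lit 304) (nat_lit 8455634744) (nat_lit 380) (nat_lit 854380711) (nat_lit 118) (nat_lit 5) (nat_lit 122) (nat_lit 5) (nat_lit 123) (nat_lit 5) (nat_lit 364) (nat_lit 310) (nat_lit 226))) (XT.nd (nat_lit 78) (nat_lit 304) (nat_lit 0) (XT.lf (nat_lit 0) (nat_lit 2348020206) (nat_lit 380) (nat_lit 1140993755) (nat_lit 76) (nat_lit 10862726332) (nat_lit 117) (nat_lit 5) (nat_lit 122) (nat_lit 5) (nat_lit 118) (nat_lit 5) (nat_lit 365) (nat_lit 310) (nat_lit 225)) (XT.lf (nat_lit 0) (nat_lit 5693160710) (nat_lit 380) (nat_lit 7255075514) (nat_lit 76) (nat_lit 1664446680) (nat_lit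 113) (nat_lit 5) (nat_lit 118) (nat_lit 5) (nat_lit 114) (nat_lit 5) (nat_lit 366) (nat_lit 310) (nat_lit 224))))) (XT.nd (nat_lit 234) (nat_lit 532) (nat_lit 0) (XT.nd (nat_lit 78) (nat_lit 380) (nat_lit 0) (XT.lf (nat_lit 0) (nat_lit 1207975671) (nat_lit 304) (nat_lit 7965358498) (nat_lit 380) (nat_lit 5707086625) (nat_lit 109) (nat_lit 5) (nat_lit 113) (nat_lit 5) (nat_lit 114) (nat_lit 5) (nat_lit 367) (nat_lit 310) (nat_lit 223)) (XT.nd (nat_lit 78) (nat_lit 380) (nat_lit 0) (XT.lf (nat_lit 0) (nat_lit 10039592238) (nat_lit 304) (nat_lit 2768814922) (nat_lit 380) (nat_lit 2346275976) (nat_lit 109) (nat_lit 5) (nat_lit 113) (nat_lit 5) (nat_lit 114) (nat_lit 5) (nat_lit 368) (nat_lit 310) (nat_lit 222)) (XT.lf (nat_lit 0) (nat_lit 1132283872) (nat_lit 380) (nat_lit 11734150600) (nat_lit 76) (nat_lit 2569263283) (nat_lit 104) (nat_lit 5) (nat_lit 109) (nat_lit 5) (nat_lit 105) (nat_lit 5) (nat_lit 369)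 (nat_lit 310) (nat_lit 221)))) (XT.nd (nat_lit 156) (nat_lit 304) (nat_lit 0) (XT.nd (nat_lit 78) (nat_lit 228) (nat_lit 0) (XT.lf (nat_lit 0) (nat_lit 4725514254) (nat_lit 380) (nat_lit 2920948491) (nat_lit 76) (nat_lit 8076265546) (nat_lit 104) (nat_lit 5) (nat_lit 109) (nat_lit 5) (nat_lit 105) (nat_lit 5) (nat_lit 370) (nat_lit 310) (nat_lit 220)) (XT.lf (nat_lit 0) (nat_lit 6245771769) (nat_lit 228) (nat_lit 2219345582) (nat_lit 304) (nat_lit 7552101469) (nat_lit 101) (nat_lit 5) (nat_lit 104) (nat_lit 5) (nat_lit 105) (nat_lit 5) (nat_lit 371) (nat_lit 310) (nat_lit 219))) (XT.nd (nat_lit 78) (nat_lit 304) (nat_lit 0) (XT.lf (nat_lit 0) (nat_lit 12357839041) (nat_lit 304) (nat_lit 637947575) (nat_lit 76) (nat_lit 3323535698) (nat_lit 101) (nat_lit 5) (nat_lit 105) (nat_lit 5) (nat_lit 102) (nat_lit 5) (nat_lit 372) (nat_lit 310) (nat_lit 218)) (XT.lf (nat_lit 0) (nat_lit 8889033985) (nat_lit 304)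 (nat_lit 7565090583) (nat_lit 380) (nat_lit 173766867) (nat_lit 97) (nat_lit 5) (nat_lit 101) (nat_lit 5) (nat_lit 102) (nat_lit 5) (nat_lit 373) (nat_lit 310) (nat_lit 217))))))) (XT.nd (nat_lit 1014) (nat_lit 1672) (nat_lit 0) (XT.nd (nat_lit 468) (nat_lit 836) (nat_lit 0) (XT.nd (nat_lit 234) (nat_lit 304) (nat_lit 0) (XT.nd (nat_lit 78) (nat_lit 228) (nat_lit 0) (XT.lf (nat_lit 0) (nat_lit 1735235984) (nat_lit 228) (nat_lit 1922243468) (nat_lit 304) (nat_lit 13287089755) (nat_lit 93) (nat_lit 5) (nat_lit 96) (nat_lit 5) (nat_lit 97) (nat_lit 5) (nat_lit 374) (nat_lit 310) (nat_lit 216)) (XT.nd (nat_lit 78) (nat_lit 228) (nat_lit 0) (XT.lf (nat_lit 0) (nat_lit 7696116652) (nat_lit 304) (nat_lit 5688392440) (nat_lit 76) (nat_lit 3883313705) (nat_lit 93) (nat_lit 5) (nat_lit 97) (nat_lit 5) (nat_lit 94) (nat_lit 5) (nat_lit 375) (nat_lit 310) (nat_lit 215)) (XT.lf (nat_lit 0) (nat_lit 4148747514) (nat_lit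 228) (nat_lit 7746304095) (nat_lit 304) (nat_lit 5704553544) (nat_lit 90) (nat_lit 5) (nat_lit 93) (nat_lit 5) (nat_lit 94) (nat_lit 5) (nat_lit 376) (nat_lit 310) (nat_lit 214)))) (XT.nd (nat_lit 78) (nat_lit 304) (nat_lit 0) (XT.lf (nat_lit 0) (nat_lit 14366561581) (nat_lit 228) (nat_lit 1891338369) (nat_lit 304) (nat_lit 1682307832) (nat_lit 90) (nat_lit 5) (nat_lit 93) (nat_lit 5) (nat_lit 94) (nat_lit 5) (nat_lit 377) (nat_lit 310) (nat_lit 213)) (XT.nd (nat_lit 78) (nat_lit 0) (nat_lit 0) (XT.lf (nat_lit 0) (nat_lit 2498191946) (nat_lit 304) (nat_lit 11653548034) (nat_lit 76) (nat_lit 4136015733) (nat_lit 86) (nat_lit 5) (nat_lit 90) (nat_lit 5) (nat_lit 87) (nat_lit 5) (nat_lit 378) (nat_lit 310) (nat_lit 212)) (XT.lf (nat_lit 0) (nat_lit 6806500495) (nat_lit 304) (nat_lit 1489523413) (nat_lit 76) (nat_lit 10348125009) (nat_lit 86) (nat_lit 5) (nat_lit 90) (nat_lit 5) (nat_lit 87) (nat_lit 5) (nat_lit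 379) (nat_lit 310) (nat_lit 211))))) (XT.nd (nat_lit 234) (nat_lit 380) (nat_lit 0) (XT.nd (nat_lit 78) (nat_lit 228) (nat_lit 0) (XT.lf (nat_lit 0) (nat_lit 9127741500) (nat_lit 228) (nat_lit 2185646837) (nat_lit 304) (nat_lit 7695770266) (nat_lit 83) (nat_lit 5) (nat_lit 86) (nat_lit 5) (nat_lit 87) (nat_lit 5) (nat_lit 380) (nat_lit 310) (nat_lit 210)) (XT.nd (nat_lit 78) (nat_lit 76) (nat_lit 0) (XT.lf (nat_lit 0) (nat_lit 652542705) (nat_lit 152) (nat_lit 15345624147) (nat_lit 228) (nat_lit 3385675660) (nat_lit 81) (nat_lit 5) (nat_lit 83) (nat_lit 5) (nat_lit 84) (nat_lit 5) (nat_lit 381) (nat_lit 310) (nat_lit 209)) (XT.lf (nat_lit 0) (nat_lit 1137367424) (nat_lit 228) (nat_lit 8124466342) (nat_lit 76) (nat_lit 10504507275) (nat_lit 80) (nat_lit 5) (nat_lit 83) (nat_lit 5) (nat_lit 81) (nat_lit 5) (nat_lit 382) (nat_lit 310) (nat_lit 208)))) (XT.nd (nat_lit 156) (nat_lit 152) (nat_lit 0) (XT.nd (nat_lit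 78) (nat_lit 0) (nat_lit 0) (XT.lf (nat_lit 0) (nat_lit 2792398072) (nat_lit 228) (nat_lit 2944824030) (nat_lit 304) (nat_lit 14421815782) (nat_lit 77) (nat_lit 5) (nat_lit 80) (nat_lit 5) (nat_lit 81) (nat_lit 5) (nat_lit 383) (nat_lit 310) (nat_lit 207)) (XT.lf (nat_lit 0) (nat_lit 10574617465) (nat_lit 304) (nat_lit 6422065673) (nat_lit 76) (nat_lit 3563850100) (nat_lit 77) (nat_lit 5) (nat_lit 81) (nat_lit 5) (nat_lit 78) (nat_lit 5) (nat_lit 384) (nat_lit 310) (nat_lit 206))) (XT.nd (nat_lit 78) (nat_lit 0) (nat_lit 0) (XT.lf (nat_lit 0) (nat_lit 4888663280) (nat_lit 152) (nat_lit 10727586315) (nat_lit 228) (nat_lit 5356054252) (nat_lit 75) (nat_lit 5) (nat_lit 77) (nat_lit 5) (nat_lit 78) (nat_lit 5) (nat_lit 385) (nat_lit 310) (nat_lit 205)) (XT.lf (nat_lit 0) (nat_lit 16642217627) (nat_lit 152) (nat_lit 4214954376) (nat_lit 228) (nat_lit 537818062) (nat_lit 75) (nat_lit 5) (nat_lit 77) (nat_lit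 5) (nat_lit 78) (nat_lit 5) (nat_lit 386) (nat_lit 310) (nat_lit 204)))))) (XT.nd (nat_lit 546) (nat_lit 760) (nat_lit 0) (XT.nd (nat_lit 234) (nat_lit 456) (nat_lit 0) (XT.nd (nat_lit 78) (nat_lit 152) (nat_lit 0) (XT.lf (nat_lit 0) (nat_lit 4414212568) (nat_lit 304) (nat_lit 14868390944) (nat_lit 76) (nat_lit 2544212979) (nat_lit 71) (nat_lit 5) (nat_lit 75) (nat_lit 5) (nat_lit 72) (nat_lit 5) (nat_lit 387) (nat_lit 310) (nat_lit 203)) (XT.nd (nat_lit 78) (nat_lit 152) (nat_lit 0) (XT.lf (nat_lit 0) (nat_lit 9577821146) (nat_lit 304) (nat_lit 3227071486) (nat_lit 76) (nat_lit 9464333944) (nat_lit 71) (nat_lit 5) (nat_lit 75) (nat_lit 5) (nat_lit 72) (nat_lit 5) (nat_lit 388) (nat_lit 310) (nat_lit 202)) (XT.lf (nat_lit 0) (nat_lit 8910402475) (nat_lit 152) (nat_lit 6055690221) (nat_lit 228) (nat_lit 7756726940) (nat_lit 69) (nat_lit 5) (nat_lit 71) (nat_lit 5) (nat_lit 72) (nat_lit 5) (nat_lit 389) (nat_lit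 310) (nat_lit 201)))) (XT.nd (nat_lit 156) (nat_lit 152) (nat_lit 0) (XT.nd (nat_lit 78) (nat_lit 304) (nat_lit 0) (XT.lf (nat_lit 0) (nat_lit 20541738048) (nat_lit 228) (nat_lit 1746888847) (nat_lit 76) (nat_lit 900625041) (nat_lit 69) (nat_lit 5) (nat_lit 72) (nat_lit 5) (nat_lit 70) (nat_lit 5) (nat_lit 390) (nat_lit 310) (nat_lit 200)) (XT.lf (nat_lit 0) (nat_lit 2713902032) (nat_lit 304) (nat_lit 12886610568) (nat_lit 76) (nat_lit 8063914913) (nat_lit 65) (nat_lit 5) (nat_lit 69) (nat_lit 5) (nat_lit 66) (nat_lit 5) (nat_lit 391) (nat_lit 310) (nat_lit 199))) (XT.nd (nat_lit 78) (nat_lit 152) (nat_lit 0) (XT.lf (nat_lit 0) (nat_lit 8185469795) (nat_lit 304) (nat_lit 491967860) (nat_lit 76) (nat_lit 15475561604) (nat_lit 65) (nat_lit 5) (nat_lit 69) (nat_lit 5) (nat_lit 66) (nat_lit 5) (nat_lit 392) (nat_lit 310) (nat_lit 198)) (XT.lf (nat_lit 0) (nat_lit 12492734647) (nat_lit 152) (nat_lit 1433690144)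 (nat_lit 228) (nat_lit 10726649019) (nat_lit 63) (nat_lit 5) (nat_lit 65) (nat_lit 5) (nat_lit 66) (nat_lit 5) (nat_lit 393) (nat_lit 310) (nat_lit 197))))) (XT.nd (nat_lit 234) (nat_lit 380) (nat_lit 0) (XT.nd (nat_lit 78) (nat_lit 228) (nat_lit 0) (XT.lf (nat_lit 0) (nat_lit 637873450) (nat_lit 152) (nat_lit 19256061697) (nat_lit 228) (nat_lit 5272588424) (nat_lit 61) (nat_lit 5) (nat_lit 63) (nat_lit 5) (nat_lit 64) (nat_lit 5) (nat_lit 394) (nat_lit 310) (nat_lit 196)) (XT.nd (nat_lit 78) (nat_lit 152) (nat_lit 0) (XT.lf (nat_lit 0) (nat_lit 461844366) (nat_lit 228) (nat_lit 11666804987) (nat_lit 76) (nat_lit 13562926039) (nat_lit 60) (nat_lit 5) (nat_lit 63) (nat_lit 5) (nat_lit 61) (nat_lit 5) (nat_lit 395) (nat_lit 310) (nat_lit 195)) (XT.lf (nat_lit 0) (nat_lit 1533675994) (nat_lit 152) (nat_lit 4729109838) (nat_lit 228) (nat_lit 19968015875) (nat_lit 58) (nat_lit 5) (nat_lit 60) (nat_lit 5) (nat_lit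 61) (nat_lit 5) (nat_lit 396) (nat_lit 310) (nat_lit 194)))) (XT.nd (nat_lit 156) (nat_lit 228) (nat_lit 0) (XT.nd (nat_lit 78) (nat_lit 152) (nat_lit 0) (XT.lf (nat_lit 0) (nat_lit 12370321532) (nat_lit 228) (nat_lit 11467333922) (nat_lit 76) (nat_lit 2944574844) (nat_lit 58) (nat_lit 5) (nat_lit 61) (nat_lit 5) (nat_lit 59) (nat_lit 5) (nat_lit 397) (nat_lit 310) (nat_lit 193)) (XT.lf (nat_lit 0) (nat_lit 2129794727) (nat_lit 152) (nat_lit 16584782401) (nat_lit 228) (nat_lit 8634022197) (nat_lit 56) (nat_lit 5) (nat_lit 58) (nat_lit 5) (nat_lit 59) (nat_lit 5) (nat_lit 398) (nat_lit 310) (nat_lit 192))) (XT.nd (nat_lit 78) (nat_lit 228) (nat_lit 0) (XT.lf (nat_lit 0) (nat_lit 16345850525) (nat_lit 152) (nat_lit 9005476283) (nat_lit 228) (nat_lit 2577569949) (nat_lit 56) (nat_lit 5) (nat_lit 58) (nat_lit 5) (nat_lit 59) (nat_lit 5) (nat_lit 399) (nat_lit 310) (nat_lit 191)) (XT.lf (nat_lit 0) (nat_lit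 2450797692) (nat_lit 152) (nat_lit 1148538327) (nat_lit 228) (nat_lit 24925907916) (nat_lit 53) (nat_lit 5) (nat_lit 55) (nat_lit 5) (nat_lit 56) (nat_lit 5) (nat_lit 400) (nat_lit 310) (nat_lit 190))))))))
noncomputable def xc132 : XT := (XT.nd (nat_lit 2028) (nat_lit 760) (nat_lit 0) (XT.nd (nat_lit 1014) (nat_lit 836) (nat_lit 0) (XT.nd (nat_lit 468) (nat_lit 380) (nat_lit 0) (XT.nd (nat_lit 234) (nat_lit 380) (nat_lit 0) (XT.nd (nat_lit 78) (nat_lit 152) (nat_lit 0) (XT.lf (nat_lit 0) (nat_lit 10081316862) (nat_lit 228) (nat_lit 12109996167) (nat_lit 76) (nat_lit 6942257784) (nat_lit 53) (nat_lit 5) (nat_lit 56) (nat_lit 5) (nat_lit 54) (nat_lit 5) (nat_lit 401) (nat_lit 310) (nat_lit 189)) (XT.nd (nat_lit 78) (nat_lit 0) (nat_lit 0) (XT.lf (nat_lit 0) (nat_lit 2283574508) (nat_lit 152) (nat_lit 14494591956) (nat_lit 228) (nat_lit 12981370818) (nat_lit 51) (nat_lit 5) (nat_lit 53) (nat_lit 5) (nat_lit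 54) (nat_lit 5) (nat_lit 402) (nat_lit 310) (nat_lit 188)) (XT.lf (nat_lit 0) (nat_lit 17334418865) (nat_lit 152) (nat_lit 6451033639) (nat_lit 228) (nat_lit 6615546318) (nat_lit 51) (nat_lit 5) (nat_lit 53) (nat_lit 5) (nat_lit 54) (nat_lit 5) (nat_lit 403) (nat_lit 310) (nat_lit 187)))) (XT.nd (nat_lit 78) (nat_lit 228) (nat_lit 0) (XT.lf (nat_lit 0) (nat_lit 1769594526) (nat_lit 152) (nat_lit 29255522692) (nat_lit 228) (nat_lit 35924134) (nat_lit 49) (nat_lit 5) (nat_lit 51) (nat_lit 5) (nat_lit 52) (nat_lit 4) (nat_lit 404) (nat_lit 310) (nat_lit 186)) (XT.nd (nat_lit 78) (nat_lit 152) (nat_lit 0) (XT.lf (nat_lit 0) (nat_lit 6794216839) (nat_lit 228) (nat_lit 14570621085) (nat_lit 76) (nat_lit 10368564895) (nat_lit 48) (nat_lit 5) (nat_lit 51) (nat_lit 5) (nat_lit 49) (nat_lit 5) (nat_lit 405) (nat_lit 310) (nat_lit 185)) (XT.lf (nat_lit 0) (nat_lit 581041885) (nat_lit 152) (nat_lit 13240994269) (nat_lit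 228) (nat_lit 18604085203) (nat_lit 46) (nat_lit 5) (nat_lit 48) (nat_lit 5) (nat_lit 49) (nat_lit 5) (nat_lit 406) (nat_lit 310) (nat_lit 184))))) (XT.nd (nat_lit 234) (nat_lit 228) (nat_lit 0) (XT.nd (nat_lit 78) (nat_lit 152) (nat_lit 0) (XT.lf (nat_lit 0) (nat_lit 16464381544) (nat_lit 152) (nat_lit 4731498923) (nat_lit 228) (nat_lit 11939686999) (nat_lit 46) (nat_lit 5) (nat_lit 48) (nat_lit 5) (nat_lit 49) (nat_lit 5) (nat_lit 407) (nat_lit 310) (nat_lit 183)) (XT.nd (nat_lit 78) (nat_lit 152) (nat_lit 0) (XT.lf (nat_lit 0) (nat_lit 28818024379) (nat_lit 228) (nat_lit 1102034580) (nat_lit 76) (nat_lit 3945427153) (nat_lit 46) (nat_lit 5) (nat_lit 49) (nat_lit 5) (nat_lit 47) (nat_lit 4) (nat_lit 408) (nat_lit 310) (nat_lit 182)) (XT.lf (nat_lit 0) (nat_lit 2194544010) (nat_lit 152) (nat_lit 19470730263) (nat_lit 76) (nat_lit 12945946615) (nat_lit 44) (nat_lit 5) (nat_lit 46) (nat_lit 5) (nat_lit 45)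 (nat_lit 5) (nat_lit 409) (nat_lit 310) (nat_lit 181)))) (XT.nd (nat_lit 156) (nat_lit 76) (nat_lit 0) (XT.nd (nat_lit 78) (nat_lit 152) (nat_lit 0) (XT.lf (nat_lit 0) (nat_lit 9552275884) (nat_lit 152) (nat_lit 3556793410) (nat_lit 76) (nat_lit 22268763256) (nat_lit 44) (nat_lit 5) (nat_lit 46) (nat_lit 5) (nat_lit 45) (nat_lit 5) (nat_lit 410) (nat_lit 310) (nat_lit 180)) (XT.lf (nat_lit 0) (nat_lit 13069599698) (nat_lit 152) (nat_lit 4175779187) (nat_lit 228) (nat_lit 18918625994) (nat_lit 42) (nat_lit 5) (nat_lit 44) (nat_lit 5) (nat_lit 45) (nat_lit 5) (nat_lit 411) (nat_lit 310) (nat_lit 179))) (XT.nd (nat_lit 78) (nat_lit 76) (nat_lit 0) (XT.lf (nat_lit 0) (nat_lit 25242905650) (nat_lit 228) (nat_lit 6773695611) (nat_lit 76) (nat_lit 4954953645) (nat_lit 42) (nat_lit 5) (nat_lit 45) (nat_lit 5) (nat_lit 43) (nat_lit 4) (nat_lit 412) (nat_lit 310) (nat_lit 178)) (XT.lf (nat_lit 0) (nat_lit 10174371049)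 (nat_lit 76) (nat_lit 23434502871) (nat_lit 152) (nat_lit 4190603448) (nat_lit 41) (nat_lit 5) (nat_lit 42) (nat_lit 5) (nat_lit 43) (nat_lit 4) (nat_lit 413) (nat_lit 310) (nat_lit 177)))))) (XT.nd (nat_lit 468) (nat_lit 456) (nat_lit 0) (XT.nd (nat_lit 234) (nat_lit 152) (nat_lit 0) (XT.nd (nat_lit 78) (nat_lit 152) (nat_lit 0) (XT.lf (nat_lit 0) (nat_lit 3562316665) (nat_lit 152) (nat_lit 10934960583) (nat_lit 76) (nat_lit 24152177047) (nat_lit 40) (nat_lit 5) (nat_lit 42) (nat_lit 5) (nat_lit 41) (nat_lit 5) (nat_lit 414) (nat_lit 310) (nat_lit 176)) (XT.nd (nat_lit 78) (nat_lit 0) (nat_lit 0) (XT.lf (nat_lit 0) (nat_lit 6318787872) (nat_lit 152) (nat_lit 5195246807) (nat_lit 228) (nat_lit 28008139284) (nat_lit 38) (nat_lit 5) (nat_lit 40) (nat_lit 5) (nat_lit 41) (nat_lit 5) (nat_lit 415) (nat_lit 310) (nat_lit 175)) (XT.lf (nat_lit 0) (nat_lit 19847713746) (nat_lit 228) (nat_lit 16165662539) (nat_lit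 76) (nat_lit 4403397900) (nat_lit 38) (nat_lit 5) (nat_lit 41) (nat_lit 5) (nat_lit 39) (nat_lit 4) (nat_lit 416) (nat_lit 310) (nat_lit 174)))) (XT.nd (nat_lit 78) (nat_lit 76) (nat_lit 0) (XT.lf (nat_lit 0) (nat_lit 1339492948) (nat_lit 76) (nat_lit 27146258473) (nat_lit 152) (nat_lit 12850831759) (nat_lit 37) (nat_lit 5) (nat_lit 38) (nat_lit 5) (nat_lit 39) (nat_lit 4) (nat_lit 417) (nat_lit 310) (nat_lit 173)) (XT.nd (nat_lit 78) (nat_lit 76) (nat_lit 0) (XT.lf (nat_lit 0) (nat_lit 19682963712) (nat_lit 76) (nat_lit 17853357263) (nat_lit 152) (nat_lit 4743064926) (nat_lit 37) (nat_lit 5) (nat_lit 38) (nat_lit 5) (nat_lit 39) (nat_lit 4) (nat_lit 418) (nat_lit 310) (nat_lit 172)) (XT.lf (nat_lit 0) (nat_lit 3527871462) (nat_lit 152) (nat_lit 4726298092) (nat_lit 76) (nat_lit 34995553599) (nat_lit 36) (nat_lit 5) (nat_lit 38) (nat_lit 5) (nat_lit 37) (nat_lit 5) (nat_lit 419) (nat_lit 310) (nat_lit 171)))))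 (XT.nd (nat_lit 234) (nat_lit 228) (nat_lit 0) (XT.nd (nat_lit 78) (nat_lit 76) (nat_lit 0) (XT.lf (nat_lit 0) (nat_lit 12093120288) (nat_lit 228) (nat_lit 30374862227) (nat_lit 76) (nat_lit 1775534796) (nat_lit 34) (nat_lit 5) (nat_lit 37) (nat_lit 5) (nat_lit 35) (nat_lit 4) (nat_lit 420) (nat_lit 310) (nat_lit 170)) (XT.nd (nat_lit 78) (nat_lit 76) (nat_lit 0) (XT.lf (nat_lit 0) (nat_lit 21035903377) (nat_lit 228) (nat_lit 12246943432) (nat_lit 76) (nat_lit 11980662226) (nat_lit 34) (nat_lit 5) (nat_lit 37) (nat_lit 5) (nat_lit 35) (nat_lit 4) (nat_lit 421) (nat_lit 310) (nat_lit 169)) (XT.lf (nat_lit 0) (nat_lit 6535455558) (nat_lit 76) (nat_lit 23765262892) (nat_lit 152) (nat_lit 16011770623) (nat_lit 33) (nat_lit 5) (nat_lit 34) (nat_lit 5) (nat_lit 35) (nat_lit 4) (nat_lit 422) (nat_lit 310) (nat_lit 168)))) (XT.nd (nat_lit 156) (nat_lit 152) (nat_lit 0) (XT.nd (nat_lit 78) (nat_lit 76) (nat_lit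 0) (XT.lf (nat_lit 0) (nat_lit 26115654774) (nat_lit 76) (nat_lit 13842522569) (nat_lit 152) (nat_lit 7431321174) (nat_lit 33) (nat_lit 5) (nat_lit 34) (nat_lit 5) (nat_lit 35) (nat_lit 4) (nat_lit 423) (nat_lit 310) (nat_lit 167)) (XT.lf (nat_lit 0) (nat_lit 1370298426) (nat_lit 152) (nat_lit 2245489848) (nat_lit 76) (nat_lit 44882889184) (nat_lit 32) (nat_lit 5) (nat_lit 34) (nat_lit 5) (nat_lit 33) (nat_lit 5) (nat_lit 424) (nat_lit 310) (nat_lit 166))) (XT.nd (nat_lit 78) (nat_lit 0) (nat_lit 0) (XT.lf (nat_lit 0) (nat_lit 10516151764) (nat_lit 228) (nat_lit 32095139013) (nat_lit 76) (nat_lit 7020748150) (nat_lit 30) (nat_lit 5) (nat_lit 33) (nat_lit 5) (nat_lit 31) (nat_lit 4) (nat_lit 425) (nat_lit 310) (nat_lit 165)) (XT.lf (nat_lit 0) (nat_lit 19986566313) (nat_lit 228) (nat_lit 12891914179) (nat_lit 76) (nat_lit 17919416054) (nat_lit 30) (nat_lit 5) (nat_lit 33) (nat_lit 5) (nat_lit 31) (nat_lit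 4) (nat_lit 426) (nat_lit 310) (nat_lit 164))))))) (XT.nd (nat_lit 1014) (nat_lit 228) (nat_lit 0) (XT.nd (nat_lit 468) (nat_lit 228) (nat_lit 0) (XT.nd (nat_lit 234) (nat_lit 228) (nat_lit 0) (XT.nd (nat_lit 78) (nat_lit 0) (nat_lit 0) (XT.lf (nat_lit 0) (nat_lit 7008676273) (nat_lit 76) (nat_lit 22791522861) (nat_lit 152) (nat_lit 22196758436) (nat_lit 29) (nat_lit 5) (nat_lit 30) (nat_lit 5) (nat_lit 31) (nat_lit 4) (nat_lit 427) (nat_lit 310) (nat_lit 163)) (XT.nd (nat_lit 78) (nat_lit 0) (nat_lit 0) (XT.lf (nat_lit 0) (nat_lit 27755212316) (nat_lit 76) (nat_lit 12275039093) (nat_lit 152) (nat_lit 13198079529) (nat_lit 29) (nat_lit 5) (nat_lit 30) (nat_lit 5) (nat_lit 31) (nat_lit 4) (nat_lit 428) (nat_lit 310) (nat_lit 162)) (XT.lf (nat_lit 0) (nat_lit 49109247619) (nat_lit 76) (nat_lit 1450023081) (nat_lit 152) (nat_lit 3937613645) (nat_lit 29) (nat_lit 5) (nat_lit 30) (nat_lit 5) (nat_lit 31) (nat_lit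 4) (nat_lit 429) (nat_lit 310) (nat_lit 161)))) (XT.nd (nat_lit 78) (nat_lit 76) (nat_lit 0) (XT.lf (nat_lit 0) (nat_lit 5728115164) (nat_lit 152) (nat_lit 40357719333) (nat_lit 76) (nat_lit 9708943358) (nat_lit 27) (nat_lit 5) (nat_lit 29) (nat_lit 5) (nat_lit 28) (nat_lit 4) (nat_lit 430) (nat_lit 310) (nat_lit 160)) (XT.nd (nat_lit 78) (nat_lit 76) (nat_lit 0) (XT.lf (nat_lit 0) (nat_lit 15666215386) (nat_lit 152) (nat_lit 20201563277) (nat_lit 76) (nat_lit 21260814402) (nat_lit 27) (nat_lit 5) (nat_lit 29) (nat_lit 5) (nat_lit 28) (nat_lit 4) (nat_lit 431) (nat_lit 310) (nat_lit 159)) (XT.lf (nat_lit 0) (nat_lit 555910175) (nat_lit 76) (nat_lit 25344359948) (nat_lit 152) (nat_lit 32602218977) (nat_lit 26) (nat_lit 5) (nat_lit 27) (nat_lit 5) (nat_lit 28) (nat_lit 4) (nat_lit 432) (nat_lit 310) (nat_lit 158))))) (XT.nd (nat_lit 234) (nat_lit 152) (nat_lit 0) (XT.nd (nat_lit 78) (nat_lit 76) (nat_lit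 0) (XT.lf (nat_lit 0) (nat_lit 22336144343) (nat_lit 76) (nat_lit 14301750180) (nat_lit 152) (nat_lit 23273811743) (nat_lit 26) (nat_lit 5) (nat_lit 27) (nat_lit 5) (nat_lit 28) (nat_lit 4) (nat_lit 433) (nat_lit 310) (nat_lit 157)) (XT.nd (nat_lit 78) (nat_lit 76) (nat_lit 0) (XT.lf (nat_lit 0) (nat_lit 44756119780) (nat_lit 76) (nat_lit 2934296655) (nat_lit 152) (nat_lit 13673001122) (nat_lit 26) (nat_lit 5) (nat_lit 27) (nat_lit 5) (nat_lit 28) (nat_lit 4) (nat_lit 434) (nat_lit 310) (nat_lit 156)) (XT.lf (nat_lit 0) (nat_lit 4989617976) (nat_lit 76) (nat_lit 54210121423) (nat_lit 76) (nat_lit 3655184677) (nat_lit 25) (nat_lit 4) (nat_lit 26) (nat_lit 5) (nat_lit 26) (nat_lit 4) (nat_lit 435) (nat_lit 310) (nat_lit 155)))) (XT.nd (nat_lit 156) (nat_lit 76) (nat_lit 0) (XT.nd (nat_lit 78) (nat_lit 0) (nat_lit 0) (XT.lf (nat_lit 0) (nat_lit 6724485784) (nat_lit 152) (nat_lit 36919462260) (nat_lit 76) (nat_lit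 20739566591) (nat_lit 24) (nat_lit 5) (nat_lit 26) (nat_lit 5) (nat_lit 25) (nat_lit 4) (nat_lit 436) (nat_lit 310) (nat_lit 154)) (XT.lf (nat_lit 0) (nat_lit 17335214653) (nat_lit 152) (nat_lit 15394470673) (nat_lit 76) (nat_lit 33227398467) (nat_lit 24) (nat_lit 5) (nat_lit 26) (nat_lit 5) (nat_lit 25) (nat_lit 4) (nat_lit 437) (nat_lit 310) (nat_lit 153))) (XT.nd (nat_lit 78) (nat_lit 0) (nat_lit 0) (XT.lf (nat_lit 0) (nat_lit 6898221932) (nat_lit 76) (nat_lit 21425687254) (nat_lit 152) (nat_lit 39252162105) (nat_lit 23) (nat_lit 5) (nat_lit 24) (nat_lit 5) (nat_lit 25) (nat_lit 4) (nat_lit 438) (nat_lit 310) (nat_lit 152)) (XT.lf (nat_lit 0) (nat_lit 30162733086) (nat_lit 76) (nat_lit 9628392986) (nat_lit 152) (nat_lit 29448037059) (nat_lit 23) (nat_lit 5) (nat_lit 24) (nat_lit 5) (nat_lit 25) (nat_lit 4) (nat_lit 439) (nat_lit 310) (nat_lit 151)))))) (XT.nd (nat_lit 36894) (nat_lit 0) (nat_lit 22800)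 (XT.nd (nat_lit 234) (nat_lit 76) (nat_lit 0) (XT.nd (nat_lit 78) (nat_lit 152) (nat_lit 0) (XT.lf (nat_lit 0) (nat_lit 51620154466) (nat_lit 152) (nat_lit 16863524880) (nat_lit 0) (nat_lit 2467935076) (nat_lit 23) (nat_lit 5) (nat_lit 25) (nat_lit 4) (nat_lit 23) (nat_lit 4) (nat_lit 440) (nat_lit 310) (nat_lit 150)) (XT.nd (nat_lit 78) (nat_lit 76) (nat_lit 0) (XT.lf (nat_lit 0) (nat_lit 6026079926) (nat_lit 76) (nat_lit 57924962923) (nat_lit 76) (nat_lit 8759987260) (nat_lit 22) (nat_lit 4) (nat_lit 23) (nat_lit 5) (nat_lit 23) (nat_lit 4) (nat_lit 441) (nat_lit 310) (nat_lit 149)) (XT.lf (nat_lit 0) (nat_lit 2252806051) (nat_lit 152) (nat_lit 44604164108) (nat_lit 76) (nat_lit 27660673345) (nat_lit 21) (nat_lit 5) (nat_lit 23) (nat_lit 5) (nat_lit 22) (nat_lit 4) (nat_lit 442) (nat_lit 310) (nat_lit 148)))) (XT.nd (nat_lit 156) (nat_lit 0) (nat_lit 0) (XT.nd (nat_lit 78) (nat_lit 76) (nat_lit 0) (XT.lf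 (nat_lit 0) (nat_lit 13413837554) (nat_lit 152) (nat_lit 21959294168) (nat_lit 76) (nat_lit 41002904445) (nat_lit 21) (nat_lit 5) (nat_lit 23) (nat_lit 5) (nat_lit 22) (nat_lit 4) (nat_lit 443) (nat_lit 310) (nat_lit 147)) (XT.lf (nat_lit 0) (nat_lit 1380593114) (nat_lit 76) (nat_lit 23536476499) (nat_lit 152) (nat_lit 53372890380) (nat_lit 20) (nat_lit 5) (nat_lit 21) (nat_lit 5) (nat_lit 22) (nat_lit 4) (nat_lit 444) (nat_lit 310) (nat_lit 146))) (XT.nd (nat_lit 36426) (nat_lit 0) (nat_lit 23560) (XT.lf (nat_lit 0) (nat_lit 25859662400) (nat_lit 76) (nat_lit 11121645178) (nat_lit 152) (nat_lit 43273517144) (nat_lit 20) (nat_lit 5) (nat_lit 21) (nat_lit 5) (nat_lit 22) (nat_lit 4) (nat_lit 445) (nat_lit 310) (nat_lit 145)) (XT.lf (nat_lit 0) (nat_lit 260936304) (nat_lit 0) (nat_lit 260936304) (nat_lit 684) (nat_lit 2958270263) (nat_lit 330) (nat_lit 5) (nat_lit 330) (nat_lit 3) (nat_lit 339) (nat_lit 3)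 (nat_lit 311) (nat_lit 311) (nat_lit 278))))) (XT.nd (nat_lit 234) (nat_lit 760) (nat_lit 0) (XT.nd (nat_lit 78) (nat_lit 0) (nat_lit 0) (XT.lf (nat_lit 0) (nat_lit 2893627886) (nat_lit 684) (nat_lit 3077844384) (nat_lit 760) (nat_lit 1036902644) (nat_lit 330) (nat_lit 5) (nat_lit 339) (nat_lit 3) (nat_lit 340) (nat_lit 5) (nat_lit 312) (nat_lit 311) (nat_lit 277)) (XT.nd (nat_lit 78) (nat_lit 0) (nat_lit 0) (XT.lf (nat_lit 76) (nat_lit 347023995) (nat_lit 0) (nat_lit 4389640063) (nat_lit 760) (nat_lit 2323163271) (nat_lit 331) (nat_lit 5) (nat_lit 330) (nat_lit 5) (nat_lit 340) (nat_lit 5) (nat_lit 313) (nat_lit 311) (nat_lit 276)) (XT.lf (nat_lit 76) (nat_lit 3899982899) (nat_lit 0) (nat_lit 2696943381) (nat_lit 760) (nat_lit 517087804) (nat_lit 331) (nat_lit 5) (nat_lit 330) (nat_lit 5) (nat_lit 340) (nat_lit 5) (nat_lit 314) (nat_lit 311) (nat_lit 275)))) (XT.nd (nat_lit 156) (nat_lit 0) (nat_lit 76)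 (XT.nd (nat_lit 78) (nat_lit 0) (nat_lit 76) (XT.lf (nat_lit 76) (nat_lit 345489435) (nat_lit 0) (nat_lit 906949039) (nat_lit 836) (nat_lit 5918982279) (nat_lit 321) (nat_lit 5) (nat_lit 320) (nat_lit 5) (nat_lit 331) (nat_lit 5) (nat_lit 315) (nat_lit 311) (nat_lit 274)) (XT.lf (nat_lit 0) (nat_lit 3040484853) (nat_lit 760) (nat_lit 3206319494) (nat_lit 836) (nat_lit 984361540) (nat_lit 321) (nat_lit 5) (nat_lit 331) (nat_lit 5) (nat_lit 332) (nat_lit 5) (nat_lit 316) (nat_lit 311) (nat_lit 273))) (XT.nd (nat_lit 78) (nat_lit 0) (nat_lit 0) (XT.lf (nat_lit 76) (nat_lit 483522563) (nat_lit 0) (nat_lit 4348244603) (nat_lit 836) (nat_lit 2462491745) (nat_lit 322) (nat_lit 5) (nat_lit 321) (nat_lit 5) (nat_lit 332) (nat_lit 5) (nat_lit 317) (nat_lit 311) (nat_lit 272)) (XT.lf (nat_lit 76) (nat_lit 4311353121) (nat_lit 0) (nat_lit 2335274901) (nat_lit 836) (nat_lit 713563609) (nat_lit 322) (nat_lit 5) (nat_lit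 321) (nat_lit 5) (nat_lit 332) (nat_lit 5) (nat_lit 318) (nat_lit 311) (nat_lit 271))))))))
noncomputable def xc133 : XT := (XT.nd (nat_lit 2106) (nat_lit 6232) (nat_lit 0) (XT.nd (nat_lit 1014) (nat_lit 5928) (nat_lit 0) (XT.nd (nat_lit 468) (nat_lit 2964) (nat_lit 0) (XT.nd (nat_lit 234) (nat_lit 760) (nat_lit 0) (XT.nd (nat_lit 78) (nat_lit 0) (nat_lit 76) (XT.lf (nat_lit 76) (nat_lit 792346304) (nat_lit 0) (nat_lit 220517834) (nat_lit 912) (nat_lit 6416576399) (nat_lit 311) (nat_lit 5) (nat_lit 310) (nat_lit 5) (nat_lit 322) (nat_lit 5) (nat_lit 319) (nat_lit 311) (nat_lit 270)) (XT.nd (nat_lit 78) (nat_lit 0) (nat_lit 0) (XT.lf (nat_lit 0) (nat_lit 2766925053) (nat_lit 836) (nat_lit 2755008710) (nat_lit 912) (nat_lit 1978954267) (nat_lit 311) (nat_lit 5) (nat_lit 322) (nat_lit 5) (nat_lit 323) (nat_lit 5) (nat_lit 320) (nat_lit 311) (nat_lit 269)) (XT.lf (nat_lit 76) (nat_lit 1226213949) (nat_lit 0)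 (nat_lit 3303375671) (nat_lit 912) (nat_lit 3046247284) (nat_lit 312) (nat_lit 5) (nat_lit 311) (nat_lit 5) (nat_lit 323) (nat_lit 5) (nat_lit 321) (nat_lit 311) (nat_lit 268)))) (XT.nd (nat_lit 78) (nat_lit 836) (nat_lit 0) (XT.lf (nat_lit 76) (nat_lit 5344661368) (nat_lit 0) (nat_lit 971621412) (nat_lit 912) (nat_lit 1337653328) (nat_lit 312) (nat_lit 5) (nat_lit 311) (nat_lit 5) (nat_lit 323) (nat_lit 5) (nat_lit 322) (nat_lit 311) (nat_lit 267)) (XT.nd (nat_lit 78) (nat_lit 0) (nat_lit 0) (XT.lf (nat_lit 0) (nat_lit 390225162) (nat_lit 912) (nat_lit 5904014009) (nat_lit 988) (nat_lit 1440763641) (nat_lit 300) (nat_lit 5) (nat_lit 312) (nat_lit 5) (nat_lit 313) (nat_lit 5) (nat_lit 323) (nat_lit 311) (nat_lit 266)) (XT.lf (nat_lit 0) (nat_lit 2122029426) (nat_lit 912) (nat_lit 1738238061) (nat_lit 988) (nat_lit 3958500702) (nat_lit 300) (nat_lit 5) (nat_lit 312) (nat_lit 5) (nat_lit 313) (nat_lit 5)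 (nat_lit 324) (nat_lit 311) (nat_lit 265))))) (XT.nd (nat_lit 234) (nat_lit 2128) (nat_lit 0) (XT.nd (nat_lit 78) (nat_lit 836) (nat_lit 0) (XT.lf (nat_lit 76) (nat_lit 2563565412) (nat_lit 0) (nat_lit 1314248344) (nat_lit 988) (nat_lit 4028104265) (nat_lit 301) (nat_lit 5) (nat_lit 300) (nat_lit 5) (nat_lit 313) (nat_lit 5) (nat_lit 325) (nat_lit 311) (nat_lit 264)) (XT.nd (nat_lit 78) (nat_lit 912) (nat_lit 0) (XT.lf (nat_lit 0) (nat_lit 5665241611) (nat_lit 912) (nat_lit 1018135893) (nat_lit 76) (nat_lit 1312967077) (nat_lit 301) (nat_lit 5) (nat_lit 313) (nat_lit 5) (nat_lit 302) (nat_lit 5) (nat_lit 326) (nat_lit 311) (nat_lit 263)) (XT.lf (nat_lit 0) (nat_lit 3451023509) (nat_lit 912) (nat_lit 4051618243) (nat_lit 988) (nat_lit 586982122) (nat_lit 289) (nat_lit 5) (nat_lit 301) (nat_lit 5) (nat_lit 302) (nat_lit 5) (nat_lit 327) (nat_lit 311) (nat_lit 262)))) (XT.nd (nat_lit 156) (nat_lit 1064) (nat_lit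 0) (XT.nd (nat_lit 78) (nat_lit 988) (nat_lit 0) (XT.lf (nat_lit 0) (nat_lit 1146975644) (nat_lit 988) (nat_lit 161731623) (nat_lit 76) (nat_lit 6877840741) (nat_lit 288) (nat_lit 5) (nat_lit 301) (nat_lit 5) (nat_lit 289) (nat_lit 5) (nat_lit 328) (nat_lit 311) (nat_lit 261)) (XT.lf (nat_lit 0) (nat_lit 2931658957) (nat_lit 1064) (nat_lit 3808805324) (nat_lit 76) (nat_lit 1545453936) (nat_lit 275) (nat_lit 5) (nat_lit 289) (nat_lit 5) (nat_lit 276) (nat_lit 5) (nat_lit 329) (nat_lit 311) (nat_lit 260))) (XT.nd (nat_lit 78) (nat_lit 0) (nat_lit 0) (XT.lf (nat_lit 0) (nat_lit 833796885) (nat_lit 1064) (nat_lit 3911982680) (nat_lit 1140) (nat_lit 3643240093) (nat_lit 261) (nat_lit 5) (nat_lit 275) (nat_lit 5) (nat_lit 276) (nat_lit 5) (nat_lit 330) (nat_lit 311) (nat_lit 259)) (XT.lf (nat_lit 0) (nat_lit 5654425947) (nat_lit 1064) (nat_lit 952617177) (nat_lit 1140) (nat_lit 1888415676) (nat_lit 261) (nat_lit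 5) (nat_lit 275) (nat_lit 5) (nat_lit 276) (nat_lit 5) (nat_lit 331) (nat_lit 311) (nat_lit 258)))))) (XT.nd (nat_lit 546) (nat_lit 2204) (nat_lit 0) (XT.nd (nat_lit 234) (nat_lit 1292) (nat_lit 0) (XT.nd (nat_lit 78) (nat_lit 1292) (nat_lit 0) (XT.lf (nat_lit 0) (nat_lit 1993744238) (nat_lit 1140) (nat_lit 6525358976) (nat_lit 1216) (nat_lit 86164621) (nat_lit 246) (nat_lit 5) (nat_lit 261) (nat_lit 5) (nat_lit 262) (nat_lit 5) (nat_lit 332) (nat_lit 311) (nat_lit 257)) (XT.nd (nat_lit 78) (nat_lit 1216) (nat_lit 0) (XT.lf (nat_lit 0) (nat_lit 1730127186) (nat_lit 1216) (nat_lit 1752548558) (nat_lit 76) (nat_lit 5235373477) (nat_lit 245) (nat_lit 5) (nat_lit 261) (nat_lit 5) (nat_lit 246) (nat_lit 5) (nat_lit 333) (nat_lit 311) (nat_lit 256)) (XT.lf (nat_lit 0) (nat_lit 3276334531) (nat_lit 1216) (nat_lit 311724399) (nat_lit 1292) (nat_lit 5246486350) (nat_lit 229) (nat_lit 5) (nat_lit 245) (nat_lit 5)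 (nat_lit 246) (nat_lit 5) (nat_lit 334) (nat_lit 311) (nat_lit 255)))) (XT.nd (nat_lit 156) (nat_lit 684) (nat_lit 0) (XT.nd (nat_lit 78) (nat_lit 608) (nat_lit 0) (XT.lf (nat_lit 0) (nat_lit 5506290122) (nat_lit 1292) (nat_lit 530434789) (nat_lit 76) (nat_lit 2917697100) (nat_lit 229) (nat_lit 5) (nat_lit 246) (nat_lit 5) (nat_lit 230) (nat_lit 5) (nat_lit 335) (nat_lit 311) (nat_lit 254)) (XT.lf (nat_lit 0) (nat_lit 4698060428) (nat_lit 608) (nat_lit 2791759588) (nat_lit 684) (nat_lit 1587864452) (nat_lit 221) (nat_lit 5) (nat_lit 229) (nat_lit 5) (nat_lit 230) (nat_lit 5) (nat_lit 336) (nat_lit 311) (nat_lit 253))) (XT.nd (nat_lit 78) (nat_lit 0) (nat_lit 0) (XT.lf (nat_lit 0) (nat_lit 300894640) (nat_lit 684) (nat_lit 8346516113) (nat_lit 76) (nat_lit 557787464) (nat_lit 212) (nat_lit 5) (nat_lit 221) (nat_lit 5) (nat_lit 213) (nat_lit 5) (nat_lit 337) (nat_lit 311) (nat_lit 252)) (XT.lf (nat_lit 0)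 (nat_lit 2247409227) (nat_lit 684) (nat_lit 3075059346) (nat_lit 76) (nat_lit 4012627056) (nat_lit 212) (nat_lit 5) (nat_lit 221) (nat_lit 5) (nat_lit 213) (nat_lit 5) (nat_lit 338) (nat_lit 311) (nat_lit 251))))) (XT.nd (nat_lit 234) (nat_lit 1064) (nat_lit 0) (XT.nd (nat_lit 78) (nat_lit 532) (nat_lit 0) (XT.lf (nat_lit 0) (nat_lit 2361829230) (nat_lit 608) (nat_lit 1875040503) (nat_lit 684) (nat_lit 5232503242) (nat_lit 204) (nat_lit 5) (nat_lit 212) (nat_lit 5) (nat_lit 213) (nat_lit 5) (nat_lit 339) (nat_lit 311) (nat_lit 250)) (XT.nd (nat_lit 78) (nat_lit 532) (nat_lit 0) (XT.lf (nat_lit 0) (nat_lit 6296061867) (nat_lit 684) (nat_lit 1637854163) (nat_lit 76) (nat_lit 1673480134) (nat_lit 204) (nat_lit 5) (nat_lit 213) (nat_lit 5) (nat_lit 205) (nat_lit 5) (nat_lit 340) (nat_lit 311) (nat_lit 249)) (XT.lf (nat_lit 0) (nat_lit 4017355502) (nat_lit 532) (nat_lit 4420525599) (nat_lit 608) (nat_lit 1311071812)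 (nat_lit 197) (nat_lit 5) (nat_lit 204) (nat_lit 5) (nat_lit 205) (nat_lit 5) (nat_lit 341) (nat_lit 311) (nat_lit 248)))) (XT.nd (nat_lit 156) (nat_lit 456) (nat_lit 0) (XT.nd (nat_lit 78) (nat_lit 532) (nat_lit 0) (XT.lf (nat_lit 0) (nat_lit 715273465) (nat_lit 608) (nat_lit 64586284) (nat_lit 76) (nat_lit 9115277077) (nat_lit 196) (nat_lit 5) (nat_lit 204) (nat_lit 5) (nat_lit 197) (nat_lit 5) (nat_lit 342) (nat_lit 311) (nat_lit 247)) (XT.lf (nat_lit 0) (nat_lit 2826402587) (nat_lit 608) (nat_lit 4238205346) (nat_lit 76) (nat_lit 2979215396) (nat_lit 189) (nat_lit 5) (nat_lit 197) (nat_lit 5) (nat_lit 190) (nat_lit 5) (nat_lit 343) (nat_lit 311) (nat_lit 246))) (XT.nd (nat_lit 78) (nat_lit 0) (nat_lit 0) (XT.lf (nat_lit 0) (nat_lit 1642346108) (nat_lit 456) (nat_lit 3348358786) (nat_lit 532) (nat_lit 5206586707) (nat_lit 183) (nat_lit 5) (nat_lit 189) (nat_lit 5) (nat_lit 190) (nat_lit 5) (nat_lit 344)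 (nat_lit 311) (nat_lit 245)) (XT.lf (nat_lit 0) (nat_lit 7234032759) (nat_lit 532) (nat_lit 2611805205) (nat_lit 76) (nat_lit 509118937) (nat_lit 183) (nat_lit 5) (nat_lit 190) (nat_lit 5) (nat_lit 184) (nat_lit 5) (nat_lit 345) (nat_lit 311) (nat_lit 244))))))) (XT.nd (nat_lit 1014) (nat_lit 2660) (nat_lit 0) (XT.nd (nat_lit 468) (nat_lit 1672) (nat_lit 0) (XT.nd (nat_lit 234) (nat_lit 836) (nat_lit 0) (XT.nd (nat_lit 78) (nat_lit 532) (nat_lit 0) (XT.lf (nat_lit 0) (nat_lit 3507160616) (nat_lit 532) (nat_lit 6071614508) (nat_lit 608) (nat_lit 937569011) (nat_lit 176) (nat_lit 5) (nat_lit 183) (nat_lit 5) (nat_lit 184) (nat_lit 5) (nat_lit 346) (nat_lit 311) (nat_lit 243)) (XT.nd (nat_lit 78) (nat_lit 456) (nat_lit 0) (XT.lf (nat_lit 0) (nat_lit 1279845202) (nat_lit 608) (nat_lit 869457852) (nat_lit 76) (nat_lit 8533081923) (nat_lit 175) (nat_lit 5) (nat_lit 183) (nat_lit 5) (nat_lit 176) (nat_lit 5) (nat_lit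 347) (nat_lit 311) (nat_lit 242)) (XT.lf (nat_lit 0) (nat_lit 3585156365) (nat_lit 532) (nat_lit 5355363183) (nat_lit 76) (nat_lit 1911416554) (nat_lit 169) (nat_lit 5) (nat_lit 176) (nat_lit 5) (nat_lit 170) (nat_lit 5) (nat_lit 348) (nat_lit 311) (nat_lit 241)))) (XT.nd (nat_lit 78) (nat_lit 380) (nat_lit 0) (XT.lf (nat_lit 0) (nat_lit 1005894925) (nat_lit 456) (nat_lit 4962518900) (nat_lit 532) (nat_lit 5057910022) (nat_lit 163) (nat_lit 5) (nat_lit 169) (nat_lit 5) (nat_lit 170) (nat_lit 5) (nat_lit 349) (nat_lit 311) (nat_lit 240)) (XT.nd (nat_lit 78) (nat_lit 380) (nat_lit 0) (XT.lf (nat_lit 0) (nat_lit 7630673932) (nat_lit 456) (nat_lit 816091624) (nat_lit 532) (nat_lit 2758483067) (nat_lit 163) (nat_lit 5) (nat_lit 169) (nat_lit 5) (nat_lit 170) (nat_lit 5) (nat_lit 350) (nat_lit 311) (nat_lit 239)) (XT.lf (nat_lit 0) (nat_lit 3054189371) (nat_lit 380) (nat_lit 7978190147) (nat_lit 456) (nat_lit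 356187183) (nat_lit 158) (nat_lit 5) (nat_lit 163) (nat_lit 5) (nat_lit 164) (nat_lit 5) (nat_lit 351) (nat_lit 311) (nat_lit 238))))) (XT.nd (nat_lit 234) (nat_lit 760) (nat_lit 0) (XT.nd (nat_lit 78) (nat_lit 836) (nat_lit 0) (XT.lf (nat_lit 0) (nat_lit 2091934114) (nat_lit 456) (nat_lit 1687100425) (nat_lit 76) (nat_lit 7797298418) (nat_lit 157) (nat_lit 5) (nat_lit 163) (nat_lit 5) (nat_lit 158) (nat_lit 5) (nat_lit 352) (nat_lit 311) (nat_lit 237)) (XT.nd (nat_lit 78) (nat_lit 380) (nat_lit 0) (XT.lf (nat_lit 0) (nat_lit 4633660321) (nat_lit 532) (nat_lit 6552744057) (nat_lit 76) (nat_lit 582414231) (nat_lit 151) (nat_lit 5) (nat_lit 158) (nat_lit 5) (nat_lit 152) (nat_lit 5) (nat_lit 353) (nat_lit 311) (nat_lit 236)) (XT.lf (nat_lit 0) (nat_lit 326711227) (nat_lit 380) (nat_lit 6954519751) (nat_lit 456) (nat_lit 4684971540) (nat_lit 146) (nat_lit 5) (nat_lit 151) (nat_lit 5) (nat_lit 152) (nat_lit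 5) (nat_lit 354) (nat_lit 311) (nat_lit 235)))) (XT.nd (nat_lit 156) (nat_lit 304) (nat_lit 0) (XT.nd (nat_lit 78) (nat_lit 456) (nat_lit 0) (XT.lf (nat_lit 0) (nat_lit 7510792084) (nat_lit 380) (nat_lit 2535910998) (nat_lit 456) (nat_lit 2121661769) (nat_lit 146) (nat_lit 5) (nat_lit 151) (nat_lit 5) (nat_lit 152) (nat_lit 5) (nat_lit 355) (nat_lit 311) (nat_lit 234)) (XT.lf (nat_lit 0) (nat_lit 525288683) (nat_lit 456) (nat_lit 9853261113) (nat_lit 76) (nat_lit 1997397413) (nat_lit 140) (nat_lit 5) (nat_lit 146) (nat_lit 5) (nat_lit 141) (nat_lit 5) (nat_lit 356) (nat_lit 311) (nat_lit 233))) (XT.nd (nat_lit 78) (nat_lit 304) (nat_lit 0) (XT.lf (nat_lit 0) (nat_lit 3254815328) (nat_lit 456) (nat_lit 2657061836) (nat_lit 76) (nat_lit 6675885536) (nat_lit 140) (nat_lit 5) (nat_lit 146) (nat_lit 5) (nat_lit 141) (nat_lit 5) (nat_lit 357) (nat_lit 311) (nat_lit 232)) (XT.lf (nat_lit 0) (nat_lit 4814046371)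 (nat_lit 304) (nat_lit 1272442329) (nat_lit 380) (nat_lit 6718846022) (nat_lit 136) (nat_lit 5) (nat_lit 140) (nat_lit 5) (nat_lit 141) (nat_lit 5) (nat_lit 358) (nat_lit 311) (nat_lit 231)))))) (XT.nd (nat_lit 546) (nat_lit 1216) (nat_lit 0) (XT.nd (nat_lit 234) (nat_lit 684) (nat_lit 0) (XT.nd (nat_lit 78) (nat_lit 760) (nat_lit 0) (XT.lf (nat_lit 0) (nat_lit 9038236910) (nat_lit 380) (nat_lit 534108171) (nat_lit 76) (nat_lit 3456044691) (nat_lit 136) (nat_lit 5) (nat_lit 141) (nat_lit 5) (nat_lit 137) (nat_lit 5) (nat_lit 359) (nat_lit 311) (nat_lit 230)) (XT.nd (nat_lit 78) (nat_lit 380) (nat_lit 0) (XT.lf (nat_lit 0) (nat_lit 7241254032) (nat_lit 380) (nat_lit 4894561531) (nat_lit 456) (nat_lit 1120611894) (nat_lit 131) (nat_lit 5) (nat_lit 136) (nat_lit 5) (nat_lit 137) (nat_lit 5) (nat_lit 360) (nat_lit 311) (nat_lit 229)) (XT.lf (nat_lit 0) (nat_lit 1751767759) (nat_lit 304) (nat_lit 44946329) (nat_lit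 380) (nat_lit 11694146602) (nat_lit 126) (nat_lit 5) (nat_lit 130) (nat_lit 5) (nat_lit 131) (nat_lit 5) (nat_lit 361) (nat_lit 311) (nat_lit 228)))) (XT.nd (nat_lit 156) (nat_lit 380) (nat_lit 0) (XT.nd (nat_lit 78) (nat_lit 304) (nat_lit 0) (XT.lf (nat_lit 0) (nat_lit 4863485284) (nat_lit 380) (nat_lit 3949476744) (nat_lit 76) (nat_lit 4916507111) (nat_lit 126) (nat_lit 5) (nat_lit 131) (nat_lit 5) (nat_lit 127) (nat_lit 5) (nat_lit 362) (nat_lit 311) (nat_lit 227)) (XT.lf (nat_lit 0) (nat_lit 4120077656) (nat_lit 304) (nat_lit 3918466460) (nat_lit 380) (nat_lit 5936211475) (nat_lit 122) (nat_lit 5) (nat_lit 126) (nat_lit 5) (nat_lit 127) (nat_lit 5) (nat_lit 363) (nat_lit 311) (nat_lit 226))) (XT.nd (nat_lit 78) (nat_lit 380) (nat_lit 0) (XT.lf (nat_lit 0) (nat_lit 11336435469) (nat_lit 380) (nat_lit 1758699948) (nat_lit 76) (nat_lit 1131445842) (nat_lit 122) (nat_lit 5) (nat_lit 127) (nat_lit 5) (nat_lit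 123) (nat_lit 5) (nat_lit 364) (nat_lit 311) (nat_lit 225)) (XT.lf (nat_lit 0) (nat_lit 323057154) (nat_lit 380) (nat_lit 7848849326) (nat_lit 76) (nat_lit 6311574052) (nat_lit 117) (nat_lit 5) (nat_lit 122) (nat_lit 5) (nat_lit 118) (nat_lit 5) (nat_lit 365) (nat_lit 311) (nat_lit 224))))) (XT.nd (nat_lit 234) (nat_lit 608) (nat_lit 0) (XT.nd (nat_lit 78) (nat_lit 304) (nat_lit 0) (XT.lf (nat_lit 0) (nat_lit 516414091) (nat_lit 304) (nat_lit 3058367198) (nat_lit 380) (nat_lit 11172447971) (nat_lit 113) (nat_lit 5) (nat_lit 117) (nat_lit 5) (nat_lit 118) (nat_lit 5) (nat_lit 366) (nat_lit 311) (nat_lit 223)) (XT.nd (nat_lit 78) (nat_lit 304) (nat_lit 0) (XT.lf (nat_lit 0) (nat_lit 7002889658) (nat_lit 380) (nat_lit 5778382210) (nat_lit 76) (nat_lit 2235260754) (nat_lit 113) (nat_lit 5) (nat_lit 118) (nat_lit 5) (nat_lit 114) (nat_lit 5) (nat_lit 367) (nat_lit 311) (nat_lit 222)) (XT.lf (nat_lit 0) (nat_lit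 2921949279) (nat_lit 304) (nat_lit 7648473611) (nat_lit 380) (nat_lit 4722401686) (nat_lit 109) (nat_lit 5) (nat_lit 113) (nat_lit 5) (nat_lit 114) (nat_lit 5) (nat_lit 368) (nat_lit 311) (nat_lit 221)))) (XT.nd (nat_lit 156) (nat_lit 228) (nat_lit 0) (XT.nd (nat_lit 78) (nat_lit 380) (nat_lit 0) (XT.lf (nat_lit 0) (nat_lit 11969648295) (nat_lit 304) (nat_lit 2312223407) (nat_lit 380) (nat_lit 1294433637) (nat_lit 109) (nat_lit 5) (nat_lit 113) (nat_lit 5) (nat_lit 114) (nat_lit 5) (nat_lit 369) (nat_lit 311) (nat_lit 220)) (XT.lf (nat_lit 0) (nat_lit 2255547227) (nat_lit 380) (nat_lit 10423716789) (nat_lit 76) (nat_lit 3186503531) (nat_lit 104) (nat_lit 5) (nat_lit 109) (nat_lit 5) (nat_lit 105) (nat_lit 5) (nat_lit 370) (nat_lit 311) (nat_lit 219))) (XT.nd (nat_lit 78) (nat_lit 228) (nat_lit 0) (XT.lf (nat_lit 0) (nat_lit 5924847486) (nat_lit 380) (nat_lit 1394539734) (nat_lit 76) (nat_lit 8842982979)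 (nat_lit 104) (nat_lit 5) (nat_lit 109) (nat_lit 5) (nat_lit 105) (nat_lit 5) (nat_lit 371) (nat_lit 311) (nat_lit 218)) (XT.lf (nat_lit 0) (nat_lit 8031358239) (nat_lit 228) (nat_lit 1729840494) (nat_lit 304) (nat_lit 6704969021) (nat_lit 101) (nat_lit 5) (nat_lit 104) (nat_lit 5) (nat_lit 105) (nat_lit 5) (nat_lit 372) (nat_lit 311) (nat_lit 217))))))))
noncomputable def xc134 : XT := (XT.nd (nat_lit 2106) (nat_lit 1976) (nat_lit 0) (XT.nd (nat_lit 1014) (nat_lit 1596) (nat_lit 0) (XT.nd (nat_lit 468) (nat_lit 988) (nat_lit 0) (XT.nd (nat_lit 234) (nat_lit 228) (nat_lit 0) (XT.nd (nat_lit 78) (nat_lit 304) (nat_lit 0) (XT.lf (nat_lit 0) (nat_lit 938346372) (nat_lit 304) (nat_lit 12816212164) (nat_lit 380) (nat_lit 3023268972) (nat_lit 97) (nat_lit 5) (nat_lit 101) (nat_lit 5) (nat_lit 102) (nat_lit 5) (nat_lit 373) (nat_lit 311) (nat_lit 216)) (XT.nd (nat_lit 78) (nat_lit 228) (nat_lit 0) (XT.lf (nat_lit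 0) (nat_lit 837073422) (nat_lit 380) (nat_lit 6387212872) (nat_lit 76) (nat_lit 9871838660) (nat_lit 96) (nat_lit 5) (nat_lit 101) (nat_lit 5) (nat_lit 97) (nat_lit 5) (nat_lit 374) (nat_lit 311) (nat_lit 215)) (XT.lf (nat_lit 0) (nat_lit 3353872216) (nat_lit 228) (nat_lit 1411459230) (nat_lit 304) (nat_lit 12657361092) (nat_lit 93) (nat_lit 5) (nat_lit 96) (nat_lit 5) (nat_lit 97) (nat_lit 5) (nat_lit 375) (nat_lit 311) (nat_lit 214)))) (XT.nd (nat_lit 78) (nat_lit 228) (nat_lit 0) (XT.lf (nat_lit 0) (nat_lit 8901361233) (nat_lit 304) (nat_lit 4314064996) (nat_lit 76) (nat_lit 4540938363) (nat_lit 93) (nat_lit 5) (nat_lit 97) (nat_lit 5) (nat_lit 94) (nat_lit 5) (nat_lit 376) (nat_lit 311) (nat_lit 213)) (XT.nd (nat_lit 78) (nat_lit 0) (nat_lit 0) (XT.lf (nat_lit 0) (nat_lit 5803042302) (nat_lit 228) (nat_lit 7409548173) (nat_lit 304) (nat_lit 4885927791) (nat_lit 90) (nat_lit 5) (nat_lit 93) (nat_lit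 5) (nat_lit 94) (nat_lit 5) (nat_lit 377) (nat_lit 311) (nat_lit 212)) (XT.lf (nat_lit 0) (nat_lit 16282832567) (nat_lit 228) (nat_lit 1395510515) (nat_lit 304) (nat_lit 771842737) (nat_lit 90) (nat_lit 5) (nat_lit 93) (nat_lit 5) (nat_lit 94) (nat_lit 5) (nat_lit 378) (nat_lit 311) (nat_lit 211))))) (XT.nd (nat_lit 234) (nat_lit 456) (nat_lit 0) (XT.nd (nat_lit 78) (nat_lit 228) (nat_lit 0) (XT.lf (nat_lit 0) (nat_lit 3507584145) (nat_lit 304) (nat_lit 10490919797) (nat_lit 76) (nat_lit 4809618217) (nat_lit 86) (nat_lit 5) (nat_lit 90) (nat_lit 5) (nat_lit 87) (nat_lit 5) (nat_lit 379) (nat_lit 311) (nat_lit 210)) (XT.nd (nat_lit 78) (nat_lit 228) (nat_lit 0) (XT.lf (nat_lit 0) (nat_lit 7917925063) (nat_lit 304) (nat_lit 66020108) (nat_lit 76) (nat_lit 11192085276) (nat_lit 86) (nat_lit 5) (nat_lit 90) (nat_lit 5) (nat_lit 87) (nat_lit 5) (nat_lit 380) (nat_lit 311) (nat_lit 209)) (XT.lf (nat_lit 0) (nat_lit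 10855368743) (nat_lit 228) (nat_lit 1692201403) (nat_lit 304) (nat_lit 7004800343) (nat_lit 83) (nat_lit 5) (nat_lit 86) (nat_lit 5) (nat_lit 87) (nat_lit 5) (nat_lit 381) (nat_lit 311) (nat_lit 208)))) (XT.nd (nat_lit 156) (nat_lit 228) (nat_lit 0) (XT.nd (nat_lit 78) (nat_lit 76) (nat_lit 0) (XT.lf (nat_lit 0) (nat_lit 2133137732) (nat_lit 152) (nat_lit 15232954013) (nat_lit 228) (nat_lit 2572413572) (nat_lit 81) (nat_lit 5) (nat_lit 83) (nat_lit 5) (nat_lit 84) (nat_lit 5) (nat_lit 382) (nat_lit 311) (nat_lit 207)) (XT.lf (nat_lit 0) (nat_lit 2042343480) (nat_lit 228) (nat_lit 6932202965) (nat_lit 76) (nat_lit 11358458333) (nat_lit 80) (nat_lit 5) (nat_lit 83) (nat_lit 5) (nat_lit 81) (nat_lit 5) (nat_lit 383) (nat_lit 311) (nat_lit 206))) (XT.nd (nat_lit 78) (nat_lit 0) (nat_lit 0) (XT.lf (nat_lit 0) (nat_lit 4298088975) (nat_lit 228) (nat_lit 2470408468) (nat_lit 304) (nat_lit 13969341823) (nat_lit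 77) (nat_lit 5) (nat_lit 80) (nat_lit 5) (nat_lit 81) (nat_lit 5) (nat_lit 384) (nat_lit 311) (nat_lit 205)) (XT.lf (nat_lit 0) (nat_lit 11731242663) (nat_lit 304) (nat_lit 5214262479) (nat_lit 76) (nat_lit 4206473179) (nat_lit 77) (nat_lit 5) (nat_lit 81) (nat_lit 5) (nat_lit 78) (nat_lit 5) (nat_lit 385) (nat_lit 311) (nat_lit 204)))))) (XT.nd (nat_lit 546) (nat_lit 684) (nat_lit 0) (XT.nd (nat_lit 234) (nat_lit 456) (nat_lit 0) (XT.nd (nat_lit 78) (nat_lit 304) (nat_lit 0) (XT.lf (nat_lit 0) (nat_lit 6422058292) (nat_lit 152) (nat_lit 10490947456) (nat_lit 228) (nat_lit 4663435355) (nat_lit 75) (nat_lit 5) (nat_lit 77) (nat_lit 5) (nat_lit 78) (nat_lit 5) (nat_lit 386) (nat_lit 311) (nat_lit 203)) (XT.nd (nat_lit 78) (nat_lit 228) (nat_lit 0) (XT.lf (nat_lit 0) (nat_lit 269138130) (nat_lit 228) (nat_lit 3527346674) (nat_lit 76) (nat_lit 18215973029) (nat_lit 74) (nat_lit 5) (nat_lit 77) (nat_lit 5) (nat_lit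 75) (nat_lit 5) (nat_lit 387) (nat_lit 311) (nat_lit 202)) (XT.lf (nat_lit 0) (nat_lit 5353497056) (nat_lit 304) (nat_lit 13946167449) (nat_lit 76) (nat_lit 3157582535) (nat_lit 71) (nat_lit 5) (nat_lit 75) (nat_lit 5) (nat_lit 72) (nat_lit 5) (nat_lit 388) (nat_lit 311) (nat_lit 201)))) (XT.nd (nat_lit 156) (nat_lit 304) (nat_lit 0) (XT.nd (nat_lit 78) (nat_lit 152) (nat_lit 0) (XT.lf (nat_lit 0) (nat_lit 10648513170) (nat_lit 304) (nat_lit 1995461084) (nat_lit 76) (nat_lit 10269665094) (nat_lit 71) (nat_lit 5) (nat_lit 75) (nat_lit 5) (nat_lit 72) (nat_lit 5) (nat_lit 389) (nat_lit 311) (nat_lit 200)) (XT.lf (nat_lit 0) (nat_lit 10493113345) (nat_lit 152) (nat_lit 5695147704) (nat_lit 228) (nat_lit 7192889061) (nat_lit 69) (nat_lit 5) (nat_lit 71) (nat_lit 5) (nat_lit 72) (nat_lit 5) (nat_lit 390) (nat_lit 311) (nat_lit 199))) (XT.nd (nat_lit 78) (nat_lit 304) (nat_lit 0) (XT.lf (nat_lit 0) (nat_lit 21913716071)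 (nat_lit 228) (nat_lit 504595681) (nat_lit 76) (nat_lit 1443792036) (nat_lit 69) (nat_lit 5) (nat_lit 72) (nat_lit 5) (nat_lit 70) (nat_lit 5) (nat_lit 391) (nat_lit 311) (nat_lit 198)) (XT.lf (nat_lit 0) (nat_lit 3548890017) (nat_lit 304) (nat_lit 11976059557) (nat_lit 76) (nat_lit 8826658543) (nat_lit 65) (nat_lit 5) (nat_lit 69) (nat_lit 5) (nat_lit 66) (nat_lit 5) (nat_lit 392) (nat_lit 311) (nat_lit 197))))) (XT.nd (nat_lit 234) (nat_lit 380) (nat_lit 0) (XT.nd (nat_lit 78) (nat_lit 152) (nat_lit 0) (XT.lf (nat_lit 0) (nat_lit 767620422) (nat_lit 152) (nat_lit 8402414559) (nat_lit 228) (nat_lit 15685243355) (nat_lit 63) (nat_lit 5) (nat_lit 65) (nat_lit 5) (nat_lit 66) (nat_lit 5) (nat_lit 393) (nat_lit 311) (nat_lit 196)) (XT.nd (nat_lit 78) (nat_lit 152) (nat_lit 0) (XT.lf (nat_lit 0) (nat_lit 14114538218) (nat_lit 152) (nat_lit 951979321) (nat_lit 228) (nat_lit 10304342721) (nat_lit 63) (nat_lit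 5) (nat_lit 65) (nat_lit 5) (nat_lit 66) (nat_lit 5) (nat_lit 394) (nat_lit 311) (nat_lit 195)) (XT.lf (nat_lit 0) (nat_lit 1908402973) (nat_lit 152) (nat_lit 19300538560) (nat_lit 228) (nat_lit 4690899314) (nat_lit 61) (nat_lit 5) (nat_lit 63) (nat_lit 5) (nat_lit 64) (nat_lit 5) (nat_lit 395) (nat_lit 311) (nat_lit 194)))) (XT.nd (nat_lit 156) (nat_lit 152) (nat_lit 0) (XT.nd (nat_lit 78) (nat_lit 152) (nat_lit 0) (XT.lf (nat_lit 0) (nat_lit 1179999985) (nat_lit 228) (nat_lit 10787722051) (nat_lit 76) (nat_lit 14473346450) (nat_lit 60) (nat_lit 5) (nat_lit 63) (nat_lit 5) (nat_lit 61) (nat_lit 5) (nat_lit 396) (nat_lit 311) (nat_lit 193)) (XT.lf (nat_lit 0) (nat_lit 2796723487) (nat_lit 152) (nat_lit 4349431515) (nat_lit 228) (nat_lit 19850584676) (nat_lit 58) (nat_lit 5) (nat_lit 60) (nat_lit 5) (nat_lit 61) (nat_lit 5) (nat_lit 397) (nat_lit 311) (nat_lit 192))) (XT.nd (nat_lit 78) (nat_lit 152) (nat_lit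 0) (XT.lf (nat_lit 0) (nat_lit 13421527360) (nat_lit 228) (nat_lit 10614257026) (nat_lit 76) (nat_lit 3529391961) (nat_lit 58) (nat_lit 5) (nat_lit 61) (nat_lit 5) (nat_lit 59) (nat_lit 5) (nat_lit 398) (nat_lit 311) (nat_lit 191)) (XT.lf (nat_lit 0) (nat_lit 3379049238) (nat_lit 152) (nat_lit 16568647172) (nat_lit 228) (nat_lit 8201095899) (nat_lit 56) (nat_lit 5) (nat_lit 58) (nat_lit 5) (nat_lit 59) (nat_lit 5) (nat_lit 399) (nat_lit 311) (nat_lit 190))))))) (XT.nd (nat_lit 1014) (nat_lit 912) (nat_lit 0) (XT.nd (nat_lit 468) (nat_lit 456) (nat_lit 0) (XT.nd (nat_lit 234) (nat_lit 380) (nat_lit 0) (XT.nd (nat_lit 78) (nat_lit 228) (nat_lit 0) (XT.lf (nat_lit 0) (nat_lit 17987061642) (nat_lit 152) (nat_lit 8776923385) (nat_lit 228) (nat_lit 1983103878) (nat_lit 56) (nat_lit 5) (nat_lit 58) (nat_lit 5) (nat_lit 59) (nat_lit 5) (nat_lit 400) (nat_lit 311) (nat_lit 189)) (XT.nd (nat_lit 78) (nat_lit 0) (nat_lit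 0) (XT.lf (nat_lit 0) (nat_lit 3676962010) (nat_lit 152) (nat_lit 680933066) (nat_lit 228) (nat_lit 25003483989) (nat_lit 53) (nat_lit 5) (nat_lit 55) (nat_lit 5) (nat_lit 56) (nat_lit 5) (nat_lit 401) (nat_lit 311) (nat_lit 188)) (XT.lf (nat_lit 0) (nat_lit 11020071997) (nat_lit 228) (nat_lit 11339862602) (nat_lit 76) (nat_lit 7628452104) (nat_lit 53) (nat_lit 5) (nat_lit 56) (nat_lit 5) (nat_lit 54) (nat_lit 5) (nat_lit 402) (nat_lit 311) (nat_lit 187)))) (XT.nd (nat_lit 78) (nat_lit 228) (nat_lit 0) (XT.lf (nat_lit 0) (nat_lit 3474403102) (nat_lit 152) (nat_lit 14435678960) (nat_lit 228) (nat_lit 12723285419) (nat_lit 51) (nat_lit 5) (nat_lit 53) (nat_lit 5) (nat_lit 54) (nat_lit 5) (nat_lit 403) (nat_lit 311) (nat_lit 186)) (XT.nd (nat_lit 78) (nat_lit 228) (nat_lit 0) (XT.lf (nat_lit 0) (nat_lit 18944083817) (nat_lit 152) (nat_lit 6165194984) (nat_lit 228) (nat_lit 6185346180) (nat_lit 51) (nat_lit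 5) (nat_lit 53) (nat_lit 5) (nat_lit 54) (nat_lit 5) (nat_lit 404) (nat_lit 311) (nat_lit 185)) (XT.lf (nat_lit 0) (nat_lit 577290694) (nat_lit 228) (nat_lit 29064922599) (nat_lit 76) (nat_lit 2332172437) (nat_lit 48) (nat_lit 5) (nat_lit 51) (nat_lit 5) (nat_lit 49) (nat_lit 5) (nat_lit 405) (nat_lit 311) (nat_lit 184))))) (XT.nd (nat_lit 234) (nat_lit 304) (nat_lit 0) (XT.nd (nat_lit 78) (nat_lit 152) (nat_lit 0) (XT.lf (nat_lit 0) (nat_lit 7593742872) (nat_lit 228) (nat_lit 13935009671) (nat_lit 76) (nat_lit 11138693590) (nat_lit 48) (nat_lit 5) (nat_lit 51) (nat_lit 5) (nat_lit 49) (nat_lit 5) (nat_lit 406) (nat_lit 311) (nat_lit 183)) (XT.nd (nat_lit 78) (nat_lit 0) (nat_lit 0) (XT.lf (nat_lit 0) (nat_lit 1660686226) (nat_lit 152) (nat_lit 13164570710) (nat_lit 228) (nat_lit 18555906042) (nat_lit 46) (nat_lit 5) (nat_lit 48) (nat_lit 5) (nat_lit 49) (nat_lit 5) (nat_lit 407) (nat_lit 311) (nat_lit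 182)) (XT.lf (nat_lit 0) (nat_lit 17989587831) (nat_lit 152) (nat_lit 4413586234) (nat_lit 228) (nat_lit 11709235166) (nat_lit 46) (nat_lit 5) (nat_lit 48) (nat_lit 5) (nat_lit 49) (nat_lit 5) (nat_lit 408) (nat_lit 311) (nat_lit 181)))) (XT.nd (nat_lit 156) (nat_lit 152) (nat_lit 0) (XT.nd (nat_lit 78) (nat_lit 152) (nat_lit 0) (XT.lf (nat_lit 0) (nat_lit 30241630757) (nat_lit 228) (nat_lit 121426037) (nat_lit 76) (nat_lit 4501541597) (nat_lit 46) (nat_lit 5) (nat_lit 49) (nat_lit 5) (nat_lit 47) (nat_lit 4) (nat_lit 409) (nat_lit 311) (nat_lit 180)) (XT.lf (nat_lit 0) (nat_lit 2818357077) (nat_lit 152) (nat_lit 19039939974) (nat_lit 76) (nat_lit 13774445438) (nat_lit 44) (nat_lit 5) (nat_lit 46) (nat_lit 5) (nat_lit 45) (nat_lit 5) (nat_lit 410) (nat_lit 311) (nat_lit 179))) (XT.nd (nat_lit 78) (nat_lit 152) (nat_lit 0) (XT.lf (nat_lit 0) (nat_lit 10380569157) (nat_lit 152) (nat_lit 2678145565) (nat_lit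 76) (nat_lit 23364127537) (nat_lit 44) (nat_lit 5) (nat_lit 46) (nat_lit 5) (nat_lit 45) (nat_lit 5) (nat_lit 411) (nat_lit 311) (nat_lit 178)) (XT.lf (nat_lit 0) (nat_lit 14437379026) (nat_lit 152) (nat_lit 3860686766) (nat_lit 228) (nat_lit 18934728090) (nat_lit 42) (nat_lit 5) (nat_lit 44) (nat_lit 5) (nat_lit 45) (nat_lit 5) (nat_lit 412) (nat_lit 311) (nat_lit 177)))))) (XT.nd (nat_lit 546) (nat_lit 532) (nat_lit 0) (XT.nd (nat_lit 234) (nat_lit 228) (nat_lit 0) (XT.nd (nat_lit 78) (nat_lit 152) (nat_lit 0) (XT.lf (nat_lit 0) (nat_lit 26524036127) (nat_lit 228) (nat_lit 6018081805) (nat_lit 76) (nat_lit 5522799025) (nat_lit 42) (nat_lit 5) (nat_lit 45) (nat_lit 5) (nat_lit 43) (nat_lit 4) (nat_lit 413) (nat_lit 311) (nat_lit 176)) (XT.nd (nat_lit 78) (nat_lit 76) (nat_lit 0) (XT.lf (nat_lit 0) (nat_lit 11429026613) (nat_lit 76) (nat_lit 23705825709) (nat_lit 152) (nat_lit 3783010723) (nat_lit 41) (nat_lit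 5) (nat_lit 42) (nat_lit 5) (nat_lit 43) (nat_lit 4) (nat_lit 414) (nat_lit 311) (nat_lit 175)) (XT.lf (nat_lit 0) (nat_lit 4176859964) (nat_lit 152) (nat_lit 10331070986) (nat_lit 76) (nat_lit 25285713343) (nat_lit 40) (nat_lit 5) (nat_lit 42) (nat_lit 5) (nat_lit 41) (nat_lit 5) (nat_lit 415) (nat_lit 311) (nat_lit 174)))) (XT.nd (nat_lit 156) (nat_lit 76) (nat_lit 0) (XT.nd (nat_lit 78) (nat_lit 0) (nat_lit 0) (XT.lf (nat_lit 0) (nat_lit 7431153272) (nat_lit 152) (nat_lit 4930060166) (nat_lit 228) (nat_lit 28331511443) (nat_lit 38) (nat_lit 5) (nat_lit 40) (nat_lit 5) (nat_lit 41) (nat_lit 5) (nat_lit 416) (nat_lit 311) (nat_lit 173)) (XT.lf (nat_lit 0) (nat_lit 20934218024) (nat_lit 228) (nat_lit 15743963744) (nat_lit 76) (nat_lit 4936303680) (nat_lit 38) (nat_lit 5) (nat_lit 41) (nat_lit 5) (nat_lit 39) (nat_lit 4) (nat_lit 417) (nat_lit 311) (nat_lit 172))) (XT.nd (nat_lit 78) (nat_lit 0) (nat_lit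 0) (XT.lf (nat_lit 0) (nat_lit 2277457500) (nat_lit 76) (nat_lit 27548266245) (nat_lit 152) (nat_lit 12736336902) (nat_lit 37) (nat_lit 5) (nat_lit 38) (nat_lit 5) (nat_lit 39) (nat_lit 4) (nat_lit 418) (nat_lit 311) (nat_lit 171)) (XT.lf (nat_lit 0) (nat_lit 21145083462) (nat_lit 76) (nat_lit 17988589065) (nat_lit 152) (nat_lit 4399900748) (nat_lit 37) (nat_lit 5) (nat_lit 38) (nat_lit 5) (nat_lit 39) (nat_lit 4) (nat_lit 419) (nat_lit 311) (nat_lit 170))))) (XT.nd (nat_lit 234) (nat_lit 304) (nat_lit 0) (XT.nd (nat_lit 78) (nat_lit 152) (nat_lit 0) (XT.lf (nat_lit 0) (nat_lit 4095827148) (nat_lit 152) (nat_lit 4012593306) (nat_lit 76) (nat_lit 36424877696) (nat_lit 36) (nat_lit 5) (nat_lit 38) (nat_lit 5) (nat_lit 37) (nat_lit 5) (nat_lit 420) (nat_lit 311) (nat_lit 169)) (XT.nd (nat_lit 78) (nat_lit 0) (nat_lit 0) (XT.lf (nat_lit 0) (nat_lit 12916468392) (nat_lit 228) (nat_lit 30428997755) (nat_lit 76)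 (nat_lit 2211488484) (nat_lit 34) (nat_lit 5) (nat_lit 37) (nat_lit 5) (nat_lit 35) (nat_lit 4) (nat_lit 421) (nat_lit 311) (nat_lit 168)) (XT.lf (nat_lit 0) (nat_lit 22114120765) (nat_lit 228) (nat_lit 11782205776) (nat_lit 76) (nat_lit 12711623495) (nat_lit 34) (nat_lit 5) (nat_lit 37) (nat_lit 5) (nat_lit 35) (nat_lit 4) (nat_lit 422) (nat_lit 311) (nat_lit 167)))) (XT.nd (nat_lit 156) (nat_lit 228) (nat_lit 0) (XT.nd (nat_lit 78) (nat_lit 0) (nat_lit 0) (XT.lf (nat_lit 0) (nat_lit 7555506891) (nat_lit 76) (nat_lit 24096270569) (nat_lit 152) (nat_lit 16036776558) (nat_lit 33) (nat_lit 5) (nat_lit 34) (nat_lit 5) (nat_lit 35) (nat_lit 4) (nat_lit 423) (nat_lit 311) (nat_lit 166)) (XT.lf (nat_lit 0) (nat_lit 27699112443) (nat_lit 76) (nat_lit 13886972801) (nat_lit 152) (nat_lit 7212176164) (nat_lit 33) (nat_lit 5) (nat_lit 34) (nat_lit 5) (nat_lit 35) (nat_lit 4) (nat_lit 424) (nat_lit 311) (nat_lit 165)))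 (XT.nd (nat_lit 78) (nat_lit 152) (nat_lit 0) (XT.lf (nat_lit 0) (nat_lit 1832240371) (nat_lit 152) (nat_lit 1527747259) (nat_lit 76) (nat_lit 46580980683) (nat_lit 32) (nat_lit 5) (nat_lit 34) (nat_lit 5) (nat_lit 33) (nat_lit 5) (nat_lit 425) (nat_lit 311) (nat_lit 164)) (XT.lf (nat_lit 0) (nat_lit 11251158607) (nat_lit 228) (nat_lit 32271532013) (nat_lit 76) (nat_lit 7585680622) (nat_lit 30) (nat_lit 5) (nat_lit 33) (nat_lit 5) (nat_lit 31) (nat_lit 4) (nat_lit 426) (nat_lit 311) (nat_lit 163))))))))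
noncomputable def xc135 : XT := (XT.nd (nat_lit 38532) (nat_lit 0) (nat_lit 12388) (XT.nd (nat_lit 1014) (nat_lit 228) (nat_lit 0) (XT.nd (nat_lit 468) (nat_lit 304) (nat_lit 0) (XT.nd (nat_lit 234) (nat_lit 152) (nat_lit 0) (XT.nd (nat_lit 78) (nat_lit 76) (nat_lit 0) (XT.lf (nat_lit 0) (nat_lit 20993466496) (nat_lit 228) (nat_lit 12515117070) (nat_lit 76) (nat_lit 18800988854) (nat_lit 30) (nat_lit 5) (nat_lit 33) (nat_lit 5) (nat_lit 31) (nat_lit 4) (nat_lit 427) (nat_lit 311) (nat_lit 162)) (XT.nd (nat_lit 78) (nat_lit 0) (nat_lit 0) (XT.lf (nat_lit 0) (nat_lit 7975005267) (nat_lit 76) (nat_lit 23121907631) (nat_lit 152) (nat_lit 22447831461) (nat_lit 29) (nat_lit 5) (nat_lit 30) (nat_lit 5) (nat_lit 31) (nat_lit 4) (nat_lit 428) (nat_lit 311) (nat_lit 161)) (XT.lf (nat_lit 0) (nat_lit 29321915972) (nat_lit 76) (nat_lit 12300221415) (nat_lit 152) (nat_lit 13191274606) (nat_lit 29) (nat_lit 5) (nat_lit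 30) (nat_lit 5) (nat_lit 31) (nat_lit 4) (nat_lit 429) (nat_lit 311) (nat_lit 160)))) (XT.nd (nat_lit 78) (nat_lit 152) (nat_lit 0) (XT.lf (nat_lit 0) (nat_lit 51295192316) (nat_lit 76) (nat_lit 1160447219) (nat_lit 152) (nat_lit 3664725250) (nat_lit 29) (nat_lit 5) (nat_lit 30) (nat_lit 5) (nat_lit 31) (nat_lit 4) (nat_lit 430) (nat_lit 311) (nat_lit 159)) (XT.nd (nat_lit 78) (nat_lit 0) (nat_lit 0) (XT.lf (nat_lit 0) (nat_lit 6282247585) (nat_lit 152) (nat_lit 40846982389) (nat_lit 76) (nat_lit 10327886382) (nat_lit 27) (nat_lit 5) (nat_lit 29) (nat_lit 5) (nat_lit 28) (nat_lit 4) (nat_lit 431) (nat_lit 311) (nat_lit 158)) (XT.lf (nat_lit 0) (nat_lit 16507356183) (nat_lit 152) (nat_lit 20107155298) (nat_lit 76) (nat_lit 22216769634) (nat_lit 27) (nat_lit 5) (nat_lit 29) (nat_lit 5) (nat_lit 28) (nat_lit 4) (nat_lit 432) (nat_lit 311) (nat_lit 157))))) (XT.nd (nat_lit 234) (nat_lit 228) (nat_lit 0) (XT.nd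 (nat_lit 78) (nat_lit 0) (nat_lit 0) (XT.lf (nat_lit 0) (nat_lit 1266175153) (nat_lit 76) (nat_lit 25778114278) (nat_lit 152) (nat_lit 33202229916) (nat_lit 26) (nat_lit 5) (nat_lit 27) (nat_lit 5) (nat_lit 28) (nat_lit 4) (nat_lit 433) (nat_lit 311) (nat_lit 156)) (XT.nd (nat_lit 78) (nat_lit 0) (nat_lit 0) (XT.lf (nat_lit 0) (nat_lit 23679614764) (nat_lit 76) (nat_lit 14413738153) (nat_lit 152) (nat_lit 23604981794) (nat_lit 26) (nat_lit 5) (nat_lit 27) (nat_lit 5) (nat_lit 28) (nat_lit 4) (nat_lit 434) (nat_lit 311) (nat_lit 155)) (XT.lf (nat_lit 0) (nat_lit 46752576276) (nat_lit 76) (nat_lit 2714495911) (nat_lit 152) (nat_lit 13726837465) (nat_lit 26) (nat_lit 5) (nat_lit 27) (nat_lit 5) (nat_lit 28) (nat_lit 4) (nat_lit 435) (nat_lit 311) (nat_lit 154)))) (XT.nd (nat_lit 156) (nat_lit 76) (nat_lit 0) (XT.nd (nat_lit 78) (nat_lit 76) (nat_lit 0) (XT.lf (nat_lit 0) (nat_lit 5794048211) (nat_lit 76) (nat_lit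 55526717251) (nat_lit 76) (nat_lit 3409424122) (nat_lit 25) (nat_lit 4) (nat_lit 26) (nat_lit 5) (nat_lit 26) (nat_lit 4) (nat_lit 436) (nat_lit 311) (nat_lit 153)) (XT.lf (nat_lit 0) (nat_lit 7264551082) (nat_lit 152) (nat_lit 37384611728) (nat_lit 76) (nat_lit 21655677936) (nat_lit 24) (nat_lit 5) (nat_lit 26) (nat_lit 5) (nat_lit 25) (nat_lit 4) (nat_lit 437) (nat_lit 311) (nat_lit 152))) (XT.nd (nat_lit 78) (nat_lit 76) (nat_lit 0) (XT.lf (nat_lit 0) (nat_lit 18183747524) (nat_lit 152) (nat_lit 15232582075) (nat_lit 76) (nat_lit 34509583865) (nat_lit 24) (nat_lit 5) (nat_lit 26) (nat_lit 5) (nat_lit 25) (nat_lit 4) (nat_lit 438) (nat_lit 311) (nat_lit 151)) (XT.lf (nat_lit 0) (nat_lit 7722776380) (nat_lit 76) (nat_lit 21775696063) (nat_lit 152) (nat_lit 40095107889) (nat_lit 23) (nat_lit 5) (nat_lit 24) (nat_lit 5) (nat_lit 25) (nat_lit 4) (nat_lit 439) (nat_lit 311) (nat_lit 150)))))) (XT.nd (nat_lit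 36972) (nat_lit 0) (nat_lit 22040) (XT.nd (nat_lit 234) (nat_lit 152) (nat_lit 0) (XT.nd (nat_lit 78) (nat_lit 76) (nat_lit 0) (XT.lf (nat_lit 0) (nat_lit 31667234292) (nat_lit 76) (nat_lit 9633010010) (nat_lit 152) (nat_lit 30006605279) (nat_lit 23) (nat_lit 5) (nat_lit 24) (nat_lit 5) (nat_lit 25) (nat_lit 4) (nat_lit 440) (nat_lit 311) (nat_lit 149)) (XT.nd (nat_lit 78) (nat_lit 76) (nat_lit 0) (XT.lf (nat_lit 0) (nat_lit 53477610251) (nat_lit 152) (nat_lit 16780716627) (nat_lit 0) (nat_lit 2812544315) (nat_lit 23) (nat_lit 5) (nat_lit 25) (nat_lit 4) (nat_lit 23) (nat_lit 4) (nat_lit 441) (nat_lit 311) (nat_lit 148)) (XT.lf (nat_lit 0) (nat_lit 6789804617) (nat_lit 76) (nat_lit 59385228602) (nat_lit 76) (nat_lit 8708138655) (nat_lit 22) (nat_lit 4) (nat_lit 23) (nat_lit 5) (nat_lit 23) (nat_lit 4) (nat_lit 442) (nat_lit 311) (nat_lit 147)))) (XT.nd (nat_lit 156) (nat_lit 76) (nat_lit 0) (XT.nd (nat_lit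 78) (nat_lit 0) (nat_lit 0) (XT.lf (nat_lit 0) (nat_lit 2619912857) (nat_lit 152) (nat_lit 45370340642) (nat_lit 76) (nat_lit 28753909722) (nat_lit 21) (nat_lit 5) (nat_lit 23) (nat_lit 5) (nat_lit 22) (nat_lit 4) (nat_lit 443) (nat_lit 311) (nat_lit 146)) (XT.lf (nat_lit 0) (nat_lit 14107051345) (nat_lit 152) (nat_lit 22062783295) (nat_lit 76) (nat_lit 42488735439) (nat_lit 21) (nat_lit 5) (nat_lit 23) (nat_lit 5) (nat_lit 22) (nat_lit 4) (nat_lit 444) (nat_lit 311) (nat_lit 145))) (XT.nd (nat_lit 36504) (nat_lit 0) (nat_lit 23560) (XT.lf (nat_lit 0) (nat_lit 1971856589) (nat_lit 76) (nat_lit 23980339366) (nat_lit 152) (nat_lit 54677811873) (nat_lit 20) (nat_lit 5) (nat_lit 21) (nat_lit 5) (nat_lit 22) (nat_lit 4) (nat_lit 445) (nat_lit 311) (nat_lit 144)) (XT.lf (nat_lit 0) (nat_lit 1172027789) (nat_lit 0) (nat_lit 1172027789) (nat_lit 684) (nat_lit 1185019840) (nat_lit 330) (nat_lit 5) (nat_lit 330)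 (nat_lit 3) (nat_lit 339) (nat_lit 3) (nat_lit 312) (nat_lit 312) (nat_lit 276))))) (XT.nd (nat_lit 234) (nat_lit 760) (nat_lit 0) (XT.nd (nat_lit 78) (nat_lit 760) (nat_lit 0) (XT.lf (nat_lit 0) (nat_lit 5813140758) (nat_lit 0) (nat_lit 664644295) (nat_lit 684) (nat_lit 633443115) (nat_lit 330) (nat_lit 5) (nat_lit 330) (nat_lit 3) (nat_lit 339) (nat_lit 3) (nat_lit 313) (nat_lit 312) (nat_lit 275)) (XT.nd (nat_lit 78) (nat_lit 0) (nat_lit 0) (XT.lf (nat_lit 0) (nat_lit 1097088839) (nat_lit 760) (nat_lit 4960258204) (nat_lit 836) (nat_lit 1109332220) (nat_lit 320) (nat_lit 5) (nat_lit 330) (nat_lit 5) (nat_lit 331) (nat_lit 5) (nat_lit 314) (nat_lit 312) (nat_lit 274)) (XT.lf (nat_lit 0) (nat_lit 2820757299) (nat_lit 760) (nat_lit 1430645435) (nat_lit 836) (nat_lit 2973629115) (nat_lit 320) (nat_lit 5) (nat_lit 330) (nat_lit 5) (nat_lit 331) (nat_lit 5) (nat_lit 315) (nat_lit 312) (nat_lit 273)))) (XT.nd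 (nat_lit 156) (nat_lit 760) (nat_lit 0) (XT.nd (nat_lit 78) (nat_lit 0) (nat_lit 0) (XT.lf (nat_lit 76) (nat_lit 2212161838) (nat_lit 0) (nat_lit 2341290634) (nat_lit 836) (nat_lit 2733006412) (nat_lit 321) (nat_lit 5) (nat_lit 320) (nat_lit 5) (nat_lit 331) (nat_lit 5) (nat_lit 316) (nat_lit 312) (nat_lit 272)) (XT.lf (nat_lit 76) (nat_lit 5958070616) (nat_lit 0) (nat_lit 332077829) (nat_lit 836) (nat_lit 1061061795) (nat_lit 321) (nat_lit 5) (nat_lit 320) (nat_lit 5) (nat_lit 331) (nat_lit 5) (nat_lit 317) (nat_lit 312) (nat_lit 271))) (XT.nd (nat_lit 78) (nat_lit 0) (nat_lit 0) (XT.lf (nat_lit 0) (nat_lit 627232761) (nat_lit 836) (nat_lit 5032875068) (nat_lit 912) (nat_lit 1758272643) (nat_lit 310) (nat_lit 5) (nat_lit 321) (nat_lit 5) (nat_lit 322) (nat_lit 5) (nat_lit 318) (nat_lit 312) (nat_lit 270)) (XT.lf (nat_lit 0) (nat_lit 2302774911) (nat_lit 836) (nat_lit 1232459782) (nat_lit 912) (nat_lit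 3953316733) (nat_lit 310) (nat_lit 5) (nat_lit 321) (nat_lit 5) (nat_lit 322) (nat_lit 5) (nat_lit 319) (nat_lit 312) (nat_lit 269))))))) (XT.nd (nat_lit 1014) (nat_lit 5852) (nat_lit 0) (XT.nd (nat_lit 468) (nat_lit 2964) (nat_lit 0) (XT.nd (nat_lit 234) (nat_lit 836) (nat_lit 0) (XT.nd (nat_lit 78) (nat_lit 0) (nat_lit 76) (XT.lf (nat_lit 76) (nat_lit 2698260504) (nat_lit 0) (nat_lit 1298425088) (nat_lit 912) (nat_lit 3565136264) (nat_lit 311) (nat_lit 5) (nat_lit 310) (nat_lit 5) (nat_lit 322) (nat_lit 5) (nat_lit 320) (nat_lit 312) (nat_lit 268)) (XT.nd (nat_lit 78) (nat_lit 0) (nat_lit 0) (XT.lf (nat_lit 0) (nat_lit 5707347967) (nat_lit 836) (nat_lit 912470991) (nat_lit 912) (nat_lit 1018529731) (nat_lit 311) (nat_lit 5) (nat_lit 322) (nat_lit 5) (nat_lit 323) (nat_lit 5) (nat_lit 321) (nat_lit 312) (nat_lit 267)) (XT.lf (nat_lit 76) (nat_lit 3169313956) (nat_lit 0) (nat_lit 4288677484) (nat_lit 912)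 (nat_lit 259555316) (nat_lit 312) (nat_lit 5) (nat_lit 311) (nat_lit 5) (nat_lit 323) (nat_lit 5) (nat_lit 322) (nat_lit 312) (nat_lit 266)))) (XT.nd (nat_lit 78) (nat_lit 0) (nat_lit 76) (XT.lf (nat_lit 0) (nat_lit 1388828492) (nat_lit 912) (nat_lit 458305993) (nat_lit 988) (nat_lit 5952938163) (nat_lit 299) (nat_lit 5) (nat_lit 311) (nat_lit 5) (nat_lit 312) (nat_lit 5) (nat_lit 323) (nat_lit 312) (nat_lit 265)) (XT.nd (nat_lit 78) (nat_lit 0) (nat_lit 0) (XT.lf (nat_lit 0) (nat_lit 3072419769) (nat_lit 912) (nat_lit 4103255521) (nat_lit 988) (nat_lit 709625022) (nat_lit 300) (nat_lit 5) (nat_lit 312) (nat_lit 5) (nat_lit 313) (nat_lit 5) (nat_lit 324) (nat_lit 312) (nat_lit 264)) (XT.lf (nat_lit 76) (nat_lit 132470558) (nat_lit 0) (nat_lit 4647199791) (nat_lit 988) (nat_lit 3194251243) (nat_lit 301) (nat_lit 5) (nat_lit 300) (nat_lit 5) (nat_lit 313) (nat_lit 5) (nat_lit 325) (nat_lit 312) (nat_lit 263)))))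 (XT.nd (nat_lit 234) (nat_lit 2128) (nat_lit 0) (XT.nd (nat_lit 78) (nat_lit 912) (nat_lit 0) (XT.lf (nat_lit 76) (nat_lit 4541916975) (nat_lit 0) (nat_lit 1987699967) (nat_lit 988) (nat_lit 1535870632) (nat_lit 301) (nat_lit 5) (nat_lit 300) (nat_lit 5) (nat_lit 313) (nat_lit 5) (nat_lit 326) (nat_lit 312) (nat_lit 262)) (XT.nd (nat_lit 78) (nat_lit 0) (nat_lit 0) (XT.lf (nat_lit 0) (nat_lit 136002931) (nat_lit 988) (nat_lit 7266005578) (nat_lit 76) (nat_lit 758757935) (nat_lit 288) (nat_lit 5) (nat_lit 301) (nat_lit 5) (nat_lit 289) (nat_lit 5) (nat_lit 327) (nat_lit 312) (nat_lit 261)) (XT.lf (nat_lit 0) (nat_lit 1834943164) (nat_lit 988) (nat_lit 2813785009) (nat_lit 76) (nat_lit 3609513749) (nat_lit 288) (nat_lit 5) (nat_lit 301) (nat_lit 5) (nat_lit 289) (nat_lit 5) (nat_lit 328) (nat_lit 312) (nat_lit 260)))) (XT.nd (nat_lit 156) (nat_lit 1140) (nat_lit 0) (XT.nd (nat_lit 78) (nat_lit 0) (nat_lit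 0) (XT.lf (nat_lit 0) (nat_lit 1769065088) (nat_lit 988) (nat_lit 1786351365) (nat_lit 1064) (nat_lit 4804135292) (nat_lit 275) (nat_lit 5) (nat_lit 288) (nat_lit 5) (nat_lit 289) (nat_lit 5) (nat_lit 329) (nat_lit 312) (nat_lit 259)) (XT.lf (nat_lit 0) (nat_lit 5322003753) (nat_lit 1064) (nat_lit 1965978676) (nat_lit 76) (nat_lit 1176109682) (nat_lit 275) (nat_lit 5) (nat_lit 289) (nat_lit 5) (nat_lit 276) (nat_lit 5) (nat_lit 330) (nat_lit 312) (nat_lit 258))) (XT.nd (nat_lit 78) (nat_lit 76) (nat_lit 0) (XT.lf (nat_lit 0) (nat_lit 2796714435) (nat_lit 1064) (nat_lit 4345401810) (nat_lit 1140) (nat_lit 1429662091) (nat_lit 261) (nat_lit 5) (nat_lit 275) (nat_lit 5) (nat_lit 276) (nat_lit 5) (nat_lit 331) (nat_lit 312) (nat_lit 257)) (XT.lf (nat_lit 0) (nat_lit 304098345) (nat_lit 1140) (nat_lit 980880579) (nat_lit 76) (nat_lit 7398349431) (nat_lit 260) (nat_lit 5) (nat_lit 275) (nat_lit 5) (nat_lit 261)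 (nat_lit 5) (nat_lit 332) (nat_lit 312) (nat_lit 256)))))) (XT.nd (nat_lit 546) (nat_lit 2204) (nat_lit 0) (XT.nd (nat_lit 234) (nat_lit 1292) (nat_lit 0) (XT.nd (nat_lit 78) (nat_lit 1216) (nat_lit 0) (XT.lf (nat_lit 0) (nat_lit 2075654376) (nat_lit 1216) (nat_lit 4832607733) (nat_lit 76) (nat_lit 1889125902) (nat_lit 245) (nat_lit 5) (nat_lit 261) (nat_lit 5) (nat_lit 246) (nat_lit 5) (nat_lit 333) (nat_lit 312) (nat_lit 255)) (XT.nd (nat_lit 78) (nat_lit 0) (nat_lit 0) (XT.lf (nat_lit 0) (nat_lit 115981362) (nat_lit 1216) (nat_lit 3766846187) (nat_lit 1292) (nat_lit 5032590428) (nat_lit 229) (nat_lit 5) (nat_lit 245) (nat_lit 5) (nat_lit 246) (nat_lit 5) (nat_lit 334) (nat_lit 312) (nat_lit 254)) (XT.lf (nat_lit 0) (nat_lit 5274655542) (nat_lit 1216) (nat_lit 477835303) (nat_lit 1292) (nat_lit 3284271726) (nat_lit 229) (nat_lit 5) (nat_lit 245) (nat_lit 5) (nat_lit 246) (nat_lit 5) (nat_lit 335) (nat_lit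 312) (nat_lit 253)))) (XT.nd (nat_lit 156) (nat_lit 608) (nat_lit 0) (XT.nd (nat_lit 78) (nat_lit 76) (nat_lit 0) (XT.lf (nat_lit 0) (nat_lit 1387877280) (nat_lit 608) (nat_lit 6292363332) (nat_lit 684) (nat_lit 1481468328) (nat_lit 221) (nat_lit 5) (nat_lit 229) (nat_lit 5) (nat_lit 230) (nat_lit 5) (nat_lit 336) (nat_lit 312) (nat_lit 252)) (XT.lf (nat_lit 0) (nat_lit 372260378) (nat_lit 684) (nat_lit 2566502248) (nat_lit 76) (nat_lit 6351427914) (nat_lit 220) (nat_lit 5) (nat_lit 229) (nat_lit 5) (nat_lit 221) (nat_lit 5) (nat_lit 337) (nat_lit 312) (nat_lit 251))) (XT.nd (nat_lit 78) (nat_lit 0) (nat_lit 0) (XT.lf (nat_lit 0) (nat_lit 2246320353) (nat_lit 684) (nat_lit 6627684140) (nat_lit 76) (nat_lit 548266718) (nat_lit 212) (nat_lit 5) (nat_lit 221) (nat_lit 5) (nat_lit 213) (nat_lit 5) (nat_lit 338) (nat_lit 312) (nat_lit 250)) (XT.lf (nat_lit 0) (nat_lit 4194830411) (nat_lit 684) (nat_lit 1255439810)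 (nat_lit 76) (nat_lit 4107516188) (nat_lit 212) (nat_lit 5) (nat_lit 221) (nat_lit 5) (nat_lit 213) (nat_lit 5) (nat_lit 339) (nat_lit 312) (nat_lit 249))))) (XT.nd (nat_lit 234) (nat_lit 988) (nat_lit 0) (XT.nd (nat_lit 78) (nat_lit 608) (nat_lit 0) (XT.lf (nat_lit 0) (nat_lit 4325811588) (nat_lit 608) (nat_lit 1881603794) (nat_lit 684) (nat_lit 3489801496) (nat_lit 204) (nat_lit 5) (nat_lit 212) (nat_lit 5) (nat_lit 213) (nat_lit 5) (nat_lit 340) (nat_lit 312) (nat_lit 248)) (XT.nd (nat_lit 78) (nat_lit 76) (nat_lit 0) (XT.lf (nat_lit 0) (nat_lit 209216206) (nat_lit 532) (nat_lit 8067949492) (nat_lit 608) (nat_lit 1563778799) (nat_lit 197) (nat_lit 5) (nat_lit 204) (nat_lit 5) (nat_lit 205) (nat_lit 5) (nat_lit 341) (nat_lit 312) (nat_lit 247)) (XT.lf (nat_lit 0) (nat_lit 450276222) (nat_lit 608) (nat_lit 3980823763) (nat_lit 76) (nat_lit 5556626241) (nat_lit 196) (nat_lit 5) (nat_lit 204) (nat_lit 5)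 (nat_lit 197) (nat_lit 5) (nat_lit 342) (nat_lit 312) (nat_lit 246)))) (XT.nd (nat_lit 156) (nat_lit 456) (nat_lit 0) (XT.nd (nat_lit 78) (nat_lit 0) (nat_lit 0) (XT.lf (nat_lit 0) (nat_lit 1823169885) (nat_lit 532) (nat_lit 653736668) (nat_lit 608) (nat_lit 7662049196) (nat_lit 189) (nat_lit 5) (nat_lit 196) (nat_lit 5) (nat_lit 197) (nat_lit 5) (nat_lit 343) (nat_lit 312) (nat_lit 245)) (XT.lf (nat_lit 0) (nat_lit 4602719717) (nat_lit 608) (nat_lit 2479304188) (nat_lit 76) (nat_lit 3211562610) (nat_lit 189) (nat_lit 5) (nat_lit 197) (nat_lit 5) (nat_lit 190) (nat_lit 5) (nat_lit 344) (nat_lit 312) (nat_lit 244))) (XT.nd (nat_lit 78) (nat_lit 0) (nat_lit 0) (XT.lf (nat_lit 0) (nat_lit 3559173150) (nat_lit 456) (nat_lit 3241462321) (nat_lit 532) (nat_lit 3651986302) (nat_lit 183) (nat_lit 5) (nat_lit 189) (nat_lit 5) (nat_lit 190) (nat_lit 5) (nat_lit 345) (nat_lit 312) (nat_lit 243)) (XT.lf (nat_lit 0)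 (nat_lit 9064842653) (nat_lit 532) (nat_lit 829817530) (nat_lit 76) (nat_lit 721772250) (nat_lit 183) (nat_lit 5) (nat_lit 190) (nat_lit 5) (nat_lit 184) (nat_lit 5) (nat_lit 346) (nat_lit 312) (nat_lit 242))))))))
noncomputable def xc136 : XT := (XT.nd (nat_lit 2028) (nat_lit 3268) (nat_lit 0) (XT.nd (nat_lit 1014) (nat_lit 2660) (nat_lit 0) (XT.nd (nat_lit 468) (nat_lit 1596) (nat_lit 0) (XT.nd (nat_lit 234) (nat_lit 912) (nat_lit 0) (XT.nd (nat_lit 78) (nat_lit 456) (nat_lit 0) (XT.lf (nat_lit 0) (nat_lit 654051944) (nat_lit 608) (nat_lit 5335495943) (nat_lit 76) (nat_lit 4793822033) (nat_lit 175) (nat_lit 5) (nat_lit 183) (nat_lit 5) (nat_lit 176) (nat_lit 5) (nat_lit 347) (nat_lit 312) (nat_lit 241)) (XT.nd (nat_lit 78) (nat_lit 0) (nat_lit 0) (XT.lf (nat_lit 0) (nat_lit 942936381) (nat_lit 456) (nat_lit 1938643810) (nat_lit 532) (nat_lit 8073681090) (nat_lit 169) (nat_lit 5) (nat_lit 175) (nat_lit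 5) (nat_lit 176) (nat_lit 5) (nat_lit 348) (nat_lit 312) (nat_lit 240)) (XT.lf (nat_lit 0) (nat_lit 5221692783) (nat_lit 532) (nat_lit 3669977557) (nat_lit 76) (nat_lit 2239279580) (nat_lit 169) (nat_lit 5) (nat_lit 176) (nat_lit 5) (nat_lit 170) (nat_lit 5) (nat_lit 349) (nat_lit 312) (nat_lit 239)))) (XT.nd (nat_lit 78) (nat_lit 456) (nat_lit 0) (XT.lf (nat_lit 0) (nat_lit 2864019799) (nat_lit 456) (nat_lit 4785466074) (nat_lit 532) (nat_lit 3661911941) (nat_lit 163) (nat_lit 5) (nat_lit 169) (nat_lit 5) (nat_lit 170) (nat_lit 5) (nat_lit 350) (nat_lit 312) (nat_lit 238)) (XT.nd (nat_lit 78) (nat_lit 456) (nat_lit 0) (XT.lf (nat_lit 0) (nat_lit 9634300971) (nat_lit 456) (nat_lit 524139040) (nat_lit 532) (nat_lit 1338581849) (nat_lit 163) (nat_lit 5) (nat_lit 169) (nat_lit 5) (nat_lit 170) (nat_lit 5) (nat_lit 351) (nat_lit 312) (nat_lit 237)) (XT.lf (nat_lit 0) (nat_lit 1091146460) (nat_lit 456) (nat_lit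 6753162650) (nat_lit 76) (nat_lit 3841895020) (nat_lit 157) (nat_lit 5) (nat_lit 163) (nat_lit 5) (nat_lit 158) (nat_lit 5) (nat_lit 352) (nat_lit 312) (nat_lit 236))))) (XT.nd (nat_lit 234) (nat_lit 760) (nat_lit 0) (XT.nd (nat_lit 78) (nat_lit 380) (nat_lit 0) (XT.lf (nat_lit 0) (nat_lit 37503234) (nat_lit 456) (nat_lit 3526151591) (nat_lit 532) (nat_lit 8317117140) (nat_lit 151) (nat_lit 5) (nat_lit 157) (nat_lit 5) (nat_lit 158) (nat_lit 5) (nat_lit 353) (nat_lit 312) (nat_lit 235)) (XT.nd (nat_lit 78) (nat_lit 380) (nat_lit 0) (XT.lf (nat_lit 0) (nat_lit 6160717149) (nat_lit 532) (nat_lit 4953721218) (nat_lit 76) (nat_lit 965238244) (nat_lit 151) (nat_lit 5) (nat_lit 158) (nat_lit 5) (nat_lit 152) (nat_lit 5) (nat_lit 354) (nat_lit 312) (nat_lit 234)) (XT.lf (nat_lit 0) (nat_lit 2114513752) (nat_lit 380) (nat_lit 6749863855) (nat_lit 456) (nat_lit 3419321011) (nat_lit 146) (nat_lit 5) (nat_lit 151)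 (nat_lit 5) (nat_lit 152) (nat_lit 5) (nat_lit 355) (nat_lit 312) (nat_lit 233)))) (XT.nd (nat_lit 156) (nat_lit 304) (nat_lit 0) (XT.nd (nat_lit 78) (nat_lit 456) (nat_lit 0) (XT.lf (nat_lit 0) (nat_lit 9462330593) (nat_lit 380) (nat_lit 2210734455) (nat_lit 456) (nat_lit 820069219) (nat_lit 146) (nat_lit 5) (nat_lit 151) (nat_lit 5) (nat_lit 152) (nat_lit 5) (nat_lit 356) (nat_lit 312) (nat_lit 232)) (XT.lf (nat_lit 0) (nat_lit 1861385952) (nat_lit 456) (nat_lit 8376721092) (nat_lit 76) (nat_lit 2469006298) (nat_lit 140) (nat_lit 5) (nat_lit 146) (nat_lit 5) (nat_lit 141) (nat_lit 5) (nat_lit 357) (nat_lit 312) (nat_lit 231))) (XT.nd (nat_lit 78) (nat_lit 304) (nat_lit 0) (XT.lf (nat_lit 0) (nat_lit 4634341932) (nat_lit 456) (nat_lit 1016251503) (nat_lit 76) (nat_lit 7275858183) (nat_lit 140) (nat_lit 5) (nat_lit 146) (nat_lit 5) (nat_lit 141) (nat_lit 5) (nat_lit 358) (nat_lit 312) (nat_lit 230)) (XT.lf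 (nat_lit 0) (nat_lit 6662122086) (nat_lit 304) (nat_lit 867883613) (nat_lit 380) (nat_lit 5621188094) (nat_lit 136) (nat_lit 5) (nat_lit 140) (nat_lit 5) (nat_lit 141) (nat_lit 5) (nat_lit 359) (nat_lit 312) (nat_lit 229)))))) (XT.nd (nat_lit 468) (nat_lit 1596) (nat_lit 0) (XT.nd (nat_lit 234) (nat_lit 304) (nat_lit 0) (XT.nd (nat_lit 78) (nat_lit 380) (nat_lit 0) (XT.lf (nat_lit 0) (nat_lit 1159583104) (nat_lit 380) (nat_lit 9389275835) (nat_lit 456) (nat_lit 2832738763) (nat_lit 131) (nat_lit 5) (nat_lit 136) (nat_lit 5) (nat_lit 137) (nat_lit 5) (nat_lit 360) (nat_lit 312) (nat_lit 228)) (XT.nd (nat_lit 78) (nat_lit 304) (nat_lit 0) (XT.lf (nat_lit 0) (nat_lit 89306865) (nat_lit 456) (nat_lit 4489252943) (nat_lit 76) (nat_lit 9038829773) (nat_lit 130) (nat_lit 5) (nat_lit 136) (nat_lit 5) (nat_lit 131) (nat_lit 5) (nat_lit 361) (nat_lit 312) (nat_lit 227)) (XT.lf (nat_lit 0) (nat_lit 3056343142) (nat_lit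 380) (nat_lit 10380278383) (nat_lit 76) (nat_lit 422372635) (nat_lit 126) (nat_lit 5) (nat_lit 131) (nat_lit 5) (nat_lit 127) (nat_lit 5) (nat_lit 362) (nat_lit 312) (nat_lit 226)))) (XT.nd (nat_lit 78) (nat_lit 304) (nat_lit 0) (XT.lf (nat_lit 0) (nat_lit 6180431245) (nat_lit 380) (nat_lit 2407240344) (nat_lit 76) (nat_lit 5518142108) (nat_lit 126) (nat_lit 5) (nat_lit 131) (nat_lit 5) (nat_lit 127) (nat_lit 5) (nat_lit 363) (nat_lit 312) (nat_lit 225)) (XT.nd (nat_lit 78) (nat_lit 0) (nat_lit 0) (XT.lf (nat_lit 0) (nat_lit 5888119112) (nat_lit 304) (nat_lit 3544322083) (nat_lit 380) (nat_lit 4926578459) (nat_lit 122) (nat_lit 5) (nat_lit 126) (nat_lit 5) (nat_lit 127) (nat_lit 5) (nat_lit 364) (nat_lit 312) (nat_lit 224)) (XT.lf (nat_lit 0) (nat_lit 12800283155) (nat_lit 380) (nat_lit 185547136) (nat_lit 76) (nat_lit 1633450931) (nat_lit 122) (nat_lit 5) (nat_lit 127) (nat_lit 5) (nat_lit 123) (nat_lit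 5) (nat_lit 365) (nat_lit 312) (nat_lit 223))))) (XT.nd (nat_lit 234) (nat_lit 912) (nat_lit 0) (XT.nd (nat_lit 78) (nat_lit 304) (nat_lit 0) (XT.lf (nat_lit 0) (nat_lit 1450570605) (nat_lit 380) (nat_lit 6451731737) (nat_lit 76) (nat_lit 6981785209) (nat_lit 117) (nat_lit 5) (nat_lit 122) (nat_lit 5) (nat_lit 118) (nat_lit 5) (nat_lit 366) (nat_lit 312) (nat_lit 222)) (XT.nd (nat_lit 78) (nat_lit 0) (nat_lit 0) (XT.lf (nat_lit 0) (nat_lit 2148483867) (nat_lit 304) (nat_lit 2634344214) (nat_lit 380) (nat_lit 10373441777) (nat_lit 113) (nat_lit 5) (nat_lit 117) (nat_lit 5) (nat_lit 118) (nat_lit 5) (nat_lit 367) (nat_lit 312) (nat_lit 221)) (XT.lf (nat_lit 0) (nat_lit 8286530997) (nat_lit 380) (nat_lit 4354650474) (nat_lit 76) (nat_lit 2793298569) (nat_lit 113) (nat_lit 5) (nat_lit 118) (nat_lit 5) (nat_lit 114) (nat_lit 5) (nat_lit 368) (nat_lit 312) (nat_lit 220)))) (XT.nd (nat_lit 156) (nat_lit 608) (nat_lit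 0) (XT.nd (nat_lit 78) (nat_lit 0) (nat_lit 0) (XT.lf (nat_lit 0) (nat_lit 4591033282) (nat_lit 304) (nat_lit 7353989992) (nat_lit 380) (nat_lit 3774529446) (nat_lit 109) (nat_lit 5) (nat_lit 113) (nat_lit 5) (nat_lit 114) (nat_lit 5) (nat_lit 369) (nat_lit 312) (nat_lit 219)) (XT.lf (nat_lit 0) (nat_lit 13864102330) (nat_lit 304) (nat_lit 1872912606) (nat_lit 380) (nat_lit 275456655) (nat_lit 109) (nat_lit 5) (nat_lit 113) (nat_lit 5) (nat_lit 114) (nat_lit 5) (nat_lit 370) (nat_lit 312) (nat_lit 218))) (XT.nd (nat_lit 78) (nat_lit 228) (nat_lit 0) (XT.lf (nat_lit 0) (nat_lit 3349978502) (nat_lit 380) (nat_lit 9169401873) (nat_lit 76) (nat_lit 3791253459) (nat_lit 104) (nat_lit 5) (nat_lit 109) (nat_lit 5) (nat_lit 105) (nat_lit 5) (nat_lit 371) (nat_lit 312) (nat_lit 217)) (XT.lf (nat_lit 0) (nat_lit 86700792) (nat_lit 228) (nat_lit 7013584626) (nat_lit 304) (nat_lit 9516730166) (nat_lit 101) (nat_lit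 5) (nat_lit 104) (nat_lit 5) (nat_lit 105) (nat_lit 5) (nat_lit 372) (nat_lit 312) (nat_lit 216))))))) (XT.nd (nat_lit 1014) (nat_lit 1444) (nat_lit 0) (XT.nd (nat_lit 468) (nat_lit 988) (nat_lit 0) (XT.nd (nat_lit 234) (nat_lit 456) (nat_lit 0) (XT.nd (nat_lit 78) (nat_lit 380) (nat_lit 0) (XT.lf (nat_lit 0) (nat_lit 9778768322) (nat_lit 228) (nat_lit 1257571834) (nat_lit 304) (nat_lit 5894057113) (nat_lit 101) (nat_lit 5) (nat_lit 104) (nat_lit 5) (nat_lit 105) (nat_lit 5) (nat_lit 373) (nat_lit 312) (nat_lit 215)) (XT.nd (nat_lit 78) (nat_lit 76) (nat_lit 0) (XT.lf (nat_lit 0) (nat_lit 2482671403) (nat_lit 304) (nat_lit 12657684738) (nat_lit 380) (nat_lit 2111333353) (nat_lit 97) (nat_lit 5) (nat_lit 101) (nat_lit 5) (nat_lit 102) (nat_lit 5) (nat_lit 374) (nat_lit 312) (nat_lit 214)) (XT.lf (nat_lit 0) (nat_lit 1816621250) (nat_lit 380) (nat_lit 5087557849) (nat_lit 76) (nat_lit 10675934480) (nat_lit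 96) (nat_lit 5) (nat_lit 101) (nat_lit 5) (nat_lit 97) (nat_lit 5) (nat_lit 375) (nat_lit 312) (nat_lit 213)))) (XT.nd (nat_lit 78) (nat_lit 228) (nat_lit 0) (XT.lf (nat_lit 0) (nat_lit 4931139484) (nat_lit 228) (nat_lit 917982909) (nat_lit 304) (nat_lit 12067771570) (nat_lit 93) (nat_lit 5) (nat_lit 96) (nat_lit 5) (nat_lit 97) (nat_lit 5) (nat_lit 376) (nat_lit 312) (nat_lit 212)) (XT.nd (nat_lit 78) (nat_lit 228) (nat_lit 0) (XT.lf (nat_lit 0) (nat_lit 10086830841) (nat_lit 304) (nat_lit 2987195856) (nat_lit 76) (nat_lit 5187228959) (nat_lit 93) (nat_lit 5) (nat_lit 97) (nat_lit 5) (nat_lit 94) (nat_lit 5) (nat_lit 377) (nat_lit 312) (nat_lit 211)) (XT.lf (nat_lit 0) (nat_lit 7419147297) (nat_lit 228) (nat_lit 7095360827) (nat_lit 304) (nat_lit 4099559673) (nat_lit 90) (nat_lit 5) (nat_lit 93) (nat_lit 5) (nat_lit 94) (nat_lit 5) (nat_lit 378) (nat_lit 312) (nat_lit 210))))) (XT.nd (nat_lit 234) (nat_lit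 456) (nat_lit 0) (XT.nd (nat_lit 78) (nat_lit 456) (nat_lit 0) (XT.lf (nat_lit 0) (nat_lit 108613134) (nat_lit 304) (nat_lit 806817576) (nat_lit 76) (nat_lit 18061620957) (nat_lit 89) (nat_lit 5) (nat_lit 93) (nat_lit 5) (nat_lit 90) (nat_lit 5) (nat_lit 379) (nat_lit 312) (nat_lit 209)) (XT.nd (nat_lit 78) (nat_lit 228) (nat_lit 0) (XT.lf (nat_lit 0) (nat_lit 4493617061) (nat_lit 304) (nat_lit 9380221170) (nat_lit 76) (nat_lit 5471883964) (nat_lit 86) (nat_lit 5) (nat_lit 90) (nat_lit 5) (nat_lit 87) (nat_lit 5) (nat_lit 380) (nat_lit 312) (nat_lit 208)) (XT.lf (nat_lit 0) (nat_lit 1342097395) (nat_lit 228) (nat_lit 7681417347) (nat_lit 304) (nat_lit 10701541986) (nat_lit 83) (nat_lit 5) (nat_lit 86) (nat_lit 5) (nat_lit 87) (nat_lit 5) (nat_lit 381) (nat_lit 312) (nat_lit 207)))) (XT.nd (nat_lit 156) (nat_lit 304) (nat_lit 0) (XT.nd (nat_lit 78) (nat_lit 152) (nat_lit 0) (XT.lf (nat_lit 0) (nat_lit 12551371023)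 (nat_lit 228) (nat_lit 1216042344) (nat_lit 304) (nat_lit 6346018884) (nat_lit 83) (nat_lit 5) (nat_lit 86) (nat_lit 5) (nat_lit 87) (nat_lit 5) (nat_lit 382) (nat_lit 312) (nat_lit 206)) (XT.lf (nat_lit 0) (nat_lit 3574282156) (nat_lit 152) (nat_lit 15149798550) (nat_lit 228) (nat_lit 1787268741) (nat_lit 81) (nat_lit 5) (nat_lit 83) (nat_lit 5) (nat_lit 84) (nat_lit 5) (nat_lit 383) (nat_lit 312) (nat_lit 205))) (XT.nd (nat_lit 78) (nat_lit 228) (nat_lit 0) (XT.lf (nat_lit 0) (nat_lit 2924478175) (nat_lit 228) (nat_lit 5786603810) (nat_lit 76) (nat_lit 12207097690) (nat_lit 80) (nat_lit 5) (nat_lit 83) (nat_lit 5) (nat_lit 81) (nat_lit 5) (nat_lit 384) (nat_lit 312) (nat_lit 204)) (XT.lf (nat_lit 0) (nat_lit 5767326641) (nat_lit 228) (nat_lit 2014065181) (nat_lit 304) (nat_lit 13554103639) (nat_lit 77) (nat_lit 5) (nat_lit 80) (nat_lit 5) (nat_lit 81) (nat_lit 5) (nat_lit 385) (nat_lit 312) (nat_lit 203))))))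 (XT.nd (nat_lit 546) (nat_lit 608) (nat_lit 0) (XT.nd (nat_lit 234) (nat_lit 608) (nat_lit 0) (XT.nd (nat_lit 78) (nat_lit 228) (nat_lit 0) (XT.lf (nat_lit 0) (nat_lit 12874382388) (nat_lit 304) (nat_lit 4050617618) (nat_lit 76) (nat_lit 4837623144) (nat_lit 77) (nat_lit 5) (nat_lit 81) (nat_lit 5) (nat_lit 78) (nat_lit 5) (nat_lit 386) (nat_lit 312) (nat_lit 202)) (XT.nd (nat_lit 78) (nat_lit 76) (nat_lit 0) (XT.lf (nat_lit 0) (nat_lit 7921850886) (nat_lit 152) (nat_lit 10279267689) (nat_lit 228) (nat_lit 3999020832) (nat_lit 75) (nat_lit 5) (nat_lit 77) (nat_lit 5) (nat_lit 78) (nat_lit 5) (nat_lit 387) (nat_lit 312) (nat_lit 201)) (XT.lf (nat_lit 0) (nat_lit 1042865138) (nat_lit 228) (nat_lit 2348706703) (nat_lit 76) (nat_lit 19258126836) (nat_lit 74) (nat_lit 5) (nat_lit 77) (nat_lit 5) (nat_lit 75) (nat_lit 5) (nat_lit 388) (nat_lit 312) (nat_lit 200)))) (XT.nd (nat_lit 156) (nat_lit 380) (nat_lit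 0) (XT.nd (nat_lit 78) (nat_lit 0) (nat_lit 0) (XT.lf (nat_lit 0) (nat_lit 6274643122) (nat_lit 304) (nat_lit 13074821844) (nat_lit 76) (nat_lit 3758524702) (nat_lit 71) (nat_lit 5) (nat_lit 75) (nat_lit 5) (nat_lit 72) (nat_lit 5) (nat_lit 389) (nat_lit 312) (nat_lit 199)) (XT.lf (nat_lit 0) (nat_lit 11706358035) (nat_lit 304) (nat_lit 803159258) (nat_lit 76) (nat_lit 11069225621) (nat_lit 71) (nat_lit 5) (nat_lit 75) (nat_lit 5) (nat_lit 72) (nat_lit 5) (nat_lit 390) (nat_lit 312) (nat_lit 198))) (XT.nd (nat_lit 78) (nat_lit 228) (nat_lit 0) (XT.lf (nat_lit 0) (nat_lit 12047796270) (nat_lit 152) (nat_lit 5354914168) (nat_lit 228) (nat_lit 6657860682) (nat_lit 69) (nat_lit 5) (nat_lit 71) (nat_lit 5) (nat_lit 72) (nat_lit 5) (nat_lit 391) (nat_lit 312) (nat_lit 197)) (XT.lf (nat_lit 0) (nat_lit 714589425) (nat_lit 228) (nat_lit 22575751322) (nat_lit 304) (nat_lit 1265904665) (nat_lit 66) (nat_lit 5) (nat_lit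 69) (nat_lit 5) (nat_lit 70) (nat_lit 5) (nat_lit 392) (nat_lit 312) (nat_lit 196))))) (XT.nd (nat_lit 234) (nat_lit 380) (nat_lit 0) (XT.nd (nat_lit 78) (nat_lit 152) (nat_lit 0) (XT.lf (nat_lit 0) (nat_lit 4365669588) (nat_lit 304) (nat_lit 11112653694) (nat_lit 76) (nat_lit 9582386928) (nat_lit 65) (nat_lit 5) (nat_lit 69) (nat_lit 5) (nat_lit 66) (nat_lit 5) (nat_lit 393) (nat_lit 312) (nat_lit 195)) (XT.nd (nat_lit 78) (nat_lit 0) (nat_lit 0) (XT.lf (nat_lit 0) (nat_lit 2001349551) (nat_lit 152) (nat_lit 8145048620) (nat_lit 228) (nat_lit 15433367870) (nat_lit 63) (nat_lit 5) (nat_lit 65) (nat_lit 5) (nat_lit 66) (nat_lit 5) (nat_lit 394) (nat_lit 312) (nat_lit 194)) (XT.lf (nat_lit 0) (nat_lit 15713411759) (nat_lit 152) (nat_lit 485938335) (nat_lit 228) (nat_lit 9912081949) (nat_lit 63) (nat_lit 5) (nat_lit 65) (nat_lit 5) (nat_lit 66) (nat_lit 5) (nat_lit 395) (nat_lit 312) (nat_lit 193)))) (XT.nd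 (nat_lit 156) (nat_lit 152) (nat_lit 0) (XT.nd (nat_lit 78) (nat_lit 76) (nat_lit 0) (XT.lf (nat_lit 0) (nat_lit 3145213286) (nat_lit 152) (nat_lit 19376957876) (nat_lit 228) (nat_lit 4134230910) (nat_lit 61) (nat_lit 5) (nat_lit 63) (nat_lit 5) (nat_lit 64) (nat_lit 5) (nat_lit 396) (nat_lit 312) (nat_lit 192)) (XT.lf (nat_lit 0) (nat_lit 1879270556) (nat_lit 228) (nat_lit 9952821253) (nat_lit 76) (nat_lit 15382174640) (nat_lit 60) (nat_lit 5) (nat_lit 63) (nat_lit 5) (nat_lit 61) (nat_lit 5) (nat_lit 397) (nat_lit 312) (nat_lit 191))) (XT.nd (nat_lit 78) (nat_lit 0) (nat_lit 0) (XT.lf (nat_lit 0) (nat_lit 4027799489) (nat_lit 152) (nat_lit 3988302038) (nat_lit 228) (nat_lit 19770758946) (nat_lit 58) (nat_lit 5) (nat_lit 60) (nat_lit 5) (nat_lit 61) (nat_lit 5) (nat_lit 398) (nat_lit 312) (nat_lit 190)) (XT.lf (nat_lit 0) (nat_lit 14465229059) (nat_lit 228) (nat_lit 9804306084) (nat_lit 76) (nat_lit 4103253616)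 (nat_lit 58) (nat_lit 5) (nat_lit 61) (nat_lit 5) (nat_lit 59) (nat_lit 5) (nat_lit 399) (nat_lit 312) (nat_lit 189))))))))
noncomputable def xc137 : XT := (XT.nd (nat_lit 2106) (nat_lit 836) (nat_lit 0) (XT.nd (nat_lit 1014) (nat_lit 912) (nat_lit 0) (XT.nd (nat_lit 468) (nat_lit 532) (nat_lit 0) (XT.nd (nat_lit 234) (nat_lit 152) (nat_lit 0) (XT.nd (nat_lit 78) (nat_lit 228) (nat_lit 0) (XT.lf (nat_lit 0) (nat_lit 4597736833) (nat_lit 152) (nat_lit 16581515144) (nat_lit 228) (nat_lit 7794902398) (nat_lit 56) (nat_lit 5) (nat_lit 58) (nat_lit 5) (nat_lit 59) (nat_lit 5) (nat_lit 400) (nat_lit 312) (nat_lit 188)) (XT.nd (nat_lit 78) (nat_lit 228) (nat_lit 0) (XT.lf (nat_lit 0) (nat_lit 19611446421) (nat_lit 152) (nat_lit 8570142307) (nat_lit 228) (nat_lit 1409367501) (nat_lit 56) (nat_lit 5) (nat_lit 58) (nat_lit 5) (nat_lit 59) (nat_lit 5) (nat_lit 401) (nat_lit 312) (nat_lit 187)) (XT.lf (nat_lit 0) (nat_lit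 4873744985) (nat_lit 152) (nat_lit 228120026) (nat_lit 228) (nat_lit 25121859633) (nat_lit 53) (nat_lit 5) (nat_lit 55) (nat_lit 5) (nat_lit 56) (nat_lit 5) (nat_lit 402) (nat_lit 312) (nat_lit 186)))) (XT.nd (nat_lit 78) (nat_lit 152) (nat_lit 0) (XT.lf (nat_lit 0) (nat_lit 11950462665) (nat_lit 228) (nat_lit 10611688746) (nat_lit 76) (nat_lit 8307797313) (nat_lit 53) (nat_lit 5) (nat_lit 56) (nat_lit 5) (nat_lit 54) (nat_lit 5) (nat_lit 403) (nat_lit 312) (nat_lit 185)) (XT.nd (nat_lit 78) (nat_lit 0) (nat_lit 0) (XT.lf (nat_lit 0) (nat_lit 4636530715) (nat_lit 152) (nat_lit 14403341888) (nat_lit 228) (nat_lit 12494628130) (nat_lit 51) (nat_lit 5) (nat_lit 53) (nat_lit 5) (nat_lit 54) (nat_lit 5) (nat_lit 404) (nat_lit 312) (nat_lit 184)) (XT.lf (nat_lit 0) (nat_lit 20539489361) (nat_lit 152) (nat_lit 5898298948) (nat_lit 228) (nat_lit 5778328069) (nat_lit 51) (nat_lit 5) (nat_lit 53) (nat_lit 5) (nat_lit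 54) (nat_lit 5) (nat_lit 405) (nat_lit 312) (nat_lit 183))))) (XT.nd (nat_lit 234) (nat_lit 152) (nat_lit 0) (XT.nd (nat_lit 78) (nat_lit 152) (nat_lit 0) (XT.lf (nat_lit 0) (nat_lit 1172958471) (nat_lit 228) (nat_lit 28895384795) (nat_lit 76) (nat_lit 2847838337) (nat_lit 48) (nat_lit 5) (nat_lit 51) (nat_lit 5) (nat_lit 49) (nat_lit 5) (nat_lit 406) (nat_lit 312) (nat_lit 182)) (XT.nd (nat_lit 78) (nat_lit 152) (nat_lit 0) (XT.lf (nat_lit 0) (nat_lit 8383059096) (nat_lit 228) (nat_lit 13341909008) (nat_lit 76) (nat_lit 11905573550) (nat_lit 48) (nat_lit 5) (nat_lit 51) (nat_lit 5) (nat_lit 49) (nat_lit 5) (nat_lit 407) (nat_lit 312) (nat_lit 181)) (XT.lf (nat_lit 0) (nat_lit 2711744522) (nat_lit 152) (nat_lit 13113044086) (nat_lit 228) (nat_lit 18541085706) (nat_lit 46) (nat_lit 5) (nat_lit 48) (nat_lit 5) (nat_lit 49) (nat_lit 5) (nat_lit 408) (nat_lit 312) (nat_lit 180)))) (XT.nd (nat_lit 156) (nat_lit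 76) (nat_lit 0) (XT.nd (nat_lit 78) (nat_lit 76) (nat_lit 0) (XT.lf (nat_lit 0) (nat_lit 19501350911) (nat_lit 152) (nat_lit 4112533874) (nat_lit 228) (nat_lit 11505660262) (nat_lit 46) (nat_lit 5) (nat_lit 48) (nat_lit 5) (nat_lit 49) (nat_lit 5) (nat_lit 409) (nat_lit 312) (nat_lit 179)) (XT.lf (nat_lit 0) (nat_lit 846938806) (nat_lit 76) (nat_lit 30837055158) (nat_lit 152) (nat_lit 4210413227) (nat_lit 45) (nat_lit 5) (nat_lit 46) (nat_lit 5) (nat_lit 47) (nat_lit 4) (nat_lit 410) (nat_lit 312) (nat_lit 178))) (XT.nd (nat_lit 78) (nat_lit 0) (nat_lit 0) (XT.lf (nat_lit 0) (nat_lit 3428854389) (nat_lit 152) (nat_lit 18654486088) (nat_lit 76) (nat_lit 14602534512) (nat_lit 44) (nat_lit 5) (nat_lit 46) (nat_lit 5) (nat_lit 45) (nat_lit 5) (nat_lit 411) (nat_lit 312) (nat_lit 177)) (XT.lf (nat_lit 0) (nat_lit 11202613998) (nat_lit 152) (nat_lit 1829701500) (nat_lit 76) (nat_lit 24467823898) (nat_lit 44)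 (nat_lit 5) (nat_lit 46) (nat_lit 5) (nat_lit 45) (nat_lit 5) (nat_lit 412) (nat_lit 312) (nat_lit 176)))))) (XT.nd (nat_lit 546) (nat_lit 380) (nat_lit 0) (XT.nd (nat_lit 234) (nat_lit 304) (nat_lit 0) (XT.nd (nat_lit 78) (nat_lit 76) (nat_lit 0) (XT.lf (nat_lit 0) (nat_lit 15790183060) (nat_lit 152) (nat_lit 3561420371) (nat_lit 228) (nat_lit 18982969118) (nat_lit 42) (nat_lit 5) (nat_lit 44) (nat_lit 5) (nat_lit 45) (nat_lit 5) (nat_lit 413) (nat_lit 312) (nat_lit 175)) (XT.nd (nat_lit 78) (nat_lit 76) (nat_lit 0) (XT.lf (nat_lit 0) (nat_lit 27813529769) (nat_lit 228) (nat_lit 5294840043) (nat_lit 76) (nat_lit 6083616156) (nat_lit 42) (nat_lit 5) (nat_lit 45) (nat_lit 5) (nat_lit 43) (nat_lit 4) (nat_lit 414) (nat_lit 312) (nat_lit 174)) (XT.lf (nat_lit 0) (nat_lit 12666820998) (nat_lit 76) (nat_lit 24010070280) (nat_lit 152) (nat_lit 3393804440) (nat_lit 41) (nat_lit 5) (nat_lit 42) (nat_lit 5) (nat_lit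 43) (nat_lit 4) (nat_lit 415) (nat_lit 312) (nat_lit 173)))) (XT.nd (nat_lit 156) (nat_lit 76) (nat_lit 0) (XT.nd (nat_lit 78) (nat_lit 152) (nat_lit 0) (XT.lf (nat_lit 0) (nat_lit 4780697009) (nat_lit 152) (nat_lit 9762561778) (nat_lit 76) (nat_lit 26429779120) (nat_lit 40) (nat_lit 5) (nat_lit 42) (nat_lit 5) (nat_lit 41) (nat_lit 5) (nat_lit 416) (nat_lit 312) (nat_lit 172)) (XT.lf (nat_lit 0) (nat_lit 8523917037) (nat_lit 152) (nat_lit 4681087577) (nat_lit 228) (nat_lit 28694255334) (nat_lit 38) (nat_lit 5) (nat_lit 40) (nat_lit 5) (nat_lit 41) (nat_lit 5) (nat_lit 417) (nat_lit 312) (nat_lit 171))) (XT.nd (nat_lit 78) (nat_lit 76) (nat_lit 0) (XT.lf (nat_lit 0) (nat_lit 22025127839) (nat_lit 228) (nat_lit 15361660475) (nat_lit 76) (nat_lit 5462188854) (nat_lit 38) (nat_lit 5) (nat_lit 41) (nat_lit 5) (nat_lit 39) (nat_lit 4) (nat_lit 418) (nat_lit 312) (nat_lit 170)) (XT.lf (nat_lit 0) (nat_lit 3192024757)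 (nat_lit 76) (nat_lit 27986006547) (nat_lit 152) (nat_lit 12647110382) (nat_lit 37) (nat_lit 5) (nat_lit 38) (nat_lit 5) (nat_lit 39) (nat_lit 4) (nat_lit 419) (nat_lit 312) (nat_lit 169))))) (XT.nd (nat_lit 234) (nat_lit 152) (nat_lit 0) (XT.nd (nat_lit 78) (nat_lit 228) (nat_lit 0) (XT.lf (nat_lit 0) (nat_lit 22601031628) (nat_lit 76) (nat_lit 18150860636) (nat_lit 152) (nat_lit 4074308812) (nat_lit 37) (nat_lit 5) (nat_lit 38) (nat_lit 5) (nat_lit 39) (nat_lit 4) (nat_lit 420) (nat_lit 312) (nat_lit 168)) (XT.nd (nat_lit 78) (nat_lit 152) (nat_lit 0) (XT.lf (nat_lit 0) (nat_lit 4654293952) (nat_lit 152) (nat_lit 3326586217) (nat_lit 76) (nat_lit 37875299103) (nat_lit 36) (nat_lit 5) (nat_lit 38) (nat_lit 5) (nat_lit 37) (nat_lit 5) (nat_lit 421) (nat_lit 312) (nat_lit 167)) (XT.lf (nat_lit 0) (nat_lit 13738079227) (nat_lit 228) (nat_lit 30533958989) (nat_lit 76) (nat_lit 2638552947) (nat_lit 34) (nat_lit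 5) (nat_lit 37) (nat_lit 5) (nat_lit 35) (nat_lit 4) (nat_lit 422) (nat_lit 312) (nat_lit 166)))) (XT.nd (nat_lit 156) (nat_lit 76) (nat_lit 0) (XT.nd (nat_lit 78) (nat_lit 76) (nat_lit 0) (XT.lf (nat_lit 0) (nat_lit 23199016993) (nat_lit 228) (nat_lit 11351294571) (nat_lit 76) (nat_lit 13443185606) (nat_lit 34) (nat_lit 5) (nat_lit 37) (nat_lit 5) (nat_lit 35) (nat_lit 4) (nat_lit 423) (nat_lit 312) (nat_lit 165)) (XT.lf (nat_lit 0) (nat_lit 8558859501) (nat_lit 76) (nat_lit 24459133982) (nat_lit 152) (nat_lit 16088671461) (nat_lit 33) (nat_lit 5) (nat_lit 34) (nat_lit 5) (nat_lit 35) (nat_lit 4) (nat_lit 424) (nat_lit 312) (nat_lit 164))) (XT.nd (nat_lit 78) (nat_lit 76) (nat_lit 0) (XT.lf (nat_lit 0) (nat_lit 29284151256) (nat_lit 76) (nat_lit 13954043437) (nat_lit 152) (nat_lit 7011834271) (nat_lit 33) (nat_lit 5) (nat_lit 34) (nat_lit 5) (nat_lit 35) (nat_lit 4) (nat_lit 425) (nat_lit 312) (nat_lit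 163)) (XT.lf (nat_lit 0) (nat_lit 2283883038) (nat_lit 152) (nat_lit 833540763) (nat_lit 76) (nat_lit 48309831372) (nat_lit 32) (nat_lit 5) (nat_lit 34) (nat_lit 5) (nat_lit 33) (nat_lit 5) (nat_lit 426) (nat_lit 312) (nat_lit 162))))))) (XT.nd (nat_lit 1014) (nat_lit 228) (nat_lit 0) (XT.nd (nat_lit 468) (nat_lit 228) (nat_lit 0) (XT.nd (nat_lit 234) (nat_lit 152) (nat_lit 0) (XT.nd (nat_lit 78) (nat_lit 76) (nat_lit 0) (XT.lf (nat_lit 0) (nat_lit 11984133359) (nat_lit 228) (nat_lit 32498362892) (nat_lit 76) (nat_lit 8147222223) (nat_lit 30) (nat_lit 5) (nat_lit 33) (nat_lit 5) (nat_lit 31) (nat_lit 4) (nat_lit 427) (nat_lit 312) (nat_lit 161)) (XT.nd (nat_lit 78) (nat_lit 76) (nat_lit 0) (XT.lf (nat_lit 0) (nat_lit 22007192816) (nat_lit 228) (nat_lit 12170847202) (nat_lit 76) (nat_lit 19689262386) (nat_lit 30) (nat_lit 5) (nat_lit 33) (nat_lit 5) (nat_lit 31) (nat_lit 4) (nat_lit 428) (nat_lit 312) (nat_lit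 160)) (XT.lf (nat_lit 0) (nat_lit 8926922693) (nat_lit 76) (nat_lit 23482488306) (nat_lit 152) (nat_lit 22730249601) (nat_lit 29) (nat_lit 5) (nat_lit 30) (nat_lit 5) (nat_lit 31) (nat_lit 4) (nat_lit 429) (nat_lit 312) (nat_lit 159)))) (XT.nd (nat_lit 78) (nat_lit 152) (nat_lit 0) (XT.lf (nat_lit 0) (nat_lit 30893483421) (nat_lit 76) (nat_lit 12345852762) (nat_lit 152) (nat_lit 13207384879) (nat_lit 29) (nat_lit 5) (nat_lit 30) (nat_lit 5) (nat_lit 31) (nat_lit 4) (nat_lit 430) (nat_lit 312) (nat_lit 158)) (XT.nd (nat_lit 78) (nat_lit 152) (nat_lit 0) (XT.lf (nat_lit 0) (nat_lit 53505805338) (nat_lit 76) (nat_lit 881304038) (nat_lit 152) (nat_lit 3406096167) (nat_lit 29) (nat_lit 5) (nat_lit 30) (nat_lit 5) (nat_lit 31) (nat_lit 4) (nat_lit 431) (nat_lit 312) (nat_lit 157)) (XT.lf (nat_lit 0) (nat_lit 6831059027) (nat_lit 152) (nat_lit 41392338581) (nat_lit 76) (nat_lit 10946587827) (nat_lit 27) (nat_lit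 5) (nat_lit 29) (nat_lit 5) (nat_lit 28) (nat_lit 4) (nat_lit 432) (nat_lit 312) (nat_lit 156))))) (XT.nd (nat_lit 234) (nat_lit 152) (nat_lit 0) (XT.nd (nat_lit 78) (nat_lit 76) (nat_lit 0) (XT.lf (nat_lit 0) (nat_lit 17352425427) (nat_lit 152) (nat_lit 20050124055) (nat_lit 76) (nat_lit 23183141512) (nat_lit 27) (nat_lit 5) (nat_lit 29) (nat_lit 5) (nat_lit 28) (nat_lit 4) (nat_lit 433) (nat_lit 312) (nat_lit 155)) (XT.nd (nat_lit 78) (nat_lit 0) (nat_lit 0) (XT.lf (nat_lit 0) (nat_lit 1957933310) (nat_lit 76) (nat_lit 26243628064) (nat_lit 152) (nat_lit 33841943123) (nat_lit 26) (nat_lit 5) (nat_lit 27) (nat_lit 5) (nat_lit 28) (nat_lit 4) (nat_lit 434) (nat_lit 312) (nat_lit 154)) (XT.lf (nat_lit 0) (nat_lit 25024734180) (nat_lit 76) (nat_lit 14547286567) (nat_lit 152) (nat_lit 23967156791) (nat_lit 26) (nat_lit 5) (nat_lit 27) (nat_lit 5) (nat_lit 28) (nat_lit 4) (nat_lit 435) (nat_lit 312) (nat_lit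 153)))) (XT.nd (nat_lit 156) (nat_lit 76) (nat_lit 0) (XT.nd (nat_lit 78) (nat_lit 76) (nat_lit 0) (XT.lf (nat_lit 0) (nat_lit 48771397228) (nat_lit 76) (nat_lit 2505771826) (nat_lit 152) (nat_lit 13802745058) (nat_lit 26) (nat_lit 5) (nat_lit 27) (nat_lit 5) (nat_lit 28) (nat_lit 4) (nat_lit 436) (nat_lit 312) (nat_lit 152)) (XT.lf (nat_lit 0) (nat_lit 6585026501) (nat_lit 76) (nat_lit 56900589450) (nat_lit 76) (nat_lit 3176693089) (nat_lit 25) (nat_lit 4) (nat_lit 26) (nat_lit 5) (nat_lit 26) (nat_lit 4) (nat_lit 437) (nat_lit 312) (nat_lit 151))) (XT.nd (nat_lit 78) (nat_lit 0) (nat_lit 0) (XT.lf (nat_lit 0) (nat_lit 7801396772) (nat_lit 152) (nat_lit 37900594042) (nat_lit 76) (nat_lit 22582400162) (nat_lit 24) (nat_lit 5) (nat_lit 26) (nat_lit 5) (nat_lit 25) (nat_lit 4) (nat_lit 438) (nat_lit 312) (nat_lit 150)) (XT.lf (nat_lit 0) (nat_lit 19038880491) (nat_lit 152) (nat_lit 15101641054) (nat_lit 76)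 (nat_lit 35813853796) (nat_lit 24) (nat_lit 5) (nat_lit 26) (nat_lit 5) (nat_lit 25) (nat_lit 4) (nat_lit 439) (nat_lit 312) (nat_lit 149)))))) (XT.nd (nat_lit 37128) (nat_lit 0) (nat_lit 21888) (XT.nd (nat_lit 234) (nat_lit 152) (nat_lit 0) (XT.nd (nat_lit 78) (nat_lit 0) (nat_lit 0) (XT.lf (nat_lit 0) (nat_lit 8536614248) (nat_lit 76) (nat_lit 22153010861) (nat_lit 152) (nat_lit 40982550551) (nat_lit 23) (nat_lit 5) (nat_lit 24) (nat_lit 5) (nat_lit 25) (nat_lit 4) (nat_lit 440) (nat_lit 312) (nat_lit 148)) (XT.nd (nat_lit 78) (nat_lit 0) (nat_lit 0) (XT.lf (nat_lit 0) (nat_lit 33182449938) (nat_lit 76) (nat_lit 9654081782) (nat_lit 152) (nat_lit 30600579579) (nat_lit 23) (nat_lit 5) (nat_lit 24) (nat_lit 5) (nat_lit 25) (nat_lit 4) (nat_lit 441) (nat_lit 312) (nat_lit 147)) (XT.lf (nat_lit 0) (nat_lit 55373060391) (nat_lit 152) (nat_lit 16729218719) (nat_lit 0) (nat_lit 3151959938) (nat_lit 23) (nat_lit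 5) (nat_lit 25) (nat_lit 4) (nat_lit 23) (nat_lit 4) (nat_lit 442) (nat_lit 312) (nat_lit 146)))) (XT.nd (nat_lit 36738) (nat_lit 0) (nat_lit 22648) (XT.nd (nat_lit 78) (nat_lit 76) (nat_lit 0) (XT.lf (nat_lit 0) (nat_lit 7542977776) (nat_lit 76) (nat_lit 60905230922) (nat_lit 76) (nat_lit 8672796686) (nat_lit 22) (nat_lit 4) (nat_lit 23) (nat_lit 5) (nat_lit 23) (nat_lit 4) (nat_lit 443) (nat_lit 312) (nat_lit 145)) (XT.lf (nat_lit 0) (nat_lit 2980839044) (nat_lit 152) (nat_lit 46192334649) (nat_lit 76) (nat_lit 29864822023) (nat_lit 21) (nat_lit 5) (nat_lit 23) (nat_lit 5) (nat_lit 22) (nat_lit 4) (nat_lit 444) (nat_lit 312) (nat_lit 144))) (XT.nd (nat_lit 78) (nat_lit 0) (nat_lit 0) (XT.lf (nat_lit 0) (nat_lit 524110927) (nat_lit 836) (nat_lit 1529197584) (nat_lit 836) (nat_lit 1529197584) (nat_lit 319) (nat_lit 3) (nat_lit 330) (nat_lit 3) (nat_lit 330) (nat_lit 5) (nat_lit 313) (nat_lit 313) (nat_lit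 274)) (XT.lf (nat_lit 76) (nat_lit 399025394) (nat_lit 0) (nat_lit 2306578244) (nat_lit 836) (nat_lit 4516522666) (nat_lit 320) (nat_lit 5) (nat_lit 319) (nat_lit 3) (nat_lit 330) (nat_lit 5) (nat_lit 314) (nat_lit 313) (nat_lit 273))))) (XT.nd (nat_lit 234) (nat_lit 0) (nat_lit 0) (XT.nd (nat_lit 78) (nat_lit 760) (nat_lit 0) (XT.lf (nat_lit 76) (nat_lit 3989266798) (nat_lit 0) (nat_lit 390081284) (nat_lit 836) (nat_lit 2902649894) (nat_lit 320) (nat_lit 5) (nat_lit 319) (nat_lit 3) (nat_lit 330) (nat_lit 5) (nat_lit 315) (nat_lit 313) (nat_lit 272)) (XT.nd (nat_lit 78) (nat_lit 836) (nat_lit 0) (XT.lf (nat_lit 76) (nat_lit 299348877) (nat_lit 0) (nat_lit 5759973595) (nat_lit 836) (nat_lit 1285704906) (nat_lit 321) (nat_lit 5) (nat_lit 320) (nat_lit 5) (nat_lit 331) (nat_lit 5) (nat_lit 316) (nat_lit 313) (nat_lit 271)) (XT.lf (nat_lit 0) (nat_lit 348531018) (nat_lit 836) (nat_lit 3385836780) (nat_lit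 912) (nat_lit 3676224259) (nat_lit 309) (nat_lit 5) (nat_lit 320) (nat_lit 5) (nat_lit 321) (nat_lit 5) (nat_lit 317) (nat_lit 313) (nat_lit 270)))) (XT.nd (nat_lit 156) (nat_lit 0) (nat_lit 76) (XT.nd (nat_lit 78) (nat_lit 0) (nat_lit 76) (XT.lf (nat_lit 76) (nat_lit 343071857) (nat_lit 0) (nat_lit 1606713843) (nat_lit 912) (nat_lit 5529679625) (nat_lit 310) (nat_lit 5) (nat_lit 309) (nat_lit 5) (nat_lit 321) (nat_lit 5) (nat_lit 318) (nat_lit 313) (nat_lit 269)) (XT.lf (nat_lit 0) (nat_lit 3581392956) (nat_lit 836) (nat_lit 3338444914) (nat_lit 912) (nat_lit 631134888) (nat_lit 310) (nat_lit 5) (nat_lit 321) (nat_lit 5) (nat_lit 322) (nat_lit 5) (nat_lit 319) (nat_lit 313) (nat_lit 268))) (XT.nd (nat_lit 78) (nat_lit 0) (nat_lit 0) (XT.lf (nat_lit 76) (nat_lit 532626293) (nat_lit 0) (nat_lit 4694199573) (nat_lit 912) (nat_lit 2398889546) (nat_lit 311) (nat_lit 5) (nat_lit 310) (nat_lit 5) (nat_lit 322)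 (nat_lit 5) (nat_lit 320) (nat_lit 313) (nat_lit 267)) (XT.lf (nat_lit 76) (nat_lit 4553309375) (nat_lit 0) (nat_lit 2347173032) (nat_lit 912) (nat_lit 802887385) (nat_lit 311) (nat_lit 5) (nat_lit 310) (nat_lit 5) (nat_lit 322) (nat_lit 5) (nat_lit 321) (nat_lit 313) (nat_lit 266))))))))
noncomputable def xc138 : XT := (XT.nd (nat_lit 2106) (nat_lit 5928) (nat_lit 0) (XT.nd (nat_lit 1014) (nat_lit 5320) (nat_lit 0) (XT.nd (nat_lit 468) (nat_lit 3192) (nat_lit 0) (XT.nd (nat_lit 234) (nat_lit 912) (nat_lit 0) (XT.nd (nat_lit 78) (nat_lit 0) (nat_lit 0) (XT.lf (nat_lit 0) (nat_lit 780300975) (nat_lit 912) (nat_lit 6900112512) (nat_lit 988) (nat_lit 104059524) (nat_lit 299) (nat_lit 5) (nat_lit 311) (nat_lit 5) (nat_lit 312) (nat_lit 5) (nat_lit 322) (nat_lit 313) (nat_lit 265)) (XT.nd (nat_lit 78) (nat_lit 0) (nat_lit 0) (XT.lf (nat_lit 0) (nat_lit 2397802900) (nat_lit 912) (nat_lit 2830650806) (nat_lit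 988) (nat_lit 2639260756) (nat_lit 299) (nat_lit 5) (nat_lit 311) (nat_lit 5) (nat_lit 312) (nat_lit 5) (nat_lit 323) (nat_lit 313) (nat_lit 264)) (XT.lf (nat_lit 76) (nat_lit 1351857566) (nat_lit 0) (nat_lit 2674085101) (nat_lit 988) (nat_lit 3928678439) (nat_lit 300) (nat_lit 5) (nat_lit 299) (nat_lit 5) (nat_lit 312) (nat_lit 5) (nat_lit 324) (nat_lit 313) (nat_lit 263)))) (XT.nd (nat_lit 78) (nat_lit 988) (nat_lit 0) (XT.lf (nat_lit 0) (nat_lit 5681783287) (nat_lit 912) (nat_lit 2362012619) (nat_lit 988) (nat_lit 1003763) (nat_lit 300) (nat_lit 5) (nat_lit 312) (nat_lit 5) (nat_lit 313) (nat_lit 5) (nat_lit 325) (nat_lit 313) (nat_lit 262)) (XT.nd (nat_lit 78) (nat_lit 988) (nat_lit 0) (XT.lf (nat_lit 76) (nat_lit 1982507394) (nat_lit 0) (nat_lit 5402173234) (nat_lit 988) (nat_lit 753111051) (nat_lit 301) (nat_lit 5) (nat_lit 300) (nat_lit 5) (nat_lit 313) (nat_lit 5) (nat_lit 326) (nat_lit 313) (nat_lit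 261)) (XT.lf (nat_lit 0) (nat_lit 863934718) (nat_lit 988) (nat_lit 1772300792) (nat_lit 1064) (nat_lit 5597809621) (nat_lit 287) (nat_lit 5) (nat_lit 300) (nat_lit 5) (nat_lit 301) (nat_lit 5) (nat_lit 327) (nat_lit 313) (nat_lit 260))))) (XT.nd (nat_lit 234) (nat_lit 2280) (nat_lit 0) (XT.nd (nat_lit 78) (nat_lit 988) (nat_lit 0) (XT.lf (nat_lit 0) (nat_lit 2497109224) (nat_lit 988) (nat_lit 5582857916) (nat_lit 76) (nat_lit 253539755) (nat_lit 288) (nat_lit 5) (nat_lit 301) (nat_lit 5) (nat_lit 289) (nat_lit 5) (nat_lit 328) (nat_lit 313) (nat_lit 259)) (XT.nd (nat_lit 78) (nat_lit 988) (nat_lit 0) (XT.lf (nat_lit 0) (nat_lit 4178366414) (nat_lit 988) (nat_lit 1052443386) (nat_lit 76) (nat_lit 3205196328) (nat_lit 288) (nat_lit 5) (nat_lit 301) (nat_lit 5) (nat_lit 289) (nat_lit 5) (nat_lit 329) (nat_lit 313) (nat_lit 258)) (XT.lf (nat_lit 0) (nat_lit 3649796575) (nat_lit 988) (nat_lit 2251574211) (nat_lit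 1064) (nat_lit 2640495744) (nat_lit 275) (nat_lit 5) (nat_lit 288) (nat_lit 5) (nat_lit 289) (nat_lit 5) (nat_lit 330) (nat_lit 313) (nat_lit 257)))) (XT.nd (nat_lit 156) (nat_lit 1140) (nat_lit 0) (XT.nd (nat_lit 78) (nat_lit 1140) (nat_lit 0) (XT.lf (nat_lit 0) (nat_lit 7651891999) (nat_lit 1064) (nat_lit 180212246) (nat_lit 76) (nat_lit 819548433) (nat_lit 275) (nat_lit 5) (nat_lit 289) (nat_lit 5) (nat_lit 276) (nat_lit 5) (nat_lit 331) (nat_lit 313) (nat_lit 256)) (XT.lf (nat_lit 0) (nat_lit 702989834) (nat_lit 1140) (nat_lit 4063591743) (nat_lit 76) (nat_lit 3997187261) (nat_lit 260) (nat_lit 5) (nat_lit 275) (nat_lit 5) (nat_lit 261) (nat_lit 5) (nat_lit 332) (nat_lit 313) (nat_lit 255))) (XT.nd (nat_lit 78) (nat_lit 0) (nat_lit 0) (XT.lf (nat_lit 0) (nat_lit 821816005) (nat_lit 1140) (nat_lit 1583583725) (nat_lit 1216) (nat_lit 6474514298) (nat_lit 245) (nat_lit 5) (nat_lit 260) (nat_lit 5) (nat_lit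 261) (nat_lit 5) (nat_lit 333) (nat_lit 313) (nat_lit 254)) (XT.lf (nat_lit 0) (nat_lit 4176449894) (nat_lit 1216) (nat_lit 3114631438) (nat_lit 76) (nat_lit 1707957179) (nat_lit 245) (nat_lit 5) (nat_lit 261) (nat_lit 5) (nat_lit 246) (nat_lit 5) (nat_lit 334) (nat_lit 313) (nat_lit 253)))))) (XT.nd (nat_lit 546) (nat_lit 2204) (nat_lit 0) (XT.nd (nat_lit 234) (nat_lit 1216) (nat_lit 0) (XT.nd (nat_lit 78) (nat_lit 684) (nat_lit 0) (XT.lf (nat_lit 0) (nat_lit 1964151069) (nat_lit 1216) (nat_lit 4032044943) (nat_lit 1292) (nat_lit 3125695117) (nat_lit 229) (nat_lit 5) (nat_lit 245) (nat_lit 5) (nat_lit 246) (nat_lit 5) (nat_lit 335) (nat_lit 313) (nat_lit 252)) (XT.nd (nat_lit 78) (nat_lit 684) (nat_lit 0) (XT.lf (nat_lit 0) (nat_lit 7223856632) (nat_lit 1216) (nat_lit 639930916) (nat_lit 1292) (nat_lit 1384864903) (nat_lit 229) (nat_lit 5) (nat_lit 245) (nat_lit 5) (nat_lit 246) (nat_lit 5) (nat_lit 336)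 (nat_lit 313) (nat_lit 251)) (XT.lf (nat_lit 0) (nat_lit 422161009) (nat_lit 684) (nat_lit 6119767847) (nat_lit 76) (nat_lit 2836531487) (nat_lit 220) (nat_lit 5) (nat_lit 229) (nat_lit 5) (nat_lit 221) (nat_lit 5) (nat_lit 337) (nat_lit 313) (nat_lit 250)))) (XT.nd (nat_lit 156) (nat_lit 608) (nat_lit 0) (XT.nd (nat_lit 78) (nat_lit 608) (nat_lit 0) (XT.lf (nat_lit 0) (nat_lit 2245852792) (nat_lit 684) (nat_lit 825428616) (nat_lit 76) (nat_lit 6440779988) (nat_lit 220) (nat_lit 5) (nat_lit 229) (nat_lit 5) (nat_lit 221) (nat_lit 5) (nat_lit 338) (nat_lit 313) (nat_lit 249)) (XT.lf (nat_lit 0) (nat_lit 4138951621) (nat_lit 684) (nat_lit 4970328919) (nat_lit 76) (nat_lit 539967457) (nat_lit 212) (nat_lit 5) (nat_lit 221) (nat_lit 5) (nat_lit 213) (nat_lit 5) (nat_lit 339) (nat_lit 313) (nat_lit 248))) (XT.nd (nat_lit 78) (nat_lit 0) (nat_lit 0) (XT.lf (nat_lit 0) (nat_lit 519149555) (nat_lit 608) (nat_lit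 5578595430) (nat_lit 684) (nat_lit 3692556034) (nat_lit 204) (nat_lit 5) (nat_lit 212) (nat_lit 5) (nat_lit 213) (nat_lit 5) (nat_lit 340) (nat_lit 313) (nat_lit 247)) (XT.lf (nat_lit 0) (nat_lit 6240040154) (nat_lit 608) (nat_lit 1891216274) (nat_lit 684) (nat_lit 1803867921) (nat_lit 204) (nat_lit 5) (nat_lit 212) (nat_lit 5) (nat_lit 213) (nat_lit 5) (nat_lit 341) (nat_lit 313) (nat_lit 246))))) (XT.nd (nat_lit 234) (nat_lit 1064) (nat_lit 0) (XT.nd (nat_lit 78) (nat_lit 532) (nat_lit 0) (XT.lf (nat_lit 0) (nat_lit 143387702) (nat_lit 608) (nat_lit 8051080035) (nat_lit 76) (nat_lit 1889660164) (nat_lit 196) (nat_lit 5) (nat_lit 204) (nat_lit 5) (nat_lit 197) (nat_lit 5) (nat_lit 342) (nat_lit 313) (nat_lit 245)) (XT.nd (nat_lit 78) (nat_lit 532) (nat_lit 0) (XT.lf (nat_lit 0) (nat_lit 2136259714) (nat_lit 608) (nat_lit 2300134741) (nat_lit 76) (nat_lit 5799983540) (nat_lit 196) (nat_lit 5) (nat_lit 204)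 (nat_lit 5) (nat_lit 197) (nat_lit 5) (nat_lit 343) (nat_lit 313) (nat_lit 244)) (XT.lf (nat_lit 0) (nat_lit 3660330543) (nat_lit 532) (nat_lit 531779690) (nat_lit 608) (nat_lit 6201004999) (nat_lit 189) (nat_lit 5) (nat_lit 196) (nat_lit 5) (nat_lit 197) (nat_lit 5) (nat_lit 344) (nat_lit 313) (nat_lit 243)))) (XT.nd (nat_lit 156) (nat_lit 608) (nat_lit 0) (XT.nd (nat_lit 78) (nat_lit 456) (nat_lit 0) (XT.lf (nat_lit 0) (nat_lit 6335225904) (nat_lit 608) (nat_lit 775902827) (nat_lit 76) (nat_lit 3442673134) (nat_lit 189) (nat_lit 5) (nat_lit 197) (nat_lit 5) (nat_lit 190) (nat_lit 5) (nat_lit 345) (nat_lit 313) (nat_lit 242)) (XT.lf (nat_lit 0) (nat_lit 5426299610) (nat_lit 456) (nat_lit 3143261541) (nat_lit 532) (nat_lit 2148954689) (nat_lit 183) (nat_lit 5) (nat_lit 189) (nat_lit 5) (nat_lit 190) (nat_lit 5) (nat_lit 346) (nat_lit 313) (nat_lit 241))) (XT.nd (nat_lit 78) (nat_lit 76) (nat_lit 0) (XT.lf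 (nat_lit 0) (nat_lit 916727192) (nat_lit 532) (nat_lit 9950023708) (nat_lit 608) (nat_lit 21559707) (nat_lit 176) (nat_lit 5) (nat_lit 183) (nat_lit 5) (nat_lit 184) (nat_lit 5) (nat_lit 347) (nat_lit 313) (nat_lit 240)) (XT.lf (nat_lit 0) (nat_lit 2182678892) (nat_lit 608) (nat_lit 3728494915) (nat_lit 76) (nat_lit 5149752236) (nat_lit 175) (nat_lit 5) (nat_lit 183) (nat_lit 5) (nat_lit 176) (nat_lit 5) (nat_lit 348) (nat_lit 313) (nat_lit 239))))))) (XT.nd (nat_lit 1014) (nat_lit 2584) (nat_lit 0) (XT.nd (nat_lit 468) (nat_lit 1520) (nat_lit 0) (XT.nd (nat_lit 234) (nat_lit 912) (nat_lit 0) (XT.nd (nat_lit 78) (nat_lit 456) (nat_lit 0) (XT.lf (nat_lit 0) (nat_lit 2720966203) (nat_lit 456) (nat_lit 1728934757) (nat_lit 532) (nat_lit 6788906798) (nat_lit 169) (nat_lit 5) (nat_lit 175) (nat_lit 5) (nat_lit 176) (nat_lit 5) (nat_lit 349) (nat_lit 313) (nat_lit 238)) (XT.nd (nat_lit 78) (nat_lit 456) (nat_lit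 0) (XT.lf (nat_lit 0) (nat_lit 6819555488) (nat_lit 532) (nat_lit 2040000984) (nat_lit 76) (nat_lit 2561449512) (nat_lit 169) (nat_lit 5) (nat_lit 176) (nat_lit 5) (nat_lit 170) (nat_lit 5) (nat_lit 350) (nat_lit 313) (nat_lit 237)) (XT.lf (nat_lit 0) (nat_lit 4672956725) (nat_lit 456) (nat_lit 4621811287) (nat_lit 532) (nat_lit 2312880261) (nat_lit 163) (nat_lit 5) (nat_lit 169) (nat_lit 5) (nat_lit 170) (nat_lit 5) (nat_lit 351) (nat_lit 313) (nat_lit 236)))) (XT.nd (nat_lit 78) (nat_lit 836) (nat_lit 0) (XT.lf (nat_lit 0) (nat_lit 36922980) (nat_lit 532) (nat_lit 204296731) (nat_lit 76) (nat_lit 11558865560) (nat_lit 162) (nat_lit 5) (nat_lit 169) (nat_lit 5) (nat_lit 163) (nat_lit 5) (nat_lit 352) (nat_lit 313) (nat_lit 235)) (XT.nd (nat_lit 78) (nat_lit 456) (nat_lit 0) (XT.lf (nat_lit 0) (nat_lit 2491455790) (nat_lit 456) (nat_lit 5232956705) (nat_lit 76) (nat_lit 4270785365) (nat_lit 157) (nat_lit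 5) (nat_lit 163) (nat_lit 5) (nat_lit 158) (nat_lit 5) (nat_lit 353) (nat_lit 313) (nat_lit 234)) (XT.lf (nat_lit 0) (nat_lit 1744538952) (nat_lit 456) (nat_lit 3270166432) (nat_lit 532) (nat_lit 7181616829) (nat_lit 151) (nat_lit 5) (nat_lit 157) (nat_lit 5) (nat_lit 158) (nat_lit 5) (nat_lit 354) (nat_lit 313) (nat_lit 233))))) (XT.nd (nat_lit 234) (nat_lit 1064) (nat_lit 0) (XT.nd (nat_lit 78) (nat_lit 456) (nat_lit 0) (XT.lf (nat_lit 0) (nat_lit 7653906105) (nat_lit 532) (nat_lit 3409802776) (nat_lit 76) (nat_lit 1338574302) (nat_lit 151) (nat_lit 5) (nat_lit 158) (nat_lit 5) (nat_lit 152) (nat_lit 5) (nat_lit 355) (nat_lit 313) (nat_lit 232)) (XT.nd (nat_lit 78) (nat_lit 76) (nat_lit 0) (XT.lf (nat_lit 0) (nat_lit 3853885811) (nat_lit 380) (nat_lit 6562792904) (nat_lit 456) (nat_lit 2196422580) (nat_lit 146) (nat_lit 5) (nat_lit 151) (nat_lit 5) (nat_lit 152) (nat_lit 5) (nat_lit 356) (nat_lit 313)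 (nat_lit 231)) (XT.lf (nat_lit 0) (nat_lit 433571682) (nat_lit 456) (nat_lit 1460886324) (nat_lit 76) (nat_lit 10935373562) (nat_lit 145) (nat_lit 5) (nat_lit 151) (nat_lit 5) (nat_lit 146) (nat_lit 5) (nat_lit 357) (nat_lit 313) (nat_lit 230)))) (XT.nd (nat_lit 156) (nat_lit 380) (nat_lit 0) (XT.nd (nat_lit 78) (nat_lit 304) (nat_lit 0) (XT.lf (nat_lit 0) (nat_lit 3161773301) (nat_lit 456) (nat_lit 6957612833) (nat_lit 76) (nat_lit 2931130934) (nat_lit 140) (nat_lit 5) (nat_lit 146) (nat_lit 5) (nat_lit 141) (nat_lit 5) (nat_lit 358) (nat_lit 313) (nat_lit 229)) (XT.lf (nat_lit 0) (nat_lit 586462116) (nat_lit 304) (nat_lit 5400844371) (nat_lit 380) (nat_lit 7290061135) (nat_lit 136) (nat_lit 5) (nat_lit 140) (nat_lit 5) (nat_lit 141) (nat_lit 5) (nat_lit 359) (nat_lit 313) (nat_lit 228))) (XT.nd (nat_lit 78) (nat_lit 380) (nat_lit 0) (XT.lf (nat_lit 0) (nat_lit 8467843345) (nat_lit 304) (nat_lit 476602764)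 (nat_lit 380) (nat_lit 4565181160) (nat_lit 136) (nat_lit 5) (nat_lit 140) (nat_lit 5) (nat_lit 141) (nat_lit 5) (nat_lit 360) (nat_lit 313) (nat_lit 227)) (XT.lf (nat_lit 0) (nat_lit 2816260704) (nat_lit 380) (nat_lit 9222471835) (nat_lit 456) (nat_lit 1708677723) (nat_lit 131) (nat_lit 5) (nat_lit 136) (nat_lit 5) (nat_lit 137) (nat_lit 5) (nat_lit 361) (nat_lit 313) (nat_lit 226)))))) (XT.nd (nat_lit 546) (nat_lit 1216) (nat_lit 0) (XT.nd (nat_lit 234) (nat_lit 988) (nat_lit 0) (XT.nd (nat_lit 78) (nat_lit 304) (nat_lit 0) (XT.lf (nat_lit 0) (nat_lit 1242908805) (nat_lit 456) (nat_lit 3025966049) (nat_lit 76) (nat_lit 9722100459) (nat_lit 130) (nat_lit 5) (nat_lit 136) (nat_lit 5) (nat_lit 131) (nat_lit 5) (nat_lit 362) (nat_lit 313) (nat_lit 225)) (XT.nd (nat_lit 78) (nat_lit 0) (nat_lit 0) (XT.lf (nat_lit 0) (nat_lit 4284966837) (nat_lit 380) (nat_lit 9079336538) (nat_lit 76) (nat_lit 875956226) (nat_lit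 126) (nat_lit 5) (nat_lit 131) (nat_lit 5) (nat_lit 127) (nat_lit 5) (nat_lit 363) (nat_lit 313) (nat_lit 224)) (XT.lf (nat_lit 0) (nat_lit 7469663017) (nat_lit 380) (nat_lit 914069015) (nat_lit 76) (nat_lit 6111756674) (nat_lit 126) (nat_lit 5) (nat_lit 131) (nat_lit 5) (nat_lit 127) (nat_lit 5) (nat_lit 364) (nat_lit 313) (nat_lit 223)))) (XT.nd (nat_lit 156) (nat_lit 380) (nat_lit 0) (XT.nd (nat_lit 78) (nat_lit 304) (nat_lit 0) (XT.lf (nat_lit 0) (nat_lit 7614804279) (nat_lit 304) (nat_lit 3187178872) (nat_lit 380) (nat_lit 3954836403) (nat_lit 122) (nat_lit 5) (nat_lit 126) (nat_lit 5) (nat_lit 127) (nat_lit 5) (nat_lit 365) (nat_lit 313) (nat_lit 222)) (XT.lf (nat_lit 0) (nat_lit 1368163963) (nat_lit 304) (nat_lit 12888525825) (nat_lit 380) (nat_lit 768635181) (nat_lit 118) (nat_lit 5) (nat_lit 122) (nat_lit 5) (nat_lit 123) (nat_lit 5) (nat_lit 366) (nat_lit 313) (nat_lit 221))) (XT.nd (nat_lit 78)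 (nat_lit 304) (nat_lit 0) (XT.lf (nat_lit 0) (nat_lit 2547741920) (nat_lit 380) (nat_lit 5106417566) (nat_lit 76) (nat_lit 7644499143) (nat_lit 117) (nat_lit 5) (nat_lit 122) (nat_lit 5) (nat_lit 118) (nat_lit 5) (nat_lit 367) (nat_lit 313) (nat_lit 220)) (XT.lf (nat_lit 0) (nat_lit 3736717583) (nat_lit 304) (nat_lit 2227208078) (nat_lit 380) (nat_lit 9615571947) (nat_lit 113) (nat_lit 5) (nat_lit 117) (nat_lit 5) (nat_lit 118) (nat_lit 5) (nat_lit 368) (nat_lit 313) (nat_lit 219))))) (XT.nd (nat_lit 234) (nat_lit 836) (nat_lit 0) (XT.nd (nat_lit 78) (nat_lit 380) (nat_lit 0) (XT.lf (nat_lit 0) (nat_lit 9547055147) (nat_lit 380) (nat_lit 2979885896) (nat_lit 76) (nat_lit 3339893257) (nat_lit 113) (nat_lit 5) (nat_lit 118) (nat_lit 5) (nat_lit 114) (nat_lit 5) (nat_lit 369) (nat_lit 313) (nat_lit 218)) (XT.nd (nat_lit 78) (nat_lit 76) (nat_lit 0) (XT.lf (nat_lit 0) (nat_lit 6219409509) (nat_lit 304) (nat_lit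 7080748039) (nat_lit 380) (nat_lit 2860765338) (nat_lit 109) (nat_lit 5) (nat_lit 113) (nat_lit 5) (nat_lit 114) (nat_lit 5) (nat_lit 370) (nat_lit 313) (nat_lit 217)) (XT.lf (nat_lit 0) (nat_lit 699446655) (nat_lit 380) (nat_lit 743112957) (nat_lit 76) (nat_lit 15020744083) (nat_lit 108) (nat_lit 5) (nat_lit 113) (nat_lit 5) (nat_lit 109) (nat_lit 5) (nat_lit 371) (nat_lit 313) (nat_lit 216)))) (XT.nd (nat_lit 156) (nat_lit 304) (nat_lit 0) (XT.nd (nat_lit 78) (nat_lit 228) (nat_lit 0) (XT.lf (nat_lit 0) (nat_lit 4418302212) (nat_lit 380) (nat_lit 7967411237) (nat_lit 76) (nat_lit 4384918315) (nat_lit 104) (nat_lit 5) (nat_lit 109) (nat_lit 5) (nat_lit 105) (nat_lit 5) (nat_lit 372) (nat_lit 313) (nat_lit 215)) (XT.lf (nat_lit 0) (nat_lit 1551893403) (nat_lit 228) (nat_lit 6715095198) (nat_lit 304) (nat_lit 8819648597) (nat_lit 101) (nat_lit 5) (nat_lit 104) (nat_lit 5) (nat_lit 105) (nat_lit 5) (nat_lit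 373) (nat_lit 313) (nat_lit 214))) (XT.nd (nat_lit 78) (nat_lit 304) (nat_lit 0) (XT.lf (nat_lit 0) (nat_lit 11492123204) (nat_lit 228) (nat_lit 801224265) (nat_lit 304) (nat_lit 5116914288) (nat_lit 101) (nat_lit 5) (nat_lit 104) (nat_lit 5) (nat_lit 105) (nat_lit 5) (nat_lit 374) (nat_lit 313) (nat_lit 213)) (XT.lf (nat_lit 0) (nat_lit 3986291558) (nat_lit 304) (nat_lit 12525572702) (nat_lit 380) (nat_lit 1229594941) (nat_lit 97) (nat_lit 5) (nat_lit 101) (nat_lit 5) (nat_lit 102) (nat_lit 5) (nat_lit 375) (nat_lit 313) (nat_lit 212))))))))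
noncomputable def xc139 : XT := (XT.nd (nat_lit 2106) (nat_lit 1976) (nat_lit 0) (XT.nd (nat_lit 1014) (nat_lit 1444) (nat_lit 0) (XT.nd (nat_lit 468) (nat_lit 836) (nat_lit 0) (XT.nd (nat_lit 234) (nat_lit 532) (nat_lit 0) (XT.nd (nat_lit 78) (nat_lit 228) (nat_lit 0) (XT.lf (nat_lit 0) (nat_lit 2770767003) (nat_lit 380) (nat_lit 3834518255) (nat_lit 76) (nat_lit 11474995303) (nat_lit 96) (nat_lit 5) (nat_lit 101) (nat_lit 5) (nat_lit 97) (nat_lit 5) (nat_lit 376) (nat_lit 313) (nat_lit 211)) (XT.nd (nat_lit 78) (nat_lit 0) (nat_lit 0) (XT.lf (nat_lit 0) (nat_lit 6470958955) (nat_lit 228) (nat_lit 440460564) (nat_lit 304) (nat_lit 11516136741) (nat_lit 93) (nat_lit 5) (nat_lit 96) (nat_lit 5) (nat_lit 97) (nat_lit 5) (nat_lit 377) (nat_lit 313) (nat_lit 210)) (XT.lf (nat_lit 0) (nat_lit 11255142968) (nat_lit 304) (nat_lit 1704117707) (nat_lit 76) (nat_lit 5823628602) (nat_lit 93) (nat_lit 5) (nat_lit 97)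 (nat_lit 5) (nat_lit 94) (nat_lit 5) (nat_lit 378) (nat_lit 313) (nat_lit 209)))) (XT.nd (nat_lit 78) (nat_lit 304) (nat_lit 0) (XT.lf (nat_lit 0) (nat_lit 9000957956) (nat_lit 228) (nat_lit 6802543652) (nat_lit 304) (nat_lit 3343155426) (nat_lit 90) (nat_lit 5) (nat_lit 93) (nat_lit 5) (nat_lit 94) (nat_lit 5) (nat_lit 379) (nat_lit 313) (nat_lit 208)) (XT.nd (nat_lit 78) (nat_lit 0) (nat_lit 0) (XT.lf (nat_lit 0) (nat_lit 515558486) (nat_lit 228) (nat_lit 438386333) (nat_lit 304) (nat_lit 18566943125) (nat_lit 86) (nat_lit 5) (nat_lit 89) (nat_lit 5) (nat_lit 90) (nat_lit 5) (nat_lit 380) (nat_lit 313) (nat_lit 207)) (XT.lf (nat_lit 0) (nat_lit 5458669132) (nat_lit 304) (nat_lit 8318026880) (nat_lit 76) (nat_lit 6124283674) (nat_lit 86) (nat_lit 5) (nat_lit 90) (nat_lit 5) (nat_lit 87) (nat_lit 5) (nat_lit 381) (nat_lit 313) (nat_lit 206))))) (XT.nd (nat_lit 234) (nat_lit 456) (nat_lit 0) (XT.nd (nat_lit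 78) (nat_lit 152) (nat_lit 0) (XT.lf (nat_lit 0) (nat_lit 2712788683) (nat_lit 228) (nat_lit 7400282100) (nat_lit 304) (nat_lit 10178971285) (nat_lit 83) (nat_lit 5) (nat_lit 86) (nat_lit 5) (nat_lit 87) (nat_lit 5) (nat_lit 382) (nat_lit 313) (nat_lit 205)) (XT.nd (nat_lit 78) (nat_lit 152) (nat_lit 0) (XT.lf (nat_lit 0) (nat_lit 14219590180) (nat_lit 228) (nat_lit 755846170) (nat_lit 304) (nat_lit 5717353858) (nat_lit 83) (nat_lit 5) (nat_lit 86) (nat_lit 5) (nat_lit 87) (nat_lit 5) (nat_lit 383) (nat_lit 313) (nat_lit 204)) (XT.lf (nat_lit 0) (nat_lit 4979606852) (nat_lit 152) (nat_lit 15095154903) (nat_lit 228) (nat_lit 1028070102) (nat_lit 81) (nat_lit 5) (nat_lit 83) (nat_lit 5) (nat_lit 84) (nat_lit 5) (nat_lit 384) (nat_lit 313) (nat_lit 203)))) (XT.nd (nat_lit 156) (nat_lit 152) (nat_lit 0) (XT.nd (nat_lit 78) (nat_lit 228) (nat_lit 0) (XT.lf (nat_lit 0) (nat_lit 3785955938) (nat_lit 228) (nat_lit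 4684336863) (nat_lit 76) (nat_lit 13052041515) (nat_lit 80) (nat_lit 5) (nat_lit 83) (nat_lit 5) (nat_lit 81) (nat_lit 5) (nat_lit 385) (nat_lit 313) (nat_lit 202)) (XT.lf (nat_lit 0) (nat_lit 7203703020) (nat_lit 228) (nat_lit 1574481913) (nat_lit 304) (nat_lit 13174301601) (nat_lit 77) (nat_lit 5) (nat_lit 80) (nat_lit 5) (nat_lit 81) (nat_lit 5) (nat_lit 386) (nat_lit 313) (nat_lit 201))) (XT.nd (nat_lit 78) (nat_lit 152) (nat_lit 0) (XT.lf (nat_lit 0) (nat_lit 14006398047) (nat_lit 304) (nat_lit 2927840987) (nat_lit 76) (nat_lit 5458721081) (nat_lit 77) (nat_lit 5) (nat_lit 81) (nat_lit 5) (nat_lit 78) (nat_lit 5) (nat_lit 387) (nat_lit 313) (nat_lit 200)) (XT.lf (nat_lit 0) (nat_lit 9391602600) (nat_lit 152) (nat_lit 10091455513) (nat_lit 228) (nat_lit 3360844992) (nat_lit 75) (nat_lit 5) (nat_lit 77) (nat_lit 5) (nat_lit 78) (nat_lit 5) (nat_lit 388) (nat_lit 313) (nat_lit 199)))))) (XT.nd (nat_lit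 546) (nat_lit 532) (nat_lit 0) (XT.nd (nat_lit 234) (nat_lit 456) (nat_lit 0) (XT.nd (nat_lit 78) (nat_lit 380) (nat_lit 0) (XT.lf (nat_lit 0) (nat_lit 1795852351) (nat_lit 228) (nat_lit 1208440814) (nat_lit 76) (nat_lit 20303091506) (nat_lit 74) (nat_lit 5) (nat_lit 77) (nat_lit 5) (nat_lit 75) (nat_lit 5) (nat_lit 389) (nat_lit 313) (nat_lit 198)) (XT.nd (nat_lit 78) (nat_lit 152) (nat_lit 0) (XT.lf (nat_lit 0) (nat_lit 7179765397) (nat_lit 304) (nat_lit 12251371686) (nat_lit 76) (nat_lit 4348436340) (nat_lit 71) (nat_lit 5) (nat_lit 75) (nat_lit 5) (nat_lit 72) (nat_lit 5) (nat_lit 390) (nat_lit 313) (nat_lit 197)) (XT.lf (nat_lit 0) (nat_lit 360058223) (nat_lit 152) (nat_lit 12396954547) (nat_lit 228) (nat_lit 11507963418) (nat_lit 69) (nat_lit 5) (nat_lit 71) (nat_lit 5) (nat_lit 72) (nat_lit 5) (nat_lit 391) (nat_lit 313) (nat_lit 196)))) (XT.nd (nat_lit 156) (nat_lit 228) (nat_lit 0) (XT.nd (nat_lit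 78) (nat_lit 228) (nat_lit 0) (XT.lf (nat_lit 0) (nat_lit 13577944952) (nat_lit 152) (nat_lit 5033812167) (nat_lit 228) (nat_lit 6149881307) (nat_lit 69) (nat_lit 5) (nat_lit 71) (nat_lit 5) (nat_lit 72) (nat_lit 5) (nat_lit 392) (nat_lit 313) (nat_lit 195)) (XT.lf (nat_lit 0) (nat_lit 1909244843) (nat_lit 228) (nat_lit 22762536471) (nat_lit 304) (nat_lit 600532786) (nat_lit 66) (nat_lit 5) (nat_lit 69) (nat_lit 5) (nat_lit 70) (nat_lit 5) (nat_lit 393) (nat_lit 313) (nat_lit 194))) (XT.nd (nat_lit 78) (nat_lit 152) (nat_lit 0) (XT.lf (nat_lit 0) (nat_lit 5166177682) (nat_lit 304) (nat_lit 10293532927) (nat_lit 76) (nat_lit 10332605854) (nat_lit 65) (nat_lit 5) (nat_lit 69) (nat_lit 5) (nat_lit 66) (nat_lit 5) (nat_lit 394) (nat_lit 313) (nat_lit 193)) (XT.lf (nat_lit 0) (nat_lit 3202591392) (nat_lit 152) (nat_lit 7909205549) (nat_lit 228) (nat_lit 15215406718) (nat_lit 63) (nat_lit 5) (nat_lit 65) (nat_lit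 5) (nat_lit 66) (nat_lit 5) (nat_lit 395) (nat_lit 313) (nat_lit 192))))) (XT.nd (nat_lit 234) (nat_lit 304) (nat_lit 0) (XT.nd (nat_lit 78) (nat_lit 228) (nat_lit 0) (XT.lf (nat_lit 0) (nat_lit 17292776591) (nat_lit 152) (nat_lit 34308204) (nat_lit 228) (nat_lit 9548316069) (nat_lit 63) (nat_lit 5) (nat_lit 65) (nat_lit 5) (nat_lit 66) (nat_lit 5) (nat_lit 396) (nat_lit 313) (nat_lit 191)) (XT.nd (nat_lit 78) (nat_lit 76) (nat_lit 0) (XT.lf (nat_lit 0) (nat_lit 4351416441) (nat_lit 152) (nat_lit 19484520887) (nat_lit 228) (nat_lit 3600895802) (nat_lit 61) (nat_lit 5) (nat_lit 63) (nat_lit 5) (nat_lit 64) (nat_lit 5) (nat_lit 397) (nat_lit 313) (nat_lit 190)) (XT.lf (nat_lit 0) (nat_lit 2561410357) (nat_lit 228) (nat_lit 9159377934) (nat_lit 76) (nat_lit 16291022099) (nat_lit 60) (nat_lit 5) (nat_lit 63) (nat_lit 5) (nat_lit 61) (nat_lit 5) (nat_lit 398) (nat_lit 313) (nat_lit 189)))) (XT.nd (nat_lit 156)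 (nat_lit 152) (nat_lit 0) (XT.nd (nat_lit 78) (nat_lit 0) (nat_lit 0) (XT.lf (nat_lit 0) (nat_lit 5229955274) (nat_lit 152) (nat_lit 3644559242) (nat_lit 228) (nat_lit 19727305910) (nat_lit 58) (nat_lit 5) (nat_lit 60) (nat_lit 5) (nat_lit 61) (nat_lit 5) (nat_lit 399) (nat_lit 313) (nat_lit 188)) (XT.lf (nat_lit 0) (nat_lit 15503442580) (nat_lit 228) (nat_lit 9034830164) (nat_lit 76) (nat_lit 4667467160) (nat_lit 58) (nat_lit 5) (nat_lit 61) (nat_lit 5) (nat_lit 59) (nat_lit 5) (nat_lit 400) (nat_lit 313) (nat_lit 187))) (XT.nd (nat_lit 78) (nat_lit 0) (nat_lit 0) (XT.lf (nat_lit 0) (nat_lit 5788846539) (nat_lit 152) (nat_lit 16622563725) (nat_lit 228) (nat_lit 7413963554) (nat_lit 56) (nat_lit 5) (nat_lit 58) (nat_lit 5) (nat_lit 59) (nat_lit 5) (nat_lit 401) (nat_lit 313) (nat_lit 186)) (XT.lf (nat_lit 0) (nat_lit 21222292339) (nat_lit 152) (nat_lit 8384142816) (nat_lit 228) (nat_lit 854768997) (nat_lit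 56) (nat_lit 5) (nat_lit 58) (nat_lit 5) (nat_lit 59) (nat_lit 5) (nat_lit 402) (nat_lit 313) (nat_lit 185))))))) (XT.nd (nat_lit 1014) (nat_lit 912) (nat_lit 0) (XT.nd (nat_lit 468) (nat_lit 456) (nat_lit 0) (XT.nd (nat_lit 234) (nat_lit 228) (nat_lit 0) (XT.nd (nat_lit 78) (nat_lit 152) (nat_lit 0) (XT.lf (nat_lit 0) (nat_lit 5834981288) (nat_lit 228) (nat_lit 25070968266) (nat_lit 76) (nat_lit 206991889) (nat_lit 53) (nat_lit 5) (nat_lit 56) (nat_lit 5) (nat_lit 54) (nat_lit 5) (nat_lit 403) (nat_lit 313) (nat_lit 184)) (XT.nd (nat_lit 78) (nat_lit 152) (nat_lit 0) (XT.lf (nat_lit 0) (nat_lit 12874334740) (nat_lit 228) (nat_lit 9922998468) (nat_lit 76) (nat_lit 8981662815) (nat_lit 53) (nat_lit 5) (nat_lit 56) (nat_lit 5) (nat_lit 54) (nat_lit 5) (nat_lit 404) (nat_lit 313) (nat_lit 183)) (XT.lf (nat_lit 0) (nat_lit 5772794627) (nat_lit 152) (nat_lit 14396750994) (nat_lit 228) (nat_lit 12294148044) (nat_lit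 51) (nat_lit 5) (nat_lit 53) (nat_lit 5) (nat_lit 54) (nat_lit 5) (nat_lit 405) (nat_lit 313) (nat_lit 182)))) (XT.nd (nat_lit 78) (nat_lit 228) (nat_lit 0) (XT.lf (nat_lit 0) (nat_lit 22123798304) (nat_lit 152) (nat_lit 5649334179) (nat_lit 228) (nat_lit 5393115844) (nat_lit 51) (nat_lit 5) (nat_lit 53) (nat_lit 5) (nat_lit 54) (nat_lit 5) (nat_lit 406) (nat_lit 313) (nat_lit 181)) (XT.nd (nat_lit 78) (nat_lit 0) (nat_lit 0) (XT.lf (nat_lit 0) (nat_lit 1753296679) (nat_lit 228) (nat_lit 28780546384) (nat_lit 76) (nat_lit 3353389169) (nat_lit 48) (nat_lit 5) (nat_lit 51) (nat_lit 5) (nat_lit 49) (nat_lit 5) (nat_lit 407) (nat_lit 313) (nat_lit 180)) (XT.lf (nat_lit 0) (nat_lit 9163822184) (nat_lit 228) (nat_lit 12789059526) (nat_lit 76) (nat_lit 12670620060) (nat_lit 48) (nat_lit 5) (nat_lit 51) (nat_lit 5) (nat_lit 49) (nat_lit 5) (nat_lit 408) (nat_lit 313) (nat_lit 179))))) (XT.nd (nat_lit 234) (nat_lit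 228) (nat_lit 0) (XT.nd (nat_lit 78) (nat_lit 76) (nat_lit 0) (XT.lf (nat_lit 0) (nat_lit 3736859426) (nat_lit 152) (nat_lit 13085600509) (nat_lit 228) (nat_lit 18558627056) (nat_lit 46) (nat_lit 5) (nat_lit 48) (nat_lit 5) (nat_lit 49) (nat_lit 5) (nat_lit 409) (nat_lit 313) (nat_lit 178)) (XT.nd (nat_lit 78) (nat_lit 76) (nat_lit 0) (XT.lf (nat_lit 0) (nat_lit 21002665776) (nat_lit 152) (nat_lit 3827332318) (nat_lit 228) (nat_lit 11327828884) (nat_lit 46) (nat_lit 5) (nat_lit 48) (nat_lit 5) (nat_lit 49) (nat_lit 5) (nat_lit 410) (nat_lit 313) (nat_lit 177)) (XT.lf (nat_lit 0) (nat_lit 1790903611) (nat_lit 76) (nat_lit 31349162486) (nat_lit 152) (nat_lit 3815935364) (nat_lit 45) (nat_lit 5) (nat_lit 46) (nat_lit 5) (nat_lit 47) (nat_lit 4) (nat_lit 411) (nat_lit 313) (nat_lit 176)))) (XT.nd (nat_lit 156) (nat_lit 152) (nat_lit 0) (XT.nd (nat_lit 78) (nat_lit 0) (nat_lit 0) (XT.lf (nat_lit 0) (nat_lit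 4027475133) (nat_lit 152) (nat_lit 18312384329) (nat_lit 76) (nat_lit 15431651844) (nat_lit 44) (nat_lit 5) (nat_lit 46) (nat_lit 5) (nat_lit 45) (nat_lit 5) (nat_lit 412) (nat_lit 313) (nat_lit 175)) (XT.lf (nat_lit 0) (nat_lit 12020008061) (nat_lit 152) (nat_lit 1009120368) (nat_lit 76) (nat_lit 25581510360) (nat_lit 44) (nat_lit 5) (nat_lit 46) (nat_lit 5) (nat_lit 45) (nat_lit 5) (nat_lit 413) (nat_lit 313) (nat_lit 174))) (XT.nd (nat_lit 78) (nat_lit 0) (nat_lit 0) (XT.lf (nat_lit 0) (nat_lit 17130777668) (nat_lit 152) (nat_lit 3277003676) (nat_lit 228) (nat_lit 19062496071) (nat_lit 42) (nat_lit 5) (nat_lit 44) (nat_lit 5) (nat_lit 45) (nat_lit 5) (nat_lit 414) (nat_lit 313) (nat_lit 173)) (XT.lf (nat_lit 0) (nat_lit 29113363656) (nat_lit 228) (nat_lit 4601781940) (nat_lit 76) (nat_lit 6638575542) (nat_lit 42) (nat_lit 5) (nat_lit 45) (nat_lit 5) (nat_lit 43) (nat_lit 4) (nat_lit 415) (nat_lit 313)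 (nat_lit 172)))))) (XT.nd (nat_lit 546) (nat_lit 456) (nat_lit 0) (XT.nd (nat_lit 234) (nat_lit 152) (nat_lit 0) (XT.nd (nat_lit 78) (nat_lit 228) (nat_lit 0) (XT.lf (nat_lit 0) (nat_lit 13890376939) (nat_lit 76) (nat_lit 24346801647) (nat_lit 152) (nat_lit 3021778810) (nat_lit 41) (nat_lit 5) (nat_lit 42) (nat_lit 5) (nat_lit 43) (nat_lit 4) (nat_lit 416) (nat_lit 313) (nat_lit 171)) (XT.nd (nat_lit 78) (nat_lit 152) (nat_lit 0) (XT.lf (nat_lit 0) (nat_lit 5375179515) (nat_lit 152) (nat_lit 9227423420) (nat_lit 76) (nat_lit 27586037917) (nat_lit 40) (nat_lit 5) (nat_lit 42) (nat_lit 5) (nat_lit 41) (nat_lit 5) (nat_lit 417) (nat_lit 313) (nat_lit 170)) (XT.lf (nat_lit 0) (nat_lit 9599531963) (nat_lit 152) (nat_lit 4447428024) (nat_lit 228) (nat_lit 29095848899) (nat_lit 38) (nat_lit 5) (nat_lit 40) (nat_lit 5) (nat_lit 41) (nat_lit 5) (nat_lit 418) (nat_lit 313) (nat_lit 169)))) (XT.nd (nat_lit 156) (nat_lit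 76) (nat_lit 0) (XT.nd (nat_lit 78) (nat_lit 76) (nat_lit 0) (XT.lf (nat_lit 0) (nat_lit 23122193555) (nat_lit 228) (nat_lit 15016946917) (nat_lit 76) (nat_lit 5982163544) (nat_lit 38) (nat_lit 5) (nat_lit 41) (nat_lit 5) (nat_lit 39) (nat_lit 4) (nat_lit 419) (nat_lit 313) (nat_lit 168)) (XT.lf (nat_lit 0) (nat_lit 4085451192) (nat_lit 76) (nat_lit 28459192471) (nat_lit 152) (nat_lit 12582262569) (nat_lit 37) (nat_lit 5) (nat_lit 38) (nat_lit 5) (nat_lit 39) (nat_lit 4) (nat_lit 420) (nat_lit 313) (nat_lit 167))) (XT.nd (nat_lit 78) (nat_lit 76) (nat_lit 0) (XT.lf (nat_lit 0) (nat_lit 24053495288) (nat_lit 76) (nat_lit 18339663859) (nat_lit 152) (nat_lit 3765216596) (nat_lit 37) (nat_lit 5) (nat_lit 38) (nat_lit 5) (nat_lit 39) (nat_lit 4) (nat_lit 421) (nat_lit 313) (nat_lit 166)) (XT.lf (nat_lit 0) (nat_lit 5204509999) (nat_lit 152) (nat_lit 2666288707) (nat_lit 76) (nat_lit 39348701141) (nat_lit 36)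 (nat_lit 5) (nat_lit 38) (nat_lit 5) (nat_lit 37) (nat_lit 5) (nat_lit 422) (nat_lit 313) (nat_lit 165))))) (XT.nd (nat_lit 234) (nat_lit 228) (nat_lit 0) (XT.nd (nat_lit 78) (nat_lit 76) (nat_lit 0) (XT.lf (nat_lit 0) (nat_lit 14559418308) (nat_lit 228) (nat_lit 30688446324) (nat_lit 76) (nat_lit 3057722550) (nat_lit 34) (nat_lit 5) (nat_lit 37) (nat_lit 5) (nat_lit 35) (nat_lit 4) (nat_lit 423) (nat_lit 313) (nat_lit 164)) (XT.nd (nat_lit 78) (nat_lit 76) (nat_lit 0) (XT.lf (nat_lit 0) (nat_lit 24292265857) (nat_lit 228) (nat_lit 10952482501) (nat_lit 76) (nat_lit 14176590898) (nat_lit 34) (nat_lit 5) (nat_lit 37) (nat_lit 5) (nat_lit 35) (nat_lit 4) (nat_lit 424) (nat_lit 313) (nat_lit 163)) (XT.lf (nat_lit 0) (nat_lit 9547727655) (nat_lit 76) (nat_lit 24853550188) (nat_lit 152) (nat_lit 16166761529) (nat_lit 33) (nat_lit 5) (nat_lit 34) (nat_lit 5) (nat_lit 35) (nat_lit 4) (nat_lit 425) (nat_lit 313)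 (nat_lit 162)))) (XT.nd (nat_lit 156) (nat_lit 152) (nat_lit 0) (XT.nd (nat_lit 78) (nat_lit 76) (nat_lit 0) (XT.lf (nat_lit 0) (nat_lit 30873454792) (nat_lit 76) (nat_lit 14043191134) (nat_lit 152) (nat_lit 6829402818) (nat_lit 33) (nat_lit 5) (nat_lit 34) (nat_lit 5) (nat_lit 35) (nat_lit 4) (nat_lit 426) (nat_lit 313) (nat_lit 161)) (XT.lf (nat_lit 0) (nat_lit 2726304192) (nat_lit 152) (nat_lit 160989332) (nat_lit 76) (nat_lit 50071522644) (nat_lit 32) (nat_lit 5) (nat_lit 34) (nat_lit 5) (nat_lit 33) (nat_lit 5) (nat_lit 427) (nat_lit 313) (nat_lit 160))) (XT.nd (nat_lit 78) (nat_lit 0) (nat_lit 0) (XT.lf (nat_lit 0) (nat_lit 12716397481) (nat_lit 228) (nat_lit 32774553215) (nat_lit 76) (nat_lit 8706438760) (nat_lit 30) (nat_lit 5) (nat_lit 33) (nat_lit 5) (nat_lit 31) (nat_lit 4) (nat_lit 428) (nat_lit 313) (nat_lit 159)) (XT.lf (nat_lit 0) (nat_lit 23029292213) (nat_lit 228) (nat_lit 11857564304)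 (nat_lit 76) (nat_lit 20585571200) (nat_lit 30) (nat_lit 5) (nat_lit 33) (nat_lit 5) (nat_lit 31) (nat_lit 4) (nat_lit 429) (nat_lit 313) (nat_lit 158))))))))
noncomputable def xc140 : XT := (XT.nd (nat_lit 38766) (nat_lit 0) (nat_lit 10716) (XT.nd (nat_lit 1014) (nat_lit 76) (nat_lit 0) (XT.nd (nat_lit 468) (nat_lit 228) (nat_lit 0) (XT.nd (nat_lit 234) (nat_lit 228) (nat_lit 0) (XT.nd (nat_lit 78) (nat_lit 0) (nat_lit 0) (XT.lf (nat_lit 0) (nat_lit 9866487626) (nat_lit 76) (nat_lit 23873006358) (nat_lit 152) (nat_lit 23043586249) (nat_lit 29) (nat_lit 5) (nat_lit 30) (nat_lit 5) (nat_lit 31) (nat_lit 4) (nat_lit 430) (nat_lit 313) (nat_lit 157)) (XT.nd (nat_lit 78) (nat_lit 0) (nat_lit 0) (XT.lf (nat_lit 0) (nat_lit 32472479430) (nat_lit 76) (nat_lit 12411416114) (nat_lit 152) (nat_lit 13245770658) (nat_lit 29) (nat_lit 5) (nat_lit 30) (nat_lit 5) (nat_lit 31) (nat_lit 4) (nat_lit 431) (nat_lit 313) (nat_lit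 156)) (XT.lf (nat_lit 0) (nat_lit 55744175135) (nat_lit 76) (nat_lit 611808955) (nat_lit 152) (nat_lit 3160865686) (nat_lit 29) (nat_lit 5) (nat_lit 30) (nat_lit 5) (nat_lit 31) (nat_lit 4) (nat_lit 432) (nat_lit 313) (nat_lit 155)))) (XT.nd (nat_lit 78) (nat_lit 76) (nat_lit 0) (XT.lf (nat_lit 0) (nat_lit 7375649593) (nat_lit 152) (nat_lit 41993093300) (nat_lit 76) (nat_lit 11566120209) (nat_lit 27) (nat_lit 5) (nat_lit 29) (nat_lit 5) (nat_lit 28) (nat_lit 4) (nat_lit 433) (nat_lit 313) (nat_lit 154)) (XT.nd (nat_lit 78) (nat_lit 76) (nat_lit 0) (XT.lf (nat_lit 0) (nat_lit 18202764010) (nat_lit 152) (nat_lit 20029282691) (nat_lit 76) (nat_lit 24161290852) (nat_lit 27) (nat_lit 5) (nat_lit 29) (nat_lit 5) (nat_lit 28) (nat_lit 4) (nat_lit 434) (nat_lit 313) (nat_lit 153)) (XT.lf (nat_lit 0) (nat_lit 2632914974) (nat_lit 76) (nat_lit 26740777943) (nat_lit 152) (nat_lit 34521303885) (nat_lit 26) (nat_lit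 5) (nat_lit 27) (nat_lit 5) (nat_lit 28) (nat_lit 4) (nat_lit 435) (nat_lit 313) (nat_lit 152))))) (XT.nd (nat_lit 234) (nat_lit 152) (nat_lit 0) (XT.nd (nat_lit 78) (nat_lit 76) (nat_lit 0) (XT.lf (nat_lit 0) (nat_lit 26373771025) (nat_lit 76) (nat_lit 14701997433) (nat_lit 152) (nat_lit 24360057387) (nat_lit 26) (nat_lit 5) (nat_lit 27) (nat_lit 5) (nat_lit 28) (nat_lit 4) (nat_lit 436) (nat_lit 313) (nat_lit 151)) (XT.nd (nat_lit 78) (nat_lit 76) (nat_lit 0) (XT.lf (nat_lit 0) (nat_lit 50815407901) (nat_lit 76) (nat_lit 2307442330) (nat_lit 152) (nat_lit 13900211772) (nat_lit 26) (nat_lit 5) (nat_lit 27) (nat_lit 5) (nat_lit 28) (nat_lit 4) (nat_lit 437) (nat_lit 313) (nat_lit 150)) (XT.lf (nat_lit 0) (nat_lit 7364306812) (nat_lit 76) (nat_lit 58332435752) (nat_lit 76) (nat_lit 2956211285) (nat_lit 25) (nat_lit 4) (nat_lit 26) (nat_lit 5) (nat_lit 26) (nat_lit 4) (nat_lit 438) (nat_lit 313) (nat_lit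 149)))) (XT.nd (nat_lit 156) (nat_lit 76) (nat_lit 0) (XT.nd (nat_lit 78) (nat_lit 0) (nat_lit 0) (XT.lf (nat_lit 0) (nat_lit 8336041142) (nat_lit 152) (nat_lit 38466817220) (nat_lit 76) (nat_lit 23521020142) (nat_lit 24) (nat_lit 5) (nat_lit 26) (nat_lit 5) (nat_lit 25) (nat_lit 4) (nat_lit 439) (nat_lit 313) (nat_lit 148)) (XT.lf (nat_lit 0) (nat_lit 19901893961) (nat_lit 152) (nat_lit 15000520729) (nat_lit 76) (nat_lit 37141811134) (nat_lit 24) (nat_lit 5) (nat_lit 26) (nat_lit 5) (nat_lit 25) (nat_lit 4) (nat_lit 440) (nat_lit 313) (nat_lit 147))) (XT.nd (nat_lit 78) (nat_lit 0) (nat_lit 0) (XT.lf (nat_lit 0) (nat_lit 9341449198) (nat_lit 76) (nat_lit 22557486111) (nat_lit 152) (nat_lit 41914722351) (nat_lit 23) (nat_lit 5) (nat_lit 24) (nat_lit 5) (nat_lit 25) (nat_lit 4) (nat_lit 441) (nat_lit 313) (nat_lit 146)) (XT.lf (nat_lit 0) (nat_lit 34710677341) (nat_lit 76) (nat_lit 9691165327) (nat_lit 152)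 (nat_lit 31229951610) (nat_lit 23) (nat_lit 5) (nat_lit 24) (nat_lit 5) (nat_lit 25) (nat_lit 4) (nat_lit 442) (nat_lit 313) (nat_lit 145)))))) (XT.nd (nat_lit 37206) (nat_lit 0) (nat_lit 20976) (XT.nd (nat_lit 36894) (nat_lit 0) (nat_lit 21736) (XT.nd (nat_lit 78) (nat_lit 76) (nat_lit 0) (XT.lf (nat_lit 0) (nat_lit 57308662450) (nat_lit 152) (nat_lit 16708030517) (nat_lit 0) (nat_lit 3486917731) (nat_lit 23) (nat_lit 5) (nat_lit 25) (nat_lit 4) (nat_lit 23) (nat_lit 4) (nat_lit 443) (nat_lit 313) (nat_lit 144)) (XT.nd (nat_lit 36738) (nat_lit 0) (nat_lit 22572) (XT.lf (nat_lit 0) (nat_lit 8287203787) (nat_lit 76) (nat_lit 62485847613) (nat_lit 76) (nat_lit 8653419716) (nat_lit 22) (nat_lit 4) (nat_lit 23) (nat_lit 5) (nat_lit 23) (nat_lit 4) (nat_lit 444) (nat_lit 313) (nat_lit 143)) (XT.lf (nat_lit 0) (nat_lit 2161913280) (nat_lit 836) (nat_lit 739152497) (nat_lit 836) (nat_lit 739152497) (nat_lit 319)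 (nat_lit 3) (nat_lit 330) (nat_lit 3) (nat_lit 330) (nat_lit 5) (nat_lit 314) (nat_lit 314) (nat_lit 272)))) (XT.nd (nat_lit 156) (nat_lit 0) (nat_lit 76) (XT.nd (nat_lit 78) (nat_lit 836) (nat_lit 0) (XT.lf (nat_lit 76) (nat_lit 2066447577) (nat_lit 0) (nat_lit 3885905392) (nat_lit 836) (nat_lit 1389332535) (nat_lit 320) (nat_lit 5) (nat_lit 319) (nat_lit 3) (nat_lit 330) (nat_lit 5) (nat_lit 315) (nat_lit 314) (nat_lit 271)) (XT.lf (nat_lit 0) (nat_lit 174454744) (nat_lit 836) (nat_lit 1691712765) (nat_lit 912) (nat_lit 5539962796) (nat_lit 308) (nat_lit 5) (nat_lit 319) (nat_lit 3) (nat_lit 320) (nat_lit 5) (nat_lit 316) (nat_lit 314) (nat_lit 270))) (XT.nd (nat_lit 78) (nat_lit 0) (nat_lit 0) (XT.lf (nat_lit 0) (nat_lit 1719620585) (nat_lit 836) (nat_lit 5483513563) (nat_lit 912) (nat_lit 270128490) (nat_lit 309) (nat_lit 5) (nat_lit 320) (nat_lit 5) (nat_lit 321) (nat_lit 5) (nat_lit 317) (nat_lit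 314) (nat_lit 269)) (XT.lf (nat_lit 0) (nat_lit 3289137670) (nat_lit 836) (nat_lit 1777891940) (nat_lit 912) (nat_lit 2476076855) (nat_lit 309) (nat_lit 5) (nat_lit 320) (nat_lit 5) (nat_lit 321) (nat_lit 5) (nat_lit 318) (nat_lit 314) (nat_lit 268))))) (XT.nd (nat_lit 234) (nat_lit 0) (nat_lit 0) (XT.nd (nat_lit 78) (nat_lit 836) (nat_lit 0) (XT.lf (nat_lit 76) (nat_lit 2046123957) (nat_lit 0) (nat_lit 2823233684) (nat_lit 912) (nat_lit 2746815766) (nat_lit 310) (nat_lit 5) (nat_lit 309) (nat_lit 5) (nat_lit 321) (nat_lit 5) (nat_lit 319) (nat_lit 314) (nat_lit 267)) (XT.nd (nat_lit 78) (nat_lit 836) (nat_lit 0) (XT.lf (nat_lit 76) (nat_lit 5988924357) (nat_lit 0) (nat_lit 471283152) (nat_lit 912) (nat_lit 1232363417) (nat_lit 310) (nat_lit 5) (nat_lit 309) (nat_lit 5) (nat_lit 321) (nat_lit 5) (nat_lit 320) (nat_lit 314) (nat_lit 266)) (XT.lf (nat_lit 0) (nat_lit 308635268) (nat_lit 912) (nat_lit 5503657362)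 (nat_lit 988) (nat_lit 1959281413) (nat_lit 298) (nat_lit 5) (nat_lit 310) (nat_lit 5) (nat_lit 311) (nat_lit 5) (nat_lit 321) (nat_lit 314) (nat_lit 265)))) (XT.nd (nat_lit 156) (nat_lit 0) (nat_lit 76) (XT.nd (nat_lit 78) (nat_lit 0) (nat_lit 0) (XT.lf (nat_lit 0) (nat_lit 1840887696) (nat_lit 912) (nat_lit 1509939987) (nat_lit 988) (nat_lit 4502692001) (nat_lit 298) (nat_lit 5) (nat_lit 310) (nat_lit 5) (nat_lit 311) (nat_lit 5) (nat_lit 322) (nat_lit 314) (nat_lit 264)) (XT.lf (nat_lit 76) (nat_lit 2621718334) (nat_lit 0) (nat_lit 771865754) (nat_lit 988) (nat_lit 4545136649) (nat_lit 299) (nat_lit 5) (nat_lit 298) (nat_lit 5) (nat_lit 311) (nat_lit 5) (nat_lit 323) (nat_lit 314) (nat_lit 263))) (XT.nd (nat_lit 78) (nat_lit 0) (nat_lit 0) (XT.lf (nat_lit 0) (nat_lit 4976974306) (nat_lit 912) (nat_lit 1170392535) (nat_lit 988) (nat_lit 1879618011) (nat_lit 299) (nat_lit 5) (nat_lit 311) (nat_lit 5) (nat_lit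 312) (nat_lit 5) (nat_lit 324) (nat_lit 314) (nat_lit 262)) (XT.lf (nat_lit 76) (nat_lit 3120481502) (nat_lit 0) (nat_lit 3477061683) (nat_lit 988) (nat_lit 1520692931) (nat_lit 300) (nat_lit 5) (nat_lit 299) (nat_lit 5) (nat_lit 312) (nat_lit 5) (nat_lit 325) (nat_lit 314) (nat_lit 261))))))) (XT.nd (nat_lit 1014) (nat_lit 4332) (nat_lit 0) (XT.nd (nat_lit 468) (nat_lit 4180) (nat_lit 0) (XT.nd (nat_lit 234) (nat_lit 836) (nat_lit 0) (XT.nd (nat_lit 78) (nat_lit 0) (nat_lit 76) (XT.lf (nat_lit 0) (nat_lit 18001945) (nat_lit 988) (nat_lit 682464757) (nat_lit 1064) (nat_lit 7512833498) (nat_lit 286) (nat_lit 5) (nat_lit 299) (nat_lit 5) (nat_lit 300) (nat_lit 5) (nat_lit 326) (nat_lit 314) (nat_lit 260)) (XT.nd (nat_lit 78) (nat_lit 0) (nat_lit 0) (XT.lf (nat_lit 0) (nat_lit 1584104239) (nat_lit 988) (nat_lit 4544359778) (nat_lit 1064) (nat_lit 2181973196) (nat_lit 287) (nat_lit 5) (nat_lit 300) (nat_lit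 5) (nat_lit 301) (nat_lit 5) (nat_lit 327) (nat_lit 314) (nat_lit 259)) (XT.lf (nat_lit 0) (nat_lit 3166233183) (nat_lit 988) (nat_lit 89424680) (nat_lit 1064) (nat_lit 5155785407) (nat_lit 287) (nat_lit 5) (nat_lit 300) (nat_lit 5) (nat_lit 301) (nat_lit 5) (nat_lit 328) (nat_lit 314) (nat_lit 258)))) (XT.nd (nat_lit 78) (nat_lit 912) (nat_lit 0) (XT.lf (nat_lit 76) (nat_lit 4554830596) (nat_lit 0) (nat_lit 241234051) (nat_lit 1064) (nat_lit 3719433178) (nat_lit 288) (nat_lit 5) (nat_lit 287) (nat_lit 5) (nat_lit 301) (nat_lit 5) (nat_lit 329) (nat_lit 314) (nat_lit 257)) (XT.nd (nat_lit 78) (nat_lit 0) (nat_lit 0) (XT.lf (nat_lit 0) (nat_lit 668835987) (nat_lit 988) (nat_lit 5798323552) (nat_lit 1064) (nat_lit 2155768158) (nat_lit 275) (nat_lit 5) (nat_lit 288) (nat_lit 5) (nat_lit 289) (nat_lit 5) (nat_lit 330) (nat_lit 314) (nat_lit 256)) (XT.lf (nat_lit 0) (nat_lit 5482034873) (nat_lit 988) (nat_lit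 2707124364) (nat_lit 1064) (nat_lit 544422082) (nat_lit 275) (nat_lit 5) (nat_lit 288) (nat_lit 5) (nat_lit 289) (nat_lit 5) (nat_lit 331) (nat_lit 314) (nat_lit 255))))) (XT.nd (nat_lit 234) (nat_lit 1900) (nat_lit 0) (XT.nd (nat_lit 78) (nat_lit 1140) (nat_lit 0) (XT.lf (nat_lit 0) (nat_lit 1072781528) (nat_lit 1140) (nat_lit 7274566591) (nat_lit 76) (nat_lit 500529049) (nat_lit 260) (nat_lit 5) (nat_lit 275) (nat_lit 5) (nat_lit 261) (nat_lit 5) (nat_lit 332) (nat_lit 314) (nat_lit 254)) (XT.nd (nat_lit 78) (nat_lit 1140) (nat_lit 0) (XT.lf (nat_lit 0) (nat_lit 2747651022) (nat_lit 1140) (nat_lit 2422308804) (nat_lit 76) (nat_lit 3794899570) (nat_lit 260) (nat_lit 5) (nat_lit 275) (nat_lit 5) (nat_lit 261) (nat_lit 5) (nat_lit 333) (nat_lit 314) (nat_lit 253)) (XT.lf (nat_lit 0) (nat_lit 2592374994) (nat_lit 1140) (nat_lit 1866601947) (nat_lit 1216) (nat_lit 4626809174) (nat_lit 245) (nat_lit 5) (nat_lit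 260) (nat_lit 5) (nat_lit 261) (nat_lit 5) (nat_lit 334) (nat_lit 314) (nat_lit 252)))) (XT.nd (nat_lit 156) (nat_lit 684) (nat_lit 0) (XT.nd (nat_lit 78) (nat_lit 1216) (nat_lit 0) (XT.lf (nat_lit 0) (nat_lit 6223249552) (nat_lit 1216) (nat_lit 1452057065) (nat_lit 76) (nat_lit 1535006527) (nat_lit 245) (nat_lit 5) (nat_lit 261) (nat_lit 5) (nat_lit 246) (nat_lit 5) (nat_lit 335) (nat_lit 314) (nat_lit 251)) (XT.lf (nat_lit 0) (nat_lit 3761873101) (nat_lit 1216) (nat_lit 4296463140) (nat_lit 1292) (nat_lit 1279723277) (nat_lit 229) (nat_lit 5) (nat_lit 245) (nat_lit 5) (nat_lit 246) (nat_lit 5) (nat_lit 336) (nat_lit 314) (nat_lit 250))) (XT.nd (nat_lit 78) (nat_lit 608) (nat_lit 0) (XT.lf (nat_lit 0) (nat_lit 447919997) (nat_lit 1292) (nat_lit 345964226) (nat_lit 76) (nat_lit 8676282132) (nat_lit 228) (nat_lit 5) (nat_lit 245) (nat_lit 5) (nat_lit 229) (nat_lit 5) (nat_lit 337) (nat_lit 314) (nat_lit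 249)) (XT.lf (nat_lit 0) (nat_lit 2243005065) (nat_lit 684) (nat_lit 4538245640) (nat_lit 76) (nat_lit 2823383971) (nat_lit 220) (nat_lit 5) (nat_lit 229) (nat_lit 5) (nat_lit 221) (nat_lit 5) (nat_lit 338) (nat_lit 314) (nat_lit 248)))))) (XT.nd (nat_lit 546) (nat_lit 1976) (nat_lit 0) (XT.nd (nat_lit 234) (nat_lit 1140) (nat_lit 0) (XT.nd (nat_lit 78) (nat_lit 608) (nat_lit 0) (XT.lf (nat_lit 0) (nat_lit 880698238) (nat_lit 608) (nat_lit 3196509760) (nat_lit 684) (nat_lit 5666388959) (nat_lit 212) (nat_lit 5) (nat_lit 220) (nat_lit 5) (nat_lit 221) (nat_lit 5) (nat_lit 339) (nat_lit 314) (nat_lit 247)) (XT.nd (nat_lit 78) (nat_lit 608) (nat_lit 0) (XT.lf (nat_lit 0) (nat_lit 5983585488) (nat_lit 684) (nat_lit 3369805697) (nat_lit 76) (nat_lit 532839813) (nat_lit 212) (nat_lit 5) (nat_lit 221) (nat_lit 5) (nat_lit 213) (nat_lit 5) (nat_lit 340) (nat_lit 314) (nat_lit 246)) (XT.lf (nat_lit 0) (nat_lit 2267203865)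 (nat_lit 608) (nat_lit 5700481803) (nat_lit 684) (nat_lit 2064859296) (nat_lit 204) (nat_lit 5) (nat_lit 212) (nat_lit 5) (nat_lit 213) (nat_lit 5) (nat_lit 341) (nat_lit 314) (nat_lit 245)))) (XT.nd (nat_lit 156) (nat_lit 532) (nat_lit 0) (XT.nd (nat_lit 78) (nat_lit 608) (nat_lit 0) (XT.lf (nat_lit 0) (nat_lit 8109260605) (nat_lit 608) (nat_lit 1903805685) (nat_lit 684) (nat_lit 170145688) (nat_lit 204) (nat_lit 5) (nat_lit 212) (nat_lit 5) (nat_lit 213) (nat_lit 5) (nat_lit 342) (nat_lit 314) (nat_lit 244)) (XT.lf (nat_lit 0) (nat_lit 1771451668) (nat_lit 608) (nat_lit 6544929198) (nat_lit 76) (nat_lit 2020775709) (nat_lit 196) (nat_lit 5) (nat_lit 204) (nat_lit 5) (nat_lit 197) (nat_lit 5) (nat_lit 343) (nat_lit 314) (nat_lit 243))) (XT.nd (nat_lit 78) (nat_lit 532) (nat_lit 0) (XT.lf (nat_lit 0) (nat_lit 3776815791) (nat_lit 608) (nat_lit 672358940) (nat_lit 76) (nat_lit 6046241046) (nat_lit 196) (nat_lit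 5) (nat_lit 204) (nat_lit 5) (nat_lit 197) (nat_lit 5) (nat_lit 344) (nat_lit 314) (nat_lit 242)) (XT.lf (nat_lit 0) (nat_lit 5450285206) (nat_lit 532) (nat_lit 414290648) (nat_lit 608) (nat_lit 4793194380) (nat_lit 189) (nat_lit 5) (nat_lit 196) (nat_lit 5) (nat_lit 197) (nat_lit 5) (nat_lit 345) (nat_lit 314) (nat_lit 241))))) (XT.nd (nat_lit 234) (nat_lit 912) (nat_lit 0) (XT.nd (nat_lit 78) (nat_lit 608) (nat_lit 0) (XT.lf (nat_lit 0) (nat_lit 893993739) (nat_lit 456) (nat_lit 7142780656) (nat_lit 532) (nat_lit 2787580864) (nat_lit 183) (nat_lit 5) (nat_lit 189) (nat_lit 5) (nat_lit 190) (nat_lit 5) (nat_lit 346) (nat_lit 314) (nat_lit 240)) (XT.nd (nat_lit 78) (nat_lit 608) (nat_lit 0) (XT.lf (nat_lit 0) (nat_lit 7248388501) (nat_lit 456) (nat_lit 3053334061) (nat_lit 532) (nat_lit 693401459) (nat_lit 183) (nat_lit 5) (nat_lit 189) (nat_lit 5) (nat_lit 190) (nat_lit 5) (nat_lit 347) (nat_lit 314) (nat_lit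 239)) (XT.lf (nat_lit 0) (nat_lit 1443280605) (nat_lit 608) (nat_lit 8554919488) (nat_lit 76) (nat_lit 1172159464) (nat_lit 175) (nat_lit 5) (nat_lit 183) (nat_lit 5) (nat_lit 176) (nat_lit 5) (nat_lit 348) (nat_lit 314) (nat_lit 238)))) (XT.nd (nat_lit 156) (nat_lit 456) (nat_lit 0) (XT.nd (nat_lit 78) (nat_lit 456) (nat_lit 0) (XT.lf (nat_lit 0) (nat_lit 3670541566) (nat_lit 608) (nat_lit 2174720667) (nat_lit 76) (nat_lit 5504184046) (nat_lit 175) (nat_lit 5) (nat_lit 183) (nat_lit 5) (nat_lit 176) (nat_lit 5) (nat_lit 349) (nat_lit 314) (nat_lit 237)) (XT.lf (nat_lit 0) (nat_lit 4451894587) (nat_lit 456) (nat_lit 1528311173) (nat_lit 532) (nat_lit 5553244448) (nat_lit 169) (nat_lit 5) (nat_lit 175) (nat_lit 5) (nat_lit 176) (nat_lit 5) (nat_lit 350) (nat_lit 314) (nat_lit 236))) (XT.nd (nat_lit 78) (nat_lit 456) (nat_lit 0) (XT.lf (nat_lit 0) (nat_lit 8382622614) (nat_lit 532) (nat_lit 461012590) (nat_lit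 76) (nat_lit 2878646983) (nat_lit 169) (nat_lit 5) (nat_lit 176) (nat_lit 5) (nat_lit 170) (nat_lit 5) (nat_lit 351) (nat_lit 314) (nat_lit 235)) (XT.lf (nat_lit 0) (nat_lit 6437253572) (nat_lit 456) (nat_lit 4470882470) (nat_lit 532) (nat_lit 1007123829) (nat_lit 163) (nat_lit 5) (nat_lit 169) (nat_lit 5) (nat_lit 170) (nat_lit 5) (nat_lit 352) (nat_lit 314) (nat_lit 234))))))))
noncomputable def xc141 : XT := (XT.nd (nat_lit 2106) (nat_lit 3192) (nat_lit 0) (XT.nd (nat_lit 1014) (nat_lit 2204) (nat_lit 0) (XT.nd (nat_lit 468) (nat_lit 1368) (nat_lit 0) (XT.nd (nat_lit 234) (nat_lit 836) (nat_lit 0) (XT.nd (nat_lit 78) (nat_lit 456) (nat_lit 0) (XT.lf (nat_lit 0) (nat_lit 1361301590) (nat_lit 456) (nat_lit 10693732338) (nat_lit 76) (nat_lit 58807090) (nat_lit 157) (nat_lit 5) (nat_lit 163) (nat_lit 5) (nat_lit 158) (nat_lit 5) (nat_lit 353) (nat_lit 314) (nat_lit 233)) (XT.nd (nat_lit 78) (nat_lit 456)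 (nat_lit 0) (XT.lf (nat_lit 0) (nat_lit 3855270004) (nat_lit 456) (nat_lit 3766040396) (nat_lit 76) (nat_lit 4694538575) (nat_lit 157) (nat_lit 5) (nat_lit 163) (nat_lit 5) (nat_lit 158) (nat_lit 5) (nat_lit 354) (nat_lit 314) (nat_lit 232)) (XT.lf (nat_lit 0) (nat_lit 3404859492) (nat_lit 456) (nat_lit 3027268778) (nat_lit 532) (nat_lit 6091556968) (nat_lit 151) (nat_lit 5) (nat_lit 157) (nat_lit 5) (nat_lit 158) (nat_lit 5) (nat_lit 355) (nat_lit 314) (nat_lit 231)))) (XT.nd (nat_lit 78) (nat_lit 836) (nat_lit 0) (XT.lf (nat_lit 0) (nat_lit 9116785086) (nat_lit 532) (nat_lit 1916724931) (nat_lit 76) (nat_lit 1703341683) (nat_lit 151) (nat_lit 5) (nat_lit 158) (nat_lit 5) (nat_lit 152) (nat_lit 5) (nat_lit 356) (nat_lit 314) (nat_lit 230)) (XT.nd (nat_lit 78) (nat_lit 456) (nat_lit 0) (XT.lf (nat_lit 0) (nat_lit 5549233413) (nat_lit 380) (nat_lit 6392472557) (nat_lit 456) (nat_lit 1012925058) (nat_lit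 146) (nat_lit 5) (nat_lit 151) (nat_lit 5) (nat_lit 152) (nat_lit 5) (nat_lit 357) (nat_lit 314) (nat_lit 229)) (XT.lf (nat_lit 0) (nat_lit 54193559) (nat_lit 380) (nat_lit 1582236405) (nat_lit 456) (nat_lit 11542141502) (nat_lit 140) (nat_lit 5) (nat_lit 145) (nat_lit 5) (nat_lit 146) (nat_lit 5) (nat_lit 358) (nat_lit 314) (nat_lit 228))))) (XT.nd (nat_lit 234) (nat_lit 1064) (nat_lit 0) (XT.nd (nat_lit 78) (nat_lit 304) (nat_lit 0) (XT.lf (nat_lit 0) (nat_lit 4429730253) (nat_lit 456) (nat_lit 5591819688) (nat_lit 76) (nat_lit 3384843396) (nat_lit 140) (nat_lit 5) (nat_lit 146) (nat_lit 5) (nat_lit 141) (nat_lit 5) (nat_lit 359) (nat_lit 314) (nat_lit 227)) (XT.nd (nat_lit 78) (nat_lit 0) (nat_lit 0) (XT.lf (nat_lit 0) (nat_lit 2163141024) (nat_lit 304) (nat_lit 5157707219) (nat_lit 380) (nat_lit 6319789594) (nat_lit 136) (nat_lit 5) (nat_lit 140) (nat_lit 5) (nat_lit 141) (nat_lit 5) (nat_lit 360) (nat_lit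 314) (nat_lit 226)) (XT.lf (nat_lit 0) (nat_lit 10235553446) (nat_lit 304) (nat_lit 97539212) (nat_lit 380) (nat_lit 3547793512) (nat_lit 136) (nat_lit 5) (nat_lit 140) (nat_lit 5) (nat_lit 141) (nat_lit 5) (nat_lit 361) (nat_lit 314) (nat_lit 225)))) (XT.nd (nat_lit 156) (nat_lit 608) (nat_lit 0) (XT.nd (nat_lit 78) (nat_lit 76) (nat_lit 0) (XT.lf (nat_lit 0) (nat_lit 4429535504) (nat_lit 380) (nat_lit 9076408431) (nat_lit 456) (nat_lit 620298877) (nat_lit 131) (nat_lit 5) (nat_lit 136) (nat_lit 5) (nat_lit 137) (nat_lit 5) (nat_lit 362) (nat_lit 314) (nat_lit 224)) (XT.lf (nat_lit 0) (nat_lit 2365051129) (nat_lit 456) (nat_lit 1610510248) (nat_lit 76) (nat_lit 10402212708) (nat_lit 130) (nat_lit 5) (nat_lit 136) (nat_lit 5) (nat_lit 131) (nat_lit 5) (nat_lit 363) (nat_lit 314) (nat_lit 223))) (XT.nd (nat_lit 78) (nat_lit 304) (nat_lit 0) (XT.lf (nat_lit 0) (nat_lit 5485184614) (nat_lit 380) (nat_lit 7831921935)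 (nat_lit 76) (nat_lit 1317837148) (nat_lit 126) (nat_lit 5) (nat_lit 131) (nat_lit 5) (nat_lit 127) (nat_lit 5) (nat_lit 364) (nat_lit 314) (nat_lit 222)) (XT.lf (nat_lit 0) (nat_lit 544666146) (nat_lit 304) (nat_lit 8194777544) (nat_lit 380) (nat_lit 6159176208) (nat_lit 122) (nat_lit 5) (nat_lit 126) (nat_lit 5) (nat_lit 127) (nat_lit 5) (nat_lit 365) (nat_lit 314) (nat_lit 221)))))) (XT.nd (nat_lit 546) (nat_lit 836) (nat_lit 0) (XT.nd (nat_lit 234) (nat_lit 988) (nat_lit 0) (XT.nd (nat_lit 78) (nat_lit 380) (nat_lit 0) (XT.lf (nat_lit 0) (nat_lit 9304311272) (nat_lit 304) (nat_lit 2845926604) (nat_lit 380) (nat_lit 3018208228) (nat_lit 122) (nat_lit 5) (nat_lit 126) (nat_lit 5) (nat_lit 127) (nat_lit 5) (nat_lit 366) (nat_lit 314) (nat_lit 220)) (XT.nd (nat_lit 78) (nat_lit 0) (nat_lit 0) (XT.lf (nat_lit 0) (nat_lit 246719808) (nat_lit 380) (nat_lit 12565220808) (nat_lit 76) (nat_lit 2633351489) (nat_lit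 117) (nat_lit 5) (nat_lit 122) (nat_lit 5) (nat_lit 118) (nat_lit 5) (nat_lit 367) (nat_lit 314) (nat_lit 219)) (XT.lf (nat_lit 0) (nat_lit 3617344313) (nat_lit 380) (nat_lit 3809081182) (nat_lit 76) (nat_lit 8301075495) (nat_lit 117) (nat_lit 5) (nat_lit 122) (nat_lit 5) (nat_lit 118) (nat_lit 5) (nat_lit 368) (nat_lit 314) (nat_lit 218)))) (XT.nd (nat_lit 156) (nat_lit 684) (nat_lit 0) (XT.nd (nat_lit 78) (nat_lit 0) (nat_lit 0) (XT.lf (nat_lit 0) (nat_lit 5285127150) (nat_lit 304) (nat_lit 1835765802) (nat_lit 380) (nat_lit 8896335192) (nat_lit 113) (nat_lit 5) (nat_lit 117) (nat_lit 5) (nat_lit 118) (nat_lit 5) (nat_lit 369) (nat_lit 314) (nat_lit 217)) (XT.lf (nat_lit 0) (nat_lit 10787306201) (nat_lit 380) (nat_lit 1650294733) (nat_lit 76) (nat_lit 3876319419) (nat_lit 113) (nat_lit 5) (nat_lit 118) (nat_lit 5) (nat_lit 114) (nat_lit 5) (nat_lit 370) (nat_lit 314) (nat_lit 216))) (XT.nd (nat_lit 78)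 (nat_lit 380) (nat_lit 0) (XT.lf (nat_lit 0) (nat_lit 7811067890) (nat_lit 304) (nat_lit 6827658506) (nat_lit 380) (nat_lit 1978542308) (nat_lit 109) (nat_lit 5) (nat_lit 113) (nat_lit 5) (nat_lit 114) (nat_lit 5) (nat_lit 371) (nat_lit 314) (nat_lit 215)) (XT.lf (nat_lit 0) (nat_lit 629649820) (nat_lit 304) (nat_lit 1018343421) (nat_lit 380) (nat_lit 15281104654) (nat_lit 104) (nat_lit 5) (nat_lit 108) (nat_lit 5) (nat_lit 109) (nat_lit 5) (nat_lit 372) (nat_lit 314) (nat_lit 214))))) (XT.nd (nat_lit 234) (nat_lit 608) (nat_lit 0) (XT.nd (nat_lit 78) (nat_lit 228) (nat_lit 0) (XT.lf (nat_lit 0) (nat_lit 5463118557) (nat_lit 380) (nat_lit 6814150897) (nat_lit 76) (nat_lit 4968843328) (nat_lit 104) (nat_lit 5) (nat_lit 109) (nat_lit 5) (nat_lit 105) (nat_lit 5) (nat_lit 373) (nat_lit 314) (nat_lit 213)) (XT.nd (nat_lit 78) (nat_lit 0) (nat_lit 0) (XT.lf (nat_lit 0) (nat_lit 2977083052) (nat_lit 228) (nat_lit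 6436863856) (nat_lit 304) (nat_lit 8158058892) (nat_lit 101) (nat_lit 5) (nat_lit 104) (nat_lit 5) (nat_lit 105) (nat_lit 5) (nat_lit 374) (nat_lit 314) (nat_lit 212)) (XT.lf (nat_lit 0) (nat_lit 13175365393) (nat_lit 228) (nat_lit 359548178) (nat_lit 304) (nat_lit 4371218646) (nat_lit 101) (nat_lit 5) (nat_lit 104) (nat_lit 5) (nat_lit 105) (nat_lit 5) (nat_lit 375) (nat_lit 314) (nat_lit 211)))) (XT.nd (nat_lit 156) (nat_lit 228) (nat_lit 0) (XT.nd (nat_lit 78) (nat_lit 76) (nat_lit 0) (XT.lf (nat_lit 0) (nat_lit 5452981835) (nat_lit 304) (nat_lit 12418879163) (nat_lit 380) (nat_lit 375655743) (nat_lit 97) (nat_lit 5) (nat_lit 101) (nat_lit 5) (nat_lit 102) (nat_lit 5) (nat_lit 376) (nat_lit 314) (nat_lit 210)) (XT.lf (nat_lit 0) (nat_lit 3701893704) (nat_lit 380) (nat_lit 2624578471) (nat_lit 76) (nat_lit 12270543859) (nat_lit 96) (nat_lit 5) (nat_lit 101) (nat_lit 5) (nat_lit 97) (nat_lit 5) (nat_lit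 377) (nat_lit 314) (nat_lit 209))) (XT.nd (nat_lit 78) (nat_lit 0) (nat_lit 0) (XT.lf (nat_lit 0) (nat_lit 7954893538) (nat_lit 304) (nat_lit 10978221584) (nat_lit 76) (nat_lit 21957832) (nat_lit 93) (nat_lit 5) (nat_lit 97) (nat_lit 5) (nat_lit 94) (nat_lit 5) (nat_lit 378) (nat_lit 314) (nat_lit 208)) (XT.lf (nat_lit 0) (nat_lit 12408809323) (nat_lit 304) (nat_lit 461345467) (nat_lit 76) (nat_lit 6451521336) (nat_lit 93) (nat_lit 5) (nat_lit 97) (nat_lit 5) (nat_lit 94) (nat_lit 5) (nat_lit 379) (nat_lit 314) (nat_lit 207))))))) (XT.nd (nat_lit 1014) (nat_lit 1368) (nat_lit 0) (XT.nd (nat_lit 468) (nat_lit 912) (nat_lit 0) (XT.nd (nat_lit 234) (nat_lit 380) (nat_lit 0) (XT.nd (nat_lit 78) (nat_lit 304) (nat_lit 0) (XT.lf (nat_lit 0) (nat_lit 10552197213) (nat_lit 228) (nat_lit 6529969947) (nat_lit 304) (nat_lit 2614539695) (nat_lit 90) (nat_lit 5) (nat_lit 93) (nat_lit 5) (nat_lit 94) (nat_lit 5) (nat_lit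 380) (nat_lit 314) (nat_lit 206)) (XT.nd (nat_lit 78) (nat_lit 0) (nat_lit 0) (XT.lf (nat_lit 0) (nat_lit 1784284413) (nat_lit 304) (nat_lit 18266681966) (nat_lit 76) (nat_lit 31295722) (nat_lit 86) (nat_lit 5) (nat_lit 90) (nat_lit 5) (nat_lit 87) (nat_lit 5) (nat_lit 381) (nat_lit 314) (nat_lit 205)) (XT.lf (nat_lit 0) (nat_lit 6405013388) (nat_lit 304) (nat_lit 7301094951) (nat_lit 76) (nat_lit 6768228218) (nat_lit 86) (nat_lit 5) (nat_lit 90) (nat_lit 5) (nat_lit 87) (nat_lit 5) (nat_lit 382) (nat_lit 314) (nat_lit 204)))) (XT.nd (nat_lit 78) (nat_lit 152) (nat_lit 0) (XT.lf (nat_lit 0) (nat_lit 4048228680) (nat_lit 228) (nat_lit 7140079452) (nat_lit 304) (nat_lit 9689150528) (nat_lit 83) (nat_lit 5) (nat_lit 86) (nat_lit 5) (nat_lit 87) (nat_lit 5) (nat_lit 383) (nat_lit 314) (nat_lit 203)) (XT.nd (nat_lit 78) (nat_lit 152) (nat_lit 0) (XT.lf (nat_lit 0) (nat_lit 15863708309) (nat_lit 228) (nat_lit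 310355428) (nat_lit 304) (nat_lit 5116845449) (nat_lit 83) (nat_lit 5) (nat_lit 86) (nat_lit 5) (nat_lit 87) (nat_lit 5) (nat_lit 384) (nat_lit 314) (nat_lit 202)) (XT.lf (nat_lit 0) (nat_lit 6352575255) (nat_lit 152) (nat_lit 15068098528) (nat_lit 228) (nat_lit 292754507) (nat_lit 81) (nat_lit 5) (nat_lit 83) (nat_lit 5) (nat_lit 84) (nat_lit 5) (nat_lit 385) (nat_lit 314) (nat_lit 201))))) (XT.nd (nat_lit 234) (nat_lit 608) (nat_lit 0) (XT.nd (nat_lit 78) (nat_lit 228) (nat_lit 0) (XT.lf (nat_lit 0) (nat_lit 4628861996) (nat_lit 228) (nat_lit 3622241782) (nat_lit 76) (nat_lit 13894852544) (nat_lit 80) (nat_lit 5) (nat_lit 83) (nat_lit 5) (nat_lit 81) (nat_lit 5) (nat_lit 386) (nat_lit 314) (nat_lit 200)) (XT.nd (nat_lit 78) (nat_lit 0) (nat_lit 0) (XT.lf (nat_lit 0) (nat_lit 8610648856) (nat_lit 228) (nat_lit 1150413493) (nat_lit 304) (nat_lit 12828249522) (nat_lit 77) (nat_lit 5) (nat_lit 80) (nat_lit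 5) (nat_lit 81) (nat_lit 5) (nat_lit 387) (nat_lit 314) (nat_lit 199)) (XT.lf (nat_lit 0) (nat_lit 15129563113) (nat_lit 304) (nat_lit 1842808690) (nat_lit 76) (nat_lit 6071129375) (nat_lit 77) (nat_lit 5) (nat_lit 81) (nat_lit 5) (nat_lit 78) (nat_lit 5) (nat_lit 388) (nat_lit 314) (nat_lit 198)))) (XT.nd (nat_lit 156) (nat_lit 380) (nat_lit 0) (XT.nd (nat_lit 78) (nat_lit 76) (nat_lit 0) (XT.lf (nat_lit 0) (nat_lit 10834719504) (nat_lit 152) (nat_lit 9926492319) (nat_lit 228) (nat_lit 2747044587) (nat_lit 75) (nat_lit 5) (nat_lit 77) (nat_lit 5) (nat_lit 78) (nat_lit 5) (nat_lit 389) (nat_lit 314) (nat_lit 197)) (XT.lf (nat_lit 0) (nat_lit 2530000575) (nat_lit 228) (nat_lit 103467636) (nat_lit 76) (nat_lit 21352584727) (nat_lit 74) (nat_lit 5) (nat_lit 77) (nat_lit 5) (nat_lit 75) (nat_lit 5) (nat_lit 390) (nat_lit 314) (nat_lit 196))) (XT.nd (nat_lit 78) (nat_lit 152) (nat_lit 0) (XT.lf (nat_lit 0) (nat_lit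 8070889324) (nat_lit 304) (nat_lit 11473003878) (nat_lit 76) (nat_lit 4928654627) (nat_lit 71) (nat_lit 5) (nat_lit 75) (nat_lit 5) (nat_lit 72) (nat_lit 5) (nat_lit 391) (nat_lit 314) (nat_lit 195)) (XT.lf (nat_lit 0) (nat_lit 1505534526) (nat_lit 152) (nat_lit 12301145294) (nat_lit 228) (nat_lit 11166100189) (nat_lit 69) (nat_lit 5) (nat_lit 71) (nat_lit 5) (nat_lit 72) (nat_lit 5) (nat_lit 392) (nat_lit 314) (nat_lit 194)))))) (XT.nd (nat_lit 546) (nat_lit 684) (nat_lit 0) (XT.nd (nat_lit 234) (nat_lit 380) (nat_lit 0) (XT.nd (nat_lit 78) (nat_lit 304) (nat_lit 0) (XT.lf (nat_lit 0) (nat_lit 15086909083) (nat_lit 152) (nat_lit 4730731493) (nat_lit 228) (nat_lit 5667288299) (nat_lit 69) (nat_lit 5) (nat_lit 71) (nat_lit 5) (nat_lit 72) (nat_lit 5) (nat_lit 393) (nat_lit 314) (nat_lit 193)) (XT.nd (nat_lit 78) (nat_lit 0) (nat_lit 0) (XT.lf (nat_lit 0) (nat_lit 43558243) (nat_lit 304) (nat_lit 22939083061)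 (nat_lit 76) (nat_lit 3028394329) (nat_lit 65) (nat_lit 5) (nat_lit 69) (nat_lit 5) (nat_lit 66) (nat_lit 5) (nat_lit 394) (nat_lit 314) (nat_lit 192)) (XT.lf (nat_lit 0) (nat_lit 5952266798) (nat_lit 304) (nat_lit 9515996774) (nat_lit 76) (nat_lit 11078767758) (nat_lit 65) (nat_lit 5) (nat_lit 69) (nat_lit 5) (nat_lit 66) (nat_lit 5) (nat_lit 395) (nat_lit 314) (nat_lit 191)))) (XT.nd (nat_lit 156) (nat_lit 228) (nat_lit 0) (XT.nd (nat_lit 78) (nat_lit 0) (nat_lit 0) (XT.lf (nat_lit 0) (nat_lit 4374360861) (nat_lit 152) (nat_lit 7693852317) (nat_lit 228) (nat_lit 15029996747) (nat_lit 63) (nat_lit 5) (nat_lit 65) (nat_lit 5) (nat_lit 66) (nat_lit 5) (nat_lit 396) (nat_lit 314) (nat_lit 190)) (XT.lf (nat_lit 0) (nat_lit 18455696760) (nat_lit 228) (nat_lit 8811364656) (nat_lit 76) (nat_lit 396222953) (nat_lit 63) (nat_lit 5) (nat_lit 66) (nat_lit 5) (nat_lit 64) (nat_lit 5) (nat_lit 397) (nat_lit 314) (nat_lit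 189))) (XT.nd (nat_lit 78) (nat_lit 76) (nat_lit 0) (XT.lf (nat_lit 0) (nat_lit 5529981138) (nat_lit 152) (nat_lit 19622505731) (nat_lit 228) (nat_lit 3089295910) (nat_lit 61) (nat_lit 5) (nat_lit 63) (nat_lit 5) (nat_lit 64) (nat_lit 5) (nat_lit 398) (nat_lit 314) (nat_lit 188)) (XT.lf (nat_lit 0) (nat_lit 3228093071) (nat_lit 228) (nat_lit 8404818188) (nat_lit 76) (nat_lit 17201453413) (nat_lit 60) (nat_lit 5) (nat_lit 63) (nat_lit 5) (nat_lit 61) (nat_lit 5) (nat_lit 399) (nat_lit 314) (nat_lit 187))))) (XT.nd (nat_lit 234) (nat_lit 380) (nat_lit 0) (XT.nd (nat_lit 78) (nat_lit 152) (nat_lit 0) (XT.lf (nat_lit 0) (nat_lit 6406103437) (nat_lit 152) (nat_lit 3317104749) (nat_lit 228) (nat_lit 19719091339) (nat_lit 58) (nat_lit 5) (nat_lit 60) (nat_lit 5) (nat_lit 61) (nat_lit 5) (nat_lit 400) (nat_lit 314) (nat_lit 186)) (XT.nd (nat_lit 78) (nat_lit 152) (nat_lit 0) (XT.lf (nat_lit 0) (nat_lit 16538115703)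 (nat_lit 228) (nat_lit 8303325250) (nat_lit 76) (nat_lit 5223285251) (nat_lit 58) (nat_lit 5) (nat_lit 61) (nat_lit 5) (nat_lit 59) (nat_lit 5) (nat_lit 401) (nat_lit 314) (nat_lit 185)) (XT.lf (nat_lit 0) (nat_lit 6955232834) (nat_lit 152) (nat_lit 16691042811) (nat_lit 228) (nat_lit 7056887772) (nat_lit 56) (nat_lit 5) (nat_lit 58) (nat_lit 5) (nat_lit 59) (nat_lit 5) (nat_lit 402) (nat_lit 314) (nat_lit 184)))) (XT.nd (nat_lit 156) (nat_lit 152) (nat_lit 0) (XT.nd (nat_lit 78) (nat_lit 228) (nat_lit 0) (XT.lf (nat_lit 0) (nat_lit 22822767807) (nat_lit 152) (nat_lit 8217999308) (nat_lit 228) (nat_lit 317795864) (nat_lit 56) (nat_lit 5) (nat_lit 58) (nat_lit 5) (nat_lit 59) (nat_lit 5) (nat_lit 403) (nat_lit 314) (nat_lit 183)) (XT.lf (nat_lit 0) (nat_lit 6558922178) (nat_lit 228) (nat_lit 24845387663) (nat_lit 76) (nat_lit 625465317) (nat_lit 53) (nat_lit 5) (nat_lit 56) (nat_lit 5) (nat_lit 54) (nat_lit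 5) (nat_lit 404) (nat_lit 314) (nat_lit 182))) (XT.nd (nat_lit 78) (nat_lit 152) (nat_lit 0) (XT.lf (nat_lit 0) (nat_lit 13793469104) (nat_lit 228) (nat_lit 9271455751) (nat_lit 76) (nat_lit 9651368692) (nat_lit 53) (nat_lit 5) (nat_lit 56) (nat_lit 5) (nat_lit 54) (nat_lit 5) (nat_lit 405) (nat_lit 314) (nat_lit 181)) (XT.lf (nat_lit 0) (nat_lit 6885904934) (nat_lit 152) (nat_lit 14415145041) (nat_lit 228) (nat_lit 12120679217) (nat_lit 51) (nat_lit 5) (nat_lit 53) (nat_lit 5) (nat_lit 54) (nat_lit 5) (nat_lit 406) (nat_lit 314) (nat_lit 180))))))))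
noncomputable def xc142 : XT := (XT.nd (nat_lit 2106) (nat_lit 456) (nat_lit 0) (XT.nd (nat_lit 1014) (nat_lit 684) (nat_lit 0) (XT.nd (nat_lit 468) (nat_lit 532) (nat_lit 0) (XT.nd (nat_lit 234) (nat_lit 228) (nat_lit 0) (XT.nd (nat_lit 78) (nat_lit 228) (nat_lit 0) (XT.lf (nat_lit 0) (nat_lit 23700062222) (nat_lit 152) (nat_lit 5417349657) (nat_lit 228) (nat_lit 5028411000) (nat_lit 51) (nat_lit 5) (nat_lit 53) (nat_lit 5) (nat_lit 54) (nat_lit 5) (nat_lit 407) (nat_lit 314) (nat_lit 179)) (XT.nd (nat_lit 78) (nat_lit 0) (nat_lit 0) (XT.lf (nat_lit 0) (nat_lit 2319751225) (nat_lit 228) (nat_lit 28718616415) (nat_lit 76) (nat_lit 3849990167) (nat_lit 48) (nat_lit 5) (nat_lit 51) (nat_lit 5) (nat_lit 49) (nat_lit 5) (nat_lit 408) (nat_lit 314) (nat_lit 178)) (XT.lf (nat_lit 0) (nat_lit 9937625826) (nat_lit 228) (nat_lit 12274336786) (nat_lit 76) (nat_lit 13435204024) (nat_lit 48) (nat_lit 5) (nat_lit 51)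 (nat_lit 5) (nat_lit 49) (nat_lit 5) (nat_lit 409) (nat_lit 314) (nat_lit 177)))) (XT.nd (nat_lit 78) (nat_lit 76) (nat_lit 0) (XT.lf (nat_lit 0) (nat_lit 4738551944) (nat_lit 152) (nat_lit 13081491270) (nat_lit 228) (nat_lit 18607617725) (nat_lit 46) (nat_lit 5) (nat_lit 48) (nat_lit 5) (nat_lit 49) (nat_lit 5) (nat_lit 410) (nat_lit 314) (nat_lit 176)) (XT.nd (nat_lit 78) (nat_lit 76) (nat_lit 0) (XT.lf (nat_lit 0) (nat_lit 22496422192) (nat_lit 152) (nat_lit 3557028739) (nat_lit 228) (nat_lit 11174684972) (nat_lit 46) (nat_lit 5) (nat_lit 48) (nat_lit 5) (nat_lit 49) (nat_lit 5) (nat_lit 411) (nat_lit 314) (nat_lit 175)) (XT.lf (nat_lit 0) (nat_lit 2710458452) (nat_lit 76) (nat_lit 31900341171) (nat_lit 152) (nat_lit 3439518656) (nat_lit 45) (nat_lit 5) (nat_lit 46) (nat_lit 5) (nat_lit 47) (nat_lit 4) (nat_lit 412) (nat_lit 314) (nat_lit 174))))) (XT.nd (nat_lit 234) (nat_lit 304) (nat_lit 0) (XT.nd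 (nat_lit 78) (nat_lit 152) (nat_lit 0) (XT.lf (nat_lit 0) (nat_lit 4615596128) (nat_lit 152) (nat_lit 18011782872) (nat_lit 76) (nat_lit 16263195326) (nat_lit 44) (nat_lit 5) (nat_lit 46) (nat_lit 5) (nat_lit 45) (nat_lit 5) (nat_lit 413) (nat_lit 314) (nat_lit 173)) (XT.nd (nat_lit 78) (nat_lit 152) (nat_lit 0) (XT.lf (nat_lit 0) (nat_lit 12834294460) (nat_lit 152) (nat_lit 214177487) (nat_lit 76) (nat_lit 26706813852) (nat_lit 44) (nat_lit 5) (nat_lit 46) (nat_lit 5) (nat_lit 45) (nat_lit 5) (nat_lit 414) (nat_lit 314) (nat_lit 172)) (XT.lf (nat_lit 0) (nat_lit 18461827133) (nat_lit 152) (nat_lit 3006514365) (nat_lit 228) (nat_lit 19172534662) (nat_lit 42) (nat_lit 5) (nat_lit 44) (nat_lit 5) (nat_lit 45) (nat_lit 5) (nat_lit 415) (nat_lit 314) (nat_lit 171)))) (XT.nd (nat_lit 156) (nat_lit 228) (nat_lit 0) (XT.nd (nat_lit 78) (nat_lit 76) (nat_lit 0) (XT.lf (nat_lit 0) (nat_lit 30425475088) (nat_lit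 228) (nat_lit 3936834829) (nat_lit 76) (nat_lit 7188803504) (nat_lit 42) (nat_lit 5) (nat_lit 45) (nat_lit 5) (nat_lit 43) (nat_lit 4) (nat_lit 416) (nat_lit 314) (nat_lit 170)) (XT.lf (nat_lit 0) (nat_lit 15102216262) (nat_lit 76) (nat_lit 24715653485) (nat_lit 152) (nat_lit 2665792751) (nat_lit 41) (nat_lit 5) (nat_lit 42) (nat_lit 5) (nat_lit 43) (nat_lit 4) (nat_lit 417) (nat_lit 314) (nat_lit 169))) (XT.nd (nat_lit 78) (nat_lit 152) (nat_lit 0) (XT.lf (nat_lit 0) (nat_lit 5961603714) (nat_lit 152) (nat_lit 8723762372) (nat_lit 76) (nat_lit 28756125815) (nat_lit 40) (nat_lit 5) (nat_lit 42) (nat_lit 5) (nat_lit 41) (nat_lit 5) (nat_lit 418) (nat_lit 314) (nat_lit 168)) (XT.lf (nat_lit 0) (nat_lit 10660349871) (nat_lit 152) (nat_lit 4228233105) (nat_lit 228) (nat_lit 29535852186) (nat_lit 38) (nat_lit 5) (nat_lit 40) (nat_lit 5) (nat_lit 41) (nat_lit 5) (nat_lit 419) (nat_lit 314) (nat_lit 167))))))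 (XT.nd (nat_lit 546) (nat_lit 304) (nat_lit 0) (XT.nd (nat_lit 234) (nat_lit 304) (nat_lit 0) (XT.nd (nat_lit 78) (nat_lit 76) (nat_lit 0) (XT.lf (nat_lit 0) (nat_lit 24227125156) (nat_lit 228) (nat_lit 14708134586) (nat_lit 76) (nat_lit 6497295359) (nat_lit 38) (nat_lit 5) (nat_lit 41) (nat_lit 5) (nat_lit 39) (nat_lit 4) (nat_lit 420) (nat_lit 314) (nat_lit 166)) (XT.nd (nat_lit 78) (nat_lit 0) (nat_lit 0) (XT.lf (nat_lit 0) (nat_lit 4959891146) (nat_lit 76) (nat_lit 28967606501) (nat_lit 152) (nat_lit 12540971727) (nat_lit 37) (nat_lit 5) (nat_lit 38) (nat_lit 5) (nat_lit 39) (nat_lit 4) (nat_lit 421) (nat_lit 314) (nat_lit 165)) (XT.lf (nat_lit 0) (nat_lit 25505077251) (nat_lit 76) (nat_lit 18554551112) (nat_lit 152) (nat_lit 3471611231) (nat_lit 37) (nat_lit 5) (nat_lit 38) (nat_lit 5) (nat_lit 39) (nat_lit 4) (nat_lit 422) (nat_lit 314) (nat_lit 164)))) (XT.nd (nat_lit 156) (nat_lit 76) (nat_lit 0)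 (XT.nd (nat_lit 78) (nat_lit 152) (nat_lit 0) (XT.lf (nat_lit 0) (nat_lit 5747663140) (nat_lit 152) (nat_lit 2029814839) (nat_lit 76) (nat_lit 40846951848) (nat_lit 36) (nat_lit 5) (nat_lit 38) (nat_lit 5) (nat_lit 37) (nat_lit 5) (nat_lit 423) (nat_lit 314) (nat_lit 163)) (XT.lf (nat_lit 0) (nat_lit 15381907997) (nat_lit 228) (nat_lit 30891283299) (nat_lit 76) (nat_lit 3469949104) (nat_lit 34) (nat_lit 5) (nat_lit 37) (nat_lit 5) (nat_lit 35) (nat_lit 4) (nat_lit 424) (nat_lit 314) (nat_lit 162))) (XT.nd (nat_lit 78) (nat_lit 76) (nat_lit 0) (XT.lf (nat_lit 0) (nat_lit 25395506783) (nat_lit 228) (nat_lit 10584147836) (nat_lit 76) (nat_lit 14913048700) (nat_lit 34) (nat_lit 5) (nat_lit 37) (nat_lit 5) (nat_lit 35) (nat_lit 4) (nat_lit 425) (nat_lit 314) (nat_lit 161)) (XT.lf (nat_lit 0) (nat_lit 10524236183) (nat_lit 76) (nat_lit 25279279407) (nat_lit 152) (nat_lit 16270418277) (nat_lit 33) (nat_lit 5)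 (nat_lit 34) (nat_lit 5) (nat_lit 35) (nat_lit 4) (nat_lit 426) (nat_lit 314) (nat_lit 160))))) (XT.nd (nat_lit 234) (nat_lit 76) (nat_lit 0) (XT.nd (nat_lit 78) (nat_lit 228) (nat_lit 0) (XT.lf (nat_lit 0) (nat_lit 32469635813) (nat_lit 76) (nat_lit 14153926396) (nat_lit 152) (nat_lit 6664045972) (nat_lit 33) (nat_lit 5) (nat_lit 34) (nat_lit 5) (nat_lit 35) (nat_lit 4) (nat_lit 427) (nat_lit 314) (nat_lit 159)) (XT.nd (nat_lit 78) (nat_lit 0) (nat_lit 0) (XT.lf (nat_lit 0) (nat_lit 501481691) (nat_lit 152) (nat_lit 2663873180) (nat_lit 228) (nat_lit 51371470685) (nat_lit 30) (nat_lit 5) (nat_lit 32) (nat_lit 5) (nat_lit 33) (nat_lit 5) (nat_lit 428) (nat_lit 314) (nat_lit 158)) (XT.lf (nat_lit 0) (nat_lit 13449232718) (nat_lit 228) (nat_lit 33099140963) (nat_lit 76) (nat_lit 9264360993) (nat_lit 30) (nat_lit 5) (nat_lit 33) (nat_lit 5) (nat_lit 31) (nat_lit 4) (nat_lit 429) (nat_lit 314) (nat_lit 157))))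 (XT.nd (nat_lit 156) (nat_lit 0) (nat_lit 0) (XT.nd (nat_lit 78) (nat_lit 76) (nat_lit 0) (XT.lf (nat_lit 0) (nat_lit 24061280992) (nat_lit 228) (nat_lit 11573826332) (nat_lit 76) (nat_lit 21491224812) (nat_lit 30) (nat_lit 5) (nat_lit 33) (nat_lit 5) (nat_lit 31) (nat_lit 4) (nat_lit 430) (nat_lit 314) (nat_lit 156)) (XT.lf (nat_lit 0) (nat_lit 10795677893) (nat_lit 76) (nat_lit 24293262344) (nat_lit 152) (nat_lit 23387480470) (nat_lit 29) (nat_lit 5) (nat_lit 30) (nat_lit 5) (nat_lit 31) (nat_lit 4) (nat_lit 431) (nat_lit 314) (nat_lit 155))) (XT.nd (nat_lit 78) (nat_lit 0) (nat_lit 0) (XT.lf (nat_lit 0) (nat_lit 34061406859) (nat_lit 76) (nat_lit 12496443836) (nat_lit 152) (nat_lit 13305849248) (nat_lit 29) (nat_lit 5) (nat_lit 30) (nat_lit 5) (nat_lit 31) (nat_lit 4) (nat_lit 432) (nat_lit 314) (nat_lit 154)) (XT.lf (nat_lit 0) (nat_lit 58013348007) (nat_lit 76) (nat_lit 351216853) (nat_lit 152) (nat_lit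 2928221239) (nat_lit 29) (nat_lit 5) (nat_lit 30) (nat_lit 5) (nat_lit 31) (nat_lit 4) (nat_lit 433) (nat_lit 314) (nat_lit 153))))))) (XT.nd (nat_lit 37752) (nat_lit 0) (nat_lit 19988) (XT.nd (nat_lit 468) (nat_lit 152) (nat_lit 0) (XT.nd (nat_lit 234) (nat_lit 76) (nat_lit 0) (XT.nd (nat_lit 78) (nat_lit 76) (nat_lit 0) (XT.lf (nat_lit 0) (nat_lit 7917080071) (nat_lit 152) (nat_lit 42648667569) (nat_lit 76) (nat_lit 12187526237) (nat_lit 27) (nat_lit 5) (nat_lit 29) (nat_lit 5) (nat_lit 28) (nat_lit 4) (nat_lit 434) (nat_lit 314) (nat_lit 152)) (XT.nd (nat_lit 78) (nat_lit 76) (nat_lit 0) (XT.lf (nat_lit 0) (nat_lit 19059682843) (nat_lit 152) (nat_lit 20043541239) (nat_lit 76) (nat_lit 25152559114) (nat_lit 27) (nat_lit 5) (nat_lit 29) (nat_lit 5) (nat_lit 28) (nat_lit 4) (nat_lit 435) (nat_lit 314) (nat_lit 151)) (XT.lf (nat_lit 0) (nat_lit 3292771179) (nat_lit 76) (nat_lit 27269498631) (nat_lit 152)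 (nat_lit 35240327364) (nat_lit 26) (nat_lit 5) (nat_lit 27) (nat_lit 5) (nat_lit 28) (nat_lit 4) (nat_lit 436) (nat_lit 314) (nat_lit 150)))) (XT.nd (nat_lit 78) (nat_lit 76) (nat_lit 0) (XT.lf (nat_lit 0) (nat_lit 27728934405) (nat_lit 76) (nat_lit 14877520802) (nat_lit 152) (nat_lit 24783465285) (nat_lit 26) (nat_lit 5) (nat_lit 27) (nat_lit 5) (nat_lit 28) (nat_lit 4) (nat_lit 437) (nat_lit 314) (nat_lit 149)) (XT.nd (nat_lit 78) (nat_lit 76) (nat_lit 0) (XT.lf (nat_lit 0) (nat_lit 52887394652) (nat_lit 76) (nat_lit 2118863120) (nat_lit 152) (nat_lit 14018777519) (nat_lit 26) (nat_lit 5) (nat_lit 27) (nat_lit 5) (nat_lit 28) (nat_lit 4) (nat_lit 438) (nat_lit 314) (nat_lit 148)) (XT.lf (nat_lit 0) (nat_lit 8133571879) (nat_lit 76) (nat_lit 59823033405) (nat_lit 76) (nat_lit 2747242240) (nat_lit 25) (nat_lit 4) (nat_lit 26) (nat_lit 5) (nat_lit 26) (nat_lit 4) (nat_lit 439) (nat_lit 314) (nat_lit 147)))))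 (XT.nd (nat_lit 234) (nat_lit 0) (nat_lit 0) (XT.nd (nat_lit 78) (nat_lit 76) (nat_lit 0) (XT.lf (nat_lit 0) (nat_lit 8869469032) (nat_lit 152) (nat_lit 39082793040) (nat_lit 76) (nat_lit 24472807760) (nat_lit 24) (nat_lit 5) (nat_lit 26) (nat_lit 5) (nat_lit 25) (nat_lit 4) (nat_lit 440) (nat_lit 314) (nat_lit 146)) (XT.nd (nat_lit 78) (nat_lit 76) (nat_lit 0) (XT.lf (nat_lit 0) (nat_lit 20774044620) (nat_lit 152) (nat_lit 14928178393) (nat_lit 76) (nat_lit 38495052860) (nat_lit 24) (nat_lit 5) (nat_lit 26) (nat_lit 5) (nat_lit 25) (nat_lit 4) (nat_lit 441) (nat_lit 314) (nat_lit 145)) (XT.lf (nat_lit 0) (nat_lit 10138929474) (nat_lit 76) (nat_lit 22989027289) (nat_lit 152) (nat_lit 42891925811) (nat_lit 23) (nat_lit 5) (nat_lit 24) (nat_lit 5) (nat_lit 25) (nat_lit 4) (nat_lit 442) (nat_lit 314) (nat_lit 144)))) (XT.nd (nat_lit 36894) (nat_lit 0) (nat_lit 21660) (XT.nd (nat_lit 78) (nat_lit 0) (nat_lit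 0) (XT.lf (nat_lit 0) (nat_lit 36254169313) (nat_lit 76) (nat_lit 9743858146) (nat_lit 152) (nat_lit 31894774226) (nat_lit 23) (nat_lit 5) (nat_lit 24) (nat_lit 5) (nat_lit 25) (nat_lit 4) (nat_lit 443) (nat_lit 314) (nat_lit 143)) (XT.lf (nat_lit 0) (nat_lit 59286580301) (nat_lit 152) (nat_lit 16716232726) (nat_lit 0) (nat_lit 3818124371) (nat_lit 23) (nat_lit 5) (nat_lit 25) (nat_lit 4) (nat_lit 23) (nat_lit 4) (nat_lit 444) (nat_lit 314) (nat_lit 142))) (XT.nd (nat_lit 78) (nat_lit 0) (nat_lit 0) (XT.lf (nat_lit 0) (nat_lit 26347787) (nat_lit 0) (nat_lit 26347787) (nat_lit 836) (nat_lit 3649791995) (nat_lit 308) (nat_lit 5) (nat_lit 308) (nat_lit 3) (nat_lit 319) (nat_lit 3) (nat_lit 315) (nat_lit 315) (nat_lit 270)) (XT.lf (nat_lit 0) (nat_lit 1612293974) (nat_lit 836) (nat_lit 3797349744) (nat_lit 912) (nat_lit 2060287759) (nat_lit 308) (nat_lit 5) (nat_lit 319) (nat_lit 3) (nat_lit 320) (nat_lit 5)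 (nat_lit 316) (nat_lit 315) (nat_lit 269)))))) (XT.nd (nat_lit 546) (nat_lit 836) (nat_lit 0) (XT.nd (nat_lit 234) (nat_lit 836) (nat_lit 0) (XT.nd (nat_lit 78) (nat_lit 0) (nat_lit 0) (XT.lf (nat_lit 0) (nat_lit 3107243996) (nat_lit 836) (nat_lit 167328659) (nat_lit 912) (nat_lit 4264016059) (nat_lit 308) (nat_lit 5) (nat_lit 319) (nat_lit 3) (nat_lit 320) (nat_lit 5) (nat_lit 317) (nat_lit 315) (nat_lit 268)) (XT.nd (nat_lit 78) (nat_lit 0) (nat_lit 76) (XT.lf (nat_lit 76) (nat_lit 3611944134) (nat_lit 0) (nat_lit 1013817023) (nat_lit 912) (nat_lit 2984219275) (nat_lit 309) (nat_lit 5) (nat_lit 308) (nat_lit 5) (nat_lit 320) (nat_lit 5) (nat_lit 318) (nat_lit 315) (nat_lit 267)) (XT.lf (nat_lit 0) (nat_lit 6149759883) (nat_lit 836) (nat_lit 219842193) (nat_lit 912) (nat_lit 1315149309) (nat_lit 309) (nat_lit 5) (nat_lit 320) (nat_lit 5) (nat_lit 321) (nat_lit 5) (nat_lit 319) (nat_lit 315) (nat_lit 266))))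 (XT.nd (nat_lit 156) (nat_lit 0) (nat_lit 76) (XT.nd (nat_lit 78) (nat_lit 912) (nat_lit 0) (XT.lf (nat_lit 76) (nat_lit 3703096274) (nat_lit 0) (nat_lit 4009182863) (nat_lit 912) (nat_lit 49736549) (nat_lit 310) (nat_lit 5) (nat_lit 309) (nat_lit 5) (nat_lit 321) (nat_lit 5) (nat_lit 320) (nat_lit 315) (nat_lit 265)) (XT.lf (nat_lit 0) (nat_lit 1401304820) (nat_lit 912) (nat_lit 139143257) (nat_lit 988) (nat_lit 6302251980) (nat_lit 297) (nat_lit 5) (nat_lit 309) (nat_lit 5) (nat_lit 310) (nat_lit 5) (nat_lit 321) (nat_lit 315) (nat_lit 264))) (XT.nd (nat_lit 78) (nat_lit 0) (nat_lit 0) (XT.lf (nat_lit 0) (nat_lit 2892384095) (nat_lit 912) (nat_lit 3992385662) (nat_lit 988) (nat_lit 1041126571) (nat_lit 298) (nat_lit 5) (nat_lit 310) (nat_lit 5) (nat_lit 311) (nat_lit 5) (nat_lit 322) (nat_lit 315) (nat_lit 263)) (XT.lf (nat_lit 76) (nat_lit 73755831) (nat_lit 0) (nat_lit 4322572112) (nat_lit 988) (nat_lit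 3616246999) (nat_lit 299) (nat_lit 5) (nat_lit 298) (nat_lit 5) (nat_lit 311) (nat_lit 5) (nat_lit 323) (nat_lit 315) (nat_lit 262))))) (XT.nd (nat_lit 234) (nat_lit 0) (nat_lit 0) (XT.nd (nat_lit 78) (nat_lit 912) (nat_lit 0) (XT.lf (nat_lit 76) (nat_lit 4311968242) (nat_lit 0) (nat_lit 1625618563) (nat_lit 988) (nat_lit 2164530743) (nat_lit 299) (nat_lit 5) (nat_lit 298) (nat_lit 5) (nat_lit 311) (nat_lit 5) (nat_lit 324) (nat_lit 315) (nat_lit 261)) (XT.nd (nat_lit 78) (nat_lit 988) (nat_lit 0) (XT.lf (nat_lit 76) (nat_lit 448239914) (nat_lit 0) (nat_lit 7045664017) (nat_lit 988) (nat_lit 701406558) (nat_lit 300) (nat_lit 5) (nat_lit 299) (nat_lit 5) (nat_lit 312) (nat_lit 5) (nat_lit 325) (nat_lit 315) (nat_lit 260)) (XT.lf (nat_lit 0) (nat_lit 798643680) (nat_lit 988) (nat_lit 3455930108) (nat_lit 1064) (nat_lit 4036257556) (nat_lit 286) (nat_lit 5) (nat_lit 299) (nat_lit 5) (nat_lit 300) (nat_lit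 5) (nat_lit 326) (nat_lit 315) (nat_lit 259)))) (XT.nd (nat_lit 156) (nat_lit 0) (nat_lit 76) (XT.nd (nat_lit 78) (nat_lit 0) (nat_lit 76) (XT.lf (nat_lit 76) (nat_lit 943333977) (nat_lit 0) (nat_lit 1350676879) (nat_lit 1064) (nat_lit 6096092482) (nat_lit 287) (nat_lit 5) (nat_lit 286) (nat_lit 5) (nat_lit 300) (nat_lit 5) (nat_lit 327) (nat_lit 315) (nat_lit 258)) (XT.lf (nat_lit 0) (nat_lit 3841705447) (nat_lit 988) (nat_lit 2995209856) (nat_lit 1064) (nat_lit 1655239671) (nat_lit 287) (nat_lit 5) (nat_lit 300) (nat_lit 5) (nat_lit 301) (nat_lit 5) (nat_lit 328) (nat_lit 315) (nat_lit 257))) (XT.nd (nat_lit 78) (nat_lit 0) (nat_lit 0) (XT.lf (nat_lit 76) (nat_lit 1575015855) (nat_lit 0) (nat_lit 3847051214) (nat_lit 1064) (nat_lit 3175638741) (nat_lit 288) (nat_lit 5) (nat_lit 287) (nat_lit 5) (nat_lit 301) (nat_lit 5) (nat_lit 329) (nat_lit 315) (nat_lit 256)) (XT.lf (nat_lit 76) (nat_lit 6311821528)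 (nat_lit 0) (nat_lit 726911373) (nat_lit 1064) (nat_lit 1668047481) (nat_lit 288) (nat_lit 5) (nat_lit 287) (nat_lit 5) (nat_lit 301) (nat_lit 5) (nat_lit 330) (nat_lit 315) (nat_lit 255))))))))
noncomputable def xc143 : XT := (XT.nd (nat_lit 2106) (nat_lit 5168) (nat_lit 0) (XT.nd (nat_lit 1014) (nat_lit 3952) (nat_lit 0) (XT.nd (nat_lit 468) (nat_lit 1976) (nat_lit 0) (XT.nd (nat_lit 234) (nat_lit 2356) (nat_lit 0) (XT.nd (nat_lit 78) (nat_lit 1140) (nat_lit 0) (XT.lf (nat_lit 0) (nat_lit 2361468446) (nat_lit 988) (nat_lit 6348975129) (nat_lit 1064) (nat_lit 108510586) (nat_lit 275) (nat_lit 5) (nat_lit 288) (nat_lit 5) (nat_lit 289) (nat_lit 5) (nat_lit 331) (nat_lit 315) (nat_lit 254)) (XT.nd (nat_lit 78) (nat_lit 1064) (nat_lit 0) (XT.lf (nat_lit 0) (nat_lit 1460594632) (nat_lit 1064) (nat_lit 1678724292) (nat_lit 76) (nat_lit 5795003969) (nat_lit 274) (nat_lit 5) (nat_lit 288) (nat_lit 5) (nat_lit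 275) (nat_lit 5) (nat_lit 332) (nat_lit 315) (nat_lit 253)) (XT.lf (nat_lit 0) (nat_lit 3069597491) (nat_lit 1140) (nat_lit 5780967966) (nat_lit 76) (nat_lit 202726173) (nat_lit 260) (nat_lit 5) (nat_lit 275) (nat_lit 5) (nat_lit 261) (nat_lit 5) (nat_lit 333) (nat_lit 315) (nat_lit 252)))) (XT.nd (nat_lit 78) (nat_lit 2356) (nat_lit 0) (XT.lf (nat_lit 0) (nat_lit 4737490763) (nat_lit 1140) (nat_lit 833001735) (nat_lit 76) (nat_lit 3605039035) (nat_lit 260) (nat_lit 5) (nat_lit 275) (nat_lit 5) (nat_lit 261) (nat_lit 5) (nat_lit 334) (nat_lit 315) (nat_lit 251)) (XT.nd (nat_lit 78) (nat_lit 1216) (nat_lit 0) (XT.lf (nat_lit 0) (nat_lit 4315828691) (nat_lit 1140) (nat_lit 2144591438) (nat_lit 1216) (nat_lit 2840888637) (nat_lit 245) (nat_lit 5) (nat_lit 260) (nat_lit 5) (nat_lit 261) (nat_lit 5) (nat_lit 335) (nat_lit 315) (nat_lit 250)) (XT.lf (nat_lit 0) (nat_lit 162768388) (nat_lit 1216) (nat_lit 8059947126)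 (nat_lit 1292) (nat_lit 1208532983) (nat_lit 229) (nat_lit 5) (nat_lit 245) (nat_lit 5) (nat_lit 246) (nat_lit 5) (nat_lit 336) (nat_lit 315) (nat_lit 249))))) (XT.nd (nat_lit 234) (nat_lit 1292) (nat_lit 0) (XT.nd (nat_lit 78) (nat_lit 608) (nat_lit 0) (XT.lf (nat_lit 0) (nat_lit 500321180) (nat_lit 1292) (nat_lit 4055205430) (nat_lit 76) (nat_lit 5008339260) (nat_lit 228) (nat_lit 5) (nat_lit 245) (nat_lit 5) (nat_lit 229) (nat_lit 5) (nat_lit 337) (nat_lit 315) (nat_lit 248)) (XT.nd (nat_lit 78) (nat_lit 0) (nat_lit 0) (XT.lf (nat_lit 0) (nat_lit 1295733559) (nat_lit 608) (nat_lit 918579406) (nat_lit 684) (nat_lit 7486462826) (nat_lit 220) (nat_lit 5) (nat_lit 228) (nat_lit 5) (nat_lit 229) (nat_lit 5) (nat_lit 338) (nat_lit 315) (nat_lit 247)) (XT.lf (nat_lit 0) (nat_lit 4014677558) (nat_lit 684) (nat_lit 3010602603) (nat_lit 76) (nat_lit 2815481607) (nat_lit 220) (nat_lit 5) (nat_lit 229) (nat_lit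 5) (nat_lit 221) (nat_lit 5) (nat_lit 339) (nat_lit 315) (nat_lit 246)))) (XT.nd (nat_lit 156) (nat_lit 684) (nat_lit 0) (XT.nd (nat_lit 78) (nat_lit 0) (nat_lit 0) (XT.lf (nat_lit 0) (nat_lit 2554597921) (nat_lit 608) (nat_lit 3315503027) (nat_lit 684) (nat_lit 4114831782) (nat_lit 212) (nat_lit 5) (nat_lit 220) (nat_lit 5) (nat_lit 221) (nat_lit 5) (nat_lit 340) (nat_lit 315) (nat_lit 245)) (XT.lf (nat_lit 0) (nat_lit 7784796625) (nat_lit 684) (nat_lit 1821702876) (nat_lit 76) (nat_lit 526837386) (nat_lit 212) (nat_lit 5) (nat_lit 221) (nat_lit 5) (nat_lit 213) (nat_lit 5) (nat_lit 341) (nat_lit 315) (nat_lit 244))) (XT.nd (nat_lit 78) (nat_lit 76) (nat_lit 0) (XT.lf (nat_lit 0) (nat_lit 3968248376) (nat_lit 608) (nat_lit 5828635018) (nat_lit 684) (nat_lit 488127143) (nat_lit 204) (nat_lit 5) (nat_lit 212) (nat_lit 5) (nat_lit 213) (nat_lit 5) (nat_lit 342) (nat_lit 315) (nat_lit 243)) (XT.lf (nat_lit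 0) (nat_lit 1388073995) (nat_lit 684) (nat_lit 517216181) (nat_lit 76) (nat_lit 8535912063) (nat_lit 203) (nat_lit 5) (nat_lit 212) (nat_lit 5) (nat_lit 204) (nat_lit 5) (nat_lit 343) (nat_lit 315) (nat_lit 242)))))) (XT.nd (nat_lit 546) (nat_lit 1824) (nat_lit 0) (XT.nd (nat_lit 234) (nat_lit 1064) (nat_lit 0) (XT.nd (nat_lit 78) (nat_lit 532) (nat_lit 0) (XT.lf (nat_lit 0) (nat_lit 3355146952) (nat_lit 608) (nat_lit 5093918003) (nat_lit 76) (nat_lit 2151552379) (nat_lit 196) (nat_lit 5) (nat_lit 204) (nat_lit 5) (nat_lit 197) (nat_lit 5) (nat_lit 344) (nat_lit 315) (nat_lit 241)) (XT.nd (nat_lit 78) (nat_lit 0) (nat_lit 0) (XT.lf (nat_lit 0) (nat_lit 924896084) (nat_lit 532) (nat_lit 4460087405) (nat_lit 608) (nat_lit 5379732956) (nat_lit 189) (nat_lit 5) (nat_lit 196) (nat_lit 5) (nat_lit 197) (nat_lit 5) (nat_lit 345) (nat_lit 315) (nat_lit 240)) (XT.lf (nat_lit 0) (nat_lit 7197491327) (nat_lit 532)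 (nat_lit 300937075) (nat_lit 608) (nat_lit 3434642423) (nat_lit 189) (nat_lit 5) (nat_lit 196) (nat_lit 5) (nat_lit 197) (nat_lit 5) (nat_lit 346) (nat_lit 315) (nat_lit 239)))) (XT.nd (nat_lit 156) (nat_lit 532) (nat_lit 0) (XT.nd (nat_lit 78) (nat_lit 76) (nat_lit 0) (XT.lf (nat_lit 0) (nat_lit 2531784330) (nat_lit 456) (nat_lit 7178204535) (nat_lit 532) (nat_lit 1395458902) (nat_lit 183) (nat_lit 5) (nat_lit 189) (nat_lit 5) (nat_lit 190) (nat_lit 5) (nat_lit 347) (nat_lit 315) (nat_lit 238)) (XT.lf (nat_lit 0) (nat_lit 704541142) (nat_lit 532) (nat_lit 2259628416) (nat_lit 76) (nat_lit 8318233828) (nat_lit 182) (nat_lit 5) (nat_lit 189) (nat_lit 5) (nat_lit 183) (nat_lit 5) (nat_lit 348) (nat_lit 315) (nat_lit 237))) (XT.nd (nat_lit 78) (nat_lit 0) (nat_lit 0) (XT.lf (nat_lit 0) (nat_lit 2867532720) (nat_lit 608) (nat_lit 7194451446) (nat_lit 76) (nat_lit 1401440017) (nat_lit 175) (nat_lit 5) (nat_lit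 183) (nat_lit 5) (nat_lit 176) (nat_lit 5) (nat_lit 349) (nat_lit 315) (nat_lit 236)) (XT.lf (nat_lit 0) (nat_lit 5121389557) (nat_lit 608) (nat_lit 669947116) (nat_lit 76) (nat_lit 5857771479) (nat_lit 175) (nat_lit 5) (nat_lit 183) (nat_lit 5) (nat_lit 176) (nat_lit 5) (nat_lit 350) (nat_lit 315) (nat_lit 235))))) (XT.nd (nat_lit 234) (nat_lit 836) (nat_lit 0) (XT.nd (nat_lit 78) (nat_lit 532) (nat_lit 0) (XT.lf (nat_lit 0) (nat_lit 6140074290) (nat_lit 456) (nat_lit 1336162933) (nat_lit 532) (nat_lit 4363135632) (nat_lit 169) (nat_lit 5) (nat_lit 175) (nat_lit 5) (nat_lit 176) (nat_lit 5) (nat_lit 351) (nat_lit 315) (nat_lit 234)) (XT.nd (nat_lit 78) (nat_lit 76) (nat_lit 0) (XT.lf (nat_lit 0) (nat_lit 1092510751) (nat_lit 456) (nat_lit 8832590548) (nat_lit 532) (nat_lit 2109554207) (nat_lit 163) (nat_lit 5) (nat_lit 169) (nat_lit 5) (nat_lit 170) (nat_lit 5) (nat_lit 352) (nat_lit 315) (nat_lit 233))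 (XT.lf (nat_lit 0) (nat_lit 253815053) (nat_lit 532) (nat_lit 4075670958) (nat_lit 76) (nat_lit 7904870785) (nat_lit 162) (nat_lit 5) (nat_lit 169) (nat_lit 5) (nat_lit 163) (nat_lit 5) (nat_lit 353) (nat_lit 315) (nat_lit 232)))) (XT.nd (nat_lit 156) (nat_lit 456) (nat_lit 0) (XT.nd (nat_lit 78) (nat_lit 0) (nat_lit 0) (XT.lf (nat_lit 0) (nat_lit 2653665434) (nat_lit 456) (nat_lit 9437937503) (nat_lit 76) (nat_lit 347590379) (nat_lit 157) (nat_lit 5) (nat_lit 163) (nat_lit 5) (nat_lit 158) (nat_lit 5) (nat_lit 354) (nat_lit 315) (nat_lit 231)) (XT.lf (nat_lit 0) (nat_lit 5186000722) (nat_lit 456) (nat_lit 2348335389) (nat_lit 76) (nat_lit 5114034030) (nat_lit 157) (nat_lit 5) (nat_lit 163) (nat_lit 5) (nat_lit 158) (nat_lit 5) (nat_lit 355) (nat_lit 315) (nat_lit 230))) (XT.nd (nat_lit 78) (nat_lit 0) (nat_lit 0) (XT.lf (nat_lit 0) (nat_lit 5022684768) (nat_lit 456) (nat_lit 2796659142) (nat_lit 532) (nat_lit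 5043736832) (nat_lit 151) (nat_lit 5) (nat_lit 157) (nat_lit 5) (nat_lit 158) (nat_lit 5) (nat_lit 356) (nat_lit 315) (nat_lit 229)) (XT.lf (nat_lit 0) (nat_lit 10552756164) (nat_lit 532) (nat_lit 470435625) (nat_lit 76) (nat_lit 2060418135) (nat_lit 151) (nat_lit 5) (nat_lit 158) (nat_lit 5) (nat_lit 152) (nat_lit 5) (nat_lit 357) (nat_lit 315) (nat_lit 228))))))) (XT.nd (nat_lit 1014) (nat_lit 2280) (nat_lit 0) (XT.nd (nat_lit 468) (nat_lit 1292) (nat_lit 0) (XT.nd (nat_lit 234) (nat_lit 760) (nat_lit 0) (XT.nd (nat_lit 78) (nat_lit 380) (nat_lit 0) (XT.lf (nat_lit 0) (nat_lit 131735485) (nat_lit 456) (nat_lit 6105055863) (nat_lit 76) (nat_lit 7071692663) (nat_lit 145) (nat_lit 5) (nat_lit 151) (nat_lit 5) (nat_lit 146) (nat_lit 5) (nat_lit 358) (nat_lit 315) (nat_lit 227)) (XT.nd (nat_lit 78) (nat_lit 0) (nat_lit 0) (XT.lf (nat_lit 0) (nat_lit 1553465902) (nat_lit 380) (nat_lit 1267511027) (nat_lit 456)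 (nat_lit 10718454922) (nat_lit 140) (nat_lit 5) (nat_lit 145) (nat_lit 5) (nat_lit 146) (nat_lit 5) (nat_lit 359) (nat_lit 315) (nat_lit 226)) (XT.lf (nat_lit 0) (nat_lit 5668384959) (nat_lit 456) (nat_lit 4275436725) (nat_lit 76) (nat_lit 3831170048) (nat_lit 140) (nat_lit 5) (nat_lit 146) (nat_lit 5) (nat_lit 141) (nat_lit 5) (nat_lit 360) (nat_lit 315) (nat_lit 225)))) (XT.nd (nat_lit 78) (nat_lit 456) (nat_lit 0) (XT.lf (nat_lit 0) (nat_lit 3697622440) (nat_lit 304) (nat_lit 4930533936) (nat_lit 380) (nat_lit 5388661842) (nat_lit 136) (nat_lit 5) (nat_lit 140) (nat_lit 5) (nat_lit 141) (nat_lit 5) (nat_lit 361) (nat_lit 315) (nat_lit 224)) (XT.nd (nat_lit 78) (nat_lit 456) (nat_lit 0) (XT.lf (nat_lit 0) (nat_lit 11701686486) (nat_lit 380) (nat_lit 2298431011) (nat_lit 76) (nat_lit 265040845) (nat_lit 136) (nat_lit 5) (nat_lit 141) (nat_lit 5) (nat_lit 137) (nat_lit 5) (nat_lit 362) (nat_lit 315) (nat_lit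 223)) (XT.lf (nat_lit 0) (nat_lit 426816888) (nat_lit 456) (nat_lit 8519103088) (nat_lit 76) (nat_lit 5572323020) (nat_lit 130) (nat_lit 5) (nat_lit 136) (nat_lit 5) (nat_lit 131) (nat_lit 5) (nat_lit 363) (nat_lit 315) (nat_lit 222))))) (XT.nd (nat_lit 234) (nat_lit 684) (nat_lit 0) (XT.nd (nat_lit 78) (nat_lit 608) (nat_lit 0) (XT.lf (nat_lit 0) (nat_lit 3458582604) (nat_lit 456) (nat_lit 239054810) (nat_lit 76) (nat_lit 11080429749) (nat_lit 130) (nat_lit 5) (nat_lit 136) (nat_lit 5) (nat_lit 131) (nat_lit 5) (nat_lit 364) (nat_lit 315) (nat_lit 221)) (XT.nd (nat_lit 78) (nat_lit 304) (nat_lit 0) (XT.lf (nat_lit 0) (nat_lit 6659890753) (nat_lit 380) (nat_lit 6634327328) (nat_lit 76) (nat_lit 1749117230) (nat_lit 126) (nat_lit 5) (nat_lit 131) (nat_lit 5) (nat_lit 127) (nat_lit 5) (nat_lit 365) (nat_lit 315) (nat_lit 220)) (XT.lf (nat_lit 0) (nat_lit 1979513766) (nat_lit 304) (nat_lit 8016477536) (nat_lit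 380) (nat_lit 5319414342) (nat_lit 122) (nat_lit 5) (nat_lit 126) (nat_lit 5) (nat_lit 127) (nat_lit 5) (nat_lit 366) (nat_lit 315) (nat_lit 219)))) (XT.nd (nat_lit 156) (nat_lit 304) (nat_lit 0) (XT.nd (nat_lit 78) (nat_lit 380) (nat_lit 0) (XT.lf (nat_lit 0) (nat_lit 10960632490) (nat_lit 304) (nat_lit 2519514757) (nat_lit 380) (nat_lit 2114058210) (nat_lit 122) (nat_lit 5) (nat_lit 126) (nat_lit 5) (nat_lit 127) (nat_lit 5) (nat_lit 367) (nat_lit 315) (nat_lit 218)) (XT.lf (nat_lit 0) (nat_lit 1218364252) (nat_lit 380) (nat_lit 11533896936) (nat_lit 76) (nat_lit 3127149487) (nat_lit 117) (nat_lit 5) (nat_lit 122) (nat_lit 5) (nat_lit 118) (nat_lit 5) (nat_lit 368) (nat_lit 315) (nat_lit 217))) (XT.nd (nat_lit 78) (nat_lit 304) (nat_lit 0) (XT.lf (nat_lit 0) (nat_lit 4662022749) (nat_lit 380) (nat_lit 2556090999) (nat_lit 76) (nat_lit 8952823734) (nat_lit 117) (nat_lit 5) (nat_lit 122) (nat_lit 5) (nat_lit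 118) (nat_lit 5) (nat_lit 369) (nat_lit 315) (nat_lit 216)) (XT.lf (nat_lit 0) (nat_lit 6797539047) (nat_lit 304) (nat_lit 1458886171) (nat_lit 380) (nat_lit 8213367660) (nat_lit 113) (nat_lit 5) (nat_lit 117) (nat_lit 5) (nat_lit 118) (nat_lit 5) (nat_lit 370) (nat_lit 315) (nat_lit 215)))))) (XT.nd (nat_lit 546) (nat_lit 988) (nat_lit 0) (XT.nd (nat_lit 234) (nat_lit 608) (nat_lit 0) (XT.nd (nat_lit 78) (nat_lit 684) (nat_lit 0) (XT.lf (nat_lit 0) (nat_lit 12010010504) (nat_lit 380) (nat_lit 362271536) (nat_lit 76) (nat_lit 4403797015) (nat_lit 113) (nat_lit 5) (nat_lit 118) (nat_lit 5) (nat_lit 114) (nat_lit 5) (nat_lit 371) (nat_lit 315) (nat_lit 214)) (XT.nd (nat_lit 78) (nat_lit 380) (nat_lit 0) (XT.lf (nat_lit 0) (nat_lit 9369818906) (nat_lit 304) (nat_lit 6593698579) (nat_lit 380) (nat_lit 1125422387) (nat_lit 109) (nat_lit 5) (nat_lit 113) (nat_lit 5) (nat_lit 114) (nat_lit 5) (nat_lit 372) (nat_lit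 315) (nat_lit 213)) (XT.lf (nat_lit 0) (nat_lit 1977872196) (nat_lit 304) (nat_lit 600951332) (nat_lit 380) (nat_lit 14831443534) (nat_lit 104) (nat_lit 5) (nat_lit 108) (nat_lit 5) (nat_lit 109) (nat_lit 5) (nat_lit 373) (nat_lit 315) (nat_lit 212)))) (XT.nd (nat_lit 156) (nat_lit 380) (nat_lit 0) (XT.nd (nat_lit 78) (nat_lit 228) (nat_lit 0) (XT.lf (nat_lit 0) (nat_lit 6486911518) (nat_lit 380) (nat_lit 5706215467) (nat_lit 76) (nat_lit 5544317775) (nat_lit 104) (nat_lit 5) (nat_lit 109) (nat_lit 5) (nat_lit 105) (nat_lit 5) (nat_lit 374) (nat_lit 315) (nat_lit 211)) (XT.lf (nat_lit 0) (nat_lit 4365889226) (nat_lit 228) (nat_lit 6177821408) (nat_lit 304) (nat_lit 7529787968) (nat_lit 101) (nat_lit 5) (nat_lit 104) (nat_lit 5) (nat_lit 105) (nat_lit 5) (nat_lit 375) (nat_lit 315) (nat_lit 210))) (XT.nd (nat_lit 78) (nat_lit 380) (nat_lit 0) (XT.lf (nat_lit 0) (nat_lit 14764286189) (nat_lit 304) (nat_lit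 3586785551) (nat_lit 76) (nat_lit 67304870) (nat_lit 101) (nat_lit 5) (nat_lit 105) (nat_lit 5) (nat_lit 102) (nat_lit 5) (nat_lit 376) (nat_lit 315) (nat_lit 209)) (XT.lf (nat_lit 0) (nat_lit 443929446) (nat_lit 380) (nat_lit 11888267773) (nat_lit 76) (nat_lit 6437931418) (nat_lit 96) (nat_lit 5) (nat_lit 101) (nat_lit 5) (nat_lit 97) (nat_lit 5) (nat_lit 377) (nat_lit 315) (nat_lit 208))))) (XT.nd (nat_lit 234) (nat_lit 532) (nat_lit 0) (XT.nd (nat_lit 78) (nat_lit 456) (nat_lit 0) (XT.lf (nat_lit 0) (nat_lit 4612275325) (nat_lit 380) (nat_lit 1454399498) (nat_lit 76) (nat_lit 13064052481) (nat_lit 96) (nat_lit 5) (nat_lit 101) (nat_lit 5) (nat_lit 97) (nat_lit 5) (nat_lit 378) (nat_lit 315) (nat_lit 207)) (XT.nd (nat_lit 78) (nat_lit 228) (nat_lit 0) (XT.lf (nat_lit 0) (nat_lit 8985785069) (nat_lit 304) (nat_lit 10051358745) (nat_lit 76) (nat_lit 462600912) (nat_lit 93) (nat_lit 5) (nat_lit 97) (nat_lit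 5) (nat_lit 94) (nat_lit 5) (nat_lit 379) (nat_lit 315) (nat_lit 206)) (XT.lf (nat_lit 0) (nat_lit 759250746) (nat_lit 228) (nat_lit 12798290875) (nat_lit 304) (nat_lit 6320283879) (nat_lit 90) (nat_lit 5) (nat_lit 93) (nat_lit 5) (nat_lit 94) (nat_lit 5) (nat_lit 380) (nat_lit 315) (nat_lit 205)))) (XT.nd (nat_lit 156) (nat_lit 228) (nat_lit 0) (XT.nd (nat_lit 78) (nat_lit 304) (nat_lit 0) (XT.lf (nat_lit 0) (nat_lit 12076426923) (nat_lit 228) (nat_lit 6276580691) (nat_lit 304) (nat_lit 1911648339) (nat_lit 90) (nat_lit 5) (nat_lit 93) (nat_lit 5) (nat_lit 94) (nat_lit 5) (nat_lit 381) (nat_lit 315) (nat_lit 204)) (XT.lf (nat_lit 0) (nat_lit 2597603413) (nat_lit 304) (nat_lit 17585097245) (nat_lit 76) (nat_lit 479046277) (nat_lit 86) (nat_lit 5) (nat_lit 90) (nat_lit 5) (nat_lit 87) (nat_lit 5) (nat_lit 382) (nat_lit 315) (nat_lit 203))) (XT.nd (nat_lit 78) (nat_lit 228) (nat_lit 0) (XT.lf (nat_lit 0)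 (nat_lit 7334824438) (nat_lit 304) (nat_lit 6326355780) (nat_lit 76) (nat_lit 7405072815) (nat_lit 86) (nat_lit 5) (nat_lit 90) (nat_lit 5) (nat_lit 87) (nat_lit 5) (nat_lit 383) (nat_lit 315) (nat_lit 202)) (XT.lf (nat_lit 0) (nat_lit 5351743912) (nat_lit 228) (nat_lit 6899751615) (nat_lit 304) (nat_lit 9230282301) (nat_lit 83) (nat_lit 5) (nat_lit 86) (nat_lit 5) (nat_lit 87) (nat_lit 5) (nat_lit 384) (nat_lit 315) (nat_lit 201))))))))
noncomputable def xc144 : XT := (XT.nd (nat_lit 2028) (nat_lit 1672) (nat_lit 0) (XT.nd (nat_lit 1014) (nat_lit 1140) (nat_lit 0) (XT.nd (nat_lit 468) (nat_lit 912) (nat_lit 0) (XT.nd (nat_lit 234) (nat_lit 380) (nat_lit 0) (XT.nd (nat_lit 78) (nat_lit 228) (nat_lit 0) (XT.lf (nat_lit 0) (nat_lit 17366802507) (nat_lit 304) (nat_lit 4422183165) (nat_lit 76) (nat_lit 119252035) (nat_lit 83) (nat_lit 5) (nat_lit 87) (nat_lit 5) (nat_lit 84) (nat_lit 5) (nat_lit 385) (nat_lit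 315) (nat_lit 200)) (XT.nd (nat_lit 78) (nat_lit 0) (nat_lit 0) (XT.lf (nat_lit 0) (nat_lit 412431767) (nat_lit 228) (nat_lit 14651182799) (nat_lit 76) (nat_lit 7279897682) (nat_lit 80) (nat_lit 5) (nat_lit 83) (nat_lit 5) (nat_lit 81) (nat_lit 5) (nat_lit 386) (nat_lit 315) (nat_lit 199)) (XT.lf (nat_lit 0) (nat_lit 5455188860) (nat_lit 228) (nat_lit 2597319453) (nat_lit 76) (nat_lit 14737044320) (nat_lit 80) (nat_lit 5) (nat_lit 83) (nat_lit 5) (nat_lit 81) (nat_lit 5) (nat_lit 387) (nat_lit 315) (nat_lit 198)))) (XT.nd (nat_lit 78) (nat_lit 152) (nat_lit 0) (XT.lf (nat_lit 0) (nat_lit 9991444280) (nat_lit 228) (nat_lit 740677733) (nat_lit 304) (nat_lit 12514368450) (nat_lit 77) (nat_lit 5) (nat_lit 80) (nat_lit 5) (nat_lit 81) (nat_lit 5) (nat_lit 388) (nat_lit 315) (nat_lit 197)) (XT.nd (nat_lit 78) (nat_lit 152) (nat_lit 0) (XT.lf (nat_lit 0) (nat_lit 16246069598) (nat_lit 304) (nat_lit 792552818)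 (nat_lit 76) (nat_lit 6676155764) (nat_lit 77) (nat_lit 5) (nat_lit 81) (nat_lit 5) (nat_lit 78) (nat_lit 5) (nat_lit 389) (nat_lit 315) (nat_lit 196)) (XT.lf (nat_lit 0) (nat_lit 12254462594) (nat_lit 152) (nat_lit 9783428517) (nat_lit 228) (nat_lit 2155852610) (nat_lit 75) (nat_lit 5) (nat_lit 77) (nat_lit 5) (nat_lit 78) (nat_lit 5) (nat_lit 390) (nat_lit 315) (nat_lit 195))))) (XT.nd (nat_lit 234) (nat_lit 456) (nat_lit 0) (XT.nd (nat_lit 78) (nat_lit 152) (nat_lit 0) (XT.lf (nat_lit 0) (nat_lit 988431532) (nat_lit 228) (nat_lit 2268192688) (nat_lit 304) (nat_lit 21429351832) (nat_lit 71) (nat_lit 5) (nat_lit 74) (nat_lit 5) (nat_lit 75) (nat_lit 5) (nat_lit 391) (nat_lit 315) (nat_lit 194)) (XT.nd (nat_lit 78) (nat_lit 152) (nat_lit 0) (XT.lf (nat_lit 0) (nat_lit 8949957248) (nat_lit 304) (nat_lit 10737064898) (nat_lit 76) (nat_lit 5500461100) (nat_lit 71) (nat_lit 5) (nat_lit 75) (nat_lit 5) (nat_lit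 72) (nat_lit 5) (nat_lit 392) (nat_lit 315) (nat_lit 193)) (XT.lf (nat_lit 0) (nat_lit 2620240158) (nat_lit 152) (nat_lit 12229310683) (nat_lit 228) (nat_lit 10853423537) (nat_lit 69) (nat_lit 5) (nat_lit 71) (nat_lit 5) (nat_lit 72) (nat_lit 5) (nat_lit 393) (nat_lit 315) (nat_lit 192)))) (XT.nd (nat_lit 156) (nat_lit 152) (nat_lit 0) (XT.nd (nat_lit 78) (nat_lit 304) (nat_lit 0) (XT.lf (nat_lit 0) (nat_lit 16577904313) (nat_lit 152) (nat_lit 4444625312) (nat_lit 228) (nat_lit 5208511163) (nat_lit 69) (nat_lit 5) (nat_lit 71) (nat_lit 5) (nat_lit 72) (nat_lit 5) (nat_lit 394) (nat_lit 315) (nat_lit 191)) (XT.lf (nat_lit 0) (nat_lit 657587112) (nat_lit 304) (nat_lit 22572554445) (nat_lit 76) (nat_lit 3542725507) (nat_lit 65) (nat_lit 5) (nat_lit 69) (nat_lit 5) (nat_lit 66) (nat_lit 5) (nat_lit 395) (nat_lit 315) (nat_lit 190))) (XT.nd (nat_lit 78) (nat_lit 152) (nat_lit 0) (XT.lf (nat_lit 0) (nat_lit 6725710648)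 (nat_lit 304) (nat_lit 8777495020) (nat_lit 76) (nat_lit 11822275788) (nat_lit 65) (nat_lit 5) (nat_lit 69) (nat_lit 5) (nat_lit 66) (nat_lit 5) (nat_lit 396) (nat_lit 315) (nat_lit 189)) (XT.lf (nat_lit 0) (nat_lit 5519534309) (nat_lit 152) (nat_lit 7498021266) (nat_lit 228) (nat_lit 14875870565) (nat_lit 63) (nat_lit 5) (nat_lit 65) (nat_lit 5) (nat_lit 66) (nat_lit 5) (nat_lit 397) (nat_lit 315) (nat_lit 188)))))) (XT.nd (nat_lit 468) (nat_lit 608) (nat_lit 0) (XT.nd (nat_lit 234) (nat_lit 304) (nat_lit 0) (XT.nd (nat_lit 78) (nat_lit 228) (nat_lit 0) (XT.lf (nat_lit 0) (nat_lit 19583539693) (nat_lit 228) (nat_lit 8078063347) (nat_lit 76) (nat_lit 814246737) (nat_lit 63) (nat_lit 5) (nat_lit 66) (nat_lit 5) (nat_lit 64) (nat_lit 5) (nat_lit 398) (nat_lit 315) (nat_lit 187)) (XT.nd (nat_lit 78) (nat_lit 76) (nat_lit 0) (XT.lf (nat_lit 0) (nat_lit 6683742014) (nat_lit 152) (nat_lit 19790263962) (nat_lit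 228) (nat_lit 2597917133) (nat_lit 61) (nat_lit 5) (nat_lit 63) (nat_lit 5) (nat_lit 64) (nat_lit 5) (nat_lit 399) (nat_lit 315) (nat_lit 186)) (XT.lf (nat_lit 0) (nat_lit 3880917014) (nat_lit 228) (nat_lit 7686710038) (nat_lit 76) (nat_lit 18114990323) (nat_lit 60) (nat_lit 5) (nat_lit 63) (nat_lit 5) (nat_lit 61) (nat_lit 5) (nat_lit 400) (nat_lit 315) (nat_lit 185)))) (XT.nd (nat_lit 78) (nat_lit 152) (nat_lit 0) (XT.lf (nat_lit 0) (nat_lit 7559026954) (nat_lit 152) (nat_lit 3004900228) (nat_lit 228) (nat_lit 19745074722) (nat_lit 58) (nat_lit 5) (nat_lit 60) (nat_lit 5) (nat_lit 61) (nat_lit 5) (nat_lit 401) (nat_lit 315) (nat_lit 184)) (XT.nd (nat_lit 78) (nat_lit 152) (nat_lit 0) (XT.lf (nat_lit 0) (nat_lit 17571133380) (nat_lit 228) (nat_lit 7607425650) (nat_lit 76) (nat_lit 5771909604) (nat_lit 58) (nat_lit 5) (nat_lit 61) (nat_lit 5) (nat_lit 59) (nat_lit 5) (nat_lit 402) (nat_lit 315) (nat_lit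 183)) (XT.lf (nat_lit 0) (nat_lit 8099624477) (nat_lit 152) (nat_lit 16786271384) (nat_lit 228) (nat_lit 6722365082) (nat_lit 56) (nat_lit 5) (nat_lit 58) (nat_lit 5) (nat_lit 59) (nat_lit 5) (nat_lit 403) (nat_lit 315) (nat_lit 182))))) (XT.nd (nat_lit 234) (nat_lit 380) (nat_lit 0) (XT.nd (nat_lit 78) (nat_lit 152) (nat_lit 0) (XT.lf (nat_lit 0) (nat_lit 199028925) (nat_lit 228) (nat_lit 7869808608) (nat_lit 76) (nat_lit 24214892364) (nat_lit 55) (nat_lit 5) (nat_lit 58) (nat_lit 5) (nat_lit 56) (nat_lit 5) (nat_lit 404) (nat_lit 315) (nat_lit 181)) (XT.nd (nat_lit 78) (nat_lit 0) (nat_lit 0) (XT.lf (nat_lit 0) (nat_lit 7273072680) (nat_lit 228) (nat_lit 24669164176) (nat_lit 76) (nat_lit 1032827328) (nat_lit 53) (nat_lit 5) (nat_lit 56) (nat_lit 5) (nat_lit 54) (nat_lit 5) (nat_lit 405) (nat_lit 315) (nat_lit 180)) (XT.lf (nat_lit 0) (nat_lit 14709586611) (nat_lit 228) (nat_lit 8654856591) (nat_lit 76)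 (nat_lit 10318189414) (nat_lit 53) (nat_lit 5) (nat_lit 56) (nat_lit 5) (nat_lit 54) (nat_lit 5) (nat_lit 406) (nat_lit 315) (nat_lit 179)))) (XT.nd (nat_lit 156) (nat_lit 228) (nat_lit 0) (XT.nd (nat_lit 78) (nat_lit 0) (nat_lit 0) (XT.lf (nat_lit 0) (nat_lit 7978452926) (nat_lit 152) (nat_lit 14457827987) (nat_lit 228) (nat_lit 11973136176) (nat_lit 51) (nat_lit 5) (nat_lit 53) (nat_lit 5) (nat_lit 54) (nat_lit 5) (nat_lit 407) (nat_lit 315) (nat_lit 178)) (XT.lf (nat_lit 0) (nat_lit 25271229957) (nat_lit 152) (nat_lit 5201451307) (nat_lit 228) (nat_lit 4682988167) (nat_lit 51) (nat_lit 5) (nat_lit 53) (nat_lit 5) (nat_lit 54) (nat_lit 5) (nat_lit 408) (nat_lit 315) (nat_lit 177))) (XT.nd (nat_lit 78) (nat_lit 0) (nat_lit 0) (XT.lf (nat_lit 0) (nat_lit 2873701991) (nat_lit 228) (nat_lit 28707947212) (nat_lit 76) (nat_lit 4338757214) (nat_lit 48) (nat_lit 5) (nat_lit 51) (nat_lit 5) (nat_lit 49) (nat_lit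 5) (nat_lit 409) (nat_lit 315) (nat_lit 176)) (XT.lf (nat_lit 0) (nat_lit 10706005309) (nat_lit 228) (nat_lit 11795743885) (nat_lit 76) (nat_lit 14200655622) (nat_lit 48) (nat_lit 5) (nat_lit 51) (nat_lit 5) (nat_lit 49) (nat_lit 5) (nat_lit 410) (nat_lit 315) (nat_lit 175))))))) (XT.nd (nat_lit 1014) (nat_lit 836) (nat_lit 0) (XT.nd (nat_lit 468) (nat_lit 380) (nat_lit 0) (XT.nd (nat_lit 234) (nat_lit 228) (nat_lit 0) (XT.nd (nat_lit 78) (nat_lit 76) (nat_lit 0) (XT.lf (nat_lit 0) (nat_lit 5719229321) (nat_lit 152) (nat_lit 13100029650) (nat_lit 228) (nat_lit 18687226083) (nat_lit 46) (nat_lit 5) (nat_lit 48) (nat_lit 5) (nat_lit 49) (nat_lit 5) (nat_lit 411) (nat_lit 315) (nat_lit 174)) (XT.nd (nat_lit 78) (nat_lit 76) (nat_lit 0) (XT.lf (nat_lit 0) (nat_lit 23985412740) (nat_lit 152) (nat_lit 3300723720) (nat_lit 228) (nat_lit 11045245741) (nat_lit 46) (nat_lit 5) (nat_lit 48) (nat_lit 5) (nat_lit 49)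 (nat_lit 5) (nat_lit 412) (nat_lit 315) (nat_lit 173)) (XT.lf (nat_lit 0) (nat_lit 3607897883) (nat_lit 76) (nat_lit 32490402411) (nat_lit 152) (nat_lit 3079988815) (nat_lit 45) (nat_lit 5) (nat_lit 46) (nat_lit 5) (nat_lit 47) (nat_lit 4) (nat_lit 413) (nat_lit 315) (nat_lit 172)))) (XT.nd (nat_lit 78) (nat_lit 152) (nat_lit 0) (XT.lf (nat_lit 0) (nat_lit 5194536009) (nat_lit 152) (nat_lit 17750955298) (nat_lit 76) (nat_lit 17098526314) (nat_lit 44) (nat_lit 5) (nat_lit 46) (nat_lit 5) (nat_lit 45) (nat_lit 5) (nat_lit 414) (nat_lit 315) (nat_lit 171)) (XT.nd (nat_lit 78) (nat_lit 0) (nat_lit 0) (XT.lf (nat_lit 0) (nat_lit 568333103) (nat_lit 152) (nat_lit 13084096070) (nat_lit 228) (nat_lit 27282463987) (nat_lit 42) (nat_lit 5) (nat_lit 44) (nat_lit 5) (nat_lit 45) (nat_lit 5) (nat_lit 415) (nat_lit 315) (nat_lit 170)) (XT.lf (nat_lit 0) (nat_lit 19785901698) (nat_lit 152) (nat_lit 2749080970) (nat_lit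 228) (nat_lit 19312385703) (nat_lit 42) (nat_lit 5) (nat_lit 44) (nat_lit 5) (nat_lit 45) (nat_lit 5) (nat_lit 416) (nat_lit 315) (nat_lit 169))))) (XT.nd (nat_lit 234) (nat_lit 228) (nat_lit 0) (XT.nd (nat_lit 78) (nat_lit 152) (nat_lit 0) (XT.lf (nat_lit 0) (nat_lit 31751766085) (nat_lit 228) (nat_lit 3298034822) (nat_lit 76) (nat_lit 7735385411) (nat_lit 42) (nat_lit 5) (nat_lit 45) (nat_lit 5) (nat_lit 43) (nat_lit 4) (nat_lit 417) (nat_lit 315) (nat_lit 168)) (XT.nd (nat_lit 78) (nat_lit 76) (nat_lit 0) (XT.lf (nat_lit 0) (nat_lit 16304767164) (nat_lit 76) (nat_lit 25116325454) (nat_lit 152) (nat_lit 2324766041) (nat_lit 41) (nat_lit 5) (nat_lit 42) (nat_lit 5) (nat_lit 43) (nat_lit 4) (nat_lit 418) (nat_lit 315) (nat_lit 167)) (XT.lf (nat_lit 0) (nat_lit 6541214211) (nat_lit 152) (nat_lit 8249794453) (nat_lit 76) (nat_lit 29941655061) (nat_lit 40) (nat_lit 5) (nat_lit 42) (nat_lit 5) (nat_lit 41)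 (nat_lit 5) (nat_lit 419) (nat_lit 315) (nat_lit 166)))) (XT.nd (nat_lit 156) (nat_lit 76) (nat_lit 0) (XT.nd (nat_lit 78) (nat_lit 0) (nat_lit 0) (XT.lf (nat_lit 0) (nat_lit 11708628601) (nat_lit 152) (nat_lit 4022704042) (nat_lit 228) (nat_lit 30013904206) (nat_lit 38) (nat_lit 5) (nat_lit 40) (nat_lit 5) (nat_lit 41) (nat_lit 5) (nat_lit 420) (nat_lit 315) (nat_lit 165)) (XT.lf (nat_lit 0) (nat_lit 25341596366) (nat_lit 228) (nat_lit 14433646001) (nat_lit 76) (nat_lit 7008612475) (nat_lit 38) (nat_lit 5) (nat_lit 41) (nat_lit 5) (nat_lit 39) (nat_lit 4) (nat_lit 421) (nat_lit 315) (nat_lit 164))) (XT.nd (nat_lit 78) (nat_lit 0) (nat_lit 0) (XT.lf (nat_lit 0) (nat_lit 5817403516) (nat_lit 76) (nat_lit 29511098130) (nat_lit 152) (nat_lit 12522480624) (nat_lit 37) (nat_lit 5) (nat_lit 38) (nat_lit 5) (nat_lit 39) (nat_lit 4) (nat_lit 422) (nat_lit 315) (nat_lit 163)) (XT.lf (nat_lit 0) (nat_lit 26958303001)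 (nat_lit 76) (nat_lit 18795132726) (nat_lit 152) (nat_lit 3192536019) (nat_lit 37) (nat_lit 5) (nat_lit 38) (nat_lit 5) (nat_lit 39) (nat_lit 4) (nat_lit 423) (nat_lit 315) (nat_lit 162)))))) (XT.nd (nat_lit 546) (nat_lit 304) (nat_lit 0) (XT.nd (nat_lit 234) (nat_lit 304) (nat_lit 0) (XT.nd (nat_lit 78) (nat_lit 152) (nat_lit 0) (XT.lf (nat_lit 0) (nat_lit 6284894468) (nat_lit 152) (nat_lit 1415374635) (nat_lit 76) (nat_lit 42371907649) (nat_lit 36) (nat_lit 5) (nat_lit 38) (nat_lit 5) (nat_lit 37) (nat_lit 5) (nat_lit 424) (nat_lit 315) (nat_lit 161)) (XT.nd (nat_lit 78) (nat_lit 0) (nat_lit 0) (XT.lf (nat_lit 0) (nat_lit 16206931208) (nat_lit 228) (nat_lit 31141410982) (nat_lit 76) (nat_lit 3876144738) (nat_lit 34) (nat_lit 5) (nat_lit 37) (nat_lit 5) (nat_lit 35) (nat_lit 4) (nat_lit 425) (nat_lit 315) (nat_lit 160)) (XT.lf (nat_lit 0) (nat_lit 26510348658) (nat_lit 228) (nat_lit 10244768566) (nat_lit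 76) (nat_lit 15653738375) (nat_lit 34) (nat_lit 5) (nat_lit 37) (nat_lit 5) (nat_lit 35) (nat_lit 4) (nat_lit 426) (nat_lit 315) (nat_lit 159)))) (XT.nd (nat_lit 156) (nat_lit 228) (nat_lit 0) (XT.nd (nat_lit 78) (nat_lit 0) (nat_lit 0) (XT.lf (nat_lit 0) (nat_lit 11490426741) (nat_lit 76) (nat_lit 25736142767) (nat_lit 152) (nat_lit 16399075553) (nat_lit 33) (nat_lit 5) (nat_lit 34) (nat_lit 5) (nat_lit 35) (nat_lit 4) (nat_lit 427) (nat_lit 315) (nat_lit 158)) (XT.lf (nat_lit 0) (nat_lit 34075242822) (nat_lit 76) (nat_lit 14285811157) (nat_lit 152) (nat_lit 6514981650) (nat_lit 33) (nat_lit 5) (nat_lit 34) (nat_lit 5) (nat_lit 35) (nat_lit 4) (nat_lit 428) (nat_lit 315) (nat_lit 157))) (XT.nd (nat_lit 78) (nat_lit 0) (nat_lit 0) (XT.lf (nat_lit 0) (nat_lit 1148631739) (nat_lit 152) (nat_lit 2449969414) (nat_lit 228) (nat_lit 52564145489) (nat_lit 30) (nat_lit 5) (nat_lit 32) (nat_lit 5) (nat_lit 33) (nat_lit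 5) (nat_lit 429) (nat_lit 315) (nat_lit 156)) (XT.lf (nat_lit 0) (nat_lit 14183884469) (nat_lit 228) (nat_lit 33471275482) (nat_lit 76) (nat_lit 9821987431) (nat_lit 30) (nat_lit 5) (nat_lit 33) (nat_lit 5) (nat_lit 31) (nat_lit 4) (nat_lit 430) (nat_lit 315) (nat_lit 155))))) (XT.nd (nat_lit 234) (nat_lit 228) (nat_lit 0) (XT.nd (nat_lit 78) (nat_lit 76) (nat_lit 0) (XT.lf (nat_lit 0) (nat_lit 25104648324) (nat_lit 228) (nat_lit 11318284122) (nat_lit 76) (nat_lit 22407510690) (nat_lit 30) (nat_lit 5) (nat_lit 33) (nat_lit 5) (nat_lit 31) (nat_lit 4) (nat_lit 431) (nat_lit 315) (nat_lit 154)) (XT.nd (nat_lit 78) (nat_lit 0) (nat_lit 0) (XT.lf (nat_lit 0) (nat_lit 11716395847) (nat_lit 76) (nat_lit 24743113844) (nat_lit 152) (nat_lit 23761634466) (nat_lit 29) (nat_lit 5) (nat_lit 30) (nat_lit 5) (nat_lit 31) (nat_lit 4) (nat_lit 432) (nat_lit 315) (nat_lit 153)) (XT.lf (nat_lit 0) (nat_lit 35662712772) (nat_lit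 76) (nat_lit 12600515433) (nat_lit 152) (nat_lit 13387092281) (nat_lit 29) (nat_lit 5) (nat_lit 30) (nat_lit 5) (nat_lit 31) (nat_lit 4) (nat_lit 433) (nat_lit 315) (nat_lit 152)))) (XT.nd (nat_lit 156) (nat_lit 76) (nat_lit 0) (XT.nd (nat_lit 78) (nat_lit 152) (nat_lit 0) (XT.lf (nat_lit 0) (nat_lit 60316334570) (nat_lit 76) (nat_lit 98819652) (nat_lit 152) (nat_lit 2707395600) (nat_lit 29) (nat_lit 5) (nat_lit 30) (nat_lit 5) (nat_lit 31) (nat_lit 4) (nat_lit 434) (nat_lit 315) (nat_lit 151)) (XT.lf (nat_lit 0) (nat_lit 8456374913) (nat_lit 152) (nat_lit 43358593681) (nat_lit 76) (nat_lit 12811821476) (nat_lit 27) (nat_lit 5) (nat_lit 29) (nat_lit 5) (nat_lit 28) (nat_lit 4) (nat_lit 435) (nat_lit 315) (nat_lit 150))) (XT.nd (nat_lit 78) (nat_lit 76) (nat_lit 0) (XT.lf (nat_lit 0) (nat_lit 19924465989) (nat_lit 152) (nat_lit 20091901928) (nat_lit 76) (nat_lit 26158271278) (nat_lit 27) (nat_lit 5) (nat_lit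 29) (nat_lit 5) (nat_lit 28) (nat_lit 4) (nat_lit 436) (nat_lit 315) (nat_lit 149)) (XT.lf (nat_lit 0) (nat_lit 3939078828) (nat_lit 76) (nat_lit 27829781110) (nat_lit 152) (nat_lit 35999096579) (nat_lit 26) (nat_lit 5) (nat_lit 27) (nat_lit 5) (nat_lit 28) (nat_lit 4) (nat_lit 437) (nat_lit 315) (nat_lit 148))))))))
noncomputable def xc145 : XT := (XT.nd (nat_lit 38922) (nat_lit 0) (nat_lit 8588) (XT.nd (nat_lit 37830) (nat_lit 0) (nat_lit 16872) (XT.nd (nat_lit 468) (nat_lit 0) (nat_lit 0) (XT.nd (nat_lit 234) (nat_lit 152) (nat_lit 0) (XT.nd (nat_lit 78) (nat_lit 76) (nat_lit 0) (XT.lf (nat_lit 0) (nat_lit 29092379635) (nat_lit 76) (nat_lit 15073552756) (nat_lit 152) (nat_lit 25237221083) (nat_lit 26) (nat_lit 5) (nat_lit 27) (nat_lit 5) (nat_lit 28) (nat_lit 4) (nat_lit 438) (nat_lit 315) (nat_lit 147)) (XT.nd (nat_lit 78) (nat_lit 76) (nat_lit 0) (XT.lf (nat_lit 0) (nat_lit 54990110858) (nat_lit 76)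 (nat_lit 1939425451) (nat_lit 152) (nat_lit 14158031951) (nat_lit 26) (nat_lit 5) (nat_lit 27) (nat_lit 5) (nat_lit 28) (nat_lit 4) (nat_lit 439) (nat_lit 315) (nat_lit 146)) (XT.lf (nat_lit 0) (nat_lit 8894438176) (nat_lit 76) (nat_lit 61373238199) (nat_lit 76) (nat_lit 2549090760) (nat_lit 25) (nat_lit 4) (nat_lit 26) (nat_lit 5) (nat_lit 26) (nat_lit 4) (nat_lit 440) (nat_lit 315) (nat_lit 145)))) (XT.nd (nat_lit 78) (nat_lit 76) (nat_lit 0) (XT.lf (nat_lit 0) (nat_lit 9402634501) (nat_lit 152) (nat_lit 39748133184) (nat_lit 76) (nat_lit 25439018587) (nat_lit 24) (nat_lit 5) (nat_lit 26) (nat_lit 5) (nat_lit 25) (nat_lit 4) (nat_lit 441) (nat_lit 315) (nat_lit 144)) (XT.nd (nat_lit 78) (nat_lit 76) (nat_lit 0) (XT.lf (nat_lit 0) (nat_lit 21656568287) (nat_lit 152) (nat_lit 14883651271) (nat_lit 76) (nat_lit 39875172984) (nat_lit 24) (nat_lit 5) (nat_lit 26) (nat_lit 5) (nat_lit 25) (nat_lit 4) (nat_lit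 442) (nat_lit 315) (nat_lit 143)) (XT.lf (nat_lit 0) (nat_lit 10930642651) (nat_lit 76) (nat_lit 23447589232) (nat_lit 152) (nat_lit 43914532195) (nat_lit 23) (nat_lit 5) (nat_lit 24) (nat_lit 5) (nat_lit 25) (nat_lit 4) (nat_lit 443) (nat_lit 315) (nat_lit 142))))) (XT.nd (nat_lit 37050) (nat_lit 0) (nat_lit 20824) (XT.nd (nat_lit 36894) (nat_lit 0) (nat_lit 21660) (XT.lf (nat_lit 0) (nat_lit 37815139337) (nat_lit 76) (nat_lit 9811796341) (nat_lit 152) (nat_lit 32595159792) (nat_lit 23) (nat_lit 5) (nat_lit 24) (nat_lit 5) (nat_lit 25) (nat_lit 4) (nat_lit 444) (nat_lit 315) (nat_lit 141)) (XT.nd (nat_lit 78) (nat_lit 0) (nat_lit 0) (XT.lf (nat_lit 0) (nat_lit 762561794) (nat_lit 0) (nat_lit 762561794) (nat_lit 836) (nat_lit 2243363778) (nat_lit 308) (nat_lit 5) (nat_lit 308) (nat_lit 3) (nat_lit 319) (nat_lit 3) (nat_lit 316) (nat_lit 316) (nat_lit 268)) (XT.lf (nat_lit 0) (nat_lit 4502949793) (nat_lit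 836) (nat_lit 2382012479) (nat_lit 912) (nat_lit 721955013) (nat_lit 308) (nat_lit 5) (nat_lit 319) (nat_lit 3) (nat_lit 320) (nat_lit 5) (nat_lit 317) (nat_lit 316) (nat_lit 267)))) (XT.nd (nat_lit 156) (nat_lit 836) (nat_lit 0) (XT.nd (nat_lit 78) (nat_lit 0) (nat_lit 0) (XT.lf (nat_lit 76) (nat_lit 1338486441) (nat_lit 0) (nat_lit 4634343167) (nat_lit 912) (nat_lit 1706955888) (nat_lit 309) (nat_lit 5) (nat_lit 308) (nat_lit 5) (nat_lit 320) (nat_lit 5) (nat_lit 318) (nat_lit 316) (nat_lit 266)) (XT.lf (nat_lit 76) (nat_lit 5190462685) (nat_lit 0) (nat_lit 2267331485) (nat_lit 912) (nat_lit 297950170) (nat_lit 309) (nat_lit 5) (nat_lit 308) (nat_lit 5) (nat_lit 320) (nat_lit 5) (nat_lit 319) (nat_lit 316) (nat_lit 265))) (XT.nd (nat_lit 78) (nat_lit 0) (nat_lit 0) (XT.lf (nat_lit 0) (nat_lit 1093438463) (nat_lit 912) (nat_lit 6527673528) (nat_lit 988) (nat_lit 213691087) (nat_lit 297) (nat_lit 5) (nat_lit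 309) (nat_lit 5) (nat_lit 310) (nat_lit 5) (nat_lit 320) (nat_lit 316) (nat_lit 264)) (XT.lf (nat_lit 0) (nat_lit 2518576695) (nat_lit 912) (nat_lit 2623484757) (nat_lit 988) (nat_lit 2774175067) (nat_lit 297) (nat_lit 5) (nat_lit 309) (nat_lit 5) (nat_lit 310) (nat_lit 5) (nat_lit 321) (nat_lit 316) (nat_lit 263)))))) (XT.nd (nat_lit 546) (nat_lit 3040) (nat_lit 0) (XT.nd (nat_lit 234) (nat_lit 912) (nat_lit 0) (XT.nd (nat_lit 78) (nat_lit 0) (nat_lit 76) (XT.lf (nat_lit 76) (nat_lit 1395278081) (nat_lit 0) (nat_lit 2555464253) (nat_lit 988) (nat_lit 4050472850) (nat_lit 298) (nat_lit 5) (nat_lit 297) (nat_lit 5) (nat_lit 310) (nat_lit 5) (nat_lit 322) (nat_lit 316) (nat_lit 262)) (XT.nd (nat_lit 78) (nat_lit 0) (nat_lit 0) (XT.lf (nat_lit 0) (nat_lit 5405859143) (nat_lit 912) (nat_lit 2532006963) (nat_lit 988) (nat_lit 151507051) (nat_lit 298) (nat_lit 5) (nat_lit 310) (nat_lit 5) (nat_lit 311) (nat_lit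 5) (nat_lit 323) (nat_lit 316) (nat_lit 261)) (XT.lf (nat_lit 76) (nat_lit 1640627106) (nat_lit 0) (nat_lit 5258653971) (nat_lit 988) (nat_lit 1281083918) (nat_lit 299) (nat_lit 5) (nat_lit 298) (nat_lit 5) (nat_lit 311) (nat_lit 5) (nat_lit 324) (nat_lit 316) (nat_lit 260)))) (XT.nd (nat_lit 156) (nat_lit 0) (nat_lit 76) (XT.nd (nat_lit 78) (nat_lit 0) (nat_lit 76) (XT.lf (nat_lit 0) (nat_lit 140218908) (nat_lit 988) (nat_lit 2315669456) (nat_lit 1064) (nat_lit 5818778464) (nat_lit 285) (nat_lit 5) (nat_lit 298) (nat_lit 5) (nat_lit 299) (nat_lit 5) (nat_lit 325) (nat_lit 316) (nat_lit 259)) (XT.lf (nat_lit 0) (nat_lit 1558049771) (nat_lit 988) (nat_lit 6344673239) (nat_lit 1064) (nat_lit 469331301) (nat_lit 286) (nat_lit 5) (nat_lit 299) (nat_lit 5) (nat_lit 300) (nat_lit 5) (nat_lit 326) (nat_lit 316) (nat_lit 258))) (XT.nd (nat_lit 78) (nat_lit 0) (nat_lit 0) (XT.lf (nat_lit 0) (nat_lit 3022992262)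 (nat_lit 988) (nat_lit 1979156716) (nat_lit 1064) (nat_lit 3470102617) (nat_lit 286) (nat_lit 5) (nat_lit 299) (nat_lit 5) (nat_lit 300) (nat_lit 5) (nat_lit 327) (nat_lit 316) (nat_lit 257)) (XT.lf (nat_lit 76) (nat_lit 2536590671) (nat_lit 0) (nat_lit 1977584095) (nat_lit 1064) (nat_lit 4061836013) (nat_lit 287) (nat_lit 5) (nat_lit 286) (nat_lit 5) (nat_lit 300) (nat_lit 5) (nat_lit 328) (nat_lit 316) (nat_lit 256))))) (XT.nd (nat_lit 234) (nat_lit 2128) (nat_lit 0) (XT.nd (nat_lit 78) (nat_lit 1064) (nat_lit 0) (XT.lf (nat_lit 0) (nat_lit 6040167169) (nat_lit 988) (nat_lit 1496338925) (nat_lit 1064) (nat_lit 1146698426) (nat_lit 287) (nat_lit 5) (nat_lit 300) (nat_lit 5) (nat_lit 301) (nat_lit 5) (nat_lit 329) (nat_lit 316) (nat_lit 255)) (XT.nd (nat_lit 78) (nat_lit 1064) (nat_lit 0) (XT.lf (nat_lit 76) (nat_lit 3195417800) (nat_lit 0) (nat_lit 4426967897) (nat_lit 1064) (nat_lit 1170938298) (nat_lit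 288) (nat_lit 5) (nat_lit 287) (nat_lit 5) (nat_lit 301) (nat_lit 5) (nat_lit 330) (nat_lit 316) (nat_lit 254)) (XT.lf (nat_lit 0) (nat_lit 314458200) (nat_lit 1064) (nat_lit 882060973) (nat_lit 1140) (nat_lit 7710874086) (nat_lit 273) (nat_lit 5) (nat_lit 287) (nat_lit 5) (nat_lit 288) (nat_lit 5) (nat_lit 331) (nat_lit 316) (nat_lit 253)))) (XT.nd (nat_lit 156) (nat_lit 2204) (nat_lit 0) (XT.nd (nat_lit 78) (nat_lit 0) (nat_lit 0) (XT.lf (nat_lit 0) (nat_lit 1842266539) (nat_lit 1064) (nat_lit 5033652206) (nat_lit 76) (nat_lit 2147997849) (nat_lit 274) (nat_lit 5) (nat_lit 288) (nat_lit 5) (nat_lit 275) (nat_lit 5) (nat_lit 332) (nat_lit 316) (nat_lit 252)) (XT.lf (nat_lit 0) (nat_lit 3399413916) (nat_lit 1064) (nat_lit 159684352) (nat_lit 76) (nat_lit 5585352931) (nat_lit 274) (nat_lit 5) (nat_lit 288) (nat_lit 5) (nat_lit 275) (nat_lit 5) (nat_lit 333) (nat_lit 316) (nat_lit 251))) (XT.nd (nat_lit 78)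 (nat_lit 1140) (nat_lit 0) (XT.lf (nat_lit 0) (nat_lit 4926617303) (nat_lit 1064) (nat_lit 87766349) (nat_lit 1140) (nat_lit 4253905063) (nat_lit 260) (nat_lit 5) (nat_lit 274) (nat_lit 5) (nat_lit 275) (nat_lit 5) (nat_lit 334) (nat_lit 316) (nat_lit 250)) (XT.lf (nat_lit 0) (nat_lit 722682442) (nat_lit 1140) (nat_lit 5961796971) (nat_lit 1216) (nat_lit 2711181163) (nat_lit 245) (nat_lit 5) (nat_lit 260) (nat_lit 5) (nat_lit 261) (nat_lit 5) (nat_lit 335) (nat_lit 316) (nat_lit 249))))))) (XT.nd (nat_lit 1014) (nat_lit 3572) (nat_lit 0) (XT.nd (nat_lit 468) (nat_lit 2204) (nat_lit 0) (XT.nd (nat_lit 234) (nat_lit 1216) (nat_lit 0) (XT.nd (nat_lit 78) (nat_lit 1292) (nat_lit 0) (XT.lf (nat_lit 0) (nat_lit 5996517094) (nat_lit 1140) (nat_lit 2418177398) (nat_lit 1216) (nat_lit 1111877562) (nat_lit 245) (nat_lit 5) (nat_lit 260) (nat_lit 5) (nat_lit 261) (nat_lit 5) (nat_lit 336) (nat_lit 316) (nat_lit 248))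 (XT.nd (nat_lit 78) (nat_lit 0) (nat_lit 0) (XT.lf (nat_lit 0) (nat_lit 520001328) (nat_lit 1292) (nat_lit 7907776556) (nat_lit 76) (nat_lit 1233645146) (nat_lit 228) (nat_lit 5) (nat_lit 245) (nat_lit 5) (nat_lit 229) (nat_lit 5) (nat_lit 337) (nat_lit 316) (nat_lit 247)) (XT.lf (nat_lit 0) (nat_lit 2205136626) (nat_lit 1292) (nat_lit 2597451608) (nat_lit 76) (nat_lit 4996618959) (nat_lit 228) (nat_lit 5) (nat_lit 245) (nat_lit 5) (nat_lit 229) (nat_lit 5) (nat_lit 338) (nat_lit 316) (nat_lit 246)))) (XT.nd (nat_lit 78) (nat_lit 608) (nat_lit 0) (XT.lf (nat_lit 0) (nat_lit 2898531139) (nat_lit 608) (nat_lit 1037832791) (nat_lit 684) (nat_lit 6004911655) (nat_lit 220) (nat_lit 5) (nat_lit 228) (nat_lit 5) (nat_lit 229) (nat_lit 5) (nat_lit 339) (nat_lit 316) (nat_lit 245)) (XT.nd (nat_lit 78) (nat_lit 608) (nat_lit 0) (XT.lf (nat_lit 0) (nat_lit 5741661708) (nat_lit 684) (nat_lit 1532638650) (nat_lit 76)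 (nat_lit 2812658013) (nat_lit 220) (nat_lit 5) (nat_lit 229) (nat_lit 5) (nat_lit 221) (nat_lit 5) (nat_lit 340) (nat_lit 316) (nat_lit 244)) (XT.lf (nat_lit 0) (nat_lit 4184142575) (nat_lit 608) (nat_lit 3436740175) (nat_lit 684) (nat_lit 2615551837) (nat_lit 212) (nat_lit 5) (nat_lit 220) (nat_lit 5) (nat_lit 221) (nat_lit 5) (nat_lit 341) (nat_lit 316) (nat_lit 243))))) (XT.nd (nat_lit 234) (nat_lit 988) (nat_lit 0) (XT.nd (nat_lit 78) (nat_lit 1216) (nat_lit 0) (XT.lf (nat_lit 0) (nat_lit 9546951676) (nat_lit 684) (nat_lit 321827624) (nat_lit 76) (nat_lit 521917065) (nat_lit 212) (nat_lit 5) (nat_lit 221) (nat_lit 5) (nat_lit 213) (nat_lit 5) (nat_lit 342) (nat_lit 316) (nat_lit 242)) (XT.nd (nat_lit 78) (nat_lit 532) (nat_lit 0) (XT.lf (nat_lit 0) (nat_lit 1021510103) (nat_lit 684) (nat_lit 4931267887) (nat_lit 76) (nat_lit 4594756359) (nat_lit 203) (nat_lit 5) (nat_lit 212) (nat_lit 5) (nat_lit 204)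 (nat_lit 5) (nat_lit 343) (nat_lit 316) (nat_lit 241)) (XT.lf (nat_lit 0) (nat_lit 1011435339) (nat_lit 532) (nat_lit 1898362817) (nat_lit 608) (nat_lit 7799521783) (nat_lit 196) (nat_lit 5) (nat_lit 203) (nat_lit 5) (nat_lit 204) (nat_lit 5) (nat_lit 344) (nat_lit 316) (nat_lit 240)))) (XT.nd (nat_lit 156) (nat_lit 456) (nat_lit 0) (XT.nd (nat_lit 78) (nat_lit 532) (nat_lit 0) (XT.lf (nat_lit 0) (nat_lit 4898493164) (nat_lit 608) (nat_lit 3693941622) (nat_lit 76) (nat_lit 2282225256) (nat_lit 196) (nat_lit 5) (nat_lit 204) (nat_lit 5) (nat_lit 197) (nat_lit 5) (nat_lit 345) (nat_lit 316) (nat_lit 239)) (XT.lf (nat_lit 0) (nat_lit 2490213417) (nat_lit 532) (nat_lit 4471771297) (nat_lit 608) (nat_lit 4082534858) (nat_lit 189) (nat_lit 5) (nat_lit 196) (nat_lit 5) (nat_lit 197) (nat_lit 5) (nat_lit 346) (nat_lit 316) (nat_lit 238))) (XT.nd (nat_lit 78) (nat_lit 456) (nat_lit 0) (XT.lf (nat_lit 0) (nat_lit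 8906202912) (nat_lit 532) (nat_lit 191403314) (nat_lit 608) (nat_lit 2121574815) (nat_lit 189) (nat_lit 5) (nat_lit 196) (nat_lit 5) (nat_lit 197) (nat_lit 5) (nat_lit 347) (nat_lit 316) (nat_lit 237)) (XT.lf (nat_lit 0) (nat_lit 4126232326) (nat_lit 456) (nat_lit 7224958400) (nat_lit 532) (nat_lit 46287332) (nat_lit 183) (nat_lit 5) (nat_lit 189) (nat_lit 5) (nat_lit 190) (nat_lit 5) (nat_lit 348) (nat_lit 316) (nat_lit 236)))))) (XT.nd (nat_lit 546) (nat_lit 1596) (nat_lit 0) (XT.nd (nat_lit 234) (nat_lit 912) (nat_lit 0) (XT.nd (nat_lit 78) (nat_lit 988) (nat_lit 0) (XT.lf (nat_lit 0) (nat_lit 2049843616) (nat_lit 532) (nat_lit 826197729) (nat_lit 76) (nat_lit 8704509593) (nat_lit 182) (nat_lit 5) (nat_lit 189) (nat_lit 5) (nat_lit 183) (nat_lit 5) (nat_lit 349) (nat_lit 316) (nat_lit 235)) (XT.nd (nat_lit 78) (nat_lit 456) (nat_lit 0) (XT.lf (nat_lit 0) (nat_lit 4255240006) (nat_lit 608) (nat_lit 5885998416)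 (nat_lit 76) (nat_lit 1626455948) (nat_lit 175) (nat_lit 5) (nat_lit 183) (nat_lit 5) (nat_lit 176) (nat_lit 5) (nat_lit 350) (nat_lit 316) (nat_lit 234)) (XT.lf (nat_lit 0) (nat_lit 805563798) (nat_lit 456) (nat_lit 5740979275) (nat_lit 532) (nat_lit 5413327824) (nat_lit 169) (nat_lit 5) (nat_lit 175) (nat_lit 5) (nat_lit 176) (nat_lit 5) (nat_lit 351) (nat_lit 316) (nat_lit 233)))) (XT.nd (nat_lit 156) (nat_lit 456) (nat_lit 0) (XT.nd (nat_lit 78) (nat_lit 456) (nat_lit 0) (XT.lf (nat_lit 0) (nat_lit 7789657672) (nat_lit 456) (nat_lit 1151912281) (nat_lit 532) (nat_lit 3215204035) (nat_lit 169) (nat_lit 5) (nat_lit 175) (nat_lit 5) (nat_lit 176) (nat_lit 5) (nat_lit 352) (nat_lit 316) (nat_lit 232)) (XT.lf (nat_lit 0) (nat_lit 2611575096) (nat_lit 456) (nat_lit 8832558655) (nat_lit 532) (nat_lit 914390333) (nat_lit 163) (nat_lit 5) (nat_lit 169) (nat_lit 5) (nat_lit 170) (nat_lit 5) (nat_lit 353) (nat_lit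 316) (nat_lit 231))) (XT.nd (nat_lit 78) (nat_lit 380) (nat_lit 0) (XT.lf (nat_lit 0) (nat_lit 1459384455) (nat_lit 532) (nat_lit 2730598258) (nat_lit 76) (nat_lit 8374964014) (nat_lit 162) (nat_lit 5) (nat_lit 169) (nat_lit 5) (nat_lit 163) (nat_lit 5) (nat_lit 354) (nat_lit 316) (nat_lit 230)) (XT.lf (nat_lit 0) (nat_lit 3912957550) (nat_lit 456) (nat_lit 8234972503) (nat_lit 76) (nat_lit 628561098) (nat_lit 157) (nat_lit 5) (nat_lit 163) (nat_lit 5) (nat_lit 158) (nat_lit 5) (nat_lit 355) (nat_lit 316) (nat_lit 229))))) (XT.nd (nat_lit 234) (nat_lit 760) (nat_lit 0) (XT.nd (nat_lit 78) (nat_lit 836) (nat_lit 0) (XT.lf (nat_lit 0) (nat_lit 6486903222) (nat_lit 456) (nat_lit 975966883) (nat_lit 76) (nat_lit 5530118166) (nat_lit 157) (nat_lit 5) (nat_lit 163) (nat_lit 5) (nat_lit 158) (nat_lit 5) (nat_lit 356) (nat_lit 316) (nat_lit 228)) (XT.nd (nat_lit 78) (nat_lit 380) (nat_lit 0) (XT.lf (nat_lit 0)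 (nat_lit 6602038599) (nat_lit 456) (nat_lit 2577582482) (nat_lit 532) (nat_lit 4035121663) (nat_lit 151) (nat_lit 5) (nat_lit 157) (nat_lit 5) (nat_lit 158) (nat_lit 5) (nat_lit 357) (nat_lit 316) (nat_lit 227)) (XT.lf (nat_lit 0) (nat_lit 951485509) (nat_lit 380) (nat_lit 11022736734) (nat_lit 456) (nat_lit 1468303345) (nat_lit 146) (nat_lit 5) (nat_lit 151) (nat_lit 5) (nat_lit 152) (nat_lit 5) (nat_lit 358) (nat_lit 316) (nat_lit 226)))) (XT.nd (nat_lit 156) (nat_lit 304) (nat_lit 0) (XT.nd (nat_lit 78) (nat_lit 380) (nat_lit 0) (XT.lf (nat_lit 0) (nat_lit 1224093153) (nat_lit 456) (nat_lit 4862555055) (nat_lit 76) (nat_lit 7588017634) (nat_lit 145) (nat_lit 5) (nat_lit 151) (nat_lit 5) (nat_lit 146) (nat_lit 5) (nat_lit 359) (nat_lit 316) (nat_lit 225)) (XT.lf (nat_lit 0) (nat_lit 3011745378) (nat_lit 380) (nat_lit 964135217) (nat_lit 456) (nat_lit 9937217707) (nat_lit 140) (nat_lit 5) (nat_lit 145)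 (nat_lit 5) (nat_lit 146) (nat_lit 5) (nat_lit 360) (nat_lit 316) (nat_lit 224))) (XT.nd (nat_lit 78) (nat_lit 304) (nat_lit 0) (XT.lf (nat_lit 0) (nat_lit 6880723997) (nat_lit 456) (nat_lit 3004757840) (nat_lit 76) (nat_lit 4271094639) (nat_lit 140) (nat_lit 5) (nat_lit 146) (nat_lit 5) (nat_lit 141) (nat_lit 5) (nat_lit 361) (nat_lit 316) (nat_lit 223)) (XT.lf (nat_lit 0) (nat_lit 5193777982) (nat_lit 304) (nat_lit 4718468335) (nat_lit 380) (nat_lit 4493934253) (nat_lit 136) (nat_lit 5) (nat_lit 140) (nat_lit 5) (nat_lit 141) (nat_lit 5) (nat_lit 362) (nat_lit 316) (nat_lit 222))))))))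
noncomputable def xc146 : XT := (XT.nd (nat_lit 2106) (nat_lit 2660) (nat_lit 0) (XT.nd (nat_lit 1014) (nat_lit 2052) (nat_lit 0) (XT.nd (nat_lit 468) (nat_lit 1368) (nat_lit 0) (XT.nd (nat_lit 234) (nat_lit 304) (nat_lit 0) (XT.nd (nat_lit 78) (nat_lit 760) (nat_lit 0) (XT.lf (nat_lit 0) (nat_lit 13051480395) (nat_lit 380) (nat_lit 995627923) (nat_lit 76) (nat_lit 615668848) (nat_lit 136) (nat_lit 5) (nat_lit 141) (nat_lit 5) (nat_lit 137) (nat_lit 5) (nat_lit 363) (nat_lit 316) (nat_lit 221)) (XT.nd (nat_lit 78) (nat_lit 304) (nat_lit 0) (XT.lf (nat_lit 0) (nat_lit 1432417455) (nat_lit 456) (nat_lit 7396257982) (nat_lit 76) (nat_lit 6094978788) (nat_lit 130) (nat_lit 5) (nat_lit 136) (nat_lit 5) (nat_lit 131) (nat_lit 5) (nat_lit 364) (nat_lit 316) (nat_lit 220)) (XT.lf (nat_lit 0) (nat_lit 1113777450) (nat_lit 304) (nat_lit 3423148612) (nat_lit 380) (nat_lit 10654903615) (nat_lit 126) (nat_lit 5) (nat_lit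 130) (nat_lit 5) (nat_lit 131) (nat_lit 5) (nat_lit 365) (nat_lit 316) (nat_lit 219)))) (XT.nd (nat_lit 78) (nat_lit 304) (nat_lit 0) (XT.lf (nat_lit 0) (nat_lit 7811851299) (nat_lit 380) (nat_lit 5483039242) (nat_lit 76) (nat_lit 2170847950) (nat_lit 126) (nat_lit 5) (nat_lit 131) (nat_lit 5) (nat_lit 127) (nat_lit 5) (nat_lit 366) (nat_lit 316) (nat_lit 218)) (XT.nd (nat_lit 78) (nat_lit 0) (nat_lit 0) (XT.lf (nat_lit 0) (nat_lit 3375978674) (nat_lit 304) (nat_lit 7857176091) (nat_lit 380) (nat_lit 4513272243) (nat_lit 122) (nat_lit 5) (nat_lit 126) (nat_lit 5) (nat_lit 127) (nat_lit 5) (nat_lit 367) (nat_lit 316) (nat_lit 217)) (XT.lf (nat_lit 0) (nat_lit 12587586896) (nat_lit 304) (nat_lit 2206948965) (nat_lit 380) (nat_lit 1239883326) (nat_lit 122) (nat_lit 5) (nat_lit 126) (nat_lit 5) (nat_lit 127) (nat_lit 5) (nat_lit 368) (nat_lit 316) (nat_lit 216))))) (XT.nd (nat_lit 234) (nat_lit 684) (nat_lit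 0) (XT.nd (nat_lit 78) (nat_lit 304) (nat_lit 0) (XT.lf (nat_lit 0) (nat_lit 2163806545) (nat_lit 380) (nat_lit 10552474409) (nat_lit 76) (nat_lit 3611950355) (nat_lit 117) (nat_lit 5) (nat_lit 122) (nat_lit 5) (nat_lit 118) (nat_lit 5) (nat_lit 369) (nat_lit 316) (nat_lit 215)) (XT.nd (nat_lit 78) (nat_lit 304) (nat_lit 0) (XT.lf (nat_lit 0) (nat_lit 5684302233) (nat_lit 380) (nat_lit 1343997578) (nat_lit 76) (nat_lit 9601006877) (nat_lit 117) (nat_lit 5) (nat_lit 122) (nat_lit 5) (nat_lit 118) (nat_lit 5) (nat_lit 370) (nat_lit 316) (nat_lit 214)) (XT.lf (nat_lit 0) (nat_lit 8277606309) (nat_lit 304) (nat_lit 1095495997) (nat_lit 380) (nat_lit 7564436814) (nat_lit 113) (nat_lit 5) (nat_lit 117) (nat_lit 5) (nat_lit 118) (nat_lit 5) (nat_lit 371) (nat_lit 316) (nat_lit 213)))) (XT.nd (nat_lit 156) (nat_lit 380) (nat_lit 0) (XT.nd (nat_lit 78) (nat_lit 0) (nat_lit 0) (XT.lf (nat_lit 0) (nat_lit 905277774)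 (nat_lit 304) (nat_lit 12321209082) (nat_lit 380) (nat_lit 4026919373) (nat_lit 109) (nat_lit 5) (nat_lit 113) (nat_lit 5) (nat_lit 114) (nat_lit 5) (nat_lit 372) (nat_lit 316) (nat_lit 212)) (XT.lf (nat_lit 0) (nat_lit 10899305385) (nat_lit 304) (nat_lit 6377908177) (nat_lit 380) (nat_lit 299088734) (nat_lit 109) (nat_lit 5) (nat_lit 113) (nat_lit 5) (nat_lit 114) (nat_lit 5) (nat_lit 373) (nat_lit 316) (nat_lit 211))) (XT.nd (nat_lit 78) (nat_lit 0) (nat_lit 0) (XT.lf (nat_lit 0) (nat_lit 3290232098) (nat_lit 304) (nat_lit 196751207) (nat_lit 380) (nat_lit 14420420906) (nat_lit 104) (nat_lit 5) (nat_lit 108) (nat_lit 5) (nat_lit 109) (nat_lit 5) (nat_lit 374) (nat_lit 316) (nat_lit 210)) (XT.lf (nat_lit 0) (nat_lit 7492056524) (nat_lit 380) (nat_lit 4640376805) (nat_lit 76) (nat_lit 6112578827) (nat_lit 104) (nat_lit 5) (nat_lit 109) (nat_lit 5) (nat_lit 105) (nat_lit 5) (nat_lit 375) (nat_lit 316) (nat_lit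 209)))))) (XT.nd (nat_lit 546) (nat_lit 988) (nat_lit 0) (XT.nd (nat_lit 234) (nat_lit 456) (nat_lit 0) (XT.nd (nat_lit 78) (nat_lit 380) (nat_lit 0) (XT.lf (nat_lit 0) (nat_lit 5721763332) (nat_lit 228) (nat_lit 5936962853) (nat_lit 304) (nat_lit 6932783416) (nat_lit 101) (nat_lit 5) (nat_lit 104) (nat_lit 5) (nat_lit 105) (nat_lit 5) (nat_lit 376) (nat_lit 316) (nat_lit 208)) (XT.nd (nat_lit 78) (nat_lit 380) (nat_lit 0) (XT.lf (nat_lit 0) (nat_lit 15986633280) (nat_lit 304) (nat_lit 2485656537) (nat_lit 76) (nat_lit 475029485) (nat_lit 101) (nat_lit 5) (nat_lit 105) (nat_lit 5) (nat_lit 102) (nat_lit 5) (nat_lit 377) (nat_lit 316) (nat_lit 207)) (XT.lf (nat_lit 0) (nat_lit 1233290834) (nat_lit 380) (nat_lit 11032375682) (nat_lit 76) (nat_lit 7044071600) (nat_lit 96) (nat_lit 5) (nat_lit 101) (nat_lit 5) (nat_lit 97) (nat_lit 5) (nat_lit 378) (nat_lit 316) (nat_lit 206)))) (XT.nd (nat_lit 156) (nat_lit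 228) (nat_lit 0) (XT.nd (nat_lit 78) (nat_lit 228) (nat_lit 0) (XT.lf (nat_lit 0) (nat_lit 5504083881) (nat_lit 380) (nat_lit 320808062) (nat_lit 76) (nat_lit 13856947104) (nat_lit 96) (nat_lit 5) (nat_lit 101) (nat_lit 5) (nat_lit 97) (nat_lit 5) (nat_lit 379) (nat_lit 316) (nat_lit 205)) (XT.lf (nat_lit 0) (nat_lit 10002125258) (nat_lit 304) (nat_lit 9168801584) (nat_lit 76) (nat_lit 891206384) (nat_lit 93) (nat_lit 5) (nat_lit 97) (nat_lit 5) (nat_lit 94) (nat_lit 5) (nat_lit 380) (nat_lit 316) (nat_lit 204))) (XT.nd (nat_lit 78) (nat_lit 0) (nat_lit 0) (XT.lf (nat_lit 0) (nat_lit 1954517388) (nat_lit 228) (nat_lit 12746037316) (nat_lit 304) (nat_lit 5751321962) (nat_lit 90) (nat_lit 5) (nat_lit 93) (nat_lit 5) (nat_lit 94) (nat_lit 5) (nat_lit 381) (nat_lit 316) (nat_lit 203)) (XT.lf (nat_lit 0) (nat_lit 13577058683) (nat_lit 228) (nat_lit 6041380748) (nat_lit 304) (nat_lit 1232521640) (nat_lit 90)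 (nat_lit 5) (nat_lit 93) (nat_lit 5) (nat_lit 94) (nat_lit 5) (nat_lit 382) (nat_lit 316) (nat_lit 202))))) (XT.nd (nat_lit 234) (nat_lit 456) (nat_lit 0) (XT.nd (nat_lit 78) (nat_lit 228) (nat_lit 0) (XT.lf (nat_lit 0) (nat_lit 3391706903) (nat_lit 304) (nat_lit 16953648202) (nat_lit 76) (nat_lit 914580531) (nat_lit 86) (nat_lit 5) (nat_lit 90) (nat_lit 5) (nat_lit 87) (nat_lit 5) (nat_lit 383) (nat_lit 316) (nat_lit 201)) (XT.nd (nat_lit 78) (nat_lit 228) (nat_lit 0) (XT.lf (nat_lit 0) (nat_lit 8250185081) (nat_lit 304) (nat_lit 5390901832) (nat_lit 76) (nat_lit 8036120985) (nat_lit 86) (nat_lit 5) (nat_lit 90) (nat_lit 5) (nat_lit 87) (nat_lit 5) (nat_lit 384) (nat_lit 316) (nat_lit 200)) (XT.lf (nat_lit 0) (nat_lit 6626509042) (nat_lit 228) (nat_lit 6678305837) (nat_lit 304) (nat_lit 8800674847) (nat_lit 83) (nat_lit 5) (nat_lit 86) (nat_lit 5) (nat_lit 87) (nat_lit 5) (nat_lit 385) (nat_lit 316) (nat_lit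 199)))) (XT.nd (nat_lit 156) (nat_lit 228) (nat_lit 0) (XT.nd (nat_lit 78) (nat_lit 228) (nat_lit 0) (XT.lf (nat_lit 0) (nat_lit 18557605511) (nat_lit 304) (nat_lit 3456949788) (nat_lit 76) (nat_lit 530672267) (nat_lit 83) (nat_lit 5) (nat_lit 87) (nat_lit 5) (nat_lit 84) (nat_lit 5) (nat_lit 386) (nat_lit 316) (nat_lit 198)) (XT.lf (nat_lit 0) (nat_lit 1092242588) (nat_lit 228) (nat_lit 13990145873) (nat_lit 76) (nat_lit 7911252088) (nat_lit 80) (nat_lit 5) (nat_lit 83) (nat_lit 5) (nat_lit 81) (nat_lit 5) (nat_lit 387) (nat_lit 316) (nat_lit 197))) (XT.nd (nat_lit 78) (nat_lit 228) (nat_lit 0) (XT.lf (nat_lit 0) (nat_lit 6266842457) (nat_lit 228) (nat_lit 1606722134) (nat_lit 76) (nat_lit 15580085237) (nat_lit 80) (nat_lit 5) (nat_lit 83) (nat_lit 5) (nat_lit 81) (nat_lit 5) (nat_lit 388) (nat_lit 316) (nat_lit 196)) (XT.lf (nat_lit 0) (nat_lit 11349228855) (nat_lit 228) (nat_lit 344151563) (nat_lit 304)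 (nat_lit 12231180824) (nat_lit 77) (nat_lit 5) (nat_lit 80) (nat_lit 5) (nat_lit 81) (nat_lit 5) (nat_lit 389) (nat_lit 316) (nat_lit 195))))))) (XT.nd (nat_lit 1014) (nat_lit 1216) (nat_lit 0) (XT.nd (nat_lit 468) (nat_lit 836) (nat_lit 0) (XT.nd (nat_lit 234) (nat_lit 152) (nat_lit 0) (XT.nd (nat_lit 78) (nat_lit 304) (nat_lit 0) (XT.lf (nat_lit 0) (nat_lit 230241036) (nat_lit 152) (nat_lit 17130006384) (nat_lit 228) (nat_lit 7047029366) (nat_lit 75) (nat_lit 5) (nat_lit 77) (nat_lit 5) (nat_lit 78) (nat_lit 5) (nat_lit 390) (nat_lit 316) (nat_lit 194)) (XT.nd (nat_lit 78) (nat_lit 304) (nat_lit 0) (XT.lf (nat_lit 0) (nat_lit 13653957631) (nat_lit 152) (nat_lit 9661379886) (nat_lit 228) (nat_lit 1585592461) (nat_lit 75) (nat_lit 5) (nat_lit 77) (nat_lit 5) (nat_lit 78) (nat_lit 5) (nat_lit 391) (nat_lit 316) (nat_lit 193)) (XT.lf (nat_lit 0) (nat_lit 2052229245) (nat_lit 228) (nat_lit 1916447976) (nat_lit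 304) (nat_lit 21439318571) (nat_lit 71) (nat_lit 5) (nat_lit 74) (nat_lit 5) (nat_lit 75) (nat_lit 5) (nat_lit 392) (nat_lit 316) (nat_lit 192)))) (XT.nd (nat_lit 78) (nat_lit 152) (nat_lit 0) (XT.lf (nat_lit 0) (nat_lit 9818834176) (nat_lit 304) (nat_lit 10041051577) (nat_lit 76) (nat_lit 6065085485) (nat_lit 71) (nat_lit 5) (nat_lit 75) (nat_lit 5) (nat_lit 72) (nat_lit 5) (nat_lit 393) (nat_lit 316) (nat_lit 191)) (XT.nd (nat_lit 78) (nat_lit 0) (nat_lit 0) (XT.lf (nat_lit 0) (nat_lit 3706991010) (nat_lit 152) (nat_lit 12180628716) (nat_lit 228) (nat_lit 10568544899) (nat_lit 69) (nat_lit 5) (nat_lit 71) (nat_lit 5) (nat_lit 72) (nat_lit 5) (nat_lit 394) (nat_lit 316) (nat_lit 190)) (XT.lf (nat_lit 0) (nat_lit 18054021682) (nat_lit 152) (nat_lit 4174506511) (nat_lit 228) (nat_lit 4772066164) (nat_lit 69) (nat_lit 5) (nat_lit 71) (nat_lit 5) (nat_lit 72) (nat_lit 5) (nat_lit 395) (nat_lit 316) (nat_lit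 189))))) (XT.nd (nat_lit 234) (nat_lit 380) (nat_lit 0) (XT.nd (nat_lit 78) (nat_lit 152) (nat_lit 0) (XT.lf (nat_lit 0) (nat_lit 1254864090) (nat_lit 304) (nat_lit 22255574129) (nat_lit 76) (nat_lit 4048177173) (nat_lit 65) (nat_lit 5) (nat_lit 69) (nat_lit 5) (nat_lit 66) (nat_lit 5) (nat_lit 396) (nat_lit 316) (nat_lit 188)) (XT.nd (nat_lit 78) (nat_lit 152) (nat_lit 0) (XT.lf (nat_lit 0) (nat_lit 7488209506) (nat_lit 304) (nat_lit 8075618949) (nat_lit 76) (nat_lit 12564487655) (nat_lit 65) (nat_lit 5) (nat_lit 69) (nat_lit 5) (nat_lit 66) (nat_lit 5) (nat_lit 397) (nat_lit 316) (nat_lit 187)) (XT.lf (nat_lit 0) (nat_lit 6640858506) (nat_lit 152) (nat_lit 7320806546) (nat_lit 228) (nat_lit 14751851570) (nat_lit 63) (nat_lit 5) (nat_lit 65) (nat_lit 5) (nat_lit 66) (nat_lit 5) (nat_lit 398) (nat_lit 316) (nat_lit 186)))) (XT.nd (nat_lit 156) (nat_lit 228) (nat_lit 0) (XT.nd (nat_lit 78) (nat_lit 152)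 (nat_lit 0) (XT.lf (nat_lit 0) (nat_lit 20712258090) (nat_lit 228) (nat_lit 7380031745) (nat_lit 76) (nat_lit 1221497303) (nat_lit 63) (nat_lit 5) (nat_lit 66) (nat_lit 5) (nat_lit 64) (nat_lit 5) (nat_lit 399) (nat_lit 316) (nat_lit 185)) (XT.lf (nat_lit 0) (nat_lit 7815408428) (nat_lit 152) (nat_lit 19987217294) (nat_lit 228) (nat_lit 2125324291) (nat_lit 61) (nat_lit 5) (nat_lit 63) (nat_lit 5) (nat_lit 64) (nat_lit 5) (nat_lit 400) (nat_lit 316) (nat_lit 184))) (XT.nd (nat_lit 78) (nat_lit 152) (nat_lit 0) (XT.lf (nat_lit 0) (nat_lit 4521410084) (nat_lit 228) (nat_lit 7002755118) (nat_lit 76) (nat_lit 19033115598) (nat_lit 60) (nat_lit 5) (nat_lit 63) (nat_lit 5) (nat_lit 61) (nat_lit 5) (nat_lit 401) (nat_lit 316) (nat_lit 183)) (XT.lf (nat_lit 0) (nat_lit 8691387747) (nat_lit 152) (nat_lit 2706963849) (nat_lit 228) (nat_lit 19804304750) (nat_lit 58) (nat_lit 5) (nat_lit 60) (nat_lit 5) (nat_lit 61)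 (nat_lit 5) (nat_lit 402) (nat_lit 316) (nat_lit 182)))))) (XT.nd (nat_lit 546) (nat_lit 684) (nat_lit 0) (XT.nd (nat_lit 234) (nat_lit 304) (nat_lit 0) (XT.nd (nat_lit 78) (nat_lit 228) (nat_lit 0) (XT.lf (nat_lit 0) (nat_lit 18604322812) (nat_lit 228) (nat_lit 6944895891) (nat_lit 76) (nat_lit 6314494543) (nat_lit 58) (nat_lit 5) (nat_lit 61) (nat_lit 5) (nat_lit 59) (nat_lit 5) (nat_lit 403) (nat_lit 316) (nat_lit 181)) (XT.nd (nat_lit 78) (nat_lit 76) (nat_lit 0) (XT.lf (nat_lit 0) (nat_lit 9224632872) (nat_lit 152) (nat_lit 16907634329) (nat_lit 228) (nat_lit 6409162509) (nat_lit 56) (nat_lit 5) (nat_lit 58) (nat_lit 5) (nat_lit 59) (nat_lit 5) (nat_lit 404) (nat_lit 316) (nat_lit 180)) (XT.lf (nat_lit 0) (nat_lit 695122597) (nat_lit 228) (nat_lit 7239738359) (nat_lit 76) (nat_lit 25302596819) (nat_lit 55) (nat_lit 5) (nat_lit 58) (nat_lit 5) (nat_lit 56) (nat_lit 5) (nat_lit 405) (nat_lit 316) (nat_lit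 179)))) (XT.nd (nat_lit 156) (nat_lit 152) (nat_lit 0) (XT.nd (nat_lit 78) (nat_lit 0) (nat_lit 0) (XT.lf (nat_lit 0) (nat_lit 7978947805) (nat_lit 228) (nat_lit 24540556740) (nat_lit 76) (nat_lit 1430103081) (nat_lit 53) (nat_lit 5) (nat_lit 56) (nat_lit 5) (nat_lit 54) (nat_lit 5) (nat_lit 406) (nat_lit 316) (nat_lit 178)) (XT.lf (nat_lit 0) (nat_lit 15624352797) (nat_lit 228) (nat_lit 8071121356) (nat_lit 76) (nat_lit 10983357361) (nat_lit 53) (nat_lit 5) (nat_lit 56) (nat_lit 5) (nat_lit 54) (nat_lit 5) (nat_lit 407) (nat_lit 316) (nat_lit 177))) (XT.nd (nat_lit 78) (nat_lit 0) (nat_lit 0) (XT.lf (nat_lit 0) (nat_lit 9052919006) (nat_lit 152) (nat_lit 14524165895) (nat_lit 228) (nat_lit 11850509716) (nat_lit 51) (nat_lit 5) (nat_lit 53) (nat_lit 5) (nat_lit 54) (nat_lit 5) (nat_lit 408) (nat_lit 316) (nat_lit 176)) (XT.lf (nat_lit 0) (nat_lit 26840155684) (nat_lit 152) (nat_lit 5000798796) (nat_lit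 228) (nat_lit 4355690875) (nat_lit 51) (nat_lit 5) (nat_lit 53) (nat_lit 5) (nat_lit 54) (nat_lit 5) (nat_lit 409) (nat_lit 316) (nat_lit 175))))) (XT.nd (nat_lit 234) (nat_lit 304) (nat_lit 0) (XT.nd (nat_lit 78) (nat_lit 152) (nat_lit 0) (XT.lf (nat_lit 0) (nat_lit 3416467137) (nat_lit 228) (nat_lit 28747027372) (nat_lit 76) (nat_lit 4820760200) (nat_lit 48) (nat_lit 5) (nat_lit 51) (nat_lit 5) (nat_lit 49) (nat_lit 5) (nat_lit 410) (nat_lit 316) (nat_lit 174)) (XT.nd (nat_lit 78) (nat_lit 152) (nat_lit 0) (XT.lf (nat_lit 0) (nat_lit 11470441862) (nat_lit 228) (nat_lit 11351404302) (nat_lit 76) (nat_lit 14968267785) (nat_lit 48) (nat_lit 5) (nat_lit 51) (nat_lit 5) (nat_lit 49) (nat_lit 5) (nat_lit 411) (nat_lit 316) (nat_lit 173)) (XT.lf (nat_lit 0) (nat_lit 6681192493) (nat_lit 152) (nat_lit 13140587937) (nat_lit 228) (nat_lit 18796697448) (nat_lit 46) (nat_lit 5) (nat_lit 48) (nat_lit 5) (nat_lit 49)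 (nat_lit 5) (nat_lit 412) (nat_lit 316) (nat_lit 172)))) (XT.nd (nat_lit 156) (nat_lit 228) (nat_lit 0) (XT.nd (nat_lit 78) (nat_lit 76) (nat_lit 0) (XT.lf (nat_lit 0) (nat_lit 25472340455) (nat_lit 152) (nat_lit 3057568148) (nat_lit 228) (nat_lit 10938597853) (nat_lit 46) (nat_lit 5) (nat_lit 48) (nat_lit 5) (nat_lit 49) (nat_lit 5) (nat_lit 413) (nat_lit 316) (nat_lit 171)) (XT.lf (nat_lit 0) (nat_lit 4485411546) (nat_lit 76) (nat_lit 33119229862) (nat_lit 152) (nat_lit 2736234836) (nat_lit 45) (nat_lit 5) (nat_lit 46) (nat_lit 5) (nat_lit 47) (nat_lit 4) (nat_lit 414) (nat_lit 316) (nat_lit 170))) (XT.nd (nat_lit 78) (nat_lit 152) (nat_lit 0) (XT.lf (nat_lit 0) (nat_lit 5765559191) (nat_lit 152) (nat_lit 17528293966) (nat_lit 76) (nat_lit 17938973033) (nat_lit 44) (nat_lit 5) (nat_lit 46) (nat_lit 5) (nat_lit 45) (nat_lit 5) (nat_lit 415) (nat_lit 316) (nat_lit 169)) (XT.lf (nat_lit 0) (nat_lit 1333169263)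 (nat_lit 152) (nat_lit 13139115238) (nat_lit 228) (nat_lit 27678292277) (nat_lit 42) (nat_lit 5) (nat_lit 44) (nat_lit 5) (nat_lit 45) (nat_lit 5) (nat_lit 416) (nat_lit 316) (nat_lit 168))))))))
noncomputable def xc147 : XT := (XT.nd (nat_lit 2106) (nat_lit 76) (nat_lit 0) (XT.nd (nat_lit 1014) (nat_lit 684) (nat_lit 0) (XT.nd (nat_lit 468) (nat_lit 380) (nat_lit 0) (XT.nd (nat_lit 234) (nat_lit 228) (nat_lit 0) (XT.nd (nat_lit 78) (nat_lit 76) (nat_lit 0) (XT.lf (nat_lit 0) (nat_lit 21105484736) (nat_lit 152) (nat_lit 2503879889) (nat_lit 228) (nat_lit 19481421712) (nat_lit 42) (nat_lit 5) (nat_lit 44) (nat_lit 5) (nat_lit 45) (nat_lit 5) (nat_lit 417) (nat_lit 316) (nat_lit 167)) (XT.nd (nat_lit 78) (nat_lit 76) (nat_lit 0) (XT.lf (nat_lit 0) (nat_lit 33094107685) (nat_lit 228) (nat_lit 2683520261) (nat_lit 76) (nat_lit 8279368739) (nat_lit 42) (nat_lit 5) (nat_lit 45) (nat_lit 5) (nat_lit 43) (nat_lit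 4) (nat_lit 418) (nat_lit 316) (nat_lit 166)) (XT.lf (nat_lit 0) (nat_lit 17500371122) (nat_lit 76) (nat_lit 25548580760) (nat_lit 152) (nat_lit 1997675680) (nat_lit 41) (nat_lit 5) (nat_lit 42) (nat_lit 5) (nat_lit 43) (nat_lit 4) (nat_lit 419) (nat_lit 316) (nat_lit 165)))) (XT.nd (nat_lit 78) (nat_lit 152) (nat_lit 0) (XT.lf (nat_lit 0) (nat_lit 7115207622) (nat_lit 152) (nat_lit 7803838583) (nat_lit 76) (nat_lit 31144217534) (nat_lit 40) (nat_lit 5) (nat_lit 42) (nat_lit 5) (nat_lit 41) (nat_lit 5) (nat_lit 420) (nat_lit 316) (nat_lit 164)) (XT.nd (nat_lit 78) (nat_lit 0) (nat_lit 0) (XT.lf (nat_lit 0) (nat_lit 12746538636) (nat_lit 152) (nat_lit 3830088851) (nat_lit 228) (nat_lit 30529720007) (nat_lit 38) (nat_lit 5) (nat_lit 40) (nat_lit 5) (nat_lit 41) (nat_lit 5) (nat_lit 421) (nat_lit 316) (nat_lit 163)) (XT.lf (nat_lit 0) (nat_lit 26467248588) (nat_lit 228) (nat_lit 14192008740) (nat_lit 76) (nat_lit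 7517106551) (nat_lit 38) (nat_lit 5) (nat_lit 41) (nat_lit 5) (nat_lit 39) (nat_lit 4) (nat_lit 422) (nat_lit 316) (nat_lit 162))))) (XT.nd (nat_lit 234) (nat_lit 228) (nat_lit 0) (XT.nd (nat_lit 78) (nat_lit 76) (nat_lit 0) (XT.lf (nat_lit 0) (nat_lit 6659958080) (nat_lit 76) (nat_lit 30089581638) (nat_lit 152) (nat_lit 12526093345) (nat_lit 37) (nat_lit 5) (nat_lit 38) (nat_lit 5) (nat_lit 39) (nat_lit 4) (nat_lit 423) (nat_lit 316) (nat_lit 161)) (XT.nd (nat_lit 78) (nat_lit 76) (nat_lit 0) (XT.lf (nat_lit 0) (nat_lit 28415627294) (nat_lit 76) (nat_lit 19061074635) (nat_lit 152) (nat_lit 2927087150) (nat_lit 37) (nat_lit 5) (nat_lit 38) (nat_lit 5) (nat_lit 39) (nat_lit 4) (nat_lit 424) (nat_lit 316) (nat_lit 160)) (XT.lf (nat_lit 0) (nat_lit 6817301642) (nat_lit 152) (nat_lit 821268197) (nat_lit 76) (nat_lit 43925416887) (nat_lit 36) (nat_lit 5) (nat_lit 38) (nat_lit 5) (nat_lit 37) (nat_lit 5) (nat_lit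 425) (nat_lit 316) (nat_lit 159)))) (XT.nd (nat_lit 156) (nat_lit 76) (nat_lit 0) (XT.nd (nat_lit 78) (nat_lit 0) (nat_lit 0) (XT.lf (nat_lit 0) (nat_lit 17035834942) (nat_lit 228) (nat_lit 31437882724) (nat_lit 76) (nat_lit 4277184627) (nat_lit 34) (nat_lit 5) (nat_lit 37) (nat_lit 5) (nat_lit 35) (nat_lit 4) (nat_lit 426) (nat_lit 316) (nat_lit 158)) (XT.lf (nat_lit 0) (nat_lit 27638373485) (nat_lit 228) (nat_lit 9932916878) (nat_lit 76) (nat_lit 16399812222) (nat_lit 34) (nat_lit 5) (nat_lit 37) (nat_lit 5) (nat_lit 35) (nat_lit 4) (nat_lit 427) (nat_lit 316) (nat_lit 157))) (XT.nd (nat_lit 78) (nat_lit 0) (nat_lit 0) (XT.lf (nat_lit 0) (nat_lit 12448263751) (nat_lit 76) (nat_lit 26224020223) (nat_lit 152) (nat_lit 16552226750) (nat_lit 33) (nat_lit 5) (nat_lit 34) (nat_lit 5) (nat_lit 35) (nat_lit 4) (nat_lit 428) (nat_lit 316) (nat_lit 156)) (XT.lf (nat_lit 0) (nat_lit 35692766328) (nat_lit 76) (nat_lit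 14438456534) (nat_lit 152) (nat_lit 6381478605) (nat_lit 33) (nat_lit 5) (nat_lit 34) (nat_lit 5) (nat_lit 35) (nat_lit 4) (nat_lit 429) (nat_lit 316) (nat_lit 155)))))) (XT.nd (nat_lit 546) (nat_lit 228) (nat_lit 0) (XT.nd (nat_lit 234) (nat_lit 228) (nat_lit 0) (XT.nd (nat_lit 78) (nat_lit 0) (nat_lit 0) (XT.lf (nat_lit 0) (nat_lit 1778910841) (nat_lit 152) (nat_lit 2246515002) (nat_lit 228) (nat_lit 53812604101) (nat_lit 30) (nat_lit 5) (nat_lit 32) (nat_lit 5) (nat_lit 33) (nat_lit 5) (nat_lit 430) (nat_lit 316) (nat_lit 154)) (XT.nd (nat_lit 78) (nat_lit 0) (nat_lit 0) (XT.lf (nat_lit 0) (nat_lit 14921564986) (nat_lit 228) (nat_lit 33890212776) (nat_lit 76) (nat_lit 10380286989) (nat_lit 30) (nat_lit 5) (nat_lit 33) (nat_lit 5) (nat_lit 31) (nat_lit 4) (nat_lit 431) (nat_lit 316) (nat_lit 153)) (XT.lf (nat_lit 0) (nat_lit 26160859602) (nat_lit 228) (nat_lit 11089676363) (nat_lit 76) (nat_lit 23335697113)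 (nat_lit 30) (nat_lit 5) (nat_lit 33) (nat_lit 5) (nat_lit 31) (nat_lit 4) (nat_lit 432) (nat_lit 316) (nat_lit 152)))) (XT.nd (nat_lit 156) (nat_lit 152) (nat_lit 0) (XT.nd (nat_lit 78) (nat_lit 0) (nat_lit 0) (XT.lf (nat_lit 0) (nat_lit 12630473845) (nat_lit 76) (nat_lit 25222473552) (nat_lit 152) (nat_lit 24165811224) (nat_lit 29) (nat_lit 5) (nat_lit 30) (nat_lit 5) (nat_lit 31) (nat_lit 4) (nat_lit 433) (nat_lit 316) (nat_lit 151)) (XT.lf (nat_lit 0) (nat_lit 37278794274) (nat_lit 76) (nat_lit 12723255452) (nat_lit 152) (nat_lit 13489023228) (nat_lit 29) (nat_lit 5) (nat_lit 30) (nat_lit 5) (nat_lit 31) (nat_lit 4) (nat_lit 434) (nat_lit 316) (nat_lit 150))) (XT.nd (nat_lit 78) (nat_lit 152) (nat_lit 0) (XT.lf (nat_lit 0) (nat_lit 62511463969) (nat_lit 152) (nat_lit 2353012227) (nat_lit 0) (nat_lit 143205916) (nat_lit 29) (nat_lit 5) (nat_lit 31) (nat_lit 4) (nat_lit 29) (nat_lit 4) (nat_lit 435) (nat_lit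 316) (nat_lit 149)) (XT.lf (nat_lit 0) (nat_lit 8994525054) (nat_lit 152) (nat_lit 44122511153) (nat_lit 76) (nat_lit 13439996888) (nat_lit 27) (nat_lit 5) (nat_lit 29) (nat_lit 5) (nat_lit 28) (nat_lit 4) (nat_lit 436) (nat_lit 316) (nat_lit 148))))) (XT.nd (nat_lit 234) (nat_lit 152) (nat_lit 0) (XT.nd (nat_lit 78) (nat_lit 76) (nat_lit 0) (XT.lf (nat_lit 0) (nat_lit 20798373651) (nat_lit 152) (nat_lit 20173454774) (nat_lit 76) (nat_lit 27179738608) (nat_lit 27) (nat_lit 5) (nat_lit 29) (nat_lit 5) (nat_lit 28) (nat_lit 4) (nat_lit 437) (nat_lit 316) (nat_lit 147)) (XT.nd (nat_lit 78) (nat_lit 0) (nat_lit 0) (XT.lf (nat_lit 0) (nat_lit 4573345560) (nat_lit 76) (nat_lit 28421670980) (nat_lit 152) (nat_lit 36797760582) (nat_lit 26) (nat_lit 5) (nat_lit 27) (nat_lit 5) (nat_lit 28) (nat_lit 4) (nat_lit 438) (nat_lit 316) (nat_lit 146)) (XT.lf (nat_lit 0) (nat_lit 30466213516) (nat_lit 76) (nat_lit 15289833550)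 (nat_lit 152) (nat_lit 25721222284) (nat_lit 26) (nat_lit 5) (nat_lit 27) (nat_lit 5) (nat_lit 28) (nat_lit 4) (nat_lit 439) (nat_lit 316) (nat_lit 145)))) (XT.nd (nat_lit 156) (nat_lit 76) (nat_lit 0) (XT.nd (nat_lit 78) (nat_lit 76) (nat_lit 0) (XT.lf (nat_lit 0) (nat_lit 57126282623) (nat_lit 76) (nat_lit 1768554051) (nat_lit 152) (nat_lit 14317612297) (nat_lit 26) (nat_lit 5) (nat_lit 27) (nat_lit 5) (nat_lit 28) (nat_lit 4) (nat_lit 440) (nat_lit 316) (nat_lit 144)) (XT.lf (nat_lit 0) (nat_lit 9648460633) (nat_lit 76) (nat_lit 62983983645) (nat_lit 76) (nat_lit 2361100529) (nat_lit 25) (nat_lit 4) (nat_lit 26) (nat_lit 5) (nat_lit 26) (nat_lit 4) (nat_lit 441) (nat_lit 316) (nat_lit 143))) (XT.nd (nat_lit 78) (nat_lit 0) (nat_lit 0) (XT.lf (nat_lit 0) (nat_lit 9936463370) (nat_lit 152) (nat_lit 40462545651) (nat_lit 76) (nat_lit 26420896463) (nat_lit 24) (nat_lit 5) (nat_lit 26) (nat_lit 5) (nat_lit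 25) (nat_lit 4) (nat_lit 442) (nat_lit 316) (nat_lit 142)) (XT.lf (nat_lit 0) (nat_lit 22550682650) (nat_lit 152) (nat_lit 14866052530) (nat_lit 76) (nat_lit 41283765376) (nat_lit 24) (nat_lit 5) (nat_lit 26) (nat_lit 5) (nat_lit 25) (nat_lit 4) (nat_lit 443) (nat_lit 316) (nat_lit 141))))))) (XT.nd (nat_lit 37908) (nat_lit 0) (nat_lit 14364) (XT.nd (nat_lit 37362) (nat_lit 0) (nat_lit 19912) (XT.nd (nat_lit 37128) (nat_lit 0) (nat_lit 20748) (XT.nd (nat_lit 36972) (nat_lit 0) (nat_lit 21660) (XT.lf (nat_lit 0) (nat_lit 11718120129) (nat_lit 76) (nat_lit 23933174628) (nat_lit 152) (nat_lit 44982980140) (nat_lit 23) (nat_lit 5) (nat_lit 24) (nat_lit 5) (nat_lit 25) (nat_lit 4) (nat_lit 444) (nat_lit 316) (nat_lit 140)) (XT.nd (nat_lit 78) (nat_lit 0) (nat_lit 0) (XT.lf (nat_lit 0) (nat_lit 1478645899) (nat_lit 0) (nat_lit 1478645899) (nat_lit 836) (nat_lit 881762838) (nat_lit 308) (nat_lit 5) (nat_lit 308)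 (nat_lit 3) (nat_lit 319) (nat_lit 3) (nat_lit 317) (nat_lit 317) (nat_lit 266)) (XT.lf (nat_lit 0) (nat_lit 6735194489) (nat_lit 0) (nat_lit 587620464) (nat_lit 836) (nat_lit 430028851) (nat_lit 308) (nat_lit 5) (nat_lit 308) (nat_lit 3) (nat_lit 319) (nat_lit 3) (nat_lit 318) (nat_lit 317) (nat_lit 265)))) (XT.nd (nat_lit 78) (nat_lit 0) (nat_lit 0) (XT.lf (nat_lit 0) (nat_lit 918502696) (nat_lit 912) (nat_lit 5033071369) (nat_lit 988) (nat_lit 1878203288) (nat_lit 296) (nat_lit 5) (nat_lit 308) (nat_lit 5) (nat_lit 309) (nat_lit 5) (nat_lit 319) (nat_lit 317) (nat_lit 264)) (XT.nd (nat_lit 78) (nat_lit 0) (nat_lit 0) (XT.lf (nat_lit 0) (nat_lit 2264497049) (nat_lit 912) (nat_lit 1200876410) (nat_lit 988) (nat_lit 4444579551) (nat_lit 296) (nat_lit 5) (nat_lit 308) (nat_lit 5) (nat_lit 309) (nat_lit 5) (nat_lit 320) (nat_lit 317) (nat_lit 263)) (XT.lf (nat_lit 76) (nat_lit 2772877632) (nat_lit 0) (nat_lit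 855574392) (nat_lit 988) (nat_lit 4364784910) (nat_lit 297) (nat_lit 5) (nat_lit 296) (nat_lit 5) (nat_lit 309) (nat_lit 5) (nat_lit 321) (nat_lit 317) (nat_lit 262))))) (XT.nd (nat_lit 234) (nat_lit 912) (nat_lit 0) (XT.nd (nat_lit 78) (nat_lit 0) (nat_lit 0) (XT.lf (nat_lit 0) (nat_lit 5015479727) (nat_lit 912) (nat_lit 1234841012) (nat_lit 988) (nat_lit 1829263547) (nat_lit 297) (nat_lit 5) (nat_lit 309) (nat_lit 5) (nat_lit 310) (nat_lit 5) (nat_lit 322) (nat_lit 317) (nat_lit 261)) (XT.nd (nat_lit 78) (nat_lit 0) (nat_lit 0) (XT.lf (nat_lit 76) (nat_lit 2890098943) (nat_lit 0) (nat_lit 3543953524) (nat_lit 988) (nat_lit 1734800240) (nat_lit 298) (nat_lit 5) (nat_lit 297) (nat_lit 5) (nat_lit 310) (nat_lit 5) (nat_lit 323) (nat_lit 317) (nat_lit 260)) (XT.lf (nat_lit 76) (nat_lit 7136306225) (nat_lit 0) (nat_lit 726109314) (nat_lit 988) (nat_lit 399394485) (nat_lit 298) (nat_lit 5) (nat_lit 297) (nat_lit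 5) (nat_lit 310) (nat_lit 5) (nat_lit 324) (nat_lit 317) (nat_lit 259)))) (XT.nd (nat_lit 156) (nat_lit 0) (nat_lit 0) (XT.nd (nat_lit 78) (nat_lit 0) (nat_lit 0) (XT.lf (nat_lit 0) (nat_lit 964659896) (nat_lit 988) (nat_lit 5202126287) (nat_lit 1064) (nat_lit 2190285645) (nat_lit 285) (nat_lit 5) (nat_lit 298) (nat_lit 5) (nat_lit 299) (nat_lit 5) (nat_lit 325) (nat_lit 317) (nat_lit 258)) (XT.lf (nat_lit 0) (nat_lit 2337073838) (nat_lit 988) (nat_lit 908324258) (nat_lit 1064) (nat_lit 5210436273) (nat_lit 285) (nat_lit 5) (nat_lit 298) (nat_lit 5) (nat_lit 299) (nat_lit 5) (nat_lit 326) (nat_lit 317) (nat_lit 257))) (XT.nd (nat_lit 78) (nat_lit 0) (nat_lit 76) (XT.lf (nat_lit 76) (nat_lit 3555420711) (nat_lit 0) (nat_lit 187472921) (nat_lit 1064) (nat_lit 4814923886) (nat_lit 286) (nat_lit 5) (nat_lit 285) (nat_lit 5) (nat_lit 299) (nat_lit 5) (nat_lit 327) (nat_lit 317) (nat_lit 256)) (XT.lf (nat_lit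 0) (nat_lit 5187759955) (nat_lit 988) (nat_lit 548804493) (nat_lit 1064) (nat_lit 2926413569) (nat_lit 286) (nat_lit 5) (nat_lit 299) (nat_lit 5) (nat_lit 300) (nat_lit 5) (nat_lit 328) (nat_lit 317) (nat_lit 255)))))) (XT.nd (nat_lit 546) (nat_lit 3648) (nat_lit 0) (XT.nd (nat_lit 234) (nat_lit 988) (nat_lit 0) (XT.nd (nat_lit 78) (nat_lit 988) (nat_lit 0) (XT.lf (nat_lit 76) (nat_lit 4087810150) (nat_lit 0) (nat_lit 2589637520) (nat_lit 1064) (nat_lit 2093824712) (nat_lit 287) (nat_lit 5) (nat_lit 286) (nat_lit 5) (nat_lit 300) (nat_lit 5) (nat_lit 329) (nat_lit 317) (nat_lit 254)) (XT.nd (nat_lit 78) (nat_lit 1064) (nat_lit 0) (XT.lf (nat_lit 0) (nat_lit 8184997933) (nat_lit 988) (nat_lit 43701308) (nat_lit 1064) (nat_lit 654943816) (nat_lit 287) (nat_lit 5) (nat_lit 300) (nat_lit 5) (nat_lit 301) (nat_lit 5) (nat_lit 330) (nat_lit 317) (nat_lit 253)) (XT.lf (nat_lit 0) (nat_lit 758265343) (nat_lit 1064)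 (nat_lit 4231695249) (nat_lit 1140) (nat_lit 4008204137) (nat_lit 273) (nat_lit 5) (nat_lit 287) (nat_lit 5) (nat_lit 288) (nat_lit 5) (nat_lit 331) (nat_lit 317) (nat_lit 252)))) (XT.nd (nat_lit 156) (nat_lit 988) (nat_lit 0) (XT.nd (nat_lit 78) (nat_lit 0) (nat_lit 76) (XT.lf (nat_lit 76) (nat_lit 581023489) (nat_lit 0) (nat_lit 1632722630) (nat_lit 1140) (nat_lit 6903121975) (nat_lit 274) (nat_lit 5) (nat_lit 273) (nat_lit 5) (nat_lit 288) (nat_lit 5) (nat_lit 332) (nat_lit 317) (nat_lit 251)) (XT.lf (nat_lit 0) (nat_lit 3737341763) (nat_lit 1064) (nat_lit 3660970832) (nat_lit 76) (nat_lit 1840106564) (nat_lit 274) (nat_lit 5) (nat_lit 288) (nat_lit 5) (nat_lit 275) (nat_lit 5) (nat_lit 333) (nat_lit 317) (nat_lit 250))) (XT.nd (nat_lit 78) (nat_lit 0) (nat_lit 0) (XT.lf (nat_lit 0) (nat_lit 1341004537) (nat_lit 1064) (nat_lit 3959502961) (nat_lit 1140) (nat_lit 4063312916) (nat_lit 260) (nat_lit 5)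 (nat_lit 274) (nat_lit 5) (nat_lit 275) (nat_lit 5) (nat_lit 334) (nat_lit 317) (nat_lit 249)) (XT.lf (nat_lit 0) (nat_lit 6539224360) (nat_lit 1064) (nat_lit 373866204) (nat_lit 1140) (nat_lit 2579836428) (nat_lit 260) (nat_lit 5) (nat_lit 274) (nat_lit 5) (nat_lit 275) (nat_lit 5) (nat_lit 335) (nat_lit 317) (nat_lit 248))))) (XT.nd (nat_lit 234) (nat_lit 1216) (nat_lit 0) (XT.nd (nat_lit 78) (nat_lit 1292) (nat_lit 0) (XT.lf (nat_lit 0) (nat_lit 2250395481) (nat_lit 1140) (nat_lit 6343804488) (nat_lit 1216) (nat_lit 1031120739) (nat_lit 245) (nat_lit 5) (nat_lit 260) (nat_lit 5) (nat_lit 261) (nat_lit 5) (nat_lit 336) (nat_lit 317) (nat_lit 247)) (XT.nd (nat_lit 78) (nat_lit 1216) (nat_lit 0) (XT.lf (nat_lit 0) (nat_lit 553836739) (nat_lit 1216) (nat_lit 2128529827) (nat_lit 76) (nat_lit 7079150742) (nat_lit 244) (nat_lit 5) (nat_lit 260) (nat_lit 5) (nat_lit 245) (nat_lit 5) (nat_lit 337) (nat_lit 317)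 (nat_lit 246)) (XT.lf (nat_lit 0) (nat_lit 2176189534) (nat_lit 1292) (nat_lit 6611602101) (nat_lit 76) (nat_lit 1113401608) (nat_lit 228) (nat_lit 5) (nat_lit 245) (nat_lit 5) (nat_lit 229) (nat_lit 5) (nat_lit 338) (nat_lit 317) (nat_lit 245)))) (XT.nd (nat_lit 156) (nat_lit 608) (nat_lit 0) (XT.nd (nat_lit 78) (nat_lit 608) (nat_lit 0) (XT.lf (nat_lit 0) (nat_lit 3864094769) (nat_lit 1292) (nat_lit 1186629766) (nat_lit 76) (nat_lit 4993844817) (nat_lit 228) (nat_lit 5) (nat_lit 245) (nat_lit 5) (nat_lit 229) (nat_lit 5) (nat_lit 339) (nat_lit 317) (nat_lit 244)) (XT.lf (nat_lit 0) (nat_lit 4459636920) (nat_lit 608) (nat_lit 1155400051) (nat_lit 684) (nat_lit 4576853655) (nat_lit 220) (nat_lit 5) (nat_lit 228) (nat_lit 5) (nat_lit 229) (nat_lit 5) (nat_lit 340) (nat_lit 317) (nat_lit 243))) (XT.nd (nat_lit 78) (nat_lit 608) (nat_lit 0) (XT.lf (nat_lit 0) (nat_lit 7428233194) (nat_lit 684) (nat_lit 100361584)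 (nat_lit 76) (nat_lit 2814760402) (nat_lit 220) (nat_lit 5) (nat_lit 229) (nat_lit 5) (nat_lit 221) (nat_lit 5) (nat_lit 341) (nat_lit 317) (nat_lit 242)) (XT.lf (nat_lit 0) (nat_lit 5773430371) (nat_lit 608) (nat_lit 3560364632) (nat_lit 684) (nat_lit 1164444540) (nat_lit 212) (nat_lit 5) (nat_lit 220) (nat_lit 5) (nat_lit 221) (nat_lit 5) (nat_lit 342) (nat_lit 317) (nat_lit 241))))))))
noncomputable def xc148 : XT := (XT.nd (nat_lit 2106) (nat_lit 4028) (nat_lit 0) (XT.nd (nat_lit 1014) (nat_lit 3040) (nat_lit 0) (XT.nd (nat_lit 468) (nat_lit 2052) (nat_lit 0) (XT.nd (nat_lit 234) (nat_lit 532) (nat_lit 0) (XT.nd (nat_lit 78) (nat_lit 532) (nat_lit 0) (XT.lf (nat_lit 0) (nat_lit 614978804) (nat_lit 684) (nat_lit 9507777011) (nat_lit 76) (nat_lit 535183826) (nat_lit 203) (nat_lit 5) (nat_lit 212) (nat_lit 5) (nat_lit 204) (nat_lit 5) (nat_lit 343) (nat_lit 317) (nat_lit 240)) (XT.nd (nat_lit 78) (nat_lit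 532) (nat_lit 0) (XT.lf (nat_lit 0) (nat_lit 2479688810) (nat_lit 684) (nat_lit 3599175574) (nat_lit 76) (nat_lit 4741574934) (nat_lit 203) (nat_lit 5) (nat_lit 212) (nat_lit 5) (nat_lit 204) (nat_lit 5) (nat_lit 344) (nat_lit 317) (nat_lit 239)) (XT.lf (nat_lit 0) (nat_lit 2507298646) (nat_lit 532) (nat_lit 1889835693) (nat_lit 608) (nat_lit 6590789117) (nat_lit 196) (nat_lit 5) (nat_lit 203) (nat_lit 5) (nat_lit 204) (nat_lit 5) (nat_lit 345) (nat_lit 317) (nat_lit 238)))) (XT.nd (nat_lit 78) (nat_lit 532) (nat_lit 0) (XT.lf (nat_lit 0) (nat_lit 6405323350) (nat_lit 608) (nat_lit 2341102673) (nat_lit 76) (nat_lit 2413022399) (nat_lit 196) (nat_lit 5) (nat_lit 204) (nat_lit 5) (nat_lit 197) (nat_lit 5) (nat_lit 346) (nat_lit 317) (nat_lit 237)) (XT.nd (nat_lit 78) (nat_lit 0) (nat_lit 0) (XT.lf (nat_lit 0) (nat_lit 4014227437) (nat_lit 532) (nat_lit 4490815821) (nat_lit 608) (nat_lit 2830149855) (nat_lit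 189) (nat_lit 5) (nat_lit 196) (nat_lit 5) (nat_lit 197) (nat_lit 5) (nat_lit 347) (nat_lit 317) (nat_lit 236)) (XT.lf (nat_lit 0) (nat_lit 10580483774) (nat_lit 532) (nat_lit 85389476) (nat_lit 608) (nat_lit 850405508) (nat_lit 189) (nat_lit 5) (nat_lit 196) (nat_lit 5) (nat_lit 197) (nat_lit 5) (nat_lit 348) (nat_lit 317) (nat_lit 235))))) (XT.nd (nat_lit 234) (nat_lit 988) (nat_lit 0) (XT.nd (nat_lit 78) (nat_lit 532) (nat_lit 0) (XT.lf (nat_lit 0) (nat_lit 1238852667) (nat_lit 532) (nat_lit 6031430116) (nat_lit 76) (nat_lit 4429983316) (nat_lit 182) (nat_lit 5) (nat_lit 189) (nat_lit 5) (nat_lit 183) (nat_lit 5) (nat_lit 349) (nat_lit 317) (nat_lit 234)) (XT.nd (nat_lit 78) (nat_lit 0) (nat_lit 0) (XT.lf (nat_lit 0) (nat_lit 575285629) (nat_lit 532) (nat_lit 2789736973) (nat_lit 608) (nat_lit 8524769208) (nat_lit 175) (nat_lit 5) (nat_lit 182) (nat_lit 5) (nat_lit 183) (nat_lit 5) (nat_lit 350) (nat_lit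 317) (nat_lit 233)) (XT.lf (nat_lit 0) (nat_lit 5609856680) (nat_lit 608) (nat_lit 4625792080) (nat_lit 76) (nat_lit 1847718973) (nat_lit 175) (nat_lit 5) (nat_lit 183) (nat_lit 5) (nat_lit 176) (nat_lit 5) (nat_lit 351) (nat_lit 317) (nat_lit 232)))) (XT.nd (nat_lit 156) (nat_lit 532) (nat_lit 0) (XT.nd (nat_lit 78) (nat_lit 0) (nat_lit 0) (XT.lf (nat_lit 0) (nat_lit 2252430861) (nat_lit 456) (nat_lit 5695407158) (nat_lit 532) (nat_lit 4334149342) (nat_lit 169) (nat_lit 5) (nat_lit 175) (nat_lit 5) (nat_lit 176) (nat_lit 5) (nat_lit 352) (nat_lit 317) (nat_lit 231)) (XT.lf (nat_lit 0) (nat_lit 9404609683) (nat_lit 456) (nat_lit 975011887) (nat_lit 532) (nat_lit 2106244314) (nat_lit 169) (nat_lit 5) (nat_lit 175) (nat_lit 5) (nat_lit 176) (nat_lit 5) (nat_lit 353) (nat_lit 317) (nat_lit 230))) (XT.nd (nat_lit 78) (nat_lit 0) (nat_lit 0) (XT.lf (nat_lit 0) (nat_lit 239619354) (nat_lit 532) (nat_lit 8605699401)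 (nat_lit 76) (nat_lit 3848853262) (nat_lit 162) (nat_lit 5) (nat_lit 169) (nat_lit 5) (nat_lit 163) (nat_lit 5) (nat_lit 354) (nat_lit 317) (nat_lit 229)) (XT.lf (nat_lit 0) (nat_lit 2632353424) (nat_lit 532) (nat_lit 1429404858) (nat_lit 76) (nat_lit 8845787924) (nat_lit 162) (nat_lit 5) (nat_lit 169) (nat_lit 5) (nat_lit 163) (nat_lit 5) (nat_lit 355) (nat_lit 317) (nat_lit 228)))))) (XT.nd (nat_lit 546) (nat_lit 1368) (nat_lit 0) (XT.nd (nat_lit 234) (nat_lit 836) (nat_lit 0) (XT.nd (nat_lit 78) (nat_lit 456) (nat_lit 0) (XT.lf (nat_lit 0) (nat_lit 5142309848) (nat_lit 456) (nat_lit 7081226952) (nat_lit 76) (nat_lit 902430664) (nat_lit 157) (nat_lit 5) (nat_lit 163) (nat_lit 5) (nat_lit 158) (nat_lit 5) (nat_lit 356) (nat_lit 317) (nat_lit 227)) (XT.nd (nat_lit 78) (nat_lit 0) (nat_lit 0) (XT.lf (nat_lit 0) (nat_lit 361809190) (nat_lit 456) (nat_lit 7402755343) (nat_lit 532) (nat_lit 5585275629) (nat_lit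 151) (nat_lit 5) (nat_lit 157) (nat_lit 5) (nat_lit 158) (nat_lit 5) (nat_lit 357) (nat_lit 317) (nat_lit 226)) (XT.lf (nat_lit 0) (nat_lit 8146761354) (nat_lit 456) (nat_lit 2369325608) (nat_lit 532) (nat_lit 3062832610) (nat_lit 151) (nat_lit 5) (nat_lit 157) (nat_lit 5) (nat_lit 158) (nat_lit 5) (nat_lit 358) (nat_lit 317) (nat_lit 225)))) (XT.nd (nat_lit 156) (nat_lit 380) (nat_lit 0) (XT.nd (nat_lit 78) (nat_lit 76) (nat_lit 0) (XT.lf (nat_lit 0) (nat_lit 2342719935) (nat_lit 380) (nat_lit 11036665324) (nat_lit 456) (nat_lit 434617485) (nat_lit 146) (nat_lit 5) (nat_lit 151) (nat_lit 5) (nat_lit 152) (nat_lit 5) (nat_lit 359) (nat_lit 317) (nat_lit 224)) (XT.lf (nat_lit 0) (nat_lit 2286742617) (nat_lit 456) (nat_lit 3664617508) (nat_lit 76) (nat_lit 8102371511) (nat_lit 145) (nat_lit 5) (nat_lit 151) (nat_lit 5) (nat_lit 146) (nat_lit 5) (nat_lit 360) (nat_lit 317) (nat_lit 223))) (XT.nd (nat_lit 78)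 (nat_lit 0) (nat_lit 0) (XT.lf (nat_lit 0) (nat_lit 4432737289) (nat_lit 380) (nat_lit 671255955) (nat_lit 456) (nat_lit 9195848084) (nat_lit 140) (nat_lit 5) (nat_lit 145) (nat_lit 5) (nat_lit 146) (nat_lit 5) (nat_lit 361) (nat_lit 317) (nat_lit 222)) (XT.lf (nat_lit 0) (nat_lit 8069601642) (nat_lit 456) (nat_lit 1776263582) (nat_lit 76) (nat_lit 4705561242) (nat_lit 140) (nat_lit 5) (nat_lit 146) (nat_lit 5) (nat_lit 141) (nat_lit 5) (nat_lit 362) (nat_lit 317) (nat_lit 221))))) (XT.nd (nat_lit 234) (nat_lit 608) (nat_lit 0) (XT.nd (nat_lit 78) (nat_lit 456) (nat_lit 0) (XT.lf (nat_lit 0) (nat_lit 6655300501) (nat_lit 304) (nat_lit 4520705184) (nat_lit 380) (nat_lit 3633005797) (nat_lit 136) (nat_lit 5) (nat_lit 140) (nat_lit 5) (nat_lit 141) (nat_lit 5) (nat_lit 363) (nat_lit 317) (nat_lit 220)) (XT.nd (nat_lit 78) (nat_lit 76) (nat_lit 0) (XT.lf (nat_lit 0) (nat_lit 272838920) (nat_lit 380) (nat_lit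 14114219942) (nat_lit 456) (nat_lit 686928416) (nat_lit 131) (nat_lit 5) (nat_lit 136) (nat_lit 5) (nat_lit 137) (nat_lit 5) (nat_lit 364) (nat_lit 317) (nat_lit 219)) (XT.lf (nat_lit 0) (nat_lit 2411195483) (nat_lit 456) (nat_lit 6318854366) (nat_lit 76) (nat_lit 6612907874) (nat_lit 130) (nat_lit 5) (nat_lit 136) (nat_lit 5) (nat_lit 131) (nat_lit 5) (nat_lit 365) (nat_lit 317) (nat_lit 218)))) (XT.nd (nat_lit 156) (nat_lit 304) (nat_lit 0) (XT.nd (nat_lit 78) (nat_lit 0) (nat_lit 0) (XT.lf (nat_lit 0) (nat_lit 2433743978) (nat_lit 304) (nat_lit 3160206035) (nat_lit 380) (nat_lit 10025684774) (nat_lit 126) (nat_lit 5) (nat_lit 130) (nat_lit 5) (nat_lit 131) (nat_lit 5) (nat_lit 366) (nat_lit 317) (nat_lit 217)) (XT.lf (nat_lit 0) (nat_lit 8943712563) (nat_lit 380) (nat_lit 4374726286) (nat_lit 76) (nat_lit 2584033718) (nat_lit 126) (nat_lit 5) (nat_lit 131) (nat_lit 5) (nat_lit 127) (nat_lit 5) (nat_lit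 367) (nat_lit 317) (nat_lit 216))) (XT.nd (nat_lit 78) (nat_lit 0) (nat_lit 0) (XT.lf (nat_lit 0) (nat_lit 4737583696) (nat_lit 304) (nat_lit 7716045514) (nat_lit 380) (nat_lit 3738382419) (nat_lit 122) (nat_lit 5) (nat_lit 126) (nat_lit 5) (nat_lit 127) (nat_lit 5) (nat_lit 368) (nat_lit 317) (nat_lit 215)) (XT.lf (nat_lit 0) (nat_lit 14188831650) (nat_lit 304) (nat_lit 1907287669) (nat_lit 380) (nat_lit 393305077) (nat_lit 122) (nat_lit 5) (nat_lit 126) (nat_lit 5) (nat_lit 127) (nat_lit 5) (nat_lit 369) (nat_lit 317) (nat_lit 214))))))) (XT.nd (nat_lit 1014) (nat_lit 1596) (nat_lit 0) (XT.nd (nat_lit 468) (nat_lit 1064) (nat_lit 0) (XT.nd (nat_lit 234) (nat_lit 684) (nat_lit 0) (XT.nd (nat_lit 78) (nat_lit 304) (nat_lit 0) (XT.lf (nat_lit 0) (nat_lit 3085438025) (nat_lit 380) (nat_lit 9617809660) (nat_lit 76) (nat_lit 4088851032) (nat_lit 117) (nat_lit 5) (nat_lit 122) (nat_lit 5) (nat_lit 118) (nat_lit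 5) (nat_lit 370) (nat_lit 317) (nat_lit 213)) (XT.nd (nat_lit 78) (nat_lit 304) (nat_lit 0) (XT.lf (nat_lit 0) (nat_lit 6686595652) (nat_lit 380) (nat_lit 169522378) (nat_lit 76) (nat_lit 10246845011) (nat_lit 117) (nat_lit 5) (nat_lit 122) (nat_lit 5) (nat_lit 118) (nat_lit 5) (nat_lit 371) (nat_lit 317) (nat_lit 212)) (XT.lf (nat_lit 0) (nat_lit 9728819870) (nat_lit 304) (nat_lit 744576582) (nat_lit 380) (nat_lit 6947433755) (nat_lit 113) (nat_lit 5) (nat_lit 117) (nat_lit 5) (nat_lit 118) (nat_lit 5) (nat_lit 372) (nat_lit 317) (nat_lit 211)))) (XT.nd (nat_lit 78) (nat_lit 380) (nat_lit 0) (XT.lf (nat_lit 0) (nat_lit 2144467090) (nat_lit 304) (nat_lit 12289290636) (nat_lit 380) (nat_lit 3312681980) (nat_lit 109) (nat_lit 5) (nat_lit 113) (nat_lit 5) (nat_lit 114) (nat_lit 5) (nat_lit 373) (nat_lit 317) (nat_lit 210)) (XT.nd (nat_lit 78) (nat_lit 304) (nat_lit 0) (XT.lf (nat_lit 0) (nat_lit 492853136)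 (nat_lit 380) (nat_lit 5681556487) (nat_lit 76) (nat_lit 11905183669) (nat_lit 108) (nat_lit 5) (nat_lit 113) (nat_lit 5) (nat_lit 109) (nat_lit 5) (nat_lit 374) (nat_lit 317) (nat_lit 209)) (XT.lf (nat_lit 0) (nat_lit 4376574540) (nat_lit 380) (nat_lit 13852743977) (nat_lit 76) (nat_lit 191525535) (nat_lit 104) (nat_lit 5) (nat_lit 109) (nat_lit 5) (nat_lit 105) (nat_lit 5) (nat_lit 375) (nat_lit 317) (nat_lit 208))))) (XT.nd (nat_lit 234) (nat_lit 836) (nat_lit 0) (XT.nd (nat_lit 78) (nat_lit 228) (nat_lit 0) (XT.lf (nat_lit 0) (nat_lit 8480827703) (nat_lit 380) (nat_lit 3613573286) (nat_lit 76) (nat_lit 6674815196) (nat_lit 104) (nat_lit 5) (nat_lit 109) (nat_lit 5) (nat_lit 105) (nat_lit 5) (nat_lit 376) (nat_lit 317) (nat_lit 207)) (XT.nd (nat_lit 78) (nat_lit 0) (nat_lit 0) (XT.lf (nat_lit 0) (nat_lit 7047999537) (nat_lit 228) (nat_lit 5713343774) (nat_lit 304) (nat_lit 6365106451) (nat_lit 101) (nat_lit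 5) (nat_lit 104) (nat_lit 5) (nat_lit 105) (nat_lit 5) (nat_lit 377) (nat_lit 317) (nat_lit 206)) (XT.lf (nat_lit 0) (nat_lit 17200908974) (nat_lit 304) (nat_lit 1420879847) (nat_lit 76) (nat_lit 871696685) (nat_lit 101) (nat_lit 5) (nat_lit 105) (nat_lit 5) (nat_lit 102) (nat_lit 5) (nat_lit 378) (nat_lit 317) (nat_lit 205)))) (XT.nd (nat_lit 156) (nat_lit 228) (nat_lit 0) (XT.nd (nat_lit 78) (nat_lit 228) (nat_lit 0) (XT.lf (nat_lit 0) (nat_lit 2001784992) (nat_lit 380) (nat_lit 10220411592) (nat_lit 76) (nat_lit 7644687969) (nat_lit 96) (nat_lit 5) (nat_lit 101) (nat_lit 5) (nat_lit 97) (nat_lit 5) (nat_lit 379) (nat_lit 317) (nat_lit 204)) (XT.lf (nat_lit 0) (nat_lit 794721556) (nat_lit 228) (nat_lit 5592313931) (nat_lit 304) (nat_lit 13863528864) (nat_lit 93) (nat_lit 5) (nat_lit 96) (nat_lit 5) (nat_lit 97) (nat_lit 5) (nat_lit 380) (nat_lit 317) (nat_lit 203))) (XT.nd (nat_lit 78) (nat_lit 228) (nat_lit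 0) (XT.lf (nat_lit 0) (nat_lit 11006088193) (nat_lit 304) (nat_lit 8327739772) (nat_lit 76) (nat_lit 1308862968) (nat_lit 93) (nat_lit 5) (nat_lit 97) (nat_lit 5) (nat_lit 94) (nat_lit 5) (nat_lit 381) (nat_lit 317) (nat_lit 202)) (XT.lf (nat_lit 0) (nat_lit 3118336358) (nat_lit 228) (nat_lit 12717255946) (nat_lit 304) (nat_lit 5208836234) (nat_lit 90) (nat_lit 5) (nat_lit 93) (nat_lit 5) (nat_lit 94) (nat_lit 5) (nat_lit 382) (nat_lit 317) (nat_lit 201)))))) (XT.nd (nat_lit 546) (nat_lit 836) (nat_lit 0) (XT.nd (nat_lit 234) (nat_lit 456) (nat_lit 0) (XT.nd (nat_lit 78) (nat_lit 304) (nat_lit 0) (XT.lf (nat_lit 0) (nat_lit 15057364082) (nat_lit 228) (nat_lit 5823435287) (nat_lit 304) (nat_lit 575297884) (nat_lit 90) (nat_lit 5) (nat_lit 93) (nat_lit 5) (nat_lit 94) (nat_lit 5) (nat_lit 383) (nat_lit 317) (nat_lit 200)) (XT.nd (nat_lit 78) (nat_lit 0) (nat_lit 0) (XT.lf (nat_lit 0) (nat_lit 4168522100)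 (nat_lit 304) (nat_lit 16369787141) (nat_lit 76) (nat_lit 1339004340) (nat_lit 86) (nat_lit 5) (nat_lit 90) (nat_lit 5) (nat_lit 87) (nat_lit 5) (nat_lit 384) (nat_lit 317) (nat_lit 199)) (XT.lf (nat_lit 0) (nat_lit 9153092566) (nat_lit 304) (nat_lit 4491977910) (nat_lit 76) (nat_lit 8662628298) (nat_lit 86) (nat_lit 5) (nat_lit 90) (nat_lit 5) (nat_lit 87) (nat_lit 5) (nat_lit 385) (nat_lit 317) (nat_lit 198)))) (XT.nd (nat_lit 156) (nat_lit 228) (nat_lit 0) (XT.nd (nat_lit 78) (nat_lit 0) (nat_lit 0) (XT.lf (nat_lit 0) (nat_lit 7875556751) (nat_lit 228) (nat_lit 6474810798) (nat_lit 304) (nat_lit 8398736074) (nat_lit 83) (nat_lit 5) (nat_lit 86) (nat_lit 5) (nat_lit 87) (nat_lit 5) (nat_lit 386) (nat_lit 317) (nat_lit 197)) (XT.lf (nat_lit 0) (nat_lit 19745683407) (nat_lit 304) (nat_lit 2525783296) (nat_lit 76) (nat_lit 931023269) (nat_lit 83) (nat_lit 5) (nat_lit 87) (nat_lit 5) (nat_lit 84) (nat_lit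 5) (nat_lit 387) (nat_lit 317) (nat_lit 196))) (XT.nd (nat_lit 78) (nat_lit 0) (nat_lit 0) (XT.lf (nat_lit 0) (nat_lit 1754134070) (nat_lit 228) (nat_lit 13372455198) (nat_lit 76) (nat_lit 8537841678) (nat_lit 80) (nat_lit 5) (nat_lit 83) (nat_lit 5) (nat_lit 81) (nat_lit 5) (nat_lit 388) (nat_lit 317) (nat_lit 195)) (XT.lf (nat_lit 0) (nat_lit 7065647929) (nat_lit 228) (nat_lit 647744137) (nat_lit 76) (nat_lit 16425402384) (nat_lit 80) (nat_lit 5) (nat_lit 83) (nat_lit 5) (nat_lit 81) (nat_lit 5) (nat_lit 389) (nat_lit 317) (nat_lit 194))))) (XT.nd (nat_lit 234) (nat_lit 456) (nat_lit 0) (XT.nd (nat_lit 78) (nat_lit 152) (nat_lit 0) (XT.lf (nat_lit 0) (nat_lit 12647165182) (nat_lit 304) (nat_lit 11937459085) (nat_lit 76) (nat_lit 39447546) (nat_lit 77) (nat_lit 5) (nat_lit 81) (nat_lit 5) (nat_lit 78) (nat_lit 5) (nat_lit 390) (nat_lit 317) (nat_lit 193)) (XT.nd (nat_lit 78) (nat_lit 0) (nat_lit 0) (XT.lf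 (nat_lit 0) (nat_lit 1238955218) (nat_lit 152) (nat_lit 17240458530) (nat_lit 228) (nat_lit 6641997793) (nat_lit 75) (nat_lit 5) (nat_lit 77) (nat_lit 5) (nat_lit 78) (nat_lit 5) (nat_lit 391) (nat_lit 317) (nat_lit 192)) (XT.lf (nat_lit 0) (nat_lit 15036204468) (nat_lit 152) (nat_lit 9559524151) (nat_lit 228) (nat_lit 1034672415) (nat_lit 75) (nat_lit 5) (nat_lit 77) (nat_lit 5) (nat_lit 78) (nat_lit 5) (nat_lit 392) (nat_lit 317) (nat_lit 191)))) (XT.nd (nat_lit 156) (nat_lit 152) (nat_lit 0) (XT.nd (nat_lit 78) (nat_lit 0) (nat_lit 0) (XT.lf (nat_lit 0) (nat_lit 3088576749) (nat_lit 228) (nat_lit 1578248614) (nat_lit 304) (nat_lit 21485916155) (nat_lit 71) (nat_lit 5) (nat_lit 74) (nat_lit 5) (nat_lit 75) (nat_lit 5) (nat_lit 393) (nat_lit 317) (nat_lit 190)) (XT.lf (nat_lit 0) (nat_lit 10679313246) (nat_lit 304) (nat_lit 9382602412) (nat_lit 76) (nat_lit 6623709321) (nat_lit 71) (nat_lit 5) (nat_lit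 75) (nat_lit 5) (nat_lit 72) (nat_lit 5) (nat_lit 394) (nat_lit 317) (nat_lit 189))) (XT.nd (nat_lit 78) (nat_lit 0) (nat_lit 0) (XT.lf (nat_lit 0) (nat_lit 4768472818) (nat_lit 152) (nat_lit 12154341208) (nat_lit 228) (nat_lit 10310164028) (nat_lit 69) (nat_lit 5) (nat_lit 71) (nat_lit 5) (nat_lit 72) (nat_lit 5) (nat_lit 395) (nat_lit 317) (nat_lit 188)) (XT.lf (nat_lit 0) (nat_lit 19518236583) (nat_lit 152) (nat_lit 3919444260) (nat_lit 228) (nat_lit 4356551238) (nat_lit 69) (nat_lit 5) (nat_lit 71) (nat_lit 5) (nat_lit 72) (nat_lit 5) (nat_lit 396) (nat_lit 317) (nat_lit 187))))))))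
noncomputable def xc149 : XT := (XT.nd (nat_lit 2106) (nat_lit 1064) (nat_lit 0) (XT.nd (nat_lit 1014) (nat_lit 988) (nat_lit 0) (XT.nd (nat_lit 468) (nat_lit 684) (nat_lit 0) (XT.nd (nat_lit 234) (nat_lit 228) (nat_lit 0) (XT.nd (nat_lit 78) (nat_lit 152) (nat_lit 0) (XT.lf (nat_lit 0) (nat_lit 1836905682) (nat_lit 304) (nat_lit 21986153080) (nat_lit 76) (nat_lit 4545878404) (nat_lit 65) (nat_lit 5) (nat_lit 69) (nat_lit 5) (nat_lit 66) (nat_lit 5) (nat_lit 397) (nat_lit 317) (nat_lit 186)) (XT.nd (nat_lit 78) (nat_lit 152) (nat_lit 0) (XT.lf (nat_lit 0) (nat_lit 8241395276) (nat_lit 304) (nat_lit 7408093077) (nat_lit 76) (nat_lit 13306719290) (nat_lit 65) (nat_lit 5) (nat_lit 69) (nat_lit 5) (nat_lit 66) (nat_lit 5) (nat_lit 398) (nat_lit 317) (nat_lit 185)) (XT.lf (nat_lit 0) (nat_lit 7740959148) (nat_lit 152) (nat_lit 7161360746) (nat_lit 228) (nat_lit 14656849277) (nat_lit 63) (nat_lit 5) (nat_lit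 65) (nat_lit 5) (nat_lit 66) (nat_lit 5) (nat_lit 399) (nat_lit 317) (nat_lit 184)))) (XT.nd (nat_lit 78) (nat_lit 228) (nat_lit 0) (XT.lf (nat_lit 0) (nat_lit 21843770244) (nat_lit 228) (nat_lit 6715040481) (nat_lit 76) (nat_lit 1618989770) (nat_lit 63) (nat_lit 5) (nat_lit 66) (nat_lit 5) (nat_lit 64) (nat_lit 5) (nat_lit 400) (nat_lit 317) (nat_lit 183)) (XT.nd (nat_lit 78) (nat_lit 76) (nat_lit 0) (XT.lf (nat_lit 0) (nat_lit 8927572777) (nat_lit 152) (nat_lit 20212854562) (nat_lit 228) (nat_lit 1670156358) (nat_lit 61) (nat_lit 5) (nat_lit 63) (nat_lit 5) (nat_lit 64) (nat_lit 5) (nat_lit 401) (nat_lit 317) (nat_lit 182)) (XT.lf (nat_lit 0) (nat_lit 5151034438) (nat_lit 228) (nat_lit 6350780818) (nat_lit 76) (nat_lit 19957276722) (nat_lit 60) (nat_lit 5) (nat_lit 63) (nat_lit 5) (nat_lit 61) (nat_lit 5) (nat_lit 402) (nat_lit 317) (nat_lit 181))))) (XT.nd (nat_lit 234) (nat_lit 380) (nat_lit 0) (XT.nd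 (nat_lit 78) (nat_lit 152) (nat_lit 0) (XT.lf (nat_lit 0) (nat_lit 9805734794) (nat_lit 152) (nat_lit 2422366953) (nat_lit 228) (nat_lit 19895915075) (nat_lit 58) (nat_lit 5) (nat_lit 60) (nat_lit 5) (nat_lit 61) (nat_lit 5) (nat_lit 403) (nat_lit 317) (nat_lit 180)) (XT.nd (nat_lit 78) (nat_lit 152) (nat_lit 0) (XT.lf (nat_lit 0) (nat_lit 19639458275) (nat_lit 228) (nat_lit 6313623078) (nat_lit 76) (nat_lit 6852150372) (nat_lit 58) (nat_lit 5) (nat_lit 61) (nat_lit 5) (nat_lit 59) (nat_lit 5) (nat_lit 404) (nat_lit 317) (nat_lit 179)) (XT.lf (nat_lit 0) (nat_lit 10332759983) (nat_lit 152) (nat_lit 17054579453) (nat_lit 228) (nat_lit 6116119705) (nat_lit 56) (nat_lit 5) (nat_lit 58) (nat_lit 5) (nat_lit 59) (nat_lit 5) (nat_lit 405) (nat_lit 317) (nat_lit 178)))) (XT.nd (nat_lit 156) (nat_lit 152) (nat_lit 0) (XT.nd (nat_lit 78) (nat_lit 152) (nat_lit 0) (XT.lf (nat_lit 0) (nat_lit 1177964025) (nat_lit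 228) (nat_lit 6640487388) (nat_lit 76) (nat_lit 26402194739) (nat_lit 55) (nat_lit 5) (nat_lit 58) (nat_lit 5) (nat_lit 56) (nat_lit 5) (nat_lit 406) (nat_lit 317) (nat_lit 177)) (XT.lf (nat_lit 0) (nat_lit 8678004189) (nat_lit 228) (nat_lit 24457957002) (nat_lit 76) (nat_lit 1818270508) (nat_lit 53) (nat_lit 5) (nat_lit 56) (nat_lit 5) (nat_lit 54) (nat_lit 5) (nat_lit 407) (nat_lit 317) (nat_lit 176))) (XT.nd (nat_lit 78) (nat_lit 152) (nat_lit 0) (XT.lf (nat_lit 0) (nat_lit 16539382360) (nat_lit 228) (nat_lit 7518287579) (nat_lit 76) (nat_lit 11648066174) (nat_lit 53) (nat_lit 5) (nat_lit 56) (nat_lit 5) (nat_lit 54) (nat_lit 5) (nat_lit 408) (nat_lit 317) (nat_lit 175)) (XT.lf (nat_lit 0) (nat_lit 10111680196) (nat_lit 152) (nat_lit 14613584027) (nat_lit 228) (nat_lit 11751862932) (nat_lit 51) (nat_lit 5) (nat_lit 53) (nat_lit 5) (nat_lit 54) (nat_lit 5) (nat_lit 409) (nat_lit 317) (nat_lit 174))))))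 (XT.nd (nat_lit 546) (nat_lit 456) (nat_lit 0) (XT.nd (nat_lit 234) (nat_lit 304) (nat_lit 0) (XT.nd (nat_lit 78) (nat_lit 228) (nat_lit 0) (XT.lf (nat_lit 0) (nat_lit 28409606587) (nat_lit 152) (nat_lit 4814602523) (nat_lit 228) (nat_lit 4045427547) (nat_lit 51) (nat_lit 5) (nat_lit 53) (nat_lit 5) (nat_lit 54) (nat_lit 5) (nat_lit 410) (nat_lit 317) (nat_lit 173)) (XT.nd (nat_lit 78) (nat_lit 0) (nat_lit 0) (XT.lf (nat_lit 0) (nat_lit 3949307164) (nat_lit 228) (nat_lit 28834475184) (nat_lit 76) (nat_lit 5297026205) (nat_lit 48) (nat_lit 5) (nat_lit 51) (nat_lit 5) (nat_lit 49) (nat_lit 5) (nat_lit 411) (nat_lit 317) (nat_lit 172)) (XT.lf (nat_lit 0) (nat_lit 12232366781) (nat_lit 228) (nat_lit 10939555160) (nat_lit 76) (nat_lit 15739299507) (nat_lit 48) (nat_lit 5) (nat_lit 51) (nat_lit 5) (nat_lit 49) (nat_lit 5) (nat_lit 412) (nat_lit 317) (nat_lit 171)))) (XT.nd (nat_lit 156) (nat_lit 152) (nat_lit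 0) (XT.nd (nat_lit 78) (nat_lit 0) (nat_lit 0) (XT.lf (nat_lit 0) (nat_lit 7626643154) (nat_lit 152) (nat_lit 13202594619) (nat_lit 228) (nat_lit 18935350547) (nat_lit 46) (nat_lit 5) (nat_lit 48) (nat_lit 5) (nat_lit 49) (nat_lit 5) (nat_lit 413) (nat_lit 317) (nat_lit 170)) (XT.lf (nat_lit 0) (nat_lit 26959826092) (nat_lit 152) (nat_lit 2826760283) (nat_lit 228) (nat_lit 10853893823) (nat_lit 46) (nat_lit 5) (nat_lit 48) (nat_lit 5) (nat_lit 49) (nat_lit 5) (nat_lit 414) (nat_lit 317) (nat_lit 169))) (XT.nd (nat_lit 78) (nat_lit 76) (nat_lit 0) (XT.lf (nat_lit 0) (nat_lit 5345090987) (nat_lit 76) (nat_lit 33786777328) (nat_lit 152) (nat_lit 2407205241) (nat_lit 45) (nat_lit 5) (nat_lit 46) (nat_lit 5) (nat_lit 47) (nat_lit 4) (nat_lit 415) (nat_lit 317) (nat_lit 168)) (XT.lf (nat_lit 0) (nat_lit 6329879631) (nat_lit 152) (nat_lit 17342303790) (nat_lit 76) (nat_lit 18785833834) (nat_lit 44) (nat_lit 5)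 (nat_lit 46) (nat_lit 5) (nat_lit 45) (nat_lit 5) (nat_lit 416) (nat_lit 317) (nat_lit 167))))) (XT.nd (nat_lit 234) (nat_lit 304) (nat_lit 0) (XT.nd (nat_lit 78) (nat_lit 0) (nat_lit 0) (XT.lf (nat_lit 0) (nat_lit 2078024522) (nat_lit 152) (nat_lit 13215159074) (nat_lit 228) (nat_lit 28110257004) (nat_lit 42) (nat_lit 5) (nat_lit 44) (nat_lit 5) (nat_lit 45) (nat_lit 5) (nat_lit 417) (nat_lit 317) (nat_lit 166)) (XT.nd (nat_lit 78) (nat_lit 0) (nat_lit 0) (XT.lf (nat_lit 0) (nat_lit 22422979552) (nat_lit 152) (nat_lit 2270132577) (nat_lit 228) (nat_lit 19679083741) (nat_lit 42) (nat_lit 5) (nat_lit 44) (nat_lit 5) (nat_lit 45) (nat_lit 5) (nat_lit 418) (nat_lit 317) (nat_lit 165)) (XT.lf (nat_lit 0) (nat_lit 34454344071) (nat_lit 228) (nat_lit 2091525533) (nat_lit 76) (nat_lit 8821765982) (nat_lit 42) (nat_lit 5) (nat_lit 45) (nat_lit 5) (nat_lit 43) (nat_lit 4) (nat_lit 419) (nat_lit 317) (nat_lit 164))))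 (XT.nd (nat_lit 156) (nat_lit 152) (nat_lit 0) (XT.nd (nat_lit 78) (nat_lit 76) (nat_lit 0) (XT.lf (nat_lit 0) (nat_lit 18691289451) (nat_lit 76) (nat_lit 26012243898) (nat_lit 152) (nat_lit 1683552466) (nat_lit 41) (nat_lit 5) (nat_lit 42) (nat_lit 5) (nat_lit 43) (nat_lit 4) (nat_lit 420) (nat_lit 317) (nat_lit 163)) (XT.lf (nat_lit 0) (nat_lit 7684736039) (nat_lit 152) (nat_lit 7384310887) (nat_lit 76) (nat_lit 32365388080) (nat_lit 40) (nat_lit 5) (nat_lit 42) (nat_lit 5) (nat_lit 41) (nat_lit 5) (nat_lit 421) (nat_lit 317) (nat_lit 162))) (XT.nd (nat_lit 78) (nat_lit 0) (nat_lit 0) (XT.lf (nat_lit 0) (nat_lit 13776169385) (nat_lit 152) (nat_lit 3649679695) (nat_lit 228) (nat_lit 31083087972) (nat_lit 38) (nat_lit 5) (nat_lit 40) (nat_lit 5) (nat_lit 41) (nat_lit 5) (nat_lit 422) (nat_lit 317) (nat_lit 161)) (XT.lf (nat_lit 0) (nat_lit 27605694673) (nat_lit 228) (nat_lit 13981849838) (nat_lit 76) (nat_lit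 8023735499) (nat_lit 38) (nat_lit 5) (nat_lit 41) (nat_lit 5) (nat_lit 39) (nat_lit 4) (nat_lit 423) (nat_lit 317) (nat_lit 160))))))) (XT.nd (nat_lit 1014) (nat_lit 380) (nat_lit 0) (XT.nd (nat_lit 468) (nat_lit 304) (nat_lit 0) (XT.nd (nat_lit 234) (nat_lit 228) (nat_lit 0) (XT.nd (nat_lit 78) (nat_lit 76) (nat_lit 0) (XT.lf (nat_lit 0) (nat_lit 7489441485) (nat_lit 76) (nat_lit 30703034065) (nat_lit 152) (nat_lit 12551172311) (nat_lit 37) (nat_lit 5) (nat_lit 38) (nat_lit 5) (nat_lit 39) (nat_lit 4) (nat_lit 424) (nat_lit 317) (nat_lit 159)) (XT.nd (nat_lit 78) (nat_lit 76) (nat_lit 0) (XT.lf (nat_lit 0) (nat_lit 29879440446) (nat_lit 76) (nat_lit 19352096172) (nat_lit 152) (nat_lit 2674410605) (nat_lit 37) (nat_lit 5) (nat_lit 38) (nat_lit 5) (nat_lit 39) (nat_lit 4) (nat_lit 425) (nat_lit 317) (nat_lit 158)) (XT.lf (nat_lit 0) (nat_lit 7345942040) (nat_lit 152) (nat_lit 245880154) (nat_lit 76) (nat_lit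 45509323242) (nat_lit 36) (nat_lit 5) (nat_lit 38) (nat_lit 5) (nat_lit 37) (nat_lit 5) (nat_lit 426) (nat_lit 317) (nat_lit 157)))) (XT.nd (nat_lit 78) (nat_lit 76) (nat_lit 0) (XT.lf (nat_lit 0) (nat_lit 17869933647) (nat_lit 228) (nat_lit 31779859259) (nat_lit 76) (nat_lit 4673909580) (nat_lit 34) (nat_lit 5) (nat_lit 37) (nat_lit 5) (nat_lit 35) (nat_lit 4) (nat_lit 427) (nat_lit 317) (nat_lit 156)) (XT.nd (nat_lit 78) (nat_lit 76) (nat_lit 0) (XT.lf (nat_lit 0) (nat_lit 28781139890) (nat_lit 228) (nat_lit 9647253951) (nat_lit 76) (nat_lit 17152398253) (nat_lit 34) (nat_lit 5) (nat_lit 37) (nat_lit 5) (nat_lit 35) (nat_lit 4) (nat_lit 428) (nat_lit 317) (nat_lit 155)) (XT.lf (nat_lit 0) (nat_lit 13399640034) (nat_lit 76) (nat_lit 26742848638) (nat_lit 152) (nat_lit 16729422199) (nat_lit 33) (nat_lit 5) (nat_lit 34) (nat_lit 5) (nat_lit 35) (nat_lit 4) (nat_lit 429) (nat_lit 317) (nat_lit 154))))) (XT.nd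 (nat_lit 234) (nat_lit 76) (nat_lit 0) (XT.nd (nat_lit 78) (nat_lit 228) (nat_lit 0) (XT.lf (nat_lit 0) (nat_lit 37324644823) (nat_lit 76) (nat_lit 14611520723) (nat_lit 152) (nat_lit 6262853688) (nat_lit 33) (nat_lit 5) (nat_lit 34) (nat_lit 5) (nat_lit 35) (nat_lit 4) (nat_lit 430) (nat_lit 317) (nat_lit 153)) (XT.nd (nat_lit 78) (nat_lit 0) (nat_lit 0) (XT.lf (nat_lit 0) (nat_lit 2393895802) (nat_lit 152) (nat_lit 2052855222) (nat_lit 228) (nat_lit 55117371749) (nat_lit 30) (nat_lit 5) (nat_lit 32) (nat_lit 5) (nat_lit 33) (nat_lit 5) (nat_lit 431) (nat_lit 317) (nat_lit 152)) (XT.lf (nat_lit 0) (nat_lit 15663456429) (nat_lit 228) (nat_lit 34355311118) (nat_lit 76) (nat_lit 10940201524) (nat_lit 30) (nat_lit 5) (nat_lit 33) (nat_lit 5) (nat_lit 31) (nat_lit 4) (nat_lit 432) (nat_lit 317) (nat_lit 151)))) (XT.nd (nat_lit 156) (nat_lit 0) (nat_lit 0) (XT.nd (nat_lit 78) (nat_lit 76) (nat_lit 0) (XT.lf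 (nat_lit 0) (nat_lit 27231359655) (nat_lit 228) (nat_lit 10886824867) (nat_lit 76) (nat_lit 24277035915) (nat_lit 30) (nat_lit 5) (nat_lit 33) (nat_lit 5) (nat_lit 31) (nat_lit 4) (nat_lit 433) (nat_lit 317) (nat_lit 150)) (XT.lf (nat_lit 0) (nat_lit 13539679439) (nat_lit 76) (nat_lit 25731307522) (nat_lit 152) (nat_lit 24599832336) (nat_lit 29) (nat_lit 5) (nat_lit 30) (nat_lit 5) (nat_lit 31) (nat_lit 4) (nat_lit 434) (nat_lit 317) (nat_lit 149))) (XT.nd (nat_lit 78) (nat_lit 0) (nat_lit 0) (XT.lf (nat_lit 0) (nat_lit 38912004100) (nat_lit 76) (nat_lit 12864331526) (nat_lit 152) (nat_lit 13611215066) (nat_lit 29) (nat_lit 5) (nat_lit 30) (nat_lit 5) (nat_lit 31) (nat_lit 4) (nat_lit 435) (nat_lit 317) (nat_lit 148)) (XT.lf (nat_lit 0) (nat_lit 64655290811) (nat_lit 152) (nat_lit 1917983714) (nat_lit 0) (nat_lit 376556653) (nat_lit 29) (nat_lit 5) (nat_lit 31) (nat_lit 4) (nat_lit 29) (nat_lit 4) (nat_lit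 436) (nat_lit 317) (nat_lit 147)))))) (XT.nd (nat_lit 37596) (nat_lit 0) (nat_lit 19760) (XT.nd (nat_lit 234) (nat_lit 152) (nat_lit 0) (XT.nd (nat_lit 78) (nat_lit 76) (nat_lit 0) (XT.lf (nat_lit 0) (nat_lit 9532490595) (nat_lit 152) (nat_lit 44940162981) (nat_lit 76) (nat_lit 14073021253) (nat_lit 27) (nat_lit 5) (nat_lit 29) (nat_lit 5) (nat_lit 28) (nat_lit 4) (nat_lit 437) (nat_lit 317) (nat_lit 146)) (XT.nd (nat_lit 78) (nat_lit 76) (nat_lit 0) (XT.lf (nat_lit 0) (nat_lit 21682645044) (nat_lit 152) (nat_lit 20287373459) (nat_lit 76) (nat_lit 28218261308) (nat_lit 27) (nat_lit 5) (nat_lit 29) (nat_lit 5) (nat_lit 28) (nat_lit 4) (nat_lit 438) (nat_lit 317) (nat_lit 145)) (XT.lf (nat_lit 0) (nat_lit 5197014365) (nat_lit 76) (nat_lit 29045266945) (nat_lit 152) (nat_lit 37636532787) (nat_lit 26) (nat_lit 5) (nat_lit 27) (nat_lit 5) (nat_lit 28) (nat_lit 4) (nat_lit 439) (nat_lit 317) (nat_lit 144))))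 (XT.nd (nat_lit 156) (nat_lit 152) (nat_lit 0) (XT.nd (nat_lit 78) (nat_lit 0) (nat_lit 0) (XT.lf (nat_lit 0) (nat_lit 31852499376) (nat_lit 76) (nat_lit 15526145873) (nat_lit 152) (nat_lit 26235421465) (nat_lit 26) (nat_lit 5) (nat_lit 27) (nat_lit 5) (nat_lit 28) (nat_lit 4) (nat_lit 440) (nat_lit 317) (nat_lit 143)) (XT.lf (nat_lit 0) (nat_lit 59298614262) (nat_lit 76) (nat_lit 1605705154) (nat_lit 152) (nat_lit 14497201357) (nat_lit 26) (nat_lit 5) (nat_lit 27) (nat_lit 5) (nat_lit 28) (nat_lit 4) (nat_lit 441) (nat_lit 317) (nat_lit 142))) (XT.nd (nat_lit 78) (nat_lit 76) (nat_lit 0) (XT.lf (nat_lit 0) (nat_lit 10397137104) (nat_lit 76) (nat_lit 64656280324) (nat_lit 76) (nat_lit 2182651847) (nat_lit 25) (nat_lit 4) (nat_lit 26) (nat_lit 5) (nat_lit 26) (nat_lit 4) (nat_lit 442) (nat_lit 317) (nat_lit 141)) (XT.lf (nat_lit 0) (nat_lit 10471855634) (nat_lit 152) (nat_lit 41225831458) (nat_lit 76) (nat_lit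 27419675981) (nat_lit 24) (nat_lit 5) (nat_lit 26) (nat_lit 5) (nat_lit 25) (nat_lit 4) (nat_lit 443) (nat_lit 317) (nat_lit 140))))) (XT.nd (nat_lit 234) (nat_lit 836) (nat_lit 0) (XT.nd (nat_lit 78) (nat_lit 0) (nat_lit 0) (XT.lf (nat_lit 0) (nat_lit 430101456) (nat_lit 988) (nat_lit 1741974958) (nat_lit 988) (nat_lit 1741974958) (nat_lit 295) (nat_lit 3) (nat_lit 308) (nat_lit 3) (nat_lit 308) (nat_lit 5) (nat_lit 318) (nat_lit 318) (nat_lit 264)) (XT.nd (nat_lit 78) (nat_lit 0) (nat_lit 76) (XT.lf (nat_lit 76) (nat_lit 282990827) (nat_lit 0) (nat_lit 1849704288) (nat_lit 988) (nat_lit 5774262042) (nat_lit 296) (nat_lit 5) (nat_lit 295) (nat_lit 3) (nat_lit 308) (nat_lit 5) (nat_lit 319) (nat_lit 318) (nat_lit 263)) (XT.lf (nat_lit 0) (nat_lit 3436734691) (nat_lit 912) (nat_lit 3787545362) (nat_lit 988) (nat_lit 764126389) (nat_lit 296) (nat_lit 5) (nat_lit 308) (nat_lit 5) (nat_lit 309) (nat_lit 5)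 (nat_lit 320) (nat_lit 318) (nat_lit 262)))) (XT.nd (nat_lit 156) (nat_lit 912) (nat_lit 0) (XT.nd (nat_lit 78) (nat_lit 0) (nat_lit 0) (XT.lf (nat_lit 76) (nat_lit 121307302) (nat_lit 0) (nat_lit 4630423665) (nat_lit 988) (nat_lit 3321442709) (nat_lit 297) (nat_lit 5) (nat_lit 296) (nat_lit 5) (nat_lit 309) (nat_lit 5) (nat_lit 321) (nat_lit 318) (nat_lit 261)) (XT.lf (nat_lit 76) (nat_lit 4198614246) (nat_lit 0) (nat_lit 1899298623) (nat_lit 988) (nat_lit 2062847658) (nat_lit 297) (nat_lit 5) (nat_lit 296) (nat_lit 5) (nat_lit 309) (nat_lit 5) (nat_lit 322) (nat_lit 318) (nat_lit 260))) (XT.nd (nat_lit 78) (nat_lit 988) (nat_lit 0) (XT.lf (nat_lit 76) (nat_lit 113443949) (nat_lit 0) (nat_lit 7335941243) (nat_lit 988) (nat_lit 802670482) (nat_lit 298) (nat_lit 5) (nat_lit 297) (nat_lit 5) (nat_lit 310) (nat_lit 5) (nat_lit 323) (nat_lit 318) (nat_lit 259)) (XT.lf (nat_lit 0) (nat_lit 500477570) (nat_lit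 988) (nat_lit 4004223556) (nat_lit 1064) (nat_lit 3840827025) (nat_lit 284) (nat_lit 5) (nat_lit 297) (nat_lit 5) (nat_lit 298) (nat_lit 5) (nat_lit 324) (nat_lit 318) (nat_lit 258))))))))
noncomputable def xc150 : XT := (XT.nd (nat_lit 2106) (nat_lit 5624) (nat_lit 0) (XT.nd (nat_lit 1014) (nat_lit 5244) (nat_lit 0) (XT.nd (nat_lit 468) (nat_lit 3040) (nat_lit 0) (XT.nd (nat_lit 234) (nat_lit 0) (nat_lit 76) (XT.nd (nat_lit 78) (nat_lit 0) (nat_lit 76) (XT.lf (nat_lit 76) (nat_lit 223529470) (nat_lit 0) (nat_lit 1562118938) (nat_lit 1064) (nat_lit 6657171618) (nat_lit 285) (nat_lit 5) (nat_lit 284) (nat_lit 5) (nat_lit 298) (nat_lit 5) (nat_lit 325) (nat_lit 318) (nat_lit 257)) (XT.nd (nat_lit 78) (nat_lit 0) (nat_lit 0) (XT.lf (nat_lit 0) (nat_lit 3122384512) (nat_lit 988) (nat_lit 3924388831) (nat_lit 1064) (nat_lit 1495891743) (nat_lit 285) (nat_lit 5) (nat_lit 298) (nat_lit 5) (nat_lit 299) (nat_lit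 5) (nat_lit 326) (nat_lit 318) (nat_lit 256)) (XT.lf (nat_lit 76) (nat_lit 465550626) (nat_lit 0) (nat_lit 4012891962) (nat_lit 1064) (nat_lit 4167710328) (nat_lit 286) (nat_lit 5) (nat_lit 285) (nat_lit 5) (nat_lit 299) (nat_lit 5) (nat_lit 327) (nat_lit 318) (nat_lit 255)))) (XT.nd (nat_lit 78) (nat_lit 0) (nat_lit 76) (XT.lf (nat_lit 76) (nat_lit 5040475923) (nat_lit 0) (nat_lit 834538331) (nat_lit 1064) (nat_lit 2877759485) (nat_lit 286) (nat_lit 5) (nat_lit 285) (nat_lit 5) (nat_lit 299) (nat_lit 5) (nat_lit 328) (nat_lit 318) (nat_lit 254)) (XT.nd (nat_lit 78) (nat_lit 0) (nat_lit 0) (XT.lf (nat_lit 76) (nat_lit 855638466) (nat_lit 0) (nat_lit 6450996576) (nat_lit 1064) (nat_lit 1556186222) (nat_lit 287) (nat_lit 5) (nat_lit 286) (nat_lit 5) (nat_lit 300) (nat_lit 5) (nat_lit 329) (nat_lit 318) (nat_lit 253)) (XT.lf (nat_lit 76) (nat_lit 5600888191) (nat_lit 0) (nat_lit 3188323820) (nat_lit 1064)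 (nat_lit 186739952) (nat_lit 287) (nat_lit 5) (nat_lit 286) (nat_lit 5) (nat_lit 300) (nat_lit 5) (nat_lit 330) (nat_lit 318) (nat_lit 252))))) (XT.nd (nat_lit 234) (nat_lit 2204) (nat_lit 0) (XT.nd (nat_lit 78) (nat_lit 0) (nat_lit 0) (XT.lf (nat_lit 0) (nat_lit 1178260949) (nat_lit 1064) (nat_lit 7710943692) (nat_lit 1140) (nat_lit 203589189) (nat_lit 273) (nat_lit 5) (nat_lit 287) (nat_lit 5) (nat_lit 288) (nat_lit 5) (nat_lit 331) (nat_lit 318) (nat_lit 251)) (XT.nd (nat_lit 78) (nat_lit 0) (nat_lit 0) (XT.lf (nat_lit 0) (nat_lit 2610400702) (nat_lit 1064) (nat_lit 2923492289) (nat_lit 1140) (nat_lit 3678314343) (nat_lit 273) (nat_lit 5) (nat_lit 287) (nat_lit 5) (nat_lit 288) (nat_lit 5) (nat_lit 332) (nat_lit 318) (nat_lit 250)) (XT.lf (nat_lit 76) (nat_lit 2019537876) (nat_lit 0) (nat_lit 2050385223) (nat_lit 1140) (nat_lit 5265767115) (nat_lit 274) (nat_lit 5) (nat_lit 273) (nat_lit 5) (nat_lit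 288) (nat_lit 5) (nat_lit 333) (nat_lit 318) (nat_lit 249)))) (XT.nd (nat_lit 156) (nat_lit 1216) (nat_lit 0) (XT.nd (nat_lit 78) (nat_lit 1064) (nat_lit 0) (XT.lf (nat_lit 0) (nat_lit 5583656782) (nat_lit 1064) (nat_lit 2334575110) (nat_lit 76) (nat_lit 1544351876) (nat_lit 274) (nat_lit 5) (nat_lit 288) (nat_lit 5) (nat_lit 275) (nat_lit 5) (nat_lit 334) (nat_lit 318) (nat_lit 248)) (XT.lf (nat_lit 0) (nat_lit 2803378885) (nat_lit 1064) (nat_lit 4353498598) (nat_lit 1140) (nat_lit 2436002802) (nat_lit 260) (nat_lit 5) (nat_lit 274) (nat_lit 5) (nat_lit 275) (nat_lit 5) (nat_lit 335) (nat_lit 318) (nat_lit 247))) (XT.nd (nat_lit 78) (nat_lit 1216) (nat_lit 0) (XT.lf (nat_lit 0) (nat_lit 8116123626) (nat_lit 1064) (nat_lit 652276897) (nat_lit 1140) (nat_lit 958969869) (nat_lit 260) (nat_lit 5) (nat_lit 274) (nat_lit 5) (nat_lit 275) (nat_lit 5) (nat_lit 336) (nat_lit 318) (nat_lit 246)) (XT.lf (nat_lit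 0) (nat_lit 586556543) (nat_lit 1216) (nat_lit 6133130768) (nat_lit 76) (nat_lit 3145007867) (nat_lit 244) (nat_lit 5) (nat_lit 260) (nat_lit 5) (nat_lit 245) (nat_lit 5) (nat_lit 337) (nat_lit 318) (nat_lit 245)))))) (XT.nd (nat_lit 546) (nat_lit 2128) (nat_lit 0) (XT.nd (nat_lit 234) (nat_lit 1292) (nat_lit 0) (XT.nd (nat_lit 78) (nat_lit 1824) (nat_lit 0) (XT.lf (nat_lit 0) (nat_lit 2150924074) (nat_lit 1216) (nat_lit 781868149) (nat_lit 76) (nat_lit 7073326502) (nat_lit 244) (nat_lit 5) (nat_lit 260) (nat_lit 5) (nat_lit 245) (nat_lit 5) (nat_lit 338) (nat_lit 318) (nat_lit 244)) (XT.nd (nat_lit 78) (nat_lit 608) (nat_lit 0) (XT.lf (nat_lit 0) (nat_lit 3787886914) (nat_lit 1292) (nat_lit 5364566290) (nat_lit 76) (nat_lit 998577723) (nat_lit 228) (nat_lit 5) (nat_lit 245) (nat_lit 5) (nat_lit 229) (nat_lit 5) (nat_lit 339) (nat_lit 318) (nat_lit 243)) (XT.lf (nat_lit 0) (nat_lit 184660037) (nat_lit 608)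 (nat_lit 5298503217) (nat_lit 684) (nat_lit 4816866516) (nat_lit 220) (nat_lit 5) (nat_lit 228) (nat_lit 5) (nat_lit 229) (nat_lit 5) (nat_lit 340) (nat_lit 318) (nat_lit 242)))) (XT.nd (nat_lit 156) (nat_lit 684) (nat_lit 0) (XT.nd (nat_lit 78) (nat_lit 608) (nat_lit 0) (XT.lf (nat_lit 0) (nat_lit 5982953643) (nat_lit 608) (nat_lit 1271532764) (nat_lit 684) (nat_lit 3198271480) (nat_lit 220) (nat_lit 5) (nat_lit 228) (nat_lit 5) (nat_lit 229) (nat_lit 5) (nat_lit 341) (nat_lit 318) (nat_lit 241)) (XT.lf (nat_lit 0) (nat_lit 1315699883) (nat_lit 608) (nat_lit 7775420996) (nat_lit 684) (nat_lit 1518596348) (nat_lit 212) (nat_lit 5) (nat_lit 220) (nat_lit 5) (nat_lit 221) (nat_lit 5) (nat_lit 342) (nat_lit 318) (nat_lit 240))) (XT.nd (nat_lit 78) (nat_lit 608) (nat_lit 0) (XT.lf (nat_lit 0) (nat_lit 237662233) (nat_lit 684) (nat_lit 3446457605) (nat_lit 76) (nat_lit 7086308630) (nat_lit 211) (nat_lit 5) (nat_lit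 220) (nat_lit 5) (nat_lit 212) (nat_lit 5) (nat_lit 343) (nat_lit 318) (nat_lit 239)) (XT.lf (nat_lit 0) (nat_lit 2019382930) (nat_lit 684) (nat_lit 8356087653) (nat_lit 76) (nat_lit 559953792) (nat_lit 203) (nat_lit 5) (nat_lit 212) (nat_lit 5) (nat_lit 204) (nat_lit 5) (nat_lit 344) (nat_lit 318) (nat_lit 238))))) (XT.nd (nat_lit 234) (nat_lit 1596) (nat_lit 0) (XT.nd (nat_lit 78) (nat_lit 532) (nat_lit 0) (XT.lf (nat_lit 0) (nat_lit 3899666622) (nat_lit 684) (nat_lit 2312080289) (nat_lit 76) (nat_lit 4892282815) (nat_lit 203) (nat_lit 5) (nat_lit 212) (nat_lit 5) (nat_lit 204) (nat_lit 5) (nat_lit 345) (nat_lit 318) (nat_lit 237)) (XT.nd (nat_lit 78) (nat_lit 0) (nat_lit 0) (XT.lf (nat_lit 0) (nat_lit 3963910996) (nat_lit 532) (nat_lit 1884811461) (nat_lit 608) (nat_lit 5428612404) (nat_lit 196) (nat_lit 5) (nat_lit 203) (nat_lit 5) (nat_lit 204) (nat_lit 5) (nat_lit 346) (nat_lit 318) (nat_lit 236))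 (XT.lf (nat_lit 0) (nat_lit 7879296032) (nat_lit 608) (nat_lit 1031698466) (nat_lit 76) (nat_lit 2544165437) (nat_lit 196) (nat_lit 5) (nat_lit 204) (nat_lit 5) (nat_lit 197) (nat_lit 5) (nat_lit 347) (nat_lit 318) (nat_lit 235)))) (XT.nd (nat_lit 156) (nat_lit 532) (nat_lit 0) (XT.nd (nat_lit 78) (nat_lit 532) (nat_lit 0) (XT.lf (nat_lit 0) (nat_lit 5500765691) (nat_lit 532) (nat_lit 4517039386) (nat_lit 608) (nat_lit 1619115951) (nat_lit 189) (nat_lit 5) (nat_lit 196) (nat_lit 5) (nat_lit 197) (nat_lit 5) (nat_lit 348) (nat_lit 318) (nat_lit 234)) (XT.lf (nat_lit 0) (nat_lit 378939619) (nat_lit 532) (nat_lit 11420700073) (nat_lit 76) (nat_lit 24681930) (nat_lit 182) (nat_lit 5) (nat_lit 189) (nat_lit 5) (nat_lit 183) (nat_lit 5) (nat_lit 349) (nat_lit 318) (nat_lit 233))) (XT.nd (nat_lit 78) (nat_lit 532) (nat_lit 0) (XT.lf (nat_lit 0) (nat_lit 2487817937) (nat_lit 532) (nat_lit 4838544479) (nat_lit 76)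 (nat_lit 4688008990) (nat_lit 182) (nat_lit 5) (nat_lit 189) (nat_lit 5) (nat_lit 183) (nat_lit 5) (nat_lit 350) (nat_lit 318) (nat_lit 232)) (XT.lf (nat_lit 0) (nat_lit 1952903831) (nat_lit 532) (nat_lit 2702650612) (nat_lit 608) (nat_lit 7554710983) (nat_lit 175) (nat_lit 5) (nat_lit 182) (nat_lit 5) (nat_lit 183) (nat_lit 5) (nat_lit 351) (nat_lit 318) (nat_lit 231))))))) (XT.nd (nat_lit 1014) (nat_lit 2660) (nat_lit 0) (XT.nd (nat_lit 468) (nat_lit 1596) (nat_lit 0) (XT.nd (nat_lit 234) (nat_lit 912) (nat_lit 0) (XT.nd (nat_lit 78) (nat_lit 456) (nat_lit 0) (XT.lf (nat_lit 0) (nat_lit 6934679360) (nat_lit 608) (nat_lit 3410256964) (nat_lit 76) (nat_lit 2065719443) (nat_lit 175) (nat_lit 5) (nat_lit 183) (nat_lit 5) (nat_lit 176) (nat_lit 5) (nat_lit 352) (nat_lit 318) (nat_lit 230)) (XT.nd (nat_lit 78) (nat_lit 0) (nat_lit 0) (XT.lf (nat_lit 0) (nat_lit 3661035127) (nat_lit 456) (nat_lit 5660970574)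 (nat_lit 532) (nat_lit 3293867180) (nat_lit 169) (nat_lit 5) (nat_lit 175) (nat_lit 5) (nat_lit 176) (nat_lit 5) (nat_lit 353) (nat_lit 318) (nat_lit 229)) (XT.lf (nat_lit 0) (nat_lit 10988720148) (nat_lit 456) (nat_lit 804943022) (nat_lit 532) (nat_lit 1033211602) (nat_lit 169) (nat_lit 5) (nat_lit 175) (nat_lit 5) (nat_lit 176) (nat_lit 5) (nat_lit 354) (nat_lit 318) (nat_lit 228)))) (XT.nd (nat_lit 78) (nat_lit 380) (nat_lit 0) (XT.lf (nat_lit 0) (nat_lit 1343106415) (nat_lit 532) (nat_lit 7521043832) (nat_lit 76) (nat_lit 4177498461) (nat_lit 162) (nat_lit 5) (nat_lit 169) (nat_lit 5) (nat_lit 163) (nat_lit 5) (nat_lit 355) (nat_lit 318) (nat_lit 227)) (XT.nd (nat_lit 78) (nat_lit 380) (nat_lit 0) (XT.lf (nat_lit 0) (nat_lit 3775691483) (nat_lit 532) (nat_lit 168571906) (nat_lit 76) (nat_lit 9318132048) (nat_lit 162) (nat_lit 5) (nat_lit 169) (nat_lit 5) (nat_lit 163) (nat_lit 5) (nat_lit 356) (nat_lit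 318) (nat_lit 226)) (XT.lf (nat_lit 0) (nat_lit 6344711457) (nat_lit 456) (nat_lit 5973280382) (nat_lit 76) (nat_lit 1169877542) (nat_lit 157) (nat_lit 5) (nat_lit 163) (nat_lit 5) (nat_lit 158) (nat_lit 5) (nat_lit 357) (nat_lit 318) (nat_lit 225))))) (XT.nd (nat_lit 234) (nat_lit 684) (nat_lit 0) (XT.nd (nat_lit 78) (nat_lit 456) (nat_lit 0) (XT.lf (nat_lit 0) (nat_lit 1680101909) (nat_lit 456) (nat_lit 7347571646) (nat_lit 532) (nat_lit 4691336127) (nat_lit 151) (nat_lit 5) (nat_lit 157) (nat_lit 5) (nat_lit 158) (nat_lit 5) (nat_lit 358) (nat_lit 318) (nat_lit 224)) (XT.nd (nat_lit 78) (nat_lit 456) (nat_lit 0) (XT.lf (nat_lit 0) (nat_lit 9660521907) (nat_lit 456) (nat_lit 2171214738) (nat_lit 532) (nat_lit 2124137229) (nat_lit 151) (nat_lit 5) (nat_lit 157) (nat_lit 5) (nat_lit 158) (nat_lit 5) (nat_lit 359) (nat_lit 318) (nat_lit 223)) (XT.lf (nat_lit 0) (nat_lit 557124681) (nat_lit 456) (nat_lit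 10506444170) (nat_lit 76) (nat_lit 3134716874) (nat_lit 145) (nat_lit 5) (nat_lit 151) (nat_lit 5) (nat_lit 146) (nat_lit 5) (nat_lit 360) (nat_lit 318) (nat_lit 222)))) (XT.nd (nat_lit 156) (nat_lit 304) (nat_lit 0) (XT.nd (nat_lit 78) (nat_lit 380) (nat_lit 0) (XT.lf (nat_lit 0) (nat_lit 3322379177) (nat_lit 456) (nat_lit 2507882266) (nat_lit 76) (nat_lit 8615697485) (nat_lit 145) (nat_lit 5) (nat_lit 151) (nat_lit 5) (nat_lit 146) (nat_lit 5) (nat_lit 361) (nat_lit 318) (nat_lit 221)) (XT.lf (nat_lit 0) (nat_lit 5819974804) (nat_lit 380) (nat_lit 388063142) (nat_lit 456) (nat_lit 8491908129) (nat_lit 140) (nat_lit 5) (nat_lit 145) (nat_lit 5) (nat_lit 146) (nat_lit 5) (nat_lit 362) (nat_lit 318) (nat_lit 220))) (XT.nd (nat_lit 78) (nat_lit 304) (nat_lit 0) (XT.lf (nat_lit 0) (nat_lit 9237748626) (nat_lit 456) (nat_lit 586609654) (nat_lit 76) (nat_lit 5135477032) (nat_lit 140) (nat_lit 5) (nat_lit 146)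 (nat_lit 5) (nat_lit 141) (nat_lit 5) (nat_lit 363) (nat_lit 318) (nat_lit 219)) (XT.lf (nat_lit 0) (nat_lit 8085715648) (nat_lit 304) (nat_lit 4336487334) (nat_lit 380) (nat_lit 2803409409) (nat_lit 136) (nat_lit 5) (nat_lit 140) (nat_lit 5) (nat_lit 141) (nat_lit 5) (nat_lit 364) (nat_lit 318) (nat_lit 218)))))) (XT.nd (nat_lit 546) (nat_lit 1216) (nat_lit 0) (XT.nd (nat_lit 234) (nat_lit 684) (nat_lit 0) (XT.nd (nat_lit 78) (nat_lit 304) (nat_lit 0) (XT.lf (nat_lit 0) (nat_lit 214819345) (nat_lit 456) (nat_lit 13976933620) (nat_lit 76) (nat_lit 1307079204) (nat_lit 130) (nat_lit 5) (nat_lit 136) (nat_lit 5) (nat_lit 131) (nat_lit 5) (nat_lit 365) (nat_lit 318) (nat_lit 217)) (XT.nd (nat_lit 78) (nat_lit 304) (nat_lit 0) (XT.lf (nat_lit 0) (nat_lit 3365617788) (nat_lit 456) (nat_lit 5283713281) (nat_lit 76) (nat_lit 7127139886) (nat_lit 130) (nat_lit 5) (nat_lit 136) (nat_lit 5) (nat_lit 131) (nat_lit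 5) (nat_lit 366) (nat_lit 318) (nat_lit 216)) (XT.lf (nat_lit 0) (nat_lit 3719456085) (nat_lit 304) (nat_lit 2910364243) (nat_lit 380) (nat_lit 9432058154) (nat_lit 126) (nat_lit 5) (nat_lit 130) (nat_lit 5) (nat_lit 131) (nat_lit 5) (nat_lit 367) (nat_lit 318) (nat_lit 215)))) (XT.nd (nat_lit 156) (nat_lit 380) (nat_lit 0) (XT.nd (nat_lit 78) (nat_lit 304) (nat_lit 0) (XT.lf (nat_lit 0) (nat_lit 10058009165) (nat_lit 380) (nat_lit 3306228105) (nat_lit 76) (nat_lit 2989634972) (nat_lit 126) (nat_lit 5) (nat_lit 131) (nat_lit 5) (nat_lit 127) (nat_lit 5) (nat_lit 368) (nat_lit 318) (nat_lit 214)) (XT.lf (nat_lit 0) (nat_lit 6067689020) (nat_lit 304) (nat_lit 7592313515) (nat_lit 380) (nat_lit 2992500156) (nat_lit 122) (nat_lit 5) (nat_lit 126) (nat_lit 5) (nat_lit 127) (nat_lit 5) (nat_lit 369) (nat_lit 318) (nat_lit 213))) (XT.nd (nat_lit 78) (nat_lit 304) (nat_lit 0) (XT.lf (nat_lit 0) (nat_lit 419587615)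 (nat_lit 380) (nat_lit 1195814326) (nat_lit 76) (nat_lit 15344048489) (nat_lit 121) (nat_lit 5) (nat_lit 126) (nat_lit 5) (nat_lit 122) (nat_lit 5) (nat_lit 370) (nat_lit 318) (nat_lit 212)) (XT.lf (nat_lit 0) (nat_lit 3985539372) (nat_lit 380) (nat_lit 8726931204) (nat_lit 76) (nat_lit 4558902900) (nat_lit 117) (nat_lit 5) (nat_lit 122) (nat_lit 5) (nat_lit 118) (nat_lit 5) (nat_lit 371) (nat_lit 318) (nat_lit 211))))) (XT.nd (nat_lit 234) (nat_lit 608) (nat_lit 0) (XT.nd (nat_lit 78) (nat_lit 304) (nat_lit 0) (XT.lf (nat_lit 0) (nat_lit 989766782) (nat_lit 304) (nat_lit 6690958659) (nat_lit 380) (nat_lit 9911266111) (nat_lit 113) (nat_lit 5) (nat_lit 117) (nat_lit 5) (nat_lit 118) (nat_lit 5) (nat_lit 372) (nat_lit 318) (nat_lit 210)) (XT.nd (nat_lit 78) (nat_lit 304) (nat_lit 0) (XT.lf (nat_lit 0) (nat_lit 11154519296) (nat_lit 304) (nat_lit 405160373) (nat_lit 380) (nat_lit 6360365992) (nat_lit 113)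 (nat_lit 5) (nat_lit 117) (nat_lit 5) (nat_lit 118) (nat_lit 5) (nat_lit 373) (nat_lit 318) (nat_lit 209)) (XT.lf (nat_lit 0) (nat_lit 3351256549) (nat_lit 304) (nat_lit 12279465521) (nat_lit 380) (nat_lit 2624952462) (nat_lit 109) (nat_lit 5) (nat_lit 113) (nat_lit 5) (nat_lit 114) (nat_lit 5) (nat_lit 374) (nat_lit 318) (nat_lit 208)))) (XT.nd (nat_lit 156) (nat_lit 228) (nat_lit 0) (XT.nd (nat_lit 78) (nat_lit 304) (nat_lit 0) (XT.lf (nat_lit 0) (nat_lit 1256911183) (nat_lit 380) (nat_lit 4727685095) (nat_lit 76) (nat_lit 12614680588) (nat_lit 108) (nat_lit 5) (nat_lit 113) (nat_lit 5) (nat_lit 109) (nat_lit 5) (nat_lit 375) (nat_lit 318) (nat_lit 207)) (XT.lf (nat_lit 0) (nat_lit 5249628557) (nat_lit 380) (nat_lit 13136273069) (nat_lit 76) (nat_lit 565095577) (nat_lit 104) (nat_lit 5) (nat_lit 109) (nat_lit 5) (nat_lit 105) (nat_lit 5) (nat_lit 376) (nat_lit 318) (nat_lit 206))) (XT.nd (nat_lit 78)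 (nat_lit 228) (nat_lit 0) (XT.lf (nat_lit 0) (nat_lit 9455404748) (nat_lit 380) (nat_lit 2622899682) (nat_lit 76) (nat_lit 7232170600) (nat_lit 104) (nat_lit 5) (nat_lit 109) (nat_lit 5) (nat_lit 105) (nat_lit 5) (nat_lit 377) (nat_lit 318) (nat_lit 205)) (XT.lf (nat_lit 0) (nat_lit 8347745023) (nat_lit 228) (nat_lit 5506076951) (nat_lit 304) (nat_lit 5824925260) (nat_lit 101) (nat_lit 5) (nat_lit 104) (nat_lit 5) (nat_lit 105) (nat_lit 5) (nat_lit 378) (nat_lit 318) (nat_lit 204))))))))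
noncomputable def xc151 : XT := (XT.nd (nat_lit 2106) (nat_lit 2128) (nat_lit 0) (XT.nd (nat_lit 1014) (nat_lit 1444) (nat_lit 0) (XT.nd (nat_lit 468) (nat_lit 912) (nat_lit 0) (XT.nd (nat_lit 234) (nat_lit 304) (nat_lit 0) (XT.nd (nat_lit 78) (nat_lit 608) (nat_lit 0) (XT.lf (nat_lit 0) (nat_lit 18409439490) (nat_lit 304) (nat_lit 389563000) (nat_lit 76) (nat_lit 1258311640) (nat_lit 101) (nat_lit 5) (nat_lit 105) (nat_lit 5) (nat_lit 102) (nat_lit 5) (nat_lit 379) (nat_lit 318) (nat_lit 203)) (XT.nd (nat_lit 78) (nat_lit 228) (nat_lit 0) (XT.lf (nat_lit 0) (nat_lit 2751343145) (nat_lit 380) (nat_lit 9449697745) (nat_lit 76) (nat_lit 8240975748) (nat_lit 96) (nat_lit 5) (nat_lit 101) (nat_lit 5) (nat_lit 97) (nat_lit 5) (nat_lit 380) (nat_lit 318) (nat_lit 202)) (XT.lf (nat_lit 0) (nat_lit 1885327376) (nat_lit 228) (nat_lit 5372995510) (nat_lit 304) (nat_lit 13579184306) (nat_lit 93) (nat_lit 5) (nat_lit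 96) (nat_lit 5) (nat_lit 97) (nat_lit 5) (nat_lit 381) (nat_lit 318) (nat_lit 201)))) (XT.nd (nat_lit 78) (nat_lit 304) (nat_lit 0) (XT.lf (nat_lit 0) (nat_lit 11999763323) (nat_lit 304) (nat_lit 7525516297) (nat_lit 76) (nat_lit 1716608819) (nat_lit 93) (nat_lit 5) (nat_lit 97) (nat_lit 5) (nat_lit 94) (nat_lit 5) (nat_lit 382) (nat_lit 318) (nat_lit 200)) (XT.nd (nat_lit 78) (nat_lit 76) (nat_lit 0) (XT.lf (nat_lit 0) (nat_lit 4253627846) (nat_lit 228) (nat_lit 12711213544) (nat_lit 304) (nat_lit 4691121316) (nat_lit 90) (nat_lit 5) (nat_lit 93) (nat_lit 5) (nat_lit 94) (nat_lit 5) (nat_lit 383) (nat_lit 318) (nat_lit 199)) (XT.lf (nat_lit 0) (nat_lit 60586900) (nat_lit 304) (nat_lit 5560667713) (nat_lit 76) (nat_lit 16459285710) (nat_lit 89) (nat_lit 5) (nat_lit 93) (nat_lit 5) (nat_lit 90) (nat_lit 5) (nat_lit 384) (nat_lit 318) (nat_lit 198))))) (XT.nd (nat_lit 234) (nat_lit 456) (nat_lit 0) (XT.nd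 (nat_lit 78) (nat_lit 228) (nat_lit 0) (XT.lf (nat_lit 0) (nat_lit 4929890319) (nat_lit 304) (nat_lit 15831122525) (nat_lit 76) (nat_lit 1753372221) (nat_lit 86) (nat_lit 5) (nat_lit 90) (nat_lit 5) (nat_lit 87) (nat_lit 5) (nat_lit 385) (nat_lit 318) (nat_lit 197)) (XT.nd (nat_lit 78) (nat_lit 228) (nat_lit 0) (XT.lf (nat_lit 0) (nat_lit 10045464523) (nat_lit 304) (nat_lit 3626971975) (nat_lit 76) (nat_lit 9285805934) (nat_lit 86) (nat_lit 5) (nat_lit 90) (nat_lit 5) (nat_lit 87) (nat_lit 5) (nat_lit 386) (nat_lit 318) (nat_lit 196)) (XT.lf (nat_lit 0) (nat_lit 9101787106) (nat_lit 228) (nat_lit 6288393218) (nat_lit 304) (nat_lit 8022967909) (nat_lit 83) (nat_lit 5) (nat_lit 86) (nat_lit 5) (nat_lit 87) (nat_lit 5) (nat_lit 387) (nat_lit 318) (nat_lit 195)))) (XT.nd (nat_lit 156) (nat_lit 228) (nat_lit 0) (XT.nd (nat_lit 78) (nat_lit 228) (nat_lit 0) (XT.lf (nat_lit 0) (nat_lit 20933161582) (nat_lit 304)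 (nat_lit 1626087867) (nat_lit 76) (nat_lit 1321316898) (nat_lit 83) (nat_lit 5) (nat_lit 87) (nat_lit 5) (nat_lit 84) (nat_lit 5) (nat_lit 388) (nat_lit 318) (nat_lit 194)) (XT.lf (nat_lit 0) (nat_lit 2399767994) (nat_lit 228) (nat_lit 12795784523) (nat_lit 76) (nat_lit 9160884296) (nat_lit 80) (nat_lit 5) (nat_lit 83) (nat_lit 5) (nat_lit 81) (nat_lit 5) (nat_lit 389) (nat_lit 318) (nat_lit 193))) (XT.nd (nat_lit 78) (nat_lit 0) (nat_lit 0) (XT.lf (nat_lit 0) (nat_lit 287803040) (nat_lit 228) (nat_lit 7568318633) (nat_lit 304) (nat_lit 16989348699) (nat_lit 77) (nat_lit 5) (nat_lit 80) (nat_lit 5) (nat_lit 81) (nat_lit 5) (nat_lit 390) (nat_lit 318) (nat_lit 192)) (XT.lf (nat_lit 0) (nat_lit 13598161618) (nat_lit 304) (nat_lit 11341934228) (nat_lit 76) (nat_lit 405421764) (nat_lit 77) (nat_lit 5) (nat_lit 81) (nat_lit 5) (nat_lit 78) (nat_lit 5) (nat_lit 391) (nat_lit 318) (nat_lit 191)))))) (XT.nd (nat_lit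 546) (nat_lit 532) (nat_lit 0) (XT.nd (nat_lit 234) (nat_lit 456) (nat_lit 0) (XT.nd (nat_lit 78) (nat_lit 304) (nat_lit 0) (XT.lf (nat_lit 0) (nat_lit 2220423008) (nat_lit 152) (nat_lit 17377383809) (nat_lit 228) (nat_lit 6260201591) (nat_lit 75) (nat_lit 5) (nat_lit 77) (nat_lit 5) (nat_lit 78) (nat_lit 5) (nat_lit 392) (nat_lit 318) (nat_lit 190)) (XT.nd (nat_lit 78) (nat_lit 304) (nat_lit 0) (XT.lf (nat_lit 0) (nat_lit 16404085878) (nat_lit 152) (nat_lit 9477097762) (nat_lit 228) (nat_lit 501580417) (nat_lit 75) (nat_lit 5) (nat_lit 77) (nat_lit 5) (nat_lit 78) (nat_lit 5) (nat_lit 393) (nat_lit 318) (nat_lit 189)) (XT.lf (nat_lit 0) (nat_lit 4100058282) (nat_lit 228) (nat_lit 1252617657) (nat_lit 304) (nat_lit 21568157912) (nat_lit 71) (nat_lit 5) (nat_lit 74) (nat_lit 5) (nat_lit 75) (nat_lit 5) (nat_lit 394) (nat_lit 318) (nat_lit 188)))) (XT.nd (nat_lit 156) (nat_lit 304) (nat_lit 0) (XT.nd (nat_lit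 78) (nat_lit 152) (nat_lit 0) (XT.lf (nat_lit 0) (nat_lit 11533120907) (nat_lit 304) (nat_lit 8759489371) (nat_lit 76) (nat_lit 7177469400) (nat_lit 71) (nat_lit 5) (nat_lit 75) (nat_lit 5) (nat_lit 72) (nat_lit 5) (nat_lit 395) (nat_lit 318) (nat_lit 187)) (XT.lf (nat_lit 0) (nat_lit 5807249575) (nat_lit 152) (nat_lit 12149750623) (nat_lit 228) (nat_lit 10077064181) (nat_lit 69) (nat_lit 5) (nat_lit 71) (nat_lit 5) (nat_lit 72) (nat_lit 5) (nat_lit 396) (nat_lit 318) (nat_lit 186))) (XT.nd (nat_lit 78) (nat_lit 304) (nat_lit 0) (XT.lf (nat_lit 0) (nat_lit 20973417247) (nat_lit 152) (nat_lit 3678560771) (nat_lit 228) (nat_lit 3960641205) (nat_lit 69) (nat_lit 5) (nat_lit 71) (nat_lit 5) (nat_lit 72) (nat_lit 5) (nat_lit 397) (nat_lit 318) (nat_lit 185)) (XT.lf (nat_lit 0) (nat_lit 2405157983) (nat_lit 304) (nat_lit 21762442099) (nat_lit 76) (nat_lit 5036912043) (nat_lit 65) (nat_lit 5) (nat_lit 69) (nat_lit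 5) (nat_lit 66) (nat_lit 5) (nat_lit 398) (nat_lit 318) (nat_lit 184))))) (XT.nd (nat_lit 234) (nat_lit 380) (nat_lit 0) (XT.nd (nat_lit 78) (nat_lit 152) (nat_lit 0) (XT.lf (nat_lit 0) (nat_lit 8986836290) (nat_lit 304) (nat_lit 6772767352) (nat_lit 76) (nat_lit 14050248332) (nat_lit 65) (nat_lit 5) (nat_lit 69) (nat_lit 5) (nat_lit 66) (nat_lit 5) (nat_lit 399) (nat_lit 318) (nat_lit 183)) (XT.nd (nat_lit 78) (nat_lit 0) (nat_lit 0) (XT.lf (nat_lit 0) (nat_lit 8822348905) (nat_lit 152) (nat_lit 7018891742) (nat_lit 228) (nat_lit 14589854935) (nat_lit 63) (nat_lit 5) (nat_lit 65) (nat_lit 5) (nat_lit 66) (nat_lit 5) (nat_lit 400) (nat_lit 318) (nat_lit 182)) (XT.lf (nat_lit 0) (nat_lit 22979943387) (nat_lit 228) (nat_lit 6080982019) (nat_lit 76) (nat_lit 2007692886) (nat_lit 63) (nat_lit 5) (nat_lit 66) (nat_lit 5) (nat_lit 64) (nat_lit 5) (nat_lit 401) (nat_lit 318) (nat_lit 181)))) (XT.nd (nat_lit 156)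 (nat_lit 152) (nat_lit 0) (XT.nd (nat_lit 78) (nat_lit 76) (nat_lit 0) (XT.lf (nat_lit 0) (nat_lit 10022718366) (nat_lit 152) (nat_lit 20466728887) (nat_lit 228) (nat_lit 1231121958) (nat_lit 61) (nat_lit 5) (nat_lit 63) (nat_lit 5) (nat_lit 64) (nat_lit 5) (nat_lit 402) (nat_lit 318) (nat_lit 180)) (XT.lf (nat_lit 0) (nat_lit 5771190933) (nat_lit 228) (nat_lit 5728732886) (nat_lit 76) (nat_lit 20888889411) (nat_lit 60) (nat_lit 5) (nat_lit 63) (nat_lit 5) (nat_lit 61) (nat_lit 5) (nat_lit 403) (nat_lit 318) (nat_lit 179))) (XT.nd (nat_lit 78) (nat_lit 0) (nat_lit 0) (XT.lf (nat_lit 0) (nat_lit 10904511809) (nat_lit 152) (nat_lit 2150230900) (nat_lit 228) (nat_lit 20019120345) (nat_lit 58) (nat_lit 5) (nat_lit 60) (nat_lit 5) (nat_lit 61) (nat_lit 5) (nat_lit 404) (nat_lit 318) (nat_lit 178)) (XT.lf (nat_lit 0) (nat_lit 20678265719) (nat_lit 228) (nat_lit 5711609686) (nat_lit 76) (nat_lit 7385946567) (nat_lit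 58) (nat_lit 5) (nat_lit 61) (nat_lit 5) (nat_lit 59) (nat_lit 5) (nat_lit 405) (nat_lit 318) (nat_lit 177))))))) (XT.nd (nat_lit 1014) (nat_lit 912) (nat_lit 0) (XT.nd (nat_lit 468) (nat_lit 684) (nat_lit 0) (XT.nd (nat_lit 234) (nat_lit 152) (nat_lit 0) (XT.nd (nat_lit 78) (nat_lit 228) (nat_lit 0) (XT.lf (nat_lit 0) (nat_lit 11426405827) (nat_lit 152) (nat_lit 17226614700) (nat_lit 228) (nat_lit 5842144837) (nat_lit 56) (nat_lit 5) (nat_lit 58) (nat_lit 5) (nat_lit 59) (nat_lit 5) (nat_lit 406) (nat_lit 318) (nat_lit 176)) (XT.nd (nat_lit 78) (nat_lit 152) (nat_lit 0) (XT.lf (nat_lit 0) (nat_lit 1648770710) (nat_lit 228) (nat_lit 6070126064) (nat_lit 76) (nat_lit 27515233354) (nat_lit 55) (nat_lit 5) (nat_lit 58) (nat_lit 5) (nat_lit 56) (nat_lit 5) (nat_lit 407) (nat_lit 318) (nat_lit 175)) (XT.lf (nat_lit 0) (nat_lit 9371644295) (nat_lit 228) (nat_lit 24419882685) (nat_lit 76) (nat_lit 2198263373)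 (nat_lit 53) (nat_lit 5) (nat_lit 56) (nat_lit 5) (nat_lit 54) (nat_lit 5) (nat_lit 408) (nat_lit 318) (nat_lit 174)))) (XT.nd (nat_lit 78) (nat_lit 152) (nat_lit 0) (XT.lf (nat_lit 0) (nat_lit 17456243423) (nat_lit 228) (nat_lit 6994503170) (nat_lit 76) (nat_lit 12313473936) (nat_lit 53) (nat_lit 5) (nat_lit 56) (nat_lit 5) (nat_lit 54) (nat_lit 5) (nat_lit 409) (nat_lit 318) (nat_lit 173)) (XT.nd (nat_lit 78) (nat_lit 0) (nat_lit 0) (XT.lf (nat_lit 0) (nat_lit 11157017236) (nat_lit 152) (nat_lit 14725564133) (nat_lit 228) (nat_lit 11676327506) (nat_lit 51) (nat_lit 5) (nat_lit 53) (nat_lit 5) (nat_lit 54) (nat_lit 5) (nat_lit 410) (nat_lit 318) (nat_lit 172)) (XT.lf (nat_lit 0) (nat_lit 29982270157) (nat_lit 152) (nat_lit 4642120778) (nat_lit 228) (nat_lit 3751167739) (nat_lit 51) (nat_lit 5) (nat_lit 53) (nat_lit 5) (nat_lit 54) (nat_lit 5) (nat_lit 411) (nat_lit 318) (nat_lit 171))))) (XT.nd (nat_lit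 234) (nat_lit 304) (nat_lit 0) (XT.nd (nat_lit 78) (nat_lit 152) (nat_lit 0) (XT.lf (nat_lit 0) (nat_lit 4473428771) (nat_lit 228) (nat_lit 28969032477) (nat_lit 76) (nat_lit 5768542513) (nat_lit 48) (nat_lit 5) (nat_lit 51) (nat_lit 5) (nat_lit 49) (nat_lit 5) (nat_lit 412) (nat_lit 318) (nat_lit 170)) (XT.nd (nat_lit 78) (nat_lit 152) (nat_lit 0) (XT.lf (nat_lit 0) (nat_lit 12993165349) (nat_lit 228) (nat_lit 10558540880) (nat_lit 76) (nat_lit 16514979000) (nat_lit 48) (nat_lit 5) (nat_lit 51) (nat_lit 5) (nat_lit 49) (nat_lit 5) (nat_lit 413) (nat_lit 318) (nat_lit 169)) (XT.lf (nat_lit 0) (nat_lit 8557690433) (nat_lit 152) (nat_lit 13285531770) (nat_lit 228) (nat_lit 19102574203) (nat_lit 46) (nat_lit 5) (nat_lit 48) (nat_lit 5) (nat_lit 49) (nat_lit 5) (nat_lit 414) (nat_lit 318) (nat_lit 168)))) (XT.nd (nat_lit 156) (nat_lit 228) (nat_lit 0) (XT.nd (nat_lit 78) (nat_lit 76) (nat_lit 0) (XT.lf (nat_lit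 0) (nat_lit 28450415034) (nat_lit 152) (nat_lit 2607543007) (nat_lit 228) (nat_lit 10790348637) (nat_lit 46) (nat_lit 5) (nat_lit 48) (nat_lit 5) (nat_lit 49) (nat_lit 5) (nat_lit 415) (nat_lit 318) (nat_lit 167)) (XT.lf (nat_lit 0) (nat_lit 6188936123) (nat_lit 76) (nat_lit 34493066642) (nat_lit 152) (nat_lit 2091904535) (nat_lit 45) (nat_lit 5) (nat_lit 46) (nat_lit 5) (nat_lit 47) (nat_lit 4) (nat_lit 416) (nat_lit 318) (nat_lit 166))) (XT.nd (nat_lit 78) (nat_lit 152) (nat_lit 0) (XT.lf (nat_lit 0) (nat_lit 6888664382) (nat_lit 152) (nat_lit 17191596379) (nat_lit 76) (nat_lit 19640380299) (nat_lit 44) (nat_lit 5) (nat_lit 46) (nat_lit 5) (nat_lit 45) (nat_lit 5) (nat_lit 417) (nat_lit 318) (nat_lit 165)) (XT.lf (nat_lit 0) (nat_lit 2804763582) (nat_lit 152) (nat_lit 13311746168) (nat_lit 228) (nat_lit 28578049546) (nat_lit 42) (nat_lit 5) (nat_lit 44) (nat_lit 5) (nat_lit 45) (nat_lit 5) (nat_lit 418)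 (nat_lit 318) (nat_lit 164)))))) (XT.nd (nat_lit 546) (nat_lit 532) (nat_lit 0) (XT.nd (nat_lit 234) (nat_lit 304) (nat_lit 0) (XT.nd (nat_lit 78) (nat_lit 76) (nat_lit 0) (XT.lf (nat_lit 0) (nat_lit 23740715855) (nat_lit 152) (nat_lit 2047102885) (nat_lit 228) (nat_lit 19904878420) (nat_lit 42) (nat_lit 5) (nat_lit 44) (nat_lit 5) (nat_lit 45) (nat_lit 5) (nat_lit 419) (nat_lit 318) (nat_lit 163)) (XT.nd (nat_lit 78) (nat_lit 76) (nat_lit 0) (XT.lf (nat_lit 0) (nat_lit 35834296532) (nat_lit 228) (nat_lit 1520375234) (nat_lit 76) (nat_lit 9363557410) (nat_lit 42) (nat_lit 5) (nat_lit 45) (nat_lit 5) (nat_lit 43) (nat_lit 4) (nat_lit 420) (nat_lit 318) (nat_lit 162)) (XT.lf (nat_lit 0) (nat_lit 19879709532) (nat_lit 76) (nat_lit 26507198560) (nat_lit 152) (nat_lit 1381477755) (nat_lit 41) (nat_lit 5) (nat_lit 42) (nat_lit 5) (nat_lit 43) (nat_lit 4) (nat_lit 421) (nat_lit 318) (nat_lit 161)))) (XT.nd (nat_lit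 156) (nat_lit 76) (nat_lit 0) (XT.nd (nat_lit 78) (nat_lit 152) (nat_lit 0) (XT.lf (nat_lit 0) (nat_lit 8250910308) (nat_lit 152) (nat_lit 6989719134) (nat_lit 76) (nat_lit 33606727723) (nat_lit 40) (nat_lit 5) (nat_lit 42) (nat_lit 5) (nat_lit 41) (nat_lit 5) (nat_lit 422) (nat_lit 318) (nat_lit 160)) (XT.lf (nat_lit 0) (nat_lit 14799535144) (nat_lit 152) (nat_lit 3480810371) (nat_lit 228) (nat_lit 31673867315) (nat_lit 38) (nat_lit 5) (nat_lit 40) (nat_lit 5) (nat_lit 41) (nat_lit 5) (nat_lit 423) (nat_lit 318) (nat_lit 159))) (XT.nd (nat_lit 78) (nat_lit 76) (nat_lit 0) (XT.lf (nat_lit 0) (nat_lit 28758522529) (nat_lit 228) (nat_lit 13801890530) (nat_lit 76) (nat_lit 8529426122) (nat_lit 38) (nat_lit 5) (nat_lit 41) (nat_lit 5) (nat_lit 39) (nat_lit 4) (nat_lit 424) (nat_lit 318) (nat_lit 158)) (XT.lf (nat_lit 0) (nat_lit 8307662917) (nat_lit 76) (nat_lit 31351493337) (nat_lit 152) (nat_lit 12597135481)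 (nat_lit 37) (nat_lit 5) (nat_lit 38) (nat_lit 5) (nat_lit 39) (nat_lit 4) (nat_lit 425) (nat_lit 318) (nat_lit 157))))) (XT.nd (nat_lit 234) (nat_lit 304) (nat_lit 0) (XT.nd (nat_lit 78) (nat_lit 228) (nat_lit 0) (XT.lf (nat_lit 0) (nat_lit 31352074327) (nat_lit 76) (nat_lit 19667968039) (nat_lit 152) (nat_lit 2433699235) (nat_lit 37) (nat_lit 5) (nat_lit 38) (nat_lit 5) (nat_lit 39) (nat_lit 4) (nat_lit 426) (nat_lit 318) (nat_lit 156)) (XT.nd (nat_lit 78) (nat_lit 0) (nat_lit 0) (XT.lf (nat_lit 0) (nat_lit 318541468) (nat_lit 152) (nat_lit 7556356306) (nat_lit 228) (nat_lit 46809989589) (nat_lit 34) (nat_lit 5) (nat_lit 36) (nat_lit 5) (nat_lit 37) (nat_lit 5) (nat_lit 427) (nat_lit 318) (nat_lit 155)) (XT.lf (nat_lit 0) (nat_lit 18710512434) (nat_lit 228) (nat_lit 32166604131) (nat_lit 76) (nat_lit 5067128483) (nat_lit 34) (nat_lit 5) (nat_lit 37) (nat_lit 5) (nat_lit 35) (nat_lit 4) (nat_lit 428) (nat_lit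 318) (nat_lit 154)))) (XT.nd (nat_lit 156) (nat_lit 228) (nat_lit 0) (XT.nd (nat_lit 78) (nat_lit 76) (nat_lit 0) (XT.lf (nat_lit 0) (nat_lit 29940186492) (nat_lit 228) (nat_lit 9386525058) (nat_lit 76) (nat_lit 17912602837) (nat_lit 34) (nat_lit 5) (nat_lit 37) (nat_lit 5) (nat_lit 35) (nat_lit 4) (nat_lit 429) (nat_lit 318) (nat_lit 153)) (XT.lf (nat_lit 0) (nat_lit 14346382153) (nat_lit 76) (nat_lit 27292620013) (nat_lit 152) (nat_lit 16930266733) (nat_lit 33) (nat_lit 5) (nat_lit 34) (nat_lit 5) (nat_lit 35) (nat_lit 4) (nat_lit 430) (nat_lit 318) (nat_lit 152))) (XT.nd (nat_lit 78) (nat_lit 228) (nat_lit 0) (XT.lf (nat_lit 0) (nat_lit 38973270496) (nat_lit 76) (nat_lit 14804707040) (nat_lit 152) (nat_lit 6158469268) (nat_lit 33) (nat_lit 5) (nat_lit 34) (nat_lit 5) (nat_lit 35) (nat_lit 4) (nat_lit 431) (nat_lit 318) (nat_lit 151)) (XT.lf (nat_lit 0) (nat_lit 2995091162) (nat_lit 152) (nat_lit 1868371287)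 (nat_lit 228) (nat_lit 56479055335) (nat_lit 30) (nat_lit 5) (nat_lit 32) (nat_lit 5) (nat_lit 33) (nat_lit 5) (nat_lit 432) (nat_lit 318) (nat_lit 150))))))))
noncomputable def xc152 : XT := (XT.nd (nat_lit 39156) (nat_lit 0) (nat_lit 9576) (XT.nd (nat_lit 38142) (nat_lit 0) (nat_lit 18772) (XT.nd (nat_lit 468) (nat_lit 152) (nat_lit 0) (XT.nd (nat_lit 234) (nat_lit 152) (nat_lit 0) (XT.nd (nat_lit 78) (nat_lit 76) (nat_lit 0) (XT.lf (nat_lit 0) (nat_lit 16410713778) (nat_lit 228) (nat_lit 34866026968) (nat_lit 76) (nat_lit 11502648238) (nat_lit 30) (nat_lit 5) (nat_lit 33) (nat_lit 5) (nat_lit 31) (nat_lit 4) (nat_lit 433) (nat_lit 318) (nat_lit 149)) (XT.nd (nat_lit 78) (nat_lit 76) (nat_lit 0) (XT.lf (nat_lit 0) (nat_lit 28317575839) (nat_lit 228) (nat_lit 10708630114) (nat_lit 76) (nat_lit 25232765117) (nat_lit 30) (nat_lit 5) (nat_lit 33) (nat_lit 5) (nat_lit 31) (nat_lit 4) (nat_lit 434) (nat_lit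 318) (nat_lit 148)) (XT.lf (nat_lit 0) (nat_lit 14445720305) (nat_lit 76) (nat_lit 26269633554) (nat_lit 152) (nat_lit 25063575987) (nat_lit 29) (nat_lit 5) (nat_lit 30) (nat_lit 5) (nat_lit 31) (nat_lit 4) (nat_lit 435) (nat_lit 318) (nat_lit 147)))) (XT.nd (nat_lit 78) (nat_lit 152) (nat_lit 0) (XT.lf (nat_lit 0) (nat_lit 40564655955) (nat_lit 76) (nat_lit 13023452546) (nat_lit 152) (nat_lit 13753288101) (nat_lit 29) (nat_lit 5) (nat_lit 30) (nat_lit 5) (nat_lit 31) (nat_lit 4) (nat_lit 436) (nat_lit 318) (nat_lit 146)) (XT.nd (nat_lit 78) (nat_lit 152) (nat_lit 0) (XT.lf (nat_lit 0) (nat_lit 66848020440) (nat_lit 152) (nat_lit 1498928938) (nat_lit 0) (nat_lit 603759242) (nat_lit 29) (nat_lit 5) (nat_lit 31) (nat_lit 4) (nat_lit 29) (nat_lit 4) (nat_lit 437) (nat_lit 318) (nat_lit 145)) (XT.lf (nat_lit 0) (nat_lit 10071203355) (nat_lit 152) (nat_lit 45811392183) (nat_lit 76) (nat_lit 14711843484) (nat_lit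 27) (nat_lit 5) (nat_lit 29) (nat_lit 5) (nat_lit 28) (nat_lit 4) (nat_lit 438) (nat_lit 318) (nat_lit 144))))) (XT.nd (nat_lit 234) (nat_lit 76) (nat_lit 0) (XT.nd (nat_lit 78) (nat_lit 76) (nat_lit 0) (XT.lf (nat_lit 0) (nat_lit 22578501136) (nat_lit 152) (nat_lit 20432911471) (nat_lit 76) (nat_lit 29275131083) (nat_lit 27) (nat_lit 5) (nat_lit 29) (nat_lit 5) (nat_lit 28) (nat_lit 4) (nat_lit 439) (nat_lit 318) (nat_lit 143)) (XT.nd (nat_lit 78) (nat_lit 0) (nat_lit 0) (XT.lf (nat_lit 0) (nat_lit 5811467957) (nat_lit 76) (nat_lit 29700719436) (nat_lit 152) (nat_lit 38515689462) (nat_lit 26) (nat_lit 5) (nat_lit 27) (nat_lit 5) (nat_lit 28) (nat_lit 4) (nat_lit 440) (nat_lit 318) (nat_lit 142)) (XT.lf (nat_lit 0) (nat_lit 33253261892) (nat_lit 76) (nat_lit 15782313241) (nat_lit 152) (nat_lit 26779824586) (nat_lit 26) (nat_lit 5) (nat_lit 27) (nat_lit 5) (nat_lit 28) (nat_lit 4) (nat_lit 441) (nat_lit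 318) (nat_lit 141)))) (XT.nd (nat_lit 37284) (nat_lit 0) (nat_lit 20520) (XT.nd (nat_lit 78) (nat_lit 76) (nat_lit 0) (XT.lf (nat_lit 0) (nat_lit 61509793597) (nat_lit 76) (nat_lit 1450364650) (nat_lit 152) (nat_lit 14696525628) (nat_lit 26) (nat_lit 5) (nat_lit 27) (nat_lit 5) (nat_lit 28) (nat_lit 4) (nat_lit 442) (nat_lit 318) (nat_lit 140)) (XT.lf (nat_lit 0) (nat_lit 11141912611) (nat_lit 76) (nat_lit 66391215383) (nat_lit 76) (nat_lit 2013159494) (nat_lit 25) (nat_lit 4) (nat_lit 26) (nat_lit 5) (nat_lit 26) (nat_lit 4) (nat_lit 443) (nat_lit 318) (nat_lit 139))) (XT.nd (nat_lit 78) (nat_lit 0) (nat_lit 0) (XT.lf (nat_lit 0) (nat_lit 1687791586) (nat_lit 988) (nat_lit 1152782876) (nat_lit 988) (nat_lit 1152782876) (nat_lit 295) (nat_lit 3) (nat_lit 308) (nat_lit 3) (nat_lit 308) (nat_lit 5) (nat_lit 319) (nat_lit 319) (nat_lit 262)) (XT.lf (nat_lit 76) (nat_lit 1561805736) (nat_lit 0) (nat_lit 3064143679)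 (nat_lit 988) (nat_lit 3443839298) (nat_lit 296) (nat_lit 5) (nat_lit 295) (nat_lit 3) (nat_lit 308) (nat_lit 5) (nat_lit 320) (nat_lit 319) (nat_lit 261)))))) (XT.nd (nat_lit 468) (nat_lit 836) (nat_lit 0) (XT.nd (nat_lit 234) (nat_lit 0) (nat_lit 76) (XT.nd (nat_lit 78) (nat_lit 912) (nat_lit 0) (XT.lf (nat_lit 76) (nat_lit 5568159998) (nat_lit 0) (nat_lit 322478464) (nat_lit 988) (nat_lit 2265440825) (nat_lit 296) (nat_lit 5) (nat_lit 295) (nat_lit 3) (nat_lit 308) (nat_lit 5) (nat_lit 321) (nat_lit 319) (nat_lit 260)) (XT.nd (nat_lit 78) (nat_lit 988) (nat_lit 0) (XT.lf (nat_lit 76) (nat_lit 1428393400) (nat_lit 0) (nat_lit 5757741228) (nat_lit 988) (nat_lit 1059065796) (nat_lit 297) (nat_lit 5) (nat_lit 296) (nat_lit 5) (nat_lit 309) (nat_lit 5) (nat_lit 322) (nat_lit 319) (nat_lit 259)) (XT.lf (nat_lit 0) (nat_lit 165202546) (nat_lit 988) (nat_lit 2749023176) (nat_lit 1064) (nat_lit 5423184311) (nat_lit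 283) (nat_lit 5) (nat_lit 296) (nat_lit 5) (nat_lit 297) (nat_lit 5) (nat_lit 323) (nat_lit 319) (nat_lit 258)))) (XT.nd (nat_lit 78) (nat_lit 0) (nat_lit 0) (XT.lf (nat_lit 0) (nat_lit 1376230878) (nat_lit 988) (nat_lit 7000340726) (nat_lit 1064) (nat_lit 56385687) (nat_lit 284) (nat_lit 5) (nat_lit 297) (nat_lit 5) (nat_lit 298) (nat_lit 5) (nat_lit 324) (nat_lit 319) (nat_lit 257)) (XT.nd (nat_lit 78) (nat_lit 0) (nat_lit 0) (XT.lf (nat_lit 0) (nat_lit 2638645871) (nat_lit 988) (nat_lit 2789901604) (nat_lit 1064) (nat_lit 3102396550) (nat_lit 284) (nat_lit 5) (nat_lit 297) (nat_lit 5) (nat_lit 298) (nat_lit 5) (nat_lit 325) (nat_lit 319) (nat_lit 256)) (XT.lf (nat_lit 76) (nat_lit 1551601183) (nat_lit 0) (nat_lit 2361632992) (nat_lit 1064) (nat_lit 4719431175) (nat_lit 285) (nat_lit 5) (nat_lit 284) (nat_lit 5) (nat_lit 298) (nat_lit 5) (nat_lit 326) (nat_lit 319) (nat_lit 255))))) (XT.nd (nat_lit 234)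 (nat_lit 988) (nat_lit 0) (XT.nd (nat_lit 78) (nat_lit 0) (nat_lit 0) (XT.lf (nat_lit 0) (nat_lit 5222639909) (nat_lit 988) (nat_lit 2690625309) (nat_lit 1064) (nat_lit 824299016) (nat_lit 285) (nat_lit 5) (nat_lit 298) (nat_lit 5) (nat_lit 299) (nat_lit 5) (nat_lit 327) (nat_lit 319) (nat_lit 254)) (XT.nd (nat_lit 78) (nat_lit 0) (nat_lit 0) (XT.lf (nat_lit 76) (nat_lit 1817762379) (nat_lit 0) (nat_lit 4756037189) (nat_lit 1064) (nat_lit 2271758999) (nat_lit 286) (nat_lit 5) (nat_lit 285) (nat_lit 5) (nat_lit 299) (nat_lit 5) (nat_lit 328) (nat_lit 319) (nat_lit 253)) (XT.lf (nat_lit 76) (nat_lit 6490957419) (nat_lit 0) (nat_lit 1464194354) (nat_lit 1064) (nat_lit 1001973202) (nat_lit 286) (nat_lit 5) (nat_lit 285) (nat_lit 5) (nat_lit 299) (nat_lit 5) (nat_lit 329) (nat_lit 319) (nat_lit 252)))) (XT.nd (nat_lit 156) (nat_lit 0) (nat_lit 0) (XT.nd (nat_lit 78) (nat_lit 0) (nat_lit 0) (XT.lf (nat_lit 0)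 (nat_lit 303609552) (nat_lit 1064) (nat_lit 6843673559) (nat_lit 1140) (nat_lit 1924577580) (nat_lit 272) (nat_lit 5) (nat_lit 286) (nat_lit 5) (nat_lit 287) (nat_lit 5) (nat_lit 330) (nat_lit 319) (nat_lit 251)) (XT.lf (nat_lit 0) (nat_lit 1631997117) (nat_lit 1064) (nat_lit 2126586252) (nat_lit 1140) (nat_lit 5431064326) (nat_lit 272) (nat_lit 5) (nat_lit 286) (nat_lit 5) (nat_lit 287) (nat_lit 5) (nat_lit 331) (nat_lit 319) (nat_lit 250))) (XT.nd (nat_lit 78) (nat_lit 0) (nat_lit 76) (XT.lf (nat_lit 76) (nat_lit 2760089179) (nat_lit 0) (nat_lit 231852577) (nat_lit 1140) (nat_lit 6319294913) (nat_lit 273) (nat_lit 5) (nat_lit 272) (nat_lit 5) (nat_lit 287) (nat_lit 5) (nat_lit 332) (nat_lit 319) (nat_lit 249)) (XT.lf (nat_lit 0) (nat_lit 4413085800) (nat_lit 1064) (nat_lit 1658426940) (nat_lit 1140) (nat_lit 3364367498) (nat_lit 273) (nat_lit 5) (nat_lit 287) (nat_lit 5) (nat_lit 288) (nat_lit 5) (nat_lit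 333) (nat_lit 319) (nat_lit 248))))))) (XT.nd (nat_lit 1014) (nat_lit 3952) (nat_lit 0) (XT.nd (nat_lit 468) (nat_lit 1900) (nat_lit 0) (XT.nd (nat_lit 234) (nat_lit 2432) (nat_lit 0) (XT.nd (nat_lit 78) (nat_lit 988) (nat_lit 0) (XT.lf (nat_lit 76) (nat_lit 3419631677) (nat_lit 0) (nat_lit 2459413901) (nat_lit 1140) (nat_lit 3685170498) (nat_lit 274) (nat_lit 5) (nat_lit 273) (nat_lit 5) (nat_lit 288) (nat_lit 5) (nat_lit 334) (nat_lit 319) (nat_lit 247)) (XT.nd (nat_lit 78) (nat_lit 1064) (nat_lit 0) (XT.lf (nat_lit 0) (nat_lit 7385811378) (nat_lit 1064) (nat_lit 1050832698) (nat_lit 76) (nat_lit 1259870966) (nat_lit 274) (nat_lit 5) (nat_lit 288) (nat_lit 5) (nat_lit 275) (nat_lit 5) (nat_lit 335) (nat_lit 319) (nat_lit 246)) (XT.lf (nat_lit 0) (nat_lit 4227987567) (nat_lit 1064) (nat_lit 4743515893) (nat_lit 1140) (nat_lit 860285165) (nat_lit 260) (nat_lit 5) (nat_lit 274) (nat_lit 5) (nat_lit 275)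 (nat_lit 5) (nat_lit 336) (nat_lit 319) (nat_lit 245)))) (XT.nd (nat_lit 78) (nat_lit 2356) (nat_lit 0) (XT.lf (nat_lit 0) (nat_lit 601072989) (nat_lit 1140) (nat_lit 316559194) (nat_lit 76) (nat_lit 9053928100) (nat_lit 259) (nat_lit 5) (nat_lit 274) (nat_lit 5) (nat_lit 260) (nat_lit 5) (nat_lit 337) (nat_lit 319) (nat_lit 244)) (XT.nd (nat_lit 78) (nat_lit 1216) (nat_lit 0) (XT.lf (nat_lit 0) (nat_lit 2138592300) (nat_lit 1216) (nat_lit 4947690154) (nat_lit 76) (nat_lit 3027514645) (nat_lit 244) (nat_lit 5) (nat_lit 260) (nat_lit 5) (nat_lit 245) (nat_lit 5) (nat_lit 338) (nat_lit 319) (nat_lit 243)) (XT.lf (nat_lit 0) (nat_lit 534656983) (nat_lit 1216) (nat_lit 3175680923) (nat_lit 1292) (nat_lit 6550335504) (nat_lit 228) (nat_lit 5) (nat_lit 244) (nat_lit 5) (nat_lit 245) (nat_lit 5) (nat_lit 339) (nat_lit 319) (nat_lit 242))))) (XT.nd (nat_lit 234) (nat_lit 1292) (nat_lit 0) (XT.nd (nat_lit 78) (nat_lit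 608) (nat_lit 0) (XT.lf (nat_lit 0) (nat_lit 5359164857) (nat_lit 1292) (nat_lit 4163090352) (nat_lit 76) (nat_lit 888817897) (nat_lit 228) (nat_lit 5) (nat_lit 245) (nat_lit 5) (nat_lit 229) (nat_lit 5) (nat_lit 340) (nat_lit 319) (nat_lit 241)) (XT.nd (nat_lit 78) (nat_lit 0) (nat_lit 0) (XT.lf (nat_lit 0) (nat_lit 1539255775) (nat_lit 608) (nat_lit 5536556091) (nat_lit 684) (nat_lit 3489636799) (nat_lit 220) (nat_lit 5) (nat_lit 228) (nat_lit 5) (nat_lit 229) (nat_lit 5) (nat_lit 341) (nat_lit 319) (nat_lit 240)) (XT.lf (nat_lit 0) (nat_lit 7472205298) (nat_lit 608) (nat_lit 1386472705) (nat_lit 684) (nat_lit 1865350001) (nat_lit 220) (nat_lit 5) (nat_lit 228) (nat_lit 5) (nat_lit 229) (nat_lit 5) (nat_lit 342) (nat_lit 319) (nat_lit 239)))) (XT.nd (nat_lit 156) (nat_lit 608) (nat_lit 0) (XT.nd (nat_lit 78) (nat_lit 76) (nat_lit 0) (XT.lf (nat_lit 0) (nat_lit 2694721855) (nat_lit 608) (nat_lit 8027464393)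 (nat_lit 684) (nat_lit 164377486) (nat_lit 212) (nat_lit 5) (nat_lit 220) (nat_lit 5) (nat_lit 221) (nat_lit 5) (nat_lit 343) (nat_lit 319) (nat_lit 238)) (XT.lf (nat_lit 0) (nat_lit 1577279543) (nat_lit 684) (nat_lit 2222142134) (nat_lit 76) (nat_lit 7253489863) (nat_lit 211) (nat_lit 5) (nat_lit 220) (nat_lit 5) (nat_lit 212) (nat_lit 5) (nat_lit 344) (nat_lit 319) (nat_lit 237))) (XT.nd (nat_lit 78) (nat_lit 0) (nat_lit 0) (XT.lf (nat_lit 0) (nat_lit 3386359706) (nat_lit 684) (nat_lit 7252332853) (nat_lit 76) (nat_lit 584966612) (nat_lit 203) (nat_lit 5) (nat_lit 212) (nat_lit 5) (nat_lit 204) (nat_lit 5) (nat_lit 345) (nat_lit 319) (nat_lit 236)) (XT.lf (nat_lit 0) (nat_lit 5285001561) (nat_lit 684) (nat_lit 1066454902) (nat_lit 76) (nat_lit 5047026256) (nat_lit 203) (nat_lit 5) (nat_lit 212) (nat_lit 5) (nat_lit 204) (nat_lit 5) (nat_lit 346) (nat_lit 319) (nat_lit 235)))))) (XT.nd (nat_lit 546) (nat_lit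 1824) (nat_lit 0) (XT.nd (nat_lit 234) (nat_lit 1064) (nat_lit 0) (XT.nd (nat_lit 78) (nat_lit 532) (nat_lit 0) (XT.lf (nat_lit 0) (nat_lit 5384924084) (nat_lit 532) (nat_lit 1883179442) (nat_lit 608) (nat_lit 4309634236) (nat_lit 196) (nat_lit 5) (nat_lit 203) (nat_lit 5) (nat_lit 204) (nat_lit 5) (nat_lit 347) (nat_lit 319) (nat_lit 234)) (XT.nd (nat_lit 78) (nat_lit 0) (nat_lit 0) (XT.lf (nat_lit 0) (nat_lit 242523550) (nat_lit 532) (nat_lit 9083714320) (nat_lit 608) (nat_lit 2435677875) (nat_lit 189) (nat_lit 5) (nat_lit 196) (nat_lit 5) (nat_lit 197) (nat_lit 5) (nat_lit 348) (nat_lit 319) (nat_lit 233)) (XT.lf (nat_lit 0) (nat_lit 6953479709) (nat_lit 532) (nat_lit 4550278054) (nat_lit 608) (nat_lit 446143195) (nat_lit 189) (nat_lit 5) (nat_lit 196) (nat_lit 5) (nat_lit 197) (nat_lit 5) (nat_lit 349) (nat_lit 319) (nat_lit 232)))) (XT.nd (nat_lit 156) (nat_lit 532) (nat_lit 0) (XT.nd (nat_lit 78)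 (nat_lit 0) (nat_lit 0) (XT.lf (nat_lit 0) (nat_lit 1566812361) (nat_lit 532) (nat_lit 10429506958) (nat_lit 76) (nat_lit 146904111) (nat_lit 182) (nat_lit 5) (nat_lit 189) (nat_lit 5) (nat_lit 183) (nat_lit 5) (nat_lit 350) (nat_lit 319) (nat_lit 231)) (XT.lf (nat_lit 0) (nat_lit 3704689905) (nat_lit 532) (nat_lit 3688735652) (nat_lit 76) (nat_lit 4946592680) (nat_lit 182) (nat_lit 5) (nat_lit 189) (nat_lit 5) (nat_lit 183) (nat_lit 5) (nat_lit 351) (nat_lit 319) (nat_lit 230))) (XT.nd (nat_lit 78) (nat_lit 0) (nat_lit 0) (XT.lf (nat_lit 0) (nat_lit 3293760370) (nat_lit 532) (nat_lit 2622755042) (nat_lit 608) (nat_lit 6625917021) (nat_lit 175) (nat_lit 5) (nat_lit 182) (nat_lit 5) (nat_lit 183) (nat_lit 5) (nat_lit 352) (nat_lit 319) (nat_lit 229)) (XT.lf (nat_lit 0) (nat_lit 8232857341) (nat_lit 608) (nat_lit 2235998664) (nat_lit 76) (nat_lit 2280927807) (nat_lit 175) (nat_lit 5) (nat_lit 183) (nat_lit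 5) (nat_lit 176) (nat_lit 5) (nat_lit 353) (nat_lit 319) (nat_lit 228))))) (XT.nd (nat_lit 234) (nat_lit 836) (nat_lit 0) (XT.nd (nat_lit 78) (nat_lit 532) (nat_lit 0) (XT.lf (nat_lit 0) (nat_lit 5034916836) (nat_lit 456) (nat_lit 5637285884) (nat_lit 532) (nat_lit 2289556941) (nat_lit 169) (nat_lit 5) (nat_lit 175) (nat_lit 5) (nat_lit 176) (nat_lit 5) (nat_lit 354) (nat_lit 319) (nat_lit 227)) (XT.nd (nat_lit 78) (nat_lit 456) (nat_lit 0) (XT.lf (nat_lit 0) (nat_lit 6655945) (nat_lit 532) (nat_lit 634490672) (nat_lit 76) (nat_lit 12538892241) (nat_lit 168) (nat_lit 5) (nat_lit 175) (nat_lit 5) (nat_lit 169) (nat_lit 5) (nat_lit 355) (nat_lit 319) (nat_lit 226)) (XT.lf (nat_lit 0) (nat_lit 2416766071) (nat_lit 532) (nat_lit 6480932333) (nat_lit 76) (nat_lit 4503765635) (nat_lit 162) (nat_lit 5) (nat_lit 169) (nat_lit 5) (nat_lit 163) (nat_lit 5) (nat_lit 356) (nat_lit 319) (nat_lit 225)))) (XT.nd (nat_lit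 156) (nat_lit 456) (nat_lit 0) (XT.nd (nat_lit 78) (nat_lit 0) (nat_lit 0) (XT.lf (nat_lit 0) (nat_lit 1076248948) (nat_lit 380) (nat_lit 3826327253) (nat_lit 456) (nat_lit 8726862158) (nat_lit 157) (nat_lit 5) (nat_lit 162) (nat_lit 5) (nat_lit 163) (nat_lit 5) (nat_lit 357) (nat_lit 319) (nat_lit 224)) (XT.lf (nat_lit 0) (nat_lit 7523018032) (nat_lit 456) (nat_lit 4907890822) (nat_lit 76) (nat_lit 1431549378) (nat_lit 157) (nat_lit 5) (nat_lit 163) (nat_lit 5) (nat_lit 158) (nat_lit 5) (nat_lit 358) (nat_lit 319) (nat_lit 223))) (XT.nd (nat_lit 78) (nat_lit 0) (nat_lit 0) (XT.lf (nat_lit 0) (nat_lit 2962891094) (nat_lit 456) (nat_lit 7306648662) (nat_lit 532) (nat_lit 3831512755) (nat_lit 151) (nat_lit 5) (nat_lit 157) (nat_lit 5) (nat_lit 158) (nat_lit 5) (nat_lit 359) (nat_lit 319) (nat_lit 222)) (XT.lf (nat_lit 0) (nat_lit 11146828950) (nat_lit 456) (nat_lit 1982613186) (nat_lit 532) (nat_lit 1216440515)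 (nat_lit 151) (nat_lit 5) (nat_lit 157) (nat_lit 5) (nat_lit 158) (nat_lit 5) (nat_lit 360) (nat_lit 319) (nat_lit 221))))))))
noncomputable def xc153 : XT := (XT.nd (nat_lit 2106) (nat_lit 2888) (nat_lit 0) (XT.nd (nat_lit 1014) (nat_lit 2052) (nat_lit 0) (XT.nd (nat_lit 468) (nat_lit 1292) (nat_lit 0) (XT.nd (nat_lit 234) (nat_lit 760) (nat_lit 0) (XT.nd (nat_lit 78) (nat_lit 380) (nat_lit 0) (XT.lf (nat_lit 0) (nat_lit 1512706656) (nat_lit 456) (nat_lit 9591857140) (nat_lit 76) (nat_lit 3491141709) (nat_lit 145) (nat_lit 5) (nat_lit 151) (nat_lit 5) (nat_lit 146) (nat_lit 5) (nat_lit 361) (nat_lit 319) (nat_lit 220)) (XT.nd (nat_lit 78) (nat_lit 380) (nat_lit 0) (XT.lf (nat_lit 0) (nat_lit 4333573111) (nat_lit 456) (nat_lit 1389157223) (nat_lit 76) (nat_lit 9128909505) (nat_lit 145) (nat_lit 5) (nat_lit 151) (nat_lit 5) (nat_lit 146) (nat_lit 5) (nat_lit 362) (nat_lit 319) (nat_lit 219)) (XT.lf (nat_lit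 0) (nat_lit 7176830054) (nat_lit 380) (nat_lit 113786956) (nat_lit 456) (nat_lit 7823095387) (nat_lit 140) (nat_lit 5) (nat_lit 145) (nat_lit 5) (nat_lit 146) (nat_lit 5) (nat_lit 363) (nat_lit 319) (nat_lit 218)))) (XT.nd (nat_lit 78) (nat_lit 456) (nat_lit 0) (XT.lf (nat_lit 0) (nat_lit 578675998) (nat_lit 304) (nat_lit 9814667037) (nat_lit 380) (nat_lit 4988601513) (nat_lit 136) (nat_lit 5) (nat_lit 140) (nat_lit 5) (nat_lit 141) (nat_lit 5) (nat_lit 364) (nat_lit 319) (nat_lit 217)) (XT.nd (nat_lit 78) (nat_lit 456) (nat_lit 0) (XT.lf (nat_lit 0) (nat_lit 9488392812) (nat_lit 304) (nat_lit 4165103015) (nat_lit 380) (nat_lit 2002803838) (nat_lit 136) (nat_lit 5) (nat_lit 140) (nat_lit 5) (nat_lit 141) (nat_lit 5) (nat_lit 365) (nat_lit 319) (nat_lit 216)) (XT.lf (nat_lit 0) (nat_lit 1077658528) (nat_lit 456) (nat_lit 13207205982) (nat_lit 76) (nat_lit 1652936993) (nat_lit 130) (nat_lit 5) (nat_lit 136)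 (nat_lit 5) (nat_lit 131) (nat_lit 5) (nat_lit 366) (nat_lit 319) (nat_lit 215))))) (XT.nd (nat_lit 234) (nat_lit 988) (nat_lit 0) (XT.nd (nat_lit 78) (nat_lit 304) (nat_lit 0) (XT.lf (nat_lit 0) (nat_lit 4298037391) (nat_lit 456) (nat_lit 4287821138) (nat_lit 76) (nat_lit 7638668075) (nat_lit 130) (nat_lit 5) (nat_lit 136) (nat_lit 5) (nat_lit 131) (nat_lit 5) (nat_lit 367) (nat_lit 319) (nat_lit 214)) (XT.nd (nat_lit 78) (nat_lit 0) (nat_lit 0) (XT.lf (nat_lit 0) (nat_lit 4974125627) (nat_lit 304) (nat_lit 2672811401) (nat_lit 380) (nat_lit 8871964792) (nat_lit 126) (nat_lit 5) (nat_lit 130) (nat_lit 5) (nat_lit 131) (nat_lit 5) (nat_lit 368) (nat_lit 319) (nat_lit 213)) (XT.lf (nat_lit 0) (nat_lit 11157171652) (nat_lit 380) (nat_lit 2274544961) (nat_lit 76) (nat_lit 3388571116) (nat_lit 126) (nat_lit 5) (nat_lit 131) (nat_lit 5) (nat_lit 127) (nat_lit 5) (nat_lit 369) (nat_lit 319) (nat_lit 212)))) (XT.nd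 (nat_lit 156) (nat_lit 608) (nat_lit 0) (XT.nd (nat_lit 78) (nat_lit 76) (nat_lit 0) (XT.lf (nat_lit 0) (nat_lit 7369502717) (nat_lit 304) (nat_lit 7485260256) (nat_lit 380) (nat_lit 2273496071) (nat_lit 122) (nat_lit 5) (nat_lit 126) (nat_lit 5) (nat_lit 127) (nat_lit 5) (nat_lit 370) (nat_lit 319) (nat_lit 211)) (XT.lf (nat_lit 0) (nat_lit 1202075143) (nat_lit 380) (nat_lit 128943829) (nat_lit 76) (nat_lit 16113863552) (nat_lit 121) (nat_lit 5) (nat_lit 126) (nat_lit 5) (nat_lit 122) (nat_lit 5) (nat_lit 371) (nat_lit 319) (nat_lit 210))) (XT.nd (nat_lit 78) (nat_lit 304) (nat_lit 0) (XT.lf (nat_lit 0) (nat_lit 4866287762) (nat_lit 380) (nat_lit 7877029512) (nat_lit 76) (nat_lit 5023114928) (nat_lit 117) (nat_lit 5) (nat_lit 122) (nat_lit 5) (nat_lit 118) (nat_lit 5) (nat_lit 372) (nat_lit 319) (nat_lit 209)) (XT.lf (nat_lit 0) (nat_lit 2120270300) (nat_lit 304) (nat_lit 6540470423) (nat_lit 380) (nat_lit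 9436282953) (nat_lit 113) (nat_lit 5) (nat_lit 117) (nat_lit 5) (nat_lit 118) (nat_lit 5) (nat_lit 373) (nat_lit 319) (nat_lit 208)))))) (XT.nd (nat_lit 546) (nat_lit 836) (nat_lit 0) (XT.nd (nat_lit 234) (nat_lit 836) (nat_lit 0) (XT.nd (nat_lit 78) (nat_lit 380) (nat_lit 0) (XT.lf (nat_lit 0) (nat_lit 12557902947) (nat_lit 304) (nat_lit 76327809) (nat_lit 380) (nat_lit 5801350621) (nat_lit 113) (nat_lit 5) (nat_lit 117) (nat_lit 5) (nat_lit 118) (nat_lit 5) (nat_lit 374) (nat_lit 319) (nat_lit 207)) (XT.nd (nat_lit 78) (nat_lit 76) (nat_lit 0) (XT.lf (nat_lit 0) (nat_lit 4528668075) (nat_lit 304) (nat_lit 12291073321) (nat_lit 380) (nat_lit 1961774391) (nat_lit 109) (nat_lit 5) (nat_lit 113) (nat_lit 5) (nat_lit 114) (nat_lit 5) (nat_lit 375) (nat_lit 319) (nat_lit 206)) (XT.lf (nat_lit 0) (nat_lit 2000879667) (nat_lit 380) (nat_lit 3809738019) (nat_lit 76) (nat_lit 13325236577) (nat_lit 108) (nat_lit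 5) (nat_lit 113) (nat_lit 5) (nat_lit 109) (nat_lit 5) (nat_lit 376) (nat_lit 319) (nat_lit 205)))) (XT.nd (nat_lit 156) (nat_lit 532) (nat_lit 0) (XT.nd (nat_lit 78) (nat_lit 0) (nat_lit 0) (XT.lf (nat_lit 0) (nat_lit 6106294320) (nat_lit 380) (nat_lit 12463292521) (nat_lit 76) (nat_lit 928758103) (nat_lit 104) (nat_lit 5) (nat_lit 109) (nat_lit 5) (nat_lit 105) (nat_lit 5) (nat_lit 377) (nat_lit 319) (nat_lit 204)) (XT.lf (nat_lit 0) (nat_lit 10417879421) (nat_lit 380) (nat_lit 1665597605) (nat_lit 76) (nat_lit 7785747036) (nat_lit 104) (nat_lit 5) (nat_lit 109) (nat_lit 5) (nat_lit 105) (nat_lit 5) (nat_lit 378) (nat_lit 319) (nat_lit 203))) (XT.nd (nat_lit 78) (nat_lit 304) (nat_lit 0) (XT.lf (nat_lit 0) (nat_lit 9624009687) (nat_lit 228) (nat_lit 5314329167) (nat_lit 304) (nat_lit 5310508739) (nat_lit 101) (nat_lit 5) (nat_lit 104) (nat_lit 5) (nat_lit 105) (nat_lit 5) (nat_lit 379) (nat_lit 319) (nat_lit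 202)) (XT.lf (nat_lit 0) (nat_lit 623205602) (nat_lit 304) (nat_lit 18997258434) (nat_lit 380) (nat_lit 1018617963) (nat_lit 97) (nat_lit 5) (nat_lit 101) (nat_lit 5) (nat_lit 102) (nat_lit 5) (nat_lit 380) (nat_lit 319) (nat_lit 201))))) (XT.nd (nat_lit 234) (nat_lit 532) (nat_lit 0) (XT.nd (nat_lit 78) (nat_lit 228) (nat_lit 0) (XT.lf (nat_lit 0) (nat_lit 3483807657) (nat_lit 380) (nat_lit 8717705414) (nat_lit 76) (nat_lit 8834087893) (nat_lit 96) (nat_lit 5) (nat_lit 101) (nat_lit 5) (nat_lit 97) (nat_lit 5) (nat_lit 381) (nat_lit 319) (nat_lit 200)) (XT.nd (nat_lit 78) (nat_lit 0) (nat_lit 0) (XT.lf (nat_lit 0) (nat_lit 2947414743) (nat_lit 228) (nat_lit 5169317961) (nat_lit 304) (nat_lit 13326506650) (nat_lit 93) (nat_lit 5) (nat_lit 96) (nat_lit 5) (nat_lit 97) (nat_lit 5) (nat_lit 382) (nat_lit 319) (nat_lit 199)) (XT.lf (nat_lit 0) (nat_lit 12985161525) (nat_lit 304) (nat_lit 6759618417) (nat_lit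 76) (nat_lit 2115434789) (nat_lit 93) (nat_lit 5) (nat_lit 97) (nat_lit 5) (nat_lit 94) (nat_lit 5) (nat_lit 383) (nat_lit 319) (nat_lit 198)))) (XT.nd (nat_lit 156) (nat_lit 228) (nat_lit 0) (XT.nd (nat_lit 78) (nat_lit 76) (nat_lit 0) (XT.lf (nat_lit 0) (nat_lit 5363177861) (nat_lit 228) (nat_lit 12727237404) (nat_lit 304) (nat_lit 4196564159) (nat_lit 90) (nat_lit 5) (nat_lit 93) (nat_lit 5) (nat_lit 94) (nat_lit 5) (nat_lit 384) (nat_lit 319) (nat_lit 197)) (XT.lf (nat_lit 0) (nat_lit 667155948) (nat_lit 304) (nat_lit 4761957124) (nat_lit 76) (nat_lit 17295546988) (nat_lit 89) (nat_lit 5) (nat_lit 93) (nat_lit 5) (nat_lit 90) (nat_lit 5) (nat_lit 385) (nat_lit 319) (nat_lit 196))) (XT.nd (nat_lit 78) (nat_lit 0) (nat_lit 0) (XT.lf (nat_lit 0) (nat_lit 5677572640) (nat_lit 304) (nat_lit 15335410305) (nat_lit 76) (nat_lit 2158690657) (nat_lit 86) (nat_lit 5) (nat_lit 90) (nat_lit 5) (nat_lit 87) (nat_lit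 5) (nat_lit 386) (nat_lit 319) (nat_lit 195)) (XT.lf (nat_lit 0) (nat_lit 10929144587) (nat_lit 304) (nat_lit 2793406478) (nat_lit 76) (nat_lit 9906824062) (nat_lit 86) (nat_lit 5) (nat_lit 90) (nat_lit 5) (nat_lit 87) (nat_lit 5) (nat_lit 387) (nat_lit 319) (nat_lit 194))))))) (XT.nd (nat_lit 1014) (nat_lit 1292) (nat_lit 0) (XT.nd (nat_lit 468) (nat_lit 760) (nat_lit 0) (XT.nd (nat_lit 234) (nat_lit 380) (nat_lit 0) (XT.nd (nat_lit 78) (nat_lit 228) (nat_lit 0) (XT.lf (nat_lit 0) (nat_lit 10307976408) (nat_lit 228) (nat_lit 6118234661) (nat_lit 304) (nat_lit 7671960984) (nat_lit 83) (nat_lit 5) (nat_lit 86) (nat_lit 5) (nat_lit 87) (nat_lit 5) (nat_lit 388) (nat_lit 319) (nat_lit 193)) (XT.nd (nat_lit 78) (nat_lit 228) (nat_lit 0) (XT.lf (nat_lit 0) (nat_lit 22122102487) (nat_lit 304) (nat_lit 755397482) (nat_lit 76) (nat_lit 1702518222) (nat_lit 83) (nat_lit 5) (nat_lit 87) (nat_lit 5) (nat_lit 84) (nat_lit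 5) (nat_lit 389) (nat_lit 319) (nat_lit 192)) (XT.lf (nat_lit 0) (nat_lit 3030729741) (nat_lit 228) (nat_lit 12257945992) (nat_lit 76) (nat_lit 9781556210) (nat_lit 80) (nat_lit 5) (nat_lit 83) (nat_lit 5) (nat_lit 81) (nat_lit 5) (nat_lit 390) (nat_lit 319) (nat_lit 191)))) (XT.nd (nat_lit 78) (nat_lit 152) (nat_lit 0) (XT.lf (nat_lit 0) (nat_lit 1209112805) (nat_lit 228) (nat_lit 7434153781) (nat_lit 304) (nat_lit 16930898901) (nat_lit 77) (nat_lit 5) (nat_lit 80) (nat_lit 5) (nat_lit 81) (nat_lit 5) (nat_lit 391) (nat_lit 319) (nat_lit 190)) (XT.nd (nat_lit 78) (nat_lit 152) (nat_lit 0) (XT.lf (nat_lit 0) (nat_lit 14544876831) (nat_lit 304) (nat_lit 10783286957) (nat_lit 76) (nat_lit 761434725) (nat_lit 77) (nat_lit 5) (nat_lit 81) (nat_lit 5) (nat_lit 78) (nat_lit 5) (nat_lit 392) (nat_lit 319) (nat_lit 189)) (XT.lf (nat_lit 0) (nat_lit 3177128199) (nat_lit 152) (nat_lit 17540246961) (nat_lit 228) (nat_lit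 5900306502) (nat_lit 75) (nat_lit 5) (nat_lit 77) (nat_lit 5) (nat_lit 78) (nat_lit 5) (nat_lit 393) (nat_lit 319) (nat_lit 188))))) (XT.nd (nat_lit 234) (nat_lit 456) (nat_lit 0) (XT.nd (nat_lit 78) (nat_lit 228) (nat_lit 0) (XT.lf (nat_lit 0) (nat_lit 14825784) (nat_lit 228) (nat_lit 9398417372) (nat_lit 76) (nat_lit 17745400435) (nat_lit 74) (nat_lit 5) (nat_lit 77) (nat_lit 5) (nat_lit 75) (nat_lit 5) (nat_lit 394) (nat_lit 319) (nat_lit 187)) (XT.nd (nat_lit 78) (nat_lit 0) (nat_lit 0) (XT.lf (nat_lit 0) (nat_lit 5089139992) (nat_lit 228) (nat_lit 938628258) (nat_lit 304) (nat_lit 21685147292) (nat_lit 71) (nat_lit 5) (nat_lit 74) (nat_lit 5) (nat_lit 75) (nat_lit 5) (nat_lit 395) (nat_lit 319) (nat_lit 186)) (XT.lf (nat_lit 0) (nat_lit 12381921834) (nat_lit 304) (nat_lit 8169610170) (nat_lit 76) (nat_lit 7727461028) (nat_lit 71) (nat_lit 5) (nat_lit 75) (nat_lit 5) (nat_lit 72) (nat_lit 5) (nat_lit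 396) (nat_lit 319) (nat_lit 185)))) (XT.nd (nat_lit 156) (nat_lit 304) (nat_lit 0) (XT.nd (nat_lit 78) (nat_lit 0) (nat_lit 0) (XT.lf (nat_lit 0) (nat_lit 6825771496) (nat_lit 152) (nat_lit 12166217106) (nat_lit 228) (nat_lit 9868107592) (nat_lit 69) (nat_lit 5) (nat_lit 71) (nat_lit 5) (nat_lit 72) (nat_lit 5) (nat_lit 397) (nat_lit 319) (nat_lit 184)) (XT.lf (nat_lit 0) (nat_lit 22422332806) (nat_lit 152) (nat_lit 3451028239) (nat_lit 228) (nat_lit 3583083242) (nat_lit 69) (nat_lit 5) (nat_lit 71) (nat_lit 5) (nat_lit 72) (nat_lit 5) (nat_lit 398) (nat_lit 319) (nat_lit 183))) (XT.nd (nat_lit 78) (nat_lit 0) (nat_lit 0) (XT.lf (nat_lit 0) (nat_lit 2961001224) (nat_lit 304) (nat_lit 21582724568) (nat_lit 76) (nat_lit 5522317912) (nat_lit 65) (nat_lit 5) (nat_lit 69) (nat_lit 5) (nat_lit 66) (nat_lit 5) (nat_lit 399) (nat_lit 319) (nat_lit 182)) (XT.lf (nat_lit 0) (nat_lit 9726041866) (nat_lit 304) (nat_lit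 6167609796) (nat_lit 76) (nat_lit 14796317440) (nat_lit 65) (nat_lit 5) (nat_lit 69) (nat_lit 5) (nat_lit 66) (nat_lit 5) (nat_lit 400) (nat_lit 319) (nat_lit 181)))))) (XT.nd (nat_lit 546) (nat_lit 608) (nat_lit 0) (XT.nd (nat_lit 234) (nat_lit 380) (nat_lit 0) (XT.nd (nat_lit 78) (nat_lit 152) (nat_lit 0) (XT.lf (nat_lit 0) (nat_lit 9887435041) (nat_lit 152) (nat_lit 6892659712) (nat_lit 228) (nat_lit 14549937405) (nat_lit 63) (nat_lit 5) (nat_lit 65) (nat_lit 5) (nat_lit 66) (nat_lit 5) (nat_lit 401) (nat_lit 319) (nat_lit 180)) (XT.nd (nat_lit 78) (nat_lit 152) (nat_lit 0) (XT.lf (nat_lit 0) (nat_lit 24122598391) (nat_lit 228) (nat_lit 5475863476) (nat_lit 76) (nat_lit 2388532046) (nat_lit 63) (nat_lit 5) (nat_lit 66) (nat_lit 5) (nat_lit 64) (nat_lit 5) (nat_lit 402) (nat_lit 319) (nat_lit 179)) (XT.lf (nat_lit 0) (nat_lit 11103226862) (nat_lit 152) (nat_lit 20748455034) (nat_lit 228) (nat_lit 806995111)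 (nat_lit 61) (nat_lit 5) (nat_lit 63) (nat_lit 5) (nat_lit 64) (nat_lit 5) (nat_lit 403) (nat_lit 319) (nat_lit 178)))) (XT.nd (nat_lit 156) (nat_lit 152) (nat_lit 0) (XT.nd (nat_lit 78) (nat_lit 152) (nat_lit 0) (XT.lf (nat_lit 0) (nat_lit 6383223316) (nat_lit 228) (nat_lit 5134668435) (nat_lit 76) (nat_lit 21829340981) (nat_lit 60) (nat_lit 5) (nat_lit 63) (nat_lit 5) (nat_lit 61) (nat_lit 5) (nat_lit 404) (nat_lit 319) (nat_lit 177)) (XT.lf (nat_lit 0) (nat_lit 11990064518) (nat_lit 152) (nat_lit 1889724102) (nat_lit 228) (nat_lit 20173212495) (nat_lit 58) (nat_lit 5) (nat_lit 60) (nat_lit 5) (nat_lit 61) (nat_lit 5) (nat_lit 405) (nat_lit 319) (nat_lit 176))) (XT.nd (nat_lit 78) (nat_lit 152) (nat_lit 0) (XT.lf (nat_lit 0) (nat_lit 21722427146) (nat_lit 228) (nat_lit 5136966757) (nat_lit 76) (nat_lit 7916914806) (nat_lit 58) (nat_lit 5) (nat_lit 61) (nat_lit 5) (nat_lit 59) (nat_lit 5) (nat_lit 406)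 (nat_lit 319) (nat_lit 175)) (XT.lf (nat_lit 0) (nat_lit 12507875581) (nat_lit 152) (nat_lit 17423305557) (nat_lit 228) (nat_lit 5586210711) (nat_lit 56) (nat_lit 5) (nat_lit 58) (nat_lit 5) (nat_lit 59) (nat_lit 5) (nat_lit 407) (nat_lit 319) (nat_lit 174))))) (XT.nd (nat_lit 234) (nat_lit 380) (nat_lit 0) (XT.nd (nat_lit 78) (nat_lit 152) (nat_lit 0) (XT.lf (nat_lit 0) (nat_lit 2108703964) (nat_lit 228) (nat_lit 5526830707) (nat_lit 76) (nat_lit 28643237978) (nat_lit 55) (nat_lit 5) (nat_lit 58) (nat_lit 5) (nat_lit 56) (nat_lit 5) (nat_lit 408) (nat_lit 319) (nat_lit 173)) (XT.nd (nat_lit 78) (nat_lit 0) (nat_lit 0) (XT.lf (nat_lit 0) (nat_lit 10061220412) (nat_lit 228) (nat_lit 24424971364) (nat_lit 76) (nat_lit 2570974164) (nat_lit 53) (nat_lit 5) (nat_lit 56) (nat_lit 5) (nat_lit 54) (nat_lit 5) (nat_lit 409) (nat_lit 319) (nat_lit 172)) (XT.lf (nat_lit 0) (nat_lit 18376461589) (nat_lit 228) (nat_lit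 6498020011) (nat_lit 76) (nat_lit 12980706202) (nat_lit 53) (nat_lit 5) (nat_lit 56) (nat_lit 5) (nat_lit 54) (nat_lit 5) (nat_lit 410) (nat_lit 319) (nat_lit 171)))) (XT.nd (nat_lit 156) (nat_lit 228) (nat_lit 0) (XT.nd (nat_lit 78) (nat_lit 0) (nat_lit 0) (XT.lf (nat_lit 0) (nat_lit 12191121318) (nat_lit 152) (nat_lit 14859641910) (nat_lit 228) (nat_lit 11623100209) (nat_lit 51) (nat_lit 5) (nat_lit 53) (nat_lit 5) (nat_lit 54) (nat_lit 5) (nat_lit 411) (nat_lit 319) (nat_lit 170)) (XT.lf (nat_lit 0) (nat_lit 31560761141) (nat_lit 152) (nat_lit 4482657075) (nat_lit 228) (nat_lit 3471938575) (nat_lit 51) (nat_lit 5) (nat_lit 53) (nat_lit 5) (nat_lit 54) (nat_lit 5) (nat_lit 412) (nat_lit 319) (nat_lit 169))) (XT.nd (nat_lit 78) (nat_lit 0) (nat_lit 0) (XT.lf (nat_lit 0) (nat_lit 4989988493) (nat_lit 228) (nat_lit 29149558855) (nat_lit 76) (nat_lit 6236259475) (nat_lit 48) (nat_lit 5) (nat_lit 51) (nat_lit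 5) (nat_lit 49) (nat_lit 5) (nat_lit 413) (nat_lit 319) (nat_lit 168)) (XT.lf (nat_lit 0) (nat_lit 13754180561) (nat_lit 228) (nat_lit 10206807207) (nat_lit 76) (nat_lit 17296506706) (nat_lit 48) (nat_lit 5) (nat_lit 51) (nat_lit 5) (nat_lit 49) (nat_lit 5) (nat_lit 414) (nat_lit 319) (nat_lit 167))))))))
noncomputable def xc154 : XT := (XT.nd (nat_lit 2106) (nat_lit 0) (nat_lit 0) (XT.nd (nat_lit 1014) (nat_lit 836) (nat_lit 0) (XT.nd (nat_lit 468) (nat_lit 380) (nat_lit 0) (XT.nd (nat_lit 234) (nat_lit 228) (nat_lit 0) (XT.nd (nat_lit 78) (nat_lit 76) (nat_lit 0) (XT.lf (nat_lit 0) (nat_lit 9476357223) (nat_lit 152) (nat_lit 13388932592) (nat_lit 228) (nat_lit 19297824244) (nat_lit 46) (nat_lit 5) (nat_lit 48) (nat_lit 5) (nat_lit 49) (nat_lit 5) (nat_lit 415) (nat_lit 319) (nat_lit 166)) (XT.nd (nat_lit 78) (nat_lit 76) (nat_lit 0) (XT.lf (nat_lit 0) (nat_lit 29946583871) (nat_lit 152) (nat_lit 2399201208)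 (nat_lit 228) (nat_lit 10747236587) (nat_lit 46) (nat_lit 5) (nat_lit 48) (nat_lit 5) (nat_lit 49) (nat_lit 5) (nat_lit 416) (nat_lit 319) (nat_lit 165)) (XT.lf (nat_lit 0) (nat_lit 7018861354) (nat_lit 76) (nat_lit 35238185716) (nat_lit 152) (nat_lit 1789389861) (nat_lit 45) (nat_lit 5) (nat_lit 46) (nat_lit 5) (nat_lit 47) (nat_lit 4) (nat_lit 417) (nat_lit 319) (nat_lit 164)))) (XT.nd (nat_lit 78) (nat_lit 152) (nat_lit 0) (XT.lf (nat_lit 0) (nat_lit 7443036975) (nat_lit 152) (nat_lit 17074884543) (nat_lit 76) (nat_lit 20503860206) (nat_lit 44) (nat_lit 5) (nat_lit 46) (nat_lit 5) (nat_lit 45) (nat_lit 5) (nat_lit 418) (nat_lit 319) (nat_lit 163)) (XT.nd (nat_lit 78) (nat_lit 0) (nat_lit 0) (XT.lf (nat_lit 0) (nat_lit 3515165631) (nat_lit 152) (nat_lit 13428444505) (nat_lit 228) (nat_lit 29081431972) (nat_lit 42) (nat_lit 5) (nat_lit 44) (nat_lit 5) (nat_lit 45) (nat_lit 5) (nat_lit 419) (nat_lit 319)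 (nat_lit 162)) (XT.lf (nat_lit 0) (nat_lit 25060955915) (nat_lit 152) (nat_lit 1834094566) (nat_lit 228) (nat_lit 20158375199) (nat_lit 42) (nat_lit 5) (nat_lit 44) (nat_lit 5) (nat_lit 45) (nat_lit 5) (nat_lit 420) (nat_lit 319) (nat_lit 161))))) (XT.nd (nat_lit 234) (nat_lit 228) (nat_lit 0) (XT.nd (nat_lit 78) (nat_lit 152) (nat_lit 0) (XT.lf (nat_lit 0) (nat_lit 37235767258) (nat_lit 228) (nat_lit 968478654) (nat_lit 76) (nat_lit 9905693701) (nat_lit 42) (nat_lit 5) (nat_lit 45) (nat_lit 5) (nat_lit 43) (nat_lit 4) (nat_lit 421) (nat_lit 319) (nat_lit 160)) (XT.nd (nat_lit 78) (nat_lit 76) (nat_lit 0) (XT.lf (nat_lit 0) (nat_lit 21067750735) (nat_lit 76) (nat_lit 27033385716) (nat_lit 152) (nat_lit 1090580411) (nat_lit 41) (nat_lit 5) (nat_lit 42) (nat_lit 5) (nat_lit 43) (nat_lit 4) (nat_lit 422) (nat_lit 319) (nat_lit 159)) (XT.lf (nat_lit 0) (nat_lit 8814803145) (nat_lit 152) (nat_lit 6618657498)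 (nat_lit 76) (nat_lit 34869786751) (nat_lit 40) (nat_lit 5) (nat_lit 42) (nat_lit 5) (nat_lit 41) (nat_lit 5) (nat_lit 423) (nat_lit 319) (nat_lit 158)))) (XT.nd (nat_lit 156) (nat_lit 76) (nat_lit 0) (XT.nd (nat_lit 78) (nat_lit 0) (nat_lit 0) (XT.lf (nat_lit 0) (nat_lit 15818580749) (nat_lit 152) (nat_lit 3322853953) (nat_lit 228) (nat_lit 32301985780) (nat_lit 38) (nat_lit 5) (nat_lit 40) (nat_lit 5) (nat_lit 41) (nat_lit 5) (nat_lit 424) (nat_lit 319) (nat_lit 157)) (XT.lf (nat_lit 0) (nat_lit 29927298579) (nat_lit 228) (nat_lit 13650941304) (nat_lit 76) (nat_lit 9035076610) (nat_lit 38) (nat_lit 5) (nat_lit 41) (nat_lit 5) (nat_lit 39) (nat_lit 4) (nat_lit 425) (nat_lit 319) (nat_lit 156))) (XT.nd (nat_lit 78) (nat_lit 0) (nat_lit 0) (XT.lf (nat_lit 0) (nat_lit 9116359472) (nat_lit 76) (nat_lit 32035056566) (nat_lit 152) (nat_lit 12663453731) (nat_lit 37) (nat_lit 5) (nat_lit 38) (nat_lit 5) (nat_lit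 39) (nat_lit 4) (nat_lit 426) (nat_lit 319) (nat_lit 155)) (XT.lf (nat_lit 0) (nat_lit 32835808078) (nat_lit 76) (nat_lit 20008510408) (nat_lit 152) (nat_lit 2204190004) (nat_lit 37) (nat_lit 5) (nat_lit 38) (nat_lit 5) (nat_lit 39) (nat_lit 4) (nat_lit 427) (nat_lit 319) (nat_lit 154)))))) (XT.nd (nat_lit 546) (nat_lit 304) (nat_lit 0) (XT.nd (nat_lit 234) (nat_lit 304) (nat_lit 0) (XT.nd (nat_lit 78) (nat_lit 0) (nat_lit 0) (XT.lf (nat_lit 0) (nat_lit 871823162) (nat_lit 152) (nat_lit 7532525788) (nat_lit 228) (nat_lit 47912255810) (nat_lit 34) (nat_lit 5) (nat_lit 36) (nat_lit 5) (nat_lit 37) (nat_lit 5) (nat_lit 428) (nat_lit 319) (nat_lit 153)) (XT.nd (nat_lit 78) (nat_lit 0) (nat_lit 0) (XT.lf (nat_lit 0) (nat_lit 19558830143) (nat_lit 228) (nat_lit 32597479429) (nat_lit 76) (nat_lit 5457620626) (nat_lit 34) (nat_lit 5) (nat_lit 37) (nat_lit 5) (nat_lit 35) (nat_lit 4) (nat_lit 429) (nat_lit 319)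 (nat_lit 152)) (XT.lf (nat_lit 0) (nat_lit 31117035131) (nat_lit 228) (nat_lit 9149554960) (nat_lit 76) (nat_lit 18681513241) (nat_lit 34) (nat_lit 5) (nat_lit 37) (nat_lit 5) (nat_lit 35) (nat_lit 4) (nat_lit 430) (nat_lit 319) (nat_lit 151)))) (XT.nd (nat_lit 156) (nat_lit 228) (nat_lit 0) (XT.nd (nat_lit 78) (nat_lit 0) (nat_lit 0) (XT.lf (nat_lit 0) (nat_lit 15290255489) (nat_lit 76) (nat_lit 27873379871) (nat_lit 152) (nat_lit 17154417424) (nat_lit 33) (nat_lit 5) (nat_lit 34) (nat_lit 5) (nat_lit 35) (nat_lit 4) (nat_lit 431) (nat_lit 319) (nat_lit 150)) (XT.lf (nat_lit 0) (nat_lit 40640994700) (nat_lit 76) (nat_lit 15017762093) (nat_lit 152) (nat_lit 6067730811) (nat_lit 33) (nat_lit 5) (nat_lit 34) (nat_lit 5) (nat_lit 35) (nat_lit 4) (nat_lit 432) (nat_lit 319) (nat_lit 149))) (XT.nd (nat_lit 78) (nat_lit 0) (nat_lit 0) (XT.lf (nat_lit 0) (nat_lit 3583933893) (nat_lit 152) (nat_lit 1692478234)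 (nat_lit 228) (nat_lit 57898342098) (nat_lit 30) (nat_lit 5) (nat_lit 32) (nat_lit 5) (nat_lit 33) (nat_lit 5) (nat_lit 433) (nat_lit 319) (nat_lit 148)) (XT.lf (nat_lit 0) (nat_lit 17164467613) (nat_lit 228) (nat_lit 35421911177) (nat_lit 76) (nat_lit 12068521980) (nat_lit 30) (nat_lit 5) (nat_lit 33) (nat_lit 5) (nat_lit 31) (nat_lit 4) (nat_lit 434) (nat_lit 319) (nat_lit 147))))) (XT.nd (nat_lit 234) (nat_lit 228) (nat_lit 0) (XT.nd (nat_lit 78) (nat_lit 76) (nat_lit 0) (XT.lf (nat_lit 0) (nat_lit 29420920999) (nat_lit 228) (nat_lit 10554067076) (nat_lit 76) (nat_lit 26204111464) (nat_lit 30) (nat_lit 5) (nat_lit 33) (nat_lit 5) (nat_lit 31) (nat_lit 4) (nat_lit 435) (nat_lit 319) (nat_lit 146)) (XT.nd (nat_lit 78) (nat_lit 0) (nat_lit 0) (XT.lf (nat_lit 0) (nat_lit 15350248936) (nat_lit 76) (nat_lit 26837519720) (nat_lit 152) (nat_lit 25556975095) (nat_lit 29) (nat_lit 5) (nat_lit 30) (nat_lit 5) (nat_lit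 31) (nat_lit 4) (nat_lit 436) (nat_lit 319) (nat_lit 145)) (XT.lf (nat_lit 0) (nat_lit 42239029635) (nat_lit 76) (nat_lit 13200366956) (nat_lit 152) (nat_lit 13914907937) (nat_lit 29) (nat_lit 5) (nat_lit 30) (nat_lit 5) (nat_lit 31) (nat_lit 4) (nat_lit 437) (nat_lit 319) (nat_lit 144)))) (XT.nd (nat_lit 156) (nat_lit 76) (nat_lit 0) (XT.nd (nat_lit 78) (nat_lit 152) (nat_lit 0) (XT.lf (nat_lit 0) (nat_lit 69092004653) (nat_lit 152) (nat_lit 1094660980) (nat_lit 0) (nat_lit 825384028) (nat_lit 29) (nat_lit 5) (nat_lit 31) (nat_lit 4) (nat_lit 29) (nat_lit 4) (nat_lit 438) (nat_lit 319) (nat_lit 143)) (XT.lf (nat_lit 0) (nat_lit 10611569300) (nat_lit 152) (nat_lit 46736138617) (nat_lit 76) (nat_lit 15357394843) (nat_lit 27) (nat_lit 5) (nat_lit 29) (nat_lit 5) (nat_lit 28) (nat_lit 4) (nat_lit 439) (nat_lit 319) (nat_lit 142))) (XT.nd (nat_lit 78) (nat_lit 76) (nat_lit 0) (XT.lf (nat_lit 0) (nat_lit 23487147281)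 (nat_lit 152) (nat_lit 20609398493) (nat_lit 76) (nat_lit 30351633611) (nat_lit 27) (nat_lit 5) (nat_lit 29) (nat_lit 5) (nat_lit 28) (nat_lit 4) (nat_lit 440) (nat_lit 319) (nat_lit 141)) (XT.lf (nat_lit 0) (nat_lit 6418032903) (nat_lit 76) (nat_lit 30388229360) (nat_lit 152) (nat_lit 39435568376) (nat_lit 26) (nat_lit 5) (nat_lit 27) (nat_lit 5) (nat_lit 28) (nat_lit 4) (nat_lit 441) (nat_lit 319) (nat_lit 140))))))) (XT.nd (nat_lit 38220) (nat_lit 0) (nat_lit 14060) (XT.nd (nat_lit 37674) (nat_lit 0) (nat_lit 18620) (XT.nd (nat_lit 37440) (nat_lit 0) (nat_lit 19532) (XT.nd (nat_lit 78) (nat_lit 0) (nat_lit 0) (XT.lf (nat_lit 0) (nat_lit 34670491697) (nat_lit 76) (nat_lit 16058198504) (nat_lit 152) (nat_lit 27354489450) (nat_lit 26) (nat_lit 5) (nat_lit 27) (nat_lit 5) (nat_lit 28) (nat_lit 4) (nat_lit 442) (nat_lit 319) (nat_lit 139)) (XT.nd (nat_lit 37284) (nat_lit 0) (nat_lit 20444) (XT.lf (nat_lit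 0) (nat_lit 63762497064) (nat_lit 76) (nat_lit 1302046333) (nat_lit 152) (nat_lit 14915353558) (nat_lit 26) (nat_lit 5) (nat_lit 27) (nat_lit 5) (nat_lit 28) (nat_lit 4) (nat_lit 443) (nat_lit 319) (nat_lit 138)) (XT.lf (nat_lit 0) (nat_lit 2911756548) (nat_lit 988) (nat_lit 582736963) (nat_lit 988) (nat_lit 582736963) (nat_lit 295) (nat_lit 3) (nat_lit 308) (nat_lit 3) (nat_lit 308) (nat_lit 5) (nat_lit 320) (nat_lit 320) (nat_lit 260)))) (XT.nd (nat_lit 78) (nat_lit 912) (nat_lit 0) (XT.lf (nat_lit 76) (nat_lit 2806063229) (nat_lit 0) (nat_lit 4248487880) (nat_lit 988) (nat_lit 1187223659) (nat_lit 296) (nat_lit 5) (nat_lit 295) (nat_lit 3) (nat_lit 308) (nat_lit 5) (nat_lit 321) (nat_lit 320) (nat_lit 259)) (XT.nd (nat_lit 78) (nat_lit 912) (nat_lit 0) (XT.lf (nat_lit 76) (nat_lit 6897732294) (nat_lit 0) (nat_lit 1392754653) (nat_lit 988) (nat_lit 42209081) (nat_lit 296) (nat_lit 5) (nat_lit 295) (nat_lit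 3) (nat_lit 308) (nat_lit 5) (nat_lit 322) (nat_lit 320) (nat_lit 258)) (XT.lf (nat_lit 0) (nat_lit 1113433296) (nat_lit 988) (nat_lit 5737463048) (nat_lit 1064) (nat_lit 1575192108) (nat_lit 283) (nat_lit 5) (nat_lit 296) (nat_lit 5) (nat_lit 297) (nat_lit 5) (nat_lit 323) (nat_lit 320) (nat_lit 257))))) (XT.nd (nat_lit 234) (nat_lit 912) (nat_lit 0) (XT.nd (nat_lit 78) (nat_lit 0) (nat_lit 0) (XT.lf (nat_lit 0) (nat_lit 2289561431) (nat_lit 988) (nat_lit 1595219708) (nat_lit 1064) (nat_lit 4637913759) (nat_lit 283) (nat_lit 5) (nat_lit 296) (nat_lit 5) (nat_lit 297) (nat_lit 5) (nat_lit 324) (nat_lit 320) (nat_lit 256)) (XT.nd (nat_lit 78) (nat_lit 0) (nat_lit 76) (XT.lf (nat_lit 76) (nat_lit 2700335356) (nat_lit 0) (nat_lit 786053007) (nat_lit 1064) (nat_lit 5136272741) (nat_lit 284) (nat_lit 5) (nat_lit 283) (nat_lit 5) (nat_lit 297) (nat_lit 5) (nat_lit 325) (nat_lit 320) (nat_lit 255)) (XT.lf (nat_lit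 0) (nat_lit 4719081497) (nat_lit 988) (nat_lit 1615752806) (nat_lit 1064) (nat_lit 2390816466) (nat_lit 284) (nat_lit 5) (nat_lit 297) (nat_lit 5) (nat_lit 298) (nat_lit 5) (nat_lit 326) (nat_lit 320) (nat_lit 254)))) (XT.nd (nat_lit 156) (nat_lit 988) (nat_lit 0) (XT.nd (nat_lit 78) (nat_lit 0) (nat_lit 76) (XT.lf (nat_lit 76) (nat_lit 2843663243) (nat_lit 0) (nat_lit 3141927250) (nat_lit 1064) (nat_lit 2846257213) (nat_lit 285) (nat_lit 5) (nat_lit 284) (nat_lit 5) (nat_lit 298) (nat_lit 5) (nat_lit 327) (nat_lit 320) (nat_lit 253)) (XT.lf (nat_lit 0) (nat_lit 7270716845) (nat_lit 988) (nat_lit 1497430233) (nat_lit 1064) (nat_lit 173686786) (nat_lit 285) (nat_lit 5) (nat_lit 298) (nat_lit 5) (nat_lit 299) (nat_lit 5) (nat_lit 328) (nat_lit 320) (nat_lit 252))) (XT.nd (nat_lit 78) (nat_lit 1064) (nat_lit 0) (XT.lf (nat_lit 76) (nat_lit 3133719734) (nat_lit 0) (nat_lit 5485727890) (nat_lit 1064) (nat_lit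 434941801) (nat_lit 286) (nat_lit 5) (nat_lit 285) (nat_lit 5) (nat_lit 299) (nat_lit 5) (nat_lit 329) (nat_lit 320) (nat_lit 251)) (XT.lf (nat_lit 0) (nat_lit 801501554) (nat_lit 1064) (nat_lit 1268437254) (nat_lit 1140) (nat_lit 7100774957) (nat_lit 271) (nat_lit 5) (nat_lit 285) (nat_lit 5) (nat_lit 286) (nat_lit 5) (nat_lit 330) (nat_lit 320) (nat_lit 250)))))) (XT.nd (nat_lit 546) (nat_lit 3648) (nat_lit 0) (XT.nd (nat_lit 234) (nat_lit 988) (nat_lit 0) (XT.nd (nat_lit 78) (nat_lit 0) (nat_lit 0) (XT.lf (nat_lit 0) (nat_lit 2080277044) (nat_lit 1064) (nat_lit 5740361897) (nat_lit 1140) (nat_lit 1469359809) (nat_lit 272) (nat_lit 5) (nat_lit 286) (nat_lit 5) (nat_lit 287) (nat_lit 5) (nat_lit 331) (nat_lit 320) (nat_lit 249)) (XT.nd (nat_lit 78) (nat_lit 0) (nat_lit 0) (XT.lf (nat_lit 0) (nat_lit 3397033928) (nat_lit 1064) (nat_lit 919877171) (nat_lit 1140) (nat_lit 5095981596) (nat_lit 272) (nat_lit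 5) (nat_lit 286) (nat_lit 5) (nat_lit 287) (nat_lit 5) (nat_lit 332) (nat_lit 320) (nat_lit 248)) (XT.lf (nat_lit 76) (nat_lit 4100942575) (nat_lit 0) (nat_lit 658944663) (nat_lit 1140) (nat_lit 4779406816) (nat_lit 273) (nat_lit 5) (nat_lit 272) (nat_lit 5) (nat_lit 287) (nat_lit 5) (nat_lit 333) (nat_lit 320) (nat_lit 247)))) (XT.nd (nat_lit 156) (nat_lit 1064) (nat_lit 0) (XT.nd (nat_lit 78) (nat_lit 0) (nat_lit 0) (XT.lf (nat_lit 0) (nat_lit 6170865384) (nat_lit 1064) (nat_lit 433064170) (nat_lit 1140) (nat_lit 3065358589) (nat_lit 273) (nat_lit 5) (nat_lit 287) (nat_lit 5) (nat_lit 288) (nat_lit 5) (nat_lit 334) (nat_lit 320) (nat_lit 246)) (XT.lf (nat_lit 76) (nat_lit 4784835073) (nat_lit 0) (nat_lit 2860764535) (nat_lit 1140) (nat_lit 2156956993) (nat_lit 274) (nat_lit 5) (nat_lit 273) (nat_lit 5) (nat_lit 288) (nat_lit 5) (nat_lit 335) (nat_lit 320) (nat_lit 245))) (XT.nd (nat_lit 78) (nat_lit 76)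 (nat_lit 0) (XT.lf (nat_lit 0) (nat_lit 197564694) (nat_lit 1064) (nat_lit 8952529727) (nat_lit 1140) (nat_lit 790179978) (nat_lit 260) (nat_lit 5) (nat_lit 274) (nat_lit 5) (nat_lit 275) (nat_lit 5) (nat_lit 336) (nat_lit 320) (nat_lit 244)) (XT.lf (nat_lit 0) (nat_lit 655020081) (nat_lit 1140) (nat_lit 4468707876) (nat_lit 76) (nat_lit 4956749406) (nat_lit 259) (nat_lit 5) (nat_lit 274) (nat_lit 5) (nat_lit 260) (nat_lit 5) (nat_lit 337) (nat_lit 320) (nat_lit 243))))) (XT.nd (nat_lit 234) (nat_lit 1292) (nat_lit 0) (XT.nd (nat_lit 78) (nat_lit 1216) (nat_lit 0) (XT.lf (nat_lit 0) (nat_lit 949451380) (nat_lit 1140) (nat_lit 1158220236) (nat_lit 1216) (nat_lit 8117596189) (nat_lit 244) (nat_lit 5) (nat_lit 259) (nat_lit 5) (nat_lit 260) (nat_lit 5) (nat_lit 338) (nat_lit 320) (nat_lit 242)) (XT.nd (nat_lit 78) (nat_lit 1216) (nat_lit 0) (XT.lf (nat_lit 0) (nat_lit 3649106050) (nat_lit 1216) (nat_lit 3805297466)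 (nat_lit 76) (nat_lit 2918657307) (nat_lit 244) (nat_lit 5) (nat_lit 260) (nat_lit 5) (nat_lit 245) (nat_lit 5) (nat_lit 339) (nat_lit 320) (nat_lit 241)) (XT.lf (nat_lit 0) (nat_lit 1828864954) (nat_lit 1216) (nat_lit 3409298733) (nat_lit 1292) (nat_lit 5287097070) (nat_lit 228) (nat_lit 5) (nat_lit 244) (nat_lit 5) (nat_lit 245) (nat_lit 5) (nat_lit 340) (nat_lit 320) (nat_lit 240)))) (XT.nd (nat_lit 156) (nat_lit 684) (nat_lit 0) (XT.nd (nat_lit 78) (nat_lit 608) (nat_lit 0) (XT.lf (nat_lit 0) (nat_lit 6893906564) (nat_lit 1292) (nat_lit 3003778212) (nat_lit 76) (nat_lit 783785612) (nat_lit 228) (nat_lit 5) (nat_lit 245) (nat_lit 5) (nat_lit 229) (nat_lit 5) (nat_lit 341) (nat_lit 320) (nat_lit 239)) (XT.lf (nat_lit 0) (nat_lit 2857048056) (nat_lit 608) (nat_lit 5777210014) (nat_lit 684) (nat_lit 2207073841) (nat_lit 220) (nat_lit 5) (nat_lit 228) (nat_lit 5) (nat_lit 229) (nat_lit 5) (nat_lit 342) (nat_lit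 320) (nat_lit 238))) (XT.nd (nat_lit 78) (nat_lit 684) (nat_lit 0) (XT.lf (nat_lit 0) (nat_lit 8930948746) (nat_lit 608) (nat_lit 1500452557) (nat_lit 684) (nat_lit 574463838) (nat_lit 220) (nat_lit 5) (nat_lit 228) (nat_lit 5) (nat_lit 229) (nat_lit 5) (nat_lit 343) (nat_lit 320) (nat_lit 237)) (XT.lf (nat_lit 0) (nat_lit 1127672143) (nat_lit 684) (nat_lit 7146931579) (nat_lit 76) (nat_lit 2899159359) (nat_lit 211) (nat_lit 5) (nat_lit 220) (nat_lit 5) (nat_lit 212) (nat_lit 5) (nat_lit 344) (nat_lit 320) (nat_lit 236))))))))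
noncomputable def xc155 : XT := (XT.nd (nat_lit 2106) (nat_lit 4028) (nat_lit 0) (XT.nd (nat_lit 1014) (nat_lit 3040) (nat_lit 0) (XT.nd (nat_lit 468) (nat_lit 1976) (nat_lit 0) (XT.nd (nat_lit 234) (nat_lit 608) (nat_lit 0) (XT.nd (nat_lit 78) (nat_lit 1140) (nat_lit 0) (XT.lf (nat_lit 0) (nat_lit 2880595142) (nat_lit 684) (nat_lit 1037313139) (nat_lit 76) (nat_lit 7428293139) (nat_lit 211) (nat_lit 5) (nat_lit 220) (nat_lit 5) (nat_lit 212) (nat_lit 5) (nat_lit 345) (nat_lit 320) (nat_lit 235)) (XT.nd (nat_lit 78) (nat_lit 532) (nat_lit 0) (XT.lf (nat_lit 0) (nat_lit 4719353352) (nat_lit 684) (nat_lit 6193215658) (nat_lit 76) (nat_lit 610258287) (nat_lit 203) (nat_lit 5) (nat_lit 212) (nat_lit 5) (nat_lit 204) (nat_lit 5) (nat_lit 346) (nat_lit 320) (nat_lit 234)) (XT.lf (nat_lit 0) (nat_lit 143860809) (nat_lit 532) (nat_lit 6496610428) (nat_lit 608) (nat_lit 5063476274) (nat_lit 196) (nat_lit 5) (nat_lit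 203) (nat_lit 5) (nat_lit 204) (nat_lit 5) (nat_lit 347) (nat_lit 320) (nat_lit 233)))) (XT.nd (nat_lit 78) (nat_lit 608) (nat_lit 0) (XT.lf (nat_lit 0) (nat_lit 6773821942) (nat_lit 532) (nat_lit 1884838023) (nat_lit 608) (nat_lit 3230669383) (nat_lit 196) (nat_lit 5) (nat_lit 203) (nat_lit 5) (nat_lit 204) (nat_lit 5) (nat_lit 348) (nat_lit 320) (nat_lit 232)) (XT.nd (nat_lit 78) (nat_lit 76) (nat_lit 0) (XT.lf (nat_lit 0) (nat_lit 1499984738) (nat_lit 532) (nat_lit 9256932047) (nat_lit 608) (nat_lit 1322780994) (nat_lit 189) (nat_lit 5) (nat_lit 196) (nat_lit 5) (nat_lit 197) (nat_lit 5) (nat_lit 349) (nat_lit 320) (nat_lit 231)) (XT.lf (nat_lit 0) (nat_lit 678395589) (nat_lit 608) (nat_lit 3905138688) (nat_lit 76) (nat_lit 7690610358) (nat_lit 188) (nat_lit 5) (nat_lit 196) (nat_lit 5) (nat_lit 189) (nat_lit 5) (nat_lit 350) (nat_lit 320) (nat_lit 230))))) (XT.nd (nat_lit 234) (nat_lit 988) (nat_lit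 0) (XT.nd (nat_lit 78) (nat_lit 532) (nat_lit 0) (XT.lf (nat_lit 0) (nat_lit 2722785110) (nat_lit 532) (nat_lit 9485144437) (nat_lit 76) (nat_lit 265819409) (nat_lit 182) (nat_lit 5) (nat_lit 189) (nat_lit 5) (nat_lit 183) (nat_lit 5) (nat_lit 351) (nat_lit 320) (nat_lit 229)) (XT.nd (nat_lit 78) (nat_lit 532) (nat_lit 0) (XT.lf (nat_lit 0) (nat_lit 4892498932) (nat_lit 532) (nat_lit 2578768857) (nat_lit 76) (nat_lit 5206163446) (nat_lit 182) (nat_lit 5) (nat_lit 189) (nat_lit 5) (nat_lit 183) (nat_lit 5) (nat_lit 352) (nat_lit 320) (nat_lit 228)) (XT.lf (nat_lit 0) (nat_lit 4601235096) (nat_lit 532) (nat_lit 2549703234) (nat_lit 608) (nat_lit 5735585953) (nat_lit 175) (nat_lit 5) (nat_lit 182) (nat_lit 5) (nat_lit 183) (nat_lit 5) (nat_lit 353) (nat_lit 320) (nat_lit 227)))) (XT.nd (nat_lit 156) (nat_lit 532) (nat_lit 0) (XT.nd (nat_lit 78) (nat_lit 456) (nat_lit 0) (XT.lf (nat_lit 0) (nat_lit 9507402303)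 (nat_lit 608) (nat_lit 1099792727) (nat_lit 76) (nat_lit 2493796004) (nat_lit 175) (nat_lit 5) (nat_lit 183) (nat_lit 5) (nat_lit 176) (nat_lit 5) (nat_lit 354) (nat_lit 320) (nat_lit 226)) (XT.lf (nat_lit 0) (nat_lit 6377453317) (nat_lit 456) (nat_lit 5623999137) (nat_lit 532) (nat_lit 1318441356) (nat_lit 169) (nat_lit 5) (nat_lit 175) (nat_lit 5) (nat_lit 176) (nat_lit 5) (nat_lit 355) (nat_lit 320) (nat_lit 225))) (XT.nd (nat_lit 78) (nat_lit 0) (nat_lit 0) (XT.lf (nat_lit 0) (nat_lit 533796136) (nat_lit 456) (nat_lit 468008143) (nat_lit 532) (nat_lit 12543366763) (nat_lit 162) (nat_lit 5) (nat_lit 168) (nat_lit 5) (nat_lit 169) (nat_lit 5) (nat_lit 356) (nat_lit 320) (nat_lit 224)) (XT.lf (nat_lit 0) (nat_lit 3463316054) (nat_lit 532) (nat_lit 5482276305) (nat_lit 76) (nat_lit 4828285918) (nat_lit 162) (nat_lit 5) (nat_lit 169) (nat_lit 5) (nat_lit 163) (nat_lit 5) (nat_lit 357) (nat_lit 320) (nat_lit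 223)))))) (XT.nd (nat_lit 546) (nat_lit 1368) (nat_lit 0) (XT.nd (nat_lit 234) (nat_lit 836) (nat_lit 0) (XT.nd (nat_lit 78) (nat_lit 456) (nat_lit 0) (XT.lf (nat_lit 0) (nat_lit 2289923513) (nat_lit 380) (nat_lit 3716762890) (nat_lit 456) (nat_lit 8002527739) (nat_lit 157) (nat_lit 5) (nat_lit 162) (nat_lit 5) (nat_lit 163) (nat_lit 5) (nat_lit 358) (nat_lit 320) (nat_lit 222)) (XT.nd (nat_lit 78) (nat_lit 456) (nat_lit 0) (XT.lf (nat_lit 0) (nat_lit 8679960558) (nat_lit 456) (nat_lit 3881984017) (nat_lit 76) (nat_lit 1688065008) (nat_lit 157) (nat_lit 5) (nat_lit 163) (nat_lit 5) (nat_lit 158) (nat_lit 5) (nat_lit 359) (nat_lit 320) (nat_lit 221)) (XT.lf (nat_lit 0) (nat_lit 4213419950) (nat_lit 456) (nat_lit 7279500554) (nat_lit 532) (nat_lit 3003331118) (nat_lit 151) (nat_lit 5) (nat_lit 157) (nat_lit 5) (nat_lit 158) (nat_lit 5) (nat_lit 360) (nat_lit 320) (nat_lit 220)))) (XT.nd (nat_lit 156) (nat_lit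 380) (nat_lit 0) (XT.nd (nat_lit 78) (nat_lit 456) (nat_lit 0) (XT.lf (nat_lit 0) (nat_lit 12609041705) (nat_lit 456) (nat_lit 1802919187) (nat_lit 532) (nat_lit 337276429) (nat_lit 151) (nat_lit 5) (nat_lit 157) (nat_lit 5) (nat_lit 158) (nat_lit 5) (nat_lit 361) (nat_lit 320) (nat_lit 219)) (XT.lf (nat_lit 0) (nat_lit 2443061213) (nat_lit 456) (nat_lit 8720426921) (nat_lit 76) (nat_lit 3843197413) (nat_lit 145) (nat_lit 5) (nat_lit 151) (nat_lit 5) (nat_lit 146) (nat_lit 5) (nat_lit 362) (nat_lit 320) (nat_lit 218))) (XT.nd (nat_lit 78) (nat_lit 380) (nat_lit 0) (XT.lf (nat_lit 0) (nat_lit 5322777738) (nat_lit 456) (nat_lit 305408705) (nat_lit 76) (nat_lit 9642894705) (nat_lit 145) (nat_lit 5) (nat_lit 151) (nat_lit 5) (nat_lit 146) (nat_lit 5) (nat_lit 363) (nat_lit 320) (nat_lit 217)) (XT.lf (nat_lit 0) (nat_lit 8355684028) (nat_lit 456) (nat_lit 7036394357) (nat_lit 76) (nat_lit 149332635) (nat_lit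 140) (nat_lit 5) (nat_lit 146) (nat_lit 5) (nat_lit 141) (nat_lit 5) (nat_lit 364) (nat_lit 320) (nat_lit 216))))) (XT.nd (nat_lit 234) (nat_lit 608) (nat_lit 0) (XT.nd (nat_lit 78) (nat_lit 456) (nat_lit 0) (XT.lf (nat_lit 0) (nat_lit 1722352487) (nat_lit 304) (nat_lit 9816409050) (nat_lit 380) (nat_lit 4279319895) (nat_lit 136) (nat_lit 5) (nat_lit 140) (nat_lit 5) (nat_lit 141) (nat_lit 5) (nat_lit 365) (nat_lit 320) (nat_lit 215)) (XT.nd (nat_lit 78) (nat_lit 456) (nat_lit 0) (XT.lf (nat_lit 0) (nat_lit 10866555478) (nat_lit 304) (nat_lit 4005883291) (nat_lit 380) (nat_lit 1228965950) (nat_lit 136) (nat_lit 5) (nat_lit 140) (nat_lit 5) (nat_lit 141) (nat_lit 5) (nat_lit 366) (nat_lit 320) (nat_lit 214)) (XT.lf (nat_lit 0) (nat_lit 1917222332) (nat_lit 456) (nat_lit 12482642025) (nat_lit 76) (nat_lit 1991567815) (nat_lit 130) (nat_lit 5) (nat_lit 136) (nat_lit 5) (nat_lit 131) (nat_lit 5) (nat_lit 367)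 (nat_lit 320) (nat_lit 213)))) (XT.nd (nat_lit 156) (nat_lit 304) (nat_lit 0) (XT.nd (nat_lit 78) (nat_lit 304) (nat_lit 0) (XT.lf (nat_lit 0) (nat_lit 5210700891) (nat_lit 456) (nat_lit 3328319718) (nat_lit 76) (nat_lit 8148452110) (nat_lit 130) (nat_lit 5) (nat_lit 136) (nat_lit 5) (nat_lit 131) (nat_lit 5) (nat_lit 368) (nat_lit 320) (nat_lit 212)) (XT.lf (nat_lit 0) (nat_lit 6200817450) (nat_lit 304) (nat_lit 2446780482) (nat_lit 380) (nat_lit 8343463442) (nat_lit 126) (nat_lit 5) (nat_lit 130) (nat_lit 5) (nat_lit 131) (nat_lit 5) (nat_lit 369) (nat_lit 320) (nat_lit 211))) (XT.nd (nat_lit 78) (nat_lit 304) (nat_lit 0) (XT.lf (nat_lit 0) (nat_lit 12243533717) (nat_lit 380) (nat_lit 1276827886) (nat_lit 76) (nat_lit 3781723296) (nat_lit 126) (nat_lit 5) (nat_lit 131) (nat_lit 5) (nat_lit 127) (nat_lit 5) (nat_lit 370) (nat_lit 320) (nat_lit 210)) (XT.lf (nat_lit 0) (nat_lit 8646090699) (nat_lit 304)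 (nat_lit 7394215589) (nat_lit 380) (nat_lit 1579349092) (nat_lit 122) (nat_lit 5) (nat_lit 126) (nat_lit 5) (nat_lit 127) (nat_lit 5) (nat_lit 371) (nat_lit 320) (nat_lit 209))))))) (XT.nd (nat_lit 1014) (nat_lit 1824) (nat_lit 0) (XT.nd (nat_lit 468) (nat_lit 1140) (nat_lit 0) (XT.nd (nat_lit 234) (nat_lit 380) (nat_lit 0) (XT.nd (nat_lit 78) (nat_lit 304) (nat_lit 0) (XT.lf (nat_lit 0) (nat_lit 924674441) (nat_lit 304) (nat_lit 1048055988) (nat_lit 380) (nat_lit 15973220963) (nat_lit 117) (nat_lit 5) (nat_lit 121) (nat_lit 5) (nat_lit 122) (nat_lit 5) (nat_lit 372) (nat_lit 320) (nat_lit 208)) (XT.nd (nat_lit 78) (nat_lit 304) (nat_lit 0) (XT.lf (nat_lit 0) (nat_lit 5729763632) (nat_lit 380) (nat_lit 7065447449) (nat_lit 76) (nat_lit 5482456637) (nat_lit 117) (nat_lit 5) (nat_lit 122) (nat_lit 5) (nat_lit 118) (nat_lit 5) (nat_lit 373) (nat_lit 320) (nat_lit 207)) (XT.lf (nat_lit 0) (nat_lit 3221497897)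 (nat_lit 304) (nat_lit 6405628831) (nat_lit 380) (nat_lit 8991384694) (nat_lit 113) (nat_lit 5) (nat_lit 117) (nat_lit 5) (nat_lit 118) (nat_lit 5) (nat_lit 374) (nat_lit 320) (nat_lit 206)))) (XT.nd (nat_lit 78) (nat_lit 380) (nat_lit 0) (XT.lf (nat_lit 0) (nat_lit 13701575836) (nat_lit 380) (nat_lit 5028146128) (nat_lit 76) (nat_lit 238057842) (nat_lit 113) (nat_lit 5) (nat_lit 118) (nat_lit 5) (nat_lit 114) (nat_lit 5) (nat_lit 375) (nat_lit 320) (nat_lit 205)) (XT.nd (nat_lit 78) (nat_lit 76) (nat_lit 0) (XT.lf (nat_lit 0) (nat_lit 5679584983) (nat_lit 304) (nat_lit 12323509766) (nat_lit 380) (nat_lit 1321290603) (nat_lit 109) (nat_lit 5) (nat_lit 113) (nat_lit 5) (nat_lit 114) (nat_lit 5) (nat_lit 376) (nat_lit 320) (nat_lit 204)) (XT.lf (nat_lit 0) (nat_lit 2726624927) (nat_lit 380) (nat_lit 2925088102) (nat_lit 76) (nat_lit 14038044452) (nat_lit 108) (nat_lit 5) (nat_lit 113) (nat_lit 5) (nat_lit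 109) (nat_lit 5) (nat_lit 377) (nat_lit 320) (nat_lit 203))))) (XT.nd (nat_lit 234) (nat_lit 608) (nat_lit 0) (XT.nd (nat_lit 78) (nat_lit 228) (nat_lit 0) (XT.lf (nat_lit 0) (nat_lit 6948524441) (nat_lit 380) (nat_lit 11831376668) (nat_lit 76) (nat_lit 1283427951) (nat_lit 104) (nat_lit 5) (nat_lit 109) (nat_lit 5) (nat_lit 105) (nat_lit 5) (nat_lit 378) (nat_lit 320) (nat_lit 202)) (XT.nd (nat_lit 78) (nat_lit 228) (nat_lit 0) (XT.lf (nat_lit 0) (nat_lit 11370261718) (nat_lit 380) (nat_lit 739046475) (nat_lit 76) (nat_lit 8336607899) (nat_lit 104) (nat_lit 5) (nat_lit 109) (nat_lit 5) (nat_lit 105) (nat_lit 5) (nat_lit 379) (nat_lit 320) (nat_lit 201)) (XT.lf (nat_lit 0) (nat_lit 10879675319) (nat_lit 228) (nat_lit 5137318196) (nat_lit 304) (nat_lit 4820220570) (nat_lit 101) (nat_lit 5) (nat_lit 104) (nat_lit 5) (nat_lit 105) (nat_lit 5) (nat_lit 380) (nat_lit 320) (nat_lit 200)))) (XT.nd (nat_lit 156)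 (nat_lit 228) (nat_lit 0) (XT.nd (nat_lit 78) (nat_lit 76) (nat_lit 0) (XT.lf (nat_lit 0) (nat_lit 1615076577) (nat_lit 304) (nat_lit 19218636297) (nat_lit 380) (nat_lit 405624090) (nat_lit 97) (nat_lit 5) (nat_lit 101) (nat_lit 5) (nat_lit 102) (nat_lit 5) (nat_lit 381) (nat_lit 320) (nat_lit 199)) (XT.lf (nat_lit 0) (nat_lit 4200937795) (nat_lit 380) (nat_lit 8022046205) (nat_lit 76) (nat_lit 9425138311) (nat_lit 96) (nat_lit 5) (nat_lit 101) (nat_lit 5) (nat_lit 97) (nat_lit 5) (nat_lit 382) (nat_lit 320) (nat_lit 198))) (XT.nd (nat_lit 78) (nat_lit 0) (nat_lit 0) (XT.lf (nat_lit 0) (nat_lit 3983643337) (nat_lit 228) (nat_lit 4980474968) (nat_lit 304) (nat_lit 13104138417) (nat_lit 93) (nat_lit 5) (nat_lit 96) (nat_lit 5) (nat_lit 97) (nat_lit 5) (nat_lit 383) (nat_lit 320) (nat_lit 197)) (XT.lf (nat_lit 0) (nat_lit 13964220850) (nat_lit 304) (nat_lit 6027669134) (nat_lit 76) (nat_lit 2506287507) (nat_lit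 93) (nat_lit 5) (nat_lit 97) (nat_lit 5) (nat_lit 94) (nat_lit 5) (nat_lit 384) (nat_lit 320) (nat_lit 196)))))) (XT.nd (nat_lit 546) (nat_lit 836) (nat_lit 0) (XT.nd (nat_lit 234) (nat_lit 456) (nat_lit 0) (XT.nd (nat_lit 78) (nat_lit 304) (nat_lit 0) (XT.lf (nat_lit 0) (nat_lit 6449646936) (nat_lit 228) (nat_lit 12764712414) (nat_lit 304) (nat_lit 3723638579) (nat_lit 90) (nat_lit 5) (nat_lit 93) (nat_lit 5) (nat_lit 94) (nat_lit 5) (nat_lit 385) (nat_lit 320) (nat_lit 195)) (XT.nd (nat_lit 78) (nat_lit 228) (nat_lit 0) (XT.lf (nat_lit 0) (nat_lit 1257206861) (nat_lit 304) (nat_lit 3994710626) (nat_lit 76) (nat_lit 18137236195) (nat_lit 89) (nat_lit 5) (nat_lit 93) (nat_lit 5) (nat_lit 90) (nat_lit 5) (nat_lit 386) (nat_lit 320) (nat_lit 194)) (XT.lf (nat_lit 0) (nat_lit 6413255283) (nat_lit 304) (nat_lit 14880545764) (nat_lit 76) (nat_lit 2555921231) (nat_lit 86) (nat_lit 5) (nat_lit 90) (nat_lit 5)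 (nat_lit 87) (nat_lit 5) (nat_lit 387) (nat_lit 320) (nat_lit 193)))) (XT.nd (nat_lit 156) (nat_lit 228) (nat_lit 0) (XT.nd (nat_lit 78) (nat_lit 228) (nat_lit 0) (XT.lf (nat_lit 0) (nat_lit 11805907725) (nat_lit 304) (nat_lit 1988930177) (nat_lit 76) (nat_lit 10526815051) (nat_lit 86) (nat_lit 5) (nat_lit 90) (nat_lit 5) (nat_lit 87) (nat_lit 5) (nat_lit 388) (nat_lit 320) (nat_lit 192)) (XT.lf (nat_lit 0) (nat_lit 11496785582) (nat_lit 228) (nat_lit 5963568529) (nat_lit 304) (nat_lit 7344389619) (nat_lit 83) (nat_lit 5) (nat_lit 86) (nat_lit 5) (nat_lit 87) (nat_lit 5) (nat_lit 389) (nat_lit 320) (nat_lit 191))) (XT.nd (nat_lit 78) (nat_lit 76) (nat_lit 0) (XT.lf (nat_lit 0) (nat_lit 90396053) (nat_lit 152) (nat_lit 23224983910) (nat_lit 228) (nat_lit 1986021428) (nat_lit 81) (nat_lit 5) (nat_lit 83) (nat_lit 5) (nat_lit 84) (nat_lit 5) (nat_lit 390) (nat_lit 320) (nat_lit 190)) (XT.lf (nat_lit 0) (nat_lit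 3648533250) (nat_lit 228) (nat_lit 11756882348) (nat_lit 76) (nat_lit 10400995340) (nat_lit 80) (nat_lit 5) (nat_lit 83) (nat_lit 5) (nat_lit 81) (nat_lit 5) (nat_lit 391) (nat_lit 320) (nat_lit 189))))) (XT.nd (nat_lit 234) (nat_lit 456) (nat_lit 0) (XT.nd (nat_lit 78) (nat_lit 152) (nat_lit 0) (XT.lf (nat_lit 0) (nat_lit 2105670546) (nat_lit 228) (nat_lit 7316699168) (nat_lit 304) (nat_lit 16903308610) (nat_lit 77) (nat_lit 5) (nat_lit 80) (nat_lit 5) (nat_lit 81) (nat_lit 5) (nat_lit 392) (nat_lit 320) (nat_lit 188)) (XT.nd (nat_lit 78) (nat_lit 152) (nat_lit 0) (XT.lf (nat_lit 0) (nat_lit 15489065878) (nat_lit 304) (nat_lit 10259481109) (nat_lit 76) (nat_lit 1108389661) (nat_lit 77) (nat_lit 5) (nat_lit 81) (nat_lit 5) (nat_lit 78) (nat_lit 5) (nat_lit 393) (nat_lit 320) (nat_lit 187)) (XT.lf (nat_lit 0) (nat_lit 4111439595) (nat_lit 152) (nat_lit 17728572984) (nat_lit 228) (nat_lit 5561054846) (nat_lit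 75) (nat_lit 5) (nat_lit 77) (nat_lit 5) (nat_lit 78) (nat_lit 5) (nat_lit 394) (nat_lit 320) (nat_lit 186)))) (XT.nd (nat_lit 156) (nat_lit 152) (nat_lit 0) (XT.nd (nat_lit 78) (nat_lit 228) (nat_lit 0) (XT.lf (nat_lit 0) (nat_lit 506713996) (nat_lit 228) (nat_lit 8855923658) (nat_lit 76) (nat_lit 18595917122) (nat_lit 74) (nat_lit 5) (nat_lit 77) (nat_lit 5) (nat_lit 75) (nat_lit 5) (nat_lit 395) (nat_lit 320) (nat_lit 185)) (XT.lf (nat_lit 0) (nat_lit 6058177620) (nat_lit 228) (nat_lit 635400614) (nat_lit 304) (nat_lit 21836073700) (nat_lit 71) (nat_lit 5) (nat_lit 74) (nat_lit 5) (nat_lit 75) (nat_lit 5) (nat_lit 396) (nat_lit 320) (nat_lit 184))) (XT.nd (nat_lit 78) (nat_lit 152) (nat_lit 0) (XT.lf (nat_lit 0) (nat_lit 13227323592) (nat_lit 304) (nat_lit 7610980987) (nat_lit 76) (nat_lit 8274741118) (nat_lit 71) (nat_lit 5) (nat_lit 75) (nat_lit 5) (nat_lit 72) (nat_lit 5) (nat_lit 397) (nat_lit 320)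 (nat_lit 183)) (XT.lf (nat_lit 0) (nat_lit 7826382545) (nat_lit 152) (nat_lit 12203155701) (nat_lit 228) (nat_lit 9682231209) (nat_lit 69) (nat_lit 5) (nat_lit 71) (nat_lit 5) (nat_lit 72) (nat_lit 5) (nat_lit 398) (nat_lit 320) (nat_lit 182))))))))
noncomputable def xc156 : XT := (XT.nd (nat_lit 2106) (nat_lit 912) (nat_lit 0) (XT.nd (nat_lit 1014) (nat_lit 1140) (nat_lit 0) (XT.nd (nat_lit 468) (nat_lit 608) (nat_lit 0) (XT.nd (nat_lit 234) (nat_lit 304) (nat_lit 0) (XT.nd (nat_lit 78) (nat_lit 304) (nat_lit 0) (XT.lf (nat_lit 0) (nat_lit 23867660950) (nat_lit 152) (nat_lit 3236065962) (nat_lit 228) (nat_lit 3222692622) (nat_lit 69) (nat_lit 5) (nat_lit 71) (nat_lit 5) (nat_lit 72) (nat_lit 5) (nat_lit 399) (nat_lit 320) (nat_lit 181)) (XT.nd (nat_lit 78) (nat_lit 0) (nat_lit 0) (XT.lf (nat_lit 0) (nat_lit 3505754063) (nat_lit 304) (nat_lit 21445409629) (nat_lit 76) (nat_lit 6003095855) (nat_lit 65) (nat_lit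 5) (nat_lit 69) (nat_lit 5) (nat_lit 66) (nat_lit 5) (nat_lit 400) (nat_lit 320) (nat_lit 180)) (XT.lf (nat_lit 0) (nat_lit 10460466619) (nat_lit 304) (nat_lit 5590699569) (nat_lit 76) (nat_lit 15546137454) (nat_lit 65) (nat_lit 5) (nat_lit 69) (nat_lit 5) (nat_lit 66) (nat_lit 5) (nat_lit 401) (nat_lit 320) (nat_lit 179)))) (XT.nd (nat_lit 78) (nat_lit 152) (nat_lit 0) (XT.lf (nat_lit 0) (nat_lit 10938526628) (nat_lit 152) (nat_lit 6781974350) (nat_lit 228) (nat_lit 14536239300) (nat_lit 63) (nat_lit 5) (nat_lit 65) (nat_lit 5) (nat_lit 66) (nat_lit 5) (nat_lit 402) (nat_lit 320) (nat_lit 178)) (XT.nd (nat_lit 78) (nat_lit 152) (nat_lit 0) (XT.lf (nat_lit 0) (nat_lit 25273514256) (nat_lit 228) (nat_lit 4897799854) (nat_lit 76) (nat_lit 2762392148) (nat_lit 63) (nat_lit 5) (nat_lit 66) (nat_lit 5) (nat_lit 64) (nat_lit 5) (nat_lit 403) (nat_lit 320) (nat_lit 177)) (XT.lf (nat_lit 0) (nat_lit 12171385355)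 (nat_lit 152) (nat_lit 21057706950) (nat_lit 228) (nat_lit 396611218) (nat_lit 61) (nat_lit 5) (nat_lit 63) (nat_lit 5) (nat_lit 64) (nat_lit 5) (nat_lit 404) (nat_lit 320) (nat_lit 176))))) (XT.nd (nat_lit 234) (nat_lit 380) (nat_lit 0) (XT.nd (nat_lit 78) (nat_lit 152) (nat_lit 0) (XT.lf (nat_lit 0) (nat_lit 6988422207) (nat_lit 228) (nat_lit 4566749361) (nat_lit 76) (nat_lit 22779993561) (nat_lit 60) (nat_lit 5) (nat_lit 63) (nat_lit 5) (nat_lit 61) (nat_lit 5) (nat_lit 405) (nat_lit 320) (nat_lit 175)) (XT.nd (nat_lit 78) (nat_lit 0) (nat_lit 0) (XT.lf (nat_lit 0) (nat_lit 13064647549) (nat_lit 152) (nat_lit 1640059217) (nat_lit 228) (nat_lit 20357557271) (nat_lit 58) (nat_lit 5) (nat_lit 60) (nat_lit 5) (nat_lit 61) (nat_lit 5) (nat_lit 406) (nat_lit 320) (nat_lit 174)) (XT.lf (nat_lit 0) (nat_lit 22773584791) (nat_lit 228) (nat_lit 4587907488) (nat_lit 76) (nat_lit 8446051849) (nat_lit 58) (nat_lit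 5) (nat_lit 61) (nat_lit 5) (nat_lit 59) (nat_lit 5) (nat_lit 407) (nat_lit 320) (nat_lit 173)))) (XT.nd (nat_lit 156) (nat_lit 152) (nat_lit 0) (XT.nd (nat_lit 78) (nat_lit 76) (nat_lit 0) (XT.lf (nat_lit 0) (nat_lit 13579386314) (nat_lit 152) (nat_lit 17644272624) (nat_lit 228) (nat_lit 5347351117) (nat_lit 56) (nat_lit 5) (nat_lit 58) (nat_lit 5) (nat_lit 59) (nat_lit 5) (nat_lit 408) (nat_lit 320) (nat_lit 172)) (XT.lf (nat_lit 0) (nat_lit 2558872550) (nat_lit 228) (nat_lit 5008877368) (nat_lit 76) (nat_lit 29787715269) (nat_lit 55) (nat_lit 5) (nat_lit 58) (nat_lit 5) (nat_lit 56) (nat_lit 5) (nat_lit 409) (nat_lit 320) (nat_lit 171))) (XT.nd (nat_lit 78) (nat_lit 0) (nat_lit 0) (XT.lf (nat_lit 0) (nat_lit 10748038445) (nat_lit 228) (nat_lit 24471974627) (nat_lit 76) (nat_lit 2937256834) (nat_lit 53) (nat_lit 5) (nat_lit 56) (nat_lit 5) (nat_lit 54) (nat_lit 5) (nat_lit 410) (nat_lit 320) (nat_lit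 170)) (XT.lf (nat_lit 0) (nat_lit 19301523806) (nat_lit 228) (nat_lit 6027187915) (nat_lit 76) (nat_lit 13650858889) (nat_lit 53) (nat_lit 5) (nat_lit 56) (nat_lit 5) (nat_lit 54) (nat_lit 5) (nat_lit 411) (nat_lit 320) (nat_lit 169)))))) (XT.nd (nat_lit 546) (nat_lit 532) (nat_lit 0) (XT.nd (nat_lit 234) (nat_lit 228) (nat_lit 0) (XT.nd (nat_lit 78) (nat_lit 228) (nat_lit 0) (XT.lf (nat_lit 0) (nat_lit 13216100471) (nat_lit 152) (nat_lit 15015404637) (nat_lit 228) (nat_lit 11591439627) (nat_lit 51) (nat_lit 5) (nat_lit 53) (nat_lit 5) (nat_lit 54) (nat_lit 5) (nat_lit 412) (nat_lit 320) (nat_lit 168)) (XT.nd (nat_lit 78) (nat_lit 228) (nat_lit 0) (XT.lf (nat_lit 0) (nat_lit 33147628163) (nat_lit 152) (nat_lit 4335557631) (nat_lit 228) (nat_lit 3206821404) (nat_lit 51) (nat_lit 5) (nat_lit 53) (nat_lit 5) (nat_lit 54) (nat_lit 5) (nat_lit 413) (nat_lit 320) (nat_lit 167)) (XT.lf (nat_lit 0) (nat_lit 5500096159)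 (nat_lit 228) (nat_lit 29375026300) (nat_lit 76) (nat_lit 6701093217) (nat_lit 48) (nat_lit 5) (nat_lit 51) (nat_lit 5) (nat_lit 49) (nat_lit 5) (nat_lit 414) (nat_lit 320) (nat_lit 166)))) (XT.nd (nat_lit 156) (nat_lit 76) (nat_lit 0) (XT.nd (nat_lit 78) (nat_lit 152) (nat_lit 0) (XT.lf (nat_lit 0) (nat_lit 14516716668) (nat_lit 228) (nat_lit 9882895579) (nat_lit 76) (nat_lit 18085058177) (nat_lit 48) (nat_lit 5) (nat_lit 51) (nat_lit 5) (nat_lit 49) (nat_lit 5) (nat_lit 415) (nat_lit 320) (nat_lit 165)) (XT.lf (nat_lit 0) (nat_lit 10384586178) (nat_lit 152) (nat_lit 13512379124) (nat_lit 228) (nat_lit 19520620613) (nat_lit 46) (nat_lit 5) (nat_lit 48) (nat_lit 5) (nat_lit 49) (nat_lit 5) (nat_lit 416) (nat_lit 320) (nat_lit 164))) (XT.nd (nat_lit 78) (nat_lit 76) (nat_lit 0) (XT.lf (nat_lit 0) (nat_lit 31450746667) (nat_lit 152) (nat_lit 2201059336) (nat_lit 228) (nat_lit 10723888288) (nat_lit 46) (nat_lit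 5) (nat_lit 48) (nat_lit 5) (nat_lit 49) (nat_lit 5) (nat_lit 417) (nat_lit 320) (nat_lit 163)) (XT.lf (nat_lit 0) (nat_lit 7836701345) (nat_lit 76) (nat_lit 36022286773) (nat_lit 152) (nat_lit 1498767843) (nat_lit 45) (nat_lit 5) (nat_lit 46) (nat_lit 5) (nat_lit 47) (nat_lit 4) (nat_lit 418) (nat_lit 320) (nat_lit 162))))) (XT.nd (nat_lit 234) (nat_lit 304) (nat_lit 0) (XT.nd (nat_lit 78) (nat_lit 152) (nat_lit 0) (XT.lf (nat_lit 0) (nat_lit 7994080617) (nat_lit 152) (nat_lit 16990977127) (nat_lit 76) (nat_lit 21377500376) (nat_lit 44) (nat_lit 5) (nat_lit 46) (nat_lit 5) (nat_lit 45) (nat_lit 5) (nat_lit 419) (nat_lit 320) (nat_lit 161)) (XT.nd (nat_lit 78) (nat_lit 0) (nat_lit 0) (XT.lf (nat_lit 0) (nat_lit 4210929905) (nat_lit 152) (nat_lit 13564869291) (nat_lit 228) (nat_lit 29620234568) (nat_lit 42) (nat_lit 5) (nat_lit 44) (nat_lit 5) (nat_lit 45) (nat_lit 5) (nat_lit 420) (nat_lit 320) (nat_lit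 160)) (XT.lf (nat_lit 0) (nat_lit 26385900422) (nat_lit 152) (nat_lit 1630448909) (nat_lit 228) (nat_lit 20439203773) (nat_lit 42) (nat_lit 5) (nat_lit 44) (nat_lit 5) (nat_lit 45) (nat_lit 5) (nat_lit 421) (nat_lit 320) (nat_lit 159)))) (XT.nd (nat_lit 156) (nat_lit 228) (nat_lit 0) (XT.nd (nat_lit 78) (nat_lit 76) (nat_lit 0) (XT.lf (nat_lit 0) (nat_lit 38660543010) (nat_lit 228) (nat_lit 434324570) (nat_lit 76) (nat_lit 10449098435) (nat_lit 42) (nat_lit 5) (nat_lit 45) (nat_lit 5) (nat_lit 43) (nat_lit 4) (nat_lit 422) (nat_lit 320) (nat_lit 158)) (XT.lf (nat_lit 0) (nat_lit 22257470049) (nat_lit 76) (nat_lit 27590801840) (nat_lit 152) (nat_lit 810033919) (nat_lit 41) (nat_lit 5) (nat_lit 42) (nat_lit 5) (nat_lit 43) (nat_lit 4) (nat_lit 423) (nat_lit 320) (nat_lit 157))) (XT.nd (nat_lit 78) (nat_lit 152) (nat_lit 0) (XT.lf (nat_lit 0) (nat_lit 9377452092) (nat_lit 152) (nat_lit 6269801624) (nat_lit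 76) (nat_lit 36156107705) (nat_lit 40) (nat_lit 5) (nat_lit 42) (nat_lit 5) (nat_lit 41) (nat_lit 5) (nat_lit 424) (nat_lit 320) (nat_lit 156)) (XT.lf (nat_lit 0) (nat_lit 16835186951) (nat_lit 152) (nat_lit 3175220570) (nat_lit 228) (nat_lit 32967437516) (nat_lit 38) (nat_lit 5) (nat_lit 40) (nat_lit 5) (nat_lit 41) (nat_lit 5) (nat_lit 425) (nat_lit 320) (nat_lit 155))))))) (XT.nd (nat_lit 1014) (nat_lit 228) (nat_lit 0) (XT.nd (nat_lit 468) (nat_lit 380) (nat_lit 0) (XT.nd (nat_lit 234) (nat_lit 228) (nat_lit 0) (XT.nd (nat_lit 78) (nat_lit 76) (nat_lit 0) (XT.lf (nat_lit 0) (nat_lit 31113571090) (nat_lit 228) (nat_lit 13527897255) (nat_lit 76) (nat_lit 9541558925) (nat_lit 38) (nat_lit 5) (nat_lit 41) (nat_lit 5) (nat_lit 39) (nat_lit 4) (nat_lit 426) (nat_lit 320) (nat_lit 154)) (XT.nd (nat_lit 78) (nat_lit 0) (nat_lit 0) (XT.lf (nat_lit 0) (nat_lit 9917201248) (nat_lit 76) (nat_lit 32753878485) (nat_lit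 152) (nat_lit 12749648403) (nat_lit 37) (nat_lit 5) (nat_lit 38) (nat_lit 5) (nat_lit 39) (nat_lit 4) (nat_lit 427) (nat_lit 320) (nat_lit 153)) (XT.lf (nat_lit 0) (nat_lit 34332873575) (nat_lit 76) (nat_lit 20373591179) (nat_lit 152) (nat_lit 1985161393) (nat_lit 37) (nat_lit 5) (nat_lit 38) (nat_lit 5) (nat_lit 39) (nat_lit 4) (nat_lit 428) (nat_lit 320) (nat_lit 152)))) (XT.nd (nat_lit 78) (nat_lit 0) (nat_lit 0) (XT.lf (nat_lit 0) (nat_lit 1410491241) (nat_lit 152) (nat_lit 7522361296) (nat_lit 228) (nat_lit 49064927974) (nat_lit 34) (nat_lit 5) (nat_lit 36) (nat_lit 5) (nat_lit 37) (nat_lit 5) (nat_lit 429) (nat_lit 320) (nat_lit 151)) (XT.nd (nat_lit 78) (nat_lit 0) (nat_lit 0) (XT.lf (nat_lit 0) (nat_lit 20416122274) (nat_lit 228) (nat_lit 33071941820) (nat_lit 76) (nat_lit 5846137903) (nat_lit 34) (nat_lit 5) (nat_lit 37) (nat_lit 5) (nat_lit 35) (nat_lit 4) (nat_lit 430) (nat_lit 320) (nat_lit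 150)) (XT.lf (nat_lit 0) (nat_lit 32313193978) (nat_lit 228) (nat_lit 8935243559) (nat_lit 76) (nat_lit 19460200054) (nat_lit 34) (nat_lit 5) (nat_lit 37) (nat_lit 5) (nat_lit 35) (nat_lit 4) (nat_lit 431) (nat_lit 320) (nat_lit 149))))) (XT.nd (nat_lit 234) (nat_lit 76) (nat_lit 0) (XT.nd (nat_lit 78) (nat_lit 228) (nat_lit 0) (XT.lf (nat_lit 0) (nat_lit 16232969066) (nat_lit 76) (nat_lit 28485225774) (nat_lit 152) (nat_lit 17401581466) (nat_lit 33) (nat_lit 5) (nat_lit 34) (nat_lit 5) (nat_lit 35) (nat_lit 4) (nat_lit 432) (nat_lit 320) (nat_lit 148)) (XT.nd (nat_lit 78) (nat_lit 228) (nat_lit 0) (XT.lf (nat_lit 0) (nat_lit 42330133193) (nat_lit 76) (nat_lit 15250474089) (nat_lit 152) (nat_lit 5990084599) (nat_lit 33) (nat_lit 5) (nat_lit 34) (nat_lit 5) (nat_lit 35) (nat_lit 4) (nat_lit 433) (nat_lit 320) (nat_lit 147)) (XT.lf (nat_lit 0) (nat_lit 4161797838) (nat_lit 152) (nat_lit 1524622936) (nat_lit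 228) (nat_lit 59375998463) (nat_lit 30) (nat_lit 5) (nat_lit 32) (nat_lit 5) (nat_lit 33) (nat_lit 5) (nat_lit 434) (nat_lit 320) (nat_lit 146)))) (XT.nd (nat_lit 156) (nat_lit 76) (nat_lit 0) (XT.nd (nat_lit 78) (nat_lit 0) (nat_lit 0) (XT.lf (nat_lit 0) (nat_lit 17925826772) (nat_lit 228) (nat_lit 36022605462) (nat_lit 76) (nat_lit 12638697439) (nat_lit 30) (nat_lit 5) (nat_lit 33) (nat_lit 5) (nat_lit 31) (nat_lit 4) (nat_lit 435) (nat_lit 320) (nat_lit 145)) (XT.lf (nat_lit 0) (nat_lit 30542796329) (nat_lit 228) (nat_lit 10422181272) (nat_lit 76) (nat_lit 27192292866) (nat_lit 30) (nat_lit 5) (nat_lit 33) (nat_lit 5) (nat_lit 31) (nat_lit 4) (nat_lit 436) (nat_lit 320) (nat_lit 144))) (XT.nd (nat_lit 78) (nat_lit 0) (nat_lit 0) (XT.lf (nat_lit 0) (nat_lit 16254867084) (nat_lit 76) (nat_lit 27435083015) (nat_lit 152) (nat_lit 26080015603) (nat_lit 29) (nat_lit 5) (nat_lit 30) (nat_lit 5) (nat_lit 31)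 (nat_lit 4) (nat_lit 437) (nat_lit 320) (nat_lit 143)) (XT.lf (nat_lit 0) (nat_lit 43937375942) (nat_lit 76) (nat_lit 13394861172) (nat_lit 152) (nat_lit 14095783578) (nat_lit 29) (nat_lit 5) (nat_lit 30) (nat_lit 5) (nat_lit 31) (nat_lit 4) (nat_lit 438) (nat_lit 320) (nat_lit 142)))))) (XT.nd (nat_lit 37830) (nat_lit 0) (nat_lit 18544) (XT.nd (nat_lit 234) (nat_lit 76) (nat_lit 0) (XT.nd (nat_lit 78) (nat_lit 152) (nat_lit 0) (XT.lf (nat_lit 0) (nat_lit 71389615014) (nat_lit 152) (nat_lit 704052957) (nat_lit 0) (nat_lit 1041975136) (nat_lit 29) (nat_lit 5) (nat_lit 31) (nat_lit 4) (nat_lit 29) (nat_lit 4) (nat_lit 439) (nat_lit 320) (nat_lit 141)) (XT.nd (nat_lit 78) (nat_lit 0) (nat_lit 0) (XT.lf (nat_lit 0) (nat_lit 11154470856) (nat_lit 152) (nat_lit 47714436055) (nat_lit 76) (nat_lit 16010591054) (nat_lit 27) (nat_lit 5) (nat_lit 29) (nat_lit 5) (nat_lit 28) (nat_lit 4) (nat_lit 440) (nat_lit 320)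 (nat_lit 140)) (XT.lf (nat_lit 0) (nat_lit 24409775755) (nat_lit 152) (nat_lit 20816237030) (nat_lit 76) (nat_lit 31449050936) (nat_lit 27) (nat_lit 5) (nat_lit 29) (nat_lit 5) (nat_lit 28) (nat_lit 4) (nat_lit 441) (nat_lit 320) (nat_lit 139)))) (XT.nd (nat_lit 37440) (nat_lit 0) (nat_lit 19456) (XT.nd (nat_lit 78) (nat_lit 0) (nat_lit 0) (XT.lf (nat_lit 0) (nat_lit 7017983548) (nat_lit 76) (nat_lit 31108046985) (nat_lit 152) (nat_lit 40396567589) (nat_lit 26) (nat_lit 5) (nat_lit 27) (nat_lit 5) (nat_lit 28) (nat_lit 4) (nat_lit 442) (nat_lit 320) (nat_lit 138)) (XT.lf (nat_lit 0) (nat_lit 36106149806) (nat_lit 76) (nat_lit 16353702462) (nat_lit 152) (nat_lit 27959524290) (nat_lit 26) (nat_lit 5) (nat_lit 27) (nat_lit 5) (nat_lit 28) (nat_lit 4) (nat_lit 443) (nat_lit 320) (nat_lit 137))) (XT.nd (nat_lit 78) (nat_lit 988) (nat_lit 0) (XT.lf (nat_lit 0) (nat_lit 4105086448) (nat_lit 988) (nat_lit 30297873)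 (nat_lit 988) (nat_lit 30297873) (nat_lit 295) (nat_lit 3) (nat_lit 308) (nat_lit 3) (nat_lit 308) (nat_lit 5) (nat_lit 321) (nat_lit 321) (nat_lit 258)) (XT.lf (nat_lit 0) (nat_lit 982075536) (nat_lit 988) (nat_lit 4413660462) (nat_lit 1064) (nat_lit 3026920024) (nat_lit 282) (nat_lit 5) (nat_lit 295) (nat_lit 3) (nat_lit 296) (nat_lit 5) (nat_lit 322) (nat_lit 321) (nat_lit 257))))) (XT.nd (nat_lit 234) (nat_lit 912) (nat_lit 0) (XT.nd (nat_lit 78) (nat_lit 0) (nat_lit 76) (XT.lf (nat_lit 0) (nat_lit 2074901051) (nat_lit 988) (nat_lit 338402761) (nat_lit 1064) (nat_lit 6104604442) (nat_lit 282) (nat_lit 5) (nat_lit 295) (nat_lit 3) (nat_lit 296) (nat_lit 5) (nat_lit 323) (nat_lit 321) (nat_lit 256)) (XT.nd (nat_lit 78) (nat_lit 0) (nat_lit 0) (XT.lf (nat_lit 0) (nat_lit 3204508924) (nat_lit 988) (nat_lit 4709320761) (nat_lit 1064) (nat_lit 702092453) (nat_lit 283) (nat_lit 5) (nat_lit 296) (nat_lit 5)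 (nat_lit 297) (nat_lit 5) (nat_lit 324) (nat_lit 321) (nat_lit 255)) (XT.lf (nat_lit 0) (nat_lit 4355988691) (nat_lit 988) (nat_lit 477769331) (nat_lit 1064) (nat_lit 3883502222) (nat_lit 283) (nat_lit 5) (nat_lit 296) (nat_lit 5) (nat_lit 297) (nat_lit 5) (nat_lit 325) (nat_lit 321) (nat_lit 254)))) (XT.nd (nat_lit 156) (nat_lit 988) (nat_lit 0) (XT.nd (nat_lit 78) (nat_lit 0) (nat_lit 76) (XT.lf (nat_lit 76) (nat_lit 3935227808) (nat_lit 0) (nat_lit 1606397833) (nat_lit 1064) (nat_lit 3280047103) (nat_lit 284) (nat_lit 5) (nat_lit 283) (nat_lit 5) (nat_lit 297) (nat_lit 5) (nat_lit 326) (nat_lit 321) (nat_lit 253)) (XT.lf (nat_lit 0) (nat_lit 6747048748) (nat_lit 988) (nat_lit 478585041) (nat_lit 1064) (nat_lit 1704079294) (nat_lit 284) (nat_lit 5) (nat_lit 297) (nat_lit 5) (nat_lit 298) (nat_lit 5) (nat_lit 327) (nat_lit 321) (nat_lit 252))) (XT.nd (nat_lit 78) (nat_lit 1064) (nat_lit 0) (XT.lf (nat_lit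 76) (nat_lit 4102989564) (nat_lit 0) (nat_lit 3904905276) (nat_lit 1064) (nat_lit 1032543320) (nat_lit 285) (nat_lit 5) (nat_lit 284) (nat_lit 5) (nat_lit 298) (nat_lit 5) (nat_lit 328) (nat_lit 321) (nat_lit 251)) (XT.lf (nat_lit 0) (nat_lit 118375030) (nat_lit 1064) (nat_lit 347214735) (nat_lit 1140) (nat_lit 8689793639) (nat_lit 270) (nat_lit 5) (nat_lit 284) (nat_lit 5) (nat_lit 285) (nat_lit 5) (nat_lit 329) (nat_lit 321) (nat_lit 250))))))))
noncomputable def xc157 : XT := (XT.nd (nat_lit 2106) (nat_lit 5548) (nat_lit 0) (XT.nd (nat_lit 1014) (nat_lit 4484) (nat_lit 0) (XT.nd (nat_lit 468) (nat_lit 3268) (nat_lit 0) (XT.nd (nat_lit 234) (nat_lit 0) (nat_lit 76) (XT.nd (nat_lit 78) (nat_lit 0) (nat_lit 0) (XT.lf (nat_lit 0) (nat_lit 1321329789) (nat_lit 1064) (nat_lit 4868939931) (nat_lit 1140) (nat_lit 3082072254) (nat_lit 271) (nat_lit 5) (nat_lit 285) (nat_lit 5) (nat_lit 286) (nat_lit 5) (nat_lit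 330) (nat_lit 321) (nat_lit 249)) (XT.nd (nat_lit 78) (nat_lit 0) (nat_lit 76) (XT.lf (nat_lit 0) (nat_lit 2534845577) (nat_lit 1064) (nat_lit 117127753) (nat_lit 1140) (nat_lit 6741620757) (nat_lit 271) (nat_lit 5) (nat_lit 285) (nat_lit 5) (nat_lit 286) (nat_lit 5) (nat_lit 331) (nat_lit 321) (nat_lit 248)) (XT.lf (nat_lit 0) (nat_lit 3808779430) (nat_lit 1064) (nat_lit 4679071135) (nat_lit 1140) (nat_lit 1029931225) (nat_lit 272) (nat_lit 5) (nat_lit 286) (nat_lit 5) (nat_lit 287) (nat_lit 5) (nat_lit 332) (nat_lit 321) (nat_lit 247)))) (XT.nd (nat_lit 78) (nat_lit 0) (nat_lit 0) (XT.lf (nat_lit 76) (nat_lit 255078398) (nat_lit 0) (nat_lit 4863885580) (nat_lit 1140) (nat_lit 4526808035) (nat_lit 273) (nat_lit 5) (nat_lit 272) (nat_lit 5) (nat_lit 287) (nat_lit 5) (nat_lit 333) (nat_lit 321) (nat_lit 246)) (XT.nd (nat_lit 78) (nat_lit 0) (nat_lit 76) (XT.lf (nat_lit 76) (nat_lit 5409804314) (nat_lit 0)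 (nat_lit 1074731956) (nat_lit 1140) (nat_lit 3292600553) (nat_lit 273) (nat_lit 5) (nat_lit 272) (nat_lit 5) (nat_lit 287) (nat_lit 5) (nat_lit 334) (nat_lit 321) (nat_lit 245)) (XT.lf (nat_lit 76) (nat_lit 770905780) (nat_lit 0) (nat_lit 7124579128) (nat_lit 1140) (nat_lit 2016842239) (nat_lit 274) (nat_lit 5) (nat_lit 273) (nat_lit 5) (nat_lit 288) (nat_lit 5) (nat_lit 335) (nat_lit 321) (nat_lit 244))))) (XT.nd (nat_lit 234) (nat_lit 2356) (nat_lit 0) (XT.nd (nat_lit 78) (nat_lit 1064) (nat_lit 0) (XT.lf (nat_lit 76) (nat_lit 6118515336) (nat_lit 0) (nat_lit 3255351932) (nat_lit 1140) (nat_lit 676969105) (nat_lit 274) (nat_lit 5) (nat_lit 273) (nat_lit 5) (nat_lit 288) (nat_lit 5) (nat_lit 336) (nat_lit 321) (nat_lit 243)) (XT.nd (nat_lit 78) (nat_lit 0) (nat_lit 0) (XT.lf (nat_lit 0) (nat_lit 681436187) (nat_lit 1140) (nat_lit 8770187298) (nat_lit 76) (nat_lit 741928367) (nat_lit 259) (nat_lit 5) (nat_lit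 274) (nat_lit 5) (nat_lit 260) (nat_lit 5) (nat_lit 337) (nat_lit 321) (nat_lit 242)) (XT.lf (nat_lit 0) (nat_lit 2111019937) (nat_lit 1140) (nat_lit 3382400050) (nat_lit 76) (nat_lit 4845621712) (nat_lit 259) (nat_lit 5) (nat_lit 274) (nat_lit 5) (nat_lit 260) (nat_lit 5) (nat_lit 338) (nat_lit 321) (nat_lit 241)))) (XT.nd (nat_lit 156) (nat_lit 1216) (nat_lit 0) (XT.nd (nat_lit 78) (nat_lit 0) (nat_lit 0) (XT.lf (nat_lit 0) (nat_lit 2186339581) (nat_lit 1140) (nat_lit 1390691946) (nat_lit 1216) (nat_lit 6912073032) (nat_lit 244) (nat_lit 5) (nat_lit 259) (nat_lit 5) (nat_lit 260) (nat_lit 5) (nat_lit 339) (nat_lit 321) (nat_lit 240)) (XT.lf (nat_lit 0) (nat_lit 5121908462) (nat_lit 1216) (nat_lit 2702731541) (nat_lit 76) (nat_lit 2817996858) (nat_lit 244) (nat_lit 5) (nat_lit 260) (nat_lit 5) (nat_lit 245) (nat_lit 5) (nat_lit 340) (nat_lit 321) (nat_lit 239))) (XT.nd (nat_lit 78) (nat_lit 0) (nat_lit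 0) (XT.lf (nat_lit 0) (nat_lit 3088527076) (nat_lit 1216) (nat_lit 3641983371) (nat_lit 1292) (nat_lit 4069757018) (nat_lit 228) (nat_lit 5) (nat_lit 244) (nat_lit 5) (nat_lit 245) (nat_lit 5) (nat_lit 341) (nat_lit 321) (nat_lit 238)) (XT.lf (nat_lit 0) (nat_lit 8395819209) (nat_lit 1292) (nat_lit 1883405319) (nat_lit 76) (nat_lit 683162295) (nat_lit 228) (nat_lit 5) (nat_lit 245) (nat_lit 5) (nat_lit 229) (nat_lit 5) (nat_lit 342) (nat_lit 321) (nat_lit 237)))))) (XT.nd (nat_lit 546) (nat_lit 2052) (nat_lit 0) (XT.nd (nat_lit 234) (nat_lit 1140) (nat_lit 0) (XT.nd (nat_lit 78) (nat_lit 684) (nat_lit 0) (XT.lf (nat_lit 0) (nat_lit 4141378225) (nat_lit 608) (nat_lit 6020803665) (nat_lit 684) (nat_lit 965667937) (nat_lit 220) (nat_lit 5) (nat_lit 228) (nat_lit 5) (nat_lit 229) (nat_lit 5) (nat_lit 343) (nat_lit 321) (nat_lit 236)) (XT.nd (nat_lit 78) (nat_lit 608) (nat_lit 0) (XT.lf (nat_lit 0) (nat_lit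 664607409) (nat_lit 684) (nat_lit 942377930) (nat_lit 76) (nat_lit 9691266069) (nat_lit 219) (nat_lit 5) (nat_lit 228) (nat_lit 5) (nat_lit 220) (nat_lit 5) (nat_lit 344) (nat_lit 321) (nat_lit 235)) (XT.lf (nat_lit 0) (nat_lit 2380917077) (nat_lit 684) (nat_lit 6146297527) (nat_lit 76) (nat_lit 2944579364) (nat_lit 211) (nat_lit 5) (nat_lit 220) (nat_lit 5) (nat_lit 212) (nat_lit 5) (nat_lit 345) (nat_lit 321) (nat_lit 234)))) (XT.nd (nat_lit 156) (nat_lit 532) (nat_lit 0) (XT.nd (nat_lit 78) (nat_lit 0) (nat_lit 0) (XT.lf (nat_lit 0) (nat_lit 113433386) (nat_lit 608) (nat_lit 4038567835) (nat_lit 684) (nat_lit 7498454494) (nat_lit 203) (nat_lit 5) (nat_lit 211) (nat_lit 5) (nat_lit 212) (nat_lit 5) (nat_lit 346) (nat_lit 321) (nat_lit 233)) (XT.lf (nat_lit 0) (nat_lit 6021649246) (nat_lit 684) (nat_lit 5175612014) (nat_lit 76) (nat_lit 635864251) (nat_lit 203) (nat_lit 5) (nat_lit 212) (nat_lit 5) (nat_lit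 204) (nat_lit 5) (nat_lit 347) (nat_lit 321) (nat_lit 232))) (XT.nd (nat_lit 78) (nat_lit 0) (nat_lit 0) (XT.lf (nat_lit 0) (nat_lit 1339778707) (nat_lit 532) (nat_lit 6638269128) (nat_lit 608) (nat_lit 4042318544) (nat_lit 196) (nat_lit 5) (nat_lit 203) (nat_lit 5) (nat_lit 204) (nat_lit 5) (nat_lit 348) (nat_lit 321) (nat_lit 231)) (XT.lf (nat_lit 0) (nat_lit 8133931817) (nat_lit 532) (nat_lit 1889694219) (nat_lit 608) (nat_lit 2188694301) (nat_lit 196) (nat_lit 5) (nat_lit 203) (nat_lit 5) (nat_lit 204) (nat_lit 5) (nat_lit 349) (nat_lit 321) (nat_lit 230))))) (XT.nd (nat_lit 234) (nat_lit 988) (nat_lit 0) (XT.nd (nat_lit 78) (nat_lit 532) (nat_lit 0) (XT.lf (nat_lit 0) (nat_lit 2723404001) (nat_lit 532) (nat_lit 9441046171) (nat_lit 608) (nat_lit 244576576) (nat_lit 189) (nat_lit 5) (nat_lit 196) (nat_lit 5) (nat_lit 197) (nat_lit 5) (nat_lit 350) (nat_lit 321) (nat_lit 229)) (XT.nd (nat_lit 78) (nat_lit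 456) (nat_lit 0) (XT.lf (nat_lit 0) (nat_lit 1762896806) (nat_lit 608) (nat_lit 2856529874) (nat_lit 76) (nat_lit 7990530314) (nat_lit 188) (nat_lit 5) (nat_lit 196) (nat_lit 5) (nat_lit 189) (nat_lit 5) (nat_lit 351) (nat_lit 321) (nat_lit 228)) (XT.lf (nat_lit 0) (nat_lit 3849777721) (nat_lit 532) (nat_lit 8584622203) (nat_lit 76) (nat_lit 381728929) (nat_lit 182) (nat_lit 5) (nat_lit 189) (nat_lit 5) (nat_lit 183) (nat_lit 5) (nat_lit 352) (nat_lit 321) (nat_lit 227)))) (XT.nd (nat_lit 156) (nat_lit 456) (nat_lit 0) (XT.nd (nat_lit 78) (nat_lit 532) (nat_lit 0) (XT.lf (nat_lit 0) (nat_lit 6054137062) (nat_lit 532) (nat_lit 1505572149) (nat_lit 76) (nat_lit 5467139551) (nat_lit 182) (nat_lit 5) (nat_lit 189) (nat_lit 5) (nat_lit 183) (nat_lit 5) (nat_lit 353) (nat_lit 321) (nat_lit 226)) (XT.lf (nat_lit 0) (nat_lit 5878551925) (nat_lit 532) (nat_lit 2483170051) (nat_lit 608) (nat_lit 4881064240) (nat_lit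 175) (nat_lit 5) (nat_lit 182) (nat_lit 5) (nat_lit 183) (nat_lit 5) (nat_lit 354) (nat_lit 321) (nat_lit 225))) (XT.nd (nat_lit 78) (nat_lit 0) (nat_lit 0) (XT.lf (nat_lit 0) (nat_lit 1454231) (nat_lit 456) (nat_lit 10759757257) (nat_lit 532) (nat_lit 2703318526) (nat_lit 169) (nat_lit 5) (nat_lit 175) (nat_lit 5) (nat_lit 176) (nat_lit 5) (nat_lit 355) (nat_lit 321) (nat_lit 224)) (XT.lf (nat_lit 0) (nat_lit 7691869552) (nat_lit 456) (nat_lit 5620784599) (nat_lit 532) (nat_lit 377881208) (nat_lit 169) (nat_lit 5) (nat_lit 175) (nat_lit 5) (nat_lit 176) (nat_lit 5) (nat_lit 356) (nat_lit 321) (nat_lit 223))))))) (XT.nd (nat_lit 1014) (nat_lit 2584) (nat_lit 0) (XT.nd (nat_lit 468) (nat_lit 1520) (nat_lit 0) (XT.nd (nat_lit 234) (nat_lit 532) (nat_lit 0) (XT.nd (nat_lit 78) (nat_lit 380) (nat_lit 0) (XT.lf (nat_lit 0) (nat_lit 1681234251) (nat_lit 456) (nat_lit 294498007) (nat_lit 532) (nat_lit 11947081318)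 (nat_lit 162) (nat_lit 5) (nat_lit 168) (nat_lit 5) (nat_lit 169) (nat_lit 5) (nat_lit 357) (nat_lit 321) (nat_lit 222)) (XT.nd (nat_lit 78) (nat_lit 380) (nat_lit 0) (XT.lf (nat_lit 0) (nat_lit 4485348253) (nat_lit 532) (nat_lit 4522148498) (nat_lit 76) (nat_lit 5151669056) (nat_lit 162) (nat_lit 5) (nat_lit 169) (nat_lit 5) (nat_lit 163) (nat_lit 5) (nat_lit 358) (nat_lit 321) (nat_lit 221)) (XT.lf (nat_lit 0) (nat_lit 3472191862) (nat_lit 380) (nat_lit 3616790443) (nat_lit 456) (nat_lit 7313071773) (nat_lit 157) (nat_lit 5) (nat_lit 162) (nat_lit 5) (nat_lit 163) (nat_lit 5) (nat_lit 359) (nat_lit 321) (nat_lit 220)))) (XT.nd (nat_lit 78) (nat_lit 532) (nat_lit 0) (XT.lf (nat_lit 0) (nat_lit 9818153687) (nat_lit 456) (nat_lit 2892643245) (nat_lit 76) (nat_lit 1940016364) (nat_lit 157) (nat_lit 5) (nat_lit 163) (nat_lit 5) (nat_lit 158) (nat_lit 5) (nat_lit 360) (nat_lit 321) (nat_lit 219)) (XT.nd (nat_lit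 78) (nat_lit 76) (nat_lit 0) (XT.lf (nat_lit 0) (nat_lit 5434781661) (nat_lit 456) (nat_lit 7265679362) (nat_lit 532) (nat_lit 2204443380) (nat_lit 151) (nat_lit 5) (nat_lit 157) (nat_lit 5) (nat_lit 158) (nat_lit 5) (nat_lit 361) (nat_lit 321) (nat_lit 218)) (XT.lf (nat_lit 0) (nat_lit 505636937) (nat_lit 532) (nat_lit 1120820962) (nat_lit 76) (nat_lit 13539637177) (nat_lit 150) (nat_lit 5) (nat_lit 157) (nat_lit 5) (nat_lit 151) (nat_lit 5) (nat_lit 362) (nat_lit 321) (nat_lit 217))))) (XT.nd (nat_lit 234) (nat_lit 760) (nat_lit 0) (XT.nd (nat_lit 78) (nat_lit 380) (nat_lit 0) (XT.lf (nat_lit 0) (nat_lit 3350525315) (nat_lit 456) (nat_lit 7889395811) (nat_lit 76) (nat_lit 4191617524) (nat_lit 145) (nat_lit 5) (nat_lit 151) (nat_lit 5) (nat_lit 146) (nat_lit 5) (nat_lit 363) (nat_lit 321) (nat_lit 216)) (XT.nd (nat_lit 78) (nat_lit 0) (nat_lit 0) (XT.lf (nat_lit 0) (nat_lit 761100177) (nat_lit 380) (nat_lit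 5538553040) (nat_lit 456) (nat_lit 9404731694) (nat_lit 140) (nat_lit 5) (nat_lit 145) (nat_lit 5) (nat_lit 146) (nat_lit 5) (nat_lit 364) (nat_lit 321) (nat_lit 215)) (XT.lf (nat_lit 0) (nat_lit 9405181121) (nat_lit 456) (nat_lit 6175313641) (nat_lit 76) (nat_lit 402889997) (nat_lit 140) (nat_lit 5) (nat_lit 146) (nat_lit 5) (nat_lit 141) (nat_lit 5) (nat_lit 365) (nat_lit 321) (nat_lit 214)))) (XT.nd (nat_lit 156) (nat_lit 456) (nat_lit 0) (XT.nd (nat_lit 78) (nat_lit 0) (nat_lit 0) (XT.lf (nat_lit 0) (nat_lit 2835684112) (nat_lit 304) (nat_lit 9835005385) (nat_lit 380) (nat_lit 3598066479) (nat_lit 136) (nat_lit 5) (nat_lit 140) (nat_lit 5) (nat_lit 141) (nat_lit 5) (nat_lit 366) (nat_lit 321) (nat_lit 213)) (XT.lf (nat_lit 0) (nat_lit 12223291027) (nat_lit 304) (nat_lit 3858199658) (nat_lit 380) (nat_lit 479783460) (nat_lit 136) (nat_lit 5) (nat_lit 140) (nat_lit 5) (nat_lit 141) (nat_lit 5) (nat_lit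 367) (nat_lit 321) (nat_lit 212))) (XT.nd (nat_lit 78) (nat_lit 0) (nat_lit 0) (XT.lf (nat_lit 0) (nat_lit 2735634514) (nat_lit 456) (nat_lit 11800678514) (nat_lit 76) (nat_lit 2323765327) (nat_lit 130) (nat_lit 5) (nat_lit 136) (nat_lit 5) (nat_lit 131) (nat_lit 5) (nat_lit 368) (nat_lit 321) (nat_lit 211)) (XT.lf (nat_lit 0) (nat_lit 6105755424) (nat_lit 456) (nat_lit 2402496715) (nat_lit 76) (nat_lit 8657420700) (nat_lit 130) (nat_lit 5) (nat_lit 136) (nat_lit 5) (nat_lit 131) (nat_lit 5) (nat_lit 369) (nat_lit 321) (nat_lit 210)))))) (XT.nd (nat_lit 546) (nat_lit 1292) (nat_lit 0) (XT.nd (nat_lit 234) (nat_lit 684) (nat_lit 0) (XT.nd (nat_lit 78) (nat_lit 304) (nat_lit 0) (XT.lf (nat_lit 0) (nat_lit 7402458954) (nat_lit 304) (nat_lit 2231546645) (nat_lit 380) (nat_lit 7844723802) (nat_lit 126) (nat_lit 5) (nat_lit 130) (nat_lit 5) (nat_lit 131) (nat_lit 5) (nat_lit 370) (nat_lit 321) (nat_lit 209))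 (XT.nd (nat_lit 78) (nat_lit 304) (nat_lit 0) (XT.lf (nat_lit 0) (nat_lit 13319339035) (nat_lit 380) (nat_lit 310369386) (nat_lit 76) (nat_lit 4169937033) (nat_lit 126) (nat_lit 5) (nat_lit 131) (nat_lit 5) (nat_lit 127) (nat_lit 5) (nat_lit 371) (nat_lit 321) (nat_lit 208)) (XT.lf (nat_lit 0) (nat_lit 9900386135) (nat_lit 304) (nat_lit 7318556456) (nat_lit 380) (nat_lit 908139819) (nat_lit 122) (nat_lit 5) (nat_lit 126) (nat_lit 5) (nat_lit 127) (nat_lit 5) (nat_lit 372) (nat_lit 321) (nat_lit 207)))) (XT.nd (nat_lit 156) (nat_lit 304) (nat_lit 0) (XT.nd (nat_lit 78) (nat_lit 0) (nat_lit 0) (XT.lf (nat_lit 0) (nat_lit 1951688694) (nat_lit 304) (nat_lit 773875369) (nat_lit 380) (nat_lit 15737730267) (nat_lit 117) (nat_lit 5) (nat_lit 121) (nat_lit 5) (nat_lit 122) (nat_lit 5) (nat_lit 373) (nat_lit 321) (nat_lit 206)) (XT.lf (nat_lit 0) (nat_lit 6577957076) (nat_lit 380) (nat_lit 6289671266) (nat_lit 76)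 (nat_lit 5937860925) (nat_lit 117) (nat_lit 5) (nat_lit 122) (nat_lit 5) (nat_lit 118) (nat_lit 5) (nat_lit 374) (nat_lit 321) (nat_lit 205))) (XT.nd (nat_lit 78) (nat_lit 0) (nat_lit 0) (XT.lf (nat_lit 0) (nat_lit 4296198718) (nat_lit 304) (nat_lit 6285745944) (nat_lit 380) (nat_lit 8574928904) (nat_lit 113) (nat_lit 5) (nat_lit 117) (nat_lit 5) (nat_lit 118) (nat_lit 5) (nat_lit 375) (nat_lit 321) (nat_lit 204)) (XT.lf (nat_lit 0) (nat_lit 14762141329) (nat_lit 380) (nat_lit 4212728909) (nat_lit 76) (nat_lit 542250547) (nat_lit 113) (nat_lit 5) (nat_lit 118) (nat_lit 5) (nat_lit 114) (nat_lit 5) (nat_lit 376) (nat_lit 321) (nat_lit 203))))) (XT.nd (nat_lit 234) (nat_lit 608) (nat_lit 0) (XT.nd (nat_lit 78) (nat_lit 380) (nat_lit 0) (XT.lf (nat_lit 0) (nat_lit 6806760982) (nat_lit 304) (nat_lit 12376224057) (nat_lit 380) (nat_lit 701737107) (nat_lit 109) (nat_lit 5) (nat_lit 113) (nat_lit 5) (nat_lit 114)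 (nat_lit 5) (nat_lit 377) (nat_lit 321) (nat_lit 202)) (XT.nd (nat_lit 78) (nat_lit 304) (nat_lit 0) (XT.lf (nat_lit 0) (nat_lit 3435927558) (nat_lit 380) (nat_lit 2071242049) (nat_lit 76) (nat_lit 14754266169) (nat_lit 108) (nat_lit 5) (nat_lit 113) (nat_lit 5) (nat_lit 109) (nat_lit 5) (nat_lit 378) (nat_lit 321) (nat_lit 201)) (XT.lf (nat_lit 0) (nat_lit 7778189800) (nat_lit 380) (nat_lit 11238241213) (nat_lit 76) (nat_lit 1629977830) (nat_lit 104) (nat_lit 5) (nat_lit 109) (nat_lit 5) (nat_lit 105) (nat_lit 5) (nat_lit 379) (nat_lit 321) (nat_lit 200)))) (XT.nd (nat_lit 156) (nat_lit 380) (nat_lit 0) (XT.nd (nat_lit 78) (nat_lit 0) (nat_lit 0) (XT.lf (nat_lit 0) (nat_lit 162414286) (nat_lit 228) (nat_lit 12153632650) (nat_lit 304) (nat_lit 8724927872) (nat_lit 101) (nat_lit 5) (nat_lit 104) (nat_lit 5) (nat_lit 105) (nat_lit 5) (nat_lit 380) (nat_lit 321) (nat_lit 199)) (XT.lf (nat_lit 0) (nat_lit 12117504301)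 (nat_lit 228) (nat_lit 4974309977) (nat_lit 304) (nat_lit 4352513651) (nat_lit 101) (nat_lit 5) (nat_lit 104) (nat_lit 5) (nat_lit 105) (nat_lit 5) (nat_lit 381) (nat_lit 321) (nat_lit 198))) (XT.nd (nat_lit 78) (nat_lit 0) (nat_lit 0) (XT.lf (nat_lit 0) (nat_lit 185132556) (nat_lit 380) (nat_lit 19279661080) (nat_lit 76) (nat_lit 2393837435) (nat_lit 96) (nat_lit 5) (nat_lit 101) (nat_lit 5) (nat_lit 97) (nat_lit 5) (nat_lit 382) (nat_lit 321) (nat_lit 197)) (XT.lf (nat_lit 0) (nat_lit 4904415179) (nat_lit 380) (nat_lit 7360463864) (nat_lit 76) (nat_lit 10015204914) (nat_lit 96) (nat_lit 5) (nat_lit 101) (nat_lit 5) (nat_lit 97) (nat_lit 5) (nat_lit 383) (nat_lit 321) (nat_lit 196))))))))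
noncomputable def xc158 : XT := (XT.nd (nat_lit 2106) (nat_lit 1900) (nat_lit 0) (XT.nd (nat_lit 1014) (nat_lit 1444) (nat_lit 0) (XT.nd (nat_lit 468) (nat_lit 912) (nat_lit 0) (XT.nd (nat_lit 234) (nat_lit 304) (nat_lit 0) (XT.nd (nat_lit 78) (nat_lit 228) (nat_lit 0) (XT.lf (nat_lit 0) (nat_lit 4996550838) (nat_lit 228) (nat_lit 4805709246) (nat_lit 304) (nat_lit 12910813864) (nat_lit 93) (nat_lit 5) (nat_lit 96) (nat_lit 5) (nat_lit 97) (nat_lit 5) (nat_lit 384) (nat_lit 321) (nat_lit 195)) (XT.nd (nat_lit 78) (nat_lit 228) (nat_lit 0) (XT.lf (nat_lit 0) (nat_lit 14938811985) (nat_lit 304) (nat_lit 5327419149) (nat_lit 76) (nat_lit 2890072299) (nat_lit 93) (nat_lit 5) (nat_lit 97) (nat_lit 5) (nat_lit 94) (nat_lit 5) (nat_lit 385) (nat_lit 321) (nat_lit 194)) (XT.lf (nat_lit 0) (nat_lit 7515578363) (nat_lit 228) (nat_lit 12823078320) (nat_lit 304) (nat_lit 3270900093) (nat_lit 90) (nat_lit 5) (nat_lit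 93) (nat_lit 5) (nat_lit 94) (nat_lit 5) (nat_lit 386) (nat_lit 321) (nat_lit 193)))) (XT.nd (nat_lit 78) (nat_lit 228) (nat_lit 0) (XT.lf (nat_lit 0) (nat_lit 1832236889) (nat_lit 304) (nat_lit 3256690494) (nat_lit 76) (nat_lit 18985644730) (nat_lit 89) (nat_lit 5) (nat_lit 93) (nat_lit 5) (nat_lit 90) (nat_lit 5) (nat_lit 387) (nat_lit 321) (nat_lit 192)) (XT.nd (nat_lit 78) (nat_lit 0) (nat_lit 0) (XT.lf (nat_lit 0) (nat_lit 7138554690) (nat_lit 304) (nat_lit 14464555831) (nat_lit 76) (nat_lit 2945983593) (nat_lit 86) (nat_lit 5) (nat_lit 90) (nat_lit 5) (nat_lit 87) (nat_lit 5) (nat_lit 388) (nat_lit 321) (nat_lit 191)) (XT.lf (nat_lit 0) (nat_lit 12677465294) (nat_lit 304) (nat_lit 1211310406) (nat_lit 76) (nat_lit 11146876517) (nat_lit 86) (nat_lit 5) (nat_lit 90) (nat_lit 5) (nat_lit 87) (nat_lit 5) (nat_lit 389) (nat_lit 321) (nat_lit 190))))) (XT.nd (nat_lit 234) (nat_lit 456) (nat_lit 0) (XT.nd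 (nat_lit 78) (nat_lit 228) (nat_lit 0) (XT.lf (nat_lit 0) (nat_lit 12670768123) (nat_lit 228) (nat_lit 5823677234) (nat_lit 304) (nat_lit 7039007109) (nat_lit 83) (nat_lit 5) (nat_lit 86) (nat_lit 5) (nat_lit 87) (nat_lit 5) (nat_lit 390) (nat_lit 321) (nat_lit 189)) (XT.nd (nat_lit 78) (nat_lit 76) (nat_lit 0) (XT.lf (nat_lit 0) (nat_lit 926306510) (nat_lit 152) (nat_lit 23594937374) (nat_lit 228) (nat_lit 1523885960) (nat_lit 81) (nat_lit 5) (nat_lit 83) (nat_lit 5) (nat_lit 84) (nat_lit 5) (nat_lit 391) (nat_lit 321) (nat_lit 188)) (XT.lf (nat_lit 0) (nat_lit 4254625704) (nat_lit 228) (nat_lit 11290659586) (nat_lit 76) (nat_lit 11020304345) (nat_lit 80) (nat_lit 5) (nat_lit 83) (nat_lit 5) (nat_lit 81) (nat_lit 5) (nat_lit 392) (nat_lit 321) (nat_lit 187)))) (XT.nd (nat_lit 156) (nat_lit 228) (nat_lit 0) (XT.nd (nat_lit 78) (nat_lit 0) (nat_lit 0) (XT.lf (nat_lit 0) (nat_lit 2979741177) (nat_lit 228)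 (nat_lit 7215265817) (nat_lit 304) (nat_lit 16905631492) (nat_lit 77) (nat_lit 5) (nat_lit 80) (nat_lit 5) (nat_lit 81) (nat_lit 5) (nat_lit 393) (nat_lit 321) (nat_lit 186)) (XT.lf (nat_lit 0) (nat_lit 16432428346) (nat_lit 304) (nat_lit 9768599828) (nat_lit 76) (nat_lit 1447147896) (nat_lit 77) (nat_lit 5) (nat_lit 81) (nat_lit 5) (nat_lit 78) (nat_lit 5) (nat_lit 394) (nat_lit 321) (nat_lit 185))) (XT.nd (nat_lit 78) (nat_lit 76) (nat_lit 0) (XT.lf (nat_lit 0) (nat_lit 5025618441) (nat_lit 152) (nat_lit 17941944561) (nat_lit 228) (nat_lit 5241261126) (nat_lit 75) (nat_lit 5) (nat_lit 77) (nat_lit 5) (nat_lit 78) (nat_lit 5) (nat_lit 395) (nat_lit 321) (nat_lit 184)) (XT.lf (nat_lit 0) (nat_lit 985147991) (nat_lit 228) (nat_lit 8344481720) (nat_lit 76) (nat_lit 19453685930) (nat_lit 74) (nat_lit 5) (nat_lit 77) (nat_lit 5) (nat_lit 75) (nat_lit 5) (nat_lit 396) (nat_lit 321) (nat_lit 183)))))) (XT.nd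 (nat_lit 546) (nat_lit 608) (nat_lit 0) (XT.nd (nat_lit 234) (nat_lit 456) (nat_lit 0) (XT.nd (nat_lit 78) (nat_lit 152) (nat_lit 0) (XT.lf (nat_lit 0) (nat_lit 7009423776) (nat_lit 228) (nat_lit 342099081) (nat_lit 304) (nat_lit 22020208593) (nat_lit 71) (nat_lit 5) (nat_lit 74) (nat_lit 5) (nat_lit 75) (nat_lit 5) (nat_lit 397) (nat_lit 321) (nat_lit 182)) (XT.nd (nat_lit 78) (nat_lit 152) (nat_lit 0) (XT.lf (nat_lit 0) (nat_lit 14070881073) (nat_lit 304) (nat_lit 7081729600) (nat_lit 76) (nat_lit 8820331132) (nat_lit 71) (nat_lit 5) (nat_lit 75) (nat_lit 5) (nat_lit 72) (nat_lit 5) (nat_lit 398) (nat_lit 321) (nat_lit 181)) (XT.lf (nat_lit 0) (nat_lit 8811327575) (nat_lit 152) (nat_lit 12260033747) (nat_lit 228) (nat_lit 9518442692) (nat_lit 69) (nat_lit 5) (nat_lit 71) (nat_lit 5) (nat_lit 72) (nat_lit 5) (nat_lit 399) (nat_lit 321) (nat_lit 180)))) (XT.nd (nat_lit 156) (nat_lit 152) (nat_lit 0) (XT.nd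 (nat_lit 78) (nat_lit 304) (nat_lit 0) (XT.lf (nat_lit 0) (nat_lit 25311995199) (nat_lit 152) (nat_lit 3032937626) (nat_lit 228) (nat_lit 2878348689) (nat_lit 69) (nat_lit 5) (nat_lit 71) (nat_lit 5) (nat_lit 72) (nat_lit 5) (nat_lit 400) (nat_lit 321) (nat_lit 179)) (XT.lf (nat_lit 0) (nat_lit 4040677653) (nat_lit 304) (nat_lit 21349025782) (nat_lit 76) (nat_lit 6480208625) (nat_lit 65) (nat_lit 5) (nat_lit 69) (nat_lit 5) (nat_lit 66) (nat_lit 5) (nat_lit 401) (nat_lit 321) (nat_lit 178))) (XT.nd (nat_lit 78) (nat_lit 152) (nat_lit 0) (XT.lf (nat_lit 0) (nat_lit 11191514567) (nat_lit 304) (nat_lit 5040220424) (nat_lit 76) (nat_lit 16300890407) (nat_lit 65) (nat_lit 5) (nat_lit 69) (nat_lit 5) (nat_lit 66) (nat_lit 5) (nat_lit 402) (nat_lit 321) (nat_lit 177)) (XT.lf (nat_lit 0) (nat_lit 11977841381) (nat_lit 152) (nat_lit 6686192225) (nat_lit 228) (nat_lit 14547973356) (nat_lit 63) (nat_lit 5) (nat_lit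 65) (nat_lit 5) (nat_lit 66) (nat_lit 5) (nat_lit 403) (nat_lit 321) (nat_lit 176))))) (XT.nd (nat_lit 234) (nat_lit 380) (nat_lit 0) (XT.nd (nat_lit 78) (nat_lit 228) (nat_lit 0) (XT.lf (nat_lit 0) (nat_lit 26434432392) (nat_lit 228) (nat_lit 4345007649) (nat_lit 76) (nat_lit 3130120300) (nat_lit 63) (nat_lit 5) (nat_lit 66) (nat_lit 5) (nat_lit 64) (nat_lit 5) (nat_lit 404) (nat_lit 321) (nat_lit 175)) (XT.nd (nat_lit 78) (nat_lit 0) (nat_lit 0) (XT.lf (nat_lit 0) (nat_lit 1114550) (nat_lit 228) (nat_lit 21393089679) (nat_lit 76) (nat_lit 13228267250) (nat_lit 60) (nat_lit 5) (nat_lit 63) (nat_lit 5) (nat_lit 61) (nat_lit 5) (nat_lit 405) (nat_lit 321) (nat_lit 174)) (XT.lf (nat_lit 0) (nat_lit 7588028867) (nat_lit 228) (nat_lit 4023236123) (nat_lit 76) (nat_lit 23742187177) (nat_lit 60) (nat_lit 5) (nat_lit 63) (nat_lit 5) (nat_lit 61) (nat_lit 5) (nat_lit 406) (nat_lit 321) (nat_lit 173)))) (XT.nd (nat_lit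 156) (nat_lit 228) (nat_lit 0) (XT.nd (nat_lit 78) (nat_lit 0) (nat_lit 0) (XT.lf (nat_lit 0) (nat_lit 14130430972) (nat_lit 152) (nat_lit 1400490507) (nat_lit 228) (nat_lit 20571590994) (nat_lit 58) (nat_lit 5) (nat_lit 60) (nat_lit 5) (nat_lit 61) (nat_lit 5) (nat_lit 407) (nat_lit 321) (nat_lit 172)) (XT.lf (nat_lit 0) (nat_lit 23833345101) (nat_lit 228) (nat_lit 4062741177) (nat_lit 76) (nat_lit 8974322272) (nat_lit 58) (nat_lit 5) (nat_lit 61) (nat_lit 5) (nat_lit 59) (nat_lit 5) (nat_lit 408) (nat_lit 321) (nat_lit 171))) (XT.nd (nat_lit 78) (nat_lit 76) (nat_lit 0) (XT.lf (nat_lit 0) (nat_lit 14643073366) (nat_lit 152) (nat_lit 17889189360) (nat_lit 228) (nat_lit 5124657393) (nat_lit 56) (nat_lit 5) (nat_lit 58) (nat_lit 5) (nat_lit 59) (nat_lit 5) (nat_lit 409) (nat_lit 321) (nat_lit 170)) (XT.lf (nat_lit 0) (nat_lit 3000336123) (nat_lit 228) (nat_lit 4514635950) (nat_lit 76) (nat_lit 30950156371)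 (nat_lit 55) (nat_lit 5) (nat_lit 58) (nat_lit 5) (nat_lit 56) (nat_lit 5) (nat_lit 410) (nat_lit 321) (nat_lit 169))))))) (XT.nd (nat_lit 1014) (nat_lit 836) (nat_lit 0) (XT.nd (nat_lit 468) (nat_lit 532) (nat_lit 0) (XT.nd (nat_lit 234) (nat_lit 228) (nat_lit 0) (XT.nd (nat_lit 78) (nat_lit 152) (nat_lit 0) (XT.lf (nat_lit 0) (nat_lit 11433361510) (nat_lit 228) (nat_lit 24559752606) (nat_lit 76) (nat_lit 3297929394) (nat_lit 53) (nat_lit 5) (nat_lit 56) (nat_lit 5) (nat_lit 54) (nat_lit 5) (nat_lit 411) (nat_lit 321) (nat_lit 168)) (XT.nd (nat_lit 78) (nat_lit 152) (nat_lit 0) (XT.lf (nat_lit 0) (nat_lit 20232882056) (nat_lit 228) (nat_lit 5580448931) (nat_lit 76) (nat_lit 14325001019) (nat_lit 53) (nat_lit 5) (nat_lit 56) (nat_lit 5) (nat_lit 54) (nat_lit 5) (nat_lit 412) (nat_lit 321) (nat_lit 167)) (XT.lf (nat_lit 0) (nat_lit 14233985610) (nat_lit 152) (nat_lit 15192488955) (nat_lit 228) (nat_lit 11580663080)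 (nat_lit 51) (nat_lit 5) (nat_lit 53) (nat_lit 5) (nat_lit 54) (nat_lit 5) (nat_lit 413) (nat_lit 321) (nat_lit 166)))) (XT.nd (nat_lit 78) (nat_lit 228) (nat_lit 0) (XT.lf (nat_lit 0) (nat_lit 34745360041) (nat_lit 152) (nat_lit 4200208999) (nat_lit 228) (nat_lit 2954948632) (nat_lit 51) (nat_lit 5) (nat_lit 53) (nat_lit 5) (nat_lit 54) (nat_lit 5) (nat_lit 414) (nat_lit 321) (nat_lit 165)) (XT.nd (nat_lit 78) (nat_lit 0) (nat_lit 0) (XT.lf (nat_lit 0) (nat_lit 6004818160) (nat_lit 228) (nat_lit 29644514133) (nat_lit 76) (nat_lit 7163928218) (nat_lit 48) (nat_lit 5) (nat_lit 51) (nat_lit 5) (nat_lit 49) (nat_lit 5) (nat_lit 415) (nat_lit 321) (nat_lit 164)) (XT.lf (nat_lit 0) (nat_lit 15282042554) (nat_lit 228) (nat_lit 9585437829) (nat_lit 76) (nat_lit 18881786819) (nat_lit 48) (nat_lit 5) (nat_lit 51) (nat_lit 5) (nat_lit 49) (nat_lit 5) (nat_lit 416) (nat_lit 321) (nat_lit 163))))) (XT.nd (nat_lit 234)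 (nat_lit 304) (nat_lit 0) (XT.nd (nat_lit 78) (nat_lit 76) (nat_lit 0) (XT.lf (nat_lit 0) (nat_lit 11284245395) (nat_lit 152) (nat_lit 13655500101) (nat_lit 228) (nat_lit 19770544671) (nat_lit 46) (nat_lit 5) (nat_lit 48) (nat_lit 5) (nat_lit 49) (nat_lit 5) (nat_lit 417) (nat_lit 321) (nat_lit 162)) (XT.nd (nat_lit 78) (nat_lit 76) (nat_lit 0) (XT.lf (nat_lit 0) (nat_lit 32965260941) (nat_lit 152) (nat_lit 2012479081) (nat_lit 228) (nat_lit 10719687888) (nat_lit 46) (nat_lit 5) (nat_lit 48) (nat_lit 5) (nat_lit 49) (nat_lit 5) (nat_lit 418) (nat_lit 321) (nat_lit 161)) (XT.lf (nat_lit 0) (nat_lit 8644216516) (nat_lit 76) (nat_lit 36845584734) (nat_lit 152) (nat_lit 1219191606) (nat_lit 45) (nat_lit 5) (nat_lit 46) (nat_lit 5) (nat_lit 47) (nat_lit 4) (nat_lit 419) (nat_lit 321) (nat_lit 160)))) (XT.nd (nat_lit 156) (nat_lit 76) (nat_lit 0) (XT.nd (nat_lit 78) (nat_lit 152) (nat_lit 0) (XT.lf (nat_lit 0)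 (nat_lit 8542841232) (nat_lit 152) (nat_lit 16938774165) (nat_lit 76) (nat_lit 22262509395) (nat_lit 44) (nat_lit 5) (nat_lit 46) (nat_lit 5) (nat_lit 45) (nat_lit 5) (nat_lit 420) (nat_lit 321) (nat_lit 159)) (XT.lf (nat_lit 0) (nat_lit 4893680938) (nat_lit 152) (nat_lit 13720680910) (nat_lit 228) (nat_lit 30194353564) (nat_lit 42) (nat_lit 5) (nat_lit 44) (nat_lit 5) (nat_lit 45) (nat_lit 5) (nat_lit 421) (nat_lit 321) (nat_lit 158))) (XT.nd (nat_lit 78) (nat_lit 76) (nat_lit 0) (XT.lf (nat_lit 0) (nat_lit 27717694072) (nat_lit 152) (nat_lit 1435542512) (nat_lit 228) (nat_lit 20747051690) (nat_lit 42) (nat_lit 5) (nat_lit 44) (nat_lit 5) (nat_lit 45) (nat_lit 5) (nat_lit 422) (nat_lit 321) (nat_lit 157)) (XT.lf (nat_lit 0) (nat_lit 85185951) (nat_lit 76) (nat_lit 40026031546) (nat_lit 152) (nat_lit 10910303383) (nat_lit 41) (nat_lit 5) (nat_lit 42) (nat_lit 5) (nat_lit 43) (nat_lit 4) (nat_lit 423) (nat_lit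 321) (nat_lit 156)))))) (XT.nd (nat_lit 546) (nat_lit 304) (nat_lit 0) (XT.nd (nat_lit 234) (nat_lit 304) (nat_lit 0) (XT.nd (nat_lit 78) (nat_lit 228) (nat_lit 0) (XT.lf (nat_lit 0) (nat_lit 23450867440) (nat_lit 76) (nat_lit 28179497291) (nat_lit 152) (nat_lit 539053662) (nat_lit 41) (nat_lit 5) (nat_lit 42) (nat_lit 5) (nat_lit 43) (nat_lit 4) (nat_lit 424) (nat_lit 321) (nat_lit 155)) (XT.nd (nat_lit 78) (nat_lit 152) (nat_lit 0) (XT.lf (nat_lit 0) (nat_lit 9939862328) (nat_lit 152) (nat_lit 5941903968) (nat_lit 76) (nat_lit 37467228254) (nat_lit 40) (nat_lit 5) (nat_lit 42) (nat_lit 5) (nat_lit 41) (nat_lit 5) (nat_lit 425) (nat_lit 321) (nat_lit 154)) (XT.lf (nat_lit 0) (nat_lit 17851175522) (nat_lit 152) (nat_lit 3037355308) (nat_lit 228) (nat_lit 33670281136) (nat_lit 38) (nat_lit 5) (nat_lit 40) (nat_lit 5) (nat_lit 41) (nat_lit 5) (nat_lit 426) (nat_lit 321) (nat_lit 153)))) (XT.nd (nat_lit 156)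 (nat_lit 228) (nat_lit 0) (XT.nd (nat_lit 78) (nat_lit 76) (nat_lit 0) (XT.lf (nat_lit 0) (nat_lit 32318873362) (nat_lit 228) (nat_lit 13431733712) (nat_lit 76) (nat_lit 10049721063) (nat_lit 38) (nat_lit 5) (nat_lit 41) (nat_lit 5) (nat_lit 39) (nat_lit 4) (nat_lit 427) (nat_lit 321) (nat_lit 152)) (XT.lf (nat_lit 0) (nat_lit 10711796173) (nat_lit 76) (nat_lit 33508170042) (nat_lit 152) (nat_lit 12855289010) (nat_lit 37) (nat_lit 5) (nat_lit 38) (nat_lit 5) (nat_lit 39) (nat_lit 4) (nat_lit 428) (nat_lit 321) (nat_lit 151))) (XT.nd (nat_lit 78) (nat_lit 228) (nat_lit 0) (XT.lf (nat_lit 0) (nat_lit 35845460644) (nat_lit 76) (nat_lit 20763124353) (nat_lit 152) (nat_lit 1775930948) (nat_lit 37) (nat_lit 5) (nat_lit 38) (nat_lit 5) (nat_lit 39) (nat_lit 4) (nat_lit 429) (nat_lit 321) (nat_lit 150)) (XT.lf (nat_lit 0) (nat_lit 1935898999) (nat_lit 152) (nat_lit 7525447287) (nat_lit 228) (nat_lit 50268522991)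 (nat_lit 34) (nat_lit 5) (nat_lit 36) (nat_lit 5) (nat_lit 37) (nat_lit 5) (nat_lit 430) (nat_lit 321) (nat_lit 149))))) (XT.nd (nat_lit 234) (nat_lit 228) (nat_lit 0) (XT.nd (nat_lit 78) (nat_lit 76) (nat_lit 0) (XT.lf (nat_lit 0) (nat_lit 21283603800) (nat_lit 228) (nat_lit 33589538862) (nat_lit 76) (nat_lit 6233406910) (nat_lit 34) (nat_lit 5) (nat_lit 37) (nat_lit 5) (nat_lit 35) (nat_lit 4) (nat_lit 431) (nat_lit 321) (nat_lit 148)) (XT.nd (nat_lit 78) (nat_lit 76) (nat_lit 0) (XT.lf (nat_lit 0) (nat_lit 33530160533) (nat_lit 228) (nat_lit 8742561824) (nat_lit 76) (nat_lit 20249719522) (nat_lit 34) (nat_lit 5) (nat_lit 37) (nat_lit 5) (nat_lit 35) (nat_lit 4) (nat_lit 432) (nat_lit 321) (nat_lit 147)) (XT.lf (nat_lit 0) (nat_lit 17176180130) (nat_lit 76) (nat_lit 29128305977) (nat_lit 152) (nat_lit 17671514214) (nat_lit 33) (nat_lit 5) (nat_lit 34) (nat_lit 5) (nat_lit 35) (nat_lit 4) (nat_lit 433)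 (nat_lit 321) (nat_lit 146)))) (XT.nd (nat_lit 156) (nat_lit 0) (nat_lit 0) (XT.nd (nat_lit 78) (nat_lit 228) (nat_lit 0) (XT.lf (nat_lit 0) (nat_lit 44042971162) (nat_lit 76) (nat_lit 15502671253) (nat_lit 152) (nat_lit 5925015587) (nat_lit 33) (nat_lit 5) (nat_lit 34) (nat_lit 5) (nat_lit 35) (nat_lit 4) (nat_lit 434) (nat_lit 321) (nat_lit 145)) (XT.lf (nat_lit 0) (nat_lit 4729997921) (nat_lit 152) (nat_lit 1364282215) (nat_lit 228) (nat_lit 60912869049) (nat_lit 30) (nat_lit 5) (nat_lit 32) (nat_lit 5) (nat_lit 33) (nat_lit 5) (nat_lit 435) (nat_lit 321) (nat_lit 144))) (XT.nd (nat_lit 78) (nat_lit 0) (nat_lit 0) (XT.lf (nat_lit 0) (nat_lit 18695880895) (nat_lit 228) (nat_lit 36667839144) (nat_lit 76) (nat_lit 13214031234) (nat_lit 30) (nat_lit 5) (nat_lit 33) (nat_lit 5) (nat_lit 31) (nat_lit 4) (nat_lit 436) (nat_lit 321) (nat_lit 143)) (XT.lf (nat_lit 0) (nat_lit 31684594122) (nat_lit 228) (nat_lit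 10312085078) (nat_lit 76) (nat_lit 28198520751) (nat_lit 30) (nat_lit 5) (nat_lit 33) (nat_lit 5) (nat_lit 31) (nat_lit 4) (nat_lit 437) (nat_lit 321) (nat_lit 142))))))))
noncomputable def xc159 : XT := (XT.nd (nat_lit 39468) (nat_lit 0) (nat_lit 7904) (XT.nd (nat_lit 38376) (nat_lit 0) (nat_lit 15352) (XT.nd (nat_lit 37830) (nat_lit 0) (nat_lit 19456) (XT.nd (nat_lit 234) (nat_lit 228) (nat_lit 0) (XT.nd (nat_lit 78) (nat_lit 0) (nat_lit 0) (XT.lf (nat_lit 0) (nat_lit 17161130007) (nat_lit 76) (nat_lit 28062488133) (nat_lit 152) (nat_lit 26632734908) (nat_lit 29) (nat_lit 5) (nat_lit 30) (nat_lit 5) (nat_lit 31) (nat_lit 4) (nat_lit 438) (nat_lit 321) (nat_lit 141)) (XT.nd (nat_lit 78) (nat_lit 0) (nat_lit 0) (XT.lf (nat_lit 0) (nat_lit 45661921405) (nat_lit 76) (nat_lit 13606758103) (nat_lit 152) (nat_lit 14295665665) (nat_lit 29) (nat_lit 5) (nat_lit 30) (nat_lit 5) (nat_lit 31) (nat_lit 4) (nat_lit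 439) (nat_lit 321) (nat_lit 140)) (XT.lf (nat_lit 0) (nat_lit 73743246363) (nat_lit 152) (nat_lit 326034333) (nat_lit 0) (nat_lit 1254052174) (nat_lit 29) (nat_lit 5) (nat_lit 31) (nat_lit 4) (nat_lit 29) (nat_lit 4) (nat_lit 440) (nat_lit 321) (nat_lit 139)))) (XT.nd (nat_lit 78) (nat_lit 76) (nat_lit 0) (XT.lf (nat_lit 0) (nat_lit 11700769113) (nat_lit 152) (nat_lit 48746409508) (nat_lit 76) (nat_lit 16672334335) (nat_lit 27) (nat_lit 5) (nat_lit 29) (nat_lit 5) (nat_lit 28) (nat_lit 4) (nat_lit 441) (nat_lit 321) (nat_lit 138)) (XT.nd (nat_lit 78) (nat_lit 76) (nat_lit 0) (XT.lf (nat_lit 0) (nat_lit 25347568185) (nat_lit 152) (nat_lit 21052899259) (nat_lit 76) (nat_lit 32568663774) (nat_lit 27) (nat_lit 5) (nat_lit 29) (nat_lit 5) (nat_lit 28) (nat_lit 4) (nat_lit 442) (nat_lit 321) (nat_lit 137)) (XT.lf (nat_lit 0) (nat_lit 7612545733) (nat_lit 76) (nat_lit 31860470922) (nat_lit 152) (nat_lit 41399144380)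 (nat_lit 26) (nat_lit 5) (nat_lit 27) (nat_lit 5) (nat_lit 28) (nat_lit 4) (nat_lit 443) (nat_lit 321) (nat_lit 136))))) (XT.nd (nat_lit 234) (nat_lit 0) (nat_lit 0) (XT.nd (nat_lit 78) (nat_lit 0) (nat_lit 0) (XT.lf (nat_lit 0) (nat_lit 501037810) (nat_lit 0) (nat_lit 501037810) (nat_lit 988) (nat_lit 3256069221) (nat_lit 282) (nat_lit 5) (nat_lit 282) (nat_lit 3) (nat_lit 295) (nat_lit 3) (nat_lit 322) (nat_lit 322) (nat_lit 256)) (XT.nd (nat_lit 78) (nat_lit 0) (nat_lit 0) (XT.lf (nat_lit 0) (nat_lit 3067390273) (nat_lit 988) (nat_lit 3440058650) (nat_lit 1064) (nat_lit 2104992418) (nat_lit 282) (nat_lit 5) (nat_lit 295) (nat_lit 3) (nat_lit 296) (nat_lit 5) (nat_lit 323) (nat_lit 322) (nat_lit 255)) (XT.lf (nat_lit 76) (nat_lit 739676605) (nat_lit 0) (nat_lit 3400554974) (nat_lit 1064) (nat_lit 4571938129) (nat_lit 283) (nat_lit 5) (nat_lit 282) (nat_lit 5) (nat_lit 296) (nat_lit 5) (nat_lit 324) (nat_lit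 322) (nat_lit 254)))) (XT.nd (nat_lit 156) (nat_lit 0) (nat_lit 76) (XT.nd (nat_lit 78) (nat_lit 0) (nat_lit 76) (XT.lf (nat_lit 76) (nat_lit 5094372135) (nat_lit 0) (nat_lit 147241232) (nat_lit 1064) (nat_lit 3573408536) (nat_lit 283) (nat_lit 5) (nat_lit 282) (nat_lit 5) (nat_lit 296) (nat_lit 5) (nat_lit 325) (nat_lit 322) (nat_lit 253)) (XT.lf (nat_lit 76) (nat_lit 618377951) (nat_lit 0) (nat_lit 5757296572) (nat_lit 1064) (nat_lit 2545317979) (nat_lit 284) (nat_lit 5) (nat_lit 283) (nat_lit 5) (nat_lit 297) (nat_lit 5) (nat_lit 326) (nat_lit 322) (nat_lit 252))) (XT.nd (nat_lit 78) (nat_lit 0) (nat_lit 76) (XT.lf (nat_lit 76) (nat_lit 5140929463) (nat_lit 0) (nat_lit 2405615535) (nat_lit 1064) (nat_lit 1483534934) (nat_lit 284) (nat_lit 5) (nat_lit 283) (nat_lit 5) (nat_lit 297) (nat_lit 5) (nat_lit 327) (nat_lit 322) (nat_lit 251)) (XT.lf (nat_lit 76) (nat_lit 637068654) (nat_lit 0) (nat_lit 8096623478)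 (nat_lit 1064) (nat_lit 409334050) (nat_lit 285) (nat_lit 5) (nat_lit 284) (nat_lit 5) (nat_lit 298) (nat_lit 5) (nat_lit 328) (nat_lit 322) (nat_lit 250)))))) (XT.nd (nat_lit 546) (nat_lit 3192) (nat_lit 0) (XT.nd (nat_lit 234) (nat_lit 0) (nat_lit 76) (XT.nd (nat_lit 78) (nat_lit 0) (nat_lit 0) (XT.lf (nat_lit 0) (nat_lit 712387871) (nat_lit 1064) (nat_lit 3932803775) (nat_lit 1140) (nat_lit 4613120737) (nat_lit 270) (nat_lit 5) (nat_lit 284) (nat_lit 5) (nat_lit 285) (nat_lit 5) (nat_lit 329) (nat_lit 322) (nat_lit 249)) (XT.nd (nat_lit 78) (nat_lit 0) (nat_lit 76) (XT.lf (nat_lit 76) (nat_lit 766594917) (nat_lit 0) (nat_lit 1066733735) (nat_lit 1140) (nat_lit 7544412060) (nat_lit 271) (nat_lit 5) (nat_lit 270) (nat_lit 5) (nat_lit 285) (nat_lit 5) (nat_lit 330) (nat_lit 322) (nat_lit 248)) (XT.lf (nat_lit 0) (nat_lit 3020483252) (nat_lit 1064) (nat_lit 3860287140) (nat_lit 1140) (nat_lit 2619022335)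 (nat_lit 271) (nat_lit 5) (nat_lit 285) (nat_lit 5) (nat_lit 286) (nat_lit 5) (nat_lit 331) (nat_lit 322) (nat_lit 247)))) (XT.nd (nat_lit 156) (nat_lit 0) (nat_lit 76) (XT.nd (nat_lit 78) (nat_lit 0) (nat_lit 76) (XT.lf (nat_lit 76) (nat_lit 1020357604) (nat_lit 0) (nat_lit 3211519864) (nat_lit 1140) (nat_lit 5393987953) (nat_lit 272) (nat_lit 5) (nat_lit 271) (nat_lit 5) (nat_lit 286) (nat_lit 5) (nat_lit 332) (nat_lit 322) (nat_lit 246)) (XT.lf (nat_lit 0) (nat_lit 5493496273) (nat_lit 1064) (nat_lit 3656749689) (nat_lit 1140) (nat_lit 605075201) (nat_lit 272) (nat_lit 5) (nat_lit 286) (nat_lit 5) (nat_lit 287) (nat_lit 5) (nat_lit 333) (nat_lit 322) (nat_lit 245))) (XT.nd (nat_lit 78) (nat_lit 0) (nat_lit 0) (XT.lf (nat_lit 76) (nat_lit 1414025374) (nat_lit 0) (nat_lit 5394286569) (nat_lit 1140) (nat_lit 3079905026) (nat_lit 273) (nat_lit 5) (nat_lit 272) (nat_lit 5) (nat_lit 287) (nat_lit 5) (nat_lit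 334) (nat_lit 322) (nat_lit 244)) (XT.lf (nat_lit 76) (nat_lit 6689860214) (nat_lit 0) (nat_lit 1480259761) (nat_lit 1140) (nat_lit 1854769590) (nat_lit 273) (nat_lit 5) (nat_lit 272) (nat_lit 5) (nat_lit 287) (nat_lit 5) (nat_lit 335) (nat_lit 322) (nat_lit 243))))) (XT.nd (nat_lit 234) (nat_lit 2280) (nat_lit 0) (XT.nd (nat_lit 78) (nat_lit 1140) (nat_lit 0) (XT.lf (nat_lit 76) (nat_lit 1949504032) (nat_lit 0) (nat_lit 7638087823) (nat_lit 1140) (nat_lit 577642071) (nat_lit 274) (nat_lit 5) (nat_lit 273) (nat_lit 5) (nat_lit 288) (nat_lit 5) (nat_lit 336) (nat_lit 322) (nat_lit 242)) (XT.nd (nat_lit 78) (nat_lit 0) (nat_lit 76) (XT.lf (nat_lit 0) (nat_lit 743940638) (nat_lit 1140) (nat_lit 2892599628) (nat_lit 1216) (nat_lit 6672434398) (nat_lit 258) (nat_lit 5) (nat_lit 273) (nat_lit 5) (nat_lit 274) (nat_lit 5) (nat_lit 337) (nat_lit 322) (nat_lit 241)) (XT.lf (nat_lit 0) (nat_lit 2096393110) (nat_lit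 1140) (nat_lit 7848468584) (nat_lit 76) (nat_lit 511923911) (nat_lit 259) (nat_lit 5) (nat_lit 274) (nat_lit 5) (nat_lit 260) (nat_lit 5) (nat_lit 338) (nat_lit 322) (nat_lit 240)))) (XT.nd (nat_lit 156) (nat_lit 1216) (nat_lit 0) (XT.nd (nat_lit 78) (nat_lit 1140) (nat_lit 0) (XT.lf (nat_lit 0) (nat_lit 3528247465) (nat_lit 1140) (nat_lit 2333557165) (nat_lit 76) (nat_lit 4746075502) (nat_lit 259) (nat_lit 5) (nat_lit 274) (nat_lit 5) (nat_lit 260) (nat_lit 5) (nat_lit 339) (nat_lit 322) (nat_lit 239)) (XT.lf (nat_lit 0) (nat_lit 3390967058) (nat_lit 1140) (nat_lit 1618787577) (nat_lit 1216) (nat_lit 5753565639) (nat_lit 244) (nat_lit 5) (nat_lit 259) (nat_lit 5) (nat_lit 260) (nat_lit 5) (nat_lit 340) (nat_lit 322) (nat_lit 238))) (XT.nd (nat_lit 78) (nat_lit 1216) (nat_lit 0) (XT.lf (nat_lit 0) (nat_lit 6560634272) (nat_lit 1216) (nat_lit 1636933622) (nat_lit 76) (nat_lit 2725121203) (nat_lit 244) (nat_lit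 5) (nat_lit 260) (nat_lit 5) (nat_lit 245) (nat_lit 5) (nat_lit 341) (nat_lit 322) (nat_lit 237)) (XT.lf (nat_lit 0) (nat_lit 4316818834) (nat_lit 1216) (nat_lit 3874162730) (nat_lit 1292) (nat_lit 2894882093) (nat_lit 228) (nat_lit 5) (nat_lit 244) (nat_lit 5) (nat_lit 245) (nat_lit 5) (nat_lit 342) (nat_lit 322) (nat_lit 236))))))) (XT.nd (nat_lit 1014) (nat_lit 3420) (nat_lit 0) (XT.nd (nat_lit 468) (nat_lit 2128) (nat_lit 0) (XT.nd (nat_lit 234) (nat_lit 608) (nat_lit 0) (XT.nd (nat_lit 78) (nat_lit 1292) (nat_lit 0) (XT.lf (nat_lit 0) (nat_lit 9868445456) (nat_lit 1292) (nat_lit 798908101) (nat_lit 76) (nat_lit 586646243) (nat_lit 228) (nat_lit 5) (nat_lit 245) (nat_lit 5) (nat_lit 229) (nat_lit 5) (nat_lit 343) (nat_lit 322) (nat_lit 235)) (XT.nd (nat_lit 78) (nat_lit 608) (nat_lit 0) (XT.lf (nat_lit 0) (nat_lit 233274886) (nat_lit 684) (nat_lit 6032040414) (nat_lit 76) (nat_lit 5159802176) (nat_lit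 219) (nat_lit 5) (nat_lit 228) (nat_lit 5) (nat_lit 220) (nat_lit 5) (nat_lit 344) (nat_lit 322) (nat_lit 234)) (XT.lf (nat_lit 0) (nat_lit 153178899) (nat_lit 608) (nat_lit 1706143931) (nat_lit 684) (nat_lit 9742050705) (nat_lit 211) (nat_lit 5) (nat_lit 219) (nat_lit 5) (nat_lit 220) (nat_lit 5) (nat_lit 345) (nat_lit 322) (nat_lit 233)))) (XT.nd (nat_lit 78) (nat_lit 608) (nat_lit 0) (XT.lf (nat_lit 0) (nat_lit 3601759962) (nat_lit 684) (nat_lit 5185392835) (nat_lit 76) (nat_lit 2993747382) (nat_lit 211) (nat_lit 5) (nat_lit 220) (nat_lit 5) (nat_lit 212) (nat_lit 5) (nat_lit 346) (nat_lit 322) (nat_lit 232)) (XT.nd (nat_lit 78) (nat_lit 0) (nat_lit 0) (XT.lf (nat_lit 0) (nat_lit 1250901637) (nat_lit 608) (nat_lit 4152498206) (nat_lit 684) (nat_lit 6562215702) (nat_lit 203) (nat_lit 5) (nat_lit 211) (nat_lit 5) (nat_lit 212) (nat_lit 5) (nat_lit 347) (nat_lit 322) (nat_lit 231)) (XT.lf (nat_lit 0) (nat_lit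 7296384211) (nat_lit 684) (nat_lit 4196560351) (nat_lit 76) (nat_lit 661819447) (nat_lit 203) (nat_lit 5) (nat_lit 212) (nat_lit 5) (nat_lit 204) (nat_lit 5) (nat_lit 348) (nat_lit 322) (nat_lit 230))))) (XT.nd (nat_lit 234) (nat_lit 988) (nat_lit 0) (XT.nd (nat_lit 78) (nat_lit 608) (nat_lit 0) (XT.lf (nat_lit 0) (nat_lit 2503171307) (nat_lit 532) (nat_lit 6787233760) (nat_lit 608) (nat_lit 3057864640) (nat_lit 196) (nat_lit 5) (nat_lit 203) (nat_lit 5) (nat_lit 204) (nat_lit 5) (nat_lit 349) (nat_lit 322) (nat_lit 229)) (XT.nd (nat_lit 78) (nat_lit 608) (nat_lit 0) (XT.lf (nat_lit 0) (nat_lit 9468434470) (nat_lit 532) (nat_lit 1897663258) (nat_lit 608) (nat_lit 1180837208) (nat_lit 196) (nat_lit 5) (nat_lit 203) (nat_lit 5) (nat_lit 204) (nat_lit 5) (nat_lit 350) (nat_lit 322) (nat_lit 228)) (XT.lf (nat_lit 0) (nat_lit 786156581) (nat_lit 608) (nat_lit 8841961166) (nat_lit 76) (nat_lit 3121784508) (nat_lit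 188) (nat_lit 5) (nat_lit 196) (nat_lit 5) (nat_lit 189) (nat_lit 5) (nat_lit 351) (nat_lit 322) (nat_lit 227)))) (XT.nd (nat_lit 156) (nat_lit 532) (nat_lit 0) (XT.nd (nat_lit 78) (nat_lit 456) (nat_lit 0) (XT.lf (nat_lit 0) (nat_lit 2818846533) (nat_lit 608) (nat_lit 1843382359) (nat_lit 76) (nat_lit 8295475412) (nat_lit 188) (nat_lit 5) (nat_lit 196) (nat_lit 5) (nat_lit 189) (nat_lit 5) (nat_lit 352) (nat_lit 322) (nat_lit 226)) (XT.lf (nat_lit 0) (nat_lit 4950575094) (nat_lit 532) (nat_lit 7725112546) (nat_lit 76) (nat_lit 494919827) (nat_lit 182) (nat_lit 5) (nat_lit 189) (nat_lit 5) (nat_lit 183) (nat_lit 5) (nat_lit 353) (nat_lit 322) (nat_lit 225))) (XT.nd (nat_lit 78) (nat_lit 532) (nat_lit 0) (XT.lf (nat_lit 0) (nat_lit 7192367039) (nat_lit 532) (nat_lit 466226378) (nat_lit 76) (nat_lit 5729929495) (nat_lit 182) (nat_lit 5) (nat_lit 189) (nat_lit 5) (nat_lit 183) (nat_lit 5) (nat_lit 354) (nat_lit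 322) (nat_lit 224)) (XT.lf (nat_lit 0) (nat_lit 7128788939) (nat_lit 532) (nat_lit 2422851050) (nat_lit 608) (nat_lit 4059837301) (nat_lit 175) (nat_lit 5) (nat_lit 182) (nat_lit 5) (nat_lit 183) (nat_lit 5) (nat_lit 355) (nat_lit 322) (nat_lit 223)))))) (XT.nd (nat_lit 546) (nat_lit 1596) (nat_lit 0) (XT.nd (nat_lit 234) (nat_lit 836) (nat_lit 0) (XT.nd (nat_lit 78) (nat_lit 532) (nat_lit 0) (XT.lf (nat_lit 0) (nat_lit 1091879057) (nat_lit 456) (nat_lit 10915623265) (nat_lit 532) (nat_lit 1832851685) (nat_lit 169) (nat_lit 5) (nat_lit 175) (nat_lit 5) (nat_lit 176) (nat_lit 5) (nat_lit 356) (nat_lit 322) (nat_lit 222)) (XT.nd (nat_lit 78) (nat_lit 456) (nat_lit 0) (XT.lf (nat_lit 0) (nat_lit 524200605) (nat_lit 532) (nat_lit 5097849366) (nat_lit 76) (nat_lit 8451754158) (nat_lit 168) (nat_lit 5) (nat_lit 175) (nat_lit 5) (nat_lit 169) (nat_lit 5) (nat_lit 357) (nat_lit 322) (nat_lit 221)) (XT.lf (nat_lit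 0) (nat_lit 2798147130) (nat_lit 456) (nat_lit 126548727) (nat_lit 532) (nat_lit 11388737751) (nat_lit 162) (nat_lit 5) (nat_lit 168) (nat_lit 5) (nat_lit 169) (nat_lit 5) (nat_lit 358) (nat_lit 322) (nat_lit 220)))) (XT.nd (nat_lit 156) (nat_lit 456) (nat_lit 0) (XT.nd (nat_lit 78) (nat_lit 380) (nat_lit 0) (XT.lf (nat_lit 0) (nat_lit 5485336845) (nat_lit 532) (nat_lit 3597773273) (nat_lit 76) (nat_lit 5474505073) (nat_lit 162) (nat_lit 5) (nat_lit 169) (nat_lit 5) (nat_lit 163) (nat_lit 5) (nat_lit 359) (nat_lit 322) (nat_lit 219)) (XT.lf (nat_lit 0) (nat_lit 4626004752) (nat_lit 380) (nat_lit 3525958372) (nat_lit 456) (nat_lit 6656291056) (nat_lit 157) (nat_lit 5) (nat_lit 162) (nat_lit 5) (nat_lit 163) (nat_lit 5) (nat_lit 360) (nat_lit 322) (nat_lit 218))) (XT.nd (nat_lit 78) (nat_lit 456) (nat_lit 0) (XT.lf (nat_lit 0) (nat_lit 10940103624) (nat_lit 456) (nat_lit 1937099711) (nat_lit 76) (nat_lit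 2187970277) (nat_lit 157) (nat_lit 5) (nat_lit 163) (nat_lit 5) (nat_lit 158) (nat_lit 5) (nat_lit 361) (nat_lit 322) (nat_lit 217)) (XT.lf (nat_lit 0) (nat_lit 6629929092) (nat_lit 456) (nat_lit 7264773120) (nat_lit 532) (nat_lit 1432620540) (nat_lit 151) (nat_lit 5) (nat_lit 157) (nat_lit 5) (nat_lit 158) (nat_lit 5) (nat_lit 362) (nat_lit 322) (nat_lit 216))))) (XT.nd (nat_lit 234) (nat_lit 760) (nat_lit 0) (XT.nd (nat_lit 78) (nat_lit 760) (nat_lit 0) (XT.lf (nat_lit 0) (nat_lit 1318480413) (nat_lit 532) (nat_lit 136214700) (nat_lit 76) (nat_lit 14142139677) (nat_lit 150) (nat_lit 5) (nat_lit 157) (nat_lit 5) (nat_lit 151) (nat_lit 5) (nat_lit 363) (nat_lit 322) (nat_lit 215)) (XT.nd (nat_lit 78) (nat_lit 380) (nat_lit 0) (XT.lf (nat_lit 0) (nat_lit 4237328440) (nat_lit 456) (nat_lit 7096155998) (nat_lit 76) (nat_lit 4537107957) (nat_lit 145) (nat_lit 5) (nat_lit 151) (nat_lit 5) (nat_lit 146) (nat_lit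 5) (nat_lit 364) (nat_lit 322) (nat_lit 214)) (XT.lf (nat_lit 0) (nat_lit 1803757598) (nat_lit 380) (nat_lit 5458074183) (nat_lit 456) (nat_lit 8890194062) (nat_lit 140) (nat_lit 5) (nat_lit 145) (nat_lit 5) (nat_lit 146) (nat_lit 5) (nat_lit 365) (nat_lit 322) (nat_lit 213)))) (XT.nd (nat_lit 156) (nat_lit 456) (nat_lit 0) (XT.nd (nat_lit 78) (nat_lit 304) (nat_lit 0) (XT.lf (nat_lit 0) (nat_lit 10440307214) (nat_lit 456) (nat_lit 5349947595) (nat_lit 76) (nat_lit 649756019) (nat_lit 140) (nat_lit 5) (nat_lit 146) (nat_lit 5) (nat_lit 141) (nat_lit 5) (nat_lit 366) (nat_lit 322) (nat_lit 212)) (XT.lf (nat_lit 0) (nat_lit 3921471998) (nat_lit 304) (nat_lit 9869997166) (nat_lit 380) (nat_lit 2942851707) (nat_lit 136) (nat_lit 5) (nat_lit 140) (nat_lit 5) (nat_lit 141) (nat_lit 5) (nat_lit 367) (nat_lit 322) (nat_lit 211))) (XT.nd (nat_lit 78) (nat_lit 380) (nat_lit 0) (XT.lf (nat_lit 0) (nat_lit 241936916)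 (nat_lit 380) (nat_lit 3477081779) (nat_lit 76) (nat_lit 13317180008) (nat_lit 135) (nat_lit 5) (nat_lit 140) (nat_lit 5) (nat_lit 136) (nat_lit 5) (nat_lit 368) (nat_lit 322) (nat_lit 210)) (XT.lf (nat_lit 0) (nat_lit 3534920546) (nat_lit 456) (nat_lit 11158900235) (nat_lit 76) (nat_lit 2650288993) (nat_lit 130) (nat_lit 5) (nat_lit 136) (nat_lit 5) (nat_lit 131) (nat_lit 5) (nat_lit 369) (nat_lit 322) (nat_lit 209))))))))
noncomputable def xc160 : XT := (XT.nd (nat_lit 2028) (nat_lit 2660) (nat_lit 0) (XT.nd (nat_lit 1014) (nat_lit 1824) (nat_lit 0) (XT.nd (nat_lit 468) (nat_lit 1216) (nat_lit 0) (XT.nd (nat_lit 234) (nat_lit 380) (nat_lit 0) (XT.nd (nat_lit 78) (nat_lit 608) (nat_lit 0) (XT.lf (nat_lit 0) (nat_lit 6985255268) (nat_lit 456) (nat_lit 1507776825) (nat_lit 76) (nat_lit 9166474103) (nat_lit 130) (nat_lit 5) (nat_lit 136) (nat_lit 5) (nat_lit 131) (nat_lit 5) (nat_lit 370) (nat_lit 322) (nat_lit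 208)) (XT.nd (nat_lit 78) (nat_lit 304) (nat_lit 0) (XT.lf (nat_lit 0) (nat_lit 8581849133) (nat_lit 304) (nat_lit 2026424752) (nat_lit 380) (nat_lit 7374020137) (nat_lit 126) (nat_lit 5) (nat_lit 130) (nat_lit 5) (nat_lit 131) (nat_lit 5) (nat_lit 371) (nat_lit 322) (nat_lit 207)) (XT.lf (nat_lit 0) (nat_lit 639891939) (nat_lit 304) (nat_lit 13753006849) (nat_lit 380) (nat_lit 3920283810) (nat_lit 122) (nat_lit 5) (nat_lit 126) (nat_lit 5) (nat_lit 127) (nat_lit 5) (nat_lit 372) (nat_lit 322) (nat_lit 206)))) (XT.nd (nat_lit 78) (nat_lit 380) (nat_lit 0) (XT.lf (nat_lit 0) (nat_lit 11135198375) (nat_lit 304) (nat_lit 7257704439) (nat_lit 380) (nat_lit 258044259) (nat_lit 122) (nat_lit 5) (nat_lit 126) (nat_lit 5) (nat_lit 127) (nat_lit 5) (nat_lit 373) (nat_lit 322) (nat_lit 205)) (XT.nd (nat_lit 78) (nat_lit 0) (nat_lit 0) (XT.lf (nat_lit 0) (nat_lit 2952150959) (nat_lit 304) (nat_lit 509013302) (nat_lit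 380) (nat_lit 15536200827) (nat_lit 117) (nat_lit 5) (nat_lit 121) (nat_lit 5) (nat_lit 122) (nat_lit 5) (nat_lit 374) (nat_lit 322) (nat_lit 204)) (XT.lf (nat_lit 0) (nat_lit 7412773905) (nat_lit 380) (nat_lit 5547322092) (nat_lit 76) (nat_lit 6390226735) (nat_lit 117) (nat_lit 5) (nat_lit 122) (nat_lit 5) (nat_lit 118) (nat_lit 5) (nat_lit 375) (nat_lit 322) (nat_lit 203))))) (XT.nd (nat_lit 234) (nat_lit 608) (nat_lit 0) (XT.nd (nat_lit 78) (nat_lit 304) (nat_lit 0) (XT.lf (nat_lit 0) (nat_lit 5346996155) (nat_lit 304) (nat_lit 6180179617) (nat_lit 380) (nat_lit 8185369974) (nat_lit 113) (nat_lit 5) (nat_lit 117) (nat_lit 5) (nat_lit 118) (nat_lit 5) (nat_lit 376) (nat_lit 322) (nat_lit 202)) (XT.nd (nat_lit 78) (nat_lit 304) (nat_lit 0) (XT.lf (nat_lit 0) (nat_lit 15817238784) (nat_lit 380) (nat_lit 3428316543) (nat_lit 76) (nat_lit 838517093) (nat_lit 113) (nat_lit 5) (nat_lit 118) (nat_lit 5) (nat_lit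 114) (nat_lit 5) (nat_lit 377) (nat_lit 322) (nat_lit 201)) (XT.lf (nat_lit 0) (nat_lit 7912828691) (nat_lit 304) (nat_lit 12448716356) (nat_lit 380) (nat_lit 101437335) (nat_lit 109) (nat_lit 5) (nat_lit 113) (nat_lit 5) (nat_lit 114) (nat_lit 5) (nat_lit 378) (nat_lit 322) (nat_lit 200)))) (XT.nd (nat_lit 156) (nat_lit 228) (nat_lit 0) (XT.nd (nat_lit 78) (nat_lit 304) (nat_lit 0) (XT.lf (nat_lit 0) (nat_lit 4130487978) (nat_lit 380) (nat_lit 1245832230) (nat_lit 76) (nat_lit 15475035715) (nat_lit 108) (nat_lit 5) (nat_lit 113) (nat_lit 5) (nat_lit 109) (nat_lit 5) (nat_lit 379) (nat_lit 322) (nat_lit 199)) (XT.lf (nat_lit 0) (nat_lit 8597085145) (nat_lit 380) (nat_lit 10681735179) (nat_lit 76) (nat_lit 1969241045) (nat_lit 104) (nat_lit 5) (nat_lit 109) (nat_lit 5) (nat_lit 105) (nat_lit 5) (nat_lit 380) (nat_lit 322) (nat_lit 198))) (XT.nd (nat_lit 78) (nat_lit 0) (nat_lit 0) (XT.lf (nat_lit 0) (nat_lit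 1052178679) (nat_lit 228) (nat_lit 12210350595) (nat_lit 304) (nat_lit 8392196546) (nat_lit 101) (nat_lit 5) (nat_lit 104) (nat_lit 5) (nat_lit 105) (nat_lit 5) (nat_lit 381) (nat_lit 322) (nat_lit 197)) (XT.lf (nat_lit 0) (nat_lit 13340147842) (nat_lit 228) (nat_lit 4824615943) (nat_lit 304) (nat_lit 3905924826) (nat_lit 101) (nat_lit 5) (nat_lit 104) (nat_lit 5) (nat_lit 105) (nat_lit 5) (nat_lit 382) (nat_lit 322) (nat_lit 196)))))) (XT.nd (nat_lit 468) (nat_lit 912) (nat_lit 0) (XT.nd (nat_lit 234) (nat_lit 304) (nat_lit 0) (XT.nd (nat_lit 78) (nat_lit 228) (nat_lit 0) (XT.lf (nat_lit 0) (nat_lit 751316872) (nat_lit 380) (nat_lit 18982086128) (nat_lit 76) (nat_lit 2764014162) (nat_lit 96) (nat_lit 5) (nat_lit 101) (nat_lit 5) (nat_lit 97) (nat_lit 5) (nat_lit 383) (nat_lit 322) (nat_lit 195)) (XT.nd (nat_lit 78) (nat_lit 228) (nat_lit 0) (XT.lf (nat_lit 0) (nat_lit 5595848934) (nat_lit 380) (nat_lit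 6730826533) (nat_lit 76) (nat_lit 10605332522) (nat_lit 96) (nat_lit 5) (nat_lit 101) (nat_lit 5) (nat_lit 97) (nat_lit 5) (nat_lit 384) (nat_lit 322) (nat_lit 194)) (XT.lf (nat_lit 0) (nat_lit 5988560852) (nat_lit 228) (nat_lit 4644309809) (nat_lit 304) (nat_lit 12745354128) (nat_lit 93) (nat_lit 5) (nat_lit 96) (nat_lit 5) (nat_lit 97) (nat_lit 5) (nat_lit 385) (nat_lit 322) (nat_lit 193)))) (XT.nd (nat_lit 78) (nat_lit 304) (nat_lit 0) (XT.lf (nat_lit 0) (nat_lit 15910743439) (nat_lit 304) (nat_lit 4656739264) (nat_lit 76) (nat_lit 3267655953) (nat_lit 93) (nat_lit 5) (nat_lit 97) (nat_lit 5) (nat_lit 94) (nat_lit 5) (nat_lit 386) (nat_lit 322) (nat_lit 192)) (XT.nd (nat_lit 78) (nat_lit 76) (nat_lit 0) (XT.lf (nat_lit 0) (nat_lit 8563405993) (nat_lit 228) (nat_lit 12901827163) (nat_lit 304) (nat_lit 2836981056) (nat_lit 90) (nat_lit 5) (nat_lit 93) (nat_lit 5) (nat_lit 94) (nat_lit 5) (nat_lit 387)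 (nat_lit 322) (nat_lit 191)) (XT.lf (nat_lit 0) (nat_lit 2393673806) (nat_lit 304) (nat_lit 2545774515) (nat_lit 76) (nat_lit 19842037946) (nat_lit 89) (nat_lit 5) (nat_lit 93) (nat_lit 5) (nat_lit 90) (nat_lit 5) (nat_lit 388) (nat_lit 322) (nat_lit 190))))) (XT.nd (nat_lit 234) (nat_lit 456) (nat_lit 0) (XT.nd (nat_lit 78) (nat_lit 228) (nat_lit 0) (XT.lf (nat_lit 0) (nat_lit 7855022338) (nat_lit 304) (nat_lit 14085591850) (nat_lit 76) (nat_lit 3329758261) (nat_lit 86) (nat_lit 5) (nat_lit 90) (nat_lit 5) (nat_lit 87) (nat_lit 5) (nat_lit 389) (nat_lit 322) (nat_lit 189)) (XT.nd (nat_lit 78) (nat_lit 228) (nat_lit 0) (XT.lf (nat_lit 0) (nat_lit 13545469842) (nat_lit 304) (nat_lit 458425781) (nat_lit 76) (nat_lit 11768074230) (nat_lit 86) (nat_lit 5) (nat_lit 90) (nat_lit 5) (nat_lit 87) (nat_lit 5) (nat_lit 390) (nat_lit 322) (nat_lit 188)) (XT.lf (nat_lit 0) (nat_lit 13832377615) (nat_lit 228) (nat_lit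 5697889529) (nat_lit 304) (nat_lit 6754641269) (nat_lit 83) (nat_lit 5) (nat_lit 86) (nat_lit 5) (nat_lit 87) (nat_lit 5) (nat_lit 391) (nat_lit 322) (nat_lit 187)))) (XT.nd (nat_lit 156) (nat_lit 228) (nat_lit 0) (XT.nd (nat_lit 78) (nat_lit 76) (nat_lit 0) (XT.lf (nat_lit 0) (nat_lit 1739465274) (nat_lit 152) (nat_lit 23994748872) (nat_lit 228) (nat_lit 1077835067) (nat_lit 81) (nat_lit 5) (nat_lit 83) (nat_lit 5) (nat_lit 84) (nat_lit 5) (nat_lit 392) (nat_lit 322) (nat_lit 186)) (XT.lf (nat_lit 0) (nat_lit 4850391967) (nat_lit 228) (nat_lit 10857460029) (nat_lit 76) (nat_lit 11640553540) (nat_lit 80) (nat_lit 5) (nat_lit 83) (nat_lit 5) (nat_lit 81) (nat_lit 5) (nat_lit 393) (nat_lit 322) (nat_lit 185))) (XT.nd (nat_lit 78) (nat_lit 0) (nat_lit 0) (XT.lf (nat_lit 0) (nat_lit 3833484921) (nat_lit 228) (nat_lit 7129212408) (nat_lit 304) (nat_lit 16937000289) (nat_lit 77) (nat_lit 5) (nat_lit 80) (nat_lit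 5) (nat_lit 81) (nat_lit 5) (nat_lit 394) (nat_lit 322) (nat_lit 184)) (XT.lf (nat_lit 0) (nat_lit 17376612895) (nat_lit 304) (nat_lit 9308838788) (nat_lit 76) (nat_lit 1778531552) (nat_lit 77) (nat_lit 5) (nat_lit 81) (nat_lit 5) (nat_lit 78) (nat_lit 5) (nat_lit 395) (nat_lit 322) (nat_lit 183))))))) (XT.nd (nat_lit 1014) (nat_lit 1216) (nat_lit 0) (XT.nd (nat_lit 468) (nat_lit 836) (nat_lit 0) (XT.nd (nat_lit 234) (nat_lit 152) (nat_lit 0) (XT.nd (nat_lit 78) (nat_lit 304) (nat_lit 0) (XT.lf (nat_lit 0) (nat_lit 5921825450) (nat_lit 152) (nat_lit 18179999662) (nat_lit 228) (nat_lit 4939807881) (nat_lit 75) (nat_lit 5) (nat_lit 77) (nat_lit 5) (nat_lit 78) (nat_lit 5) (nat_lit 396) (nat_lit 322) (nat_lit 182)) (XT.nd (nat_lit 78) (nat_lit 228) (nat_lit 0) (XT.lf (nat_lit 0) (nat_lit 1451343561) (nat_lit 228) (nat_lit 7862306370) (nat_lit 76) (nat_lit 20319972815) (nat_lit 74) (nat_lit 5) (nat_lit 77)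 (nat_lit 5) (nat_lit 75) (nat_lit 5) (nat_lit 397) (nat_lit 322) (nat_lit 181)) (XT.lf (nat_lit 0) (nat_lit 7945034822) (nat_lit 228) (nat_lit 57929448) (nat_lit 304) (nat_lit 22236901834) (nat_lit 71) (nat_lit 5) (nat_lit 74) (nat_lit 5) (nat_lit 75) (nat_lit 5) (nat_lit 398) (nat_lit 322) (nat_lit 180)))) (XT.nd (nat_lit 78) (nat_lit 152) (nat_lit 0) (XT.lf (nat_lit 0) (nat_lit 14914100703) (nat_lit 304) (nat_lit 6580088910) (nat_lit 76) (nat_lit 9365219867) (nat_lit 71) (nat_lit 5) (nat_lit 75) (nat_lit 5) (nat_lit 72) (nat_lit 5) (nat_lit 399) (nat_lit 322) (nat_lit 179)) (XT.nd (nat_lit 78) (nat_lit 0) (nat_lit 0) (XT.lf (nat_lit 0) (nat_lit 9782759073) (nat_lit 152) (nat_lit 12336368434) (nat_lit 228) (nat_lit 9375816640) (nat_lit 69) (nat_lit 5) (nat_lit 71) (nat_lit 5) (nat_lit 72) (nat_lit 5) (nat_lit 400) (nat_lit 322) (nat_lit 178)) (XT.lf (nat_lit 0) (nat_lit 26757851823) (nat_lit 152) (nat_lit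 2840948739) (nat_lit 228) (nat_lit 2548991060) (nat_lit 69) (nat_lit 5) (nat_lit 71) (nat_lit 5) (nat_lit 72) (nat_lit 5) (nat_lit 401) (nat_lit 322) (nat_lit 177))))) (XT.nd (nat_lit 234) (nat_lit 380) (nat_lit 0) (XT.nd (nat_lit 78) (nat_lit 152) (nat_lit 0) (XT.lf (nat_lit 0) (nat_lit 4566979487) (nat_lit 304) (nat_lit 21292214873) (nat_lit 76) (nat_lit 6954584621) (nat_lit 65) (nat_lit 5) (nat_lit 69) (nat_lit 5) (nat_lit 66) (nat_lit 5) (nat_lit 402) (nat_lit 322) (nat_lit 176)) (XT.nd (nat_lit 78) (nat_lit 152) (nat_lit 0) (XT.lf (nat_lit 0) (nat_lit 11920543019) (nat_lit 304) (nat_lit 4514454530) (nat_lit 76) (nat_lit 17061732398) (nat_lit 65) (nat_lit 5) (nat_lit 69) (nat_lit 5) (nat_lit 66) (nat_lit 5) (nat_lit 403) (nat_lit 322) (nat_lit 175)) (XT.lf (nat_lit 0) (nat_lit 13007512144) (nat_lit 152) (nat_lit 6604714315) (nat_lit 228) (nat_lit 14584419040) (nat_lit 63) (nat_lit 5) (nat_lit 65) (nat_lit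 5) (nat_lit 66) (nat_lit 5) (nat_lit 404) (nat_lit 322) (nat_lit 174)))) (XT.nd (nat_lit 156) (nat_lit 152) (nat_lit 0) (XT.nd (nat_lit 78) (nat_lit 228) (nat_lit 0) (XT.lf (nat_lit 0) (nat_lit 27607060717) (nat_lit 228) (nat_lit 3815798825) (nat_lit 76) (nat_lit 3492528373) (nat_lit 63) (nat_lit 5) (nat_lit 66) (nat_lit 5) (nat_lit 64) (nat_lit 5) (nat_lit 405) (nat_lit 322) (nat_lit 173)) (XT.lf (nat_lit 0) (nat_lit 379744097) (nat_lit 228) (nat_lit 21374187497) (nat_lit 76) (nat_lit 13895788868) (nat_lit 60) (nat_lit 5) (nat_lit 63) (nat_lit 5) (nat_lit 61) (nat_lit 5) (nat_lit 406) (nat_lit 322) (nat_lit 172))) (XT.nd (nat_lit 78) (nat_lit 152) (nat_lit 0) (XT.lf (nat_lit 0) (nat_lit 8183238772) (nat_lit 228) (nat_lit 3502481874) (nat_lit 76) (nat_lit 24717242696) (nat_lit 60) (nat_lit 5) (nat_lit 63) (nat_lit 5) (nat_lit 61) (nat_lit 5) (nat_lit 407) (nat_lit 322) (nat_lit 171)) (XT.lf (nat_lit 0)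 (nat_lit 15189506496) (nat_lit 152) (nat_lit 1170311344) (nat_lit 228) (nat_lit 20814817529) (nat_lit 58) (nat_lit 5) (nat_lit 60) (nat_lit 5) (nat_lit 61) (nat_lit 5) (nat_lit 408) (nat_lit 322) (nat_lit 170)))))) (XT.nd (nat_lit 546) (nat_lit 684) (nat_lit 0) (XT.nd (nat_lit 234) (nat_lit 304) (nat_lit 0) (XT.nd (nat_lit 78) (nat_lit 228) (nat_lit 0) (XT.lf (nat_lit 0) (nat_lit 24903282551) (nat_lit 228) (nat_lit 3559867510) (nat_lit 76) (nat_lit 9502661062) (nat_lit 58) (nat_lit 5) (nat_lit 61) (nat_lit 5) (nat_lit 59) (nat_lit 5) (nat_lit 409) (nat_lit 322) (nat_lit 169)) (XT.nd (nat_lit 78) (nat_lit 76) (nat_lit 0) (XT.lf (nat_lit 0) (nat_lit 15700996411) (nat_lit 152) (nat_lit 18157779978) (nat_lit 228) (nat_lit 4917275183) (nat_lit 56) (nat_lit 5) (nat_lit 58) (nat_lit 5) (nat_lit 59) (nat_lit 5) (nat_lit 410) (nat_lit 322) (nat_lit 168)) (XT.lf (nat_lit 0) (nat_lit 3434108481) (nat_lit 228) (nat_lit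 4042564670) (nat_lit 76) (nat_lit 32132039934) (nat_lit 55) (nat_lit 5) (nat_lit 58) (nat_lit 5) (nat_lit 56) (nat_lit 5) (nat_lit 411) (nat_lit 322) (nat_lit 167)))) (XT.nd (nat_lit 156) (nat_lit 152) (nat_lit 0) (XT.nd (nat_lit 78) (nat_lit 0) (nat_lit 0) (XT.lf (nat_lit 0) (nat_lit 12118413361) (nat_lit 228) (nat_lit 24687268854) (nat_lit 76) (nat_lit 3653776366) (nat_lit 53) (nat_lit 5) (nat_lit 56) (nat_lit 5) (nat_lit 54) (nat_lit 5) (nat_lit 412) (nat_lit 322) (nat_lit 166)) (XT.lf (nat_lit 0) (nat_lit 21171956873) (nat_lit 228) (nat_lit 5156331981) (nat_lit 76) (nat_lit 15004177351) (nat_lit 53) (nat_lit 5) (nat_lit 56) (nat_lit 5) (nat_lit 54) (nat_lit 5) (nat_lit 413) (nat_lit 322) (nat_lit 165))) (XT.nd (nat_lit 78) (nat_lit 0) (nat_lit 0) (XT.lf (nat_lit 0) (nat_lit 15246736278) (nat_lit 152) (nat_lit 15390578808) (nat_lit 228) (nat_lit 11590143736) (nat_lit 51) (nat_lit 5) (nat_lit 53) (nat_lit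 5) (nat_lit 54) (nat_lit 5) (nat_lit 414) (nat_lit 322) (nat_lit 164)) (XT.lf (nat_lit 0) (nat_lit 36356391813) (nat_lit 152) (nat_lit 4076035836) (nat_lit 228) (nat_lit 2715500745) (nat_lit 51) (nat_lit 5) (nat_lit 53) (nat_lit 5) (nat_lit 54) (nat_lit 5) (nat_lit 415) (nat_lit 322) (nat_lit 163))))) (XT.nd (nat_lit 234) (nat_lit 304) (nat_lit 0) (XT.nd (nat_lit 78) (nat_lit 152) (nat_lit 0) (XT.lf (nat_lit 0) (nat_lit 6505180555) (nat_lit 228) (nat_lit 29957204298) (nat_lit 76) (nat_lit 7625619750) (nat_lit 48) (nat_lit 5) (nat_lit 51) (nat_lit 5) (nat_lit 49) (nat_lit 5) (nat_lit 416) (nat_lit 322) (nat_lit 162)) (XT.nd (nat_lit 78) (nat_lit 152) (nat_lit 0) (XT.lf (nat_lit 0) (nat_lit 16051394947) (nat_lit 228) (nat_lit 9313151197) (nat_lit 76) (nat_lit 19687826527) (nat_lit 48) (nat_lit 5) (nat_lit 51) (nat_lit 5) (nat_lit 49) (nat_lit 5) (nat_lit 417) (nat_lit 322) (nat_lit 161)) (XT.lf (nat_lit 0)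 (nat_lit 12177133800) (nat_lit 152) (nat_lit 13817968954) (nat_lit 228) (nat_lit 20047236693) (nat_lit 46) (nat_lit 5) (nat_lit 48) (nat_lit 5) (nat_lit 49) (nat_lit 5) (nat_lit 418) (nat_lit 322) (nat_lit 160)))) (XT.nd (nat_lit 156) (nat_lit 228) (nat_lit 0) (XT.nd (nat_lit 78) (nat_lit 76) (nat_lit 0) (XT.lf (nat_lit 0) (nat_lit 34492433375) (nat_lit 152) (nat_lit 1832857191) (nat_lit 228) (nat_lit 10734070448) (nat_lit 46) (nat_lit 5) (nat_lit 48) (nat_lit 5) (nat_lit 49) (nat_lit 5) (nat_lit 419) (nat_lit 322) (nat_lit 159)) (XT.lf (nat_lit 0) (nat_lit 9443098229) (nat_lit 76) (nat_lit 37708355761) (nat_lit 152) (nat_lit 949857964) (nat_lit 45) (nat_lit 5) (nat_lit 46) (nat_lit 5) (nat_lit 47) (nat_lit 4) (nat_lit 420) (nat_lit 322) (nat_lit 158))) (XT.nd (nat_lit 78) (nat_lit 152) (nat_lit 0) (XT.lf (nat_lit 0) (nat_lit 9090330349) (nat_lit 152) (nat_lit 16917262325) (nat_lit 76) (nat_lit 23160080226)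 (nat_lit 44) (nat_lit 5) (nat_lit 46) (nat_lit 5) (nat_lit 45) (nat_lit 5) (nat_lit 421) (nat_lit 322) (nat_lit 157)) (XT.lf (nat_lit 0) (nat_lit 5564973539) (nat_lit 152) (nat_lit 13895583022) (nat_lit 228) (nat_lit 30803749030) (nat_lit 42) (nat_lit 5) (nat_lit 44) (nat_lit 5) (nat_lit 45) (nat_lit 5) (nat_lit 422) (nat_lit 322) (nat_lit 156))))))))
noncomputable def xc161 : XT := (XT.nd (nat_lit 39624) (nat_lit 0) (nat_lit 11248) (XT.nd (nat_lit 1014) (nat_lit 456) (nat_lit 0) (XT.nd (nat_lit 468) (nat_lit 380) (nat_lit 0) (XT.nd (nat_lit 234) (nat_lit 228) (nat_lit 0) (XT.nd (nat_lit 78) (nat_lit 76) (nat_lit 0) (XT.lf (nat_lit 0) (nat_lit 29058430886) (nat_lit 152) (nat_lit 1248785180) (nat_lit 228) (nat_lit 21081662133) (nat_lit 42) (nat_lit 5) (nat_lit 44) (nat_lit 5) (nat_lit 45) (nat_lit 5) (nat_lit 423) (nat_lit 322) (nat_lit 155)) (XT.nd (nat_lit 78) (nat_lit 0) (nat_lit 0) (XT.lf (nat_lit 0)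 (nat_lit 598103946) (nat_lit 76) (nat_lit 40994745886) (nat_lit 152) (nat_lit 10950931635) (nat_lit 41) (nat_lit 5) (nat_lit 42) (nat_lit 5) (nat_lit 43) (nat_lit 4) (nat_lit 424) (nat_lit 322) (nat_lit 154)) (XT.lf (nat_lit 0) (nat_lit 24649890954) (nat_lit 76) (nat_lit 28799574824) (nat_lit 152) (nat_lit 276894349) (nat_lit 41) (nat_lit 5) (nat_lit 42) (nat_lit 5) (nat_lit 43) (nat_lit 4) (nat_lit 425) (nat_lit 322) (nat_lit 153)))) (XT.nd (nat_lit 78) (nat_lit 152) (nat_lit 0) (XT.lf (nat_lit 0) (nat_lit 10503009347) (nat_lit 152) (nat_lit 5633789417) (nat_lit 76) (nat_lit 38804683992) (nat_lit 40) (nat_lit 5) (nat_lit 42) (nat_lit 5) (nat_lit 41) (nat_lit 5) (nat_lit 426) (nat_lit 322) (nat_lit 152)) (XT.nd (nat_lit 78) (nat_lit 0) (nat_lit 0) (XT.lf (nat_lit 0) (nat_lit 18868314108) (nat_lit 152) (nat_lit 2908736238) (nat_lit 228) (nat_lit 34410637938) (nat_lit 38) (nat_lit 5) (nat_lit 40) (nat_lit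 5) (nat_lit 41) (nat_lit 5) (nat_lit 427) (nat_lit 322) (nat_lit 151)) (XT.lf (nat_lit 0) (nat_lit 33544726809) (nat_lit 228) (nat_lit 13361502142) (nat_lit 76) (nat_lit 10560389215) (nat_lit 38) (nat_lit 5) (nat_lit 41) (nat_lit 5) (nat_lit 39) (nat_lit 4) (nat_lit 428) (nat_lit 322) (nat_lit 150))))) (XT.nd (nat_lit 234) (nat_lit 76) (nat_lit 0) (XT.nd (nat_lit 78) (nat_lit 228) (nat_lit 0) (XT.lf (nat_lit 0) (nat_lit 11501694584) (nat_lit 76) (nat_lit 34298197122) (nat_lit 152) (nat_lit 12979991091) (nat_lit 37) (nat_lit 5) (nat_lit 38) (nat_lit 5) (nat_lit 39) (nat_lit 4) (nat_lit 429) (nat_lit 322) (nat_lit 149)) (XT.nd (nat_lit 78) (nat_lit 228) (nat_lit 0) (XT.lf (nat_lit 0) (nat_lit 37375722061) (nat_lit 76) (nat_lit 21177068549) (nat_lit 152) (nat_lit 1575852965) (nat_lit 37) (nat_lit 5) (nat_lit 38) (nat_lit 5) (nat_lit 39) (nat_lit 4) (nat_lit 430) (nat_lit 322) (nat_lit 148)) (XT.lf (nat_lit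 0) (nat_lit 2449337473) (nat_lit 152) (nat_lit 7541403138) (nat_lit 228) (nat_lit 51523630407) (nat_lit 34) (nat_lit 5) (nat_lit 36) (nat_lit 5) (nat_lit 37) (nat_lit 5) (nat_lit 431) (nat_lit 322) (nat_lit 147)))) (XT.nd (nat_lit 156) (nat_lit 76) (nat_lit 0) (XT.nd (nat_lit 78) (nat_lit 0) (nat_lit 0) (XT.lf (nat_lit 0) (nat_lit 22162471852) (nat_lit 228) (nat_lit 34149905570) (nat_lit 76) (nat_lit 6620130929) (nat_lit 34) (nat_lit 5) (nat_lit 37) (nat_lit 5) (nat_lit 35) (nat_lit 4) (nat_lit 432) (nat_lit 322) (nat_lit 146)) (XT.lf (nat_lit 0) (nat_lit 34769424512) (nat_lit 228) (nat_lit 8570547942) (nat_lit 76) (nat_lit 21051115779) (nat_lit 34) (nat_lit 5) (nat_lit 37) (nat_lit 5) (nat_lit 35) (nat_lit 4) (nat_lit 433) (nat_lit 322) (nat_lit 145))) (XT.nd (nat_lit 78) (nat_lit 0) (nat_lit 0) (XT.lf (nat_lit 0) (nat_lit 18121498518) (nat_lit 76) (nat_lit 29802818207) (nat_lit 152) (nat_lit 17964017360)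 (nat_lit 33) (nat_lit 5) (nat_lit 34) (nat_lit 5) (nat_lit 35) (nat_lit 4) (nat_lit 434) (nat_lit 322) (nat_lit 144)) (XT.lf (nat_lit 0) (nat_lit 45781768048) (nat_lit 76) (nat_lit 15774220371) (nat_lit 152) (nat_lit 5872045394) (nat_lit 33) (nat_lit 5) (nat_lit 34) (nat_lit 5) (nat_lit 35) (nat_lit 4) (nat_lit 435) (nat_lit 322) (nat_lit 143)))))) (XT.nd (nat_lit 38064) (nat_lit 0) (nat_lit 18392) (XT.nd (nat_lit 234) (nat_lit 228) (nat_lit 0) (XT.nd (nat_lit 78) (nat_lit 0) (nat_lit 0) (XT.lf (nat_lit 0) (nat_lit 5289794124) (nat_lit 152) (nat_lit 1210961073) (nat_lit 228) (nat_lit 62509875850) (nat_lit 30) (nat_lit 5) (nat_lit 32) (nat_lit 5) (nat_lit 33) (nat_lit 5) (nat_lit 436) (nat_lit 322) (nat_lit 142)) (XT.nd (nat_lit 78) (nat_lit 0) (nat_lit 0) (XT.lf (nat_lit 0) (nat_lit 19475702859) (nat_lit 228) (nat_lit 37357426132) (nat_lit 76) (nat_lit 13795363918) (nat_lit 30) (nat_lit 5) (nat_lit 33)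 (nat_lit 5) (nat_lit 31) (nat_lit 4) (nat_lit 437) (nat_lit 322) (nat_lit 141)) (XT.lf (nat_lit 0) (nat_lit 32847700428) (nat_lit 228) (nat_lit 10222954245) (nat_lit 76) (nat_lit 29224002340) (nat_lit 30) (nat_lit 5) (nat_lit 33) (nat_lit 5) (nat_lit 31) (nat_lit 4) (nat_lit 438) (nat_lit 322) (nat_lit 140)))) (XT.nd (nat_lit 156) (nat_lit 152) (nat_lit 0) (XT.nd (nat_lit 78) (nat_lit 0) (nat_lit 0) (XT.lf (nat_lit 0) (nat_lit 18070550495) (nat_lit 76) (nat_lit 28719946365) (nat_lit 152) (nat_lit 27215220432) (nat_lit 29) (nat_lit 5) (nat_lit 30) (nat_lit 5) (nat_lit 31) (nat_lit 4) (nat_lit 439) (nat_lit 322) (nat_lit 139)) (XT.lf (nat_lit 0) (nat_lit 47414872821) (nat_lit 76) (nat_lit 13835915785) (nat_lit 152) (nat_lit 14514344835) (nat_lit 29) (nat_lit 5) (nat_lit 30) (nat_lit 5) (nat_lit 31) (nat_lit 4) (nat_lit 440) (nat_lit 322) (nat_lit 138))) (XT.nd (nat_lit 78) (nat_lit 76) (nat_lit 0) (XT.lf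 (nat_lit 0) (nat_lit 41216857) (nat_lit 76) (nat_lit 76114499607) (nat_lit 76) (nat_lit 1421291186) (nat_lit 28) (nat_lit 4) (nat_lit 29) (nat_lit 5) (nat_lit 29) (nat_lit 4) (nat_lit 441) (nat_lit 322) (nat_lit 137)) (XT.lf (nat_lit 0) (nat_lit 12251305931) (nat_lit 152) (nat_lit 49832272781) (nat_lit 76) (nat_lit 17343515346) (nat_lit 27) (nat_lit 5) (nat_lit 29) (nat_lit 5) (nat_lit 28) (nat_lit 4) (nat_lit 442) (nat_lit 322) (nat_lit 136))))) (XT.nd (nat_lit 234) (nat_lit 988) (nat_lit 0) (XT.nd (nat_lit 78) (nat_lit 0) (nat_lit 0) (XT.lf (nat_lit 0) (nat_lit 1017472160) (nat_lit 0) (nat_lit 1017472160) (nat_lit 988) (nat_lit 2320269030) (nat_lit 282) (nat_lit 5) (nat_lit 282) (nat_lit 3) (nat_lit 295) (nat_lit 3) (nat_lit 323) (nat_lit 323) (nat_lit 254)) (XT.nd (nat_lit 78) (nat_lit 0) (nat_lit 0) (XT.lf (nat_lit 0) (nat_lit 5097250110) (nat_lit 988) (nat_lit 2500738376) (nat_lit 1064) (nat_lit 1213542127)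 (nat_lit 282) (nat_lit 5) (nat_lit 295) (nat_lit 3) (nat_lit 296) (nat_lit 5) (nat_lit 324) (nat_lit 323) (nat_lit 253)) (XT.lf (nat_lit 76) (nat_lit 1794168132) (nat_lit 0) (nat_lit 4361589746) (nat_lit 1064) (nat_lit 2759921976) (nat_lit 283) (nat_lit 5) (nat_lit 282) (nat_lit 5) (nat_lit 296) (nat_lit 5) (nat_lit 325) (nat_lit 323) (nat_lit 252)))) (XT.nd (nat_lit 156) (nat_lit 988) (nat_lit 0) (XT.nd (nat_lit 78) (nat_lit 0) (nat_lit 76) (XT.lf (nat_lit 76) (nat_lit 6249437502) (nat_lit 0) (nat_lit 985656646) (nat_lit 1064) (nat_lit 1788208562) (nat_lit 283) (nat_lit 5) (nat_lit 282) (nat_lit 5) (nat_lit 296) (nat_lit 5) (nat_lit 326) (nat_lit 323) (nat_lit 251)) (XT.lf (nat_lit 76) (nat_lit 1692895135) (nat_lit 0) (nat_lit 6659166699) (nat_lit 1064) (nat_lit 781955594) (nat_lit 284) (nat_lit 5) (nat_lit 283) (nat_lit 5) (nat_lit 297) (nat_lit 5) (nat_lit 327) (nat_lit 323) (nat_lit 250))) (XT.nd (nat_lit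 78) (nat_lit 0) (nat_lit 76) (XT.lf (nat_lit 0) (nat_lit 253060410) (nat_lit 1064) (nat_lit 2930081992) (nat_lit 1140) (nat_lit 6064751081) (nat_lit 269) (nat_lit 5) (nat_lit 283) (nat_lit 5) (nat_lit 284) (nat_lit 5) (nat_lit 328) (nat_lit 323) (nat_lit 249)) (XT.lf (nat_lit 0) (nat_lit 1290646529) (nat_lit 1064) (nat_lit 7647816374) (nat_lit 1140) (nat_lit 426892523) (nat_lit 270) (nat_lit 5) (nat_lit 284) (nat_lit 5) (nat_lit 285) (nat_lit 5) (nat_lit 329) (nat_lit 323) (nat_lit 248))))))) (XT.nd (nat_lit 1014) (nat_lit 5244) (nat_lit 0) (XT.nd (nat_lit 468) (nat_lit 1976) (nat_lit 0) (XT.nd (nat_lit 234) (nat_lit 0) (nat_lit 76) (XT.nd (nat_lit 78) (nat_lit 0) (nat_lit 0) (XT.lf (nat_lit 0) (nat_lit 2388160859) (nat_lit 1064) (nat_lit 2973829571) (nat_lit 1140) (nat_lit 4123505185) (nat_lit 270) (nat_lit 5) (nat_lit 284) (nat_lit 5) (nat_lit 285) (nat_lit 5) (nat_lit 330) (nat_lit 323) (nat_lit 247))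 (XT.nd (nat_lit 78) (nat_lit 0) (nat_lit 76) (XT.lf (nat_lit 76) (nat_lit 1855992667) (nat_lit 0) (nat_lit 1648801637) (nat_lit 1140) (nat_lit 6104877763) (nat_lit 271) (nat_lit 5) (nat_lit 270) (nat_lit 5) (nat_lit 285) (nat_lit 5) (nat_lit 331) (nat_lit 323) (nat_lit 246)) (XT.lf (nat_lit 0) (nat_lit 4675348451) (nat_lit 1064) (nat_lit 2887660473) (nat_lit 1140) (nat_lit 2173969584) (nat_lit 271) (nat_lit 5) (nat_lit 285) (nat_lit 5) (nat_lit 286) (nat_lit 5) (nat_lit 332) (nat_lit 323) (nat_lit 245)))) (XT.nd (nat_lit 78) (nat_lit 0) (nat_lit 76) (XT.lf (nat_lit 76) (nat_lit 2128732678) (nat_lit 0) (nat_lit 3759151246) (nat_lit 1140) (nat_lit 3980031123) (nat_lit 272) (nat_lit 5) (nat_lit 271) (nat_lit 5) (nat_lit 286) (nat_lit 5) (nat_lit 333) (nat_lit 323) (nat_lit 244)) (XT.nd (nat_lit 78) (nat_lit 0) (nat_lit 0) (XT.lf (nat_lit 0) (nat_lit 7138604167) (nat_lit 1064) (nat_lit 2670501967) (nat_lit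 1140) (nat_lit 193635637) (nat_lit 272) (nat_lit 5) (nat_lit 286) (nat_lit 5) (nat_lit 287) (nat_lit 5) (nat_lit 334) (nat_lit 323) (nat_lit 243)) (XT.lf (nat_lit 76) (nat_lit 2541651738) (nat_lit 0) (nat_lit 5918528608) (nat_lit 1140) (nat_lit 1680448798) (nat_lit 273) (nat_lit 5) (nat_lit 272) (nat_lit 5) (nat_lit 287) (nat_lit 5) (nat_lit 335) (nat_lit 323) (nat_lit 242))))) (XT.nd (nat_lit 234) (nat_lit 1064) (nat_lit 0) (XT.nd (nat_lit 78) (nat_lit 1064) (nat_lit 0) (XT.lf (nat_lit 76) (nat_lit 7944153693) (nat_lit 0) (nat_lit 1876525265) (nat_lit 1140) (nat_lit 462011338) (nat_lit 273) (nat_lit 5) (nat_lit 272) (nat_lit 5) (nat_lit 287) (nat_lit 5) (nat_lit 336) (nat_lit 323) (nat_lit 241)) (XT.nd (nat_lit 78) (nat_lit 0) (nat_lit 0) (XT.lf (nat_lit 0) (nat_lit 802670163) (nat_lit 1140) (nat_lit 7339018121) (nat_lit 1216) (nat_lit 2286355906) (nat_lit 258) (nat_lit 5) (nat_lit 273) (nat_lit 5) (nat_lit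 274) (nat_lit 5) (nat_lit 337) (nat_lit 323) (nat_lit 240)) (XT.lf (nat_lit 0) (nat_lit 2111920472) (nat_lit 1140) (nat_lit 1894460683) (nat_lit 1216) (nat_lit 6570776991) (nat_lit 258) (nat_lit 5) (nat_lit 273) (nat_lit 5) (nat_lit 274) (nat_lit 5) (nat_lit 338) (nat_lit 323) (nat_lit 239)))) (XT.nd (nat_lit 156) (nat_lit 1140) (nat_lit 0) (XT.nd (nat_lit 78) (nat_lit 0) (nat_lit 0) (XT.lf (nat_lit 0) (nat_lit 3473747942) (nat_lit 1140) (nat_lit 6967112073) (nat_lit 76) (nat_lit 289500210) (nat_lit 259) (nat_lit 5) (nat_lit 274) (nat_lit 5) (nat_lit 260) (nat_lit 5) (nat_lit 339) (nat_lit 323) (nat_lit 238)) (XT.lf (nat_lit 0) (nat_lit 4910272596) (nat_lit 1140) (nat_lit 1319281775) (nat_lit 76) (nat_lit 4657602021) (nat_lit 259) (nat_lit 5) (nat_lit 274) (nat_lit 5) (nat_lit 260) (nat_lit 5) (nat_lit 340) (nat_lit 323) (nat_lit 237))) (XT.nd (nat_lit 78) (nat_lit 0) (nat_lit 0) (XT.lf (nat_lit 0) (nat_lit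 4566347959) (nat_lit 1140) (nat_lit 1843027397) (nat_lit 1216) (nat_lit 4638709525) (nat_lit 244) (nat_lit 5) (nat_lit 259) (nat_lit 5) (nat_lit 260) (nat_lit 5) (nat_lit 341) (nat_lit 323) (nat_lit 236)) (XT.lf (nat_lit 0) (nat_lit 7968753664) (nat_lit 1216) (nat_lit 604997362) (nat_lit 76) (nat_lit 2639643657) (nat_lit 244) (nat_lit 5) (nat_lit 260) (nat_lit 5) (nat_lit 245) (nat_lit 5) (nat_lit 342) (nat_lit 323) (nat_lit 235)))))) (XT.nd (nat_lit 546) (nat_lit 2128) (nat_lit 0) (XT.nd (nat_lit 234) (nat_lit 1216) (nat_lit 0) (XT.nd (nat_lit 78) (nat_lit 684) (nat_lit 0) (XT.lf (nat_lit 0) (nat_lit 5516769195) (nat_lit 1216) (nat_lit 4106251366) (nat_lit 1292) (nat_lit 1759212169) (nat_lit 228) (nat_lit 5) (nat_lit 244) (nat_lit 5) (nat_lit 245) (nat_lit 5) (nat_lit 343) (nat_lit 323) (nat_lit 234)) (XT.nd (nat_lit 78) (nat_lit 76) (nat_lit 0) (XT.lf (nat_lit 0) (nat_lit 257653753) (nat_lit 608) (nat_lit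 11059997323) (nat_lit 684) (nat_lit 238774587) (nat_lit 220) (nat_lit 5) (nat_lit 228) (nat_lit 5) (nat_lit 229) (nat_lit 5) (nat_lit 344) (nat_lit 323) (nat_lit 233)) (XT.lf (nat_lit 0) (nat_lit 1379403957) (nat_lit 684) (nat_lit 5124808329) (nat_lit 76) (nat_lit 5228919643) (nat_lit 219) (nat_lit 5) (nat_lit 228) (nat_lit 5) (nat_lit 220) (nat_lit 5) (nat_lit 345) (nat_lit 323) (nat_lit 232)))) (XT.nd (nat_lit 156) (nat_lit 608) (nat_lit 0) (XT.nd (nat_lit 78) (nat_lit 0) (nat_lit 0) (XT.lf (nat_lit 0) (nat_lit 1235299001) (nat_lit 608) (nat_lit 1796113598) (nat_lit 684) (nat_lit 8883964154) (nat_lit 211) (nat_lit 5) (nat_lit 219) (nat_lit 5) (nat_lit 220) (nat_lit 5) (nat_lit 346) (nat_lit 323) (nat_lit 231)) (XT.lf (nat_lit 0) (nat_lit 4793246990) (nat_lit 684) (nat_lit 4261405541) (nat_lit 76) (nat_lit 3046638923) (nat_lit 211) (nat_lit 5) (nat_lit 220) (nat_lit 5) (nat_lit 212) (nat_lit 5) (nat_lit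 347) (nat_lit 323) (nat_lit 230))) (XT.nd (nat_lit 78) (nat_lit 0) (nat_lit 0) (XT.lf (nat_lit 0) (nat_lit 2357393951) (nat_lit 608) (nat_lit 4270261328) (nat_lit 684) (nat_lit 5664546941) (nat_lit 203) (nat_lit 5) (nat_lit 211) (nat_lit 5) (nat_lit 212) (nat_lit 5) (nat_lit 348) (nat_lit 323) (nat_lit 229)) (XT.lf (nat_lit 0) (nat_lit 8546556242) (nat_lit 684) (nat_lit 3253251747) (nat_lit 76) (nat_lit 688158401) (nat_lit 203) (nat_lit 5) (nat_lit 212) (nat_lit 5) (nat_lit 204) (nat_lit 5) (nat_lit 349) (nat_lit 323) (nat_lit 228))))) (XT.nd (nat_lit 234) (nat_lit 988) (nat_lit 0) (XT.nd (nat_lit 78) (nat_lit 608) (nat_lit 0) (XT.lf (nat_lit 0) (nat_lit 3636989455) (nat_lit 532) (nat_lit 6943548066) (nat_lit 608) (nat_lit 2107350169) (nat_lit 196) (nat_lit 5) (nat_lit 203) (nat_lit 5) (nat_lit 204) (nat_lit 5) (nat_lit 350) (nat_lit 323) (nat_lit 227)) (XT.nd (nat_lit 78) (nat_lit 608) (nat_lit 0) (XT.lf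 (nat_lit 0) (nat_lit 10780373920) (nat_lit 532) (nat_lit 1908668198) (nat_lit 608) (nat_lit 204368722) (nat_lit 196) (nat_lit 5) (nat_lit 203) (nat_lit 5) (nat_lit 204) (nat_lit 5) (nat_lit 351) (nat_lit 323) (nat_lit 226)) (XT.lf (nat_lit 0) (nat_lit 1783588679) (nat_lit 608) (nat_lit 8040381738) (nat_lit 76) (nat_lit 3278767352) (nat_lit 188) (nat_lit 5) (nat_lit 196) (nat_lit 5) (nat_lit 189) (nat_lit 5) (nat_lit 352) (nat_lit 323) (nat_lit 225)))) (XT.nd (nat_lit 156) (nat_lit 532) (nat_lit 0) (XT.nd (nat_lit 78) (nat_lit 456) (nat_lit 0) (XT.lf (nat_lit 0) (nat_lit 3848894842) (nat_lit 608) (nat_lit 862918526) (nat_lit 76) (nat_lit 8605824440) (nat_lit 188) (nat_lit 5) (nat_lit 196) (nat_lit 5) (nat_lit 189) (nat_lit 5) (nat_lit 353) (nat_lit 323) (nat_lit 224)) (XT.lf (nat_lit 0) (nat_lit 6027835905) (nat_lit 532) (nat_lit 6903940741) (nat_lit 76) (nat_lit 605666216) (nat_lit 182) (nat_lit 5) (nat_lit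 189) (nat_lit 5) (nat_lit 183) (nat_lit 5) (nat_lit 354) (nat_lit 323) (nat_lit 223))) (XT.nd (nat_lit 78) (nat_lit 0) (nat_lit 0) (XT.lf (nat_lit 0) (nat_lit 552832031) (nat_lit 532) (nat_lit 7762312954) (nat_lit 608) (nat_lit 5447415134) (nat_lit 175) (nat_lit 5) (nat_lit 182) (nat_lit 5) (nat_lit 183) (nat_lit 5) (nat_lit 355) (nat_lit 323) (nat_lit 222)) (XT.lf (nat_lit 0) (nat_lit 8354887932) (nat_lit 532) (nat_lit 2368461361) (nat_lit 608) (nat_lit 3269521131) (nat_lit 175) (nat_lit 5) (nat_lit 182) (nat_lit 5) (nat_lit 183) (nat_lit 5) (nat_lit 356) (nat_lit 323) (nat_lit 221))))))))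
noncomputable def xc162 : XT := (XT.nd (nat_lit 2106) (nat_lit 3268) (nat_lit 0) (XT.nd (nat_lit 1014) (nat_lit 2584) (nat_lit 0) (XT.nd (nat_lit 468) (nat_lit 1672) (nat_lit 0) (XT.nd (nat_lit 234) (nat_lit 380) (nat_lit 0) (XT.nd (nat_lit 78) (nat_lit 532) (nat_lit 0) (XT.lf (nat_lit 0) (nat_lit 2152424287) (nat_lit 456) (nat_lit 11085747528) (nat_lit 532) (nat_lit 990894643) (nat_lit 169) (nat_lit 5) (nat_lit 175) (nat_lit 5) (nat_lit 176) (nat_lit 5) (nat_lit 357) (nat_lit 323) (nat_lit 220)) (XT.nd (nat_lit 78) (nat_lit 456) (nat_lit 0) (XT.lf (nat_lit 0) (nat_lit 1393751878) (nat_lit 532) (nat_lit 4235576044) (nat_lit 76) (nat_lit 8840712827) (nat_lit 168) (nat_lit 5) (nat_lit 175) (nat_lit 5) (nat_lit 169) (nat_lit 5) (nat_lit 358) (nat_lit 323) (nat_lit 219)) (XT.lf (nat_lit 0) (nat_lit 3851405274) (nat_lit 532) (nat_lit 10830327377) (nat_lit 76) (nat_lit 35582728) (nat_lit 162) (nat_lit 5) (nat_lit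 169) (nat_lit 5) (nat_lit 163) (nat_lit 5) (nat_lit 359) (nat_lit 323) (nat_lit 218)))) (XT.nd (nat_lit 78) (nat_lit 380) (nat_lit 0) (XT.lf (nat_lit 0) (nat_lit 6465645979) (nat_lit 532) (nat_lit 2706517406) (nat_lit 76) (nat_lit 5797365869) (nat_lit 162) (nat_lit 5) (nat_lit 169) (nat_lit 5) (nat_lit 163) (nat_lit 5) (nat_lit 360) (nat_lit 323) (nat_lit 217)) (XT.nd (nat_lit 78) (nat_lit 0) (nat_lit 0) (XT.lf (nat_lit 0) (nat_lit 5754177989) (nat_lit 380) (nat_lit 3443844029) (nat_lit 456) (nat_lit 6030102825) (nat_lit 157) (nat_lit 5) (nat_lit 162) (nat_lit 5) (nat_lit 163) (nat_lit 5) (nat_lit 361) (nat_lit 323) (nat_lit 216)) (XT.lf (nat_lit 0) (nat_lit 12048215610) (nat_lit 456) (nat_lit 1012723465) (nat_lit 76) (nat_lit 2432470185) (nat_lit 157) (nat_lit 5) (nat_lit 163) (nat_lit 5) (nat_lit 158) (nat_lit 5) (nat_lit 362) (nat_lit 323) (nat_lit 215))))) (XT.nd (nat_lit 234) (nat_lit 760) (nat_lit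 0) (XT.nd (nat_lit 78) (nat_lit 456) (nat_lit 0) (XT.lf (nat_lit 0) (nat_lit 7801683954) (nat_lit 456) (nat_lit 7276404105) (nat_lit 532) (nat_lit 685745125) (nat_lit 151) (nat_lit 5) (nat_lit 157) (nat_lit 5) (nat_lit 158) (nat_lit 5) (nat_lit 363) (nat_lit 323) (nat_lit 214)) (XT.nd (nat_lit 78) (nat_lit 0) (nat_lit 0) (XT.lf (nat_lit 0) (nat_lit 835788372) (nat_lit 380) (nat_lit 1282165159) (nat_lit 456) (nat_lit 13923693796) (nat_lit 145) (nat_lit 5) (nat_lit 150) (nat_lit 5) (nat_lit 151) (nat_lit 5) (nat_lit 364) (nat_lit 323) (nat_lit 213)) (XT.lf (nat_lit 0) (nat_lit 5105599548) (nat_lit 456) (nat_lit 6338240708) (nat_lit 76) (nat_lit 4880349019) (nat_lit 145) (nat_lit 5) (nat_lit 151) (nat_lit 5) (nat_lit 146) (nat_lit 5) (nat_lit 365) (nat_lit 323) (nat_lit 212)))) (XT.nd (nat_lit 156) (nat_lit 380) (nat_lit 0) (XT.nd (nat_lit 78) (nat_lit 0) (nat_lit 0) (XT.lf (nat_lit 0) (nat_lit 2819152649)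 (nat_lit 380) (nat_lit 5389338844) (nat_lit 456) (nat_lit 8405952969) (nat_lit 140) (nat_lit 5) (nat_lit 145) (nat_lit 5) (nat_lit 146) (nat_lit 5) (nat_lit 366) (nat_lit 323) (nat_lit 211)) (XT.lf (nat_lit 0) (nat_lit 11463263493) (nat_lit 456) (nat_lit 4557834603) (nat_lit 76) (nat_lit 890550728) (nat_lit 140) (nat_lit 5) (nat_lit 146) (nat_lit 5) (nat_lit 141) (nat_lit 5) (nat_lit 367) (nat_lit 323) (nat_lit 210))) (XT.nd (nat_lit 78) (nat_lit 76) (nat_lit 0) (XT.lf (nat_lit 0) (nat_lit 4982388251) (nat_lit 304) (nat_lit 9920967115) (nat_lit 380) (nat_lit 2311788813) (nat_lit 136) (nat_lit 5) (nat_lit 140) (nat_lit 5) (nat_lit 141) (nat_lit 5) (nat_lit 368) (nat_lit 323) (nat_lit 209)) (XT.lf (nat_lit 0) (nat_lit 933963340) (nat_lit 380) (nat_lit 2651720840) (nat_lit 76) (nat_lit 13940810422) (nat_lit 135) (nat_lit 5) (nat_lit 140) (nat_lit 5) (nat_lit 136) (nat_lit 5) (nat_lit 369) (nat_lit 323) (nat_lit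 208)))))) (XT.nd (nat_lit 546) (nat_lit 1216) (nat_lit 0) (XT.nd (nat_lit 234) (nat_lit 684) (nat_lit 0) (XT.nd (nat_lit 78) (nat_lit 304) (nat_lit 0) (XT.lf (nat_lit 0) (nat_lit 4317013970) (nat_lit 456) (nat_lit 10555031522) (nat_lit 76) (nat_lit 2971866383) (nat_lit 130) (nat_lit 5) (nat_lit 136) (nat_lit 5) (nat_lit 131) (nat_lit 5) (nat_lit 370) (nat_lit 323) (nat_lit 207)) (XT.nd (nat_lit 78) (nat_lit 304) (nat_lit 0) (XT.lf (nat_lit 0) (nat_lit 7851168079) (nat_lit 456) (nat_lit 641713315) (nat_lit 76) (nat_lit 9676486502) (nat_lit 130) (nat_lit 5) (nat_lit 136) (nat_lit 5) (nat_lit 131) (nat_lit 5) (nat_lit 371) (nat_lit 323) (nat_lit 206)) (XT.lf (nat_lit 0) (nat_lit 9741667140) (nat_lit 304) (nat_lit 1830767035) (nat_lit 380) (nat_lit 6929725255) (nat_lit 126) (nat_lit 5) (nat_lit 130) (nat_lit 5) (nat_lit 131) (nat_lit 5) (nat_lit 372) (nat_lit 323) (nat_lit 205)))) (XT.nd (nat_lit 156) (nat_lit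 304) (nat_lit 0) (XT.nd (nat_lit 78) (nat_lit 76) (nat_lit 0) (XT.lf (nat_lit 0) (nat_lit 1569574771) (nat_lit 304) (nat_lit 13893355588) (nat_lit 380) (nat_lit 3380280912) (nat_lit 122) (nat_lit 5) (nat_lit 126) (nat_lit 5) (nat_lit 127) (nat_lit 5) (nat_lit 373) (nat_lit 323) (nat_lit 204)) (XT.lf (nat_lit 0) (nat_lit 365399919) (nat_lit 380) (nat_lit 6842033727) (nat_lit 76) (nat_lit 11984131646) (nat_lit 121) (nat_lit 5) (nat_lit 126) (nat_lit 5) (nat_lit 122) (nat_lit 5) (nat_lit 374) (nat_lit 323) (nat_lit 203))) (XT.nd (nat_lit 78) (nat_lit 0) (nat_lit 0) (XT.lf (nat_lit 0) (nat_lit 3928557512) (nat_lit 304) (nat_lit 252742248) (nat_lit 380) (nat_lit 15367296420) (nat_lit 117) (nat_lit 5) (nat_lit 121) (nat_lit 5) (nat_lit 122) (nat_lit 5) (nat_lit 375) (nat_lit 323) (nat_lit 202)) (XT.lf (nat_lit 0) (nat_lit 8236041388) (nat_lit 380) (nat_lit 4836147908) (nat_lit 76) (nat_lit 6840421597) (nat_lit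 117) (nat_lit 5) (nat_lit 122) (nat_lit 5) (nat_lit 118) (nat_lit 5) (nat_lit 376) (nat_lit 323) (nat_lit 201))))) (XT.nd (nat_lit 234) (nat_lit 532) (nat_lit 0) (XT.nd (nat_lit 78) (nat_lit 380) (nat_lit 0) (XT.lf (nat_lit 0) (nat_lit 6376396026) (nat_lit 304) (nat_lit 6088331065) (nat_lit 380) (nat_lit 7821253633) (nat_lit 113) (nat_lit 5) (nat_lit 117) (nat_lit 5) (nat_lit 118) (nat_lit 5) (nat_lit 377) (nat_lit 323) (nat_lit 200)) (XT.nd (nat_lit 78) (nat_lit 380) (nat_lit 0) (XT.lf (nat_lit 0) (nat_lit 16868844472) (nat_lit 380) (nat_lit 2672655120) (nat_lit 76) (nat_lit 1127598544) (nat_lit 113) (nat_lit 5) (nat_lit 118) (nat_lit 5) (nat_lit 114) (nat_lit 5) (nat_lit 378) (nat_lit 323) (nat_lit 199)) (XT.lf (nat_lit 0) (nat_lit 471813279) (nat_lit 380) (nat_lit 12063957779) (nat_lit 76) (nat_lit 8523730029) (nat_lit 108) (nat_lit 5) (nat_lit 113) (nat_lit 5) (nat_lit 109) (nat_lit 5) (nat_lit 379)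 (nat_lit 323) (nat_lit 198)))) (XT.nd (nat_lit 156) (nat_lit 228) (nat_lit 0) (XT.nd (nat_lit 78) (nat_lit 304) (nat_lit 0) (XT.lf (nat_lit 0) (nat_lit 4811931691) (nat_lit 380) (nat_lit 446608951) (nat_lit 76) (nat_lit 16201461885) (nat_lit 108) (nat_lit 5) (nat_lit 113) (nat_lit 5) (nat_lit 109) (nat_lit 5) (nat_lit 380) (nat_lit 323) (nat_lit 197)) (XT.lf (nat_lit 0) (nat_lit 9406934406) (nat_lit 380) (nat_lit 10159833317) (nat_lit 76) (nat_lit 2302014082) (nat_lit 104) (nat_lit 5) (nat_lit 109) (nat_lit 5) (nat_lit 105) (nat_lit 5) (nat_lit 381) (nat_lit 323) (nat_lit 196))) (XT.nd (nat_lit 78) (nat_lit 0) (nat_lit 0) (XT.lf (nat_lit 0) (nat_lit 1917839584) (nat_lit 228) (nat_lit 12286444284) (nat_lit 304) (nat_lit 8083608817) (nat_lit 101) (nat_lit 5) (nat_lit 104) (nat_lit 5) (nat_lit 105) (nat_lit 5) (nat_lit 382) (nat_lit 323) (nat_lit 195)) (XT.lf (nat_lit 0) (nat_lit 14550153778) (nat_lit 228)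 (nat_lit 4687590509) (nat_lit 304) (nat_lit 3479069925) (nat_lit 101) (nat_lit 5) (nat_lit 104) (nat_lit 5) (nat_lit 105) (nat_lit 5) (nat_lit 383) (nat_lit 323) (nat_lit 194))))))) (XT.nd (nat_lit 1014) (nat_lit 1444) (nat_lit 0) (XT.nd (nat_lit 468) (nat_lit 912) (nat_lit 0) (XT.nd (nat_lit 234) (nat_lit 304) (nat_lit 0) (XT.nd (nat_lit 78) (nat_lit 228) (nat_lit 0) (XT.lf (nat_lit 0) (nat_lit 1302304243) (nat_lit 380) (nat_lit 18725867890) (nat_lit 76) (nat_lit 3128169015) (nat_lit 96) (nat_lit 5) (nat_lit 101) (nat_lit 5) (nat_lit 97) (nat_lit 5) (nat_lit 384) (nat_lit 323) (nat_lit 193)) (XT.nd (nat_lit 78) (nat_lit 228) (nat_lit 0) (XT.lf (nat_lit 0) (nat_lit 6276780582) (nat_lit 380) (nat_lit 6131119463) (nat_lit 76) (nat_lit 11196535632) (nat_lit 96) (nat_lit 5) (nat_lit 101) (nat_lit 5) (nat_lit 97) (nat_lit 5) (nat_lit 385) (nat_lit 323) (nat_lit 192)) (XT.lf (nat_lit 0) (nat_lit 6961990408) (nat_lit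 228) (nat_lit 4495609397) (nat_lit 304) (nat_lit 12606662673) (nat_lit 93) (nat_lit 5) (nat_lit 96) (nat_lit 5) (nat_lit 97) (nat_lit 5) (nat_lit 386) (nat_lit 323) (nat_lit 191)))) (XT.nd (nat_lit 78) (nat_lit 304) (nat_lit 0) (XT.lf (nat_lit 0) (nat_lit 16881766463) (nat_lit 304) (nat_lit 4013613221) (nat_lit 76) (nat_lit 3639869330) (nat_lit 93) (nat_lit 5) (nat_lit 97) (nat_lit 5) (nat_lit 94) (nat_lit 5) (nat_lit 387) (nat_lit 323) (nat_lit 190)) (XT.nd (nat_lit 78) (nat_lit 76) (nat_lit 0) (XT.lf (nat_lit 0) (nat_lit 9595461607) (nat_lit 228) (nat_lit 13000500880) (nat_lit 304) (nat_lit 2420586067) (nat_lit 90) (nat_lit 5) (nat_lit 93) (nat_lit 5) (nat_lit 94) (nat_lit 5) (nat_lit 388) (nat_lit 323) (nat_lit 189)) (XT.lf (nat_lit 0) (nat_lit 2942880393) (nat_lit 304) (nat_lit 1859948963) (nat_lit 76) (nat_lit 20707658095) (nat_lit 89) (nat_lit 5) (nat_lit 93) (nat_lit 5) (nat_lit 90) (nat_lit 5) (nat_lit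 389) (nat_lit 323) (nat_lit 188))))) (XT.nd (nat_lit 234) (nat_lit 456) (nat_lit 0) (XT.nd (nat_lit 78) (nat_lit 228) (nat_lit 0) (XT.lf (nat_lit 0) (nat_lit 8564149308) (nat_lit 304) (nat_lit 13741922772) (nat_lit 76) (nat_lit 3708089278) (nat_lit 86) (nat_lit 5) (nat_lit 90) (nat_lit 5) (nat_lit 87) (nat_lit 5) (nat_lit 390) (nat_lit 323) (nat_lit 187)) (XT.nd (nat_lit 78) (nat_lit 0) (nat_lit 0) (XT.lf (nat_lit 0) (nat_lit 277148873) (nat_lit 228) (nat_lit 14137034917) (nat_lit 304) (nat_lit 12116960124) (nat_lit 83) (nat_lit 5) (nat_lit 86) (nat_lit 5) (nat_lit 87) (nat_lit 5) (nat_lit 391) (nat_lit 323) (nat_lit 186)) (XT.lf (nat_lit 0) (nat_lit 14983974873) (nat_lit 228) (nat_lit 5585578008) (nat_lit 304) (nat_lit 6490190250) (nat_lit 83) (nat_lit 5) (nat_lit 86) (nat_lit 5) (nat_lit 87) (nat_lit 5) (nat_lit 392) (nat_lit 323) (nat_lit 185)))) (XT.nd (nat_lit 156) (nat_lit 228) (nat_lit 0) (XT.nd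 (nat_lit 78) (nat_lit 76) (nat_lit 0) (XT.lf (nat_lit 0) (nat_lit 2531935374) (nat_lit 152) (nat_lit 24424237277) (nat_lit 228) (nat_lit 646632112) (nat_lit 81) (nat_lit 5) (nat_lit 83) (nat_lit 5) (nat_lit 84) (nat_lit 5) (nat_lit 393) (nat_lit 323) (nat_lit 184)) (XT.lf (nat_lit 0) (nat_lit 5437158786) (nat_lit 228) (nat_lit 10455575813) (nat_lit 76) (nat_lit 12262783686) (nat_lit 80) (nat_lit 5) (nat_lit 83) (nat_lit 5) (nat_lit 81) (nat_lit 5) (nat_lit 394) (nat_lit 323) (nat_lit 183))) (XT.nd (nat_lit 78) (nat_lit 0) (nat_lit 0) (XT.lf (nat_lit 0) (nat_lit 4668964073) (nat_lit 228) (nat_lit 7057942788) (nat_lit 304) (nat_lit 16996623025) (nat_lit 77) (nat_lit 5) (nat_lit 80) (nat_lit 5) (nat_lit 81) (nat_lit 5) (nat_lit 395) (nat_lit 323) (nat_lit 182)) (XT.lf (nat_lit 0) (nat_lit 18323221583) (nat_lit 304) (nat_lit 8878499809) (nat_lit 76) (nat_lit 2103326107) (nat_lit 77) (nat_lit 5) (nat_lit 81)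 (nat_lit 5) (nat_lit 78) (nat_lit 5) (nat_lit 396) (nat_lit 323) (nat_lit 181)))))) (XT.nd (nat_lit 546) (nat_lit 532) (nat_lit 0) (XT.nd (nat_lit 234) (nat_lit 456) (nat_lit 0) (XT.nd (nat_lit 78) (nat_lit 304) (nat_lit 0) (XT.lf (nat_lit 0) (nat_lit 6802127453) (nat_lit 152) (nat_lit 18442429311) (nat_lit 228) (nat_lit 4655641782) (nat_lit 75) (nat_lit 5) (nat_lit 77) (nat_lit 5) (nat_lit 78) (nat_lit 5) (nat_lit 397) (nat_lit 323) (nat_lit 180)) (XT.nd (nat_lit 78) (nat_lit 228) (nat_lit 0) (XT.lf (nat_lit 0) (nat_lit 1906460010) (nat_lit 228) (nat_lit 7407714820) (nat_lit 76) (nat_lit 21196021530) (nat_lit 74) (nat_lit 5) (nat_lit 77) (nat_lit 5) (nat_lit 75) (nat_lit 5) (nat_lit 398) (nat_lit 323) (nat_lit 179)) (XT.lf (nat_lit 0) (nat_lit 8651307987) (nat_lit 304) (nat_lit 22269808897) (nat_lit 76) (nat_lit 213612333) (nat_lit 71) (nat_lit 5) (nat_lit 75) (nat_lit 5) (nat_lit 72) (nat_lit 5) (nat_lit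 399) (nat_lit 323) (nat_lit 178)))) (XT.nd (nat_lit 156) (nat_lit 304) (nat_lit 0) (XT.nd (nat_lit 78) (nat_lit 152) (nat_lit 0) (XT.lf (nat_lit 0) (nat_lit 15758444449) (nat_lit 304) (nat_lit 6104390834) (nat_lit 76) (nat_lit 9910366114) (nat_lit 71) (nat_lit 5) (nat_lit 75) (nat_lit 5) (nat_lit 72) (nat_lit 5) (nat_lit 400) (nat_lit 323) (nat_lit 177)) (XT.lf (nat_lit 0) (nat_lit 10742743561) (nat_lit 152) (nat_lit 12431724520) (nat_lit 228) (nat_lit 9253491053) (nat_lit 69) (nat_lit 5) (nat_lit 71) (nat_lit 5) (nat_lit 72) (nat_lit 5) (nat_lit 401) (nat_lit 323) (nat_lit 176))) (XT.nd (nat_lit 78) (nat_lit 304) (nat_lit 0) (XT.lf (nat_lit 0) (nat_lit 28207676422) (nat_lit 152) (nat_lit 2659444224) (nat_lit 228) (nat_lit 2233616047) (nat_lit 69) (nat_lit 5) (nat_lit 71) (nat_lit 5) (nat_lit 72) (nat_lit 5) (nat_lit 402) (nat_lit 323) (nat_lit 175)) (XT.lf (nat_lit 0) (nat_lit 5085817041) (nat_lit 304)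 (nat_lit 21273726458) (nat_lit 76) (nat_lit 7427120489) (nat_lit 65) (nat_lit 5) (nat_lit 69) (nat_lit 5) (nat_lit 66) (nat_lit 5) (nat_lit 403) (nat_lit 323) (nat_lit 174))))) (XT.nd (nat_lit 234) (nat_lit 380) (nat_lit 0) (XT.nd (nat_lit 78) (nat_lit 152) (nat_lit 0) (XT.lf (nat_lit 0) (nat_lit 12648866269) (nat_lit 304) (nat_lit 4011776650) (nat_lit 76) (nat_lit 17829796340) (nat_lit 65) (nat_lit 5) (nat_lit 69) (nat_lit 5) (nat_lit 66) (nat_lit 5) (nat_lit 404) (nat_lit 323) (nat_lit 173)) (XT.nd (nat_lit 78) (nat_lit 0) (nat_lit 0) (XT.lf (nat_lit 0) (nat_lit 14029593029) (nat_lit 152) (nat_lit 6536983676) (nat_lit 228) (nat_lit 14644919358) (nat_lit 63) (nat_lit 5) (nat_lit 65) (nat_lit 5) (nat_lit 66) (nat_lit 5) (nat_lit 405) (nat_lit 323) (nat_lit 172)) (XT.lf (nat_lit 0) (nat_lit 28793077564) (nat_lit 228) (nat_lit 3308575123) (nat_lit 76) (nat_lit 3850395435) (nat_lit 63) (nat_lit 5) (nat_lit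 66) (nat_lit 5) (nat_lit 64) (nat_lit 5) (nat_lit 406) (nat_lit 323) (nat_lit 171)))) (XT.nd (nat_lit 156) (nat_lit 152) (nat_lit 0) (XT.nd (nat_lit 78) (nat_lit 0) (nat_lit 0) (XT.lf (nat_lit 0) (nat_lit 747999565) (nat_lit 228) (nat_lit 21392644837) (nat_lit 76) (nat_lit 14567798363) (nat_lit 60) (nat_lit 5) (nat_lit 63) (nat_lit 5) (nat_lit 61) (nat_lit 5) (nat_lit 407) (nat_lit 323) (nat_lit 170)) (XT.lf (nat_lit 0) (nat_lit 8775205007) (nat_lit 228) (nat_lit 3002926927) (nat_lit 76) (nat_lit 25706464664) (nat_lit 60) (nat_lit 5) (nat_lit 63) (nat_lit 5) (nat_lit 61) (nat_lit 5) (nat_lit 408) (nat_lit 323) (nat_lit 169))) (XT.nd (nat_lit 78) (nat_lit 0) (nat_lit 0) (XT.lf (nat_lit 0) (nat_lit 16243893354) (nat_lit 152) (nat_lit 948851848) (nat_lit 228) (nat_lit 21086805467) (nat_lit 58) (nat_lit 5) (nat_lit 60) (nat_lit 5) (nat_lit 61) (nat_lit 5) (nat_lit 409) (nat_lit 323) (nat_lit 168)) (XT.lf (nat_lit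 0) (nat_lit 25984943283) (nat_lit 228) (nat_lit 3077771178) (nat_lit 76) (nat_lit 10031976092) (nat_lit 58) (nat_lit 5) (nat_lit 61) (nat_lit 5) (nat_lit 59) (nat_lit 5) (nat_lit 410) (nat_lit 323) (nat_lit 167))))))))
noncomputable def xc163 : XT := (XT.nd (nat_lit 2106) (nat_lit 152) (nat_lit 0) (XT.nd (nat_lit 1014) (nat_lit 912) (nat_lit 0) (XT.nd (nat_lit 468) (nat_lit 684) (nat_lit 0) (XT.nd (nat_lit 234) (nat_lit 152) (nat_lit 0) (XT.nd (nat_lit 78) (nat_lit 228) (nat_lit 0) (XT.lf (nat_lit 0) (nat_lit 16755145206) (nat_lit 152) (nat_lit 18449817495) (nat_lit 228) (nat_lit 4724401383) (nat_lit 56) (nat_lit 5) (nat_lit 58) (nat_lit 5) (nat_lit 59) (nat_lit 5) (nat_lit 411) (nat_lit 323) (nat_lit 166)) (XT.nd (nat_lit 78) (nat_lit 152) (nat_lit 0) (XT.lf (nat_lit 0) (nat_lit 3861160648) (nat_lit 228) (nat_lit 3591204832) (nat_lit 76) (nat_lit 33334835019) (nat_lit 55) (nat_lit 5) (nat_lit 58) (nat_lit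 5) (nat_lit 56) (nat_lit 5) (nat_lit 412) (nat_lit 323) (nat_lit 165)) (XT.lf (nat_lit 0) (nat_lit 12804381641) (nat_lit 228) (nat_lit 24853585543) (nat_lit 76) (nat_lit 4005551115) (nat_lit 53) (nat_lit 5) (nat_lit 56) (nat_lit 5) (nat_lit 54) (nat_lit 5) (nat_lit 413) (nat_lit 323) (nat_lit 164)))) (XT.nd (nat_lit 78) (nat_lit 152) (nat_lit 0) (XT.lf (nat_lit 0) (nat_lit 22120140704) (nat_lit 228) (nat_lit 4753447789) (nat_lit 76) (nat_lit 15689410883) (nat_lit 53) (nat_lit 5) (nat_lit 56) (nat_lit 5) (nat_lit 54) (nat_lit 5) (nat_lit 414) (nat_lit 323) (nat_lit 163)) (XT.nd (nat_lit 78) (nat_lit 0) (nat_lit 0) (XT.lf (nat_lit 0) (nat_lit 16256246105) (nat_lit 152) (nat_lit 15609403518) (nat_lit 228) (nat_lit 11619307906) (nat_lit 51) (nat_lit 5) (nat_lit 53) (nat_lit 5) (nat_lit 54) (nat_lit 5) (nat_lit 415) (nat_lit 323) (nat_lit 162)) (XT.lf (nat_lit 0) (nat_lit 37983110499) (nat_lit 152) (nat_lit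 3962498801) (nat_lit 228) (nat_lit 2487703494) (nat_lit 51) (nat_lit 5) (nat_lit 53) (nat_lit 5) (nat_lit 54) (nat_lit 5) (nat_lit 416) (nat_lit 323) (nat_lit 161))))) (XT.nd (nat_lit 234) (nat_lit 304) (nat_lit 0) (XT.nd (nat_lit 78) (nat_lit 152) (nat_lit 0) (XT.lf (nat_lit 0) (nat_lit 7002172007) (nat_lit 228) (nat_lit 30312376964) (nat_lit 76) (nat_lit 8086996210) (nat_lit 48) (nat_lit 5) (nat_lit 51) (nat_lit 5) (nat_lit 49) (nat_lit 5) (nat_lit 417) (nat_lit 323) (nat_lit 160)) (XT.nd (nat_lit 78) (nat_lit 152) (nat_lit 0) (XT.lf (nat_lit 0) (nat_lit 16825981489) (nat_lit 228) (nat_lit 9064833633) (nat_lit 76) (nat_lit 20504294203) (nat_lit 48) (nat_lit 5) (nat_lit 51) (nat_lit 5) (nat_lit 49) (nat_lit 5) (nat_lit 418) (nat_lit 323) (nat_lit 159)) (XT.lf (nat_lit 0) (nat_lit 13064986266) (nat_lit 152) (nat_lit 13999501942) (nat_lit 228) (nat_lit 20350393525) (nat_lit 46) (nat_lit 5) (nat_lit 48) (nat_lit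 5) (nat_lit 49) (nat_lit 5) (nat_lit 419) (nat_lit 323) (nat_lit 158)))) (XT.nd (nat_lit 156) (nat_lit 228) (nat_lit 0) (XT.nd (nat_lit 78) (nat_lit 76) (nat_lit 0) (XT.lf (nat_lit 0) (nat_lit 36034525261) (nat_lit 152) (nat_lit 1661623411) (nat_lit 228) (nat_lit 10766519485) (nat_lit 46) (nat_lit 5) (nat_lit 48) (nat_lit 5) (nat_lit 49) (nat_lit 5) (nat_lit 420) (nat_lit 323) (nat_lit 157)) (XT.lf (nat_lit 0) (nat_lit 10234973717) (nat_lit 76) (nat_lit 38610935952) (nat_lit 152) (nat_lit 690004763) (nat_lit 45) (nat_lit 5) (nat_lit 46) (nat_lit 5) (nat_lit 47) (nat_lit 4) (nat_lit 421) (nat_lit 323) (nat_lit 156))) (XT.nd (nat_lit 78) (nat_lit 152) (nat_lit 0) (XT.lf (nat_lit 0) (nat_lit 9637527845) (nat_lit 152) (nat_lit 16925510646) (nat_lit 76) (nat_lit 24071392718) (nat_lit 44) (nat_lit 5) (nat_lit 46) (nat_lit 5) (nat_lit 45) (nat_lit 5) (nat_lit 422) (nat_lit 323) (nat_lit 155)) (XT.lf (nat_lit 0)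 (nat_lit 6226297494) (nat_lit 152) (nat_lit 14089320797) (nat_lit 228) (nat_lit 31448442949) (nat_lit 42) (nat_lit 5) (nat_lit 44) (nat_lit 5) (nat_lit 45) (nat_lit 5) (nat_lit 423) (nat_lit 323) (nat_lit 154)))))) (XT.nd (nat_lit 546) (nat_lit 532) (nat_lit 0) (XT.nd (nat_lit 234) (nat_lit 304) (nat_lit 0) (XT.nd (nat_lit 78) (nat_lit 76) (nat_lit 0) (XT.lf (nat_lit 0) (nat_lit 30410159298) (nat_lit 152) (nat_lit 1069617944) (nat_lit 228) (nat_lit 21442831851) (nat_lit 42) (nat_lit 5) (nat_lit 44) (nat_lit 5) (nat_lit 45) (nat_lit 5) (nat_lit 424) (nat_lit 323) (nat_lit 153)) (XT.nd (nat_lit 78) (nat_lit 0) (nat_lit 0) (XT.lf (nat_lit 0) (nat_lit 1097112590) (nat_lit 76) (nat_lit 42005843228) (nat_lit 152) (nat_lit 11009235388) (nat_lit 41) (nat_lit 5) (nat_lit 42) (nat_lit 5) (nat_lit 43) (nat_lit 4) (nat_lit 425) (nat_lit 323) (nat_lit 152)) (XT.lf (nat_lit 0) (nat_lit 25856441591) (nat_lit 76) (nat_lit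 29451188249) (nat_lit 152) (nat_lit 22847592) (nat_lit 41) (nat_lit 5) (nat_lit 42) (nat_lit 5) (nat_lit 43) (nat_lit 4) (nat_lit 426) (nat_lit 323) (nat_lit 151)))) (XT.nd (nat_lit 156) (nat_lit 76) (nat_lit 0) (XT.nd (nat_lit 78) (nat_lit 152) (nat_lit 0) (XT.lf (nat_lit 0) (nat_lit 11067841496) (nat_lit 152) (nat_lit 5344351153) (nat_lit 76) (nat_lit 40170011136) (nat_lit 40) (nat_lit 5) (nat_lit 42) (nat_lit 5) (nat_lit 41) (nat_lit 5) (nat_lit 427) (nat_lit 323) (nat_lit 150)) (XT.lf (nat_lit 0) (nat_lit 19888320851) (nat_lit 152) (nat_lit 2788872555) (nat_lit 228) (nat_lit 35188690292) (nat_lit 38) (nat_lit 5) (nat_lit 40) (nat_lit 5) (nat_lit 41) (nat_lit 5) (nat_lit 428) (nat_lit 323) (nat_lit 149))) (XT.nd (nat_lit 78) (nat_lit 76) (nat_lit 0) (XT.lf (nat_lit 0) (nat_lit 34792643923) (nat_lit 228) (nat_lit 13316326299) (nat_lit 76) (nat_lit 11074369824) (nat_lit 38) (nat_lit 5) (nat_lit 41) (nat_lit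 5) (nat_lit 39) (nat_lit 4) (nat_lit 429) (nat_lit 323) (nat_lit 148)) (XT.lf (nat_lit 0) (nat_lit 12288393575) (nat_lit 76) (nat_lit 35124279410) (nat_lit 152) (nat_lit 13123414210) (nat_lit 37) (nat_lit 5) (nat_lit 38) (nat_lit 5) (nat_lit 39) (nat_lit 4) (nat_lit 430) (nat_lit 323) (nat_lit 147))))) (XT.nd (nat_lit 234) (nat_lit 304) (nat_lit 0) (XT.nd (nat_lit 78) (nat_lit 228) (nat_lit 0) (XT.lf (nat_lit 0) (nat_lit 38925778338) (nat_lit 76) (nat_lit 21615425629) (nat_lit 152) (nat_lit 1384316308) (nat_lit 37) (nat_lit 5) (nat_lit 38) (nat_lit 5) (nat_lit 39) (nat_lit 4) (nat_lit 431) (nat_lit 323) (nat_lit 146)) (XT.nd (nat_lit 78) (nat_lit 0) (nat_lit 0) (XT.lf (nat_lit 0) (nat_lit 2952039488) (nat_lit 152) (nat_lit 7569881477) (nat_lit 228) (nat_lit 52830911312) (nat_lit 34) (nat_lit 5) (nat_lit 36) (nat_lit 5) (nat_lit 37) (nat_lit 5) (nat_lit 432) (nat_lit 323) (nat_lit 145)) (XT.lf (nat_lit 0)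 (nat_lit 23053908301) (nat_lit 228) (nat_lit 34752761246) (nat_lit 76) (nat_lit 7006991820) (nat_lit 34) (nat_lit 5) (nat_lit 37) (nat_lit 5) (nat_lit 35) (nat_lit 4) (nat_lit 433) (nat_lit 323) (nat_lit 144)))) (XT.nd (nat_lit 156) (nat_lit 228) (nat_lit 0) (XT.nd (nat_lit 78) (nat_lit 76) (nat_lit 0) (XT.lf (nat_lit 0) (nat_lit 36032470639) (nat_lit 228) (nat_lit 8418303710) (nat_lit 76) (nat_lit 21865423003) (nat_lit 34) (nat_lit 5) (nat_lit 37) (nat_lit 5) (nat_lit 35) (nat_lit 4) (nat_lit 434) (nat_lit 323) (nat_lit 143)) (XT.lf (nat_lit 0) (nat_lit 19070490804) (nat_lit 76) (nat_lit 30509008560) (nat_lit 152) (nat_lit 18278937239) (nat_lit 33) (nat_lit 5) (nat_lit 34) (nat_lit 5) (nat_lit 35) (nat_lit 4) (nat_lit 435) (nat_lit 323) (nat_lit 142))) (XT.nd (nat_lit 78) (nat_lit 228) (nat_lit 0) (XT.lf (nat_lit 0) (nat_lit 47548762188) (nat_lit 76) (nat_lit 16065025436) (nat_lit 152) (nat_lit 5830730404)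 (nat_lit 33) (nat_lit 5) (nat_lit 34) (nat_lit 5) (nat_lit 35) (nat_lit 4) (nat_lit 436) (nat_lit 323) (nat_lit 141)) (XT.lf (nat_lit 0) (nat_lit 5842395258) (nat_lit 152) (nat_lit 1064191019) (nat_lit 228) (nat_lit 64168017568) (nat_lit 30) (nat_lit 5) (nat_lit 32) (nat_lit 5) (nat_lit 33) (nat_lit 5) (nat_lit 437) (nat_lit 323) (nat_lit 140))))))) (XT.nd (nat_lit 38610) (nat_lit 0) (nat_lit 14516) (XT.nd (nat_lit 38064) (nat_lit 0) (nat_lit 18316) (XT.nd (nat_lit 234) (nat_lit 76) (nat_lit 0) (XT.nd (nat_lit 78) (nat_lit 76) (nat_lit 0) (XT.lf (nat_lit 0) (nat_lit 20266351112) (nat_lit 228) (nat_lit 38091262134) (nat_lit 76) (nat_lit 14383521891) (nat_lit 30) (nat_lit 5) (nat_lit 33) (nat_lit 5) (nat_lit 31) (nat_lit 4) (nat_lit 438) (nat_lit 323) (nat_lit 139)) (XT.nd (nat_lit 78) (nat_lit 76) (nat_lit 0) (XT.lf (nat_lit 0) (nat_lit 34033497623) (nat_lit 228) (nat_lit 10154024638) (nat_lit 76) (nat_lit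 30269942853) (nat_lit 30) (nat_lit 5) (nat_lit 33) (nat_lit 5) (nat_lit 31) (nat_lit 4) (nat_lit 439) (nat_lit 323) (nat_lit 138)) (XT.lf (nat_lit 0) (nat_lit 18984602713) (nat_lit 76) (nat_lit 29407714600) (nat_lit 152) (nat_lit 27827608307) (nat_lit 29) (nat_lit 5) (nat_lit 30) (nat_lit 5) (nat_lit 31) (nat_lit 4) (nat_lit 440) (nat_lit 323) (nat_lit 137)))) (XT.nd (nat_lit 78) (nat_lit 76) (nat_lit 0) (XT.lf (nat_lit 0) (nat_lit 49198421630) (nat_lit 76) (nat_lit 14082226117) (nat_lit 152) (nat_lit 14751650192) (nat_lit 29) (nat_lit 5) (nat_lit 30) (nat_lit 5) (nat_lit 31) (nat_lit 4) (nat_lit 441) (nat_lit 323) (nat_lit 136)) (XT.nd (nat_lit 37674) (nat_lit 0) (nat_lit 19304) (XT.lf (nat_lit 0) (nat_lit 404142123) (nat_lit 76) (nat_lit 78228031129) (nat_lit 76) (nat_lit 1266372195) (nat_lit 28) (nat_lit 4) (nat_lit 29) (nat_lit 5) (nat_lit 29) (nat_lit 4) (nat_lit 442) (nat_lit 323) (nat_lit 135)) (XT.lf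 (nat_lit 0) (nat_lit 1520616945) (nat_lit 0) (nat_lit 1520616945) (nat_lit 988) (nat_lit 1415720942) (nat_lit 282) (nat_lit 5) (nat_lit 282) (nat_lit 3) (nat_lit 295) (nat_lit 3) (nat_lit 324) (nat_lit 324) (nat_lit 252))))) (XT.nd (nat_lit 234) (nat_lit 988) (nat_lit 0) (XT.nd (nat_lit 78) (nat_lit 0) (nat_lit 0) (XT.lf (nat_lit 0) (nat_lit 7076765906) (nat_lit 988) (nat_lit 1593083523) (nat_lit 1064) (nat_lit 350146276) (nat_lit 282) (nat_lit 5) (nat_lit 295) (nat_lit 3) (nat_lit 296) (nat_lit 5) (nat_lit 325) (nat_lit 324) (nat_lit 251)) (XT.nd (nat_lit 78) (nat_lit 0) (nat_lit 0) (XT.lf (nat_lit 76) (nat_lit 2821036092) (nat_lit 0) (nat_lit 5302144406) (nat_lit 1064) (nat_lit 1005435918) (nat_lit 283) (nat_lit 5) (nat_lit 282) (nat_lit 5) (nat_lit 296) (nat_lit 5) (nat_lit 326) (nat_lit 324) (nat_lit 250)) (XT.lf (nat_lit 76) (nat_lit 7381622488) (nat_lit 0) (nat_lit 1801349616) (nat_lit 1064) (nat_lit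 58084219) (nat_lit 283) (nat_lit 5) (nat_lit 282) (nat_lit 5) (nat_lit 296) (nat_lit 5) (nat_lit 327) (nat_lit 324) (nat_lit 249)))) (XT.nd (nat_lit 156) (nat_lit 0) (nat_lit 0) (XT.nd (nat_lit 78) (nat_lit 0) (nat_lit 0) (XT.lf (nat_lit 0) (nat_lit 910577814) (nat_lit 1064) (nat_lit 6626463801) (nat_lit 1140) (nat_lit 1819258211) (nat_lit 269) (nat_lit 5) (nat_lit 283) (nat_lit 5) (nat_lit 284) (nat_lit 5) (nat_lit 328) (nat_lit 324) (nat_lit 248)) (XT.lf (nat_lit 0) (nat_lit 1911405177) (nat_lit 1064) (nat_lit 2017838795) (nat_lit 1140) (nat_lit 5545629627) (nat_lit 269) (nat_lit 5) (nat_lit 283) (nat_lit 5) (nat_lit 284) (nat_lit 5) (nat_lit 329) (nat_lit 324) (nat_lit 247))) (XT.nd (nat_lit 78) (nat_lit 0) (nat_lit 76) (XT.lf (nat_lit 76) (nat_lit 2763845632) (nat_lit 0) (nat_lit 173402043) (nat_lit 1140) (nat_lit 6659925069) (nat_lit 270) (nat_lit 5) (nat_lit 269) (nat_lit 5) (nat_lit 284) (nat_lit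 5) (nat_lit 330) (nat_lit 324) (nat_lit 246)) (XT.lf (nat_lit 0) (nat_lit 4019237630) (nat_lit 1064) (nat_lit 2047907954) (nat_lit 1140) (nat_lit 3655251463) (nat_lit 270) (nat_lit 5) (nat_lit 284) (nat_lit 5) (nat_lit 285) (nat_lit 5) (nat_lit 331) (nat_lit 324) (nat_lit 245)))))) (XT.nd (nat_lit 546) (nat_lit 2888) (nat_lit 0) (XT.nd (nat_lit 234) (nat_lit 988) (nat_lit 0) (XT.nd (nat_lit 78) (nat_lit 0) (nat_lit 76) (XT.lf (nat_lit 76) (nat_lit 2916856633) (nat_lit 0) (nat_lit 2216755543) (nat_lit 1140) (nat_lit 4717784998) (nat_lit 271) (nat_lit 5) (nat_lit 270) (nat_lit 5) (nat_lit 285) (nat_lit 5) (nat_lit 332) (nat_lit 324) (nat_lit 244)) (XT.nd (nat_lit 78) (nat_lit 0) (nat_lit 0) (XT.lf (nat_lit 0) (nat_lit 6290065217) (nat_lit 1064) (nat_lit 1948335645) (nat_lit 1140) (nat_lit 1745623378) (nat_lit 271) (nat_lit 5) (nat_lit 285) (nat_lit 5) (nat_lit 286) (nat_lit 5) (nat_lit 333) (nat_lit 324)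 (nat_lit 243)) (XT.lf (nat_lit 76) (nat_lit 3208490923) (nat_lit 0) (nat_lit 4297305918) (nat_lit 1140) (nat_lit 2614111603) (nat_lit 272) (nat_lit 5) (nat_lit 271) (nat_lit 5) (nat_lit 286) (nat_lit 5) (nat_lit 334) (nat_lit 324) (nat_lit 242)))) (XT.nd (nat_lit 156) (nat_lit 1064) (nat_lit 0) (XT.nd (nat_lit 78) (nat_lit 0) (nat_lit 76) (XT.lf (nat_lit 76) (nat_lit 8540528052) (nat_lit 0) (nat_lit 209576375) (nat_lit 1140) (nat_lit 1510017040) (nat_lit 272) (nat_lit 5) (nat_lit 271) (nat_lit 5) (nat_lit 286) (nat_lit 5) (nat_lit 335) (nat_lit 324) (nat_lit 241)) (XT.lf (nat_lit 76) (nat_lit 3640811652) (nat_lit 0) (nat_lit 6437693895) (nat_lit 1140) (nat_lit 324647370) (nat_lit 273) (nat_lit 5) (nat_lit 272) (nat_lit 5) (nat_lit 287) (nat_lit 5) (nat_lit 336) (nat_lit 324) (nat_lit 240))) (XT.nd (nat_lit 78) (nat_lit 0) (nat_lit 76) (XT.lf (nat_lit 0) (nat_lit 872030383) (nat_lit 1140) (nat_lit 1383644482)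 (nat_lit 1216) (nat_lit 8294758979) (nat_lit 257) (nat_lit 5) (nat_lit 272) (nat_lit 5) (nat_lit 273) (nat_lit 5) (nat_lit 337) (nat_lit 324) (nat_lit 239)) (XT.lf (nat_lit 0) (nat_lit 2133217856) (nat_lit 1140) (nat_lit 6505871252) (nat_lit 1216) (nat_lit 2061907322) (nat_lit 258) (nat_lit 5) (nat_lit 273) (nat_lit 5) (nat_lit 274) (nat_lit 5) (nat_lit 338) (nat_lit 324) (nat_lit 238))))) (XT.nd (nat_lit 234) (nat_lit 2964) (nat_lit 0) (XT.nd (nat_lit 78) (nat_lit 0) (nat_lit 76) (XT.lf (nat_lit 0) (nat_lit 3443693220) (nat_lit 1140) (nat_lit 928656239) (nat_lit 1216) (nat_lit 6483396164) (nat_lit 258) (nat_lit 5) (nat_lit 273) (nat_lit 5) (nat_lit 274) (nat_lit 5) (nat_lit 339) (nat_lit 324) (nat_lit 237)) (XT.nd (nat_lit 78) (nat_lit 0) (nat_lit 0) (XT.lf (nat_lit 0) (nat_lit 4816967864) (nat_lit 1140) (nat_lit 6123424361) (nat_lit 76) (nat_lit 74053424) (nat_lit 259) (nat_lit 5) (nat_lit 274) (nat_lit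 5) (nat_lit 260) (nat_lit 5) (nat_lit 340) (nat_lit 324) (nat_lit 236)) (XT.lf (nat_lit 0) (nat_lit 6260500660) (nat_lit 1140) (nat_lit 336820350) (nat_lit 76) (nat_lit 4579726399) (nat_lit 259) (nat_lit 5) (nat_lit 274) (nat_lit 5) (nat_lit 260) (nat_lit 5) (nat_lit 341) (nat_lit 324) (nat_lit 235)))) (XT.nd (nat_lit 156) (nat_lit 684) (nat_lit 0) (XT.nd (nat_lit 78) (nat_lit 1216) (nat_lit 0) (XT.lf (nat_lit 0) (nat_lit 5715358276) (nat_lit 1140) (nat_lit 2063909879) (nat_lit 1216) (nat_lit 3564313376) (nat_lit 244) (nat_lit 5) (nat_lit 259) (nat_lit 5) (nat_lit 260) (nat_lit 5) (nat_lit 342) (nat_lit 324) (nat_lit 234)) (XT.lf (nat_lit 0) (nat_lit 403718627) (nat_lit 1216) (nat_lit 8949745205) (nat_lit 1292) (nat_lit 2161363702) (nat_lit 228) (nat_lit 5) (nat_lit 244) (nat_lit 5) (nat_lit 245) (nat_lit 5) (nat_lit 343) (nat_lit 324) (nat_lit 233))) (XT.nd (nat_lit 78) (nat_lit 684) (nat_lit 0) (XT.lf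 (nat_lit 0) (nat_lit 6691270099) (nat_lit 1216) (nat_lit 4338651608) (nat_lit 1292) (nat_lit 659649589) (nat_lit 228) (nat_lit 5) (nat_lit 244) (nat_lit 5) (nat_lit 245) (nat_lit 5) (nat_lit 344) (nat_lit 324) (nat_lit 232)) (XT.lf (nat_lit 0) (nat_lit 864813564) (nat_lit 684) (nat_lit 10578872617) (nat_lit 76) (nat_lit 425775923) (nat_lit 219) (nat_lit 5) (nat_lit 228) (nat_lit 5) (nat_lit 220) (nat_lit 5) (nat_lit 345) (nat_lit 324) (nat_lit 231))))))))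
noncomputable def xc164 : XT := (XT.nd (nat_lit 2028) (nat_lit 4180) (nat_lit 0) (XT.nd (nat_lit 1014) (nat_lit 2964) (nat_lit 0) (XT.nd (nat_lit 468) (nat_lit 2052) (nat_lit 0) (XT.nd (nat_lit 234) (nat_lit 1140) (nat_lit 0) (XT.nd (nat_lit 78) (nat_lit 608) (nat_lit 0) (XT.lf (nat_lit 0) (nat_lit 2494526132) (nat_lit 684) (nat_lit 4252826029) (nat_lit 76) (nat_lit 5305028821) (nat_lit 219) (nat_lit 5) (nat_lit 228) (nat_lit 5) (nat_lit 220) (nat_lit 5) (nat_lit 346) (nat_lit 324) (nat_lit 230)) (XT.nd (nat_lit 78) (nat_lit 0) (nat_lit 0) (XT.lf (nat_lit 0) (nat_lit 2288028379) (nat_lit 608) (nat_lit 1886555917) (nat_lit 684) (nat_lit 8066169692) (nat_lit 211) (nat_lit 5) (nat_lit 219) (nat_lit 5) (nat_lit 220) (nat_lit 5) (nat_lit 347) (nat_lit 324) (nat_lit 229)) (XT.lf (nat_lit 0) (nat_lit 5958285072) (nat_lit 684) (nat_lit 3371669161) (nat_lit 76) (nat_lit 3103236620) (nat_lit 211) (nat_lit 5) (nat_lit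 220) (nat_lit 5) (nat_lit 212) (nat_lit 5) (nat_lit 348) (nat_lit 324) (nat_lit 228)))) (XT.nd (nat_lit 78) (nat_lit 532) (nat_lit 0) (XT.lf (nat_lit 0) (nat_lit 3435718055) (nat_lit 608) (nat_lit 4391948370) (nat_lit 684) (nat_lit 4802778918) (nat_lit 203) (nat_lit 5) (nat_lit 211) (nat_lit 5) (nat_lit 212) (nat_lit 5) (nat_lit 349) (nat_lit 324) (nat_lit 227)) (XT.nd (nat_lit 78) (nat_lit 532) (nat_lit 0) (XT.lf (nat_lit 0) (nat_lit 9775033714) (nat_lit 684) (nat_lit 2343020650) (nat_lit 76) (nat_lit 714915293) (nat_lit 203) (nat_lit 5) (nat_lit 212) (nat_lit 5) (nat_lit 204) (nat_lit 5) (nat_lit 350) (nat_lit 324) (nat_lit 226)) (XT.lf (nat_lit 0) (nat_lit 4744047115) (nat_lit 532) (nat_lit 7107267171) (nat_lit 608) (nat_lit 1188149701) (nat_lit 196) (nat_lit 5) (nat_lit 203) (nat_lit 5) (nat_lit 204) (nat_lit 5) (nat_lit 351) (nat_lit 324) (nat_lit 225))))) (XT.nd (nat_lit 234) (nat_lit 988) (nat_lit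 0) (XT.nd (nat_lit 78) (nat_lit 988) (nat_lit 0) (XT.lf (nat_lit 0) (nat_lit 728802389) (nat_lit 608) (nat_lit 1186477702) (nat_lit 76) (nat_lit 11336504804) (nat_lit 195) (nat_lit 5) (nat_lit 203) (nat_lit 5) (nat_lit 196) (nat_lit 5) (nat_lit 352) (nat_lit 324) (nat_lit 224)) (XT.nd (nat_lit 78) (nat_lit 456) (nat_lit 0) (XT.lf (nat_lit 0) (nat_lit 2755040916) (nat_lit 608) (nat_lit 7275995808) (nat_lit 76) (nat_lit 3436824320) (nat_lit 188) (nat_lit 5) (nat_lit 196) (nat_lit 5) (nat_lit 189) (nat_lit 5) (nat_lit 353) (nat_lit 324) (nat_lit 223)) (XT.lf (nat_lit 0) (nat_lit 89243518) (nat_lit 456) (nat_lit 4767184359) (nat_lit 532) (nat_lit 8833568806) (nat_lit 182) (nat_lit 5) (nat_lit 188) (nat_lit 5) (nat_lit 189) (nat_lit 5) (nat_lit 354) (nat_lit 324) (nat_lit 222)))) (XT.nd (nat_lit 156) (nat_lit 456) (nat_lit 0) (XT.nd (nat_lit 78) (nat_lit 532) (nat_lit 0) (XT.lf (nat_lit 0) (nat_lit 7084100861)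 (nat_lit 532) (nat_lit 6118575996) (nat_lit 76) (nat_lit 714230013) (nat_lit 182) (nat_lit 5) (nat_lit 189) (nat_lit 5) (nat_lit 183) (nat_lit 5) (nat_lit 355) (nat_lit 324) (nat_lit 221)) (XT.lf (nat_lit 0) (nat_lit 1552169734) (nat_lit 532) (nat_lit 7871808342) (nat_lit 608) (nat_lit 4725292647) (nat_lit 175) (nat_lit 5) (nat_lit 182) (nat_lit 5) (nat_lit 183) (nat_lit 5) (nat_lit 356) (nat_lit 324) (nat_lit 220))) (XT.nd (nat_lit 78) (nat_lit 456) (nat_lit 0) (XT.lf (nat_lit 0) (nat_lit 9559663446) (nat_lit 532) (nat_lit 2319734618) (nat_lit 608) (nat_lit 2507854395) (nat_lit 175) (nat_lit 5) (nat_lit 182) (nat_lit 5) (nat_lit 183) (nat_lit 5) (nat_lit 357) (nat_lit 324) (nat_lit 219)) (XT.lf (nat_lit 0) (nat_lit 3185786588) (nat_lit 456) (nat_lit 11270007734) (nat_lit 532) (nat_lit 175167063) (nat_lit 169) (nat_lit 5) (nat_lit 175) (nat_lit 5) (nat_lit 176) (nat_lit 5) (nat_lit 358) (nat_lit 324) (nat_lit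 218)))))) (XT.nd (nat_lit 468) (nat_lit 1520) (nat_lit 0) (XT.nd (nat_lit 234) (nat_lit 912) (nat_lit 0) (XT.nd (nat_lit 78) (nat_lit 456) (nat_lit 0) (XT.lf (nat_lit 0) (nat_lit 2240376626) (nat_lit 532) (nat_lit 3405711662) (nat_lit 76) (nat_lit 9233567395) (nat_lit 168) (nat_lit 5) (nat_lit 175) (nat_lit 5) (nat_lit 169) (nat_lit 5) (nat_lit 359) (nat_lit 324) (nat_lit 217)) (XT.nd (nat_lit 78) (nat_lit 0) (nat_lit 0) (XT.lf (nat_lit 0) (nat_lit 4758936781) (nat_lit 532) (nat_lit 10185150727) (nat_lit 76) (nat_lit 190655689) (nat_lit 162) (nat_lit 5) (nat_lit 169) (nat_lit 5) (nat_lit 163) (nat_lit 5) (nat_lit 360) (nat_lit 324) (nat_lit 216)) (XT.lf (nat_lit 0) (nat_lit 7428537055) (nat_lit 532) (nat_lit 1845881403) (nat_lit 76) (nat_lit 6120806728) (nat_lit 162) (nat_lit 5) (nat_lit 169) (nat_lit 5) (nat_lit 163) (nat_lit 5) (nat_lit 361) (nat_lit 324) (nat_lit 215)))) (XT.nd (nat_lit 78) (nat_lit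 532) (nat_lit 0) (XT.lf (nat_lit 0) (nat_lit 6859401211) (nat_lit 380) (nat_lit 3370052087) (nat_lit 456) (nat_lit 5432537662) (nat_lit 157) (nat_lit 5) (nat_lit 162) (nat_lit 5) (nat_lit 163) (nat_lit 5) (nat_lit 362) (nat_lit 324) (nat_lit 214)) (XT.nd (nat_lit 78) (nat_lit 532) (nat_lit 0) (XT.lf (nat_lit 0) (nat_lit 13144800995) (nat_lit 456) (nat_lit 117014833) (nat_lit 76) (nat_lit 2674037749) (nat_lit 157) (nat_lit 5) (nat_lit 163) (nat_lit 5) (nat_lit 158) (nat_lit 5) (nat_lit 363) (nat_lit 324) (nat_lit 213)) (XT.lf (nat_lit 0) (nat_lit 37450364) (nat_lit 532) (nat_lit 7262398644) (nat_lit 76) (nat_lit 8914916952) (nat_lit 150) (nat_lit 5) (nat_lit 157) (nat_lit 5) (nat_lit 151) (nat_lit 5) (nat_lit 364) (nat_lit 324) (nat_lit 212))))) (XT.nd (nat_lit 234) (nat_lit 760) (nat_lit 0) (XT.nd (nat_lit 78) (nat_lit 380) (nat_lit 0) (XT.lf (nat_lit 0) (nat_lit 1783551986) (nat_lit 380) (nat_lit 1115532956)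 (nat_lit 456) (nat_lit 13602006007) (nat_lit 145) (nat_lit 5) (nat_lit 150) (nat_lit 5) (nat_lit 151) (nat_lit 5) (nat_lit 365) (nat_lit 324) (nat_lit 211)) (XT.nd (nat_lit 78) (nat_lit 380) (nat_lit 0) (XT.lf (nat_lit 0) (nat_lit 5957373675) (nat_lit 456) (nat_lit 5613315850) (nat_lit 76) (nat_lit 5221997327) (nat_lit 145) (nat_lit 5) (nat_lit 151) (nat_lit 5) (nat_lit 146) (nat_lit 5) (nat_lit 366) (nat_lit 324) (nat_lit 210)) (XT.lf (nat_lit 0) (nat_lit 3809828013) (nat_lit 380) (nat_lit 5331886609) (nat_lit 456) (nat_lit 7950292067) (nat_lit 140) (nat_lit 5) (nat_lit 145) (nat_lit 5) (nat_lit 146) (nat_lit 5) (nat_lit 367) (nat_lit 324) (nat_lit 209)))) (XT.nd (nat_lit 156) (nat_lit 456) (nat_lit 0) (XT.nd (nat_lit 78) (nat_lit 304) (nat_lit 0) (XT.lf (nat_lit 0) (nat_lit 12476166076) (nat_lit 456) (nat_lit 3796642013) (nat_lit 76) (nat_lit 1125865637) (nat_lit 140) (nat_lit 5) (nat_lit 146) (nat_lit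 5) (nat_lit 141) (nat_lit 5) (nat_lit 368) (nat_lit 324) (nat_lit 208)) (XT.lf (nat_lit 0) (nat_lit 6020984314) (nat_lit 304) (nat_lit 9987537626) (nat_lit 380) (nat_lit 1703087575) (nat_lit 136) (nat_lit 5) (nat_lit 140) (nat_lit 5) (nat_lit 141) (nat_lit 5) (nat_lit 369) (nat_lit 324) (nat_lit 207))) (XT.nd (nat_lit 78) (nat_lit 380) (nat_lit 0) (XT.lf (nat_lit 0) (nat_lit 1607442055) (nat_lit 380) (nat_lit 1854966128) (nat_lit 76) (nat_lit 14570284630) (nat_lit 135) (nat_lit 5) (nat_lit 140) (nat_lit 5) (nat_lit 136) (nat_lit 5) (nat_lit 370) (nat_lit 324) (nat_lit 206)) (XT.lf (nat_lit 0) (nat_lit 5083762401) (nat_lit 456) (nat_lit 9986928278) (nat_lit 76) (nat_lit 3289195361) (nat_lit 130) (nat_lit 5) (nat_lit 136) (nat_lit 5) (nat_lit 131) (nat_lit 5) (nat_lit 371) (nat_lit 324) (nat_lit 205))))))) (XT.nd (nat_lit 1014) (nat_lit 1976) (nat_lit 0) (XT.nd (nat_lit 468) (nat_lit 1216) (nat_lit 0) (XT.nd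 (nat_lit 234) (nat_lit 380) (nat_lit 0) (XT.nd (nat_lit 78) (nat_lit 304) (nat_lit 0) (XT.lf (nat_lit 0) (nat_lit 201960919) (nat_lit 304) (nat_lit 8505361255) (nat_lit 380) (nat_lit 9988288719) (nat_lit 126) (nat_lit 5) (nat_lit 130) (nat_lit 5) (nat_lit 131) (nat_lit 5) (nat_lit 372) (nat_lit 324) (nat_lit 204)) (XT.nd (nat_lit 78) (nat_lit 304) (nat_lit 0) (XT.lf (nat_lit 0) (nat_lit 10884480386) (nat_lit 304) (nat_lit 1643960892) (nat_lit 380) (nat_lit 6510304838) (nat_lit 126) (nat_lit 5) (nat_lit 130) (nat_lit 5) (nat_lit 131) (nat_lit 5) (nat_lit 373) (nat_lit 324) (nat_lit 203)) (XT.lf (nat_lit 0) (nat_lit 2474882462) (nat_lit 304) (nat_lit 14053542563) (nat_lit 380) (nat_lit 2861827513) (nat_lit 122) (nat_lit 5) (nat_lit 126) (nat_lit 5) (nat_lit 127) (nat_lit 5) (nat_lit 374) (nat_lit 324) (nat_lit 202)))) (XT.nd (nat_lit 78) (nat_lit 304) (nat_lit 0) (XT.lf (nat_lit 0) (nat_lit 966426082) (nat_lit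 380) (nat_lit 6202132575) (nat_lit 76) (nat_lit 12580856675) (nat_lit 121) (nat_lit 5) (nat_lit 126) (nat_lit 5) (nat_lit 122) (nat_lit 5) (nat_lit 375) (nat_lit 324) (nat_lit 201)) (XT.nd (nat_lit 78) (nat_lit 0) (nat_lit 0) (XT.lf (nat_lit 0) (nat_lit 4883290497) (nat_lit 304) (nat_lit 4370652) (nat_lit 380) (nat_lit 15229775930) (nat_lit 117) (nat_lit 5) (nat_lit 121) (nat_lit 5) (nat_lit 122) (nat_lit 5) (nat_lit 376) (nat_lit 324) (nat_lit 200)) (XT.lf (nat_lit 0) (nat_lit 9049513680) (nat_lit 380) (nat_lit 4154015976) (nat_lit 76) (nat_lit 7289284033) (nat_lit 117) (nat_lit 5) (nat_lit 122) (nat_lit 5) (nat_lit 118) (nat_lit 5) (nat_lit 377) (nat_lit 324) (nat_lit 199))))) (XT.nd (nat_lit 234) (nat_lit 532) (nat_lit 0) (XT.nd (nat_lit 78) (nat_lit 380) (nat_lit 0) (XT.lf (nat_lit 0) (nat_lit 7386794312) (nat_lit 304) (nat_lit 6009642567) (nat_lit 380) (nat_lit 7481211780) (nat_lit 113) (nat_lit 5)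 (nat_lit 117) (nat_lit 5) (nat_lit 118) (nat_lit 5) (nat_lit 378) (nat_lit 324) (nat_lit 198)) (XT.nd (nat_lit 78) (nat_lit 380) (nat_lit 0) (XT.lf (nat_lit 0) (nat_lit 17918871088) (nat_lit 380) (nat_lit 1943605894) (nat_lit 76) (nat_lit 1410202011) (nat_lit 113) (nat_lit 5) (nat_lit 118) (nat_lit 5) (nat_lit 114) (nat_lit 5) (nat_lit 379) (nat_lit 324) (nat_lit 197)) (XT.lf (nat_lit 0) (nat_lit 1027258039) (nat_lit 380) (nat_lit 11613645205) (nat_lit 76) (nat_lit 9033980860) (nat_lit 108) (nat_lit 5) (nat_lit 113) (nat_lit 5) (nat_lit 109) (nat_lit 5) (nat_lit 380) (nat_lit 324) (nat_lit 196)))) (XT.nd (nat_lit 156) (nat_lit 228) (nat_lit 0) (XT.nd (nat_lit 78) (nat_lit 0) (nat_lit 0) (XT.lf (nat_lit 0) (nat_lit 335105989) (nat_lit 304) (nat_lit 5149929519) (nat_lit 380) (nat_lit 16602746171) (nat_lit 104) (nat_lit 5) (nat_lit 108) (nat_lit 5) (nat_lit 109) (nat_lit 5) (nat_lit 381) (nat_lit 324) (nat_lit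 195)) (XT.lf (nat_lit 0) (nat_lit 10209395719) (nat_lit 380) (nat_lit 9670628960) (nat_lit 76) (nat_lit 2629059052) (nat_lit 104) (nat_lit 5) (nat_lit 109) (nat_lit 5) (nat_lit 105) (nat_lit 5) (nat_lit 382) (nat_lit 324) (nat_lit 194))) (XT.nd (nat_lit 78) (nat_lit 0) (nat_lit 0) (XT.lf (nat_lit 0) (nat_lit 2761589821) (nat_lit 228) (nat_lit 12381480417) (nat_lit 304) (nat_lit 7797930047) (nat_lit 101) (nat_lit 5) (nat_lit 104) (nat_lit 5) (nat_lit 105) (nat_lit 5) (nat_lit 383) (nat_lit 324) (nat_lit 193)) (XT.lf (nat_lit 0) (nat_lit 15749973973) (nat_lit 228) (nat_lit 4562628714) (nat_lit 304) (nat_lit 3070639076) (nat_lit 101) (nat_lit 5) (nat_lit 104) (nat_lit 5) (nat_lit 105) (nat_lit 5) (nat_lit 384) (nat_lit 324) (nat_lit 192)))))) (XT.nd (nat_lit 546) (nat_lit 836) (nat_lit 0) (XT.nd (nat_lit 234) (nat_lit 532) (nat_lit 0) (XT.nd (nat_lit 78) (nat_lit 228) (nat_lit 0) (XT.lf (nat_lit 0) (nat_lit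 1839486165) (nat_lit 380) (nat_lit 18509360562) (nat_lit 76) (nat_lit 3487104507) (nat_lit 96) (nat_lit 5) (nat_lit 101) (nat_lit 5) (nat_lit 97) (nat_lit 5) (nat_lit 385) (nat_lit 324) (nat_lit 191)) (XT.nd (nat_lit 78) (nat_lit 228) (nat_lit 0) (XT.lf (nat_lit 0) (nat_lit 6948688655) (nat_lit 380) (nat_lit 5559438130) (nat_lit 76) (nat_lit 11789801042) (nat_lit 96) (nat_lit 5) (nat_lit 101) (nat_lit 5) (nat_lit 97) (nat_lit 5) (nat_lit 386) (nat_lit 324) (nat_lit 190)) (XT.lf (nat_lit 0) (nat_lit 7919057049) (nat_lit 228) (nat_lit 4358982057) (nat_lit 304) (nat_lit 12493720994) (nat_lit 93) (nat_lit 5) (nat_lit 96) (nat_lit 5) (nat_lit 97) (nat_lit 5) (nat_lit 387) (nat_lit 324) (nat_lit 189)))) (XT.nd (nat_lit 156) (nat_lit 304) (nat_lit 0) (XT.nd (nat_lit 78) (nat_lit 228) (nat_lit 0) (XT.lf (nat_lit 0) (nat_lit 17853579736) (nat_lit 304) (nat_lit 3396130939) (nat_lit 76) (nat_lit 4007509842) (nat_lit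 93) (nat_lit 5) (nat_lit 97) (nat_lit 5) (nat_lit 94) (nat_lit 5) (nat_lit 388) (nat_lit 324) (nat_lit 188)) (XT.lf (nat_lit 0) (nat_lit 10613981912) (nat_lit 228) (nat_lit 13118689064) (nat_lit 304) (nat_lit 2020487633) (nat_lit 90) (nat_lit 5) (nat_lit 93) (nat_lit 5) (nat_lit 94) (nat_lit 5) (nat_lit 389) (nat_lit 324) (nat_lit 187))) (XT.nd (nat_lit 78) (nat_lit 228) (nat_lit 0) (XT.lf (nat_lit 0) (nat_lit 3481158672) (nat_lit 304) (nat_lit 1197301973) (nat_lit 76) (nat_lit 21583727136) (nat_lit 89) (nat_lit 5) (nat_lit 93) (nat_lit 5) (nat_lit 90) (nat_lit 5) (nat_lit 390) (nat_lit 324) (nat_lit 186)) (XT.lf (nat_lit 0) (nat_lit 9267370611) (nat_lit 304) (nat_lit 13431928751) (nat_lit 76) (nat_lit 4081786730) (nat_lit 86) (nat_lit 5) (nat_lit 90) (nat_lit 5) (nat_lit 87) (nat_lit 5) (nat_lit 391) (nat_lit 324) (nat_lit 185))))) (XT.nd (nat_lit 234) (nat_lit 456) (nat_lit 0) (XT.nd (nat_lit 78) (nat_lit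 152) (nat_lit 0) (XT.lf (nat_lit 0) (nat_lit 1000634145) (nat_lit 228) (nat_lit 14286147706) (nat_lit 304) (nat_lit 12026983242) (nat_lit 83) (nat_lit 5) (nat_lit 86) (nat_lit 5) (nat_lit 87) (nat_lit 5) (nat_lit 392) (nat_lit 324) (nat_lit 184)) (XT.nd (nat_lit 78) (nat_lit 152) (nat_lit 0) (XT.lf (nat_lit 0) (nat_lit 16127834707) (nat_lit 228) (nat_lit 5486156748) (nat_lit 304) (nat_lit 6244618592) (nat_lit 83) (nat_lit 5) (nat_lit 86) (nat_lit 5) (nat_lit 87) (nat_lit 5) (nat_lit 393) (nat_lit 324) (nat_lit 183)) (XT.lf (nat_lit 0) (nat_lit 3305684125) (nat_lit 152) (nat_lit 24883277845) (nat_lit 228) (nat_lit 229102046) (nat_lit 81) (nat_lit 5) (nat_lit 83) (nat_lit 5) (nat_lit 84) (nat_lit 5) (nat_lit 394) (nat_lit 324) (nat_lit 182)))) (XT.nd (nat_lit 156) (nat_lit 152) (nat_lit 0) (XT.nd (nat_lit 78) (nat_lit 228) (nat_lit 0) (XT.lf (nat_lit 0) (nat_lit 6016198763) (nat_lit 228) (nat_lit 10083402747)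 (nat_lit 76) (nat_lit 12888008643) (nat_lit 80) (nat_lit 5) (nat_lit 83) (nat_lit 5) (nat_lit 81) (nat_lit 5) (nat_lit 395) (nat_lit 324) (nat_lit 181)) (XT.lf (nat_lit 0) (nat_lit 5488149410) (nat_lit 228) (nat_lit 7000903627) (nat_lit 304) (nat_lit 17083779447) (nat_lit 77) (nat_lit 5) (nat_lit 80) (nat_lit 5) (nat_lit 81) (nat_lit 5) (nat_lit 396) (nat_lit 324) (nat_lit 180))) (XT.nd (nat_lit 78) (nat_lit 152) (nat_lit 0) (XT.lf (nat_lit 0) (nat_lit 19273813981) (nat_lit 304) (nat_lit 8475984842) (nat_lit 76) (nat_lit 2422282812) (nat_lit 77) (nat_lit 5) (nat_lit 81) (nat_lit 5) (nat_lit 78) (nat_lit 5) (nat_lit 397) (nat_lit 324) (nat_lit 179)) (XT.lf (nat_lit 0) (nat_lit 7668503690) (nat_lit 152) (nat_lit 18728975504) (nat_lit 228) (nat_lit 4387769953) (nat_lit 75) (nat_lit 5) (nat_lit 77) (nat_lit 5) (nat_lit 78) (nat_lit 5) (nat_lit 398) (nat_lit 324) (nat_lit 178))))))))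
noncomputable def xc165 : XT := (XT.nd (nat_lit 2106) (nat_lit 988) (nat_lit 0) (XT.nd (nat_lit 1014) (nat_lit 1216) (nat_lit 0) (XT.nd (nat_lit 468) (nat_lit 532) (nat_lit 0) (XT.nd (nat_lit 234) (nat_lit 456) (nat_lit 0) (XT.nd (nat_lit 78) (nat_lit 228) (nat_lit 0) (XT.lf (nat_lit 0) (nat_lit 2351603799) (nat_lit 228) (nat_lit 6979120793) (nat_lit 76) (nat_lit 22083056414) (nat_lit 74) (nat_lit 5) (nat_lit 77) (nat_lit 5) (nat_lit 75) (nat_lit 5) (nat_lit 399) (nat_lit 324) (nat_lit 177)) (XT.nd (nat_lit 78) (nat_lit 0) (nat_lit 0) (XT.lf (nat_lit 0) (nat_lit 9296207154) (nat_lit 304) (nat_lit 22284407297) (nat_lit 76) (nat_lit 476515510) (nat_lit 71) (nat_lit 5) (nat_lit 75) (nat_lit 5) (nat_lit 72) (nat_lit 5) (nat_lit 400) (nat_lit 324) (nat_lit 176)) (XT.lf (nat_lit 0) (nat_lit 16605333635) (nat_lit 304) (nat_lit 5653060553) (nat_lit 76) (nat_lit 10456701182) (nat_lit 71) (nat_lit 5) (nat_lit 75)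 (nat_lit 5) (nat_lit 72) (nat_lit 5) (nat_lit 401) (nat_lit 324) (nat_lit 175)))) (XT.nd (nat_lit 78) (nat_lit 304) (nat_lit 0) (XT.lf (nat_lit 0) (nat_lit 11693267659) (nat_lit 152) (nat_lit 12545712201) (nat_lit 228) (nat_lit 9150663994) (nat_lit 69) (nat_lit 5) (nat_lit 71) (nat_lit 5) (nat_lit 72) (nat_lit 5) (nat_lit 402) (nat_lit 324) (nat_lit 174)) (XT.nd (nat_lit 78) (nat_lit 304) (nat_lit 0) (XT.lf (nat_lit 0) (nat_lit 29663850201) (nat_lit 152) (nat_lit 2487806138) (nat_lit 228) (nat_lit 1931273275) (nat_lit 69) (nat_lit 5) (nat_lit 71) (nat_lit 5) (nat_lit 72) (nat_lit 5) (nat_lit 403) (nat_lit 324) (nat_lit 173)) (XT.lf (nat_lit 0) (nat_lit 5598301223) (nat_lit 304) (nat_lit 21292412509) (nat_lit 76) (nat_lit 7898683589) (nat_lit 65) (nat_lit 5) (nat_lit 69) (nat_lit 5) (nat_lit 66) (nat_lit 5) (nat_lit 404) (nat_lit 324) (nat_lit 172))))) (XT.nd (nat_lit 234) (nat_lit 380) (nat_lit 0) (XT.nd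 (nat_lit 78) (nat_lit 152) (nat_lit 0) (XT.lf (nat_lit 0) (nat_lit 13377759122) (nat_lit 304) (nat_lit 3530648645) (nat_lit 76) (nat_lit 18606194585) (nat_lit 65) (nat_lit 5) (nat_lit 69) (nat_lit 5) (nat_lit 66) (nat_lit 5) (nat_lit 405) (nat_lit 324) (nat_lit 171)) (XT.nd (nat_lit 78) (nat_lit 0) (nat_lit 0) (XT.lf (nat_lit 0) (nat_lit 15046065248) (nat_lit 152) (nat_lit 6482483263) (nat_lit 228) (nat_lit 14728877879) (nat_lit 63) (nat_lit 5) (nat_lit 65) (nat_lit 5) (nat_lit 66) (nat_lit 5) (nat_lit 406) (nat_lit 324) (nat_lit 170)) (XT.lf (nat_lit 0) (nat_lit 29994135445) (nat_lit 228) (nat_lit 2821822700) (nat_lit 76) (nat_lit 4204470037) (nat_lit 63) (nat_lit 5) (nat_lit 66) (nat_lit 5) (nat_lit 64) (nat_lit 5) (nat_lit 407) (nat_lit 324) (nat_lit 169)))) (XT.nd (nat_lit 156) (nat_lit 152) (nat_lit 0) (XT.nd (nat_lit 78) (nat_lit 0) (nat_lit 0) (XT.lf (nat_lit 0) (nat_lit 1106817292) (nat_lit 228)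 (nat_lit 21447405345) (nat_lit 76) (nat_lit 15245322302) (nat_lit 60) (nat_lit 5) (nat_lit 63) (nat_lit 5) (nat_lit 61) (nat_lit 5) (nat_lit 408) (nat_lit 324) (nat_lit 168)) (XT.lf (nat_lit 0) (nat_lit 9365041488) (nat_lit 228) (nat_lit 2523093534) (nat_lit 76) (nat_lit 26711144030) (nat_lit 60) (nat_lit 5) (nat_lit 63) (nat_lit 5) (nat_lit 61) (nat_lit 5) (nat_lit 409) (nat_lit 324) (nat_lit 167))) (XT.nd (nat_lit 78) (nat_lit 0) (nat_lit 0) (XT.lf (nat_lit 0) (nat_lit 17295543893) (nat_lit 152) (nat_lit 735476668) (nat_lit 228) (nat_lit 21387185492) (nat_lit 58) (nat_lit 5) (nat_lit 60) (nat_lit 5) (nat_lit 61) (nat_lit 5) (nat_lit 410) (nat_lit 324) (nat_lit 166)) (XT.lf (nat_lit 0) (nat_lit 27079848595) (nat_lit 228) (nat_lit 2615016787) (nat_lit 76) (nat_lit 10563150474) (nat_lit 58) (nat_lit 5) (nat_lit 61) (nat_lit 5) (nat_lit 59) (nat_lit 5) (nat_lit 411) (nat_lit 324) (nat_lit 165)))))) (XT.nd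 (nat_lit 546) (nat_lit 456) (nat_lit 0) (XT.nd (nat_lit 234) (nat_lit 380) (nat_lit 0) (XT.nd (nat_lit 78) (nat_lit 228) (nat_lit 0) (XT.lf (nat_lit 0) (nat_lit 17807445054) (nat_lit 152) (nat_lit 18765121914) (nat_lit 228) (nat_lit 4545281266) (nat_lit 56) (nat_lit 5) (nat_lit 58) (nat_lit 5) (nat_lit 59) (nat_lit 5) (nat_lit 412) (nat_lit 324) (nat_lit 164)) (XT.nd (nat_lit 78) (nat_lit 152) (nat_lit 0) (XT.lf (nat_lit 0) (nat_lit 4282423796) (nat_lit 228) (nat_lit 3159175892) (nat_lit 76) (nat_lit 34560003915) (nat_lit 55) (nat_lit 5) (nat_lit 58) (nat_lit 5) (nat_lit 56) (nat_lit 5) (nat_lit 413) (nat_lit 324) (nat_lit 163)) (XT.lf (nat_lit 0) (nat_lit 13492420978) (nat_lit 228) (nat_lit 25057858981) (nat_lit 76) (nat_lit 4353978048) (nat_lit 53) (nat_lit 5) (nat_lit 56) (nat_lit 5) (nat_lit 54) (nat_lit 5) (nat_lit 414) (nat_lit 324) (nat_lit 162)))) (XT.nd (nat_lit 156) (nat_lit 228) (nat_lit 0) (XT.nd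 (nat_lit 78) (nat_lit 152) (nat_lit 0) (XT.lf (nat_lit 0) (nat_lit 23078801127) (nat_lit 228) (nat_lit 4370484107) (nat_lit 76) (nat_lit 16381705248) (nat_lit 53) (nat_lit 5) (nat_lit 56) (nat_lit 5) (nat_lit 54) (nat_lit 5) (nat_lit 415) (nat_lit 324) (nat_lit 161)) (XT.lf (nat_lit 0) (nat_lit 17264347985) (nat_lit 152) (nat_lit 15848736003) (nat_lit 228) (nat_lit 11667632508) (nat_lit 51) (nat_lit 5) (nat_lit 53) (nat_lit 5) (nat_lit 54) (nat_lit 5) (nat_lit 416) (nat_lit 324) (nat_lit 160))) (XT.nd (nat_lit 78) (nat_lit 228) (nat_lit 0) (XT.lf (nat_lit 0) (nat_lit 39627860606) (nat_lit 152) (nat_lit 3859092580) (nat_lit 228) (nat_lit 2270825244) (nat_lit 51) (nat_lit 5) (nat_lit 53) (nat_lit 5) (nat_lit 54) (nat_lit 5) (nat_lit 417) (nat_lit 324) (nat_lit 159)) (XT.lf (nat_lit 0) (nat_lit 7496746579) (nat_lit 228) (nat_lit 30709406429) (nat_lit 76) (nat_lit 8548861320) (nat_lit 48) (nat_lit 5) (nat_lit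 51) (nat_lit 5) (nat_lit 49) (nat_lit 5) (nat_lit 418) (nat_lit 324) (nat_lit 158))))) (XT.nd (nat_lit 234) (nat_lit 304) (nat_lit 0) (XT.nd (nat_lit 78) (nat_lit 152) (nat_lit 0) (XT.lf (nat_lit 0) (nat_lit 17606983664) (nat_lit 228) (nat_lit 8839359376) (nat_lit 76) (nat_lit 21332292178) (nat_lit 48) (nat_lit 5) (nat_lit 51) (nat_lit 5) (nat_lit 49) (nat_lit 5) (nat_lit 419) (nat_lit 324) (nat_lit 157)) (XT.nd (nat_lit 78) (nat_lit 0) (nat_lit 0) (XT.lf (nat_lit 0) (nat_lit 13949478461) (nat_lit 152) (nat_lit 14199856422) (nat_lit 228) (nat_lit 20679766422) (nat_lit 46) (nat_lit 5) (nat_lit 48) (nat_lit 5) (nat_lit 49) (nat_lit 5) (nat_lit 420) (nat_lit 324) (nat_lit 156)) (XT.lf (nat_lit 0) (nat_lit 37593757725) (nat_lit 152) (nat_lit 1498238542) (nat_lit 228) (nat_lit 10816564672) (nat_lit 46) (nat_lit 5) (nat_lit 48) (nat_lit 5) (nat_lit 49) (nat_lit 5) (nat_lit 421) (nat_lit 324) (nat_lit 155))))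 (XT.nd (nat_lit 156) (nat_lit 152) (nat_lit 0) (XT.nd (nat_lit 78) (nat_lit 76) (nat_lit 0) (XT.lf (nat_lit 0) (nat_lit 11021410751) (nat_lit 76) (nat_lit 39553720170) (nat_lit 152) (nat_lit 438908374) (nat_lit 45) (nat_lit 5) (nat_lit 46) (nat_lit 5) (nat_lit 47) (nat_lit 4) (nat_lit 422) (nat_lit 324) (nat_lit 154)) (XT.lf (nat_lit 0) (nat_lit 10185384556) (nat_lit 152) (nat_lit 16962666531) (nat_lit 76) (nat_lit 24997616019) (nat_lit 44) (nat_lit 5) (nat_lit 46) (nat_lit 5) (nat_lit 45) (nat_lit 5) (nat_lit 423) (nat_lit 324) (nat_lit 153))) (XT.nd (nat_lit 78) (nat_lit 0) (nat_lit 0) (XT.lf (nat_lit 0) (nat_lit 6879082036) (nat_lit 152) (nat_lit 14301679264) (nat_lit 228) (nat_lit 32128517455) (nat_lit 42) (nat_lit 5) (nat_lit 44) (nat_lit 5) (nat_lit 45) (nat_lit 5) (nat_lit 424) (nat_lit 324) (nat_lit 152)) (XT.lf (nat_lit 0) (nat_lit 31774887006) (nat_lit 152) (nat_lit 897511185) (nat_lit 228) (nat_lit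 21830409249) (nat_lit 42) (nat_lit 5) (nat_lit 44) (nat_lit 5) (nat_lit 45) (nat_lit 5) (nat_lit 425) (nat_lit 324) (nat_lit 151))))))) (XT.nd (nat_lit 1014) (nat_lit 76) (nat_lit 0) (XT.nd (nat_lit 468) (nat_lit 532) (nat_lit 0) (XT.nd (nat_lit 234) (nat_lit 228) (nat_lit 0) (XT.nd (nat_lit 78) (nat_lit 76) (nat_lit 0) (XT.lf (nat_lit 0) (nat_lit 1583476364) (nat_lit 76) (nat_lit 43059830350) (nat_lit 152) (nat_lit 11084800228) (nat_lit 41) (nat_lit 5) (nat_lit 42) (nat_lit 5) (nat_lit 43) (nat_lit 4) (nat_lit 426) (nat_lit 324) (nat_lit 150)) (XT.nd (nat_lit 78) (nat_lit 0) (nat_lit 0) (XT.lf (nat_lit 0) (nat_lit 219394028) (nat_lit 152) (nat_lit 29912931726) (nat_lit 76) (nat_lit 26850768465) (nat_lit 40) (nat_lit 5) (nat_lit 42) (nat_lit 5) (nat_lit 41) (nat_lit 5) (nat_lit 427) (nat_lit 324) (nat_lit 149)) (XT.lf (nat_lit 0) (nat_lit 11635282405) (nat_lit 152) (nat_lit 5072546759) (nat_lit 76) (nat_lit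 41564749159) (nat_lit 40) (nat_lit 5) (nat_lit 42) (nat_lit 5) (nat_lit 41) (nat_lit 5) (nat_lit 428) (nat_lit 324) (nat_lit 148)))) (XT.nd (nat_lit 78) (nat_lit 76) (nat_lit 0) (XT.lf (nat_lit 0) (nat_lit 20912868788) (nat_lit 152) (nat_lit 2677302828) (nat_lit 228) (nat_lit 36004680171) (nat_lit 38) (nat_lit 5) (nat_lit 40) (nat_lit 5) (nat_lit 41) (nat_lit 5) (nat_lit 429) (nat_lit 324) (nat_lit 147)) (XT.nd (nat_lit 78) (nat_lit 76) (nat_lit 0) (XT.lf (nat_lit 0) (nat_lit 36064131139) (nat_lit 228) (nat_lit 13295398605) (nat_lit 76) (nat_lit 11592451548) (nat_lit 38) (nat_lit 5) (nat_lit 41) (nat_lit 5) (nat_lit 39) (nat_lit 4) (nat_lit 430) (nat_lit 324) (nat_lit 146)) (XT.lf (nat_lit 0) (nat_lit 13073341125) (nat_lit 76) (nat_lit 35986789369) (nat_lit 152) (nat_lit 13285260087) (nat_lit 37) (nat_lit 5) (nat_lit 38) (nat_lit 5) (nat_lit 39) (nat_lit 4) (nat_lit 431) (nat_lit 324) (nat_lit 145)))))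 (XT.nd (nat_lit 234) (nat_lit 304) (nat_lit 0) (XT.nd (nat_lit 78) (nat_lit 228) (nat_lit 0) (XT.lf (nat_lit 0) (nat_lit 40497722312) (nat_lit 76) (nat_lit 22078239443) (nat_lit 152) (nat_lit 1200742351) (nat_lit 37) (nat_lit 5) (nat_lit 38) (nat_lit 5) (nat_lit 39) (nat_lit 4) (nat_lit 432) (nat_lit 324) (nat_lit 144)) (XT.nd (nat_lit 78) (nat_lit 0) (nat_lit 0) (XT.lf (nat_lit 0) (nat_lit 3445183472) (nat_lit 152) (nat_lit 7610566615) (nat_lit 228) (nat_lit 54191097387) (nat_lit 34) (nat_lit 5) (nat_lit 36) (nat_lit 5) (nat_lit 37) (nat_lit 5) (nat_lit 433) (nat_lit 324) (nat_lit 143)) (XT.lf (nat_lit 0) (nat_lit 23959082242) (nat_lit 228) (nat_lit 35397906538) (nat_lit 76) (nat_lit 7394651817) (nat_lit 34) (nat_lit 5) (nat_lit 37) (nat_lit 5) (nat_lit 35) (nat_lit 4) (nat_lit 434) (nat_lit 324) (nat_lit 142)))) (XT.nd (nat_lit 156) (nat_lit 228) (nat_lit 0) (XT.nd (nat_lit 78) (nat_lit 76) (nat_lit 0)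 (XT.lf (nat_lit 0) (nat_lit 37320781352) (nat_lit 228) (nat_lit 8284991127) (nat_lit 76) (nat_lit 22693667482) (nat_lit 34) (nat_lit 5) (nat_lit 37) (nat_lit 5) (nat_lit 35) (nat_lit 4) (nat_lit 435) (nat_lit 324) (nat_lit 141)) (XT.lf (nat_lit 0) (nat_lit 20024684265) (nat_lit 76) (nat_lit 31247170518) (nat_lit 152) (nat_lit 18616163267) (nat_lit 33) (nat_lit 5) (nat_lit 34) (nat_lit 5) (nat_lit 35) (nat_lit 4) (nat_lit 436) (nat_lit 324) (nat_lit 140))) (XT.nd (nat_lit 78) (nat_lit 228) (nat_lit 0) (XT.lf (nat_lit 0) (nat_lit 49346175283) (nat_lit 76) (nat_lit 16375026395) (nat_lit 152) (nat_lit 5800659997) (nat_lit 33) (nat_lit 5) (nat_lit 34) (nat_lit 5) (nat_lit 35) (nat_lit 4) (nat_lit 437) (nat_lit 324) (nat_lit 139)) (XT.lf (nat_lit 0) (nat_lit 6388962535) (nat_lit 152) (nat_lit 923528488) (nat_lit 228) (nat_lit 65888369097) (nat_lit 30) (nat_lit 5) (nat_lit 32) (nat_lit 5) (nat_lit 33) (nat_lit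 5) (nat_lit 438) (nat_lit 324) (nat_lit 138)))))) (XT.nd (nat_lit 38298) (nat_lit 0) (nat_lit 18240) (XT.nd (nat_lit 37986) (nat_lit 0) (nat_lit 18164) (XT.nd (nat_lit 156) (nat_lit 76) (nat_lit 0) (XT.lf (nat_lit 0) (nat_lit 21068871920) (nat_lit 228) (nat_lit 38869322100) (nat_lit 76) (nat_lit 14979319240) (nat_lit 30) (nat_lit 5) (nat_lit 33) (nat_lit 5) (nat_lit 31) (nat_lit 4) (nat_lit 439) (nat_lit 324) (nat_lit 137)) (XT.nd (nat_lit 78) (nat_lit 0) (nat_lit 0) (XT.lf (nat_lit 0) (nat_lit 19904725866) (nat_lit 76) (nat_lit 30126094444) (nat_lit 152) (nat_lit 28470082198) (nat_lit 29) (nat_lit 5) (nat_lit 30) (nat_lit 5) (nat_lit 31) (nat_lit 4) (nat_lit 441) (nat_lit 324) (nat_lit 135)) (XT.lf (nat_lit 0) (nat_lit 51014748136) (nat_lit 76) (nat_lit 14345613684) (nat_lit 152) (nat_lit 15007447894) (nat_lit 29) (nat_lit 5) (nat_lit 30) (nat_lit 5) (nat_lit 31) (nat_lit 4) (nat_lit 442) (nat_lit 324)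 (nat_lit 134)))) (XT.nd (nat_lit 156) (nat_lit 1064) (nat_lit 0) (XT.nd (nat_lit 78) (nat_lit 0) (nat_lit 0) (XT.lf (nat_lit 0) (nat_lit 2011725715) (nat_lit 0) (nat_lit 2011725715) (nat_lit 988) (nat_lit 539956961) (nat_lit 282) (nat_lit 5) (nat_lit 282) (nat_lit 3) (nat_lit 295) (nat_lit 3) (nat_lit 325) (nat_lit 325) (nat_lit 250)) (XT.lf (nat_lit 0) (nat_lit 8518391049) (nat_lit 0) (nat_lit 497201315) (nat_lit 988) (nat_lit 222186792) (nat_lit 282) (nat_lit 5) (nat_lit 282) (nat_lit 3) (nat_lit 295) (nat_lit 3) (nat_lit 326) (nat_lit 325) (nat_lit 249))) (XT.nd (nat_lit 78) (nat_lit 0) (nat_lit 0) (XT.lf (nat_lit 0) (nat_lit 682631417) (nat_lit 1064) (nat_lit 5534910558) (nat_lit 1140) (nat_lit 3133328791) (nat_lit 268) (nat_lit 5) (nat_lit 282) (nat_lit 5) (nat_lit 283) (nat_lit 5) (nat_lit 327) (nat_lit 325) (nat_lit 248)) (XT.lf (nat_lit 0) (nat_lit 1589905880) (nat_lit 1064) (nat_lit 990425871)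 (nat_lit 1140) (nat_lit 6887582459) (nat_lit 268) (nat_lit 5) (nat_lit 282) (nat_lit 5) (nat_lit 283) (nat_lit 5) (nat_lit 328) (nat_lit 325) (nat_lit 247))))) (XT.nd (nat_lit 234) (nat_lit 0) (nat_lit 76) (XT.nd (nat_lit 78) (nat_lit 0) (nat_lit 0) (XT.lf (nat_lit 0) (nat_lit 2540567920) (nat_lit 1064) (nat_lit 5854242515) (nat_lit 1140) (nat_lit 1193191310) (nat_lit 269) (nat_lit 5) (nat_lit 283) (nat_lit 5) (nat_lit 284) (nat_lit 5) (nat_lit 329) (nat_lit 325) (nat_lit 246)) (XT.nd (nat_lit 78) (nat_lit 0) (nat_lit 0) (XT.lf (nat_lit 0) (nat_lit 3524740314) (nat_lit 1064) (nat_lit 1135640755) (nat_lit 1140) (nat_lit 5051178470) (nat_lit 269) (nat_lit 5) (nat_lit 283) (nat_lit 5) (nat_lit 284) (nat_lit 5) (nat_lit 330) (nat_lit 325) (nat_lit 245)) (XT.lf (nat_lit 76) (nat_lit 3780251723) (nat_lit 0) (nat_lit 764759465) (nat_lit 1140) (nat_lit 5293632523) (nat_lit 270) (nat_lit 5) (nat_lit 269) (nat_lit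 5) (nat_lit 284) (nat_lit 5) (nat_lit 331) (nat_lit 325) (nat_lit 244)))) (XT.nd (nat_lit 156) (nat_lit 0) (nat_lit 76) (XT.nd (nat_lit 78) (nat_lit 0) (nat_lit 0) (XT.lf (nat_lit 0) (nat_lit 5609728932) (nat_lit 1064) (nat_lit 1152481676) (nat_lit 1140) (nat_lit 3206930989) (nat_lit 270) (nat_lit 5) (nat_lit 284) (nat_lit 5) (nat_lit 285) (nat_lit 5) (nat_lit 332) (nat_lit 325) (nat_lit 243)) (XT.lf (nat_lit 76) (nat_lit 3951844833) (nat_lit 0) (nat_lit 2771984629) (nat_lit 1140) (nat_lit 3379217598) (nat_lit 271) (nat_lit 5) (nat_lit 270) (nat_lit 5) (nat_lit 285) (nat_lit 5) (nat_lit 333) (nat_lit 325) (nat_lit 242))) (XT.nd (nat_lit 78) (nat_lit 0) (nat_lit 0) (XT.lf (nat_lit 0) (nat_lit 7868583662) (nat_lit 1064) (nat_lit 1039725065) (nat_lit 1140) (nat_lit 1332759452) (nat_lit 271) (nat_lit 5) (nat_lit 285) (nat_lit 5) (nat_lit 286) (nat_lit 5) (nat_lit 334) (nat_lit 325) (nat_lit 241)) (XT.lf (nat_lit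 76) (nat_lit 4262325313) (nat_lit 0) (nat_lit 4827186671) (nat_lit 1140) (nat_lit 1292477968) (nat_lit 272) (nat_lit 5) (nat_lit 271) (nat_lit 5) (nat_lit 286) (nat_lit 5) (nat_lit 335) (nat_lit 325) (nat_lit 240))))))))
noncomputable def xc166 : XT := (XT.nd (nat_lit 2106) (nat_lit 5244) (nat_lit 0) (XT.nd (nat_lit 1014) (nat_lit 3724) (nat_lit 0) (XT.nd (nat_lit 468) (nat_lit 3496) (nat_lit 0) (XT.nd (nat_lit 234) (nat_lit 0) (nat_lit 76) (XT.nd (nat_lit 78) (nat_lit 1064) (nat_lit 0) (XT.lf (nat_lit 76) (nat_lit 9726432886) (nat_lit 0) (nat_lit 605146749) (nat_lit 1140) (nat_lit 196038927) (nat_lit 272) (nat_lit 5) (nat_lit 271) (nat_lit 5) (nat_lit 286) (nat_lit 5) (nat_lit 336) (nat_lit 325) (nat_lit 239)) (XT.nd (nat_lit 78) (nat_lit 0) (nat_lit 0) (XT.lf (nat_lit 0) (nat_lit 971765573) (nat_lit 1140) (nat_lit 5971245861) (nat_lit 1216) (nat_lit 3732648623) (nat_lit 257) (nat_lit 5) (nat_lit 272)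 (nat_lit 5) (nat_lit 273) (nat_lit 5) (nat_lit 337) (nat_lit 325) (nat_lit 238)) (XT.lf (nat_lit 0) (nat_lit 2159965346) (nat_lit 1140) (nat_lit 463259340) (nat_lit 1216) (nat_lit 8205194139) (nat_lit 257) (nat_lit 5) (nat_lit 272) (nat_lit 5) (nat_lit 273) (nat_lit 5) (nat_lit 338) (nat_lit 325) (nat_lit 237)))) (XT.nd (nat_lit 78) (nat_lit 0) (nat_lit 0) (XT.lf (nat_lit 0) (nat_lit 3428685396) (nat_lit 1140) (nat_lit 5708194706) (nat_lit 1216) (nat_lit 1847546933) (nat_lit 258) (nat_lit 5) (nat_lit 273) (nat_lit 5) (nat_lit 274) (nat_lit 5) (nat_lit 339) (nat_lit 325) (nat_lit 236)) (XT.nd (nat_lit 78) (nat_lit 0) (nat_lit 0) (XT.lf (nat_lit 76) (nat_lit 7566364) (nat_lit 0) (nat_lit 4735113301) (nat_lit 1216) (nat_lit 6402231981) (nat_lit 259) (nat_lit 5) (nat_lit 258) (nat_lit 5) (nat_lit 274) (nat_lit 5) (nat_lit 340) (nat_lit 325) (nat_lit 235)) (XT.lf (nat_lit 76) (nat_lit 5993006459) (nat_lit 0)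 (nat_lit 137677262) (nat_lit 1216) (nat_lit 5178501542) (nat_lit 259) (nat_lit 5) (nat_lit 258) (nat_lit 5) (nat_lit 274) (nat_lit 5) (nat_lit 341) (nat_lit 325) (nat_lit 234))))) (XT.nd (nat_lit 234) (nat_lit 1292) (nat_lit 0) (XT.nd (nat_lit 78) (nat_lit 1216) (nat_lit 0) (XT.lf (nat_lit 0) (nat_lit 628714122) (nat_lit 1140) (nat_lit 6959512506) (nat_lit 1216) (nat_lit 3889335313) (nat_lit 244) (nat_lit 5) (nat_lit 259) (nat_lit 5) (nat_lit 260) (nat_lit 5) (nat_lit 342) (nat_lit 325) (nat_lit 233)) (XT.nd (nat_lit 78) (nat_lit 1216) (nat_lit 0) (XT.lf (nat_lit 0) (nat_lit 6840744822) (nat_lit 1140) (nat_lit 2281913197) (nat_lit 1216) (nat_lit 2527348503) (nat_lit 244) (nat_lit 5) (nat_lit 259) (nat_lit 5) (nat_lit 260) (nat_lit 5) (nat_lit 343) (nat_lit 325) (nat_lit 232)) (XT.lf (nat_lit 0) (nat_lit 1395439728) (nat_lit 1216) (nat_lit 9324269310) (nat_lit 1292) (nat_lit 1107428938) (nat_lit 228) (nat_lit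 5) (nat_lit 244) (nat_lit 5) (nat_lit 245) (nat_lit 5) (nat_lit 344) (nat_lit 325) (nat_lit 231)))) (XT.nd (nat_lit 156) (nat_lit 608) (nat_lit 0) (XT.nd (nat_lit 78) (nat_lit 608) (nat_lit 0) (XT.lf (nat_lit 0) (nat_lit 398813722) (nat_lit 1292) (nat_lit 4168913642) (nat_lit 76) (nat_lit 7440244467) (nat_lit 227) (nat_lit 5) (nat_lit 244) (nat_lit 5) (nat_lit 228) (nat_lit 5) (nat_lit 345) (nat_lit 325) (nat_lit 230)) (XT.lf (nat_lit 0) (nat_lit 1933224045) (nat_lit 684) (nat_lit 9900387775) (nat_lit 76) (nat_lit 360142976) (nat_lit 219) (nat_lit 5) (nat_lit 228) (nat_lit 5) (nat_lit 220) (nat_lit 5) (nat_lit 346) (nat_lit 325) (nat_lit 229))) (XT.nd (nat_lit 78) (nat_lit 608) (nat_lit 0) (XT.lf (nat_lit 0) (nat_lit 3581464900) (nat_lit 684) (nat_lit 3413565159) (nat_lit 76) (nat_lit 5388057137) (nat_lit 219) (nat_lit 5) (nat_lit 228) (nat_lit 5) (nat_lit 220) (nat_lit 5) (nat_lit 347) (nat_lit 325) (nat_lit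 228)) (XT.lf (nat_lit 0) (nat_lit 3314036001) (nat_lit 608) (nat_lit 1977612875) (nat_lit 684) (nat_lit 7286085421) (nat_lit 211) (nat_lit 5) (nat_lit 219) (nat_lit 5) (nat_lit 220) (nat_lit 5) (nat_lit 348) (nat_lit 325) (nat_lit 227)))))) (XT.nd (nat_lit 546) (nat_lit 1520) (nat_lit 0) (XT.nd (nat_lit 234) (nat_lit 1596) (nat_lit 0) (XT.nd (nat_lit 78) (nat_lit 608) (nat_lit 0) (XT.lf (nat_lit 0) (nat_lit 7099650904) (nat_lit 684) (nat_lit 2513653862) (nat_lit 76) (nat_lit 3163529994) (nat_lit 211) (nat_lit 5) (nat_lit 220) (nat_lit 5) (nat_lit 212) (nat_lit 5) (nat_lit 349) (nat_lit 325) (nat_lit 226)) (XT.nd (nat_lit 78) (nat_lit 0) (nat_lit 0) (XT.lf (nat_lit 0) (nat_lit 4488551389) (nat_lit 608) (nat_lit 4517654603) (nat_lit 684) (nat_lit 3974381908) (nat_lit 203) (nat_lit 5) (nat_lit 211) (nat_lit 5) (nat_lit 212) (nat_lit 5) (nat_lit 350) (nat_lit 325) (nat_lit 225)) (XT.lf (nat_lit 0) (nat_lit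 10984564096) (nat_lit 684) (nat_lit 1463336107) (nat_lit 76) (nat_lit 742124031) (nat_lit 203) (nat_lit 5) (nat_lit 212) (nat_lit 5) (nat_lit 204) (nat_lit 5) (nat_lit 351) (nat_lit 325) (nat_lit 224)))) (XT.nd (nat_lit 156) (nat_lit 988) (nat_lit 0) (XT.nd (nat_lit 78) (nat_lit 76) (nat_lit 0) (XT.lf (nat_lit 0) (nat_lit 5827030209) (nat_lit 532) (nat_lit 7278457344) (nat_lit 608) (nat_lit 297768202) (nat_lit 196) (nat_lit 5) (nat_lit 203) (nat_lit 5) (nat_lit 204) (nat_lit 5) (nat_lit 352) (nat_lit 325) (nat_lit 223)) (XT.lf (nat_lit 0) (nat_lit 1632177031) (nat_lit 608) (nat_lit 290856204) (nat_lit 76) (nat_lit 11699451616) (nat_lit 195) (nat_lit 5) (nat_lit 203) (nat_lit 5) (nat_lit 196) (nat_lit 5) (nat_lit 353) (nat_lit 325) (nat_lit 222))) (XT.nd (nat_lit 78) (nat_lit 456) (nat_lit 0) (XT.lf (nat_lit 0) (nat_lit 3702942946) (nat_lit 608) (nat_lit 6546403703) (nat_lit 76) (nat_lit 3596196321) (nat_lit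 188) (nat_lit 5) (nat_lit 196) (nat_lit 5) (nat_lit 189) (nat_lit 5) (nat_lit 354) (nat_lit 325) (nat_lit 221)) (XT.lf (nat_lit 0) (nat_lit 1030499940) (nat_lit 456) (nat_lit 4820692293) (nat_lit 532) (nat_lit 8223647369) (nat_lit 182) (nat_lit 5) (nat_lit 188) (nat_lit 5) (nat_lit 189) (nat_lit 5) (nat_lit 355) (nat_lit 325) (nat_lit 220))))) (XT.nd (nat_lit 234) (nat_lit 988) (nat_lit 0) (XT.nd (nat_lit 78) (nat_lit 532) (nat_lit 0) (XT.lf (nat_lit 0) (nat_lit 8121800509) (nat_lit 532) (nat_lit 5366622891) (nat_lit 76) (nat_lit 820861750) (nat_lit 182) (nat_lit 5) (nat_lit 189) (nat_lit 5) (nat_lit 183) (nat_lit 5) (nat_lit 356) (nat_lit 325) (nat_lit 219)) (XT.nd (nat_lit 78) (nat_lit 0) (nat_lit 0) (XT.lf (nat_lit 0) (nat_lit 2525073541) (nat_lit 532) (nat_lit 7991670764) (nat_lit 608) (nat_lit 4032340388) (nat_lit 175) (nat_lit 5) (nat_lit 182) (nat_lit 5) (nat_lit 183) (nat_lit 5) (nat_lit 357) (nat_lit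 325) (nat_lit 218)) (XT.lf (nat_lit 0) (nat_lit 10745811325) (nat_lit 532) (nat_lit 2276421969) (nat_lit 608) (nat_lit 1772690961) (nat_lit 175) (nat_lit 5) (nat_lit 182) (nat_lit 5) (nat_lit 183) (nat_lit 5) (nat_lit 358) (nat_lit 325) (nat_lit 217)))) (XT.nd (nat_lit 156) (nat_lit 456) (nat_lit 0) (XT.nd (nat_lit 78) (nat_lit 0) (nat_lit 0) (XT.lf (nat_lit 0) (nat_lit 604469669) (nat_lit 532) (nat_lit 10857735847) (nat_lit 76) (nat_lit 3583963646) (nat_lit 168) (nat_lit 5) (nat_lit 175) (nat_lit 5) (nat_lit 169) (nat_lit 5) (nat_lit 359) (nat_lit 325) (nat_lit 216)) (XT.lf (nat_lit 0) (nat_lit 3066200605) (nat_lit 532) (nat_lit 2605883140) (nat_lit 76) (nat_lit 9630880934) (nat_lit 168) (nat_lit 5) (nat_lit 175) (nat_lit 5) (nat_lit 169) (nat_lit 5) (nat_lit 360) (nat_lit 325) (nat_lit 215))) (XT.nd (nat_lit 78) (nat_lit 0) (nat_lit 0) (XT.lf (nat_lit 0) (nat_lit 5648230803) (nat_lit 532) (nat_lit 9576305709)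 (nat_lit 76) (nat_lit 341540295) (nat_lit 162) (nat_lit 5) (nat_lit 169) (nat_lit 5) (nat_lit 163) (nat_lit 5) (nat_lit 361) (nat_lit 325) (nat_lit 214)) (XT.lf (nat_lit 0) (nat_lit 8376175613) (nat_lit 532) (nat_lit 1013491302) (nat_lit 76) (nat_lit 6445367760) (nat_lit 162) (nat_lit 5) (nat_lit 169) (nat_lit 5) (nat_lit 163) (nat_lit 5) (nat_lit 362) (nat_lit 325) (nat_lit 213))))))) (XT.nd (nat_lit 1014) (nat_lit 2204) (nat_lit 0) (XT.nd (nat_lit 468) (nat_lit 1368) (nat_lit 0) (XT.nd (nat_lit 234) (nat_lit 760) (nat_lit 0) (XT.nd (nat_lit 78) (nat_lit 532) (nat_lit 0) (XT.lf (nat_lit 0) (nat_lit 7944246197) (nat_lit 380) (nat_lit 3304213069) (nat_lit 456) (nat_lit 4861732808) (nat_lit 157) (nat_lit 5) (nat_lit 162) (nat_lit 5) (nat_lit 163) (nat_lit 5) (nat_lit 363) (nat_lit 325) (nat_lit 212)) (XT.nd (nat_lit 78) (nat_lit 76) (nat_lit 0) (XT.lf (nat_lit 0) (nat_lit 767377992) (nat_lit 456) (nat_lit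 13472082474) (nat_lit 532) (nat_lit 2153172899) (nat_lit 151) (nat_lit 5) (nat_lit 157) (nat_lit 5) (nat_lit 158) (nat_lit 5) (nat_lit 364) (nat_lit 325) (nat_lit 211)) (XT.lf (nat_lit 0) (nat_lit 726654792) (nat_lit 532) (nat_lit 6601935692) (nat_lit 76) (nat_lit 9351706110) (nat_lit 150) (nat_lit 5) (nat_lit 157) (nat_lit 5) (nat_lit 151) (nat_lit 5) (nat_lit 365) (nat_lit 325) (nat_lit 210)))) (XT.nd (nat_lit 78) (nat_lit 380) (nat_lit 0) (XT.lf (nat_lit 0) (nat_lit 2706782330) (nat_lit 380) (nat_lit 955675203) (nat_lit 456) (nat_lit 13313112088) (nat_lit 145) (nat_lit 5) (nat_lit 150) (nat_lit 5) (nat_lit 151) (nat_lit 5) (nat_lit 366) (nat_lit 325) (nat_lit 209)) (XT.nd (nat_lit 78) (nat_lit 380) (nat_lit 0) (XT.lf (nat_lit 0) (nat_lit 6794598175) (nat_lit 456) (nat_lit 4919172127) (nat_lit 76) (nat_lit 5562687635) (nat_lit 145) (nat_lit 5) (nat_lit 151) (nat_lit 5) (nat_lit 146) (nat_lit 5) (nat_lit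 367) (nat_lit 325) (nat_lit 208)) (XT.lf (nat_lit 0) (nat_lit 4778209746) (nat_lit 380) (nat_lit 5285289902) (nat_lit 456) (nat_lit 7521594222) (nat_lit 140) (nat_lit 5) (nat_lit 145) (nat_lit 5) (nat_lit 146) (nat_lit 5) (nat_lit 368) (nat_lit 325) (nat_lit 207))))) (XT.nd (nat_lit 234) (nat_lit 988) (nat_lit 0) (XT.nd (nat_lit 78) (nat_lit 380) (nat_lit 0) (XT.lf (nat_lit 0) (nat_lit 13481052131) (nat_lit 456) (nat_lit 3064158365) (nat_lit 76) (nat_lit 1356265592) (nat_lit 140) (nat_lit 5) (nat_lit 146) (nat_lit 5) (nat_lit 141) (nat_lit 5) (nat_lit 369) (nat_lit 325) (nat_lit 206)) (XT.nd (nat_lit 78) (nat_lit 76) (nat_lit 0) (XT.lf (nat_lit 0) (nat_lit 7039698880) (nat_lit 304) (nat_lit 10069368955) (nat_lit 380) (nat_lit 1115048426) (nat_lit 136) (nat_lit 5) (nat_lit 140) (nat_lit 5) (nat_lit 141) (nat_lit 5) (nat_lit 370) (nat_lit 325) (nat_lit 205)) (XT.lf (nat_lit 0) (nat_lit 2264073097) (nat_lit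 380) (nat_lit 1084612344) (nat_lit 76) (nat_lit 15206516456) (nat_lit 135) (nat_lit 5) (nat_lit 140) (nat_lit 5) (nat_lit 136) (nat_lit 5) (nat_lit 371) (nat_lit 325) (nat_lit 204)))) (XT.nd (nat_lit 156) (nat_lit 304) (nat_lit 0) (XT.nd (nat_lit 78) (nat_lit 304) (nat_lit 0) (XT.lf (nat_lit 0) (nat_lit 5836933217) (nat_lit 456) (nat_lit 9452570447) (nat_lit 76) (nat_lit 3602946144) (nat_lit 130) (nat_lit 5) (nat_lit 136) (nat_lit 5) (nat_lit 131) (nat_lit 5) (nat_lit 372) (nat_lit 325) (nat_lit 203)) (XT.lf (nat_lit 0) (nat_lit 1033809292) (nat_lit 304) (nat_lit 8525833594) (nat_lit 380) (nat_lit 9678896435) (nat_lit 126) (nat_lit 5) (nat_lit 130) (nat_lit 5) (nat_lit 131) (nat_lit 5) (nat_lit 373) (nat_lit 325) (nat_lit 202))) (XT.nd (nat_lit 78) (nat_lit 304) (nat_lit 0) (XT.lf (nat_lit 0) (nat_lit 12012752220) (nat_lit 304) (nat_lit 1465426807) (nat_lit 380) (nat_lit 6114312093) (nat_lit 126) (nat_lit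 5) (nat_lit 130) (nat_lit 5) (nat_lit 131) (nat_lit 5) (nat_lit 374) (nat_lit 325) (nat_lit 201)) (XT.lf (nat_lit 0) (nat_lit 3358084019) (nat_lit 304) (nat_lit 14233265823) (nat_lit 380) (nat_lit 2363403116) (nat_lit 122) (nat_lit 5) (nat_lit 126) (nat_lit 5) (nat_lit 127) (nat_lit 5) (nat_lit 375) (nat_lit 325) (nat_lit 200)))))) (XT.nd (nat_lit 546) (nat_lit 836) (nat_lit 0) (XT.nd (nat_lit 234) (nat_lit 988) (nat_lit 0) (XT.nd (nat_lit 78) (nat_lit 304) (nat_lit 0) (XT.lf (nat_lit 0) (nat_lit 1551610932) (nat_lit 380) (nat_lit 5591550155) (nat_lit 76) (nat_lit 13181867143) (nat_lit 121) (nat_lit 5) (nat_lit 126) (nat_lit 5) (nat_lit 122) (nat_lit 5) (nat_lit 376) (nat_lit 325) (nat_lit 199)) (XT.nd (nat_lit 78) (nat_lit 0) (nat_lit 0) (XT.lf (nat_lit 0) (nat_lit 5584141934) (nat_lit 380) (nat_lit 14888005017) (nat_lit 76) (nat_lit 232139265) (nat_lit 117) (nat_lit 5) (nat_lit 122) (nat_lit 5) (nat_lit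 118) (nat_lit 5) (nat_lit 377) (nat_lit 325) (nat_lit 198)) (XT.lf (nat_lit 0) (nat_lit 9854876977) (nat_lit 380) (nat_lit 3498905689) (nat_lit 76) (nat_lit 7737625847) (nat_lit 117) (nat_lit 5) (nat_lit 122) (nat_lit 5) (nat_lit 118) (nat_lit 5) (nat_lit 378) (nat_lit 325) (nat_lit 197)))) (XT.nd (nat_lit 156) (nat_lit 684) (nat_lit 0) (XT.nd (nat_lit 78) (nat_lit 0) (nat_lit 0) (XT.lf (nat_lit 0) (nat_lit 8380484488) (nat_lit 304) (nat_lit 5943595309) (nat_lit 380) (nat_lit 7163957624) (nat_lit 113) (nat_lit 5) (nat_lit 117) (nat_lit 5) (nat_lit 118) (nat_lit 5) (nat_lit 379) (nat_lit 325) (nat_lit 196)) (XT.lf (nat_lit 0) (nat_lit 18969172900) (nat_lit 380) (nat_lit 1239138238) (nat_lit 76) (nat_lit 1687002850) (nat_lit 113) (nat_lit 5) (nat_lit 118) (nat_lit 5) (nat_lit 114) (nat_lit 5) (nat_lit 380) (nat_lit 325) (nat_lit 195))) (XT.nd (nat_lit 78) (nat_lit 304) (nat_lit 0) (XT.lf (nat_lit 0) (nat_lit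 1568293861) (nat_lit 380) (nat_lit 11196448654) (nat_lit 76) (nat_lit 9544927640) (nat_lit 108) (nat_lit 5) (nat_lit 113) (nat_lit 5) (nat_lit 109) (nat_lit 5) (nat_lit 381) (nat_lit 325) (nat_lit 194)) (XT.lf (nat_lit 0) (nat_lit 1103259136) (nat_lit 304) (nat_lit 5048972118) (nat_lit 380) (nat_lit 16582955089) (nat_lit 104) (nat_lit 5) (nat_lit 108) (nat_lit 5) (nat_lit 109) (nat_lit 5) (nat_lit 382) (nat_lit 325) (nat_lit 193))))) (XT.nd (nat_lit 234) (nat_lit 608) (nat_lit 0) (XT.nd (nat_lit 78) (nat_lit 228) (nat_lit 0) (XT.lf (nat_lit 0) (nat_lit 11006066206) (nat_lit 380) (nat_lit 9212327284) (nat_lit 76) (nat_lit 2951106002) (nat_lit 104) (nat_lit 5) (nat_lit 109) (nat_lit 5) (nat_lit 105) (nat_lit 5) (nat_lit 383) (nat_lit 325) (nat_lit 192)) (XT.nd (nat_lit 78) (nat_lit 0) (nat_lit 0) (XT.lf (nat_lit 0) (nat_lit 3585520604) (nat_lit 228) (nat_lit 12495070936) (nat_lit 304) (nat_lit 7534001009)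 (nat_lit 101) (nat_lit 5) (nat_lit 104) (nat_lit 5) (nat_lit 105) (nat_lit 5) (nat_lit 384) (nat_lit 325) (nat_lit 191)) (XT.lf (nat_lit 0) (nat_lit 16941971336) (nat_lit 228) (nat_lit 4449163990) (nat_lit 304) (nat_lit 2679392288) (nat_lit 101) (nat_lit 5) (nat_lit 104) (nat_lit 5) (nat_lit 105) (nat_lit 5) (nat_lit 385) (nat_lit 325) (nat_lit 190)))) (XT.nd (nat_lit 156) (nat_lit 228) (nat_lit 0) (XT.nd (nat_lit 78) (nat_lit 0) (nat_lit 0) (XT.lf (nat_lit 0) (nat_lit 2364189833) (nat_lit 380) (nat_lit 18331034663) (nat_lit 76) (nat_lit 3841590789) (nat_lit 96) (nat_lit 5) (nat_lit 101) (nat_lit 5) (nat_lit 97) (nat_lit 5) (nat_lit 386) (nat_lit 325) (nat_lit 189)) (XT.lf (nat_lit 0) (nat_lit 7612993084) (nat_lit 380) (nat_lit 5013981743) (nat_lit 76) (nat_lit 12386090361) (nat_lit 96) (nat_lit 5) (nat_lit 101) (nat_lit 5) (nat_lit 97) (nat_lit 5) (nat_lit 387) (nat_lit 325) (nat_lit 188))) (XT.nd (nat_lit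 78) (nat_lit 0) (nat_lit 0) (XT.lf (nat_lit 0) (nat_lit 8861885550) (nat_lit 228) (nat_lit 4233840855) (nat_lit 304) (nat_lit 12405584600) (nat_lit 93) (nat_lit 5) (nat_lit 96) (nat_lit 5) (nat_lit 97) (nat_lit 5) (nat_lit 388) (nat_lit 325) (nat_lit 187)) (XT.lf (nat_lit 0) (nat_lit 18827833824) (nat_lit 304) (nat_lit 2802482132) (nat_lit 76) (nat_lit 4371343801) (nat_lit 93) (nat_lit 5) (nat_lit 97) (nat_lit 5) (nat_lit 94) (nat_lit 5) (nat_lit 389) (nat_lit 325) (nat_lit 186))))))))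
noncomputable def xc167 : XT := (XT.nd (nat_lit 2106) (nat_lit 1824) (nat_lit 0) (XT.nd (nat_lit 1014) (nat_lit 1368) (nat_lit 0) (XT.nd (nat_lit 468) (nat_lit 684) (nat_lit 0) (XT.nd (nat_lit 234) (nat_lit 456) (nat_lit 0) (XT.nd (nat_lit 78) (nat_lit 304) (nat_lit 0) (XT.lf (nat_lit 0) (nat_lit 11621115156) (nat_lit 228) (nat_lit 13256026865) (nat_lit 304) (nat_lit 1635522080) (nat_lit 90) (nat_lit 5) (nat_lit 93) (nat_lit 5) (nat_lit 94) (nat_lit 5) (nat_lit 390) (nat_lit 325) (nat_lit 185)) (XT.nd (nat_lit 78) (nat_lit 228) (nat_lit 0) (XT.lf (nat_lit 0) (nat_lit 4009753925) (nat_lit 304) (nat_lit 556017282) (nat_lit 76) (nat_lit 22471449429) (nat_lit 89) (nat_lit 5) (nat_lit 93) (nat_lit 5) (nat_lit 90) (nat_lit 5) (nat_lit 391) (nat_lit 325) (nat_lit 184)) (XT.lf (nat_lit 0) (nat_lit 9966069290) (nat_lit 304) (nat_lit 13154095112) (nat_lit 76) (nat_lit 4451629128) (nat_lit 86) (nat_lit 5) (nat_lit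 90) (nat_lit 5) (nat_lit 87) (nat_lit 5) (nat_lit 392) (nat_lit 325) (nat_lit 183)))) (XT.nd (nat_lit 78) (nat_lit 228) (nat_lit 0) (XT.lf (nat_lit 0) (nat_lit 1704770244) (nat_lit 228) (nat_lit 14455519904) (nat_lit 304) (nat_lit 11960338986) (nat_lit 83) (nat_lit 5) (nat_lit 86) (nat_lit 5) (nat_lit 87) (nat_lit 5) (nat_lit 393) (nat_lit 325) (nat_lit 182)) (XT.nd (nat_lit 78) (nat_lit 228) (nat_lit 0) (XT.lf (nat_lit 0) (nat_lit 17266152346) (nat_lit 228) (nat_lit 5399079088) (nat_lit 304) (nat_lit 6016953506) (nat_lit 83) (nat_lit 5) (nat_lit 86) (nat_lit 5) (nat_lit 87) (nat_lit 5) (nat_lit 394) (nat_lit 325) (nat_lit 181)) (XT.lf (nat_lit 0) (nat_lit 172440503) (nat_lit 228) (nat_lit 25197618544) (nat_lit 76) (nat_lit 3888407484) (nat_lit 80) (nat_lit 5) (nat_lit 83) (nat_lit 5) (nat_lit 81) (nat_lit 5) (nat_lit 395) (nat_lit 325) (nat_lit 180))))) (XT.nd (nat_lit 234) (nat_lit 456) (nat_lit 0) (XT.nd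 (nat_lit 78) (nat_lit 228) (nat_lit 0) (XT.lf (nat_lit 0) (nat_lit 6588734131) (nat_lit 228) (nat_lit 9739434531) (nat_lit 76) (nat_lit 13517217896) (nat_lit 80) (nat_lit 5) (nat_lit 83) (nat_lit 5) (nat_lit 81) (nat_lit 5) (nat_lit 396) (nat_lit 325) (nat_lit 179)) (XT.nd (nat_lit 78) (nat_lit 0) (nat_lit 0) (XT.lf (nat_lit 0) (nat_lit 6292926247) (nat_lit 228) (nat_lit 6957582215) (nat_lit 304) (nat_lit 17197817698) (nat_lit 77) (nat_lit 5) (nat_lit 80) (nat_lit 5) (nat_lit 81) (nat_lit 5) (nat_lit 397) (nat_lit 325) (nat_lit 178)) (XT.lf (nat_lit 0) (nat_lit 20229911095) (nat_lit 304) (nat_lit 8099790297) (nat_lit 76) (nat_lit 2736120985) (nat_lit 77) (nat_lit 5) (nat_lit 81) (nat_lit 5) (nat_lit 78) (nat_lit 5) (nat_lit 398) (nat_lit 325) (nat_lit 177)))) (XT.nd (nat_lit 156) (nat_lit 228) (nat_lit 0) (XT.nd (nat_lit 78) (nat_lit 76) (nat_lit 0) (XT.lf (nat_lit 0) (nat_lit 8522851772) (nat_lit 152)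 (nat_lit 19039429285) (nat_lit 228) (nat_lit 4135256494) (nat_lit 75) (nat_lit 5) (nat_lit 77) (nat_lit 5) (nat_lit 78) (nat_lit 5) (nat_lit 399) (nat_lit 325) (nat_lit 176)) (XT.lf (nat_lit 0) (nat_lit 2787831986) (nat_lit 228) (nat_lit 6575028991) (nat_lit 76) (nat_lit 22982285063) (nat_lit 74) (nat_lit 5) (nat_lit 77) (nat_lit 5) (nat_lit 75) (nat_lit 5) (nat_lit 400) (nat_lit 325) (nat_lit 175))) (XT.nd (nat_lit 78) (nat_lit 0) (nat_lit 0) (XT.lf (nat_lit 0) (nat_lit 9938332060) (nat_lit 304) (nat_lit 22336956985) (nat_lit 76) (nat_lit 732581931) (nat_lit 71) (nat_lit 5) (nat_lit 75) (nat_lit 5) (nat_lit 72) (nat_lit 5) (nat_lit 401) (nat_lit 325) (nat_lit 174)) (XT.lf (nat_lit 0) (nat_lit 17456152567) (nat_lit 304) (nat_lit 5224611077) (nat_lit 76) (nat_lit 11005131301) (nat_lit 71) (nat_lit 5) (nat_lit 75) (nat_lit 5) (nat_lit 72) (nat_lit 5) (nat_lit 402) (nat_lit 325) (nat_lit 173)))))) (XT.nd (nat_lit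 546) (nat_lit 532) (nat_lit 0) (XT.nd (nat_lit 234) (nat_lit 380) (nat_lit 0) (XT.nd (nat_lit 78) (nat_lit 304) (nat_lit 0) (XT.lf (nat_lit 0) (nat_lit 12636243831) (nat_lit 152) (nat_lit 12677985107) (nat_lit 228) (nat_lit 9066590464) (nat_lit 69) (nat_lit 5) (nat_lit 71) (nat_lit 5) (nat_lit 72) (nat_lit 5) (nat_lit 403) (nat_lit 325) (nat_lit 172)) (XT.nd (nat_lit 78) (nat_lit 304) (nat_lit 0) (XT.lf (nat_lit 0) (nat_lit 31128695942) (nat_lit 152) (nat_lit 2325451526) (nat_lit 228) (nat_lit 1641062493) (nat_lit 69) (nat_lit 5) (nat_lit 71) (nat_lit 5) (nat_lit 72) (nat_lit 5) (nat_lit 404) (nat_lit 325) (nat_lit 171)) (XT.lf (nat_lit 0) (nat_lit 6105499642) (nat_lit 304) (nat_lit 21347222453) (nat_lit 76) (nat_lit 8370114344) (nat_lit 65) (nat_lit 5) (nat_lit 69) (nat_lit 5) (nat_lit 66) (nat_lit 5) (nat_lit 405) (nat_lit 325) (nat_lit 170)))) (XT.nd (nat_lit 156) (nat_lit 228) (nat_lit 0) (XT.nd (nat_lit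 78) (nat_lit 152) (nat_lit 0) (XT.lf (nat_lit 0) (nat_lit 14108460228) (nat_lit 304) (nat_lit 3069614288) (nat_lit 76) (nat_lit 19392021440) (nat_lit 65) (nat_lit 5) (nat_lit 69) (nat_lit 5) (nat_lit 66) (nat_lit 5) (nat_lit 406) (nat_lit 325) (nat_lit 169)) (XT.lf (nat_lit 0) (nat_lit 16058842652) (nat_lit 152) (nat_lit 6440733872) (nat_lit 228) (nat_lit 14835755942) (nat_lit 63) (nat_lit 5) (nat_lit 65) (nat_lit 5) (nat_lit 66) (nat_lit 5) (nat_lit 407) (nat_lit 325) (nat_lit 168))) (XT.nd (nat_lit 78) (nat_lit 228) (nat_lit 0) (XT.lf (nat_lit 0) (nat_lit 31211864640) (nat_lit 228) (nat_lit 2354107057) (nat_lit 76) (nat_lit 4555472401) (nat_lit 63) (nat_lit 5) (nat_lit 66) (nat_lit 5) (nat_lit 64) (nat_lit 5) (nat_lit 408) (nat_lit 325) (nat_lit 167)) (XT.lf (nat_lit 0) (nat_lit 1457090092) (nat_lit 228) (nat_lit 21537505951) (nat_lit 76) (nat_lit 15929366850) (nat_lit 60) (nat_lit 5) (nat_lit 63) (nat_lit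 5) (nat_lit 61) (nat_lit 5) (nat_lit 409) (nat_lit 325) (nat_lit 166))))) (XT.nd (nat_lit 234) (nat_lit 380) (nat_lit 0) (XT.nd (nat_lit 78) (nat_lit 152) (nat_lit 0) (XT.lf (nat_lit 0) (nat_lit 9953826016) (nat_lit 228) (nat_lit 2061580947) (nat_lit 76) (nat_lit 27732560758) (nat_lit 60) (nat_lit 5) (nat_lit 63) (nat_lit 5) (nat_lit 61) (nat_lit 5) (nat_lit 410) (nat_lit 325) (nat_lit 165)) (XT.nd (nat_lit 78) (nat_lit 0) (nat_lit 0) (XT.lf (nat_lit 0) (nat_lit 18346348883) (nat_lit 152) (nat_lit 529582880) (nat_lit 228) (nat_lit 21715647943) (nat_lit 58) (nat_lit 5) (nat_lit 60) (nat_lit 5) (nat_lit 61) (nat_lit 5) (nat_lit 411) (nat_lit 325) (nat_lit 164)) (XT.lf (nat_lit 0) (nat_lit 28189498284) (nat_lit 228) (nat_lit 2170244058) (nat_lit 76) (nat_lit 11097044798) (nat_lit 58) (nat_lit 5) (nat_lit 61) (nat_lit 5) (nat_lit 59) (nat_lit 5) (nat_lit 412) (nat_lit 325) (nat_lit 163)))) (XT.nd (nat_lit 156)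 (nat_lit 152) (nat_lit 0) (XT.nd (nat_lit 78) (nat_lit 76) (nat_lit 0) (XT.lf (nat_lit 0) (nat_lit 18859761999) (nat_lit 152) (nat_lit 19103558552) (nat_lit 228) (nat_lit 4379205771) (nat_lit 56) (nat_lit 5) (nat_lit 58) (nat_lit 5) (nat_lit 59) (nat_lit 5) (nat_lit 413) (nat_lit 325) (nat_lit 162)) (XT.lf (nat_lit 0) (nat_lit 4698792002) (nat_lit 228) (nat_lit 2745170808) (nat_lit 76) (nat_lit 35809004848) (nat_lit 55) (nat_lit 5) (nat_lit 58) (nat_lit 5) (nat_lit 56) (nat_lit 5) (nat_lit 414) (nat_lit 325) (nat_lit 161))) (XT.nd (nat_lit 78) (nat_lit 0) (nat_lit 0) (XT.lf (nat_lit 0) (nat_lit 14183655940) (nat_lit 228) (nat_lit 25299335415) (nat_lit 76) (nat_lit 4699754709) (nat_lit 53) (nat_lit 5) (nat_lit 56) (nat_lit 5) (nat_lit 54) (nat_lit 5) (nat_lit 415) (nat_lit 325) (nat_lit 160)) (XT.lf (nat_lit 0) (nat_lit 24049283930) (nat_lit 228) (nat_lit 4006201218) (nat_lit 76) (nat_lit 17082047006) (nat_lit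 53) (nat_lit 5) (nat_lit 56) (nat_lit 5) (nat_lit 54) (nat_lit 5) (nat_lit 416) (nat_lit 325) (nat_lit 159))))))) (XT.nd (nat_lit 1014) (nat_lit 836) (nat_lit 0) (XT.nd (nat_lit 468) (nat_lit 456) (nat_lit 0) (XT.nd (nat_lit 234) (nat_lit 152) (nat_lit 0) (XT.nd (nat_lit 78) (nat_lit 228) (nat_lit 0) (XT.lf (nat_lit 0) (nat_lit 18272818999) (nat_lit 152) (nat_lit 16108391106) (nat_lit 228) (nat_lit 11734642693) (nat_lit 51) (nat_lit 5) (nat_lit 53) (nat_lit 5) (nat_lit 54) (nat_lit 5) (nat_lit 417) (nat_lit 325) (nat_lit 158)) (XT.nd (nat_lit 78) (nat_lit 228) (nat_lit 0) (XT.lf (nat_lit 0) (nat_lit 41292949410) (nat_lit 152) (nat_lit 3765344021) (nat_lit 228) (nat_lit 2064174477) (nat_lit 51) (nat_lit 5) (nat_lit 53) (nat_lit 5) (nat_lit 54) (nat_lit 5) (nat_lit 418) (nat_lit 325) (nat_lit 157)) (XT.lf (nat_lit 0) (nat_lit 7989826385) (nat_lit 228) (nat_lit 31147757295) (nat_lit 76) (nat_lit 9011996237)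 (nat_lit 48) (nat_lit 5) (nat_lit 51) (nat_lit 5) (nat_lit 49) (nat_lit 5) (nat_lit 419) (nat_lit 325) (nat_lit 156)))) (XT.nd (nat_lit 78) (nat_lit 152) (nat_lit 0) (XT.lf (nat_lit 0) (nat_lit 18395559590) (nat_lit 228) (nat_lit 8635674791) (nat_lit 76) (nat_lit 22172910533) (nat_lit 48) (nat_lit 5) (nat_lit 51) (nat_lit 5) (nat_lit 49) (nat_lit 5) (nat_lit 420) (nat_lit 325) (nat_lit 155)) (XT.nd (nat_lit 78) (nat_lit 0) (nat_lit 0) (XT.lf (nat_lit 0) (nat_lit 14832231461) (nat_lit 152) (nat_lit 14418829230) (nat_lit 228) (nat_lit 21035159029) (nat_lit 46) (nat_lit 5) (nat_lit 48) (nat_lit 5) (nat_lit 49) (nat_lit 5) (nat_lit 421) (nat_lit 325) (nat_lit 154)) (XT.lf (nat_lit 0) (nat_lit 39172316715) (nat_lit 152) (nat_lit 1342192607) (nat_lit 228) (nat_lit 10883779685) (nat_lit 46) (nat_lit 5) (nat_lit 48) (nat_lit 5) (nat_lit 49) (nat_lit 5) (nat_lit 422) (nat_lit 325) (nat_lit 153))))) (XT.nd (nat_lit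 234) (nat_lit 152) (nat_lit 0) (XT.nd (nat_lit 78) (nat_lit 228) (nat_lit 0) (XT.lf (nat_lit 0) (nat_lit 11803922074) (nat_lit 76) (nat_lit 40537161013) (nat_lit 152) (nat_lit 195881327) (nat_lit 45) (nat_lit 5) (nat_lit 46) (nat_lit 5) (nat_lit 47) (nat_lit 4) (nat_lit 423) (nat_lit 325) (nat_lit 152)) (XT.nd (nat_lit 78) (nat_lit 152) (nat_lit 0) (XT.lf (nat_lit 0) (nat_lit 10734824758) (nat_lit 152) (nat_lit 17027951999) (nat_lit 76) (nat_lit 25939910906) (nat_lit 44) (nat_lit 5) (nat_lit 46) (nat_lit 5) (nat_lit 45) (nat_lit 5) (nat_lit 424) (nat_lit 325) (nat_lit 151)) (XT.lf (nat_lit 0) (nat_lit 7524700059) (nat_lit 152) (nat_lit 14532481780) (nat_lit 228) (nat_lit 32844113215) (nat_lit 42) (nat_lit 5) (nat_lit 44) (nat_lit 5) (nat_lit 45) (nat_lit 5) (nat_lit 425) (nat_lit 325) (nat_lit 150)))) (XT.nd (nat_lit 156) (nat_lit 76) (nat_lit 0) (XT.nd (nat_lit 78) (nat_lit 76) (nat_lit 0) (XT.lf (nat_lit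 0) (nat_lit 33154585618) (nat_lit 152) (nat_lit 731962868) (nat_lit 228) (nat_lit 22244292630) (nat_lit 42) (nat_lit 5) (nat_lit 44) (nat_lit 5) (nat_lit 45) (nat_lit 5) (nat_lit 426) (nat_lit 325) (nat_lit 149)) (XT.lf (nat_lit 0) (nat_lit 2058401144) (nat_lit 76) (nat_lit 44157273131) (nat_lit 152) (nat_lit 11177253537) (nat_lit 41) (nat_lit 5) (nat_lit 42) (nat_lit 5) (nat_lit 43) (nat_lit 4) (nat_lit 427) (nat_lit 325) (nat_lit 148))) (XT.nd (nat_lit 78) (nat_lit 0) (nat_lit 0) (XT.lf (nat_lit 0) (nat_lit 454525037) (nat_lit 152) (nat_lit 30390771203) (nat_lit 76) (nat_lit 27840405780) (nat_lit 40) (nat_lit 5) (nat_lit 42) (nat_lit 5) (nat_lit 41) (nat_lit 5) (nat_lit 428) (nat_lit 325) (nat_lit 147)) (XT.lf (nat_lit 0) (nat_lit 12206233293) (nat_lit 152) (nat_lit 4817394545) (nat_lit 76) (nat_lit 42990443344) (nat_lit 40) (nat_lit 5) (nat_lit 42) (nat_lit 5) (nat_lit 41) (nat_lit 5) (nat_lit 429) (nat_lit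 325) (nat_lit 146)))))) (XT.nd (nat_lit 546) (nat_lit 380) (nat_lit 0) (XT.nd (nat_lit 234) (nat_lit 228) (nat_lit 0) (XT.nd (nat_lit 78) (nat_lit 76) (nat_lit 0) (XT.lf (nat_lit 0) (nat_lit 21943590051) (nat_lit 152) (nat_lit 2573593349) (nat_lit 228) (nat_lit 36858907831) (nat_lit 38) (nat_lit 5) (nat_lit 40) (nat_lit 5) (nat_lit 41) (nat_lit 5) (nat_lit 430) (nat_lit 325) (nat_lit 145)) (XT.nd (nat_lit 78) (nat_lit 76) (nat_lit 0) (XT.lf (nat_lit 0) (nat_lit 37360691607) (nat_lit 228) (nat_lit 13297976764) (nat_lit 76) (nat_lit 12115407137) (nat_lit 38) (nat_lit 5) (nat_lit 41) (nat_lit 5) (nat_lit 39) (nat_lit 4) (nat_lit 431) (nat_lit 325) (nat_lit 144)) (XT.lf (nat_lit 0) (nat_lit 13857940023) (nat_lit 76) (nat_lit 36886151346) (nat_lit 152) (nat_lit 13465270855) (nat_lit 37) (nat_lit 5) (nat_lit 38) (nat_lit 5) (nat_lit 39) (nat_lit 4) (nat_lit 432) (nat_lit 325) (nat_lit 143)))) (XT.nd (nat_lit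 156) (nat_lit 0) (nat_lit 0) (XT.nd (nat_lit 78) (nat_lit 228) (nat_lit 0) (XT.lf (nat_lit 0) (nat_lit 42093623558) (nat_lit 76) (nat_lit 22565594681) (nat_lit 152) (nat_lit 1024583035) (nat_lit 37) (nat_lit 5) (nat_lit 38) (nat_lit 5) (nat_lit 39) (nat_lit 4) (nat_lit 433) (nat_lit 325) (nat_lit 142)) (XT.lf (nat_lit 0) (nat_lit 3929897067) (nat_lit 152) (nat_lit 7663173079) (nat_lit 228) (nat_lit 55604990112) (nat_lit 34) (nat_lit 5) (nat_lit 36) (nat_lit 5) (nat_lit 37) (nat_lit 5) (nat_lit 434) (nat_lit 325) (nat_lit 141))) (XT.nd (nat_lit 78) (nat_lit 0) (nat_lit 0) (XT.lf (nat_lit 0) (nat_lit 24879152372) (nat_lit 228) (nat_lit 36085220730) (nat_lit 76) (nat_lit 7783755245) (nat_lit 34) (nat_lit 5) (nat_lit 37) (nat_lit 5) (nat_lit 35) (nat_lit 4) (nat_lit 435) (nat_lit 325) (nat_lit 140)) (XT.lf (nat_lit 0) (nat_lit 38635839418) (nat_lit 228) (nat_lit 8169829207) (nat_lit 76) (nat_lit 23536869616)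 (nat_lit 34) (nat_lit 5) (nat_lit 37) (nat_lit 5) (nat_lit 35) (nat_lit 4) (nat_lit 436) (nat_lit 325) (nat_lit 139))))) (XT.nd (nat_lit 312) (nat_lit 76) (nat_lit 0) (XT.nd (nat_lit 78) (nat_lit 228) (nat_lit 0) (XT.lf (nat_lit 0) (nat_lit 20985570646) (nat_lit 76) (nat_lit 32017644077) (nat_lit 152) (nat_lit 18975626496) (nat_lit 33) (nat_lit 5) (nat_lit 34) (nat_lit 5) (nat_lit 35) (nat_lit 4) (nat_lit 437) (nat_lit 325) (nat_lit 138)) (XT.nd (nat_lit 78) (nat_lit 228) (nat_lit 0) (XT.lf (nat_lit 0) (nat_lit 51176216710) (nat_lit 76) (nat_lit 16704198005) (nat_lit 152) (nat_lit 5781454876) (nat_lit 33) (nat_lit 5) (nat_lit 34) (nat_lit 5) (nat_lit 35) (nat_lit 4) (nat_lit 438) (nat_lit 325) (nat_lit 137)) (XT.lf (nat_lit 0) (nat_lit 6930612954) (nat_lit 152) (nat_lit 788553354) (nat_lit 228) (nat_lit 67672081158) (nat_lit 30) (nat_lit 5) (nat_lit 32) (nat_lit 5) (nat_lit 33) (nat_lit 5) (nat_lit 439)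 (nat_lit 325) (nat_lit 136)))) (XT.nd (nat_lit 37908) (nat_lit 0) (nat_lit 18088) (XT.nd (nat_lit 78) (nat_lit 76) (nat_lit 0) (XT.lf (nat_lit 0) (nat_lit 36478690659) (nat_lit 228) (nat_lit 10073994904) (nat_lit 76) (nat_lit 32428024236) (nat_lit 30) (nat_lit 5) (nat_lit 33) (nat_lit 5) (nat_lit 31) (nat_lit 4) (nat_lit 441) (nat_lit 325) (nat_lit 134)) (XT.lf (nat_lit 0) (nat_lit 20832327697) (nat_lit 76) (nat_lit 30875431436) (nat_lit 152) (nat_lit 29142872234) (nat_lit 29) (nat_lit 5) (nat_lit 30) (nat_lit 5) (nat_lit 31) (nat_lit 4) (nat_lit 442) (nat_lit 325) (nat_lit 133))) (XT.nd (nat_lit 78) (nat_lit 0) (nat_lit 0) (XT.lf (nat_lit 0) (nat_lit 303332546) (nat_lit 1140) (nat_lit 2185599176) (nat_lit 1140) (nat_lit 2185599176) (nat_lit 267) (nat_lit 3) (nat_lit 282) (nat_lit 3) (nat_lit 282) (nat_lit 5) (nat_lit 326) (nat_lit 326) (nat_lit 248)) (XT.lf (nat_lit 76) (nat_lit 112528622) (nat_lit 0)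 (nat_lit 1312002557) (nat_lit 1140) (nat_lit 8040045713) (nat_lit 268) (nat_lit 5) (nat_lit 267) (nat_lit 3) (nat_lit 282) (nat_lit 5) (nat_lit 327) (nat_lit 326) (nat_lit 247))))))))
noncomputable def xc168 : XT := (XT.nd (nat_lit 2028) (nat_lit 6232) (nat_lit 0) (XT.nd (nat_lit 1014) (nat_lit 4636) (nat_lit 0) (XT.nd (nat_lit 468) (nat_lit 912) (nat_lit 0) (XT.nd (nat_lit 234) (nat_lit 0) (nat_lit 76) (XT.nd (nat_lit 78) (nat_lit 0) (nat_lit 0) (XT.lf (nat_lit 0) (nat_lit 2303659088) (nat_lit 1064) (nat_lit 4803660896) (nat_lit 1140) (nat_lit 2475153550) (nat_lit 268) (nat_lit 5) (nat_lit 282) (nat_lit 5) (nat_lit 283) (nat_lit 5) (nat_lit 328) (nat_lit 326) (nat_lit 246)) (XT.nd (nat_lit 78) (nat_lit 0) (nat_lit 76) (XT.lf (nat_lit 0) (nat_lit 3191533861) (nat_lit 1064) (nat_lit 148976532) (nat_lit 1140) (nat_lit 6363942840) (nat_lit 268) (nat_lit 5) (nat_lit 282) (nat_lit 5) (nat_lit 283) (nat_lit 5)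 (nat_lit 329) (nat_lit 326) (nat_lit 245)) (XT.lf (nat_lit 0) (nat_lit 4127457755) (nat_lit 1064) (nat_lit 5114594835) (nat_lit 1140) (nat_lit 587414189) (nat_lit 269) (nat_lit 5) (nat_lit 283) (nat_lit 5) (nat_lit 284) (nat_lit 5) (nat_lit 330) (nat_lit 326) (nat_lit 244)))) (XT.nd (nat_lit 78) (nat_lit 0) (nat_lit 0) (XT.lf (nat_lit 0) (nat_lit 5097155143) (nat_lit 1064) (nat_lit 281093516) (nat_lit 1140) (nat_lit 4579827553) (nat_lit 269) (nat_lit 5) (nat_lit 283) (nat_lit 5) (nat_lit 284) (nat_lit 5) (nat_lit 331) (nat_lit 326) (nat_lit 243)) (XT.nd (nat_lit 78) (nat_lit 0) (nat_lit 76) (XT.lf (nat_lit 76) (nat_lit 4773563810) (nat_lit 0) (nat_lit 1340209893) (nat_lit 1140) (nat_lit 3976251191) (nat_lit 270) (nat_lit 5) (nat_lit 269) (nat_lit 5) (nat_lit 284) (nat_lit 5) (nat_lit 332) (nat_lit 326) (nat_lit 242)) (XT.lf (nat_lit 0) (nat_lit 7163555886) (nat_lit 1064) (nat_lit 285120491) (nat_lit 1140)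 (nat_lit 2777191123) (nat_lit 270) (nat_lit 5) (nat_lit 284) (nat_lit 5) (nat_lit 285) (nat_lit 5) (nat_lit 333) (nat_lit 326) (nat_lit 241))))) (XT.nd (nat_lit 234) (nat_lit 1064) (nat_lit 0) (XT.nd (nat_lit 78) (nat_lit 0) (nat_lit 76) (XT.lf (nat_lit 76) (nat_lit 4963493307) (nat_lit 0) (nat_lit 3315815690) (nat_lit 1140) (nat_lit 2085457025) (nat_lit 271) (nat_lit 5) (nat_lit 270) (nat_lit 5) (nat_lit 285) (nat_lit 5) (nat_lit 334) (nat_lit 326) (nat_lit 240)) (XT.nd (nat_lit 78) (nat_lit 0) (nat_lit 0) (XT.lf (nat_lit 0) (nat_lit 9414676507) (nat_lit 1064) (nat_lit 159369405) (nat_lit 1140) (nat_lit 934215864) (nat_lit 271) (nat_lit 5) (nat_lit 285) (nat_lit 5) (nat_lit 286) (nat_lit 5) (nat_lit 335) (nat_lit 326) (nat_lit 239)) (XT.lf (nat_lit 76) (nat_lit 5292805745) (nat_lit 0) (nat_lit 5349947012) (nat_lit 1140) (nat_lit 11564322) (nat_lit 272) (nat_lit 5) (nat_lit 271) (nat_lit 5) (nat_lit 286)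 (nat_lit 5) (nat_lit 336) (nat_lit 326) (nat_lit 238)))) (XT.nd (nat_lit 156) (nat_lit 0) (nat_lit 76) (XT.nd (nat_lit 78) (nat_lit 0) (nat_lit 76) (XT.lf (nat_lit 76) (nat_lit 80284029) (nat_lit 0) (nat_lit 978756462) (nat_lit 1216) (nat_lit 9746079432) (nat_lit 257) (nat_lit 5) (nat_lit 256) (nat_lit 5) (nat_lit 272) (nat_lit 5) (nat_lit 337) (nat_lit 326) (nat_lit 237)) (XT.lf (nat_lit 0) (nat_lit 2225941891) (nat_lit 1140) (nat_lit 5216505105) (nat_lit 1216) (nat_lit 3516077004) (nat_lit 257) (nat_lit 5) (nat_lit 272) (nat_lit 5) (nat_lit 273) (nat_lit 5) (nat_lit 338) (nat_lit 326) (nat_lit 236))) (XT.nd (nat_lit 78) (nat_lit 0) (nat_lit 76) (XT.lf (nat_lit 76) (nat_lit 438068981) (nat_lit 0) (nat_lit 2980249371) (nat_lit 1216) (nat_lit 7698510339) (nat_lit 258) (nat_lit 5) (nat_lit 257) (nat_lit 5) (nat_lit 273) (nat_lit 5) (nat_lit 339) (nat_lit 326) (nat_lit 235)) (XT.lf (nat_lit 0) (nat_lit 4692325488)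 (nat_lit 1140) (nat_lit 4943581669) (nat_lit 1216) (nat_lit 1642611753) (nat_lit 258) (nat_lit 5) (nat_lit 273) (nat_lit 5) (nat_lit 274) (nat_lit 5) (nat_lit 340) (nat_lit 326) (nat_lit 234)))))) (XT.nd (nat_lit 468) (nat_lit 2432) (nat_lit 0) (XT.nd (nat_lit 234) (nat_lit 1292) (nat_lit 0) (XT.nd (nat_lit 78) (nat_lit 1064) (nat_lit 0) (XT.lf (nat_lit 76) (nat_lit 934477146) (nat_lit 0) (nat_lit 5086361178) (nat_lit 1216) (nat_lit 5423744760) (nat_lit 259) (nat_lit 5) (nat_lit 258) (nat_lit 5) (nat_lit 274) (nat_lit 5) (nat_lit 341) (nat_lit 326) (nat_lit 233)) (XT.nd (nat_lit 78) (nat_lit 1064) (nat_lit 0) (XT.lf (nat_lit 76) (nat_lit 7072489654) (nat_lit 0) (nat_lit 344909016) (nat_lit 1216) (nat_lit 4197396219) (nat_lit 259) (nat_lit 5) (nat_lit 258) (nat_lit 5) (nat_lit 274) (nat_lit 5) (nat_lit 342) (nat_lit 326) (nat_lit 232)) (XT.lf (nat_lit 0) (nat_lit 1573717097) (nat_lit 1140) (nat_lit 7319837708)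 (nat_lit 1216) (nat_lit 2895438407) (nat_lit 244) (nat_lit 5) (nat_lit 259) (nat_lit 5) (nat_lit 260) (nat_lit 5) (nat_lit 343) (nat_lit 326) (nat_lit 231)))) (XT.nd (nat_lit 78) (nat_lit 1292) (nat_lit 0) (XT.lf (nat_lit 0) (nat_lit 7945133721) (nat_lit 1140) (nat_lit 2497496639) (nat_lit 1216) (nat_lit 1524938895) (nat_lit 244) (nat_lit 5) (nat_lit 259) (nat_lit 5) (nat_lit 260) (nat_lit 5) (nat_lit 344) (nat_lit 326) (nat_lit 230)) (XT.nd (nat_lit 78) (nat_lit 76) (nat_lit 0) (XT.lf (nat_lit 0) (nat_lit 2360678866) (nat_lit 1216) (nat_lit 9703942481) (nat_lit 1292) (nat_lit 86098432) (nat_lit 228) (nat_lit 5) (nat_lit 244) (nat_lit 5) (nat_lit 245) (nat_lit 5) (nat_lit 345) (nat_lit 326) (nat_lit 229)) (XT.lf (nat_lit 0) (nat_lit 1414637590) (nat_lit 1292) (nat_lit 3377018653) (nat_lit 76) (nat_lit 7545936835) (nat_lit 227) (nat_lit 5) (nat_lit 244) (nat_lit 5) (nat_lit 228) (nat_lit 5) (nat_lit 346)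 (nat_lit 326) (nat_lit 228))))) (XT.nd (nat_lit 234) (nat_lit 1216) (nat_lit 0) (XT.nd (nat_lit 78) (nat_lit 608) (nat_lit 0) (XT.lf (nat_lit 0) (nat_lit 2973845022) (nat_lit 684) (nat_lit 9258714312) (nat_lit 76) (nat_lit 297041879) (nat_lit 219) (nat_lit 5) (nat_lit 228) (nat_lit 5) (nat_lit 220) (nat_lit 5) (nat_lit 347) (nat_lit 326) (nat_lit 227)) (XT.nd (nat_lit 78) (nat_lit 608) (nat_lit 0) (XT.lf (nat_lit 0) (nat_lit 4642912979) (nat_lit 684) (nat_lit 2604627360) (nat_lit 76) (nat_lit 5477946049) (nat_lit 219) (nat_lit 5) (nat_lit 228) (nat_lit 5) (nat_lit 220) (nat_lit 5) (nat_lit 348) (nat_lit 326) (nat_lit 226)) (XT.lf (nat_lit 0) (nat_lit 4315867084) (nat_lit 608) (nat_lit 2069423380) (nat_lit 684) (nat_lit 6541269583) (nat_lit 211) (nat_lit 5) (nat_lit 219) (nat_lit 5) (nat_lit 220) (nat_lit 5) (nat_lit 349) (nat_lit 326) (nat_lit 225)))) (XT.nd (nat_lit 156) (nat_lit 608) (nat_lit 0) (XT.nd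 (nat_lit 78) (nat_lit 608) (nat_lit 0) (XT.lf (nat_lit 0) (nat_lit 8219999541) (nat_lit 684) (nat_lit 1684958120) (nat_lit 76) (nat_lit 3227515238) (nat_lit 211) (nat_lit 5) (nat_lit 220) (nat_lit 5) (nat_lit 212) (nat_lit 5) (nat_lit 350) (nat_lit 326) (nat_lit 224)) (XT.lf (nat_lit 0) (nat_lit 5518449510) (nat_lit 608) (nat_lit 4647479446) (nat_lit 684) (nat_lit 3176957341) (nat_lit 203) (nat_lit 5) (nat_lit 211) (nat_lit 5) (nat_lit 212) (nat_lit 5) (nat_lit 351) (nat_lit 326) (nat_lit 223))) (XT.nd (nat_lit 78) (nat_lit 608) (nat_lit 0) (XT.lf (nat_lit 0) (nat_lit 12177782206) (nat_lit 684) (nat_lit 611793489) (nat_lit 76) (nat_lit 769818310) (nat_lit 203) (nat_lit 5) (nat_lit 212) (nat_lit 5) (nat_lit 204) (nat_lit 5) (nat_lit 352) (nat_lit 326) (nat_lit 222)) (XT.lf (nat_lit 0) (nat_lit 555119102) (nat_lit 608) (nat_lit 6896471075) (nat_lit 76) (nat_lit 6327780249) (nat_lit 195) (nat_lit 5) (nat_lit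 203) (nat_lit 5) (nat_lit 196) (nat_lit 5) (nat_lit 353) (nat_lit 326) (nat_lit 221))))))) (XT.nd (nat_lit 1014) (nat_lit 2812) (nat_lit 0) (XT.nd (nat_lit 468) (nat_lit 1900) (nat_lit 0) (XT.nd (nat_lit 234) (nat_lit 532) (nat_lit 0) (XT.nd (nat_lit 78) (nat_lit 456) (nat_lit 0) (XT.lf (nat_lit 0) (nat_lit 589685223) (nat_lit 532) (nat_lit 1928033791) (nat_lit 608) (nat_lit 11487958246) (nat_lit 188) (nat_lit 5) (nat_lit 195) (nat_lit 5) (nat_lit 196) (nat_lit 5) (nat_lit 354) (nat_lit 326) (nat_lit 220)) (XT.nd (nat_lit 78) (nat_lit 456) (nat_lit 0) (XT.lf (nat_lit 0) (nat_lit 4629613101) (nat_lit 608) (nat_lit 5849335564) (nat_lit 76) (nat_lit 3757119509) (nat_lit 188) (nat_lit 5) (nat_lit 196) (nat_lit 5) (nat_lit 189) (nat_lit 5) (nat_lit 355) (nat_lit 326) (nat_lit 219)) (XT.lf (nat_lit 0) (nat_lit 1946115774) (nat_lit 456) (nat_lit 4880943567) (nat_lit 532) (nat_lit 7645652764) (nat_lit 182) (nat_lit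 5) (nat_lit 188) (nat_lit 5) (nat_lit 189) (nat_lit 5) (nat_lit 356) (nat_lit 326) (nat_lit 218)))) (XT.nd (nat_lit 78) (nat_lit 532) (nat_lit 0) (XT.lf (nat_lit 0) (nat_lit 9143262634) (nat_lit 532) (nat_lit 4645813315) (nat_lit 76) (nat_lit 925801332) (nat_lit 182) (nat_lit 5) (nat_lit 189) (nat_lit 5) (nat_lit 183) (nat_lit 5) (nat_lit 357) (nat_lit 326) (nat_lit 217)) (XT.nd (nat_lit 78) (nat_lit 0) (nat_lit 0) (XT.lf (nat_lit 0) (nat_lit 3473988830) (nat_lit 532) (nat_lit 8121804685) (nat_lit 608) (nat_lit 3366515390) (nat_lit 175) (nat_lit 5) (nat_lit 182) (nat_lit 5) (nat_lit 183) (nat_lit 5) (nat_lit 358) (nat_lit 326) (nat_lit 216)) (XT.lf (nat_lit 0) (nat_lit 11915916813) (nat_lit 532) (nat_lit 2238291131) (nat_lit 608) (nat_lit 1061992845) (nat_lit 175) (nat_lit 5) (nat_lit 182) (nat_lit 5) (nat_lit 183) (nat_lit 5) (nat_lit 359) (nat_lit 326) (nat_lit 215))))) (XT.nd (nat_lit 234) (nat_lit 912)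 (nat_lit 0) (XT.nd (nat_lit 78) (nat_lit 456) (nat_lit 0) (XT.lf (nat_lit 0) (nat_lit 1359120923) (nat_lit 532) (nat_lit 10307739891) (nat_lit 76) (nat_lit 3808284999) (nat_lit 168) (nat_lit 5) (nat_lit 175) (nat_lit 5) (nat_lit 169) (nat_lit 5) (nat_lit 360) (nat_lit 326) (nat_lit 214)) (XT.nd (nat_lit 78) (nat_lit 456) (nat_lit 0) (XT.lf (nat_lit 0) (nat_lit 3873251832) (nat_lit 532) (nat_lit 1833838246) (nat_lit 76) (nat_lit 10033207793) (nat_lit 168) (nat_lit 5) (nat_lit 175) (nat_lit 5) (nat_lit 169) (nat_lit 5) (nat_lit 361) (nat_lit 326) (nat_lit 213)) (XT.lf (nat_lit 0) (nat_lit 6521350005) (nat_lit 532) (nat_lit 9001685616) (nat_lit 76) (nat_lit 488618378) (nat_lit 162) (nat_lit 5) (nat_lit 169) (nat_lit 5) (nat_lit 163) (nat_lit 5) (nat_lit 362) (nat_lit 326) (nat_lit 212)))) (XT.nd (nat_lit 156) (nat_lit 532) (nat_lit 0) (XT.nd (nat_lit 78) (nat_lit 380) (nat_lit 0) (XT.lf (nat_lit 0) (nat_lit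 9310637850) (nat_lit 532) (nat_lit 207090929) (nat_lit 76) (nat_lit 6771575272) (nat_lit 162) (nat_lit 5) (nat_lit 169) (nat_lit 5) (nat_lit 163) (nat_lit 5) (nat_lit 363) (nat_lit 326) (nat_lit 211)) (XT.lf (nat_lit 0) (nat_lit 9011174723) (nat_lit 380) (nat_lit 3245981952) (nat_lit 456) (nat_lit 4315925837) (nat_lit 157) (nat_lit 5) (nat_lit 162) (nat_lit 5) (nat_lit 163) (nat_lit 5) (nat_lit 364) (nat_lit 326) (nat_lit 210))) (XT.nd (nat_lit 78) (nat_lit 76) (nat_lit 0) (XT.lf (nat_lit 0) (nat_lit 1629594317) (nat_lit 456) (nat_lit 13698278225) (nat_lit 532) (nat_lit 1536433060) (nat_lit 151) (nat_lit 5) (nat_lit 157) (nat_lit 5) (nat_lit 158) (nat_lit 5) (nat_lit 365) (nat_lit 326) (nat_lit 209)) (XT.lf (nat_lit 0) (nat_lit 1397036694) (nat_lit 532) (nat_lit 5972078869) (nat_lit 76) (nat_lit 9791878040) (nat_lit 150) (nat_lit 5) (nat_lit 157) (nat_lit 5) (nat_lit 151) (nat_lit 5) (nat_lit 366) (nat_lit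 326) (nat_lit 208)))))) (XT.nd (nat_lit 546) (nat_lit 1292) (nat_lit 0) (XT.nd (nat_lit 234) (nat_lit 760) (nat_lit 0) (XT.nd (nat_lit 78) (nat_lit 380) (nat_lit 0) (XT.lf (nat_lit 0) (nat_lit 3607783882) (nat_lit 380) (nat_lit 802119291) (nat_lit 456) (nat_lit 13055559368) (nat_lit 145) (nat_lit 5) (nat_lit 150) (nat_lit 5) (nat_lit 151) (nat_lit 5) (nat_lit 367) (nat_lit 326) (nat_lit 207)) (XT.nd (nat_lit 78) (nat_lit 380) (nat_lit 0) (XT.lf (nat_lit 0) (nat_lit 7619138627) (nat_lit 456) (nat_lit 4253717600) (nat_lit 76) (nat_lit 5903034555) (nat_lit 145) (nat_lit 5) (nat_lit 151) (nat_lit 5) (nat_lit 146) (nat_lit 5) (nat_lit 368) (nat_lit 326) (nat_lit 206)) (XT.lf (nat_lit 0) (nat_lit 5726614850) (nat_lit 380) (nat_lit 5249152300) (nat_lit 456) (nat_lit 7118335829) (nat_lit 140) (nat_lit 5) (nat_lit 145) (nat_lit 5) (nat_lit 146) (nat_lit 5) (nat_lit 369) (nat_lit 326) (nat_lit 205)))) (XT.nd (nat_lit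 156) (nat_lit 456) (nat_lit 0) (XT.nd (nat_lit 78) (nat_lit 304) (nat_lit 0) (XT.lf (nat_lit 0) (nat_lit 14479885687) (nat_lit 456) (nat_lit 2358286049) (nat_lit 76) (nat_lit 1582290525) (nat_lit 140) (nat_lit 5) (nat_lit 146) (nat_lit 5) (nat_lit 141) (nat_lit 5) (nat_lit 370) (nat_lit 326) (nat_lit 204)) (XT.lf (nat_lit 0) (nat_lit 8040865374) (nat_lit 304) (nat_lit 10166157537) (nat_lit 380) (nat_lit 546056880) (nat_lit 136) (nat_lit 5) (nat_lit 140) (nat_lit 5) (nat_lit 141) (nat_lit 5) (nat_lit 371) (nat_lit 326) (nat_lit 203))) (XT.nd (nat_lit 78) (nat_lit 380) (nat_lit 0) (XT.lf (nat_lit 0) (nat_lit 2905477975) (nat_lit 380) (nat_lit 338563885) (nat_lit 76) (nat_lit 15850404745) (nat_lit 135) (nat_lit 5) (nat_lit 140) (nat_lit 5) (nat_lit 136) (nat_lit 5) (nat_lit 372) (nat_lit 326) (nat_lit 202)) (XT.lf (nat_lit 0) (nat_lit 6578218934) (nat_lit 456) (nat_lit 8950054923) (nat_lit 76) (nat_lit 3913763271)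 (nat_lit 130) (nat_lit 5) (nat_lit 136) (nat_lit 5) (nat_lit 131) (nat_lit 5) (nat_lit 373) (nat_lit 326) (nat_lit 201))))) (XT.nd (nat_lit 234) (nat_lit 684) (nat_lit 0) (XT.nd (nat_lit 78) (nat_lit 304) (nat_lit 0) (XT.lf (nat_lit 0) (nat_lit 1843209419) (nat_lit 304) (nat_lit 8560392182) (nat_lit 380) (nat_lit 9395183823) (nat_lit 126) (nat_lit 5) (nat_lit 130) (nat_lit 5) (nat_lit 131) (nat_lit 5) (nat_lit 374) (nat_lit 326) (nat_lit 200)) (XT.nd (nat_lit 78) (nat_lit 304) (nat_lit 0) (XT.lf (nat_lit 0) (nat_lit 13128849202) (nat_lit 304) (nat_lit 1294616388) (nat_lit 380) (nat_lit 5740382714) (nat_lit 126) (nat_lit 5) (nat_lit 130) (nat_lit 5) (nat_lit 131) (nat_lit 5) (nat_lit 375) (nat_lit 326) (nat_lit 199)) (XT.lf (nat_lit 0) (nat_lit 4221344292) (nat_lit 304) (nat_lit 14432265855) (nat_lit 380) (nat_lit 1883566005) (nat_lit 122) (nat_lit 5) (nat_lit 126) (nat_lit 5) (nat_lit 127) (nat_lit 5) (nat_lit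 376) (nat_lit 326) (nat_lit 198)))) (XT.nd (nat_lit 156) (nat_lit 304) (nat_lit 0) (XT.nd (nat_lit 78) (nat_lit 304) (nat_lit 0) (XT.lf (nat_lit 0) (nat_lit 2122423629) (nat_lit 380) (nat_lit 5008381024) (nat_lit 76) (nat_lit 13788073244) (nat_lit 121) (nat_lit 5) (nat_lit 126) (nat_lit 5) (nat_lit 122) (nat_lit 5) (nat_lit 377) (nat_lit 326) (nat_lit 197)) (XT.lf (nat_lit 0) (nat_lit 6269994238) (nat_lit 380) (nat_lit 14577625007) (nat_lit 76) (nat_lit 462077514) (nat_lit 117) (nat_lit 5) (nat_lit 122) (nat_lit 5) (nat_lit 118) (nat_lit 5) (nat_lit 378) (nat_lit 326) (nat_lit 196))) (XT.nd (nat_lit 78) (nat_lit 304) (nat_lit 0) (XT.lf (nat_lit 0) (nat_lit 10653754399) (nat_lit 380) (nat_lit 2868901829) (nat_lit 76) (nat_lit 8186234303) (nat_lit 117) (nat_lit 5) (nat_lit 122) (nat_lit 5) (nat_lit 118) (nat_lit 5) (nat_lit 379) (nat_lit 326) (nat_lit 195)) (XT.lf (nat_lit 0) (nat_lit 9359664455) (nat_lit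 304) (nat_lit 5889707359) (nat_lit 380) (nat_lit 6868281094) (nat_lit 113) (nat_lit 5) (nat_lit 117) (nat_lit 5) (nat_lit 118) (nat_lit 5) (nat_lit 380) (nat_lit 326) (nat_lit 194))))))))
noncomputable def xc169 : XT := (XT.nd (nat_lit 2106) (nat_lit 2128) (nat_lit 0) (XT.nd (nat_lit 1014) (nat_lit 1596) (nat_lit 0) (XT.nd (nat_lit 468) (nat_lit 1140) (nat_lit 0) (XT.nd (nat_lit 234) (nat_lit 228) (nat_lit 0) (XT.nd (nat_lit 78) (nat_lit 684) (nat_lit 0) (XT.lf (nat_lit 0) (nat_lit 20021550640) (nat_lit 380) (nat_lit 557323007) (nat_lit 76) (nat_lit 1958646755) (nat_lit 113) (nat_lit 5) (nat_lit 118) (nat_lit 5) (nat_lit 114) (nat_lit 5) (nat_lit 381) (nat_lit 326) (nat_lit 193)) (XT.nd (nat_lit 78) (nat_lit 304) (nat_lit 0) (XT.lf (nat_lit 0) (nat_lit 2096272153) (nat_lit 380) (nat_lit 10810685117) (nat_lit 76) (nat_lit 10057430012) (nat_lit 108) (nat_lit 5) (nat_lit 113) (nat_lit 5) (nat_lit 109) (nat_lit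 5) (nat_lit 382) (nat_lit 326) (nat_lit 192)) (XT.lf (nat_lit 0) (nat_lit 1850938838) (nat_lit 304) (nat_lit 4959650173) (nat_lit 380) (nat_lit 16592298329) (nat_lit 104) (nat_lit 5) (nat_lit 108) (nat_lit 5) (nat_lit 109) (nat_lit 5) (nat_lit 383) (nat_lit 326) (nat_lit 191)))) (XT.nd (nat_lit 78) (nat_lit 228) (nat_lit 0) (XT.lf (nat_lit 0) (nat_lit 11798486494) (nat_lit 380) (nat_lit 8783238958) (nat_lit 76) (nat_lit 3268855110) (nat_lit 104) (nat_lit 5) (nat_lit 109) (nat_lit 5) (nat_lit 105) (nat_lit 5) (nat_lit 384) (nat_lit 326) (nat_lit 190)) (XT.nd (nat_lit 78) (nat_lit 0) (nat_lit 0) (XT.lf (nat_lit 0) (nat_lit 4391628110) (nat_lit 228) (nat_lit 12626871039) (nat_lit 304) (nat_lit 7290733700) (nat_lit 101) (nat_lit 5) (nat_lit 104) (nat_lit 5) (nat_lit 105) (nat_lit 5) (nat_lit 385) (nat_lit 326) (nat_lit 189)) (XT.lf (nat_lit 0) (nat_lit 18128426484) (nat_lit 228) (nat_lit 4346666069) (nat_lit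 304) (nat_lit 2304155281) (nat_lit 101) (nat_lit 5) (nat_lit 104) (nat_lit 5) (nat_lit 105) (nat_lit 5) (nat_lit 386) (nat_lit 326) (nat_lit 188))))) (XT.nd (nat_lit 234) (nat_lit 532) (nat_lit 0) (XT.nd (nat_lit 78) (nat_lit 228) (nat_lit 0) (XT.lf (nat_lit 0) (nat_lit 2877682295) (nat_lit 380) (nat_lit 18189471013) (nat_lit 76) (nat_lit 4192367919) (nat_lit 96) (nat_lit 5) (nat_lit 101) (nat_lit 5) (nat_lit 97) (nat_lit 5) (nat_lit 387) (nat_lit 326) (nat_lit 187)) (XT.nd (nat_lit 78) (nat_lit 228) (nat_lit 0) (XT.lf (nat_lit 0) (nat_lit 8271059350) (nat_lit 380) (nat_lit 4493047128) (nat_lit 76) (nat_lit 12986342398) (nat_lit 96) (nat_lit 5) (nat_lit 101) (nat_lit 5) (nat_lit 97) (nat_lit 5) (nat_lit 388) (nat_lit 326) (nat_lit 186)) (XT.lf (nat_lit 0) (nat_lit 9792514281) (nat_lit 228) (nat_lit 4119635737) (nat_lit 304) (nat_lit 12341379224) (nat_lit 93) (nat_lit 5) (nat_lit 96) (nat_lit 5) (nat_lit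 97) (nat_lit 5) (nat_lit 389) (nat_lit 326) (nat_lit 185)))) (XT.nd (nat_lit 156) (nat_lit 304) (nat_lit 0) (XT.nd (nat_lit 78) (nat_lit 228) (nat_lit 0) (XT.lf (nat_lit 0) (nat_lit 19806135420) (nat_lit 304) (nat_lit 2230950285) (nat_lit 76) (nat_lit 4732108646) (nat_lit 93) (nat_lit 5) (nat_lit 97) (nat_lit 5) (nat_lit 94) (nat_lit 5) (nat_lit 390) (nat_lit 326) (nat_lit 184)) (XT.lf (nat_lit 0) (nat_lit 12618927409) (nat_lit 228) (nat_lit 13412193042) (nat_lit 304) (nat_lit 1264585686) (nat_lit 90) (nat_lit 5) (nat_lit 93) (nat_lit 5) (nat_lit 94) (nat_lit 5) (nat_lit 391) (nat_lit 326) (nat_lit 183))) (XT.nd (nat_lit 78) (nat_lit 0) (nat_lit 0) (XT.lf (nat_lit 0) (nat_lit 66937883) (nat_lit 228) (nat_lit 4463564053) (nat_lit 304) (nat_lit 23305719892) (nat_lit 86) (nat_lit 5) (nat_lit 89) (nat_lit 5) (nat_lit 90) (nat_lit 5) (nat_lit 392) (nat_lit 326) (nat_lit 182)) (XT.lf (nat_lit 0) (nat_lit 10661580317)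 (nat_lit 304) (nat_lit 12907006681) (nat_lit 76) (nat_lit 4818365668) (nat_lit 86) (nat_lit 5) (nat_lit 90) (nat_lit 5) (nat_lit 87) (nat_lit 5) (nat_lit 393) (nat_lit 326) (nat_lit 181)))))) (XT.nd (nat_lit 546) (nat_lit 760) (nat_lit 0) (XT.nd (nat_lit 234) (nat_lit 380) (nat_lit 0) (XT.nd (nat_lit 78) (nat_lit 228) (nat_lit 0) (XT.lf (nat_lit 0) (nat_lit 2391333349) (nat_lit 228) (nat_lit 14644853110) (nat_lit 304) (nat_lit 11916232997) (nat_lit 83) (nat_lit 5) (nat_lit 86) (nat_lit 5) (nat_lit 87) (nat_lit 5) (nat_lit 394) (nat_lit 326) (nat_lit 180)) (XT.nd (nat_lit 78) (nat_lit 228) (nat_lit 0) (XT.lf (nat_lit 0) (nat_lit 18401049535) (nat_lit 228) (nat_lit 5323835547) (nat_lit 304) (nat_lit 5806281375) (nat_lit 83) (nat_lit 5) (nat_lit 86) (nat_lit 5) (nat_lit 87) (nat_lit 5) (nat_lit 395) (nat_lit 326) (nat_lit 179)) (XT.lf (nat_lit 0) (nat_lit 558244208) (nat_lit 228) (nat_lit 25325906033) (nat_lit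 76) (nat_lit 4240563586) (nat_lit 80) (nat_lit 5) (nat_lit 83) (nat_lit 5) (nat_lit 81) (nat_lit 5) (nat_lit 396) (nat_lit 326) (nat_lit 178)))) (XT.nd (nat_lit 156) (nat_lit 152) (nat_lit 0) (XT.nd (nat_lit 78) (nat_lit 228) (nat_lit 0) (XT.lf (nat_lit 0) (nat_lit 7155940320) (nat_lit 228) (nat_lit 9422257308) (nat_lit 76) (nat_lit 14151378975) (nat_lit 80) (nat_lit 5) (nat_lit 83) (nat_lit 5) (nat_lit 81) (nat_lit 5) (nat_lit 397) (nat_lit 326) (nat_lit 177)) (XT.lf (nat_lit 0) (nat_lit 7085100173) (nat_lit 228) (nat_lit 6927504402) (nat_lit 304) (nat_lit 17338151199) (nat_lit 77) (nat_lit 5) (nat_lit 80) (nat_lit 5) (nat_lit 81) (nat_lit 5) (nat_lit 398) (nat_lit 326) (nat_lit 176))) (XT.nd (nat_lit 78) (nat_lit 152) (nat_lit 0) (XT.lf (nat_lit 0) (nat_lit 21192999109) (nat_lit 304) (nat_lit 7748501708) (nat_lit 76) (nat_lit 3045530175) (nat_lit 77) (nat_lit 5) (nat_lit 81) (nat_lit 5) (nat_lit 78) (nat_lit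 5) (nat_lit 399) (nat_lit 326) (nat_lit 175)) (XT.lf (nat_lit 0) (nat_lit 9366993327) (nat_lit 152) (nat_lit 19373628958) (nat_lit 228) (nat_lit 3897219215) (nat_lit 75) (nat_lit 5) (nat_lit 77) (nat_lit 5) (nat_lit 78) (nat_lit 5) (nat_lit 400) (nat_lit 326) (nat_lit 174))))) (XT.nd (nat_lit 234) (nat_lit 456) (nat_lit 0) (XT.nd (nat_lit 78) (nat_lit 228) (nat_lit 0) (XT.lf (nat_lit 0) (nat_lit 3216155486) (nat_lit 228) (nat_lit 6194029859) (nat_lit 76) (nat_lit 23894900903) (nat_lit 74) (nat_lit 5) (nat_lit 77) (nat_lit 5) (nat_lit 75) (nat_lit 5) (nat_lit 401) (nat_lit 326) (nat_lit 173)) (XT.nd (nat_lit 78) (nat_lit 0) (nat_lit 0) (XT.lf (nat_lit 0) (nat_lit 10578869326) (nat_lit 304) (nat_lit 22426443081) (nat_lit 76) (nat_lit 982451703) (nat_lit 71) (nat_lit 5) (nat_lit 75) (nat_lit 5) (nat_lit 72) (nat_lit 5) (nat_lit 402) (nat_lit 326) (nat_lit 172)) (XT.lf (nat_lit 0) (nat_lit 18312252003) (nat_lit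 304) (nat_lit 4817638134) (nat_lit 76) (nat_lit 11556539913) (nat_lit 71) (nat_lit 5) (nat_lit 75) (nat_lit 5) (nat_lit 72) (nat_lit 5) (nat_lit 403) (nat_lit 326) (nat_lit 171)))) (XT.nd (nat_lit 156) (nat_lit 304) (nat_lit 0) (XT.nd (nat_lit 78) (nat_lit 0) (nat_lit 0) (XT.lf (nat_lit 0) (nat_lit 13573515840) (nat_lit 152) (nat_lit 12828238451) (nat_lit 228) (nat_lit 9000579459) (nat_lit 69) (nat_lit 5) (nat_lit 71) (nat_lit 5) (nat_lit 72) (nat_lit 5) (nat_lit 404) (nat_lit 326) (nat_lit 170)) (XT.lf (nat_lit 0) (nat_lit 32604483708) (nat_lit 152) (nat_lit 2171830403) (nat_lit 228) (nat_lit 1362130564) (nat_lit 69) (nat_lit 5) (nat_lit 71) (nat_lit 5) (nat_lit 72) (nat_lit 5) (nat_lit 405) (nat_lit 326) (nat_lit 169))) (XT.nd (nat_lit 78) (nat_lit 0) (nat_lit 0) (XT.lf (nat_lit 0) (nat_lit 6608439712) (nat_lit 304) (nat_lit 21437198528) (nat_lit 76) (nat_lit 8842228470) (nat_lit 65) (nat_lit 5) (nat_lit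 69) (nat_lit 5) (nat_lit 66) (nat_lit 5) (nat_lit 406) (nat_lit 326) (nat_lit 168)) (XT.lf (nat_lit 0) (nat_lit 14842175278) (nat_lit 304) (nat_lit 2627294369) (nat_lit 76) (nat_lit 20188355574) (nat_lit 65) (nat_lit 5) (nat_lit 69) (nat_lit 5) (nat_lit 66) (nat_lit 5) (nat_lit 407) (nat_lit 326) (nat_lit 167))))))) (XT.nd (nat_lit 1014) (nat_lit 836) (nat_lit 0) (XT.nd (nat_lit 468) (nat_lit 760) (nat_lit 0) (XT.nd (nat_lit 234) (nat_lit 152) (nat_lit 0) (XT.nd (nat_lit 78) (nat_lit 228) (nat_lit 0) (XT.lf (nat_lit 0) (nat_lit 17069776982) (nat_lit 152) (nat_lit 6411292216) (nat_lit 228) (nat_lit 14965070044) (nat_lit 63) (nat_lit 5) (nat_lit 65) (nat_lit 5) (nat_lit 66) (nat_lit 5) (nat_lit 408) (nat_lit 326) (nat_lit 166)) (XT.nd (nat_lit 78) (nat_lit 228) (nat_lit 0) (XT.lf (nat_lit 0) (nat_lit 32447876656) (nat_lit 228) (nat_lit 1904068260) (nat_lit 76) (nat_lit 4904096477) (nat_lit 63) (nat_lit 5)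 (nat_lit 66) (nat_lit 5) (nat_lit 64) (nat_lit 5) (nat_lit 409) (nat_lit 326) (nat_lit 165)) (XT.lf (nat_lit 0) (nat_lit 1799670061) (nat_lit 228) (nat_lit 21662072495) (nat_lit 76) (nat_lit 16620920095) (nat_lit 60) (nat_lit 5) (nat_lit 63) (nat_lit 5) (nat_lit 61) (nat_lit 5) (nat_lit 410) (nat_lit 326) (nat_lit 164)))) (XT.nd (nat_lit 78) (nat_lit 152) (nat_lit 0) (XT.lf (nat_lit 0) (nat_lit 10542603190) (nat_lit 228) (nat_lit 1617060770) (nat_lit 76) (nat_lit 28771986357) (nat_lit 60) (nat_lit 5) (nat_lit 63) (nat_lit 5) (nat_lit 61) (nat_lit 5) (nat_lit 411) (nat_lit 326) (nat_lit 163)) (XT.nd (nat_lit 78) (nat_lit 0) (nat_lit 0) (XT.lf (nat_lit 0) (nat_lit 19398142567) (nat_lit 152) (nat_lit 330598005) (nat_lit 228) (nat_lit 22071940538) (nat_lit 58) (nat_lit 5) (nat_lit 60) (nat_lit 5) (nat_lit 61) (nat_lit 5) (nat_lit 412) (nat_lit 326) (nat_lit 162)) (XT.lf (nat_lit 0) (nat_lit 29315373855) (nat_lit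 228) (nat_lit 1742163302) (nat_lit 76) (nat_lit 11634499276) (nat_lit 58) (nat_lit 5) (nat_lit 61) (nat_lit 5) (nat_lit 59) (nat_lit 5) (nat_lit 413) (nat_lit 326) (nat_lit 161))))) (XT.nd (nat_lit 234) (nat_lit 380) (nat_lit 0) (XT.nd (nat_lit 78) (nat_lit 228) (nat_lit 0) (XT.lf (nat_lit 0) (nat_lit 19913907759) (nat_lit 152) (nat_lit 19465036485) (nat_lit 228) (nat_lit 4225508957) (nat_lit 56) (nat_lit 5) (nat_lit 58) (nat_lit 5) (nat_lit 59) (nat_lit 5) (nat_lit 414) (nat_lit 326) (nat_lit 160)) (XT.nd (nat_lit 78) (nat_lit 152) (nat_lit 0) (XT.lf (nat_lit 0) (nat_lit 5111124875) (nat_lit 228) (nat_lit 2347951645) (nat_lit 76) (nat_lit 37083294614) (nat_lit 55) (nat_lit 5) (nat_lit 58) (nat_lit 5) (nat_lit 56) (nat_lit 5) (nat_lit 415) (nat_lit 326) (nat_lit 159)) (XT.lf (nat_lit 0) (nat_lit 14879183840) (nat_lit 228) (nat_lit 25577347116) (nat_lit 76) (nat_lit 5043553758) (nat_lit 53) (nat_lit 5) (nat_lit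 56) (nat_lit 5) (nat_lit 54) (nat_lit 5) (nat_lit 416) (nat_lit 326) (nat_lit 158)))) (XT.nd (nat_lit 156) (nat_lit 228) (nat_lit 0) (XT.nd (nat_lit 78) (nat_lit 152) (nat_lit 0) (XT.lf (nat_lit 0) (nat_lit 25032916062) (nat_lit 228) (nat_lit 3659427680) (nat_lit 76) (nat_lit 17791407842) (nat_lit 53) (nat_lit 5) (nat_lit 56) (nat_lit 5) (nat_lit 54) (nat_lit 5) (nat_lit 417) (nat_lit 326) (nat_lit 157)) (XT.lf (nat_lit 0) (nat_lit 19283385109) (nat_lit 152) (nat_lit 16388224066) (nat_lit 228) (nat_lit 11819909620) (nat_lit 51) (nat_lit 5) (nat_lit 53) (nat_lit 5) (nat_lit 54) (nat_lit 5) (nat_lit 418) (nat_lit 326) (nat_lit 156))) (XT.nd (nat_lit 78) (nat_lit 228) (nat_lit 0) (XT.lf (nat_lit 0) (nat_lit 42980652008) (nat_lit 152) (nat_lit 3680810387) (nat_lit 228) (nat_lit 1867097426) (nat_lit 51) (nat_lit 5) (nat_lit 53) (nat_lit 5) (nat_lit 54) (nat_lit 5) (nat_lit 419) (nat_lit 326) (nat_lit 155)) (XT.lf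 (nat_lit 0) (nat_lit 8482304104) (nat_lit 228) (nat_lit 31626980921) (nat_lit 76) (nat_lit 9477161550) (nat_lit 48) (nat_lit 5) (nat_lit 51) (nat_lit 5) (nat_lit 49) (nat_lit 5) (nat_lit 420) (nat_lit 326) (nat_lit 154)))))) (XT.nd (nat_lit 546) (nat_lit 380) (nat_lit 0) (XT.nd (nat_lit 234) (nat_lit 304) (nat_lit 0) (XT.nd (nat_lit 78) (nat_lit 152) (nat_lit 0) (XT.lf (nat_lit 0) (nat_lit 19192846696) (nat_lit 228) (nat_lit 8452794460) (nat_lit 76) (nat_lit 23027229331) (nat_lit 48) (nat_lit 5) (nat_lit 51) (nat_lit 5) (nat_lit 49) (nat_lit 5) (nat_lit 421) (nat_lit 326) (nat_lit 153)) (XT.nd (nat_lit 78) (nat_lit 0) (nat_lit 0) (XT.lf (nat_lit 0) (nat_lit 15714816131) (nat_lit 152) (nat_lit 14656255183) (nat_lit 228) (nat_lit 21416425520) (nat_lit 46) (nat_lit 5) (nat_lit 48) (nat_lit 5) (nat_lit 49) (nat_lit 5) (nat_lit 422) (nat_lit 326) (nat_lit 152)) (XT.lf (nat_lit 0) (nat_lit 40772357796) (nat_lit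 152) (nat_lit 1193003119) (nat_lit 228) (nat_lit 10967780183) (nat_lit 46) (nat_lit 5) (nat_lit 48) (nat_lit 5) (nat_lit 49) (nat_lit 5) (nat_lit 423) (nat_lit 326) (nat_lit 151)))) (XT.nd (nat_lit 156) (nat_lit 152) (nat_lit 0) (XT.nd (nat_lit 78) (nat_lit 0) (nat_lit 0) (XT.lf (nat_lit 0) (nat_lit 38954656) (nat_lit 152) (nat_lit 41522419893) (nat_lit 76) (nat_lit 12544621586) (nat_lit 44) (nat_lit 5) (nat_lit 46) (nat_lit 5) (nat_lit 45) (nat_lit 5) (nat_lit 424) (nat_lit 326) (nat_lit 150)) (XT.lf (nat_lit 0) (nat_lit 11286748532) (nat_lit 152) (nat_lit 17120660172) (nat_lit 76) (nat_lit 26899432021) (nat_lit 44) (nat_lit 5) (nat_lit 46) (nat_lit 5) (nat_lit 45) (nat_lit 5) (nat_lit 425) (nat_lit 326) (nat_lit 149))) (XT.nd (nat_lit 78) (nat_lit 0) (nat_lit 0) (XT.lf (nat_lit 0) (nat_lit 8164472130) (nat_lit 152) (nat_lit 14781588610) (nat_lit 228) (nat_lit 33595427973) (nat_lit 42) (nat_lit 5) (nat_lit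 44) (nat_lit 5) (nat_lit 45) (nat_lit 5) (nat_lit 426) (nat_lit 326) (nat_lit 148)) (XT.lf (nat_lit 0) (nat_lit 34551195099) (nat_lit 152) (nat_lit 572496876) (nat_lit 228) (nat_lit 22684428557) (nat_lit 42) (nat_lit 5) (nat_lit 44) (nat_lit 5) (nat_lit 45) (nat_lit 5) (nat_lit 427) (nat_lit 326) (nat_lit 147))))) (XT.nd (nat_lit 234) (nat_lit 228) (nat_lit 0) (XT.nd (nat_lit 78) (nat_lit 76) (nat_lit 0) (XT.lf (nat_lit 0) (nat_lit 2523037983) (nat_lit 76) (nat_lit 45298795803) (nat_lit 152) (nat_lit 11286262633) (nat_lit 41) (nat_lit 5) (nat_lit 42) (nat_lit 5) (nat_lit 43) (nat_lit 4) (nat_lit 428) (nat_lit 326) (nat_lit 146)) (XT.nd (nat_lit 78) (nat_lit 0) (nat_lit 0) (XT.lf (nat_lit 0) (nat_lit 683590318) (nat_lit 152) (nat_lit 30907029663) (nat_lit 76) (nat_lit 28849163303) (nat_lit 40) (nat_lit 5) (nat_lit 42) (nat_lit 5) (nat_lit 41) (nat_lit 5) (nat_lit 429) (nat_lit 326) (nat_lit 145)) (XT.lf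 (nat_lit 0) (nat_lit 12781575175) (nat_lit 152) (nat_lit 4577970094) (nat_lit 76) (nat_lit 44448647275) (nat_lit 40) (nat_lit 5) (nat_lit 42) (nat_lit 5) (nat_lit 41) (nat_lit 5) (nat_lit 430) (nat_lit 326) (nat_lit 144)))) (XT.nd (nat_lit 156) (nat_lit 76) (nat_lit 0) (XT.nd (nat_lit 78) (nat_lit 0) (nat_lit 0) (XT.lf (nat_lit 0) (nat_lit 22982079860) (nat_lit 152) (nat_lit 2477336578) (nat_lit 228) (nat_lit 37751730638) (nat_lit 38) (nat_lit 5) (nat_lit 40) (nat_lit 5) (nat_lit 41) (nat_lit 5) (nat_lit 431) (nat_lit 326) (nat_lit 143)) (XT.lf (nat_lit 0) (nat_lit 38683827874) (nat_lit 228) (nat_lit 13323380579) (nat_lit 76) (nat_lit 12643995228) (nat_lit 38) (nat_lit 5) (nat_lit 41) (nat_lit 5) (nat_lit 39) (nat_lit 4) (nat_lit 432) (nat_lit 326) (nat_lit 142))) (XT.nd (nat_lit 78) (nat_lit 0) (nat_lit 0) (XT.lf (nat_lit 0) (nat_lit 14643551599) (nat_lit 76) (nat_lit 37822840794) (nat_lit 152) (nat_lit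 13663227439) (nat_lit 37) (nat_lit 5) (nat_lit 38) (nat_lit 5) (nat_lit 39) (nat_lit 4) (nat_lit 433) (nat_lit 326) (nat_lit 141)) (XT.lf (nat_lit 0) (nat_lit 43715532629) (nat_lit 76) (nat_lit 23077615830) (nat_lit 152) (nat_lit 855319029) (nat_lit 37) (nat_lit 5) (nat_lit 38) (nat_lit 5) (nat_lit 39) (nat_lit 4) (nat_lit 434) (nat_lit 326) (nat_lit 140))))))))
noncomputable def xc170 : XT := (XT.nd (nat_lit 40092) (nat_lit 0) (nat_lit 7600) (XT.nd (nat_lit 39000) (nat_lit 0) (nat_lit 14972) (XT.nd (nat_lit 38454) (nat_lit 0) (nat_lit 18012) (XT.nd (nat_lit 234) (nat_lit 304) (nat_lit 0) (XT.nd (nat_lit 78) (nat_lit 0) (nat_lit 0) (XT.lf (nat_lit 0) (nat_lit 4407260555) (nat_lit 152) (nat_lit 7727444240) (nat_lit 228) (nat_lit 57073460113) (nat_lit 34) (nat_lit 5) (nat_lit 36) (nat_lit 5) (nat_lit 37) (nat_lit 5) (nat_lit 435) (nat_lit 326) (nat_lit 139)) (XT.nd (nat_lit 78) (nat_lit 0) (nat_lit 0) (XT.lf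 (nat_lit 0) (nat_lit 25815269298) (nat_lit 228) (nat_lit 36814659241) (nat_lit 76) (nat_lit 8174930145) (nat_lit 34) (nat_lit 5) (nat_lit 37) (nat_lit 5) (nat_lit 35) (nat_lit 4) (nat_lit 436) (nat_lit 326) (nat_lit 138)) (XT.lf (nat_lit 0) (nat_lit 39979130478) (nat_lit 228) (nat_lit 8072090965) (nat_lit 76) (nat_lit 24396045843) (nat_lit 34) (nat_lit 5) (nat_lit 37) (nat_lit 5) (nat_lit 35) (nat_lit 4) (nat_lit 437) (nat_lit 326) (nat_lit 137)))) (XT.nd (nat_lit 78) (nat_lit 228) (nat_lit 0) (XT.lf (nat_lit 0) (nat_lit 21954609774) (nat_lit 76) (nat_lit 32820814970) (nat_lit 152) (nat_lit 19357298280) (nat_lit 33) (nat_lit 5) (nat_lit 34) (nat_lit 5) (nat_lit 35) (nat_lit 4) (nat_lit 438) (nat_lit 326) (nat_lit 136)) (XT.nd (nat_lit 156) (nat_lit 228) (nat_lit 0) (XT.lf (nat_lit 0) (nat_lit 53041087685) (nat_lit 76) (nat_lit 17052548771) (nat_lit 152) (nat_lit 5772765502) (nat_lit 33) (nat_lit 5) (nat_lit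 34) (nat_lit 5) (nat_lit 35) (nat_lit 4) (nat_lit 439) (nat_lit 326) (nat_lit 135)) (XT.lf (nat_lit 0) (nat_lit 22713668192) (nat_lit 228) (nat_lit 40558396015) (nat_lit 76) (nat_lit 16197037318) (nat_lit 30) (nat_lit 5) (nat_lit 33) (nat_lit 5) (nat_lit 31) (nat_lit 4) (nat_lit 441) (nat_lit 326) (nat_lit 133))))) (XT.nd (nat_lit 234) (nat_lit 0) (nat_lit 76) (XT.nd (nat_lit 78) (nat_lit 0) (nat_lit 0) (XT.lf (nat_lit 0) (nat_lit 1112352983) (nat_lit 1140) (nat_lit 1838981391) (nat_lit 1140) (nat_lit 1838981391) (nat_lit 267) (nat_lit 3) (nat_lit 282) (nat_lit 3) (nat_lit 282) (nat_lit 5) (nat_lit 327) (nat_lit 327) (nat_lit 246)) (XT.nd (nat_lit 78) (nat_lit 0) (nat_lit 76) (XT.lf (nat_lit 76) (nat_lit 932193928) (nat_lit 0) (nat_lit 2096163473) (nat_lit 1140) (nat_lit 6672443611) (nat_lit 268) (nat_lit 5) (nat_lit 267) (nat_lit 3) (nat_lit 282) (nat_lit 5) (nat_lit 328) (nat_lit 327) (nat_lit 245)) (XT.lf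 (nat_lit 0) (nat_lit 3881439545) (nat_lit 1064) (nat_lit 4101982262) (nat_lit 1140) (nat_lit 1840410979) (nat_lit 268) (nat_lit 5) (nat_lit 282) (nat_lit 5) (nat_lit 283) (nat_lit 5) (nat_lit 329) (nat_lit 327) (nat_lit 244)))) (XT.nd (nat_lit 156) (nat_lit 0) (nat_lit 76) (XT.nd (nat_lit 78) (nat_lit 0) (nat_lit 76) (XT.lf (nat_lit 76) (nat_lit 680996716) (nat_lit 0) (nat_lit 4077558137) (nat_lit 1140) (nat_lit 5192063793) (nat_lit 269) (nat_lit 5) (nat_lit 268) (nat_lit 5) (nat_lit 283) (nat_lit 5) (nat_lit 330) (nat_lit 327) (nat_lit 243)) (XT.lf (nat_lit 0) (nat_lit 5675235487) (nat_lit 1064) (nat_lit 4405298251) (nat_lit 1140) (nat_lit 292662) (nat_lit 269) (nat_lit 5) (nat_lit 283) (nat_lit 5) (nat_lit 284) (nat_lit 5) (nat_lit 331) (nat_lit 327) (nat_lit 242))) (XT.nd (nat_lit 78) (nat_lit 0) (nat_lit 0) (XT.lf (nat_lit 76) (nat_lit 558987784) (nat_lit 0) (nat_lit 6078934956) (nat_lit 1140) (nat_lit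 3576477875) (nat_lit 270) (nat_lit 5) (nat_lit 269) (nat_lit 5) (nat_lit 284) (nat_lit 5) (nat_lit 332) (nat_lit 327) (nat_lit 241)) (XT.lf (nat_lit 76) (nat_lit 5746165140) (nat_lit 0) (nat_lit 1901207635) (nat_lit 1140) (nat_lit 2704087782) (nat_lit 270) (nat_lit 5) (nat_lit 269) (nat_lit 5) (nat_lit 284) (nat_lit 5) (nat_lit 333) (nat_lit 327) (nat_lit 240)))))) (XT.nd (nat_lit 546) (nat_lit 2204) (nat_lit 0) (XT.nd (nat_lit 234) (nat_lit 0) (nat_lit 0) (XT.nd (nat_lit 78) (nat_lit 1064) (nat_lit 0) (XT.lf (nat_lit 76) (nat_lit 567561911) (nat_lit 0) (nat_lit 8122356107) (nat_lit 1140) (nat_lit 1802644455) (nat_lit 271) (nat_lit 5) (nat_lit 270) (nat_lit 5) (nat_lit 285) (nat_lit 5) (nat_lit 334) (nat_lit 327) (nat_lit 239)) (XT.nd (nat_lit 78) (nat_lit 1064) (nat_lit 0) (XT.lf (nat_lit 76) (nat_lit 5954224037) (nat_lit 0) (nat_lit 3849517254) (nat_lit 1140) (nat_lit 832970212) (nat_lit 271) (nat_lit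 5) (nat_lit 270) (nat_lit 5) (nat_lit 285) (nat_lit 5) (nat_lit 335) (nat_lit 327) (nat_lit 238)) (XT.lf (nat_lit 0) (nat_lit 150210559) (nat_lit 1140) (nat_lit 10078134139) (nat_lit 1216) (nat_lit 557176245) (nat_lit 256) (nat_lit 5) (nat_lit 271) (nat_lit 5) (nat_lit 272) (nat_lit 5) (nat_lit 336) (nat_lit 327) (nat_lit 237)))) (XT.nd (nat_lit 156) (nat_lit 0) (nat_lit 76) (XT.nd (nat_lit 78) (nat_lit 0) (nat_lit 0) (XT.lf (nat_lit 0) (nat_lit 1207980072) (nat_lit 1140) (nat_lit 4646516286) (nat_lit 1216) (nat_lit 5082208742) (nat_lit 256) (nat_lit 5) (nat_lit 271) (nat_lit 5) (nat_lit 272) (nat_lit 5) (nat_lit 337) (nat_lit 327) (nat_lit 236)) (XT.lf (nat_lit 76) (nat_lit 949832891) (nat_lit 0) (nat_lit 1333449145) (nat_lit 1216) (nat_lit 8809581298) (nat_lit 257) (nat_lit 5) (nat_lit 256) (nat_lit 5) (nat_lit 272) (nat_lit 5) (nat_lit 338) (nat_lit 327) (nat_lit 235))) (XT.nd (nat_lit 78) (nat_lit 0)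 (nat_lit 0) (XT.lf (nat_lit 0) (nat_lit 3447422148) (nat_lit 1140) (nat_lit 4492730550) (nat_lit 1216) (nat_lit 3311868412) (nat_lit 257) (nat_lit 5) (nat_lit 272) (nat_lit 5) (nat_lit 273) (nat_lit 5) (nat_lit 339) (nat_lit 327) (nat_lit 234)) (XT.lf (nat_lit 76) (nat_lit 1322850663) (nat_lit 0) (nat_lit 3327465876) (nat_lit 1216) (nat_lit 6765533991) (nat_lit 258) (nat_lit 5) (nat_lit 257) (nat_lit 5) (nat_lit 273) (nat_lit 5) (nat_lit 340) (nat_lit 327) (nat_lit 233))))) (XT.nd (nat_lit 234) (nat_lit 2356) (nat_lit 0) (XT.nd (nat_lit 78) (nat_lit 0) (nat_lit 0) (XT.lf (nat_lit 0) (nat_lit 5927241289) (nat_lit 1140) (nat_lit 4209752369) (nat_lit 1216) (nat_lit 1446474338) (nat_lit 258) (nat_lit 5) (nat_lit 273) (nat_lit 5) (nat_lit 274) (nat_lit 5) (nat_lit 341) (nat_lit 327) (nat_lit 232)) (XT.nd (nat_lit 78) (nat_lit 0) (nat_lit 0) (XT.lf (nat_lit 76) (nat_lit 1835999811) (nat_lit 0) (nat_lit 5436137873)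 (nat_lit 1216) (nat_lit 4483097521) (nat_lit 259) (nat_lit 5) (nat_lit 258) (nat_lit 5) (nat_lit 274) (nat_lit 5) (nat_lit 342) (nat_lit 327) (nat_lit 231)) (XT.lf (nat_lit 76) (nat_lit 8132711286) (nat_lit 0) (nat_lit 546698868) (nat_lit 1216) (nat_lit 3252095210) (nat_lit 259) (nat_lit 5) (nat_lit 258) (nat_lit 5) (nat_lit 274) (nat_lit 5) (nat_lit 343) (nat_lit 327) (nat_lit 230)))) (XT.nd (nat_lit 156) (nat_lit 1292) (nat_lit 0) (XT.nd (nat_lit 78) (nat_lit 0) (nat_lit 0) (XT.lf (nat_lit 0) (nat_lit 2493905847) (nat_lit 1140) (nat_lit 7682273660) (nat_lit 1216) (nat_lit 1935476256) (nat_lit 244) (nat_lit 5) (nat_lit 259) (nat_lit 5) (nat_lit 260) (nat_lit 5) (nat_lit 344) (nat_lit 327) (nat_lit 229)) (XT.lf (nat_lit 0) (nat_lit 9031038449) (nat_lit 1140) (nat_lit 2711101947) (nat_lit 1216) (nat_lit 554351816) (nat_lit 244) (nat_lit 5) (nat_lit 259) (nat_lit 5) (nat_lit 260) (nat_lit 5) (nat_lit 345)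 (nat_lit 327) (nat_lit 228))) (XT.nd (nat_lit 78) (nat_lit 0) (nat_lit 0) (XT.lf (nat_lit 0) (nat_lit 887669938) (nat_lit 1292) (nat_lit 9192634927) (nat_lit 76) (nat_lit 2405235958) (nat_lit 227) (nat_lit 5) (nat_lit 244) (nat_lit 5) (nat_lit 228) (nat_lit 5) (nat_lit 346) (nat_lit 327) (nat_lit 227)) (XT.lf (nat_lit 0) (nat_lit 2403310535) (nat_lit 1292) (nat_lit 2614004208) (nat_lit 76) (nat_lit 7661545813) (nat_lit 227) (nat_lit 5) (nat_lit 244) (nat_lit 5) (nat_lit 228) (nat_lit 5) (nat_lit 347) (nat_lit 327) (nat_lit 226))))))) (XT.nd (nat_lit 1014) (nat_lit 3420) (nat_lit 0) (XT.nd (nat_lit 468) (nat_lit 1596) (nat_lit 0) (XT.nd (nat_lit 234) (nat_lit 1140) (nat_lit 0) (XT.nd (nat_lit 78) (nat_lit 608) (nat_lit 0) (XT.lf (nat_lit 0) (nat_lit 3989277977) (nat_lit 684) (nat_lit 8651675008) (nat_lit 76) (nat_lit 236290221) (nat_lit 219) (nat_lit 5) (nat_lit 228) (nat_lit 5) (nat_lit 220) (nat_lit 5)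 (nat_lit 348) (nat_lit 327) (nat_lit 225)) (XT.nd (nat_lit 78) (nat_lit 608) (nat_lit 0) (XT.lf (nat_lit 0) (nat_lit 5681440761) (nat_lit 684) (nat_lit 1823736343) (nat_lit 76) (nat_lit 5574650533) (nat_lit 219) (nat_lit 5) (nat_lit 228) (nat_lit 5) (nat_lit 220) (nat_lit 5) (nat_lit 349) (nat_lit 327) (nat_lit 224)) (XT.lf (nat_lit 0) (nat_lit 5295951072) (nat_lit 608) (nat_lit 2162123594) (nat_lit 684) (nat_lit 5829412280) (nat_lit 211) (nat_lit 5) (nat_lit 219) (nat_lit 5) (nat_lit 220) (nat_lit 5) (nat_lit 350) (nat_lit 327) (nat_lit 223)))) (XT.nd (nat_lit 78) (nat_lit 1140) (nat_lit 0) (XT.lf (nat_lit 0) (nat_lit 9321872512) (nat_lit 684) (nat_lit 883300851) (nat_lit 76) (nat_lit 3295195011) (nat_lit 211) (nat_lit 5) (nat_lit 220) (nat_lit 5) (nat_lit 212) (nat_lit 5) (nat_lit 351) (nat_lit 327) (nat_lit 222)) (XT.nd (nat_lit 78) (nat_lit 532) (nat_lit 0) (XT.lf (nat_lit 0) (nat_lit 6527854047) (nat_lit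 608) (nat_lit 4781526512) (nat_lit 684) (nat_lit 2408229842) (nat_lit 203) (nat_lit 5) (nat_lit 211) (nat_lit 5) (nat_lit 212) (nat_lit 5) (nat_lit 352) (nat_lit 327) (nat_lit 221)) (XT.lf (nat_lit 0) (nat_lit 218150229) (nat_lit 532) (nat_lit 13141164789) (nat_lit 608) (nat_lit 581978444) (nat_lit 196) (nat_lit 5) (nat_lit 203) (nat_lit 5) (nat_lit 204) (nat_lit 5) (nat_lit 353) (nat_lit 327) (nat_lit 220))))) (XT.nd (nat_lit 234) (nat_lit 988) (nat_lit 0) (XT.nd (nat_lit 78) (nat_lit 532) (nat_lit 0) (XT.lf (nat_lit 0) (nat_lit 1378479721) (nat_lit 608) (nat_lit 6251170808) (nat_lit 76) (nat_lit 6538526171) (nat_lit 195) (nat_lit 5) (nat_lit 203) (nat_lit 5) (nat_lit 196) (nat_lit 5) (nat_lit 354) (nat_lit 327) (nat_lit 219)) (XT.nd (nat_lit 78) (nat_lit 0) (nat_lit 0) (XT.lf (nat_lit 0) (nat_lit 1451215332) (nat_lit 532) (nat_lit 1933357479) (nat_lit 608) (nat_lit 11017172354) (nat_lit 188) (nat_lit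 5) (nat_lit 195) (nat_lit 5) (nat_lit 196) (nat_lit 5) (nat_lit 355) (nat_lit 327) (nat_lit 218)) (XT.lf (nat_lit 0) (nat_lit 5537265625) (nat_lit 608) (nat_lit 5182643655) (nat_lit 76) (nat_lit 3919825836) (nat_lit 188) (nat_lit 5) (nat_lit 196) (nat_lit 5) (nat_lit 189) (nat_lit 5) (nat_lit 356) (nat_lit 327) (nat_lit 217)))) (XT.nd (nat_lit 156) (nat_lit 532) (nat_lit 0) (XT.nd (nat_lit 78) (nat_lit 0) (nat_lit 0) (XT.lf (nat_lit 0) (nat_lit 2838414635) (nat_lit 456) (nat_lit 4947845533) (nat_lit 532) (nat_lit 7097659705) (nat_lit 182) (nat_lit 5) (nat_lit 188) (nat_lit 5) (nat_lit 189) (nat_lit 5) (nat_lit 357) (nat_lit 327) (nat_lit 216)) (XT.lf (nat_lit 0) (nat_lit 10150719254) (nat_lit 532) (nat_lit 3953998854) (nat_lit 76) (nat_lit 1029278766) (nat_lit 182) (nat_lit 5) (nat_lit 189) (nat_lit 5) (nat_lit 183) (nat_lit 5) (nat_lit 358) (nat_lit 327) (nat_lit 215))) (XT.nd (nat_lit 78) (nat_lit 0)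 (nat_lit 0) (XT.lf (nat_lit 0) (nat_lit 4401248445) (nat_lit 532) (nat_lit 8262135042) (nat_lit 608) (nat_lit 2725880905) (nat_lit 175) (nat_lit 5) (nat_lit 182) (nat_lit 5) (nat_lit 183) (nat_lit 5) (nat_lit 359) (nat_lit 327) (nat_lit 214)) (XT.lf (nat_lit 0) (nat_lit 13072462230) (nat_lit 532) (nat_lit 2205125513) (nat_lit 608) (nat_lit 373823556) (nat_lit 175) (nat_lit 5) (nat_lit 182) (nat_lit 5) (nat_lit 183) (nat_lit 5) (nat_lit 360) (nat_lit 327) (nat_lit 213)))))) (XT.nd (nat_lit 546) (nat_lit 1520) (nat_lit 0) (XT.nd (nat_lit 234) (nat_lit 912) (nat_lit 0) (XT.nd (nat_lit 78) (nat_lit 456) (nat_lit 0) (XT.lf (nat_lit 0) (nat_lit 2094132618) (nat_lit 532) (nat_lit 9791514429) (nat_lit 76) (nat_lit 4032631055) (nat_lit 168) (nat_lit 5) (nat_lit 175) (nat_lit 5) (nat_lit 169) (nat_lit 5) (nat_lit 361) (nat_lit 327) (nat_lit 212)) (XT.nd (nat_lit 78) (nat_lit 456) (nat_lit 0) (XT.lf (nat_lit 0) (nat_lit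 4663466927) (nat_lit 532) (nat_lit 1087438190) (nat_lit 76) (nat_lit 10441094808) (nat_lit 168) (nat_lit 5) (nat_lit 175) (nat_lit 5) (nat_lit 169) (nat_lit 5) (nat_lit 362) (nat_lit 327) (nat_lit 211)) (XT.lf (nat_lit 0) (nat_lit 7380269116) (nat_lit 532) (nat_lit 8459304037) (nat_lit 76) (nat_lit 632254094) (nat_lit 162) (nat_lit 5) (nat_lit 169) (nat_lit 5) (nat_lit 163) (nat_lit 5) (nat_lit 363) (nat_lit 327) (nat_lit 210)))) (XT.nd (nat_lit 156) (nat_lit 532) (nat_lit 0) (XT.nd (nat_lit 78) (nat_lit 0) (nat_lit 0) (XT.lf (nat_lit 0) (nat_lit 586918308) (nat_lit 380) (nat_lit 9652640311) (nat_lit 456) (nat_lit 6518666588) (nat_lit 157) (nat_lit 5) (nat_lit 162) (nat_lit 5) (nat_lit 163) (nat_lit 5) (nat_lit 364) (nat_lit 327) (nat_lit 209)) (XT.lf (nat_lit 0) (nat_lit 10062546010) (nat_lit 380) (nat_lit 3195036867) (nat_lit 456) (nat_lit 3793448711) (nat_lit 157) (nat_lit 5) (nat_lit 162) (nat_lit 5)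 (nat_lit 163) (nat_lit 5) (nat_lit 365) (nat_lit 327) (nat_lit 208))) (XT.nd (nat_lit 78) (nat_lit 76) (nat_lit 0) (XT.lf (nat_lit 0) (nat_lit 2469503907) (nat_lit 456) (nat_lit 13941475866) (nat_lit 532) (nat_lit 940302444) (nat_lit 151) (nat_lit 5) (nat_lit 157) (nat_lit 5) (nat_lit 158) (nat_lit 5) (nat_lit 366) (nat_lit 327) (nat_lit 207)) (XT.lf (nat_lit 0) (nat_lit 2050298778) (nat_lit 532) (nat_lit 5370852043) (nat_lit 76) (nat_lit 10236092243) (nat_lit 150) (nat_lit 5) (nat_lit 157) (nat_lit 5) (nat_lit 151) (nat_lit 5) (nat_lit 367) (nat_lit 327) (nat_lit 206))))) (XT.nd (nat_lit 234) (nat_lit 760) (nat_lit 0) (XT.nd (nat_lit 78) (nat_lit 380) (nat_lit 0) (XT.lf (nat_lit 0) (nat_lit 4488755716) (nat_lit 380) (nat_lit 654417229) (nat_lit 456) (nat_lit 12827991459) (nat_lit 145) (nat_lit 5) (nat_lit 150) (nat_lit 5) (nat_lit 151) (nat_lit 5) (nat_lit 368) (nat_lit 327) (nat_lit 205)) (XT.nd (nat_lit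 78) (nat_lit 380) (nat_lit 0) (XT.lf (nat_lit 0) (nat_lit 8432784430) (nat_lit 456) (nat_lit 3614970668) (nat_lit 76) (nat_lit 6243634207) (nat_lit 145) (nat_lit 5) (nat_lit 151) (nat_lit 5) (nat_lit 146) (nat_lit 5) (nat_lit 369) (nat_lit 327) (nat_lit 204)) (XT.lf (nat_lit 0) (nat_lit 6657258438) (nat_lit 380) (nat_lit 5223106933) (nat_lit 456) (nat_lit 6739081475) (nat_lit 140) (nat_lit 5) (nat_lit 145) (nat_lit 5) (nat_lit 146) (nat_lit 5) (nat_lit 370) (nat_lit 327) (nat_lit 203)))) (XT.nd (nat_lit 156) (nat_lit 380) (nat_lit 0) (XT.nd (nat_lit 78) (nat_lit 380) (nat_lit 0) (XT.lf (nat_lit 0) (nat_lit 15474563143) (nat_lit 456) (nat_lit 1677034378) (nat_lit 76) (nat_lit 1804457106) (nat_lit 140) (nat_lit 5) (nat_lit 146) (nat_lit 5) (nat_lit 141) (nat_lit 5) (nat_lit 371) (nat_lit 327) (nat_lit 202)) (XT.lf (nat_lit 0) (nat_lit 5315921) (nat_lit 380) (nat_lit 10272264802) (nat_lit 76) (nat_lit 9021349434)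 (nat_lit 135) (nat_lit 5) (nat_lit 140) (nat_lit 5) (nat_lit 136) (nat_lit 5) (nat_lit 372) (nat_lit 327) (nat_lit 201))) (XT.nd (nat_lit 78) (nat_lit 0) (nat_lit 0) (XT.lf (nat_lit 0) (nat_lit 392837636) (nat_lit 380) (nat_lit 3144143306) (nat_lit 456) (nat_lit 16113773909) (nat_lit 130) (nat_lit 5) (nat_lit 135) (nat_lit 5) (nat_lit 136) (nat_lit 5) (nat_lit 373) (nat_lit 327) (nat_lit 200)) (XT.lf (nat_lit 0) (nat_lit 7309242305) (nat_lit 456) (nat_lit 8477588866) (nat_lit 76) (nat_lit 4222267453) (nat_lit 130) (nat_lit 5) (nat_lit 136) (nat_lit 5) (nat_lit 131) (nat_lit 5) (nat_lit 374) (nat_lit 327) (nat_lit 199))))))))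
noncomputable def xc171 : XT := (XT.nd (nat_lit 2106) (nat_lit 2508) (nat_lit 0) (XT.nd (nat_lit 1014) (nat_lit 1976) (nat_lit 0) (XT.nd (nat_lit 468) (nat_lit 1216) (nat_lit 0) (XT.nd (nat_lit 234) (nat_lit 380) (nat_lit 0) (XT.nd (nat_lit 78) (nat_lit 304) (nat_lit 0) (XT.lf (nat_lit 0) (nat_lit 2632209017) (nat_lit 304) (nat_lit 8608686256) (nat_lit 380) (nat_lit 9135914346) (nat_lit 126) (nat_lit 5) (nat_lit 130) (nat_lit 5) (nat_lit 131) (nat_lit 5) (nat_lit 375) (nat_lit 327) (nat_lit 198)) (XT.nd (nat_lit 78) (nat_lit 304) (nat_lit 0) (XT.lf (nat_lit 0) (nat_lit 14235047994) (nat_lit 304) (nat_lit 1131010519) (nat_lit 380) (nat_lit 5387230125) (nat_lit 126) (nat_lit 5) (nat_lit 130) (nat_lit 5) (nat_lit 131) (nat_lit 5) (nat_lit 376) (nat_lit 327) (nat_lit 197)) (XT.lf (nat_lit 0) (nat_lit 5066730735) (nat_lit 304) (nat_lit 14650323903) (nat_lit 380) (nat_lit 1420948463) (nat_lit 122) (nat_lit 5)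 (nat_lit 126) (nat_lit 5) (nat_lit 127) (nat_lit 5) (nat_lit 377) (nat_lit 327) (nat_lit 196)))) (XT.nd (nat_lit 78) (nat_lit 304) (nat_lit 0) (XT.lf (nat_lit 0) (nat_lit 2680265786) (nat_lit 380) (nat_lit 4450822448) (nat_lit 76) (nat_lit 14400367612) (nat_lit 121) (nat_lit 5) (nat_lit 126) (nat_lit 5) (nat_lit 122) (nat_lit 5) (nat_lit 378) (nat_lit 327) (nat_lit 195)) (XT.nd (nat_lit 78) (nat_lit 0) (nat_lit 0) (XT.lf (nat_lit 0) (nat_lit 6946667961) (nat_lit 380) (nat_lit 14301389650) (nat_lit 76) (nat_lit 686114287) (nat_lit 117) (nat_lit 5) (nat_lit 122) (nat_lit 5) (nat_lit 118) (nat_lit 5) (nat_lit 379) (nat_lit 327) (nat_lit 194)) (XT.lf (nat_lit 0) (nat_lit 11447710619) (nat_lit 380) (nat_lit 2262188198) (nat_lit 76) (nat_lit 8635874194) (nat_lit 117) (nat_lit 5) (nat_lit 122) (nat_lit 5) (nat_lit 118) (nat_lit 5) (nat_lit 380) (nat_lit 327) (nat_lit 193))))) (XT.nd (nat_lit 234) (nat_lit 532)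 (nat_lit 0) (XT.nd (nat_lit 78) (nat_lit 380) (nat_lit 0) (XT.lf (nat_lit 0) (nat_lit 10326443108) (nat_lit 304) (nat_lit 5847531759) (nat_lit 380) (nat_lit 6593044526) (nat_lit 113) (nat_lit 5) (nat_lit 117) (nat_lit 5) (nat_lit 118) (nat_lit 5) (nat_lit 381) (nat_lit 327) (nat_lit 192)) (XT.nd (nat_lit 78) (nat_lit 76) (nat_lit 0) (XT.lf (nat_lit 0) (nat_lit 105737060) (nat_lit 304) (nat_lit 20973035518) (nat_lit 380) (nat_lit 2121031080) (nat_lit 109) (nat_lit 5) (nat_lit 113) (nat_lit 5) (nat_lit 114) (nat_lit 5) (nat_lit 382) (nat_lit 327) (nat_lit 191)) (XT.lf (nat_lit 0) (nat_lit 2612482474) (nat_lit 380) (nat_lit 10454774738) (nat_lit 76) (nat_lit 10572325259) (nat_lit 108) (nat_lit 5) (nat_lit 113) (nat_lit 5) (nat_lit 109) (nat_lit 5) (nat_lit 383) (nat_lit 327) (nat_lit 190)))) (XT.nd (nat_lit 156) (nat_lit 228) (nat_lit 0) (XT.nd (nat_lit 78) (nat_lit 0) (nat_lit 0) (XT.lf (nat_lit 0) (nat_lit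 2580029005) (nat_lit 304) (nat_lit 4881470965) (nat_lit 380) (nat_lit 16629943411) (nat_lit 104) (nat_lit 5) (nat_lit 108) (nat_lit 5) (nat_lit 109) (nat_lit 5) (nat_lit 384) (nat_lit 327) (nat_lit 189)) (XT.lf (nat_lit 0) (nat_lit 12588145022) (nat_lit 380) (nat_lit 8381774166) (nat_lit 76) (nat_lit 3582978760) (nat_lit 104) (nat_lit 5) (nat_lit 109) (nat_lit 5) (nat_lit 105) (nat_lit 5) (nat_lit 385) (nat_lit 327) (nat_lit 188))) (XT.nd (nat_lit 78) (nat_lit 0) (nat_lit 0) (XT.lf (nat_lit 0) (nat_lit 5181819679) (nat_lit 228) (nat_lit 12776577325) (nat_lit 304) (nat_lit 7067107385) (nat_lit 101) (nat_lit 5) (nat_lit 104) (nat_lit 5) (nat_lit 105) (nat_lit 5) (nat_lit 386) (nat_lit 327) (nat_lit 187)) (XT.lf (nat_lit 0) (nat_lit 19311544061) (nat_lit 228) (nat_lit 4254639018) (nat_lit 304) (nat_lit 1943815544) (nat_lit 101) (nat_lit 5) (nat_lit 104) (nat_lit 5) (nat_lit 105) (nat_lit 5) (nat_lit 387) (nat_lit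 327) (nat_lit 186)))))) (XT.nd (nat_lit 546) (nat_lit 836) (nat_lit 0) (XT.nd (nat_lit 234) (nat_lit 532) (nat_lit 0) (XT.nd (nat_lit 78) (nat_lit 228) (nat_lit 0) (XT.lf (nat_lit 0) (nat_lit 3381174388) (nat_lit 380) (nat_lit 18083355078) (nat_lit 76) (nat_lit 4540148011) (nat_lit 96) (nat_lit 5) (nat_lit 101) (nat_lit 5) (nat_lit 97) (nat_lit 5) (nat_lit 388) (nat_lit 327) (nat_lit 185)) (XT.nd (nat_lit 78) (nat_lit 228) (nat_lit 0) (XT.lf (nat_lit 0) (nat_lit 8924202416) (nat_lit 380) (nat_lit 3995022944) (nat_lit 76) (nat_lit 13591475442) (nat_lit 96) (nat_lit 5) (nat_lit 101) (nat_lit 5) (nat_lit 97) (nat_lit 5) (nat_lit 389) (nat_lit 327) (nat_lit 184)) (XT.lf (nat_lit 0) (nat_lit 10712901232) (nat_lit 228) (nat_lit 4015851500) (nat_lit 304) (nat_lit 12300297278) (nat_lit 93) (nat_lit 5) (nat_lit 96) (nat_lit 5) (nat_lit 97) (nat_lit 5) (nat_lit 390) (nat_lit 327) (nat_lit 183)))) (XT.nd (nat_lit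 156) (nat_lit 304) (nat_lit 0) (XT.nd (nat_lit 78) (nat_lit 228) (nat_lit 0) (XT.lf (nat_lit 0) (nat_lit 20790051390) (nat_lit 304) (nat_lit 1679906967) (nat_lit 76) (nat_lit 5090515048) (nat_lit 93) (nat_lit 5) (nat_lit 97) (nat_lit 5) (nat_lit 94) (nat_lit 5) (nat_lit 391) (nat_lit 327) (nat_lit 182)) (XT.lf (nat_lit 0) (nat_lit 13609408510) (nat_lit 228) (nat_lit 13586908132) (nat_lit 304) (nat_lit 906631036) (nat_lit 90) (nat_lit 5) (nat_lit 93) (nat_lit 5) (nat_lit 94) (nat_lit 5) (nat_lit 392) (nat_lit 327) (nat_lit 181))) (XT.nd (nat_lit 78) (nat_lit 0) (nat_lit 0) (XT.lf (nat_lit 0) (nat_lit 682607527) (nat_lit 228) (nat_lit 4366569461) (nat_lit 304) (nat_lit 23610552771) (nat_lit 86) (nat_lit 5) (nat_lit 89) (nat_lit 5) (nat_lit 90) (nat_lit 5) (nat_lit 393) (nat_lit 327) (nat_lit 180)) (XT.lf (nat_lit 0) (nat_lit 11355194290) (nat_lit 304) (nat_lit 12689342449) (nat_lit 76) (nat_lit 5182718379)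 (nat_lit 86) (nat_lit 5) (nat_lit 90) (nat_lit 5) (nat_lit 87) (nat_lit 5) (nat_lit 394) (nat_lit 327) (nat_lit 179))))) (XT.nd (nat_lit 234) (nat_lit 380) (nat_lit 0) (XT.nd (nat_lit 78) (nat_lit 228) (nat_lit 0) (XT.lf (nat_lit 0) (nat_lit 3062017640) (nat_lit 228) (nat_lit 14853891991) (nat_lit 304) (nat_lit 11893932864) (nat_lit 83) (nat_lit 5) (nat_lit 86) (nat_lit 5) (nat_lit 87) (nat_lit 5) (nat_lit 395) (nat_lit 327) (nat_lit 178)) (XT.nd (nat_lit 78) (nat_lit 228) (nat_lit 0) (XT.lf (nat_lit 0) (nat_lit 19534580332) (nat_lit 228) (nat_lit 5259951863) (nat_lit 304) (nat_lit 5611744454) (nat_lit 83) (nat_lit 5) (nat_lit 86) (nat_lit 5) (nat_lit 87) (nat_lit 5) (nat_lit 396) (nat_lit 327) (nat_lit 177)) (XT.lf (nat_lit 0) (nat_lit 933772277) (nat_lit 228) (nat_lit 25494071313) (nat_lit 76) (nat_lit 4589765486) (nat_lit 80) (nat_lit 5) (nat_lit 83) (nat_lit 5) (nat_lit 81) (nat_lit 5) (nat_lit 397)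 (nat_lit 327) (nat_lit 176)))) (XT.nd (nat_lit 156) (nat_lit 152) (nat_lit 0) (XT.nd (nat_lit 78) (nat_lit 228) (nat_lit 0) (XT.lf (nat_lit 0) (nat_lit 7718949348) (nat_lit 228) (nat_lit 9130544540) (nat_lit 76) (nat_lit 14791439754) (nat_lit 80) (nat_lit 5) (nat_lit 83) (nat_lit 5) (nat_lit 81) (nat_lit 5) (nat_lit 398) (nat_lit 327) (nat_lit 175)) (XT.lf (nat_lit 0) (nat_lit 7866402485) (nat_lit 228) (nat_lit 6910232655) (nat_lit 304) (nat_lit 17504255740) (nat_lit 77) (nat_lit 5) (nat_lit 80) (nat_lit 5) (nat_lit 81) (nat_lit 5) (nat_lit 399) (nat_lit 327) (nat_lit 174))) (XT.nd (nat_lit 78) (nat_lit 152) (nat_lit 0) (XT.lf (nat_lit 0) (nat_lit 22164532962) (nat_lit 304) (nat_lit 7420788696) (nat_lit 76) (nat_lit 3351172225) (nat_lit 77) (nat_lit 5) (nat_lit 81) (nat_lit 5) (nat_lit 78) (nat_lit 5) (nat_lit 400) (nat_lit 327) (nat_lit 173)) (XT.lf (nat_lit 0) (nat_lit 10202679346) (nat_lit 152) (nat_lit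 19731458426) (nat_lit 228) (nat_lit 3672826551) (nat_lit 75) (nat_lit 5) (nat_lit 77) (nat_lit 5) (nat_lit 78) (nat_lit 5) (nat_lit 401) (nat_lit 327) (nat_lit 172))))))) (XT.nd (nat_lit 1014) (nat_lit 1216) (nat_lit 0) (XT.nd (nat_lit 468) (nat_lit 532) (nat_lit 0) (XT.nd (nat_lit 234) (nat_lit 456) (nat_lit 0) (XT.nd (nat_lit 78) (nat_lit 228) (nat_lit 0) (XT.lf (nat_lit 0) (nat_lit 3637542158) (nat_lit 228) (nat_lit 5834794669) (nat_lit 76) (nat_lit 24822085650) (nat_lit 74) (nat_lit 5) (nat_lit 77) (nat_lit 5) (nat_lit 75) (nat_lit 5) (nat_lit 402) (nat_lit 327) (nat_lit 171)) (XT.nd (nat_lit 78) (nat_lit 0) (nat_lit 0) (XT.lf (nat_lit 0) (nat_lit 11218968278) (nat_lit 304) (nat_lit 22551943873) (nat_lit 76) (nat_lit 1226735617) (nat_lit 71) (nat_lit 5) (nat_lit 75) (nat_lit 5) (nat_lit 72) (nat_lit 5) (nat_lit 403) (nat_lit 327) (nat_lit 170)) (XT.lf (nat_lit 0) (nat_lit 19174952448) (nat_lit 304)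 (nat_lit 4430815336) (nat_lit 76) (nat_lit 12111789861) (nat_lit 71) (nat_lit 5) (nat_lit 75) (nat_lit 5) (nat_lit 72) (nat_lit 5) (nat_lit 404) (nat_lit 327) (nat_lit 169)))) (XT.nd (nat_lit 78) (nat_lit 304) (nat_lit 0) (XT.lf (nat_lit 0) (nat_lit 14506863925) (nat_lit 152) (nat_lit 12996207285) (nat_lit 228) (nat_lit 8951991207) (nat_lit 69) (nat_lit 5) (nat_lit 71) (nat_lit 5) (nat_lit 72) (nat_lit 5) (nat_lit 405) (nat_lit 327) (nat_lit 168)) (XT.nd (nat_lit 78) (nat_lit 304) (nat_lit 0) (XT.lf (nat_lit 0) (nat_lit 34093436287) (nat_lit 152) (nat_lit 2026423840) (nat_lit 228) (nat_lit 1093668621) (nat_lit 69) (nat_lit 5) (nat_lit 71) (nat_lit 5) (nat_lit 72) (nat_lit 5) (nat_lit 406) (nat_lit 327) (nat_lit 167)) (XT.lf (nat_lit 0) (nat_lit 7108111586) (nat_lit 304) (nat_lit 21561471427) (nat_lit 76) (nat_lit 9315819102) (nat_lit 65) (nat_lit 5) (nat_lit 69) (nat_lit 5) (nat_lit 66) (nat_lit 5) (nat_lit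 407) (nat_lit 327) (nat_lit 166))))) (XT.nd (nat_lit 234) (nat_lit 380) (nat_lit 0) (XT.nd (nat_lit 78) (nat_lit 152) (nat_lit 0) (XT.lf (nat_lit 0) (nat_lit 15580080035) (nat_lit 304) (nat_lit 2202382077) (nat_lit 76) (nat_lit 20996262336) (nat_lit 65) (nat_lit 5) (nat_lit 69) (nat_lit 5) (nat_lit 66) (nat_lit 5) (nat_lit 408) (nat_lit 327) (nat_lit 165)) (XT.nd (nat_lit 78) (nat_lit 0) (nat_lit 0) (XT.lf (nat_lit 0) (nat_lit 18080662874) (nat_lit 152) (nat_lit 6393749117) (nat_lit 228) (nat_lit 15116389403) (nat_lit 63) (nat_lit 5) (nat_lit 65) (nat_lit 5) (nat_lit 66) (nat_lit 5) (nat_lit 409) (nat_lit 327) (nat_lit 164)) (XT.lf (nat_lit 0) (nat_lit 33703767547) (nat_lit 228) (nat_lit 1470416429) (nat_lit 76) (nat_lit 5251011910) (nat_lit 63) (nat_lit 5) (nat_lit 66) (nat_lit 5) (nat_lit 64) (nat_lit 5) (nat_lit 410) (nat_lit 327) (nat_lit 163)))) (XT.nd (nat_lit 156) (nat_lit 152) (nat_lit 0) (XT.nd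 (nat_lit 78) (nat_lit 0) (nat_lit 0) (XT.lf (nat_lit 0) (nat_lit 2135371224) (nat_lit 228) (nat_lit 21820315636) (nat_lit 76) (nat_lit 17320954277) (nat_lit 60) (nat_lit 5) (nat_lit 63) (nat_lit 5) (nat_lit 61) (nat_lit 5) (nat_lit 411) (nat_lit 327) (nat_lit 162)) (XT.lf (nat_lit 0) (nat_lit 11132387171) (nat_lit 228) (nat_lit 1188272560) (nat_lit 76) (nat_lit 29830686316) (nat_lit 60) (nat_lit 5) (nat_lit 63) (nat_lit 5) (nat_lit 61) (nat_lit 5) (nat_lit 412) (nat_lit 327) (nat_lit 161))) (XT.nd (nat_lit 78) (nat_lit 0) (nat_lit 0) (XT.lf (nat_lit 0) (nat_lit 20452707466) (nat_lit 152) (nat_lit 137978137) (nat_lit 228) (nat_lit 22455866269) (nat_lit 58) (nat_lit 5) (nat_lit 60) (nat_lit 5) (nat_lit 61) (nat_lit 5) (nat_lit 413) (nat_lit 327) (nat_lit 160)) (XT.lf (nat_lit 0) (nat_lit 30458941605) (nat_lit 228) (nat_lit 1329551136) (nat_lit 76) (nat_lit 12176335775) (nat_lit 58) (nat_lit 5) (nat_lit 61)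 (nat_lit 5) (nat_lit 59) (nat_lit 5) (nat_lit 414) (nat_lit 327) (nat_lit 159)))))) (XT.nd (nat_lit 546) (nat_lit 456) (nat_lit 0) (XT.nd (nat_lit 234) (nat_lit 380) (nat_lit 0) (XT.nd (nat_lit 78) (nat_lit 228) (nat_lit 0) (XT.lf (nat_lit 0) (nat_lit 20971644439) (nat_lit 152) (nat_lit 19849507116) (nat_lit 228) (nat_lit 4083565593) (nat_lit 56) (nat_lit 5) (nat_lit 58) (nat_lit 5) (nat_lit 59) (nat_lit 5) (nat_lit 415) (nat_lit 327) (nat_lit 158)) (XT.nd (nat_lit 78) (nat_lit 152) (nat_lit 0) (XT.lf (nat_lit 0) (nat_lit 5520250038) (nat_lit 228) (nat_lit 1966345433) (nat_lit 76) (nat_lit 38384331129) (nat_lit 55) (nat_lit 5) (nat_lit 58) (nat_lit 5) (nat_lit 56) (nat_lit 5) (nat_lit 416) (nat_lit 327) (nat_lit 157)) (XT.lf (nat_lit 0) (nat_lit 15580077427) (nat_lit 228) (nat_lit 25891308720) (nat_lit 76) (nat_lit 5386024862) (nat_lit 53) (nat_lit 5) (nat_lit 56) (nat_lit 5) (nat_lit 54) (nat_lit 5) (nat_lit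 417) (nat_lit 327) (nat_lit 156)))) (XT.nd (nat_lit 156) (nat_lit 228) (nat_lit 0) (XT.nd (nat_lit 78) (nat_lit 152) (nat_lit 0) (XT.lf (nat_lit 0) (nat_lit 26031008468) (nat_lit 228) (nat_lit 3329056326) (nat_lit 76) (nat_lit 18510746671) (nat_lit 53) (nat_lit 5) (nat_lit 56) (nat_lit 5) (nat_lit 54) (nat_lit 5) (nat_lit 418) (nat_lit 327) (nat_lit 155)) (XT.lf (nat_lit 0) (nat_lit 20297725610) (nat_lit 152) (nat_lit 16688129085) (nat_lit 228) (nat_lit 11923048379) (nat_lit 51) (nat_lit 5) (nat_lit 53) (nat_lit 5) (nat_lit 54) (nat_lit 5) (nat_lit 419) (nat_lit 327) (nat_lit 154))) (XT.nd (nat_lit 78) (nat_lit 228) (nat_lit 0) (XT.lf (nat_lit 0) (nat_lit 44693216177) (nat_lit 152) (nat_lit 3605077705) (nat_lit 228) (nat_lit 1678975854) (nat_lit 51) (nat_lit 5) (nat_lit 53) (nat_lit 5) (nat_lit 54) (nat_lit 5) (nat_lit 420) (nat_lit 327) (nat_lit 153)) (XT.lf (nat_lit 0) (nat_lit 8975045381) (nat_lit 228)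 (nat_lit 32146712120) (nat_lit 76) (nat_lit 9945099195) (nat_lit 48) (nat_lit 5) (nat_lit 51) (nat_lit 5) (nat_lit 49) (nat_lit 5) (nat_lit 421) (nat_lit 327) (nat_lit 152))))) (XT.nd (nat_lit 234) (nat_lit 304) (nat_lit 0) (XT.nd (nat_lit 78) (nat_lit 152) (nat_lit 0) (XT.lf (nat_lit 0) (nat_lit 19999964284) (nat_lit 228) (nat_lit 8289797489) (nat_lit 76) (nat_lit 23896320773) (nat_lit 48) (nat_lit 5) (nat_lit 51) (nat_lit 5) (nat_lit 49) (nat_lit 5) (nat_lit 422) (nat_lit 327) (nat_lit 151)) (XT.nd (nat_lit 78) (nat_lit 0) (nat_lit 0) (XT.lf (nat_lit 0) (nat_lit 16598757294) (nat_lit 152) (nat_lit 14912005687) (nat_lit 228) (nat_lit 21823468876) (nat_lit 46) (nat_lit 5) (nat_lit 48) (nat_lit 5) (nat_lit 49) (nat_lit 5) (nat_lit 423) (nat_lit 327) (nat_lit 150)) (XT.lf (nat_lit 0) (nat_lit 42396010743) (nat_lit 152) (nat_lit 1050213454) (nat_lit 228) (nat_lit 11068221928) (nat_lit 46) (nat_lit 5) (nat_lit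 48) (nat_lit 5) (nat_lit 49) (nat_lit 5) (nat_lit 424) (nat_lit 327) (nat_lit 149)))) (XT.nd (nat_lit 156) (nat_lit 152) (nat_lit 0) (XT.nd (nat_lit 78) (nat_lit 0) (nat_lit 0) (XT.lf (nat_lit 0) (nat_lit 263306821) (nat_lit 152) (nat_lit 42362140658) (nat_lit 76) (nat_lit 13097002746) (nat_lit 44) (nat_lit 5) (nat_lit 46) (nat_lit 5) (nat_lit 45) (nat_lit 5) (nat_lit 425) (nat_lit 327) (nat_lit 148)) (XT.lf (nat_lit 0) (nat_lit 11842034023) (nat_lit 152) (nat_lit 17240151984) (nat_lit 76) (nat_lit 27877330042) (nat_lit 44) (nat_lit 5) (nat_lit 46) (nat_lit 5) (nat_lit 45) (nat_lit 5) (nat_lit 426) (nat_lit 327) (nat_lit 147))) (XT.nd (nat_lit 78) (nat_lit 0) (nat_lit 0) (XT.lf (nat_lit 0) (nat_lit 8799670287) (nat_lit 152) (nat_lit 15048895611) (nat_lit 228) (nat_lit 34382715228) (nat_lit 42) (nat_lit 5) (nat_lit 44) (nat_lit 5) (nat_lit 45) (nat_lit 5) (nat_lit 427) (nat_lit 327) (nat_lit 146)) (XT.lf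 (nat_lit 0) (nat_lit 35966628032) (nat_lit 152) (nat_lit 418661435) (nat_lit 228) (nat_lit 23150810361) (nat_lit 42) (nat_lit 5) (nat_lit 44) (nat_lit 5) (nat_lit 45) (nat_lit 5) (nat_lit 428) (nat_lit 327) (nat_lit 145))))))))
noncomputable def xc172 : XT := (XT.nd (nat_lit 40170) (nat_lit 0) (nat_lit 8740) (XT.nd (nat_lit 39078) (nat_lit 0) (nat_lit 17100) (XT.nd (nat_lit 468) (nat_lit 532) (nat_lit 0) (XT.nd (nat_lit 234) (nat_lit 228) (nat_lit 0) (XT.nd (nat_lit 78) (nat_lit 76) (nat_lit 0) (XT.lf (nat_lit 0) (nat_lit 2978486691) (nat_lit 76) (nat_lit 46485080327) (nat_lit 152) (nat_lit 11411533036) (nat_lit 41) (nat_lit 5) (nat_lit 42) (nat_lit 5) (nat_lit 43) (nat_lit 4) (nat_lit 429) (nat_lit 327) (nat_lit 144)) (XT.nd (nat_lit 78) (nat_lit 0) (nat_lit 0) (XT.lf (nat_lit 0) (nat_lit 907161021) (nat_lit 152) (nat_lit 31461477167) (nat_lit 76) (nat_lit 29878221339) (nat_lit 40) (nat_lit 5) (nat_lit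 42) (nat_lit 5) (nat_lit 41) (nat_lit 5) (nat_lit 430) (nat_lit 327) (nat_lit 143)) (XT.lf (nat_lit 0) (nat_lit 13362170968) (nat_lit 152) (nat_lit 4353402997) (nat_lit 76) (nat_lit 45940925273) (nat_lit 40) (nat_lit 5) (nat_lit 42) (nat_lit 5) (nat_lit 41) (nat_lit 5) (nat_lit 431) (nat_lit 327) (nat_lit 142)))) (XT.nd (nat_lit 78) (nat_lit 76) (nat_lit 0) (XT.lf (nat_lit 0) (nat_lit 24029900356) (nat_lit 152) (nat_lit 2388149679) (nat_lit 228) (nat_lit 38683562009) (nat_lit 38) (nat_lit 5) (nat_lit 40) (nat_lit 5) (nat_lit 41) (nat_lit 5) (nat_lit 432) (nat_lit 327) (nat_lit 141)) (XT.nd (nat_lit 78) (nat_lit 76) (nat_lit 0) (XT.lf (nat_lit 0) (nat_lit 40035044490) (nat_lit 228) (nat_lit 13370988973) (nat_lit 76) (nat_lit 13178962061) (nat_lit 38) (nat_lit 5) (nat_lit 41) (nat_lit 5) (nat_lit 39) (nat_lit 4) (nat_lit 433) (nat_lit 327) (nat_lit 140)) (XT.lf (nat_lit 0) (nat_lit 15431499278) (nat_lit 76)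 (nat_lit 38797383599) (nat_lit 152) (nat_lit 13878948053) (nat_lit 37) (nat_lit 5) (nat_lit 38) (nat_lit 5) (nat_lit 39) (nat_lit 4) (nat_lit 434) (nat_lit 327) (nat_lit 139))))) (XT.nd (nat_lit 234) (nat_lit 304) (nat_lit 0) (XT.nd (nat_lit 78) (nat_lit 228) (nat_lit 0) (XT.lf (nat_lit 0) (nat_lit 45365485143) (nat_lit 76) (nat_lit 23614466227) (nat_lit 152) (nat_lit 692458008) (nat_lit 37) (nat_lit 5) (nat_lit 38) (nat_lit 5) (nat_lit 39) (nat_lit 4) (nat_lit 435) (nat_lit 327) (nat_lit 138)) (XT.nd (nat_lit 78) (nat_lit 0) (nat_lit 0) (XT.lf (nat_lit 0) (nat_lit 4878310096) (nat_lit 152) (nat_lit 7803151033) (nat_lit 228) (nat_lit 58597446645) (nat_lit 34) (nat_lit 5) (nat_lit 36) (nat_lit 5) (nat_lit 37) (nat_lit 5) (nat_lit 436) (nat_lit 327) (nat_lit 137)) (XT.lf (nat_lit 0) (nat_lit 26768577744) (nat_lit 228) (nat_lit 37586251332) (nat_lit 76) (nat_lit 8568789834) (nat_lit 34) (nat_lit 5) (nat_lit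 37) (nat_lit 5) (nat_lit 35) (nat_lit 4) (nat_lit 437) (nat_lit 327) (nat_lit 136)))) (XT.nd (nat_lit 234) (nat_lit 228) (nat_lit 0) (XT.nd (nat_lit 78) (nat_lit 76) (nat_lit 0) (XT.lf (nat_lit 0) (nat_lit 41352145525) (nat_lit 228) (nat_lit 7991100600) (nat_lit 76) (nat_lit 25272210505) (nat_lit 34) (nat_lit 5) (nat_lit 37) (nat_lit 5) (nat_lit 35) (nat_lit 4) (nat_lit 438) (nat_lit 327) (nat_lit 135)) (XT.lf (nat_lit 0) (nat_lit 22933232994) (nat_lit 76) (nat_lit 33657114008) (nat_lit 152) (nat_lit 19761189053) (nat_lit 33) (nat_lit 5) (nat_lit 34) (nat_lit 5) (nat_lit 35) (nat_lit 4) (nat_lit 439) (nat_lit 327) (nat_lit 134))) (XT.nd (nat_lit 38064) (nat_lit 0) (nat_lit 18012) (XT.lf (nat_lit 0) (nat_lit 8003429257) (nat_lit 152) (nat_lit 534093594) (nat_lit 228) (nat_lit 71434567659) (nat_lit 30) (nat_lit 5) (nat_lit 32) (nat_lit 5) (nat_lit 33) (nat_lit 5) (nat_lit 441) (nat_lit 327) (nat_lit 132))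 (XT.lf (nat_lit 0) (nat_lit 1899725326) (nat_lit 1140) (nat_lit 1505626221) (nat_lit 1140) (nat_lit 1505626221) (nat_lit 267) (nat_lit 3) (nat_lit 282) (nat_lit 3) (nat_lit 282) (nat_lit 5) (nat_lit 328) (nat_lit 328) (nat_lit 244)))))) (XT.nd (nat_lit 546) (nat_lit 912) (nat_lit 0) (XT.nd (nat_lit 234) (nat_lit 0) (nat_lit 76) (XT.nd (nat_lit 78) (nat_lit 0) (nat_lit 76) (XT.lf (nat_lit 76) (nat_lit 1729590839) (nat_lit 0) (nat_lit 2861094601) (nat_lit 1140) (nat_lit 5356165347) (nat_lit 268) (nat_lit 5) (nat_lit 267) (nat_lit 3) (nat_lit 282) (nat_lit 5) (nat_lit 329) (nat_lit 328) (nat_lit 243)) (XT.nd (nat_lit 78) (nat_lit 0) (nat_lit 0) (XT.lf (nat_lit 0) (nat_lit 5419949547) (nat_lit 1064) (nat_lit 3427804986) (nat_lit 1140) (nat_lit 1227325470) (nat_lit 268) (nat_lit 5) (nat_lit 282) (nat_lit 5) (nat_lit 283) (nat_lit 5) (nat_lit 330) (nat_lit 328) (nat_lit 242)) (XT.lf (nat_lit 76) (nat_lit 1490847315)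 (nat_lit 0) (nat_lit 4798699972) (nat_lit 1140) (nat_lit 3917160551) (nat_lit 269) (nat_lit 5) (nat_lit 268) (nat_lit 5) (nat_lit 283) (nat_lit 5) (nat_lit 331) (nat_lit 328) (nat_lit 241)))) (XT.nd (nat_lit 156) (nat_lit 0) (nat_lit 76) (XT.nd (nat_lit 78) (nat_lit 0) (nat_lit 76) (XT.lf (nat_lit 76) (nat_lit 6612224900) (nat_lit 0) (nat_lit 581066432) (nat_lit 1140) (nat_lit 3148766389) (nat_lit 269) (nat_lit 5) (nat_lit 268) (nat_lit 5) (nat_lit 283) (nat_lit 5) (nat_lit 332) (nat_lit 328) (nat_lit 240)) (XT.lf (nat_lit 76) (nat_lit 1380994715) (nat_lit 0) (nat_lit 6766925767) (nat_lit 1140) (nat_lit 2332848964) (nat_lit 270) (nat_lit 5) (nat_lit 269) (nat_lit 5) (nat_lit 284) (nat_lit 5) (nat_lit 333) (nat_lit 328) (nat_lit 239))) (XT.nd (nat_lit 78) (nat_lit 0) (nat_lit 76) (XT.lf (nat_lit 76) (nat_lit 6700333877) (nat_lit 0) (nat_lit 2449139750) (nat_lit 1140) (nat_lit 1473634446) (nat_lit 270) (nat_lit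 5) (nat_lit 269) (nat_lit 5) (nat_lit 284) (nat_lit 5) (nat_lit 334) (nat_lit 328) (nat_lit 238)) (XT.lf (nat_lit 76) (nat_lit 1401895497) (nat_lit 0) (nat_lit 8787606492) (nat_lit 1140) (nat_lit 579975708) (nat_lit 271) (nat_lit 5) (nat_lit 270) (nat_lit 5) (nat_lit 285) (nat_lit 5) (nat_lit 335) (nat_lit 328) (nat_lit 237))))) (XT.nd (nat_lit 234) (nat_lit 0) (nat_lit 76) (XT.nd (nat_lit 78) (nat_lit 0) (nat_lit 76) (XT.lf (nat_lit 0) (nat_lit 374155497) (nat_lit 1140) (nat_lit 3996369719) (nat_lit 1216) (nat_lit 6548418703) (nat_lit 255) (nat_lit 5) (nat_lit 270) (nat_lit 5) (nat_lit 271) (nat_lit 5) (nat_lit 336) (nat_lit 328) (nat_lit 236)) (XT.nd (nat_lit 78) (nat_lit 0) (nat_lit 0) (XT.lf (nat_lit 0) (nat_lit 1338851723) (nat_lit 1140) (nat_lit 9530258852) (nat_lit 1216) (nat_lit 203815873) (nat_lit 256) (nat_lit 5) (nat_lit 271) (nat_lit 5) (nat_lit 272) (nat_lit 5) (nat_lit 337) (nat_lit 328) (nat_lit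 235)) (XT.lf (nat_lit 0) (nat_lit 2393864956) (nat_lit 1140) (nat_lit 3960456134) (nat_lit 1216) (nat_lit 4875378249) (nat_lit 256) (nat_lit 5) (nat_lit 271) (nat_lit 5) (nat_lit 272) (nat_lit 5) (nat_lit 338) (nat_lit 328) (nat_lit 234)))) (XT.nd (nat_lit 156) (nat_lit 0) (nat_lit 76) (XT.nd (nat_lit 78) (nat_lit 0) (nat_lit 76) (XT.lf (nat_lit 76) (nat_lit 1795690817) (nat_lit 0) (nat_lit 1680107336) (nat_lit 1216) (nat_lit 7915530989) (nat_lit 257) (nat_lit 5) (nat_lit 256) (nat_lit 5) (nat_lit 272) (nat_lit 5) (nat_lit 339) (nat_lit 328) (nat_lit 233)) (XT.lf (nat_lit 0) (nat_lit 4639262193) (nat_lit 1140) (nat_lit 3797773842) (nat_lit 1216) (nat_lit 3119311087) (nat_lit 257) (nat_lit 5) (nat_lit 272) (nat_lit 5) (nat_lit 273) (nat_lit 5) (nat_lit 340) (nat_lit 328) (nat_lit 232))) (XT.nd (nat_lit 78) (nat_lit 0) (nat_lit 76) (XT.lf (nat_lit 76) (nat_lit 2184140116) (nat_lit 0) (nat_lit 3670299583)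 (nat_lit 1216) (nat_lit 5871382792) (nat_lit 258) (nat_lit 5) (nat_lit 257) (nat_lit 5) (nat_lit 273) (nat_lit 5) (nat_lit 341) (nat_lit 328) (nat_lit 231)) (XT.lf (nat_lit 0) (nat_lit 7136396106) (nat_lit 1140) (nat_lit 3504546449) (nat_lit 1216) (nat_lit 1258540670) (nat_lit 258) (nat_lit 5) (nat_lit 273) (nat_lit 5) (nat_lit 274) (nat_lit 5) (nat_lit 342) (nat_lit 328) (nat_lit 230))))))) (XT.nd (nat_lit 1014) (nat_lit 3800) (nat_lit 0) (XT.nd (nat_lit 468) (nat_lit 2432) (nat_lit 0) (XT.nd (nat_lit 234) (nat_lit 1292) (nat_lit 0) (XT.nd (nat_lit 78) (nat_lit 1064) (nat_lit 0) (XT.lf (nat_lit 76) (nat_lit 2714426351) (nat_lit 0) (nat_lit 5785088593) (nat_lit 1216) (nat_lit 3577568219) (nat_lit 259) (nat_lit 5) (nat_lit 258) (nat_lit 5) (nat_lit 274) (nat_lit 5) (nat_lit 343) (nat_lit 328) (nat_lit 229)) (XT.nd (nat_lit 78) (nat_lit 1064) (nat_lit 0) (XT.lf (nat_lit 76) (nat_lit 9176058203) (nat_lit 0)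 (nat_lit 743552829) (nat_lit 1216) (nat_lit 2339927748) (nat_lit 259) (nat_lit 5) (nat_lit 258) (nat_lit 5) (nat_lit 274) (nat_lit 5) (nat_lit 344) (nat_lit 328) (nat_lit 228)) (XT.lf (nat_lit 0) (nat_lit 3391587795) (nat_lit 1140) (nat_lit 8047383044) (nat_lit 1216) (nat_lit 1006807294) (nat_lit 244) (nat_lit 5) (nat_lit 259) (nat_lit 5) (nat_lit 260) (nat_lit 5) (nat_lit 345) (nat_lit 328) (nat_lit 227)))) (XT.nd (nat_lit 78) (nat_lit 1216) (nat_lit 0) (XT.lf (nat_lit 0) (nat_lit 379459094) (nat_lit 1216) (nat_lit 2539863703) (nat_lit 76) (nat_lit 9717576552) (nat_lit 243) (nat_lit 5) (nat_lit 259) (nat_lit 5) (nat_lit 244) (nat_lit 5) (nat_lit 346) (nat_lit 328) (nat_lit 226)) (XT.nd (nat_lit 78) (nat_lit 0) (nat_lit 0) (XT.lf (nat_lit 0) (nat_lit 1832973645) (nat_lit 1292) (nat_lit 8629263484) (nat_lit 76) (nat_lit 2369850195) (nat_lit 227) (nat_lit 5) (nat_lit 244) (nat_lit 5) (nat_lit 228) (nat_lit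 5) (nat_lit 347) (nat_lit 328) (nat_lit 225)) (XT.lf (nat_lit 0) (nat_lit 3367325975) (nat_lit 1292) (nat_lit 1877715120) (nat_lit 76) (nat_lit 7786981662) (nat_lit 227) (nat_lit 5) (nat_lit 244) (nat_lit 5) (nat_lit 228) (nat_lit 5) (nat_lit 348) (nat_lit 328) (nat_lit 224))))) (XT.nd (nat_lit 234) (nat_lit 1216) (nat_lit 0) (XT.nd (nat_lit 78) (nat_lit 608) (nat_lit 0) (XT.lf (nat_lit 0) (nat_lit 4982005241) (nat_lit 684) (nat_lit 8077215708) (nat_lit 76) (nat_lit 177714949) (nat_lit 219) (nat_lit 5) (nat_lit 228) (nat_lit 5) (nat_lit 220) (nat_lit 5) (nat_lit 349) (nat_lit 328) (nat_lit 223)) (XT.nd (nat_lit 78) (nat_lit 608) (nat_lit 0) (XT.lf (nat_lit 0) (nat_lit 6699504299) (nat_lit 684) (nat_lit 1068730423) (nat_lit 76) (nat_lit 5678138613) (nat_lit 219) (nat_lit 5) (nat_lit 228) (nat_lit 5) (nat_lit 220) (nat_lit 5) (nat_lit 350) (nat_lit 328) (nat_lit 222)) (XT.lf (nat_lit 0) (nat_lit 6256609203)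 (nat_lit 608) (nat_lit 2255847244) (nat_lit 684) (nat_lit 5148327648) (nat_lit 211) (nat_lit 5) (nat_lit 219) (nat_lit 5) (nat_lit 220) (nat_lit 5) (nat_lit 351) (nat_lit 328) (nat_lit 221)))) (XT.nd (nat_lit 156) (nat_lit 608) (nat_lit 0) (XT.nd (nat_lit 78) (nat_lit 608) (nat_lit 0) (XT.lf (nat_lit 0) (nat_lit 10407705505) (nat_lit 684) (nat_lit 106513976) (nat_lit 76) (nat_lit 3366578258) (nat_lit 211) (nat_lit 5) (nat_lit 220) (nat_lit 5) (nat_lit 212) (nat_lit 5) (nat_lit 352) (nat_lit 328) (nat_lit 220)) (XT.lf (nat_lit 0) (nat_lit 7519100217) (nat_lit 608) (nat_lit 4919903670) (nat_lit 684) (nat_lit 1666039731) (nat_lit 203) (nat_lit 5) (nat_lit 211) (nat_lit 5) (nat_lit 212) (nat_lit 5) (nat_lit 353) (nat_lit 328) (nat_lit 219))) (XT.nd (nat_lit 78) (nat_lit 0) (nat_lit 0) (XT.lf (nat_lit 0) (nat_lit 195470117) (nat_lit 608) (nat_lit 13301702165) (nat_lit 76) (nat_lit 838673783) (nat_lit 195) (nat_lit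 5) (nat_lit 203) (nat_lit 5) (nat_lit 196) (nat_lit 5) (nat_lit 354) (nat_lit 328) (nat_lit 218)) (XT.lf (nat_lit 0) (nat_lit 2180232875) (nat_lit 608) (nat_lit 5635430978) (nat_lit 76) (nat_lit 6754394006) (nat_lit 195) (nat_lit 5) (nat_lit 203) (nat_lit 5) (nat_lit 196) (nat_lit 5) (nat_lit 355) (nat_lit 328) (nat_lit 217)))))) (XT.nd (nat_lit 546) (nat_lit 1748) (nat_lit 0) (XT.nd (nat_lit 234) (nat_lit 1064) (nat_lit 0) (XT.nd (nat_lit 78) (nat_lit 456) (nat_lit 0) (XT.lf (nat_lit 0) (nat_lit 2290151501) (nat_lit 532) (nat_lit 1941855588) (nat_lit 608) (nat_lit 10579071596) (nat_lit 188) (nat_lit 5) (nat_lit 195) (nat_lit 5) (nat_lit 196) (nat_lit 5) (nat_lit 356) (nat_lit 328) (nat_lit 216)) (XT.nd (nat_lit 78) (nat_lit 456) (nat_lit 0) (XT.lf (nat_lit 0) (nat_lit 6428017519) (nat_lit 608) (nat_lit 4544295105) (nat_lit 76) (nat_lit 4084543564) (nat_lit 188) (nat_lit 5) (nat_lit 196) (nat_lit 5) (nat_lit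 189) (nat_lit 5) (nat_lit 357) (nat_lit 328) (nat_lit 215)) (XT.lf (nat_lit 0) (nat_lit 3709612308) (nat_lit 456) (nat_lit 5021319696) (nat_lit 532) (nat_lit 6577850650) (nat_lit 182) (nat_lit 5) (nat_lit 188) (nat_lit 5) (nat_lit 189) (nat_lit 5) (nat_lit 358) (nat_lit 328) (nat_lit 214)))) (XT.nd (nat_lit 156) (nat_lit 532) (nat_lit 0) (XT.nd (nat_lit 78) (nat_lit 532) (nat_lit 0) (XT.lf (nat_lit 0) (nat_lit 11146313262) (nat_lit 532) (nat_lit 3289143600) (nat_lit 76) (nat_lit 1131514837) (nat_lit 182) (nat_lit 5) (nat_lit 189) (nat_lit 5) (nat_lit 183) (nat_lit 5) (nat_lit 359) (nat_lit 328) (nat_lit 213)) (XT.lf (nat_lit 0) (nat_lit 5309079989) (nat_lit 532) (nat_lit 8412606518) (nat_lit 608) (nat_lit 2108599979) (nat_lit 175) (nat_lit 5) (nat_lit 182) (nat_lit 5) (nat_lit 183) (nat_lit 5) (nat_lit 360) (nat_lit 328) (nat_lit 212))) (XT.nd (nat_lit 78) (nat_lit 456) (nat_lit 0) (XT.lf (nat_lit 0) (nat_lit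 287927867) (nat_lit 608) (nat_lit 1885888005) (nat_lit 76) (nat_lit 13926998869) (nat_lit 174) (nat_lit 5) (nat_lit 182) (nat_lit 5) (nat_lit 175) (nat_lit 5) (nat_lit 361) (nat_lit 328) (nat_lit 211)) (XT.lf (nat_lit 0) (nat_lit 2811342558) (nat_lit 532) (nat_lit 9307186849) (nat_lit 76) (nat_lit 4257387444) (nat_lit 168) (nat_lit 5) (nat_lit 175) (nat_lit 5) (nat_lit 169) (nat_lit 5) (nat_lit 362) (nat_lit 328) (nat_lit 210))))) (XT.nd (nat_lit 234) (nat_lit 912) (nat_lit 0) (XT.nd (nat_lit 78) (nat_lit 836) (nat_lit 0) (XT.lf (nat_lit 0) (nat_lit 5438697111) (nat_lit 532) (nat_lit 364650644) (nat_lit 76) (nat_lit 10855082466) (nat_lit 168) (nat_lit 5) (nat_lit 175) (nat_lit 5) (nat_lit 169) (nat_lit 5) (nat_lit 363) (nat_lit 328) (nat_lit 209)) (XT.nd (nat_lit 78) (nat_lit 380) (nat_lit 0) (XT.lf (nat_lit 0) (nat_lit 8226880894) (nat_lit 532) (nat_lit 7947287939) (nat_lit 76) (nat_lit 772795064) (nat_lit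 162) (nat_lit 5) (nat_lit 169) (nat_lit 5) (nat_lit 163) (nat_lit 5) (nat_lit 364) (nat_lit 328) (nat_lit 208)) (XT.lf (nat_lit 0) (nat_lit 1362813279) (nat_lit 380) (nat_lit 9798215109) (nat_lit 456) (nat_lit 6081260663) (nat_lit 157) (nat_lit 5) (nat_lit 162) (nat_lit 5) (nat_lit 163) (nat_lit 5) (nat_lit 365) (nat_lit 328) (nat_lit 207)))) (XT.nd (nat_lit 156) (nat_lit 456) (nat_lit 0) (XT.nd (nat_lit 78) (nat_lit 456) (nat_lit 0) (XT.lf (nat_lit 0) (nat_lit 11100623771) (nat_lit 380) (nat_lit 3151077864) (nat_lit 456) (nat_lit 3292722150) (nat_lit 157) (nat_lit 5) (nat_lit 162) (nat_lit 5) (nat_lit 163) (nat_lit 5) (nat_lit 366) (nat_lit 328) (nat_lit 206)) (XT.lf (nat_lit 0) (nat_lit 3289202899) (nat_lit 456) (nat_lit 14201599012) (nat_lit 532) (nat_lit 363154172) (nat_lit 151) (nat_lit 5) (nat_lit 157) (nat_lit 5) (nat_lit 158) (nat_lit 5) (nat_lit 367) (nat_lit 328) (nat_lit 205))) (XT.nd (nat_lit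 78) (nat_lit 380) (nat_lit 0) (XT.lf (nat_lit 0) (nat_lit 2688064676) (nat_lit 532) (nat_lit 4796385944) (nat_lit 76) (nat_lit 10684995976) (nat_lit 150) (nat_lit 5) (nat_lit 157) (nat_lit 5) (nat_lit 151) (nat_lit 5) (nat_lit 368) (nat_lit 328) (nat_lit 204)) (XT.lf (nat_lit 0) (nat_lit 5351798364) (nat_lit 380) (nat_lit 512144155) (nat_lit 456) (nat_lit 12629143117) (nat_lit 145) (nat_lit 5) (nat_lit 150) (nat_lit 5) (nat_lit 151) (nat_lit 5) (nat_lit 369) (nat_lit 328) (nat_lit 203))))))))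
noncomputable def xc173 : XT := (XT.nd (nat_lit 2106) (nat_lit 2660) (nat_lit 0) (XT.nd (nat_lit 1014) (nat_lit 2280) (nat_lit 0) (XT.nd (nat_lit 468) (nat_lit 1292) (nat_lit 0) (XT.nd (nat_lit 234) (nat_lit 760) (nat_lit 0) (XT.nd (nat_lit 78) (nat_lit 380) (nat_lit 0) (XT.lf (nat_lit 0) (nat_lit 9237254102) (nat_lit 456) (nat_lit 3001053438) (nat_lit 76) (nat_lit 6585065786) (nat_lit 145) (nat_lit 5) (nat_lit 151) (nat_lit 5) (nat_lit 146) (nat_lit 5) (nat_lit 370) (nat_lit 328) (nat_lit 202)) (XT.nd (nat_lit 78) (nat_lit 0) (nat_lit 0) (XT.lf (nat_lit 0) (nat_lit 7572260517) (nat_lit 380) (nat_lit 5206815000) (nat_lit 456) (nat_lit 6382478889) (nat_lit 140) (nat_lit 5) (nat_lit 145) (nat_lit 5) (nat_lit 146) (nat_lit 5) (nat_lit 371) (nat_lit 328) (nat_lit 201)) (XT.lf (nat_lit 0) (nat_lit 16466918508) (nat_lit 456) (nat_lit 1018513049) (nat_lit 76) (nat_lit 2023260312) (nat_lit 140) (nat_lit 5) (nat_lit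 146) (nat_lit 5) (nat_lit 141) (nat_lit 5) (nat_lit 372) (nat_lit 328) (nat_lit 200)))) (XT.nd (nat_lit 78) (nat_lit 380) (nat_lit 0) (XT.lf (nat_lit 0) (nat_lit 530293295) (nat_lit 380) (nat_lit 9867915503) (nat_lit 76) (nat_lit 9463755413) (nat_lit 135) (nat_lit 5) (nat_lit 140) (nat_lit 5) (nat_lit 136) (nat_lit 5) (nat_lit 373) (nat_lit 328) (nat_lit 199)) (XT.nd (nat_lit 78) (nat_lit 0) (nat_lit 0) (XT.lf (nat_lit 0) (nat_lit 1110154545) (nat_lit 380) (nat_lit 3049249766) (nat_lit 456) (nat_lit 16065199967) (nat_lit 130) (nat_lit 5) (nat_lit 135) (nat_lit 5) (nat_lit 136) (nat_lit 5) (nat_lit 374) (nat_lit 328) (nat_lit 198)) (XT.lf (nat_lit 0) (nat_lit 8031561145) (nat_lit 456) (nat_lit 8033483404) (nat_lit 76) (nat_lit 4529057339) (nat_lit 130) (nat_lit 5) (nat_lit 136) (nat_lit 5) (nat_lit 131) (nat_lit 5) (nat_lit 375) (nat_lit 328) (nat_lit 197))))) (XT.nd (nat_lit 234) (nat_lit 684) (nat_lit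 0) (XT.nd (nat_lit 78) (nat_lit 304) (nat_lit 0) (XT.lf (nat_lit 0) (nat_lit 3402761031) (nat_lit 304) (nat_lit 8670398920) (nat_lit 380) (nat_lit 8899929572) (nat_lit 126) (nat_lit 5) (nat_lit 130) (nat_lit 5) (nat_lit 131) (nat_lit 5) (nat_lit 376) (nat_lit 328) (nat_lit 196)) (XT.nd (nat_lit 78) (nat_lit 304) (nat_lit 0) (XT.lf (nat_lit 0) (nat_lit 15333541903) (nat_lit 304) (nat_lit 974117608) (nat_lit 380) (nat_lit 5053641005) (nat_lit 126) (nat_lit 5) (nat_lit 130) (nat_lit 5) (nat_lit 131) (nat_lit 5) (nat_lit 377) (nat_lit 328) (nat_lit 195)) (XT.lf (nat_lit 0) (nat_lit 5896219804) (nat_lit 304) (nat_lit 14887260402) (nat_lit 380) (nat_lit 974252267) (nat_lit 122) (nat_lit 5) (nat_lit 126) (nat_lit 5) (nat_lit 127) (nat_lit 5) (nat_lit 378) (nat_lit 328) (nat_lit 194)))) (XT.nd (nat_lit 156) (nat_lit 304) (nat_lit 0) (XT.nd (nat_lit 78) (nat_lit 304) (nat_lit 0) (XT.lf (nat_lit 0) (nat_lit 3226475860)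 (nat_lit 380) (nat_lit 3917168305) (nat_lit 76) (nat_lit 15019627363) (nat_lit 121) (nat_lit 5) (nat_lit 126) (nat_lit 5) (nat_lit 122) (nat_lit 5) (nat_lit 379) (nat_lit 328) (nat_lit 193)) (XT.lf (nat_lit 0) (nat_lit 7615595755) (nat_lit 380) (nat_lit 14057828731) (nat_lit 76) (nat_lit 904807290) (nat_lit 117) (nat_lit 5) (nat_lit 122) (nat_lit 5) (nat_lit 118) (nat_lit 5) (nat_lit 380) (nat_lit 328) (nat_lit 192))) (XT.nd (nat_lit 78) (nat_lit 304) (nat_lit 0) (XT.lf (nat_lit 0) (nat_lit 12238256263) (nat_lit 380) (nat_lit 1677041602) (nat_lit 76) (nat_lit 9087289812) (nat_lit 117) (nat_lit 5) (nat_lit 122) (nat_lit 5) (nat_lit 118) (nat_lit 5) (nat_lit 381) (nat_lit 328) (nat_lit 191)) (XT.lf (nat_lit 0) (nat_lit 11282846561) (nat_lit 304) (nat_lit 5816654742) (nat_lit 380) (nat_lit 6337178588) (nat_lit 113) (nat_lit 5) (nat_lit 117) (nat_lit 5) (nat_lit 118) (nat_lit 5) (nat_lit 382) (nat_lit 328)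 (nat_lit 190)))))) (XT.nd (nat_lit 546) (nat_lit 988) (nat_lit 0) (XT.nd (nat_lit 234) (nat_lit 608) (nat_lit 0) (XT.nd (nat_lit 78) (nat_lit 380) (nat_lit 0) (XT.lf (nat_lit 0) (nat_lit 760435549) (nat_lit 304) (nat_lit 21386371136) (nat_lit 380) (nat_lit 1735784190) (nat_lit 109) (nat_lit 5) (nat_lit 113) (nat_lit 5) (nat_lit 114) (nat_lit 5) (nat_lit 383) (nat_lit 328) (nat_lit 189)) (XT.nd (nat_lit 78) (nat_lit 304) (nat_lit 0) (XT.lf (nat_lit 0) (nat_lit 3118156558) (nat_lit 380) (nat_lit 10127235086) (nat_lit 76) (nat_lit 11090430399) (nat_lit 108) (nat_lit 5) (nat_lit 113) (nat_lit 5) (nat_lit 109) (nat_lit 5) (nat_lit 384) (nat_lit 328) (nat_lit 188)) (XT.lf (nat_lit 0) (nat_lit 3292326663) (nat_lit 304) (nat_lit 4813975313) (nat_lit 380) (nat_lit 16695130837) (nat_lit 104) (nat_lit 5) (nat_lit 108) (nat_lit 5) (nat_lit 109) (nat_lit 5) (nat_lit 385) (nat_lit 328) (nat_lit 187)))) (XT.nd (nat_lit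 156) (nat_lit 380) (nat_lit 0) (XT.nd (nat_lit 78) (nat_lit 228) (nat_lit 0) (XT.lf (nat_lit 0) (nat_lit 13376482117) (nat_lit 380) (nat_lit 8006436967) (nat_lit 76) (nat_lit 3894123506) (nat_lit 104) (nat_lit 5) (nat_lit 109) (nat_lit 5) (nat_lit 105) (nat_lit 5) (nat_lit 386) (nat_lit 328) (nat_lit 186)) (XT.lf (nat_lit 0) (nat_lit 5957919690) (nat_lit 228) (nat_lit 12943926069) (nat_lit 304) (nat_lit 6862164883) (nat_lit 101) (nat_lit 5) (nat_lit 104) (nat_lit 5) (nat_lit 105) (nat_lit 5) (nat_lit 387) (nat_lit 328) (nat_lit 185))) (XT.nd (nat_lit 78) (nat_lit 380) (nat_lit 0) (XT.lf (nat_lit 0) (nat_lit 20493458751) (nat_lit 228) (nat_lit 4172619376) (nat_lit 304) (nat_lit 1597318629) (nat_lit 101) (nat_lit 5) (nat_lit 104) (nat_lit 5) (nat_lit 105) (nat_lit 5) (nat_lit 388) (nat_lit 328) (nat_lit 184)) (XT.lf (nat_lit 0) (nat_lit 3875824460) (nat_lit 380) (nat_lit 18011471655) (nat_lit 76) (nat_lit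 4885617278) (nat_lit 96) (nat_lit 5) (nat_lit 101) (nat_lit 5) (nat_lit 97) (nat_lit 5) (nat_lit 389) (nat_lit 328) (nat_lit 183))))) (XT.nd (nat_lit 234) (nat_lit 760) (nat_lit 0) (XT.nd (nat_lit 78) (nat_lit 228) (nat_lit 0) (XT.lf (nat_lit 0) (nat_lit 9573690469) (nat_lit 380) (nat_lit 3518384239) (nat_lit 76) (nat_lit 14202389440) (nat_lit 96) (nat_lit 5) (nat_lit 101) (nat_lit 5) (nat_lit 97) (nat_lit 5) (nat_lit 390) (nat_lit 328) (nat_lit 182)) (XT.nd (nat_lit 78) (nat_lit 0) (nat_lit 0) (XT.lf (nat_lit 0) (nat_lit 11624929728) (nat_lit 228) (nat_lit 3922005893) (nat_lit 304) (nat_lit 12281594515) (nat_lit 93) (nat_lit 5) (nat_lit 96) (nat_lit 5) (nat_lit 97) (nat_lit 5) (nat_lit 391) (nat_lit 328) (nat_lit 181)) (XT.lf (nat_lit 0) (nat_lit 21781112633) (nat_lit 304) (nat_lit 1147806460) (nat_lit 76) (nat_lit 5447248921) (nat_lit 93) (nat_lit 5) (nat_lit 97) (nat_lit 5) (nat_lit 94) (nat_lit 5) (nat_lit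 392) (nat_lit 328) (nat_lit 180)))) (XT.nd (nat_lit 156) (nat_lit 228) (nat_lit 0) (XT.nd (nat_lit 78) (nat_lit 304) (nat_lit 0) (XT.lf (nat_lit 0) (nat_lit 14594477719) (nat_lit 228) (nat_lit 13779932756) (nat_lit 304) (nat_lit 560663579) (nat_lit 90) (nat_lit 5) (nat_lit 93) (nat_lit 5) (nat_lit 94) (nat_lit 5) (nat_lit 393) (nat_lit 328) (nat_lit 179)) (XT.lf (nat_lit 0) (nat_lit 1281520579) (nat_lit 228) (nat_lit 4279919723) (nat_lit 304) (nat_lit 23947167292) (nat_lit 86) (nat_lit 5) (nat_lit 89) (nat_lit 5) (nat_lit 90) (nat_lit 5) (nat_lit 394) (nat_lit 328) (nat_lit 178))) (XT.nd (nat_lit 78) (nat_lit 228) (nat_lit 0) (XT.lf (nat_lit 0) (nat_lit 12048160953) (nat_lit 304) (nat_lit 12499870558) (nat_lit 76) (nat_lit 5545384152) (nat_lit 86) (nat_lit 5) (nat_lit 90) (nat_lit 5) (nat_lit 87) (nat_lit 5) (nat_lit 395) (nat_lit 328) (nat_lit 177)) (XT.lf (nat_lit 0) (nat_lit 3718440607) (nat_lit 228)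 (nat_lit 15082422586) (nat_lit 304) (nat_lit 11892765062) (nat_lit 83) (nat_lit 5) (nat_lit 86) (nat_lit 5) (nat_lit 87) (nat_lit 5) (nat_lit 396) (nat_lit 328) (nat_lit 176))))))) (XT.nd (nat_lit 1014) (nat_lit 1292) (nat_lit 0) (XT.nd (nat_lit 468) (nat_lit 760) (nat_lit 0) (XT.nd (nat_lit 234) (nat_lit 380) (nat_lit 0) (XT.nd (nat_lit 78) (nat_lit 228) (nat_lit 0) (XT.lf (nat_lit 0) (nat_lit 20668736613) (nat_lit 228) (nat_lit 5206987153) (nat_lit 304) (nat_lit 5432537770) (nat_lit 83) (nat_lit 5) (nat_lit 86) (nat_lit 5) (nat_lit 87) (nat_lit 5) (nat_lit 397) (nat_lit 328) (nat_lit 175)) (XT.nd (nat_lit 78) (nat_lit 0) (nat_lit 0) (XT.lf (nat_lit 0) (nat_lit 1299970706) (nat_lit 228) (nat_lit 25701242493) (nat_lit 76) (nat_lit 4936700596) (nat_lit 80) (nat_lit 5) (nat_lit 83) (nat_lit 5) (nat_lit 81) (nat_lit 5) (nat_lit 398) (nat_lit 328) (nat_lit 174)) (XT.lf (nat_lit 0) (nat_lit 8278853033) (nat_lit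 228) (nat_lit 8863052179) (nat_lit 76) (nat_lit 15438330660) (nat_lit 80) (nat_lit 5) (nat_lit 83) (nat_lit 5) (nat_lit 81) (nat_lit 5) (nat_lit 399) (nat_lit 328) (nat_lit 173)))) (XT.nd (nat_lit 78) (nat_lit 152) (nat_lit 0) (XT.lf (nat_lit 0) (nat_lit 8638495328) (nat_lit 228) (nat_lit 6905364237) (nat_lit 304) (nat_lit 17695666762) (nat_lit 77) (nat_lit 5) (nat_lit 80) (nat_lit 5) (nat_lit 81) (nat_lit 5) (nat_lit 400) (nat_lit 328) (nat_lit 172)) (XT.nd (nat_lit 78) (nat_lit 152) (nat_lit 0) (XT.lf (nat_lit 0) (nat_lit 23145939758) (nat_lit 304) (nat_lit 7115400232) (nat_lit 76) (nat_lit 3653683208) (nat_lit 77) (nat_lit 5) (nat_lit 81) (nat_lit 5) (nat_lit 78) (nat_lit 5) (nat_lit 401) (nat_lit 328) (nat_lit 171)) (XT.lf (nat_lit 0) (nat_lit 11031595261) (nat_lit 152) (nat_lit 20112845669) (nat_lit 228) (nat_lit 3461294654) (nat_lit 75) (nat_lit 5) (nat_lit 77) (nat_lit 5) (nat_lit 78) (nat_lit 5)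 (nat_lit 402) (nat_lit 328) (nat_lit 170))))) (XT.nd (nat_lit 234) (nat_lit 456) (nat_lit 0) (XT.nd (nat_lit 78) (nat_lit 228) (nat_lit 0) (XT.lf (nat_lit 0) (nat_lit 4052919726) (nat_lit 228) (nat_lit 5496070873) (nat_lit 76) (nat_lit 25765011694) (nat_lit 74) (nat_lit 5) (nat_lit 77) (nat_lit 5) (nat_lit 75) (nat_lit 5) (nat_lit 403) (nat_lit 328) (nat_lit 169)) (XT.nd (nat_lit 78) (nat_lit 0) (nat_lit 0) (XT.lf (nat_lit 0) (nat_lit 11859744011) (nat_lit 304) (nat_lit 22712626517) (nat_lit 76) (nat_lit 1466017054) (nat_lit 71) (nat_lit 5) (nat_lit 75) (nat_lit 5) (nat_lit 72) (nat_lit 5) (nat_lit 404) (nat_lit 328) (nat_lit 168)) (XT.lf (nat_lit 0) (nat_lit 20045547318) (nat_lit 304) (nat_lit 4062889629) (nat_lit 76) (nat_lit 12671725469) (nat_lit 71) (nat_lit 5) (nat_lit 75) (nat_lit 5) (nat_lit 72) (nat_lit 5) (nat_lit 405) (nat_lit 328) (nat_lit 167)))) (XT.nd (nat_lit 156) (nat_lit 304) (nat_lit 0)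 (XT.nd (nat_lit 78) (nat_lit 0) (nat_lit 0) (XT.lf (nat_lit 0) (nat_lit 15438009714) (nat_lit 152) (nat_lit 13181664887) (nat_lit 228) (nat_lit 8920234575) (nat_lit 69) (nat_lit 5) (nat_lit 71) (nat_lit 5) (nat_lit 72) (nat_lit 5) (nat_lit 406) (nat_lit 328) (nat_lit 166)) (XT.lf (nat_lit 0) (nat_lit 35597734396) (nat_lit 152) (nat_lit 1888742170) (nat_lit 228) (nat_lit 834909390) (nat_lit 69) (nat_lit 5) (nat_lit 71) (nat_lit 5) (nat_lit 72) (nat_lit 5) (nat_lit 407) (nat_lit 328) (nat_lit 165))) (XT.nd (nat_lit 78) (nat_lit 0) (nat_lit 0) (XT.lf (nat_lit 0) (nat_lit 7605470951) (nat_lit 304) (nat_lit 21719256228) (nat_lit 76) (nat_lit 9791658816) (nat_lit 65) (nat_lit 5) (nat_lit 69) (nat_lit 5) (nat_lit 66) (nat_lit 5) (nat_lit 408) (nat_lit 328) (nat_lit 164)) (XT.lf (nat_lit 0) (nat_lit 16323323229) (nat_lit 304) (nat_lit 1793638643) (nat_lit 76) (nat_lit 21816795974) (nat_lit 65) (nat_lit 5) (nat_lit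 69) (nat_lit 5) (nat_lit 66) (nat_lit 5) (nat_lit 409) (nat_lit 328) (nat_lit 163)))))) (XT.nd (nat_lit 546) (nat_lit 608) (nat_lit 0) (XT.nd (nat_lit 234) (nat_lit 304) (nat_lit 0) (XT.nd (nat_lit 78) (nat_lit 228) (nat_lit 0) (XT.lf (nat_lit 0) (nat_lit 19093242608) (nat_lit 152) (nat_lit 6387727803) (nat_lit 228) (nat_lit 15289333680) (nat_lit 63) (nat_lit 5) (nat_lit 65) (nat_lit 5) (nat_lit 66) (nat_lit 5) (nat_lit 410) (nat_lit 328) (nat_lit 162)) (XT.nd (nat_lit 78) (nat_lit 228) (nat_lit 0) (XT.lf (nat_lit 0) (nat_lit 34981121116) (nat_lit 228) (nat_lit 1051927472) (nat_lit 76) (nat_lit 5596865896) (nat_lit 63) (nat_lit 5) (nat_lit 66) (nat_lit 5) (nat_lit 64) (nat_lit 5) (nat_lit 411) (nat_lit 328) (nat_lit 161)) (XT.lf (nat_lit 0) (nat_lit 2464972055) (nat_lit 228) (nat_lit 22011527014) (nat_lit 76) (nat_lit 18030427923) (nat_lit 60) (nat_lit 5) (nat_lit 63) (nat_lit 5) (nat_lit 61) (nat_lit 5)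 (nat_lit 412) (nat_lit 328) (nat_lit 160)))) (XT.nd (nat_lit 156) (nat_lit 152) (nat_lit 0) (XT.nd (nat_lit 78) (nat_lit 152) (nat_lit 0) (XT.lf (nat_lit 0) (nat_lit 11724164314) (nat_lit 228) (nat_lit 774019677) (nat_lit 76) (nat_lit 30909922456) (nat_lit 60) (nat_lit 5) (nat_lit 63) (nat_lit 5) (nat_lit 61) (nat_lit 5) (nat_lit 413) (nat_lit 328) (nat_lit 159)) (XT.lf (nat_lit 0) (nat_lit 21463454162) (nat_lit 228) (nat_lit 22818956662) (nat_lit 76) (nat_lit 47841684) (nat_lit 58) (nat_lit 5) (nat_lit 61) (nat_lit 5) (nat_lit 59) (nat_lit 5) (nat_lit 414) (nat_lit 328) (nat_lit 158))) (XT.nd (nat_lit 78) (nat_lit 152) (nat_lit 0) (XT.lf (nat_lit 0) (nat_lit 31621655592) (nat_lit 228) (nat_lit 931246451) (nat_lit 76) (nat_lit 12723359773) (nat_lit 58) (nat_lit 5) (nat_lit 61) (nat_lit 5) (nat_lit 59) (nat_lit 5) (nat_lit 415) (nat_lit 328) (nat_lit 157)) (XT.lf (nat_lit 0) (nat_lit 22034688999) (nat_lit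 152) (nat_lit 20256962860) (nat_lit 228) (nat_lit 3952788904) (nat_lit 56) (nat_lit 5) (nat_lit 58) (nat_lit 5) (nat_lit 59) (nat_lit 5) (nat_lit 416) (nat_lit 328) (nat_lit 156))))) (XT.nd (nat_lit 234) (nat_lit 380) (nat_lit 0) (XT.nd (nat_lit 78) (nat_lit 152) (nat_lit 0) (XT.lf (nat_lit 0) (nat_lit 5926965481) (nat_lit 228) (nat_lit 1599240254) (nat_lit 76) (nat_lit 39713575905) (nat_lit 55) (nat_lit 5) (nat_lit 58) (nat_lit 5) (nat_lit 56) (nat_lit 5) (nat_lit 417) (nat_lit 328) (nat_lit 155)) (XT.nd (nat_lit 78) (nat_lit 0) (nat_lit 0) (XT.lf (nat_lit 0) (nat_lit 16287387444) (nat_lit 228) (nat_lit 26240713822) (nat_lit 76) (nat_lit 5727796475) (nat_lit 53) (nat_lit 5) (nat_lit 56) (nat_lit 5) (nat_lit 54) (nat_lit 5) (nat_lit 418) (nat_lit 328) (nat_lit 154)) (XT.lf (nat_lit 0) (nat_lit 27044858813) (nat_lit 228) (nat_lit 3014040482) (nat_lit 76) (nat_lit 19241011661) (nat_lit 53) (nat_lit 5) (nat_lit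 56) (nat_lit 5) (nat_lit 54) (nat_lit 5) (nat_lit 419) (nat_lit 328) (nat_lit 153)))) (XT.nd (nat_lit 156) (nat_lit 228) (nat_lit 0) (XT.nd (nat_lit 78) (nat_lit 0) (nat_lit 0) (XT.lf (nat_lit 0) (nat_lit 21317477387) (nat_lit 152) (nat_lit 17008038012) (nat_lit 228) (nat_lit 12043716049) (nat_lit 51) (nat_lit 5) (nat_lit 53) (nat_lit 5) (nat_lit 54) (nat_lit 5) (nat_lit 420) (nat_lit 328) (nat_lit 152)) (XT.lf (nat_lit 0) (nat_lit 46432867040) (nat_lit 152) (nat_lit 3537759215) (nat_lit 228) (nat_lit 1499224953) (nat_lit 51) (nat_lit 5) (nat_lit 53) (nat_lit 5) (nat_lit 54) (nat_lit 5) (nat_lit 421) (nat_lit 328) (nat_lit 151))) (XT.nd (nat_lit 78) (nat_lit 0) (nat_lit 0) (XT.lf (nat_lit 0) (nat_lit 9468891099) (nat_lit 228) (nat_lit 32706666100) (nat_lit 76) (nat_lit 10416534269) (nat_lit 48) (nat_lit 5) (nat_lit 51) (nat_lit 5) (nat_lit 49) (nat_lit 5) (nat_lit 422) (nat_lit 328) (nat_lit 150)) (XT.lf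 (nat_lit 0) (nat_lit 20818015987) (nat_lit 228) (nat_lit 8145824051) (nat_lit 76) (nat_lit 24781251268) (nat_lit 48) (nat_lit 5) (nat_lit 51) (nat_lit 5) (nat_lit 49) (nat_lit 5) (nat_lit 423) (nat_lit 328) (nat_lit 149))))))))
noncomputable def xc174 : XT := (XT.nd (nat_lit 40326) (nat_lit 0) (nat_lit 9424) (XT.nd (nat_lit 1014) (nat_lit 304) (nat_lit 0) (XT.nd (nat_lit 468) (nat_lit 380) (nat_lit 0) (XT.nd (nat_lit 234) (nat_lit 152) (nat_lit 0) (XT.nd (nat_lit 78) (nat_lit 152) (nat_lit 0) (XT.lf (nat_lit 0) (nat_lit 17485537695) (nat_lit 152) (nat_lit 15185987451) (nat_lit 228) (nat_lit 22256239291) (nat_lit 46) (nat_lit 5) (nat_lit 48) (nat_lit 5) (nat_lit 49) (nat_lit 5) (nat_lit 424) (nat_lit 328) (nat_lit 148)) (XT.nd (nat_lit 78) (nat_lit 152) (nat_lit 0) (XT.lf (nat_lit 0) (nat_lit 44045383960) (nat_lit 152) (nat_lit 913391307) (nat_lit 228) (nat_lit 11184799022) (nat_lit 46) (nat_lit 5) (nat_lit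 48) (nat_lit 5) (nat_lit 49) (nat_lit 5) (nat_lit 425) (nat_lit 328) (nat_lit 147)) (XT.lf (nat_lit 0) (nat_lit 481577905) (nat_lit 152) (nat_lit 43250356341) (nat_lit 76) (nat_lit 13655849780) (nat_lit 44) (nat_lit 5) (nat_lit 46) (nat_lit 5) (nat_lit 45) (nat_lit 5) (nat_lit 426) (nat_lit 328) (nat_lit 146)))) (XT.nd (nat_lit 78) (nat_lit 152) (nat_lit 0) (XT.lf (nat_lit 0) (nat_lit 12401539586) (nat_lit 152) (nat_lit 17385853110) (nat_lit 76) (nat_lit 28874753780) (nat_lit 44) (nat_lit 5) (nat_lit 46) (nat_lit 5) (nat_lit 45) (nat_lit 5) (nat_lit 427) (nat_lit 328) (nat_lit 145)) (XT.nd (nat_lit 78) (nat_lit 0) (nat_lit 0) (XT.lf (nat_lit 0) (nat_lit 9431521639) (nat_lit 152) (nat_lit 15334333016) (nat_lit 228) (nat_lit 35206283041) (nat_lit 42) (nat_lit 5) (nat_lit 44) (nat_lit 5) (nat_lit 45) (nat_lit 5) (nat_lit 428) (nat_lit 328) (nat_lit 144)) (XT.lf (nat_lit 0) (nat_lit 37402773711) (nat_lit 152)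 (nat_lit 270027625) (nat_lit 228) (nat_lit 23643476765) (nat_lit 42) (nat_lit 5) (nat_lit 44) (nat_lit 5) (nat_lit 45) (nat_lit 5) (nat_lit 429) (nat_lit 328) (nat_lit 143))))) (XT.nd (nat_lit 234) (nat_lit 228) (nat_lit 0) (XT.nd (nat_lit 78) (nat_lit 76) (nat_lit 0) (XT.lf (nat_lit 0) (nat_lit 3425799222) (nat_lit 76) (nat_lit 47716865888) (nat_lit 152) (nat_lit 11552806847) (nat_lit 41) (nat_lit 5) (nat_lit 42) (nat_lit 5) (nat_lit 43) (nat_lit 4) (nat_lit 430) (nat_lit 328) (nat_lit 142)) (XT.nd (nat_lit 78) (nat_lit 0) (nat_lit 0) (XT.lf (nat_lit 0) (nat_lit 1125782199) (nat_lit 152) (nat_lit 32053956239) (nat_lit 76) (nat_lit 30928760775) (nat_lit 40) (nat_lit 5) (nat_lit 42) (nat_lit 5) (nat_lit 41) (nat_lit 5) (nat_lit 431) (nat_lit 328) (nat_lit 141)) (XT.lf (nat_lit 0) (nat_lit 13948867502) (nat_lit 152) (nat_lit 4142873783) (nat_lit 76) (nat_lit 47468854774) (nat_lit 40) (nat_lit 5) (nat_lit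 42) (nat_lit 5) (nat_lit 41) (nat_lit 5) (nat_lit 432) (nat_lit 328) (nat_lit 140)))) (XT.nd (nat_lit 156) (nat_lit 76) (nat_lit 0) (XT.nd (nat_lit 78) (nat_lit 0) (nat_lit 0) (XT.lf (nat_lit 0) (nat_lit 25088584246) (nat_lit 152) (nat_lit 2305673145) (nat_lit 228) (nat_lit 39654870503) (nat_lit 38) (nat_lit 5) (nat_lit 40) (nat_lit 5) (nat_lit 41) (nat_lit 5) (nat_lit 433) (nat_lit 328) (nat_lit 139)) (XT.lf (nat_lit 0) (nat_lit 41415850543) (nat_lit 228) (nat_lit 13440237199) (nat_lit 76) (nat_lit 13721043126) (nat_lit 38) (nat_lit 5) (nat_lit 41) (nat_lit 5) (nat_lit 39) (nat_lit 4) (nat_lit 434) (nat_lit 328) (nat_lit 138))) (XT.nd (nat_lit 78) (nat_lit 0) (nat_lit 0) (XT.lf (nat_lit 0) (nat_lit 16223071960) (nat_lit 76) (nat_lit 39810355517) (nat_lit 152) (nat_lit 14112286793) (nat_lit 37) (nat_lit 5) (nat_lit 38) (nat_lit 5) (nat_lit 39) (nat_lit 4) (nat_lit 435) (nat_lit 328) (nat_lit 137)) (XT.lf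 (nat_lit 0) (nat_lit 47045505720) (nat_lit 76) (nat_lit 24176347215) (nat_lit 152) (nat_lit 535533009) (nat_lit 37) (nat_lit 5) (nat_lit 38) (nat_lit 5) (nat_lit 39) (nat_lit 4) (nat_lit 436) (nat_lit 328) (nat_lit 136)))))) (XT.nd (nat_lit 38766) (nat_lit 0) (nat_lit 16872) (XT.nd (nat_lit 38454) (nat_lit 0) (nat_lit 17784) (XT.nd (nat_lit 78) (nat_lit 76) (nat_lit 0) (XT.lf (nat_lit 0) (nat_lit 5344040797) (nat_lit 152) (nat_lit 7890090758) (nat_lit 228) (nat_lit 60177957215) (nat_lit 34) (nat_lit 5) (nat_lit 36) (nat_lit 5) (nat_lit 37) (nat_lit 5) (nat_lit 437) (nat_lit 328) (nat_lit 135)) (XT.nd (nat_lit 234) (nat_lit 76) (nat_lit 0) (XT.lf (nat_lit 0) (nat_lit 27740218700) (nat_lit 228) (nat_lit 38400098004) (nat_lit 76) (nat_lit 8965934389) (nat_lit 34) (nat_lit 5) (nat_lit 37) (nat_lit 5) (nat_lit 35) (nat_lit 4) (nat_lit 438) (nat_lit 328) (nat_lit 134)) (XT.lf (nat_lit 0) (nat_lit 56884106388)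 (nat_lit 76) (nat_lit 17806984817) (nat_lit 152) (nat_lit 5785675916) (nat_lit 33) (nat_lit 5) (nat_lit 34) (nat_lit 5) (nat_lit 35) (nat_lit 4) (nat_lit 441) (nat_lit 328) (nat_lit 131)))) (XT.nd (nat_lit 156) (nat_lit 0) (nat_lit 76) (XT.nd (nat_lit 78) (nat_lit 0) (nat_lit 0) (XT.lf (nat_lit 0) (nat_lit 2667436054) (nat_lit 1140) (nat_lit 1184573298) (nat_lit 1140) (nat_lit 1184573298) (nat_lit 267) (nat_lit 3) (nat_lit 282) (nat_lit 3) (nat_lit 282) (nat_lit 5) (nat_lit 329) (nat_lit 329) (nat_lit 242)) (XT.lf (nat_lit 76) (nat_lit 2506741165) (nat_lit 0) (nat_lit 3608673338) (nat_lit 1140) (nat_lit 4087449259) (nat_lit 268) (nat_lit 5) (nat_lit 267) (nat_lit 3) (nat_lit 282) (nat_lit 5) (nat_lit 330) (nat_lit 329) (nat_lit 241))) (XT.nd (nat_lit 78) (nat_lit 0) (nat_lit 0) (XT.lf (nat_lit 0) (nat_lit 6922982395) (nat_lit 1064) (nat_lit 2779167042) (nat_lit 1140) (nat_lit 634210426) (nat_lit 268) (nat_lit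 5) (nat_lit 282) (nat_lit 5) (nat_lit 283) (nat_lit 5) (nat_lit 331) (nat_lit 329) (nat_lit 240)) (XT.lf (nat_lit 76) (nat_lit 2279677454) (nat_lit 0) (nat_lit 5507101626) (nat_lit 1140) (nat_lit 2686136245) (nat_lit 269) (nat_lit 5) (nat_lit 268) (nat_lit 5) (nat_lit 283) (nat_lit 5) (nat_lit 332) (nat_lit 329) (nat_lit 239))))) (XT.nd (nat_lit 234) (nat_lit 988) (nat_lit 0) (XT.nd (nat_lit 78) (nat_lit 0) (nat_lit 76) (XT.lf (nat_lit 76) (nat_lit 7533023413) (nat_lit 0) (nat_lit 1146499061) (nat_lit 1140) (nat_lit 1933968096) (nat_lit 269) (nat_lit 5) (nat_lit 268) (nat_lit 5) (nat_lit 283) (nat_lit 5) (nat_lit 333) (nat_lit 329) (nat_lit 238)) (XT.nd (nat_lit 78) (nat_lit 0) (nat_lit 0) (XT.lf (nat_lit 76) (nat_lit 2181437938) (nat_lit 0) (nat_lit 7446531488) (nat_lit 1140) (nat_lit 1129459705) (nat_lit 270) (nat_lit 5) (nat_lit 269) (nat_lit 5) (nat_lit 284) (nat_lit 5) (nat_lit 334) (nat_lit 329) (nat_lit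 237)) (XT.lf (nat_lit 76) (nat_lit 7638250090) (nat_lit 0) (nat_lit 2985330397) (nat_lit 1140) (nat_lit 281557337) (nat_lit 270) (nat_lit 5) (nat_lit 269) (nat_lit 5) (nat_lit 284) (nat_lit 5) (nat_lit 335) (nat_lit 329) (nat_lit 236)))) (XT.nd (nat_lit 156) (nat_lit 0) (nat_lit 0) (XT.nd (nat_lit 78) (nat_lit 0) (nat_lit 0) (XT.lf (nat_lit 0) (nat_lit 594255685) (nat_lit 1140) (nat_lit 8848357486) (nat_lit 1216) (nat_lit 1614085838) (nat_lit 255) (nat_lit 5) (nat_lit 270) (nat_lit 5) (nat_lit 271) (nat_lit 5) (nat_lit 336) (nat_lit 329) (nat_lit 235)) (XT.lf (nat_lit 0) (nat_lit 1530985722) (nat_lit 1140) (nat_lit 3344892028) (nat_lit 1216) (nat_lit 6335648769) (nat_lit 255) (nat_lit 5) (nat_lit 270) (nat_lit 5) (nat_lit 271) (nat_lit 5) (nat_lit 337) (nat_lit 329) (nat_lit 234))) (XT.nd (nat_lit 78) (nat_lit 0) (nat_lit 76) (XT.lf (nat_lit 76) (nat_lit 2354873853) (nat_lit 0) (nat_lit 141665863) (nat_lit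 1216) (nat_lit 8874449290) (nat_lit 256) (nat_lit 5) (nat_lit 255) (nat_lit 5) (nat_lit 271) (nat_lit 5) (nat_lit 338) (nat_lit 329) (nat_lit 233)) (XT.lf (nat_lit 0) (nat_lit 3549332034) (nat_lit 1140) (nat_lit 3301198707) (nat_lit 1216) (nat_lit 4682967944) (nat_lit 256) (nat_lit 5) (nat_lit 271) (nat_lit 5) (nat_lit 272) (nat_lit 5) (nat_lit 339) (nat_lit 329) (nat_lit 232))))))) (XT.nd (nat_lit 1014) (nat_lit 4104) (nat_lit 0) (XT.nd (nat_lit 468) (nat_lit 3420) (nat_lit 0) (XT.nd (nat_lit 234) (nat_lit 0) (nat_lit 152) (XT.nd (nat_lit 78) (nat_lit 0) (nat_lit 76) (XT.lf (nat_lit 76) (nat_lit 2620004504) (nat_lit 0) (nat_lit 2019562037) (nat_lit 1216) (nat_lit 7061152496) (nat_lit 257) (nat_lit 5) (nat_lit 256) (nat_lit 5) (nat_lit 272) (nat_lit 5) (nat_lit 340) (nat_lit 329) (nat_lit 231)) (XT.nd (nat_lit 78) (nat_lit 0) (nat_lit 0) (XT.lf (nat_lit 0) (nat_lit 5804377830) (nat_lit 1140) (nat_lit 3129598823)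 (nat_lit 1216) (nat_lit 2937734064) (nat_lit 257) (nat_lit 5) (nat_lit 272) (nat_lit 5) (nat_lit 273) (nat_lit 5) (nat_lit 341) (nat_lit 329) (nat_lit 230)) (XT.lf (nat_lit 76) (nat_lit 3024104825) (nat_lit 0) (nat_lit 4009468549) (nat_lit 1216) (nat_lit 5013386073) (nat_lit 258) (nat_lit 5) (nat_lit 257) (nat_lit 5) (nat_lit 273) (nat_lit 5) (nat_lit 342) (nat_lit 329) (nat_lit 229)))) (XT.nd (nat_lit 78) (nat_lit 0) (nat_lit 0) (XT.lf (nat_lit 0) (nat_lit 8322622571) (nat_lit 1140) (nat_lit 2825915765) (nat_lit 1216) (nat_lit 1078248159) (nat_lit 258) (nat_lit 5) (nat_lit 273) (nat_lit 5) (nat_lit 274) (nat_lit 5) (nat_lit 343) (nat_lit 329) (nat_lit 228)) (XT.nd (nat_lit 78) (nat_lit 0) (nat_lit 0) (XT.lf (nat_lit 76) (nat_lit 3571942228) (nat_lit 0) (nat_lit 6133838333) (nat_lit 1216) (nat_lit 2704574568) (nat_lit 259) (nat_lit 5) (nat_lit 258) (nat_lit 5) (nat_lit 274) (nat_lit 5) (nat_lit 344) (nat_lit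 329) (nat_lit 227)) (XT.lf (nat_lit 76) (nat_lit 10204818673) (nat_lit 0) (nat_lit 935953668) (nat_lit 1216) (nat_lit 1458357913) (nat_lit 259) (nat_lit 5) (nat_lit 258) (nat_lit 5) (nat_lit 274) (nat_lit 5) (nat_lit 345) (nat_lit 329) (nat_lit 226))))) (XT.nd (nat_lit 234) (nat_lit 1216) (nat_lit 0) (XT.nd (nat_lit 78) (nat_lit 1292) (nat_lit 0) (XT.lf (nat_lit 0) (nat_lit 4268964397) (nat_lit 1140) (nat_lit 8415716754) (nat_lit 1216) (nat_lit 106920789) (nat_lit 244) (nat_lit 5) (nat_lit 259) (nat_lit 5) (nat_lit 260) (nat_lit 5) (nat_lit 346) (nat_lit 329) (nat_lit 225)) (XT.nd (nat_lit 78) (nat_lit 1216) (nat_lit 0) (XT.lf (nat_lit 0) (nat_lit 1276222774) (nat_lit 1216) (nat_lit 1844954854) (nat_lit 76) (nat_lit 9867821174) (nat_lit 243) (nat_lit 5) (nat_lit 259) (nat_lit 5) (nat_lit 244) (nat_lit 5) (nat_lit 347) (nat_lit 329) (nat_lit 224)) (XT.lf (nat_lit 0) (nat_lit 2753900839) (nat_lit 1292) (nat_lit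 8097161569) (nat_lit 76) (nat_lit 2339576259) (nat_lit 227) (nat_lit 5) (nat_lit 244) (nat_lit 5) (nat_lit 228) (nat_lit 5) (nat_lit 348) (nat_lit 329) (nat_lit 223)))) (XT.nd (nat_lit 156) (nat_lit 608) (nat_lit 0) (XT.nd (nat_lit 78) (nat_lit 608) (nat_lit 0) (XT.lf (nat_lit 0) (nat_lit 4309062245) (nat_lit 1292) (nat_lit 1166105002) (nat_lit 76) (nat_lit 7922174178) (nat_lit 227) (nat_lit 5) (nat_lit 244) (nat_lit 5) (nat_lit 228) (nat_lit 5) (nat_lit 349) (nat_lit 329) (nat_lit 222)) (XT.lf (nat_lit 0) (nat_lit 5954397743) (nat_lit 684) (nat_lit 7533398188) (nat_lit 76) (nat_lit 121151800) (nat_lit 219) (nat_lit 5) (nat_lit 228) (nat_lit 5) (nat_lit 220) (nat_lit 5) (nat_lit 350) (nat_lit 329) (nat_lit 221))) (XT.nd (nat_lit 78) (nat_lit 608) (nat_lit 0) (XT.lf (nat_lit 0) (nat_lit 7699452869) (nat_lit 684) (nat_lit 337555451) (nat_lit 76) (nat_lit 5788390929) (nat_lit 219) (nat_lit 5) (nat_lit 228)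 (nat_lit 5) (nat_lit 220) (nat_lit 5) (nat_lit 351) (nat_lit 329) (nat_lit 220)) (XT.lf (nat_lit 0) (nat_lit 7200061649) (nat_lit 608) (nat_lit 2350725925) (nat_lit 684) (nat_lit 4495946485) (nat_lit 211) (nat_lit 5) (nat_lit 219) (nat_lit 5) (nat_lit 220) (nat_lit 5) (nat_lit 352) (nat_lit 329) (nat_lit 219)))))) (XT.nd (nat_lit 546) (nat_lit 1900) (nat_lit 0) (XT.nd (nat_lit 234) (nat_lit 988) (nat_lit 0) (XT.nd (nat_lit 78) (nat_lit 608) (nat_lit 0) (XT.lf (nat_lit 0) (nat_lit 660350422) (nat_lit 608) (nat_lit 10825832909) (nat_lit 684) (nat_lit 2787677313) (nat_lit 203) (nat_lit 5) (nat_lit 211) (nat_lit 5) (nat_lit 212) (nat_lit 5) (nat_lit 353) (nat_lit 329) (nat_lit 218)) (XT.nd (nat_lit 78) (nat_lit 608) (nat_lit 0) (XT.lf (nat_lit 0) (nat_lit 8494423953) (nat_lit 608) (nat_lit 5062723104) (nat_lit 684) (nat_lit 948335934) (nat_lit 203) (nat_lit 5) (nat_lit 211) (nat_lit 5) (nat_lit 212) (nat_lit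 5) (nat_lit 354) (nat_lit 329) (nat_lit 217)) (XT.lf (nat_lit 0) (nat_lit 939585445) (nat_lit 608) (nat_lit 12920874633) (nat_lit 76) (nat_lit 882971909) (nat_lit 195) (nat_lit 5) (nat_lit 203) (nat_lit 5) (nat_lit 196) (nat_lit 5) (nat_lit 355) (nat_lit 329) (nat_lit 216)))) (XT.nd (nat_lit 156) (nat_lit 456) (nat_lit 0) (XT.nd (nat_lit 78) (nat_lit 532) (nat_lit 0) (XT.lf (nat_lit 0) (nat_lit 2962388623) (nat_lit 608) (nat_lit 5047330221) (nat_lit 76) (nat_lit 6975606323) (nat_lit 195) (nat_lit 5) (nat_lit 203) (nat_lit 5) (nat_lit 196) (nat_lit 5) (nat_lit 356) (nat_lit 329) (nat_lit 215)) (XT.lf (nat_lit 0) (nat_lit 3108596559) (nat_lit 532) (nat_lit 1953450292) (nat_lit 608) (nat_lit 10171949514) (nat_lit 188) (nat_lit 5) (nat_lit 195) (nat_lit 5) (nat_lit 196) (nat_lit 5) (nat_lit 357) (nat_lit 329) (nat_lit 214))) (XT.nd (nat_lit 78) (nat_lit 456) (nat_lit 0) (XT.lf (nat_lit 0) (nat_lit 7303895018)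 (nat_lit 608) (nat_lit 3932365065) (nat_lit 76) (nat_lit 4251497774) (nat_lit 188) (nat_lit 5) (nat_lit 196) (nat_lit 5) (nat_lit 189) (nat_lit 5) (nat_lit 358) (nat_lit 329) (nat_lit 213)) (XT.lf (nat_lit 0) (nat_lit 4561823699) (nat_lit 456) (nat_lit 5101301163) (nat_lit 532) (nat_lit 6084509531) (nat_lit 182) (nat_lit 5) (nat_lit 188) (nat_lit 5) (nat_lit 189) (nat_lit 5) (nat_lit 359) (nat_lit 329) (nat_lit 212))))) (XT.nd (nat_lit 234) (nat_lit 1292) (nat_lit 0) (XT.nd (nat_lit 78) (nat_lit 608) (nat_lit 0) (XT.lf (nat_lit 0) (nat_lit 12132104705) (nat_lit 532) (nat_lit 2649317371) (nat_lit 76) (nat_lit 1232721767) (nat_lit 182) (nat_lit 5) (nat_lit 189) (nat_lit 5) (nat_lit 183) (nat_lit 5) (nat_lit 360) (nat_lit 329) (nat_lit 211)) (XT.nd (nat_lit 78) (nat_lit 76) (nat_lit 0) (XT.lf (nat_lit 0) (nat_lit 6199612724) (nat_lit 532) (nat_lit 8573182870) (nat_lit 608) (nat_lit 1512929376) (nat_lit 175)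 (nat_lit 5) (nat_lit 182) (nat_lit 5) (nat_lit 183) (nat_lit 5) (nat_lit 361) (nat_lit 329) (nat_lit 210)) (XT.lf (nat_lit 0) (nat_lit 923818646) (nat_lit 608) (nat_lit 1219749674) (nat_lit 76) (nat_lit 14421183358) (nat_lit 174) (nat_lit 5) (nat_lit 182) (nat_lit 5) (nat_lit 175) (nat_lit 5) (nat_lit 362) (nat_lit 329) (nat_lit 209)))) (XT.nd (nat_lit 156) (nat_lit 380) (nat_lit 0) (XT.nd (nat_lit 78) (nat_lit 456) (nat_lit 0) (XT.lf (nat_lit 0) (nat_lit 3512504365) (nat_lit 532) (nat_lit 8852994016) (nat_lit 76) (nat_lit 4482929275) (nat_lit 168) (nat_lit 5) (nat_lit 175) (nat_lit 5) (nat_lit 169) (nat_lit 5) (nat_lit 363) (nat_lit 329) (nat_lit 208)) (XT.lf (nat_lit 0) (nat_lit 343153015) (nat_lit 456) (nat_lit 5860859460) (nat_lit 532) (nat_lit 10935851596) (nat_lit 162) (nat_lit 5) (nat_lit 168) (nat_lit 5) (nat_lit 169) (nat_lit 5) (nat_lit 364) (nat_lit 329) (nat_lit 207))) (XT.nd (nat_lit 78) (nat_lit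 380) (nat_lit 0) (XT.lf (nat_lit 0) (nat_lit 9063001775) (nat_lit 532) (nat_lit 7463871137) (nat_lit 76) (nat_lit 910573456) (nat_lit 162) (nat_lit 5) (nat_lit 169) (nat_lit 5) (nat_lit 163) (nat_lit 5) (nat_lit 365) (nat_lit 329) (nat_lit 206)) (XT.lf (nat_lit 0) (nat_lit 2118456300) (nat_lit 380) (nat_lit 9956423593) (nat_lit 456) (nat_lit 5667067393) (nat_lit 157) (nat_lit 5) (nat_lit 162) (nat_lit 5) (nat_lit 163) (nat_lit 5) (nat_lit 366) (nat_lit 329) (nat_lit 205))))))))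
noncomputable def xc175 : XT := (XT.nd (nat_lit 2106) (nat_lit 3040) (nat_lit 0) (XT.nd (nat_lit 1014) (nat_lit 2204) (nat_lit 0) (XT.nd (nat_lit 468) (nat_lit 1368) (nat_lit 0) (XT.nd (nat_lit 234) (nat_lit 760) (nat_lit 0) (XT.nd (nat_lit 78) (nat_lit 532) (nat_lit 0) (XT.lf (nat_lit 0) (nat_lit 12127582894) (nat_lit 380) (nat_lit 3113825764) (nat_lit 456) (nat_lit 2812250329) (nat_lit 157) (nat_lit 5) (nat_lit 162) (nat_lit 5) (nat_lit 163) (nat_lit 5) (nat_lit 367) (nat_lit 329) (nat_lit 204)) (XT.nd (nat_lit 78) (nat_lit 0) (nat_lit 0) (XT.lf (nat_lit 0) (nat_lit 192722995) (nat_lit 532) (nat_lit 14283933534) (nat_lit 76) (nat_lit 3896022455) (nat_lit 150) (nat_lit 5) (nat_lit 157) (nat_lit 5) (nat_lit 151) (nat_lit 5) (nat_lit 368) (nat_lit 329) (nat_lit 203)) (XT.lf (nat_lit 0) (nat_lit 3311884047) (nat_lit 532) (nat_lit 4246911833) (nat_lit 76) (nat_lit 11139225717) (nat_lit 150) (nat_lit 5) (nat_lit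 157) (nat_lit 5) (nat_lit 151) (nat_lit 5) (nat_lit 369) (nat_lit 329) (nat_lit 202)))) (XT.nd (nat_lit 78) (nat_lit 380) (nat_lit 0) (XT.lf (nat_lit 0) (nat_lit 6198920302) (nat_lit 380) (nat_lit 374896933) (nat_lit 456) (nat_lit 12457835409) (nat_lit 145) (nat_lit 5) (nat_lit 150) (nat_lit 5) (nat_lit 151) (nat_lit 5) (nat_lit 370) (nat_lit 329) (nat_lit 201)) (XT.nd (nat_lit 78) (nat_lit 380) (nat_lit 0) (XT.lf (nat_lit 0) (nat_lit 10034200303) (nat_lit 456) (nat_lit 2410185475) (nat_lit 76) (nat_lit 6927893047) (nat_lit 145) (nat_lit 5) (nat_lit 151) (nat_lit 5) (nat_lit 146) (nat_lit 5) (nat_lit 371) (nat_lit 329) (nat_lit 200)) (XT.lf (nat_lit 0) (nat_lit 8473652413) (nat_lit 380) (nat_lit 5199964364) (nat_lit 456) (nat_lit 6047254198) (nat_lit 140) (nat_lit 5) (nat_lit 145) (nat_lit 5) (nat_lit 146) (nat_lit 5) (nat_lit 372) (nat_lit 329) (nat_lit 199))))) (XT.nd (nat_lit 234) (nat_lit 608) (nat_lit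 0) (XT.nd (nat_lit 78) (nat_lit 760) (nat_lit 0) (XT.lf (nat_lit 0) (nat_lit 17458728373) (nat_lit 456) (nat_lit 380925956) (nat_lit 76) (nat_lit 2239174912) (nat_lit 140) (nat_lit 5) (nat_lit 146) (nat_lit 5) (nat_lit 141) (nat_lit 5) (nat_lit 373) (nat_lit 329) (nat_lit 198)) (XT.nd (nat_lit 78) (nat_lit 380) (nat_lit 0) (XT.lf (nat_lit 0) (nat_lit 1040893295) (nat_lit 380) (nat_lit 9492337129) (nat_lit 76) (nat_lit 9909573530) (nat_lit 135) (nat_lit 5) (nat_lit 140) (nat_lit 5) (nat_lit 136) (nat_lit 5) (nat_lit 374) (nat_lit 329) (nat_lit 197)) (XT.lf (nat_lit 0) (nat_lit 1808490551) (nat_lit 380) (nat_lit 2962371297) (nat_lit 456) (nat_lit 16045707046) (nat_lit 130) (nat_lit 5) (nat_lit 135) (nat_lit 5) (nat_lit 136) (nat_lit 5) (nat_lit 375) (nat_lit 329) (nat_lit 196)))) (XT.nd (nat_lit 156) (nat_lit 304) (nat_lit 0) (XT.nd (nat_lit 78) (nat_lit 304) (nat_lit 0) (XT.lf (nat_lit 0) (nat_lit 8746672907)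 (nat_lit 456) (nat_lit 7616147698) (nat_lit 76) (nat_lit 4834711189) (nat_lit 130) (nat_lit 5) (nat_lit 136) (nat_lit 5) (nat_lit 131) (nat_lit 5) (nat_lit 376) (nat_lit 329) (nat_lit 195)) (XT.lf (nat_lit 0) (nat_lit 4156729754) (nat_lit 304) (nat_lit 8745245619) (nat_lit 380) (nat_lit 8686144912) (nat_lit 126) (nat_lit 5) (nat_lit 130) (nat_lit 5) (nat_lit 131) (nat_lit 5) (nat_lit 377) (nat_lit 329) (nat_lit 194))) (XT.nd (nat_lit 78) (nat_lit 304) (nat_lit 0) (XT.lf (nat_lit 0) (nat_lit 16426447085) (nat_lit 304) (nat_lit 823471944) (nat_lit 380) (nat_lit 4738471064) (nat_lit 126) (nat_lit 5) (nat_lit 130) (nat_lit 5) (nat_lit 131) (nat_lit 5) (nat_lit 378) (nat_lit 329) (nat_lit 193)) (XT.lf (nat_lit 0) (nat_lit 6711703012) (nat_lit 304) (nat_lit 15142933527) (nat_lit 380) (nat_lit 542244422) (nat_lit 122) (nat_lit 5) (nat_lit 126) (nat_lit 5) (nat_lit 127) (nat_lit 5) (nat_lit 379) (nat_lit 329) (nat_lit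 192)))))) (XT.nd (nat_lit 546) (nat_lit 836) (nat_lit 0) (XT.nd (nat_lit 234) (nat_lit 988) (nat_lit 0) (XT.nd (nat_lit 78) (nat_lit 304) (nat_lit 0) (XT.lf (nat_lit 0) (nat_lit 3762333291) (nat_lit 380) (nat_lit 3405803331) (nat_lit 76) (nat_lit 15646716064) (nat_lit 121) (nat_lit 5) (nat_lit 126) (nat_lit 5) (nat_lit 122) (nat_lit 5) (nat_lit 380) (nat_lit 329) (nat_lit 191)) (XT.nd (nat_lit 78) (nat_lit 0) (nat_lit 0) (XT.lf (nat_lit 0) (nat_lit 8278155205) (nat_lit 380) (nat_lit 13845571126) (nat_lit 76) (nat_lit 1118688783) (nat_lit 117) (nat_lit 5) (nat_lit 122) (nat_lit 5) (nat_lit 118) (nat_lit 5) (nat_lit 381) (nat_lit 329) (nat_lit 190)) (XT.lf (nat_lit 0) (nat_lit 13026852085) (nat_lit 380) (nat_lit 1111826183) (nat_lit 76) (nat_lit 9541206831) (nat_lit 117) (nat_lit 5) (nat_lit 122) (nat_lit 5) (nat_lit 118) (nat_lit 5) (nat_lit 382) (nat_lit 329) (nat_lit 189)))) (XT.nd (nat_lit 156) (nat_lit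 380) (nat_lit 0) (XT.nd (nat_lit 78) (nat_lit 304) (nat_lit 0) (XT.lf (nat_lit 0) (nat_lit 12230824050) (nat_lit 304) (nat_lit 5796694048) (nat_lit 380) (nat_lit 6099678455) (nat_lit 113) (nat_lit 5) (nat_lit 117) (nat_lit 5) (nat_lit 118) (nat_lit 5) (nat_lit 383) (nat_lit 329) (nat_lit 188)) (XT.lf (nat_lit 0) (nat_lit 1397374713) (nat_lit 304) (nat_lit 21824497808) (nat_lit 380) (nat_lit 1364747318) (nat_lit 109) (nat_lit 5) (nat_lit 113) (nat_lit 5) (nat_lit 114) (nat_lit 5) (nat_lit 384) (nat_lit 329) (nat_lit 187))) (XT.nd (nat_lit 78) (nat_lit 304) (nat_lit 0) (XT.lf (nat_lit 0) (nat_lit 3614472119) (nat_lit 380) (nat_lit 9826675765) (nat_lit 76) (nat_lit 11612544180) (nat_lit 108) (nat_lit 5) (nat_lit 113) (nat_lit 5) (nat_lit 109) (nat_lit 5) (nat_lit 385) (nat_lit 329) (nat_lit 186)) (XT.lf (nat_lit 0) (nat_lit 3989547577) (nat_lit 304) (nat_lit 4756735811) (nat_lit 380) (nat_lit 16787170665)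 (nat_lit 104) (nat_lit 5) (nat_lit 108) (nat_lit 5) (nat_lit 109) (nat_lit 5) (nat_lit 386) (nat_lit 329) (nat_lit 185))))) (XT.nd (nat_lit 234) (nat_lit 608) (nat_lit 0) (XT.nd (nat_lit 78) (nat_lit 228) (nat_lit 0) (XT.lf (nat_lit 0) (nat_lit 14164893881) (nat_lit 380) (nat_lit 7655819987) (nat_lit 76) (nat_lit 4202911943) (nat_lit 104) (nat_lit 5) (nat_lit 109) (nat_lit 5) (nat_lit 105) (nat_lit 5) (nat_lit 387) (nat_lit 329) (nat_lit 184)) (XT.nd (nat_lit 78) (nat_lit 0) (nat_lit 0) (XT.lf (nat_lit 0) (nat_lit 6721675114) (nat_lit 228) (nat_lit 13128691606) (nat_lit 304) (nat_lit 6675009071) (nat_lit 101) (nat_lit 5) (nat_lit 104) (nat_lit 5) (nat_lit 105) (nat_lit 5) (nat_lit 388) (nat_lit 329) (nat_lit 183)) (XT.lf (nat_lit 0) (nat_lit 21676240993) (nat_lit 228) (nat_lit 4100174419) (nat_lit 304) (nat_lit 1263664636) (nat_lit 101) (nat_lit 5) (nat_lit 104) (nat_lit 5) (nat_lit 105) (nat_lit 5) (nat_lit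 389) (nat_lit 329) (nat_lit 182)))) (XT.nd (nat_lit 156) (nat_lit 228) (nat_lit 0) (XT.nd (nat_lit 78) (nat_lit 0) (nat_lit 0) (XT.lf (nat_lit 0) (nat_lit 4362741894) (nat_lit 380) (nat_lit 17972699889) (nat_lit 76) (nat_lit 5229437966) (nat_lit 96) (nat_lit 5) (nat_lit 101) (nat_lit 5) (nat_lit 97) (nat_lit 5) (nat_lit 390) (nat_lit 329) (nat_lit 181)) (XT.lf (nat_lit 0) (nat_lit 10220748464) (nat_lit 380) (nat_lit 3061687304) (nat_lit 76) (nat_lit 14819968083) (nat_lit 96) (nat_lit 5) (nat_lit 101) (nat_lit 5) (nat_lit 97) (nat_lit 5) (nat_lit 391) (nat_lit 329) (nat_lit 180))) (XT.nd (nat_lit 78) (nat_lit 0) (nat_lit 0) (XT.lf (nat_lit 0) (nat_lit 12530413842) (nat_lit 228) (nat_lit 3837647829) (nat_lit 304) (nat_lit 12284586905) (nat_lit 93) (nat_lit 5) (nat_lit 96) (nat_lit 5) (nat_lit 97) (nat_lit 5) (nat_lit 392) (nat_lit 329) (nat_lit 179)) (XT.lf (nat_lit 0) (nat_lit 22780817765) (nat_lit 304)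 (nat_lit 633180690) (nat_lit 76) (nat_lit 5802973317) (nat_lit 93) (nat_lit 5) (nat_lit 97) (nat_lit 5) (nat_lit 94) (nat_lit 5) (nat_lit 393) (nat_lit 329) (nat_lit 178))))))) (XT.nd (nat_lit 1014) (nat_lit 1368) (nat_lit 0) (XT.nd (nat_lit 468) (nat_lit 684) (nat_lit 0) (XT.nd (nat_lit 234) (nat_lit 456) (nat_lit 0) (XT.nd (nat_lit 78) (nat_lit 304) (nat_lit 0) (XT.lf (nat_lit 0) (nat_lit 15575989074) (nat_lit 228) (nat_lit 13991066039) (nat_lit 304) (nat_lit 225738376) (nat_lit 90) (nat_lit 5) (nat_lit 93) (nat_lit 5) (nat_lit 94) (nat_lit 5) (nat_lit 394) (nat_lit 329) (nat_lit 177)) (XT.nd (nat_lit 78) (nat_lit 0) (nat_lit 0) (XT.lf (nat_lit 0) (nat_lit 1865196498) (nat_lit 228) (nat_lit 4203164311) (nat_lit 304) (nat_lit 24315217467) (nat_lit 86) (nat_lit 5) (nat_lit 89) (nat_lit 5) (nat_lit 90) (nat_lit 5) (nat_lit 395) (nat_lit 329) (nat_lit 176)) (XT.lf (nat_lit 0) (nat_lit 12741692532) (nat_lit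 304) (nat_lit 12337443577) (nat_lit 76) (nat_lit 5907036677) (nat_lit 86) (nat_lit 5) (nat_lit 90) (nat_lit 5) (nat_lit 87) (nat_lit 5) (nat_lit 396) (nat_lit 329) (nat_lit 175)))) (XT.nd (nat_lit 78) (nat_lit 228) (nat_lit 0) (XT.lf (nat_lit 0) (nat_lit 4362148069) (nat_lit 228) (nat_lit 15330270733) (nat_lit 304) (nat_lit 11912112074) (nat_lit 83) (nat_lit 5) (nat_lit 86) (nat_lit 5) (nat_lit 87) (nat_lit 5) (nat_lit 397) (nat_lit 329) (nat_lit 174)) (XT.nd (nat_lit 78) (nat_lit 228) (nat_lit 0) (XT.lf (nat_lit 0) (nat_lit 21805453318) (nat_lit 228) (nat_lit 5164532174) (nat_lit 304) (nat_lit 5267906195) (nat_lit 83) (nat_lit 5) (nat_lit 86) (nat_lit 5) (nat_lit 87) (nat_lit 5) (nat_lit 398) (nat_lit 329) (nat_lit 173)) (XT.lf (nat_lit 0) (nat_lit 1657741870) (nat_lit 228) (nat_lit 25946640256) (nat_lit 76) (nat_lit 5282032404) (nat_lit 80) (nat_lit 5) (nat_lit 83) (nat_lit 5) (nat_lit 81) (nat_lit 5)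 (nat_lit 399) (nat_lit 329) (nat_lit 172))))) (XT.nd (nat_lit 234) (nat_lit 456) (nat_lit 0) (XT.nd (nat_lit 78) (nat_lit 228) (nat_lit 0) (XT.lf (nat_lit 0) (nat_lit 8836706044) (nat_lit 228) (nat_lit 8618614120) (nat_lit 76) (nat_lit 16092966784) (nat_lit 80) (nat_lit 5) (nat_lit 83) (nat_lit 5) (nat_lit 81) (nat_lit 5) (nat_lit 400) (nat_lit 329) (nat_lit 171)) (XT.nd (nat_lit 78) (nat_lit 0) (nat_lit 0) (XT.lf (nat_lit 0) (nat_lit 9402976580) (nat_lit 228) (nat_lit 6912529502) (nat_lit 304) (nat_lit 17911976815) (nat_lit 77) (nat_lit 5) (nat_lit 80) (nat_lit 5) (nat_lit 81) (nat_lit 5) (nat_lit 401) (nat_lit 329) (nat_lit 170)) (XT.lf (nat_lit 0) (nat_lit 24138622039) (nat_lit 304) (nat_lit 6831160171) (nat_lit 76) (nat_lit 3953675283) (nat_lit 77) (nat_lit 5) (nat_lit 81) (nat_lit 5) (nat_lit 78) (nat_lit 5) (nat_lit 402) (nat_lit 329) (nat_lit 169)))) (XT.nd (nat_lit 156) (nat_lit 228) (nat_lit 0)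 (XT.nd (nat_lit 78) (nat_lit 76) (nat_lit 0) (XT.lf (nat_lit 0) (nat_lit 11855365756) (nat_lit 152) (nat_lit 20517761335) (nat_lit 228) (nat_lit 3261884653) (nat_lit 75) (nat_lit 5) (nat_lit 77) (nat_lit 5) (nat_lit 78) (nat_lit 5) (nat_lit 403) (nat_lit 329) (nat_lit 168)) (XT.lf (nat_lit 0) (nat_lit 4463178544) (nat_lit 228) (nat_lit 5176677726) (nat_lit 76) (nat_lit 26724844384) (nat_lit 74) (nat_lit 5) (nat_lit 77) (nat_lit 5) (nat_lit 75) (nat_lit 5) (nat_lit 404) (nat_lit 329) (nat_lit 167))) (XT.nd (nat_lit 78) (nat_lit 0) (nat_lit 0) (XT.lf (nat_lit 0) (nat_lit 12502280309) (nat_lit 304) (nat_lit 22907743015) (nat_lit 76) (nat_lit 1700853791) (nat_lit 71) (nat_lit 5) (nat_lit 75) (nat_lit 5) (nat_lit 72) (nat_lit 5) (nat_lit 405) (nat_lit 329) (nat_lit 166)) (XT.lf (nat_lit 0) (nat_lit 20925305948) (nat_lit 304) (nat_lit 3712677000) (nat_lit 76) (nat_lit 13237174539) (nat_lit 71) (nat_lit 5) (nat_lit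 75) (nat_lit 5) (nat_lit 72) (nat_lit 5) (nat_lit 406) (nat_lit 329) (nat_lit 165)))))) (XT.nd (nat_lit 546) (nat_lit 532) (nat_lit 0) (XT.nd (nat_lit 234) (nat_lit 380) (nat_lit 0) (XT.nd (nat_lit 78) (nat_lit 304) (nat_lit 0) (XT.lf (nat_lit 0) (nat_lit 16368620899) (nat_lit 152) (nat_lit 13384421256) (nat_lit 228) (nat_lit 8904764631) (nat_lit 69) (nat_lit 5) (nat_lit 71) (nat_lit 5) (nat_lit 72) (nat_lit 5) (nat_lit 407) (nat_lit 329) (nat_lit 164)) (XT.nd (nat_lit 78) (nat_lit 304) (nat_lit 0) (XT.lf (nat_lit 0) (nat_lit 37119521664) (nat_lit 152) (nat_lit 1758323292) (nat_lit 228) (nat_lit 585124651) (nat_lit 69) (nat_lit 5) (nat_lit 71) (nat_lit 5) (nat_lit 72) (nat_lit 5) (nat_lit 408) (nat_lit 329) (nat_lit 163)) (XT.lf (nat_lit 0) (nat_lit 8101441675) (nat_lit 304) (nat_lit 21909848579) (nat_lit 76) (nat_lit 10270501559) (nat_lit 65) (nat_lit 5) (nat_lit 69) (nat_lit 5) (nat_lit 66) (nat_lit 5)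 (nat_lit 409) (nat_lit 329) (nat_lit 162)))) (XT.nd (nat_lit 156) (nat_lit 228) (nat_lit 0) (XT.nd (nat_lit 78) (nat_lit 152) (nat_lit 0) (XT.lf (nat_lit 0) (nat_lit 17073029329) (nat_lit 304) (nat_lit 1399889224) (nat_lit 76) (nat_lit 22651001774) (nat_lit 65) (nat_lit 5) (nat_lit 69) (nat_lit 5) (nat_lit 66) (nat_lit 5) (nat_lit 410) (nat_lit 329) (nat_lit 161)) (XT.lf (nat_lit 0) (nat_lit 20109210635) (nat_lit 152) (nat_lit 6392882317) (nat_lit 228) (nat_lit 15483570854) (nat_lit 63) (nat_lit 5) (nat_lit 65) (nat_lit 5) (nat_lit 66) (nat_lit 5) (nat_lit 411) (nat_lit 329) (nat_lit 160))) (XT.nd (nat_lit 78) (nat_lit 228) (nat_lit 0) (XT.lf (nat_lit 0) (nat_lit 36281511996) (nat_lit 228) (nat_lit 647439061) (nat_lit 76) (nat_lit 5942284956) (nat_lit 63) (nat_lit 5) (nat_lit 66) (nat_lit 5) (nat_lit 64) (nat_lit 5) (nat_lit 412) (nat_lit 329) (nat_lit 159)) (XT.lf (nat_lit 0) (nat_lit 2789217847) (nat_lit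 228) (nat_lit 22235075679) (nat_lit 76) (nat_lit 18750287898) (nat_lit 60) (nat_lit 5) (nat_lit 63) (nat_lit 5) (nat_lit 61) (nat_lit 5) (nat_lit 413) (nat_lit 329) (nat_lit 158))))) (XT.nd (nat_lit 234) (nat_lit 380) (nat_lit 0) (XT.nd (nat_lit 78) (nat_lit 152) (nat_lit 0) (XT.lf (nat_lit 0) (nat_lit 12318895680) (nat_lit 228) (nat_lit 373165370) (nat_lit 76) (nat_lit 32010955214) (nat_lit 60) (nat_lit 5) (nat_lit 63) (nat_lit 5) (nat_lit 61) (nat_lit 5) (nat_lit 414) (nat_lit 329) (nat_lit 157)) (XT.nd (nat_lit 78) (nat_lit 0) (nat_lit 0) (XT.lf (nat_lit 0) (nat_lit 22349052679) (nat_lit 228) (nat_lit 23078096993) (nat_lit 76) (nat_lit 225717639) (nat_lit 58) (nat_lit 5) (nat_lit 61) (nat_lit 5) (nat_lit 59) (nat_lit 5) (nat_lit 415) (nat_lit 329) (nat_lit 156)) (XT.lf (nat_lit 0) (nat_lit 32804960494) (nat_lit 228) (nat_lit 546146593) (nat_lit 76) (nat_lit 13276362220) (nat_lit 58) (nat_lit 5) (nat_lit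 61) (nat_lit 5) (nat_lit 59) (nat_lit 5) (nat_lit 416) (nat_lit 329) (nat_lit 155)))) (XT.nd (nat_lit 156) (nat_lit 152) (nat_lit 0) (XT.nd (nat_lit 78) (nat_lit 76) (nat_lit 0) (XT.lf (nat_lit 0) (nat_lit 23104717535) (nat_lit 152) (nat_lit 20687435938) (nat_lit 228) (nat_lit 3832628432) (nat_lit 56) (nat_lit 5) (nat_lit 58) (nat_lit 5) (nat_lit 59) (nat_lit 5) (nat_lit 417) (nat_lit 329) (nat_lit 154)) (XT.lf (nat_lit 0) (nat_lit 6332041806) (nat_lit 228) (nat_lit 1245581547) (nat_lit 76) (nat_lit 41072496465) (nat_lit 55) (nat_lit 5) (nat_lit 58) (nat_lit 5) (nat_lit 56) (nat_lit 5) (nat_lit 418) (nat_lit 329) (nat_lit 153))) (XT.nd (nat_lit 78) (nat_lit 0) (nat_lit 0) (XT.lf (nat_lit 0) (nat_lit 17002145077) (nat_lit 228) (nat_lit 26625131805) (nat_lit 76) (nat_lit 6069477544) (nat_lit 53) (nat_lit 5) (nat_lit 56) (nat_lit 5) (nat_lit 54) (nat_lit 5) (nat_lit 419) (nat_lit 329) (nat_lit 152)) (XT.lf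 (nat_lit 0) (nat_lit 28075754102) (nat_lit 228) (nat_lit 2713390405) (nat_lit 76) (nat_lit 19983142180) (nat_lit 53) (nat_lit 5) (nat_lit 56) (nat_lit 5) (nat_lit 54) (nat_lit 5) (nat_lit 420) (nat_lit 329) (nat_lit 151))))))))
noncomputable def xc176 : XT := (XT.nd (nat_lit 40326) (nat_lit 0) (nat_lit 10716) (XT.nd (nat_lit 1014) (nat_lit 532) (nat_lit 0) (XT.nd (nat_lit 468) (nat_lit 456) (nat_lit 0) (XT.nd (nat_lit 234) (nat_lit 152) (nat_lit 0) (XT.nd (nat_lit 78) (nat_lit 228) (nat_lit 0) (XT.lf (nat_lit 0) (nat_lit 22344238968) (nat_lit 152) (nat_lit 17347919132) (nat_lit 228) (nat_lit 12181609884) (nat_lit 51) (nat_lit 5) (nat_lit 53) (nat_lit 5) (nat_lit 54) (nat_lit 5) (nat_lit 421) (nat_lit 329) (nat_lit 150)) (XT.nd (nat_lit 78) (nat_lit 228) (nat_lit 0) (XT.lf (nat_lit 0) (nat_lit 48201811556) (nat_lit 152) (nat_lit 3478493914) (nat_lit 228) (nat_lit 1327291366) (nat_lit 51) (nat_lit 5) (nat_lit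 53) (nat_lit 5) (nat_lit 54) (nat_lit 5) (nat_lit 422) (nat_lit 329) (nat_lit 149)) (XT.lf (nat_lit 0) (nat_lit 9964659554) (nat_lit 228) (nat_lit 33306635634) (nat_lit 76) (nat_lit 10892176775) (nat_lit 48) (nat_lit 5) (nat_lit 51) (nat_lit 5) (nat_lit 49) (nat_lit 5) (nat_lit 423) (nat_lit 329) (nat_lit 148)))) (XT.nd (nat_lit 78) (nat_lit 152) (nat_lit 0) (XT.lf (nat_lit 0) (nat_lit 21648092119) (nat_lit 228) (nat_lit 8020072124) (nat_lit 76) (nat_lit 25683083445) (nat_lit 48) (nat_lit 5) (nat_lit 51) (nat_lit 5) (nat_lit 49) (nat_lit 5) (nat_lit 424) (nat_lit 329) (nat_lit 147)) (XT.nd (nat_lit 78) (nat_lit 0) (nat_lit 0) (XT.lf (nat_lit 0) (nat_lit 18376601783) (nat_lit 152) (nat_lit 15478141298) (nat_lit 228) (nat_lit 22714732718) (nat_lit 46) (nat_lit 5) (nat_lit 48) (nat_lit 5) (nat_lit 49) (nat_lit 5) (nat_lit 425) (nat_lit 329) (nat_lit 146)) (XT.lf (nat_lit 0) (nat_lit 45722568738) (nat_lit 152)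 (nat_lit 782127244) (nat_lit 228) (nat_lit 11317242263) (nat_lit 46) (nat_lit 5) (nat_lit 48) (nat_lit 5) (nat_lit 49) (nat_lit 5) (nat_lit 426) (nat_lit 329) (nat_lit 145))))) (XT.nd (nat_lit 234) (nat_lit 152) (nat_lit 0) (XT.nd (nat_lit 78) (nat_lit 152) (nat_lit 0) (XT.lf (nat_lit 0) (nat_lit 694320914) (nat_lit 152) (nat_lit 44187184086) (nat_lit 76) (nat_lit 14221936765) (nat_lit 44) (nat_lit 5) (nat_lit 46) (nat_lit 5) (nat_lit 45) (nat_lit 5) (nat_lit 427) (nat_lit 329) (nat_lit 144)) (XT.nd (nat_lit 78) (nat_lit 152) (nat_lit 0) (XT.lf (nat_lit 0) (nat_lit 12966105844) (nat_lit 152) (nat_lit 17557251087) (nat_lit 76) (nat_lit 29892852211) (nat_lit 44) (nat_lit 5) (nat_lit 46) (nat_lit 5) (nat_lit 45) (nat_lit 5) (nat_lit 428) (nat_lit 329) (nat_lit 143)) (XT.lf (nat_lit 0) (nat_lit 10061211790) (nat_lit 152) (nat_lit 15637864313) (nat_lit 228) (nat_lit 36066492982) (nat_lit 42) (nat_lit 5) (nat_lit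 44) (nat_lit 5) (nat_lit 45) (nat_lit 5) (nat_lit 429) (nat_lit 329) (nat_lit 142)))) (XT.nd (nat_lit 156) (nat_lit 76) (nat_lit 0) (XT.nd (nat_lit 78) (nat_lit 76) (nat_lit 0) (XT.lf (nat_lit 0) (nat_lit 38861502070) (nat_lit 152) (nat_lit 126187975) (nat_lit 228) (nat_lit 24162510631) (nat_lit 42) (nat_lit 5) (nat_lit 44) (nat_lit 5) (nat_lit 45) (nat_lit 5) (nat_lit 430) (nat_lit 329) (nat_lit 141)) (XT.lf (nat_lit 0) (nat_lit 3865982879) (nat_lit 76) (nat_lit 48994948499) (nat_lit 152) (nat_lit 11709861238) (nat_lit 41) (nat_lit 5) (nat_lit 42) (nat_lit 5) (nat_lit 43) (nat_lit 4) (nat_lit 431) (nat_lit 329) (nat_lit 140))) (XT.nd (nat_lit 78) (nat_lit 0) (nat_lit 0) (XT.lf (nat_lit 0) (nat_lit 1339974504) (nat_lit 152) (nat_lit 32684379486) (nat_lit 76) (nat_lit 32001965096) (nat_lit 40) (nat_lit 5) (nat_lit 42) (nat_lit 5) (nat_lit 41) (nat_lit 5) (nat_lit 432) (nat_lit 329) (nat_lit 139)) (XT.lf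 (nat_lit 0) (nat_lit 14542497449) (nat_lit 152) (nat_lit 3945611025) (nat_lit 76) (nat_lit 49034028668) (nat_lit 40) (nat_lit 5) (nat_lit 42) (nat_lit 5) (nat_lit 41) (nat_lit 5) (nat_lit 433) (nat_lit 329) (nat_lit 138)))))) (XT.nd (nat_lit 38766) (nat_lit 0) (nat_lit 16796) (XT.nd (nat_lit 234) (nat_lit 304) (nat_lit 0) (XT.nd (nat_lit 78) (nat_lit 76) (nat_lit 0) (XT.lf (nat_lit 0) (nat_lit 26159638304) (nat_lit 152) (nat_lit 2229569491) (nat_lit 228) (nat_lit 40666179011) (nat_lit 38) (nat_lit 5) (nat_lit 40) (nat_lit 5) (nat_lit 41) (nat_lit 5) (nat_lit 434) (nat_lit 329) (nat_lit 137)) (XT.nd (nat_lit 78) (nat_lit 76) (nat_lit 0) (XT.lf (nat_lit 0) (nat_lit 42827762121) (nat_lit 228) (nat_lit 13530614225) (nat_lit 76) (nat_lit 14270964742) (nat_lit 38) (nat_lit 5) (nat_lit 41) (nat_lit 5) (nat_lit 39) (nat_lit 4) (nat_lit 435) (nat_lit 329) (nat_lit 136)) (XT.lf (nat_lit 0) (nat_lit 17019527248) (nat_lit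 76) (nat_lit 40862381717) (nat_lit 152) (nat_lit 14363132349) (nat_lit 37) (nat_lit 5) (nat_lit 38) (nat_lit 5) (nat_lit 39) (nat_lit 4) (nat_lit 436) (nat_lit 329) (nat_lit 135)))) (XT.nd (nat_lit 78) (nat_lit 304) (nat_lit 0) (XT.lf (nat_lit 0) (nat_lit 48757611794) (nat_lit 76) (nat_lit 24763497374) (nat_lit 152) (nat_lit 384100895) (nat_lit 37) (nat_lit 5) (nat_lit 38) (nat_lit 5) (nat_lit 39) (nat_lit 4) (nat_lit 437) (nat_lit 329) (nat_lit 134)) (XT.nd (nat_lit 234) (nat_lit 76) (nat_lit 0) (XT.lf (nat_lit 0) (nat_lit 5805409619) (nat_lit 152) (nat_lit 7988085962) (nat_lit 228) (nat_lit 61816067324) (nat_lit 34) (nat_lit 5) (nat_lit 36) (nat_lit 5) (nat_lit 37) (nat_lit 5) (nat_lit 438) (nat_lit 329) (nat_lit 133)) (XT.lf (nat_lit 0) (nat_lit 24924834323) (nat_lit 76) (nat_lit 35431041790) (nat_lit 152) (nat_lit 20635858083) (nat_lit 33) (nat_lit 5) (nat_lit 34) (nat_lit 5) (nat_lit 35) (nat_lit 4)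 (nat_lit 441) (nat_lit 329) (nat_lit 130))))) (XT.nd (nat_lit 234) (nat_lit 988) (nat_lit 0) (XT.nd (nat_lit 78) (nat_lit 0) (nat_lit 0) (XT.lf (nat_lit 0) (nat_lit 3417379928) (nat_lit 1140) (nat_lit 874911412) (nat_lit 1140) (nat_lit 874911412) (nat_lit 267) (nat_lit 3) (nat_lit 282) (nat_lit 3) (nat_lit 282) (nat_lit 5) (nat_lit 330) (nat_lit 330) (nat_lit 240)) (XT.nd (nat_lit 78) (nat_lit 0) (nat_lit 76) (XT.lf (nat_lit 76) (nat_lit 3265572961) (nat_lit 0) (nat_lit 4340692516) (nat_lit 1140) (nat_lit 2862725156) (nat_lit 268) (nat_lit 5) (nat_lit 267) (nat_lit 3) (nat_lit 282) (nat_lit 5) (nat_lit 331) (nat_lit 330) (nat_lit 239)) (XT.lf (nat_lit 0) (nat_lit 8394159814) (nat_lit 1064) (nat_lit 2154207533) (nat_lit 1140) (nat_lit 59462765) (nat_lit 268) (nat_lit 5) (nat_lit 282) (nat_lit 5) (nat_lit 283) (nat_lit 5) (nat_lit 332) (nat_lit 330) (nat_lit 238)))) (XT.nd (nat_lit 156) (nat_lit 1064) (nat_lit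 0) (XT.nd (nat_lit 78) (nat_lit 0) (nat_lit 0) (XT.lf (nat_lit 76) (nat_lit 3049457842) (nat_lit 0) (nat_lit 6204354127) (nat_lit 1140) (nat_lit 1495592872) (nat_lit 269) (nat_lit 5) (nat_lit 268) (nat_lit 5) (nat_lit 283) (nat_lit 5) (nat_lit 333) (nat_lit 330) (nat_lit 237)) (XT.lf (nat_lit 76) (nat_lit 8439975344) (nat_lit 0) (nat_lit 1697437191) (nat_lit 1140) (nat_lit 757882808) (nat_lit 269) (nat_lit 5) (nat_lit 268) (nat_lit 5) (nat_lit 283) (nat_lit 5) (nat_lit 334) (nat_lit 330) (nat_lit 236))) (XT.nd (nat_lit 78) (nat_lit 0) (nat_lit 0) (XT.lf (nat_lit 0) (nat_lit 36213590) (nat_lit 1140) (nat_lit 8082587432) (nat_lit 1216) (nat_lit 2925744708) (nat_lit 254) (nat_lit 5) (nat_lit 269) (nat_lit 5) (nat_lit 270) (nat_lit 5) (nat_lit 335) (nat_lit 330) (nat_lit 235)) (XT.lf (nat_lit 0) (nat_lit 858233670) (nat_lit 1140) (nat_lit 2644144798) (nat_lit 1216) (nat_lit 7695102210) (nat_lit 254) (nat_lit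 5) (nat_lit 269) (nat_lit 5) (nat_lit 270) (nat_lit 5) (nat_lit 336) (nat_lit 330) (nat_lit 234))))))) (XT.nd (nat_lit 1014) (nat_lit 4028) (nat_lit 0) (XT.nd (nat_lit 468) (nat_lit 2128) (nat_lit 0) (XT.nd (nat_lit 234) (nat_lit 0) (nat_lit 76) (XT.nd (nat_lit 78) (nat_lit 0) (nat_lit 0) (XT.lf (nat_lit 0) (nat_lit 1724321764) (nat_lit 1140) (nat_lit 8364906480) (nat_lit 1216) (nat_lit 1265205020) (nat_lit 255) (nat_lit 5) (nat_lit 270) (nat_lit 5) (nat_lit 271) (nat_lit 5) (nat_lit 337) (nat_lit 330) (nat_lit 233)) (XT.nd (nat_lit 78) (nat_lit 0) (nat_lit 0) (XT.lf (nat_lit 0) (nat_lit 2656758409) (nat_lit 1140) (nat_lit 2718149730) (nat_lit 1216) (nat_lit 6139986782) (nat_lit 255) (nat_lit 5) (nat_lit 270) (nat_lit 5) (nat_lit 271) (nat_lit 5) (nat_lit 338) (nat_lit 330) (nat_lit 232)) (XT.lf (nat_lit 76) (nat_lit 3145480804) (nat_lit 0) (nat_lit 481267181) (nat_lit 1216) (nat_lit 8053146184) (nat_lit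 256) (nat_lit 5) (nat_lit 255) (nat_lit 5) (nat_lit 271) (nat_lit 5) (nat_lit 339) (nat_lit 330) (nat_lit 231)))) (XT.nd (nat_lit 78) (nat_lit 0) (nat_lit 0) (XT.lf (nat_lit 0) (nat_lit 4677257116) (nat_lit 1140) (nat_lit 2666828023) (nat_lit 1216) (nat_lit 4504226468) (nat_lit 256) (nat_lit 5) (nat_lit 271) (nat_lit 5) (nat_lit 272) (nat_lit 5) (nat_lit 340) (nat_lit 330) (nat_lit 230)) (XT.nd (nat_lit 78) (nat_lit 0) (nat_lit 76) (XT.lf (nat_lit 76) (nat_lit 3424821023) (nat_lit 0) (nat_lit 2352607642) (nat_lit 1216) (nat_lit 6243818985) (nat_lit 257) (nat_lit 5) (nat_lit 256) (nat_lit 5) (nat_lit 272) (nat_lit 5) (nat_lit 341) (nat_lit 330) (nat_lit 229)) (XT.lf (nat_lit 0) (nat_lit 6945553911) (nat_lit 1140) (nat_lit 2486274766) (nat_lit 1216) (nat_lit 2766504832) (nat_lit 257) (nat_lit 5) (nat_lit 272) (nat_lit 5) (nat_lit 273) (nat_lit 5) (nat_lit 342) (nat_lit 330) (nat_lit 228))))) (XT.nd (nat_lit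 234) (nat_lit 2280) (nat_lit 0) (XT.nd (nat_lit 78) (nat_lit 0) (nat_lit 76) (XT.lf (nat_lit 76) (nat_lit 3844812423) (nat_lit 0) (nat_lit 4345663604) (nat_lit 1216) (nat_lit 4189013216) (nat_lit 258) (nat_lit 5) (nat_lit 257) (nat_lit 5) (nat_lit 273) (nat_lit 5) (nat_lit 343) (nat_lit 330) (nat_lit 227)) (XT.nd (nat_lit 78) (nat_lit 0) (nat_lit 0) (XT.lf (nat_lit 0) (nat_lit 9488631328) (nat_lit 1140) (nat_lit 2171917598) (nat_lit 1216) (nat_lit 905063762) (nat_lit 258) (nat_lit 5) (nat_lit 273) (nat_lit 5) (nat_lit 274) (nat_lit 5) (nat_lit 344) (nat_lit 330) (nat_lit 226)) (XT.lf (nat_lit 76) (nat_lit 4410633236) (nat_lit 0) (nat_lit 6482993536) (nat_lit 1216) (nat_lit 1861665525) (nat_lit 259) (nat_lit 5) (nat_lit 258) (nat_lit 5) (nat_lit 274) (nat_lit 5) (nat_lit 345) (nat_lit 330) (nat_lit 225)))) (XT.nd (nat_lit 156) (nat_lit 1216) (nat_lit 0) (XT.nd (nat_lit 78) (nat_lit 1140) (nat_lit 0) (XT.lf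 (nat_lit 76) (nat_lit 11221189197) (nat_lit 0) (nat_lit 1124362426) (nat_lit 1216) (nat_lit 604976340) (nat_lit 259) (nat_lit 5) (nat_lit 258) (nat_lit 5) (nat_lit 274) (nat_lit 5) (nat_lit 346) (nat_lit 330) (nat_lit 224)) (XT.lf (nat_lit 0) (nat_lit 751612730) (nat_lit 1216) (nat_lit 8028612650) (nat_lit 76) (nat_lit 4368935476) (nat_lit 243) (nat_lit 5) (nat_lit 259) (nat_lit 5) (nat_lit 244) (nat_lit 5) (nat_lit 347) (nat_lit 330) (nat_lit 223))) (XT.nd (nat_lit 78) (nat_lit 1216) (nat_lit 0) (XT.lf (nat_lit 0) (nat_lit 2149064935) (nat_lit 1216) (nat_lit 1173463306) (nat_lit 76) (nat_lit 10030683338) (nat_lit 243) (nat_lit 5) (nat_lit 259) (nat_lit 5) (nat_lit 244) (nat_lit 5) (nat_lit 348) (nat_lit 330) (nat_lit 222)) (XT.lf (nat_lit 0) (nat_lit 3652747467) (nat_lit 1292) (nat_lit 7594502074) (nat_lit 76) (nat_lit 2314213125) (nat_lit 227) (nat_lit 5) (nat_lit 244) (nat_lit 5) (nat_lit 228) (nat_lit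 5) (nat_lit 349) (nat_lit 330) (nat_lit 221)))))) (XT.nd (nat_lit 546) (nat_lit 1596) (nat_lit 0) (XT.nd (nat_lit 234) (nat_lit 1216) (nat_lit 0) (XT.nd (nat_lit 78) (nat_lit 1216) (nat_lit 0) (XT.lf (nat_lit 0) (nat_lit 5230790037) (nat_lit 1292) (nat_lit 477229567) (nat_lit 76) (nat_lit 8067072004) (nat_lit 227) (nat_lit 5) (nat_lit 244) (nat_lit 5) (nat_lit 228) (nat_lit 5) (nat_lit 350) (nat_lit 330) (nat_lit 220)) (XT.nd (nat_lit 78) (nat_lit 608) (nat_lit 0) (XT.lf (nat_lit 0) (nat_lit 6908722337) (nat_lit 684) (nat_lit 7018393450) (nat_lit 76) (nat_lit 66444759) (nat_lit 219) (nat_lit 5) (nat_lit 228) (nat_lit 5) (nat_lit 220) (nat_lit 5) (nat_lit 351) (nat_lit 330) (nat_lit 219)) (XT.lf (nat_lit 0) (nat_lit 379140241) (nat_lit 608) (nat_lit 8308040414) (nat_lit 684) (nat_lit 5529904619) (nat_lit 211) (nat_lit 5) (nat_lit 219) (nat_lit 5) (nat_lit 220) (nat_lit 5) (nat_lit 352) (nat_lit 330) (nat_lit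 218)))) (XT.nd (nat_lit 156) (nat_lit 608) (nat_lit 0) (XT.nd (nat_lit 78) (nat_lit 608) (nat_lit 0) (XT.lf (nat_lit 0) (nat_lit 8128434287) (nat_lit 608) (nat_lit 2446889387) (nat_lit 684) (nat_lit 3870309286) (nat_lit 211) (nat_lit 5) (nat_lit 219) (nat_lit 5) (nat_lit 220) (nat_lit 5) (nat_lit 353) (nat_lit 330) (nat_lit 217)) (XT.lf (nat_lit 0) (nat_lit 1408074264) (nat_lit 608) (nat_lit 11145969375) (nat_lit 684) (nat_lit 2125982399) (nat_lit 203) (nat_lit 5) (nat_lit 211) (nat_lit 5) (nat_lit 212) (nat_lit 5) (nat_lit 354) (nat_lit 330) (nat_lit 216))) (XT.nd (nat_lit 78) (nat_lit 608) (nat_lit 0) (XT.lf (nat_lit 0) (nat_lit 9455968641) (nat_lit 608) (nat_lit 5210101379) (nat_lit 684) (nat_lit 253169281) (nat_lit 203) (nat_lit 5) (nat_lit 211) (nat_lit 5) (nat_lit 212) (nat_lit 5) (nat_lit 355) (nat_lit 330) (nat_lit 215)) (XT.lf (nat_lit 0) (nat_lit 1663645593) (nat_lit 608) (nat_lit 12573390498)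 (nat_lit 76) (nat_lit 927500384) (nat_lit 195) (nat_lit 5) (nat_lit 203) (nat_lit 5) (nat_lit 196) (nat_lit 5) (nat_lit 356) (nat_lit 330) (nat_lit 214))))) (XT.nd (nat_lit 234) (nat_lit 1064) (nat_lit 0) (XT.nd (nat_lit 78) (nat_lit 532) (nat_lit 0) (XT.lf (nat_lit 0) (nat_lit 3726864733) (nat_lit 608) (nat_lit 4485050735) (nat_lit 76) (nat_lit 7202388414) (nat_lit 195) (nat_lit 5) (nat_lit 203) (nat_lit 5) (nat_lit 196) (nat_lit 5) (nat_lit 357) (nat_lit 330) (nat_lit 213)) (XT.nd (nat_lit 78) (nat_lit 0) (nat_lit 0) (XT.lf (nat_lit 0) (nat_lit 3908556796) (nat_lit 532) (nat_lit 1968071367) (nat_lit 608) (nat_lit 9794202702) (nat_lit 188) (nat_lit 5) (nat_lit 195) (nat_lit 5) (nat_lit 196) (nat_lit 5) (nat_lit 358) (nat_lit 330) (nat_lit 212)) (XT.lf (nat_lit 0) (nat_lit 8166839726) (nat_lit 608) (nat_lit 3345030245) (nat_lit 76) (nat_lit 4420910841) (nat_lit 188) (nat_lit 5) (nat_lit 196) (nat_lit 5)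 (nat_lit 189) (nat_lit 5) (nat_lit 359) (nat_lit 330) (nat_lit 211)))) (XT.nd (nat_lit 156) (nat_lit 608) (nat_lit 0) (XT.nd (nat_lit 78) (nat_lit 0) (nat_lit 0) (XT.lf (nat_lit 0) (nat_lit 5397069419) (nat_lit 456) (nat_lit 5187738140) (nat_lit 532) (nat_lit 5616015843) (nat_lit 182) (nat_lit 5) (nat_lit 188) (nat_lit 5) (nat_lit 189) (nat_lit 5) (nat_lit 360) (nat_lit 330) (nat_lit 210)) (XT.lf (nat_lit 0) (nat_lit 13110076750) (nat_lit 532) (nat_lit 2032689307) (nat_lit 76) (nat_lit 1333103820) (nat_lit 182) (nat_lit 5) (nat_lit 189) (nat_lit 5) (nat_lit 183) (nat_lit 5) (nat_lit 361) (nat_lit 330) (nat_lit 209))) (XT.nd (nat_lit 78) (nat_lit 76) (nat_lit 0) (XT.lf (nat_lit 0) (nat_lit 7074884107) (nat_lit 532) (nat_lit 8743846314) (nat_lit 608) (nat_lit 937213853) (nat_lit 175) (nat_lit 5) (nat_lit 182) (nat_lit 5) (nat_lit 183) (nat_lit 5) (nat_lit 362) (nat_lit 330) (nat_lit 208)) (XT.lf (nat_lit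 0) (nat_lit 1542779264) (nat_lit 608) (nat_lit 575113989) (nat_lit 76) (nat_lit 14925809171) (nat_lit 174) (nat_lit 5) (nat_lit 182) (nat_lit 5) (nat_lit 175) (nat_lit 5) (nat_lit 363) (nat_lit 330) (nat_lit 207))))))))
noncomputable def xc177 : XT := (XT.nd (nat_lit 2106) (nat_lit 3268) (nat_lit 0) (XT.nd (nat_lit 1014) (nat_lit 2204) (nat_lit 0) (XT.nd (nat_lit 468) (nat_lit 1520) (nat_lit 0) (XT.nd (nat_lit 234) (nat_lit 912) (nat_lit 0) (XT.nd (nat_lit 78) (nat_lit 456) (nat_lit 0) (XT.lf (nat_lit 0) (nat_lit 4199292947) (nat_lit 532) (nat_lit 8427276042) (nat_lit 76) (nat_lit 4709622081) (nat_lit 168) (nat_lit 5) (nat_lit 175) (nat_lit 5) (nat_lit 169) (nat_lit 5) (nat_lit 364) (nat_lit 330) (nat_lit 206)) (XT.nd (nat_lit 78) (nat_lit 0) (nat_lit 0) (XT.lf (nat_lit 0) (nat_lit 1037977873) (nat_lit 456) (nat_lit 5923214179) (nat_lit 532) (nat_lit 10675496348) (nat_lit 162) (nat_lit 5) (nat_lit 168)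 (nat_lit 5) (nat_lit 169) (nat_lit 5) (nat_lit 365) (nat_lit 330) (nat_lit 205)) (XT.lf (nat_lit 0) (nat_lit 9890377222) (nat_lit 532) (nat_lit 7007388138) (nat_lit 76) (nat_lit 1045907005) (nat_lit 162) (nat_lit 5) (nat_lit 169) (nat_lit 5) (nat_lit 163) (nat_lit 5) (nat_lit 366) (nat_lit 330) (nat_lit 204)))) (XT.nd (nat_lit 78) (nat_lit 532) (nat_lit 0) (XT.lf (nat_lit 0) (nat_lit 2855738542) (nat_lit 380) (nat_lit 10127170246) (nat_lit 456) (nat_lit 5274697390) (nat_lit 157) (nat_lit 5) (nat_lit 162) (nat_lit 5) (nat_lit 163) (nat_lit 5) (nat_lit 367) (nat_lit 330) (nat_lit 203)) (XT.nd (nat_lit 78) (nat_lit 532) (nat_lit 0) (XT.lf (nat_lit 0) (nat_lit 13145515773) (nat_lit 380) (nat_lit 3083021067) (nat_lit 456) (nat_lit 2350615873) (nat_lit 157) (nat_lit 5) (nat_lit 162) (nat_lit 5) (nat_lit 163) (nat_lit 5) (nat_lit 368) (nat_lit 330) (nat_lit 202)) (XT.lf (nat_lit 0) (nat_lit 725861413) (nat_lit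 532) (nat_lit 14039280967) (nat_lit 76) (nat_lit 4142689402) (nat_lit 150) (nat_lit 5) (nat_lit 157) (nat_lit 5) (nat_lit 151) (nat_lit 5) (nat_lit 369) (nat_lit 330) (nat_lit 201))))) (XT.nd (nat_lit 234) (nat_lit 1140) (nat_lit 0) (XT.nd (nat_lit 78) (nat_lit 380) (nat_lit 0) (XT.lf (nat_lit 0) (nat_lit 3923237392) (nat_lit 532) (nat_lit 3720755525) (nat_lit 76) (nat_lit 11599408580) (nat_lit 150) (nat_lit 5) (nat_lit 157) (nat_lit 5) (nat_lit 151) (nat_lit 5) (nat_lit 370) (nat_lit 330) (nat_lit 200)) (XT.nd (nat_lit 78) (nat_lit 0) (nat_lit 0) (XT.lf (nat_lit 0) (nat_lit 7032044087) (nat_lit 380) (nat_lit 242292821) (nat_lit 456) (nat_lit 12312971168) (nat_lit 145) (nat_lit 5) (nat_lit 150) (nat_lit 5) (nat_lit 151) (nat_lit 5) (nat_lit 371) (nat_lit 330) (nat_lit 199)) (XT.lf (nat_lit 0) (nat_lit 10825214603) (nat_lit 456) (nat_lit 1840677894) (nat_lit 76) (nat_lit 7272665730) (nat_lit 145) (nat_lit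 5) (nat_lit 151) (nat_lit 5) (nat_lit 146) (nat_lit 5) (nat_lit 372) (nat_lit 330) (nat_lit 198)))) (XT.nd (nat_lit 156) (nat_lit 456) (nat_lit 0) (XT.nd (nat_lit 78) (nat_lit 304) (nat_lit 0) (XT.lf (nat_lit 0) (nat_lit 9363382845) (nat_lit 380) (nat_lit 5202268237) (nat_lit 456) (nat_lit 5732207447) (nat_lit 140) (nat_lit 5) (nat_lit 145) (nat_lit 5) (nat_lit 146) (nat_lit 5) (nat_lit 373) (nat_lit 330) (nat_lit 197)) (XT.lf (nat_lit 0) (nat_lit 242160051) (nat_lit 304) (nat_lit 18211884384) (nat_lit 380) (nat_lit 2212824610) (nat_lit 136) (nat_lit 5) (nat_lit 140) (nat_lit 5) (nat_lit 141) (nat_lit 5) (nat_lit 374) (nat_lit 330) (nat_lit 196))) (XT.nd (nat_lit 78) (nat_lit 380) (nat_lit 0) (XT.lf (nat_lit 0) (nat_lit 1538413997) (nat_lit 380) (nat_lit 9144044901) (nat_lit 76) (nat_lit 10359472155) (nat_lit 135) (nat_lit 5) (nat_lit 140) (nat_lit 5) (nat_lit 136) (nat_lit 5) (nat_lit 375) (nat_lit 330)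 (nat_lit 195)) (XT.lf (nat_lit 0) (nat_lit 2489601117) (nat_lit 380) (nat_lit 2883124837) (nat_lit 456) (nat_lit 16054414557) (nat_lit 130) (nat_lit 5) (nat_lit 135) (nat_lit 5) (nat_lit 136) (nat_lit 5) (nat_lit 376) (nat_lit 330) (nat_lit 194)))))) (XT.nd (nat_lit 546) (nat_lit 1216) (nat_lit 0) (XT.nd (nat_lit 234) (nat_lit 684) (nat_lit 0) (XT.nd (nat_lit 78) (nat_lit 304) (nat_lit 0) (XT.lf (nat_lit 0) (nat_lit 9456019015) (nat_lit 456) (nat_lit 7224083341) (nat_lit 76) (nat_lit 5139788466) (nat_lit 130) (nat_lit 5) (nat_lit 136) (nat_lit 5) (nat_lit 131) (nat_lit 5) (nat_lit 377) (nat_lit 330) (nat_lit 193)) (XT.nd (nat_lit 78) (nat_lit 0) (nat_lit 0) (XT.lf (nat_lit 0) (nat_lit 4895896623) (nat_lit 304) (nat_lit 8832972704) (nat_lit 380) (nat_lit 8493545597) (nat_lit 126) (nat_lit 5) (nat_lit 130) (nat_lit 5) (nat_lit 131) (nat_lit 5) (nat_lit 378) (nat_lit 330) (nat_lit 192)) (XT.lf (nat_lit 0)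 (nat_lit 17515808436) (nat_lit 304) (nat_lit 678632137) (nat_lit 380) (nat_lit 4440641058) (nat_lit 126) (nat_lit 5) (nat_lit 130) (nat_lit 5) (nat_lit 131) (nat_lit 5) (nat_lit 379) (nat_lit 330) (nat_lit 191)))) (XT.nd (nat_lit 156) (nat_lit 304) (nat_lit 0) (XT.nd (nat_lit 78) (nat_lit 76) (nat_lit 0) (XT.lf (nat_lit 0) (nat_lit 7514992657) (nat_lit 304) (nat_lit 15417237852) (nat_lit 380) (nat_lit 123753140) (nat_lit 122) (nat_lit 5) (nat_lit 126) (nat_lit 5) (nat_lit 127) (nat_lit 5) (nat_lit 380) (nat_lit 330) (nat_lit 190)) (XT.lf (nat_lit 0) (nat_lit 4289062423) (nat_lit 380) (nat_lit 2915197694) (nat_lit 76) (nat_lit 16282485611) (nat_lit 121) (nat_lit 5) (nat_lit 126) (nat_lit 5) (nat_lit 122) (nat_lit 5) (nat_lit 381) (nat_lit 330) (nat_lit 189))) (XT.nd (nat_lit 78) (nat_lit 0) (nat_lit 0) (XT.lf (nat_lit 0) (nat_lit 8935672807) (nat_lit 380) (nat_lit 13663339553) (nat_lit 76) (nat_lit 1328267237)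 (nat_lit 117) (nat_lit 5) (nat_lit 122) (nat_lit 5) (nat_lit 118) (nat_lit 5) (nat_lit 382) (nat_lit 330) (nat_lit 188)) (XT.lf (nat_lit 0) (nat_lit 13814912934) (nat_lit 380) (nat_lit 564988051) (nat_lit 76) (nat_lit 9998334095) (nat_lit 117) (nat_lit 5) (nat_lit 122) (nat_lit 5) (nat_lit 118) (nat_lit 5) (nat_lit 383) (nat_lit 330) (nat_lit 187))))) (XT.nd (nat_lit 234) (nat_lit 532) (nat_lit 0) (XT.nd (nat_lit 78) (nat_lit 380) (nat_lit 0) (XT.lf (nat_lit 0) (nat_lit 13172253524) (nat_lit 304) (nat_lit 5787297353) (nat_lit 380) (nat_lit 5879600197) (nat_lit 113) (nat_lit 5) (nat_lit 117) (nat_lit 5) (nat_lit 118) (nat_lit 5) (nat_lit 384) (nat_lit 330) (nat_lit 186)) (XT.nd (nat_lit 78) (nat_lit 76) (nat_lit 0) (XT.lf (nat_lit 0) (nat_lit 2018168702) (nat_lit 304) (nat_lit 22287447973) (nat_lit 380) (nat_lit 1006867607) (nat_lit 109) (nat_lit 5) (nat_lit 113) (nat_lit 5) (nat_lit 114) (nat_lit 5) (nat_lit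 385) (nat_lit 330) (nat_lit 185)) (XT.lf (nat_lit 0) (nat_lit 4102556452) (nat_lit 380) (nat_lit 9551793341) (nat_lit 76) (nat_lit 12139448990) (nat_lit 108) (nat_lit 5) (nat_lit 113) (nat_lit 5) (nat_lit 109) (nat_lit 5) (nat_lit 386) (nat_lit 330) (nat_lit 184)))) (XT.nd (nat_lit 156) (nat_lit 228) (nat_lit 0) (XT.nd (nat_lit 78) (nat_lit 0) (nat_lit 0) (XT.lf (nat_lit 0) (nat_lit 4673331577) (nat_lit 304) (nat_lit 4709355161) (nat_lit 380) (nat_lit 16905439289) (nat_lit 104) (nat_lit 5) (nat_lit 108) (nat_lit 5) (nat_lit 109) (nat_lit 5) (nat_lit 387) (nat_lit 330) (nat_lit 183)) (XT.lf (nat_lit 0) (nat_lit 14954735882) (nat_lit 380) (nat_lit 7328599413) (nat_lit 76) (nat_lit 4509944472) (nat_lit 104) (nat_lit 5) (nat_lit 109) (nat_lit 5) (nat_lit 105) (nat_lit 5) (nat_lit 388) (nat_lit 330) (nat_lit 182))) (XT.nd (nat_lit 78) (nat_lit 0) (nat_lit 0) (XT.lf (nat_lit 0) (nat_lit 7474760784) (nat_lit 228)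 (nat_lit 13330684841) (nat_lit 304) (nat_lit 6504799584) (nat_lit 101) (nat_lit 5) (nat_lit 104) (nat_lit 5) (nat_lit 105) (nat_lit 5) (nat_lit 389) (nat_lit 330) (nat_lit 181)) (XT.lf (nat_lit 0) (nat_lit 22861902414) (nat_lit 228) (nat_lit 4036900513) (nat_lit 304) (nat_lit 941904906) (nat_lit 101) (nat_lit 5) (nat_lit 104) (nat_lit 5) (nat_lit 105) (nat_lit 5) (nat_lit 390) (nat_lit 330) (nat_lit 180))))))) (XT.nd (nat_lit 1014) (nat_lit 1444) (nat_lit 0) (XT.nd (nat_lit 468) (nat_lit 684) (nat_lit 0) (XT.nd (nat_lit 234) (nat_lit 532) (nat_lit 0) (XT.nd (nat_lit 78) (nat_lit 228) (nat_lit 0) (XT.lf (nat_lit 0) (nat_lit 4842990443) (nat_lit 380) (nat_lit 17966008592) (nat_lit 76) (nat_lit 5572250193) (nat_lit 96) (nat_lit 5) (nat_lit 101) (nat_lit 5) (nat_lit 97) (nat_lit 5) (nat_lit 391) (nat_lit 330) (nat_lit 179)) (XT.nd (nat_lit 78) (nat_lit 228) (nat_lit 0) (XT.lf (nat_lit 0) (nat_lit 10866561494)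 (nat_lit 380) (nat_lit 2623564823) (nat_lit 76) (nat_lit 15445080804) (nat_lit 96) (nat_lit 5) (nat_lit 101) (nat_lit 5) (nat_lit 97) (nat_lit 5) (nat_lit 392) (nat_lit 330) (nat_lit 178)) (XT.lf (nat_lit 0) (nat_lit 13431103543) (nat_lit 228) (nat_lit 3762355697) (nat_lit 304) (nat_lit 12308647704) (nat_lit 93) (nat_lit 5) (nat_lit 96) (nat_lit 5) (nat_lit 97) (nat_lit 5) (nat_lit 393) (nat_lit 330) (nat_lit 177)))) (XT.nd (nat_lit 78) (nat_lit 532) (nat_lit 0) (XT.lf (nat_lit 0) (nat_lit 23790636635) (nat_lit 304) (nat_lit 134634435) (nat_lit 76) (nat_lit 6158330242) (nat_lit 93) (nat_lit 5) (nat_lit 97) (nat_lit 5) (nat_lit 94) (nat_lit 5) (nat_lit 394) (nat_lit 330) (nat_lit 176)) (XT.nd (nat_lit 78) (nat_lit 228) (nat_lit 0) (XT.lf (nat_lit 0) (nat_lit 97110289) (nat_lit 304) (nat_lit 14122053229) (nat_lit 76) (nat_lit 16457645571) (nat_lit 89) (nat_lit 5) (nat_lit 93) (nat_lit 5) (nat_lit 90) (nat_lit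 5) (nat_lit 395) (nat_lit 330) (nat_lit 175)) (XT.lf (nat_lit 0) (nat_lit 2435084244) (nat_lit 228) (nat_lit 4135882858) (nat_lit 304) (nat_lit 24714421523) (nat_lit 86) (nat_lit 5) (nat_lit 89) (nat_lit 5) (nat_lit 90) (nat_lit 5) (nat_lit 396) (nat_lit 330) (nat_lit 174))))) (XT.nd (nat_lit 234) (nat_lit 456) (nat_lit 0) (XT.nd (nat_lit 78) (nat_lit 228) (nat_lit 0) (XT.lf (nat_lit 0) (nat_lit 13436966921) (nat_lit 304) (nat_lit 12200994070) (nat_lit 76) (nat_lit 6268328275) (nat_lit 86) (nat_lit 5) (nat_lit 90) (nat_lit 5) (nat_lit 87) (nat_lit 5) (nat_lit 397) (nat_lit 330) (nat_lit 173)) (XT.nd (nat_lit 78) (nat_lit 0) (nat_lit 0) (XT.lf (nat_lit 0) (nat_lit 4994618925) (nat_lit 228) (nat_lit 15597300609) (nat_lit 304) (nat_lit 11951409700) (nat_lit 83) (nat_lit 5) (nat_lit 86) (nat_lit 5) (nat_lit 87) (nat_lit 5) (nat_lit 398) (nat_lit 330) (nat_lit 172)) (XT.lf (nat_lit 0) (nat_lit 22946613436) (nat_lit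 228) (nat_lit 5132207707) (nat_lit 304) (nat_lit 5117141695) (nat_lit 83) (nat_lit 5) (nat_lit 86) (nat_lit 5) (nat_lit 87) (nat_lit 5) (nat_lit 399) (nat_lit 330) (nat_lit 171)))) (XT.nd (nat_lit 156) (nat_lit 228) (nat_lit 0) (XT.nd (nat_lit 78) (nat_lit 0) (nat_lit 0) (XT.lf (nat_lit 0) (nat_lit 2007947350) (nat_lit 228) (nat_lit 26229573810) (nat_lit 76) (nat_lit 5626402312) (nat_lit 80) (nat_lit 5) (nat_lit 83) (nat_lit 5) (nat_lit 81) (nat_lit 5) (nat_lit 400) (nat_lit 330) (nat_lit 170)) (XT.lf (nat_lit 0) (nat_lit 9393528802) (nat_lit 228) (nat_lit 8396137929) (nat_lit 76) (nat_lit 16756249900) (nat_lit 80) (nat_lit 5) (nat_lit 83) (nat_lit 5) (nat_lit 81) (nat_lit 5) (nat_lit 401) (nat_lit 330) (nat_lit 169))) (XT.nd (nat_lit 78) (nat_lit 0) (nat_lit 0) (XT.lf (nat_lit 0) (nat_lit 10161384467) (nat_lit 228) (nat_lit 6931390295) (nat_lit 304) (nat_lit 18152833198) (nat_lit 77) (nat_lit 5) (nat_lit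 80) (nat_lit 5) (nat_lit 81) (nat_lit 5) (nat_lit 402) (nat_lit 330) (nat_lit 168)) (XT.lf (nat_lit 0) (nat_lit 25143960913) (nat_lit 304) (nat_lit 6566963042) (nat_lit 76) (nat_lit 4251738439) (nat_lit 77) (nat_lit 5) (nat_lit 81) (nat_lit 5) (nat_lit 78) (nat_lit 5) (nat_lit 403) (nat_lit 330) (nat_lit 167)))))) (XT.nd (nat_lit 546) (nat_lit 532) (nat_lit 0) (XT.nd (nat_lit 234) (nat_lit 456) (nat_lit 0) (XT.nd (nat_lit 78) (nat_lit 304) (nat_lit 0) (XT.lf (nat_lit 0) (nat_lit 12675559329) (nat_lit 152) (nat_lit 20946217444) (nat_lit 228) (nat_lit 3073900077) (nat_lit 75) (nat_lit 5) (nat_lit 77) (nat_lit 5) (nat_lit 78) (nat_lit 5) (nat_lit 404) (nat_lit 330) (nat_lit 166)) (XT.nd (nat_lit 78) (nat_lit 228) (nat_lit 0) (XT.lf (nat_lit 0) (nat_lit 4869174217) (nat_lit 228) (nat_lit 4875502167) (nat_lit 76) (nat_lit 27702744245) (nat_lit 74) (nat_lit 5) (nat_lit 77) (nat_lit 5) (nat_lit 75) (nat_lit 5)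 (nat_lit 405) (nat_lit 330) (nat_lit 165)) (XT.lf (nat_lit 0) (nat_lit 13147632418) (nat_lit 304) (nat_lit 23136626452) (nat_lit 76) (nat_lit 1931779702) (nat_lit 71) (nat_lit 5) (nat_lit 75) (nat_lit 5) (nat_lit 72) (nat_lit 5) (nat_lit 406) (nat_lit 330) (nat_lit 164)))) (XT.nd (nat_lit 156) (nat_lit 304) (nat_lit 0) (XT.nd (nat_lit 78) (nat_lit 152) (nat_lit 0) (XT.lf (nat_lit 0) (nat_lit 21815476486) (nat_lit 304) (nat_lit 3379058423) (nat_lit 76) (nat_lit 13808950257) (nat_lit 71) (nat_lit 5) (nat_lit 75) (nat_lit 5) (nat_lit 72) (nat_lit 5) (nat_lit 407) (nat_lit 330) (nat_lit 163)) (XT.lf (nat_lit 0) (nat_lit 17300315678) (nat_lit 152) (nat_lit 13604321716) (nat_lit 228) (nat_lit 8905080366) (nat_lit 69) (nat_lit 5) (nat_lit 71) (nat_lit 5) (nat_lit 72) (nat_lit 5) (nat_lit 408) (nat_lit 330) (nat_lit 162))) (XT.nd (nat_lit 78) (nat_lit 304) (nat_lit 0) (XT.lf (nat_lit 0) (nat_lit 38660909404) (nat_lit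 152) (nat_lit 1634731070) (nat_lit 228) (nat_lit 343622853) (nat_lit 69) (nat_lit 5) (nat_lit 71) (nat_lit 5) (nat_lit 72) (nat_lit 5) (nat_lit 409) (nat_lit 330) (nat_lit 161)) (XT.lf (nat_lit 0) (nat_lit 8596918326) (nat_lit 304) (nat_lit 22132621145) (nat_lit 76) (nat_lit 10753084490) (nat_lit 65) (nat_lit 5) (nat_lit 69) (nat_lit 5) (nat_lit 66) (nat_lit 5) (nat_lit 410) (nat_lit 330) (nat_lit 160))))) (XT.nd (nat_lit 234) (nat_lit 380) (nat_lit 0) (XT.nd (nat_lit 78) (nat_lit 152) (nat_lit 0) (XT.lf (nat_lit 0) (nat_lit 17830301181) (nat_lit 304) (nat_lit 1020019016) (nat_lit 76) (nat_lit 23499918123) (nat_lit 65) (nat_lit 5) (nat_lit 69) (nat_lit 5) (nat_lit 66) (nat_lit 5) (nat_lit 411) (nat_lit 330) (nat_lit 159)) (XT.nd (nat_lit 78) (nat_lit 0) (nat_lit 0) (XT.lf (nat_lit 0) (nat_lit 21130217889) (nat_lit 152) (nat_lit 6408896028) (nat_lit 228) (nat_lit 15698815244) (nat_lit 63) (nat_lit 5) (nat_lit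 65) (nat_lit 5) (nat_lit 66) (nat_lit 5) (nat_lit 412) (nat_lit 330) (nat_lit 158)) (XT.lf (nat_lit 0) (nat_lit 37606508630) (nat_lit 228) (nat_lit 255846836) (nat_lit 76) (nat_lit 6287876610) (nat_lit 63) (nat_lit 5) (nat_lit 66) (nat_lit 5) (nat_lit 64) (nat_lit 5) (nat_lit 413) (nat_lit 330) (nat_lit 157)))) (XT.nd (nat_lit 156) (nat_lit 0) (nat_lit 0) (XT.nd (nat_lit 78) (nat_lit 152) (nat_lit 0) (XT.lf (nat_lit 0) (nat_lit 3108822961) (nat_lit 228) (nat_lit 22490404748) (nat_lit 76) (nat_lit 19481471374) (nat_lit 60) (nat_lit 5) (nat_lit 63) (nat_lit 5) (nat_lit 61) (nat_lit 5) (nat_lit 414) (nat_lit 330) (nat_lit 156)) (XT.lf (nat_lit 0) (nat_lit 15676844) (nat_lit 152) (nat_lit 12901993275) (nat_lit 228) (nat_lit 33119519702) (nat_lit 58) (nat_lit 5) (nat_lit 60) (nat_lit 5) (nat_lit 61) (nat_lit 5) (nat_lit 415) (nat_lit 330) (nat_lit 155))) (XT.nd (nat_lit 78) (nat_lit 0) (nat_lit 0) (XT.lf (nat_lit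 0) (nat_lit 23247344876) (nat_lit 228) (nat_lit 23369432863) (nat_lit 76) (nat_lit 398801453) (nat_lit 58) (nat_lit 5) (nat_lit 61) (nat_lit 5) (nat_lit 59) (nat_lit 5) (nat_lit 416) (nat_lit 330) (nat_lit 154)) (XT.lf (nat_lit 0) (nat_lit 34010294373) (nat_lit 228) (nat_lit 173203768) (nat_lit 76) (nat_lit 13836121325) (nat_lit 58) (nat_lit 5) (nat_lit 61) (nat_lit 5) (nat_lit 59) (nat_lit 5) (nat_lit 417) (nat_lit 330) (nat_lit 153))))))))
noncomputable def xc178 : XT := (XT.nd (nat_lit 40560) (nat_lit 0) (nat_lit 10716) (XT.nd (nat_lit 1014) (nat_lit 608) (nat_lit 0) (XT.nd (nat_lit 468) (nat_lit 684) (nat_lit 0) (XT.nd (nat_lit 234) (nat_lit 152) (nat_lit 0) (XT.nd (nat_lit 78) (nat_lit 228) (nat_lit 0) (XT.lf (nat_lit 0) (nat_lit 24183369351) (nat_lit 152) (nat_lit 21140997268) (nat_lit 228) (nat_lit 3722568036) (nat_lit 56) (nat_lit 5) (nat_lit 58) (nat_lit 5) (nat_lit 59) (nat_lit 5) (nat_lit 418)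 (nat_lit 330) (nat_lit 152)) (XT.nd (nat_lit 78) (nat_lit 152) (nat_lit 0) (XT.lf (nat_lit 0) (nat_lit 6736224344) (nat_lit 228) (nat_lit 904368622) (nat_lit 76) (nat_lit 42462568695) (nat_lit 55) (nat_lit 5) (nat_lit 58) (nat_lit 5) (nat_lit 56) (nat_lit 5) (nat_lit 419) (nat_lit 330) (nat_lit 151)) (XT.lf (nat_lit 0) (nat_lit 17725364308) (nat_lit 228) (nat_lit 27044204893) (nat_lit 76) (nat_lit 6411659122) (nat_lit 53) (nat_lit 5) (nat_lit 56) (nat_lit 5) (nat_lit 54) (nat_lit 5) (nat_lit 420) (nat_lit 330) (nat_lit 150)))) (XT.nd (nat_lit 78) (nat_lit 152) (nat_lit 0) (XT.lf (nat_lit 0) (nat_lit 29124973209) (nat_lit 228) (nat_lit 2426169917) (nat_lit 76) (nat_lit 20738070670) (nat_lit 53) (nat_lit 5) (nat_lit 56) (nat_lit 5) (nat_lit 54) (nat_lit 5) (nat_lit 421) (nat_lit 330) (nat_lit 149)) (XT.nd (nat_lit 78) (nat_lit 0) (nat_lit 0) (XT.lf (nat_lit 0) (nat_lit 23379574394) (nat_lit 152) (nat_lit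 17707776048) (nat_lit 228) (nat_lit 12336465621) (nat_lit 51) (nat_lit 5) (nat_lit 53) (nat_lit 5) (nat_lit 54) (nat_lit 5) (nat_lit 422) (nat_lit 330) (nat_lit 148)) (XT.lf (nat_lit 0) (nat_lit 50002242851) (nat_lit 152) (nat_lit 3426945180) (nat_lit 228) (nat_lit 1162651311) (nat_lit 51) (nat_lit 5) (nat_lit 53) (nat_lit 5) (nat_lit 54) (nat_lit 5) (nat_lit 423) (nat_lit 330) (nat_lit 147))))) (XT.nd (nat_lit 234) (nat_lit 304) (nat_lit 0) (XT.nd (nat_lit 78) (nat_lit 152) (nat_lit 0) (XT.lf (nat_lit 0) (nat_lit 10463148518) (nat_lit 228) (nat_lit 33946488442) (nat_lit 76) (nat_lit 11372723281) (nat_lit 48) (nat_lit 5) (nat_lit 51) (nat_lit 5) (nat_lit 49) (nat_lit 5) (nat_lit 424) (nat_lit 330) (nat_lit 146)) (XT.nd (nat_lit 78) (nat_lit 152) (nat_lit 0) (XT.lf (nat_lit 0) (nat_lit 22491271948) (nat_lit 228) (nat_lit 7911794422) (nat_lit 76) (nat_lit 26602878087) (nat_lit 48) (nat_lit 5) (nat_lit 51)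 (nat_lit 5) (nat_lit 49) (nat_lit 5) (nat_lit 425) (nat_lit 330) (nat_lit 145)) (XT.lf (nat_lit 0) (nat_lit 19273359311) (nat_lit 152) (nat_lit 15788441068) (nat_lit 228) (nat_lit 23198989526) (nat_lit 46) (nat_lit 5) (nat_lit 48) (nat_lit 5) (nat_lit 49) (nat_lit 5) (nat_lit 426) (nat_lit 330) (nat_lit 144)))) (XT.nd (nat_lit 156) (nat_lit 152) (nat_lit 0) (XT.nd (nat_lit 78) (nat_lit 152) (nat_lit 0) (XT.lf (nat_lit 0) (nat_lit 47429643349) (nat_lit 152) (nat_lit 656033325) (nat_lit 228) (nat_lit 11465317614) (nat_lit 46) (nat_lit 5) (nat_lit 48) (nat_lit 5) (nat_lit 49) (nat_lit 5) (nat_lit 427) (nat_lit 330) (nat_lit 143)) (XT.lf (nat_lit 0) (nat_lit 902063231) (nat_lit 152) (nat_lit 45172821340) (nat_lit 76) (nat_lit 14796027700) (nat_lit 44) (nat_lit 5) (nat_lit 46) (nat_lit 5) (nat_lit 45) (nat_lit 5) (nat_lit 428) (nat_lit 330) (nat_lit 142))) (XT.nd (nat_lit 78) (nat_lit 152) (nat_lit 0) (XT.lf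 (nat_lit 0) (nat_lit 13536557650) (nat_lit 152) (nat_lit 17753892631) (nat_lit 76) (nat_lit 30932776449) (nat_lit 44) (nat_lit 5) (nat_lit 46) (nat_lit 5) (nat_lit 45) (nat_lit 5) (nat_lit 429) (nat_lit 330) (nat_lit 141)) (XT.lf (nat_lit 0) (nat_lit 10689888094) (nat_lit 152) (nat_lit 15959485215) (nat_lit 228) (nat_lit 36963759192) (nat_lit 42) (nat_lit 5) (nat_lit 44) (nat_lit 5) (nat_lit 45) (nat_lit 5) (nat_lit 430) (nat_lit 330) (nat_lit 140)))))) (XT.nd (nat_lit 702) (nat_lit 228) (nat_lit 0) (XT.nd (nat_lit 234) (nat_lit 228) (nat_lit 0) (XT.nd (nat_lit 78) (nat_lit 152) (nat_lit 0) (XT.lf (nat_lit 0) (nat_lit 40331549931) (nat_lit 228) (nat_lit 24694920273) (nat_lit 76) (nat_lit 12986404) (nat_lit 42) (nat_lit 5) (nat_lit 45) (nat_lit 5) (nat_lit 43) (nat_lit 4) (nat_lit 431) (nat_lit 330) (nat_lit 139)) (XT.nd (nat_lit 78) (nat_lit 76) (nat_lit 0) (XT.lf (nat_lit 0) (nat_lit 4300003350) (nat_lit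 76) (nat_lit 50320180717) (nat_lit 152) (nat_lit 11882507048) (nat_lit 41) (nat_lit 5) (nat_lit 42) (nat_lit 5) (nat_lit 43) (nat_lit 4) (nat_lit 432) (nat_lit 330) (nat_lit 138)) (XT.lf (nat_lit 0) (nat_lit 1550235800) (nat_lit 152) (nat_lit 33352727403) (nat_lit 76) (nat_lit 33099022350) (nat_lit 40) (nat_lit 5) (nat_lit 42) (nat_lit 5) (nat_lit 41) (nat_lit 5) (nat_lit 433) (nat_lit 330) (nat_lit 137)))) (XT.nd (nat_lit 156) (nat_lit 76) (nat_lit 0) (XT.nd (nat_lit 78) (nat_lit 152) (nat_lit 0) (XT.lf (nat_lit 0) (nat_lit 15143881169) (nat_lit 152) (nat_lit 3760888611) (nat_lit 76) (nat_lit 50638057588) (nat_lit 40) (nat_lit 5) (nat_lit 42) (nat_lit 5) (nat_lit 41) (nat_lit 5) (nat_lit 434) (nat_lit 330) (nat_lit 136)) (XT.lf (nat_lit 0) (nat_lit 27244546720) (nat_lit 152) (nat_lit 2159522041) (nat_lit 228) (nat_lit 41718064083) (nat_lit 38) (nat_lit 5) (nat_lit 40) (nat_lit 5) (nat_lit 41) (nat_lit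 5) (nat_lit 435) (nat_lit 330) (nat_lit 135))) (XT.nd (nat_lit 78) (nat_lit 76) (nat_lit 0) (XT.lf (nat_lit 0) (nat_lit 44272304723) (nat_lit 228) (nat_lit 13641660288) (nat_lit 76) (nat_lit 14829445576) (nat_lit 38) (nat_lit 5) (nat_lit 41) (nat_lit 5) (nat_lit 39) (nat_lit 4) (nat_lit 436) (nat_lit 330) (nat_lit 134)) (XT.lf (nat_lit 0) (nat_lit 17822094523) (nat_lit 76) (nat_lit 41954136414) (nat_lit 152) (nat_lit 14631406801) (nat_lit 37) (nat_lit 5) (nat_lit 38) (nat_lit 5) (nat_lit 39) (nat_lit 4) (nat_lit 437) (nat_lit 330) (nat_lit 133))))) (XT.nd (nat_lit 38532) (nat_lit 0) (nat_lit 16644) (XT.nd (nat_lit 38376) (nat_lit 0) (nat_lit 17708) (XT.lf (nat_lit 0) (nat_lit 29743055807) (nat_lit 228) (nat_lit 40155306491) (nat_lit 76) (nat_lit 9772420659) (nat_lit 34) (nat_lit 5) (nat_lit 37) (nat_lit 5) (nat_lit 35) (nat_lit 4) (nat_lit 440) (nat_lit 330) (nat_lit 130)) (XT.nd (nat_lit 78) (nat_lit 0)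 (nat_lit 0) (XT.lf (nat_lit 0) (nat_lit 4151365924) (nat_lit 1140) (nat_lit 575775509) (nat_lit 1140) (nat_lit 575775509) (nat_lit 267) (nat_lit 3) (nat_lit 282) (nat_lit 3) (nat_lit 282) (nat_lit 5) (nat_lit 331) (nat_lit 331) (nat_lit 238)) (XT.lf (nat_lit 76) (nat_lit 4007926577) (nat_lit 0) (nat_lit 5058865951) (nat_lit 1140) (nat_lit 1678602593) (nat_lit 268) (nat_lit 5) (nat_lit 267) (nat_lit 3) (nat_lit 282) (nat_lit 5) (nat_lit 332) (nat_lit 331) (nat_lit 237)))) (XT.nd (nat_lit 156) (nat_lit 1064) (nat_lit 0) (XT.nd (nat_lit 78) (nat_lit 0) (nat_lit 76) (XT.lf (nat_lit 76) (nat_lit 9333467619) (nat_lit 0) (nat_lit 508362248) (nat_lit 1140) (nat_lit 1047684978) (nat_lit 268) (nat_lit 5) (nat_lit 267) (nat_lit 3) (nat_lit 282) (nat_lit 5) (nat_lit 333) (nat_lit 331) (nat_lit 236)) (XT.lf (nat_lit 76) (nat_lit 3802068983) (nat_lit 0) (nat_lit 6891982962) (nat_lit 1140) (nat_lit 342301114) (nat_lit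 269) (nat_lit 5) (nat_lit 268) (nat_lit 5) (nat_lit 283) (nat_lit 5) (nat_lit 334) (nat_lit 331) (nat_lit 235))) (XT.nd (nat_lit 78) (nat_lit 0) (nat_lit 76) (XT.lf (nat_lit 0) (nat_lit 375175668) (nat_lit 1140) (nat_lit 1856287566) (nat_lit 1216) (nat_lit 8956081665) (nat_lit 253) (nat_lit 5) (nat_lit 268) (nat_lit 5) (nat_lit 269) (nat_lit 5) (nat_lit 335) (nat_lit 331) (nat_lit 234)) (XT.lf (nat_lit 0) (nat_lit 1146599710) (nat_lit 1140) (nat_lit 7628014694) (nat_lit 1216) (nat_lit 2567389144) (nat_lit 254) (nat_lit 5) (nat_lit 269) (nat_lit 5) (nat_lit 270) (nat_lit 5) (nat_lit 336) (nat_lit 331) (nat_lit 233))))))) (XT.nd (nat_lit 1014) (nat_lit 5092) (nat_lit 0) (XT.nd (nat_lit 468) (nat_lit 912) (nat_lit 0) (XT.nd (nat_lit 234) (nat_lit 0) (nat_lit 76) (XT.nd (nat_lit 78) (nat_lit 0) (nat_lit 76) (XT.lf (nat_lit 0) (nat_lit 1960970693) (nat_lit 1140) (nat_lit 2046721218) (nat_lit 1216) (nat_lit 7492821387)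 (nat_lit 254) (nat_lit 5) (nat_lit 269) (nat_lit 5) (nat_lit 270) (nat_lit 5) (nat_lit 337) (nat_lit 331) (nat_lit 232)) (XT.nd (nat_lit 78) (nat_lit 0) (nat_lit 0) (XT.lf (nat_lit 0) (nat_lit 2824442791) (nat_lit 1140) (nat_lit 7909941967) (nat_lit 1216) (nat_lit 928664618) (nat_lit 255) (nat_lit 5) (nat_lit 270) (nat_lit 5) (nat_lit 271) (nat_lit 5) (nat_lit 338) (nat_lit 331) (nat_lit 231)) (XT.lf (nat_lit 0) (nat_lit 3754316864) (nat_lit 1140) (nat_lit 2114343050) (nat_lit 1216) (nat_lit 5960597499) (nat_lit 255) (nat_lit 5) (nat_lit 270) (nat_lit 5) (nat_lit 271) (nat_lit 5) (nat_lit 339) (nat_lit 331) (nat_lit 230)))) (XT.nd (nat_lit 78) (nat_lit 0) (nat_lit 76) (XT.lf (nat_lit 76) (nat_lit 3918477271) (nat_lit 0) (nat_lit 811805999) (nat_lit 1216) (nat_lit 7269633034) (nat_lit 256) (nat_lit 5) (nat_lit 255) (nat_lit 5) (nat_lit 271) (nat_lit 5) (nat_lit 340) (nat_lit 331) (nat_lit 229)) (XT.nd (nat_lit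 78) (nat_lit 0) (nat_lit 0) (XT.lf (nat_lit 0) (nat_lit 5780384822) (nat_lit 1140) (nat_lit 2055526760) (nat_lit 1216) (nat_lit 4338447885) (nat_lit 256) (nat_lit 5) (nat_lit 271) (nat_lit 5) (nat_lit 272) (nat_lit 5) (nat_lit 341) (nat_lit 331) (nat_lit 228)) (XT.lf (nat_lit 76) (nat_lit 4212094247) (nat_lit 0) (nat_lit 2680004369) (nat_lit 1216) (nat_lit 5461043926) (nat_lit 257) (nat_lit 5) (nat_lit 256) (nat_lit 5) (nat_lit 272) (nat_lit 5) (nat_lit 342) (nat_lit 331) (nat_lit 227))))) (XT.nd (nat_lit 234) (nat_lit 1140) (nat_lit 0) (XT.nd (nat_lit 78) (nat_lit 0) (nat_lit 0) (XT.lf (nat_lit 0) (nat_lit 8065452950) (nat_lit 1140) (nat_lit 1865969973) (nat_lit 1216) (nat_lit 2605027119) (nat_lit 257) (nat_lit 5) (nat_lit 272) (nat_lit 5) (nat_lit 273) (nat_lit 5) (nat_lit 343) (nat_lit 331) (nat_lit 226)) (XT.nd (nat_lit 78) (nat_lit 0) (nat_lit 76) (XT.lf (nat_lit 76) (nat_lit 4648237155) (nat_lit 0)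 (nat_lit 4679550335) (nat_lit 1216) (nat_lit 3395865213) (nat_lit 258) (nat_lit 5) (nat_lit 257) (nat_lit 5) (nat_lit 273) (nat_lit 5) (nat_lit 344) (nat_lit 331) (nat_lit 225)) (XT.lf (nat_lit 0) (nat_lit 10637019253) (nat_lit 1140) (nat_lit 1540708230) (nat_lit 1216) (nat_lit 738482201) (nat_lit 258) (nat_lit 5) (nat_lit 273) (nat_lit 5) (nat_lit 274) (nat_lit 5) (nat_lit 345) (nat_lit 331) (nat_lit 224)))) (XT.nd (nat_lit 156) (nat_lit 0) (nat_lit 76) (XT.nd (nat_lit 78) (nat_lit 1216) (nat_lit 0) (XT.lf (nat_lit 76) (nat_lit 5232492003) (nat_lit 0) (nat_lit 6833143680) (nat_lit 1216) (nat_lit 1046513249) (nat_lit 259) (nat_lit 5) (nat_lit 258) (nat_lit 5) (nat_lit 274) (nat_lit 5) (nat_lit 346) (nat_lit 331) (nat_lit 223)) (XT.lf (nat_lit 0) (nat_lit 218165689) (nat_lit 1216) (nat_lit 1088851106) (nat_lit 1292) (nat_lit 12006912225) (nat_lit 242) (nat_lit 5) (nat_lit 258) (nat_lit 5) (nat_lit 259) (nat_lit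 5) (nat_lit 347) (nat_lit 331) (nat_lit 222))) (XT.nd (nat_lit 78) (nat_lit 0) (nat_lit 0) (XT.lf (nat_lit 0) (nat_lit 1584409149) (nat_lit 1216) (nat_lit 7563800939) (nat_lit 76) (nat_lit 4370709880) (nat_lit 243) (nat_lit 5) (nat_lit 259) (nat_lit 5) (nat_lit 244) (nat_lit 5) (nat_lit 348) (nat_lit 331) (nat_lit 221)) (XT.lf (nat_lit 0) (nat_lit 3000185463) (nat_lit 1216) (nat_lit 523550613) (nat_lit 76) (nat_lit 10206076012) (nat_lit 243) (nat_lit 5) (nat_lit 259) (nat_lit 5) (nat_lit 244) (nat_lit 5) (nat_lit 349) (nat_lit 331) (nat_lit 220)))))) (XT.nd (nat_lit 546) (nat_lit 2052) (nat_lit 0) (XT.nd (nat_lit 234) (nat_lit 1292) (nat_lit 0) (XT.nd (nat_lit 78) (nat_lit 608) (nat_lit 0) (XT.lf (nat_lit 0) (nat_lit 4531704575) (nat_lit 1292) (nat_lit 7119561812) (nat_lit 76) (nat_lit 2293574082) (nat_lit 227) (nat_lit 5) (nat_lit 244) (nat_lit 5) (nat_lit 228) (nat_lit 5) (nat_lit 350) (nat_lit 331) (nat_lit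 219)) (XT.nd (nat_lit 78) (nat_lit 0) (nat_lit 0) (XT.lf (nat_lit 0) (nat_lit 194556177) (nat_lit 608) (nat_lit 5941993466) (nat_lit 684) (nat_lit 8028956008) (nat_lit 219) (nat_lit 5) (nat_lit 227) (nat_lit 5) (nat_lit 228) (nat_lit 5) (nat_lit 351) (nat_lit 331) (nat_lit 218)) (XT.lf (nat_lit 0) (nat_lit 7847148737) (nat_lit 684) (nat_lit 6530475385) (nat_lit 76) (nat_lit 13445554) (nat_lit 219) (nat_lit 5) (nat_lit 228) (nat_lit 5) (nat_lit 220) (nat_lit 5) (nat_lit 352) (nat_lit 331) (nat_lit 217)))) (XT.nd (nat_lit 156) (nat_lit 684) (nat_lit 0) (XT.nd (nat_lit 78) (nat_lit 0) (nat_lit 0) (XT.lf (nat_lit 0) (nat_lit 1082136573) (nat_lit 608) (nat_lit 8582176466) (nat_lit 684) (nat_lit 4957437104) (nat_lit 211) (nat_lit 5) (nat_lit 219) (nat_lit 5) (nat_lit 220) (nat_lit 5) (nat_lit 353) (nat_lit 331) (nat_lit 216)) (XT.lf (nat_lit 0) (nat_lit 9043765107) (nat_lit 608) (nat_lit 2544465816) (nat_lit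 684) (nat_lit 3269559678) (nat_lit 211) (nat_lit 5) (nat_lit 219) (nat_lit 5) (nat_lit 220) (nat_lit 5) (nat_lit 354) (nat_lit 331) (nat_lit 215))) (XT.nd (nat_lit 78) (nat_lit 76) (nat_lit 0) (XT.lf (nat_lit 0) (nat_lit 2136444619) (nat_lit 608) (nat_lit 11475976205) (nat_lit 684) (nat_lit 1487221356) (nat_lit 203) (nat_lit 5) (nat_lit 211) (nat_lit 5) (nat_lit 212) (nat_lit 5) (nat_lit 355) (nat_lit 331) (nat_lit 214)) (XT.lf (nat_lit 0) (nat_lit 413092460) (nat_lit 684) (nat_lit 4944895632) (nat_lit 76) (nat_lit 9988527628) (nat_lit 202) (nat_lit 5) (nat_lit 211) (nat_lit 5) (nat_lit 203) (nat_lit 5) (nat_lit 356) (nat_lit 331) (nat_lit 213))))) (XT.nd (nat_lit 234) (nat_lit 988) (nat_lit 0) (XT.nd (nat_lit 78) (nat_lit 532) (nat_lit 0) (XT.lf (nat_lit 0) (nat_lit 2369481612) (nat_lit 608) (nat_lit 12257680181) (nat_lit 76) (nat_lit 972329183) (nat_lit 195) (nat_lit 5) (nat_lit 203) (nat_lit 5) (nat_lit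 196) (nat_lit 5) (nat_lit 357) (nat_lit 331) (nat_lit 212)) (XT.nd (nat_lit 78) (nat_lit 532) (nat_lit 0) (XT.lf (nat_lit 0) (nat_lit 4475492666) (nat_lit 608) (nat_lit 3946872129) (nat_lit 76) (nat_lit 7434968598) (nat_lit 195) (nat_lit 5) (nat_lit 203) (nat_lit 5) (nat_lit 196) (nat_lit 5) (nat_lit 358) (nat_lit 331) (nat_lit 211)) (XT.lf (nat_lit 0) (nat_lit 4691948234) (nat_lit 532) (nat_lit 1985655846) (nat_lit 608) (nat_lit 9444325044) (nat_lit 188) (nat_lit 5) (nat_lit 195) (nat_lit 5) (nat_lit 196) (nat_lit 5) (nat_lit 359) (nat_lit 331) (nat_lit 210)))) (XT.nd (nat_lit 156) (nat_lit 532) (nat_lit 0) (XT.nd (nat_lit 78) (nat_lit 456) (nat_lit 0) (XT.lf (nat_lit 0) (nat_lit 9018714422) (nat_lit 608) (nat_lit 2780562818) (nat_lit 76) (nat_lit 4593002898) (nat_lit 188) (nat_lit 5) (nat_lit 196) (nat_lit 5) (nat_lit 189) (nat_lit 5) (nat_lit 360) (nat_lit 331) (nat_lit 209)) (XT.lf (nat_lit 0) (nat_lit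 6217282010) (nat_lit 456) (nat_lit 5280591457) (nat_lit 532) (nat_lit 5170839071) (nat_lit 182) (nat_lit 5) (nat_lit 188) (nat_lit 5) (nat_lit 189) (nat_lit 5) (nat_lit 361) (nat_lit 331) (nat_lit 208))) (XT.nd (nat_lit 78) (nat_lit 532) (nat_lit 0) (XT.lf (nat_lit 0) (nat_lit 14082141333) (nat_lit 532) (nat_lit 1437521825) (nat_lit 76) (nat_lit 1432857893) (nat_lit 182) (nat_lit 5) (nat_lit 189) (nat_lit 5) (nat_lit 183) (nat_lit 5) (nat_lit 362) (nat_lit 331) (nat_lit 207)) (XT.lf (nat_lit 0) (nat_lit 7936845967) (nat_lit 532) (nat_lit 8924596955) (nat_lit 608) (nat_lit 379880741) (nat_lit 175) (nat_lit 5) (nat_lit 182) (nat_lit 5) (nat_lit 183) (nat_lit 5) (nat_lit 363) (nat_lit 331) (nat_lit 206))))))))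
noncomputable def xc179 : XT := (XT.nd (nat_lit 2106) (nat_lit 3268) (nat_lit 0) (XT.nd (nat_lit 1014) (nat_lit 2584) (nat_lit 0) (XT.nd (nat_lit 468) (nat_lit 1672) (nat_lit 0) (XT.nd (nat_lit 234) (nat_lit 380) (nat_lit 0) (XT.nd (nat_lit 78) (nat_lit 456) (nat_lit 0) (XT.lf (nat_lit 0) (nat_lit 50745713) (nat_lit 456) (nat_lit 2096110843) (nat_lit 532) (nat_lit 15391183307) (nat_lit 168) (nat_lit 5) (nat_lit 174) (nat_lit 5) (nat_lit 175) (nat_lit 5) (nat_lit 364) (nat_lit 331) (nat_lit 205)) (XT.nd (nat_lit 78) (nat_lit 456) (nat_lit 0) (XT.lf (nat_lit 0) (nat_lit 4873309676) (nat_lit 532) (nat_lit 8028470425) (nat_lit 76) (nat_lit 4937822731) (nat_lit 168) (nat_lit 5) (nat_lit 175) (nat_lit 5) (nat_lit 169) (nat_lit 5) (nat_lit 365) (nat_lit 331) (nat_lit 204)) (XT.lf (nat_lit 0) (nat_lit 1714352638) (nat_lit 456) (nat_lit 5993953244) (nat_lit 532) (nat_lit 10441108778) (nat_lit 162) (nat_lit 5) (nat_lit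 168) (nat_lit 5) (nat_lit 169) (nat_lit 5) (nat_lit 366) (nat_lit 331) (nat_lit 203)))) (XT.nd (nat_lit 78) (nat_lit 380) (nat_lit 0) (XT.lf (nat_lit 0) (nat_lit 10710686799) (nat_lit 532) (nat_lit 6576268343) (nat_lit 76) (nat_lit 1179099979) (nat_lit 162) (nat_lit 5) (nat_lit 169) (nat_lit 5) (nat_lit 163) (nat_lit 5) (nat_lit 367) (nat_lit 331) (nat_lit 202)) (XT.nd (nat_lit 78) (nat_lit 0) (nat_lit 0) (XT.lf (nat_lit 0) (nat_lit 3576464476) (nat_lit 380) (nat_lit 10310383926) (nat_lit 456) (nat_lit 4902839316) (nat_lit 157) (nat_lit 5) (nat_lit 162) (nat_lit 5) (nat_lit 163) (nat_lit 5) (nat_lit 368) (nat_lit 331) (nat_lit 201)) (XT.lf (nat_lit 0) (nat_lit 14156438312) (nat_lit 380) (nat_lit 3058422934) (nat_lit 456) (nat_lit 1906475130) (nat_lit 157) (nat_lit 5) (nat_lit 162) (nat_lit 5) (nat_lit 163) (nat_lit 5) (nat_lit 369) (nat_lit 331) (nat_lit 200))))) (XT.nd (nat_lit 234) (nat_lit 760) (nat_lit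 0) (XT.nd (nat_lit 78) (nat_lit 380) (nat_lit 0) (XT.lf (nat_lit 0) (nat_lit 1244721550) (nat_lit 532) (nat_lit 13825931569) (nat_lit 76) (nat_lit 4389306095) (nat_lit 150) (nat_lit 5) (nat_lit 157) (nat_lit 5) (nat_lit 151) (nat_lit 5) (nat_lit 370) (nat_lit 331) (nat_lit 199)) (XT.nd (nat_lit 78) (nat_lit 380) (nat_lit 0) (XT.lf (nat_lit 0) (nat_lit 4523540625) (nat_lit 532) (nat_lit 3216331756) (nat_lit 76) (nat_lit 12066163663) (nat_lit 150) (nat_lit 5) (nat_lit 157) (nat_lit 5) (nat_lit 151) (nat_lit 5) (nat_lit 371) (nat_lit 331) (nat_lit 198)) (XT.lf (nat_lit 0) (nat_lit 7853012173) (nat_lit 380) (nat_lit 113968223) (nat_lit 456) (nat_lit 12193530720) (nat_lit 145) (nat_lit 5) (nat_lit 150) (nat_lit 5) (nat_lit 151) (nat_lit 5) (nat_lit 372) (nat_lit 331) (nat_lit 197)))) (XT.nd (nat_lit 156) (nat_lit 380) (nat_lit 0) (XT.nd (nat_lit 78) (nat_lit 380) (nat_lit 0) (XT.lf (nat_lit 0) (nat_lit 11611831999)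 (nat_lit 456) (nat_lit 1290927785) (nat_lit 76) (nat_lit 7619920913) (nat_lit 145) (nat_lit 5) (nat_lit 151) (nat_lit 5) (nat_lit 146) (nat_lit 5) (nat_lit 373) (nat_lit 331) (nat_lit 196)) (XT.lf (nat_lit 0) (nat_lit 10243323693) (nat_lit 380) (nat_lit 5213463952) (nat_lit 456) (nat_lit 5436208380) (nat_lit 140) (nat_lit 5) (nat_lit 145) (nat_lit 5) (nat_lit 146) (nat_lit 5) (nat_lit 374) (nat_lit 331) (nat_lit 195))) (XT.nd (nat_lit 78) (nat_lit 76) (nat_lit 0) (XT.lf (nat_lit 0) (nat_lit 854875315) (nat_lit 304) (nat_lit 18600901319) (nat_lit 380) (nat_lit 1817486954) (nat_lit 136) (nat_lit 5) (nat_lit 140) (nat_lit 5) (nat_lit 141) (nat_lit 5) (nat_lit 375) (nat_lit 331) (nat_lit 194)) (XT.lf (nat_lit 0) (nat_lit 2024093142) (nat_lit 380) (nat_lit 8821644274) (nat_lit 76) (nat_lit 10814107219) (nat_lit 135) (nat_lit 5) (nat_lit 140) (nat_lit 5) (nat_lit 136) (nat_lit 5) (nat_lit 376) (nat_lit 331) (nat_lit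 193)))))) (XT.nd (nat_lit 546) (nat_lit 1216) (nat_lit 0) (XT.nd (nat_lit 234) (nat_lit 684) (nat_lit 0) (XT.nd (nat_lit 78) (nat_lit 304) (nat_lit 0) (XT.lf (nat_lit 0) (nat_lit 3155160909) (nat_lit 380) (nat_lit 2811151620) (nat_lit 456) (nat_lit 16090516123) (nat_lit 130) (nat_lit 5) (nat_lit 135) (nat_lit 5) (nat_lit 136) (nat_lit 5) (nat_lit 377) (nat_lit 331) (nat_lit 192)) (XT.nd (nat_lit 78) (nat_lit 304) (nat_lit 0) (XT.lf (nat_lit 0) (nat_lit 10160988982) (nat_lit 456) (nat_lit 6855879093) (nat_lit 76) (nat_lit 5444831344) (nat_lit 130) (nat_lit 5) (nat_lit 136) (nat_lit 5) (nat_lit 131) (nat_lit 5) (nat_lit 378) (nat_lit 331) (nat_lit 191)) (XT.lf (nat_lit 0) (nat_lit 5621965694) (nat_lit 304) (nat_lit 8933356094) (nat_lit 380) (nat_lit 8321182899) (nat_lit 126) (nat_lit 5) (nat_lit 130) (nat_lit 5) (nat_lit 131) (nat_lit 5) (nat_lit 379) (nat_lit 331) (nat_lit 190)))) (XT.nd (nat_lit 156) (nat_lit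 304) (nat_lit 0) (XT.nd (nat_lit 78) (nat_lit 380) (nat_lit 0) (XT.lf (nat_lit 0) (nat_lit 18603605186) (nat_lit 304) (nat_lit 539179653) (nat_lit 380) (nat_lit 4159133041) (nat_lit 126) (nat_lit 5) (nat_lit 130) (nat_lit 5) (nat_lit 131) (nat_lit 5) (nat_lit 380) (nat_lit 331) (nat_lit 189)) (XT.lf (nat_lit 0) (nat_lit 276826564) (nat_lit 380) (nat_lit 15430481136) (nat_lit 76) (nat_lit 8028205287) (nat_lit 121) (nat_lit 5) (nat_lit 126) (nat_lit 5) (nat_lit 122) (nat_lit 5) (nat_lit 381) (nat_lit 331) (nat_lit 188))) (XT.nd (nat_lit 78) (nat_lit 304) (nat_lit 0) (XT.lf (nat_lit 0) (nat_lit 4807836222) (nat_lit 380) (nat_lit 2443901870) (nat_lit 76) (nat_lit 16927778037) (nat_lit 121) (nat_lit 5) (nat_lit 126) (nat_lit 5) (nat_lit 122) (nat_lit 5) (nat_lit 382) (nat_lit 331) (nat_lit 187)) (XT.lf (nat_lit 0) (nat_lit 9589427736) (nat_lit 380) (nat_lit 13509945645) (nat_lit 76) (nat_lit 1534028903) (nat_lit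 117) (nat_lit 5) (nat_lit 122) (nat_lit 5) (nat_lit 118) (nat_lit 5) (nat_lit 383) (nat_lit 331) (nat_lit 186))))) (XT.nd (nat_lit 234) (nat_lit 608) (nat_lit 0) (XT.nd (nat_lit 78) (nat_lit 608) (nat_lit 0) (XT.lf (nat_lit 0) (nat_lit 14603811531) (nat_lit 380) (nat_lit 35050221) (nat_lit 76) (nat_lit 10459365331) (nat_lit 117) (nat_lit 5) (nat_lit 122) (nat_lit 5) (nat_lit 118) (nat_lit 5) (nat_lit 384) (nat_lit 331) (nat_lit 185)) (XT.nd (nat_lit 78) (nat_lit 304) (nat_lit 0) (XT.lf (nat_lit 0) (nat_lit 14108946959) (nat_lit 304) (nat_lit 5788140785) (nat_lit 380) (nat_lit 5676057378) (nat_lit 113) (nat_lit 5) (nat_lit 117) (nat_lit 5) (nat_lit 118) (nat_lit 5) (nat_lit 385) (nat_lit 331) (nat_lit 184)) (XT.lf (nat_lit 0) (nat_lit 2624356846) (nat_lit 304) (nat_lit 22775295873) (nat_lit 380) (nat_lit 661145526) (nat_lit 109) (nat_lit 5) (nat_lit 113) (nat_lit 5) (nat_lit 114) (nat_lit 5) (nat_lit 386)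 (nat_lit 331) (nat_lit 183)))) (XT.nd (nat_lit 156) (nat_lit 228) (nat_lit 0) (XT.nd (nat_lit 78) (nat_lit 304) (nat_lit 0) (XT.lf (nat_lit 0) (nat_lit 4583489842) (nat_lit 380) (nat_lit 9301366562) (nat_lit 76) (nat_lit 12671912679) (nat_lit 108) (nat_lit 5) (nat_lit 113) (nat_lit 5) (nat_lit 109) (nat_lit 5) (nat_lit 387) (nat_lit 331) (nat_lit 182)) (XT.lf (nat_lit 0) (nat_lit 5345247589) (nat_lit 304) (nat_lit 4671464617) (nat_lit 380) (nat_lit 17049376437) (nat_lit 104) (nat_lit 5) (nat_lit 108) (nat_lit 5) (nat_lit 109) (nat_lit 5) (nat_lit 388) (nat_lit 331) (nat_lit 181))) (XT.nd (nat_lit 78) (nat_lit 228) (nat_lit 0) (XT.lf (nat_lit 0) (nat_lit 15747326666) (nat_lit 380) (nat_lit 7023530283) (nat_lit 76) (nat_lit 4815800983) (nat_lit 104) (nat_lit 5) (nat_lit 109) (nat_lit 5) (nat_lit 105) (nat_lit 5) (nat_lit 389) (nat_lit 331) (nat_lit 180)) (XT.lf (nat_lit 0) (nat_lit 8218784376) (nat_lit 228)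 (nat_lit 13549751854) (nat_lit 304) (nat_lit 6350749717) (nat_lit 101) (nat_lit 5) (nat_lit 104) (nat_lit 5) (nat_lit 105) (nat_lit 5) (nat_lit 390) (nat_lit 331) (nat_lit 179))))))) (XT.nd (nat_lit 1014) (nat_lit 1444) (nat_lit 0) (XT.nd (nat_lit 468) (nat_lit 912) (nat_lit 0) (XT.nd (nat_lit 234) (nat_lit 532) (nat_lit 0) (XT.nd (nat_lit 78) (nat_lit 380) (nat_lit 0) (XT.lf (nat_lit 0) (nat_lit 24052401009) (nat_lit 228) (nat_lit 3982421574) (nat_lit 304) (nat_lit 631138894) (nat_lit 101) (nat_lit 5) (nat_lit 104) (nat_lit 5) (nat_lit 105) (nat_lit 5) (nat_lit 391) (nat_lit 331) (nat_lit 178)) (XT.nd (nat_lit 78) (nat_lit 0) (nat_lit 0) (XT.lf (nat_lit 0) (nat_lit 5317591395) (nat_lit 380) (nat_lit 17990451859) (nat_lit 76) (nat_lit 5914673696) (nat_lit 96) (nat_lit 5) (nat_lit 101) (nat_lit 5) (nat_lit 97) (nat_lit 5) (nat_lit 392) (nat_lit 331) (nat_lit 177)) (XT.lf (nat_lit 0) (nat_lit 11512277987)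 (nat_lit 380) (nat_lit 2202721291) (nat_lit 76) (nat_lit 16078584682) (nat_lit 96) (nat_lit 5) (nat_lit 101) (nat_lit 5) (nat_lit 97) (nat_lit 5) (nat_lit 393) (nat_lit 331) (nat_lit 176)))) (XT.nd (nat_lit 78) (nat_lit 304) (nat_lit 0) (XT.lf (nat_lit 0) (nat_lit 14328689572) (nat_lit 228) (nat_lit 3695735778) (nat_lit 304) (nat_lit 12353204706) (nat_lit 93) (nat_lit 5) (nat_lit 96) (nat_lit 5) (nat_lit 97) (nat_lit 5) (nat_lit 394) (nat_lit 331) (nat_lit 175)) (XT.nd (nat_lit 78) (nat_lit 76) (nat_lit 0) (XT.lf (nat_lit 0) (nat_lit 356108150) (nat_lit 228) (nat_lit 24459328679) (nat_lit 304) (nat_lit 6161257344) (nat_lit 90) (nat_lit 5) (nat_lit 93) (nat_lit 5) (nat_lit 94) (nat_lit 5) (nat_lit 395) (nat_lit 331) (nat_lit 174)) (XT.lf (nat_lit 0) (nat_lit 406446162) (nat_lit 304) (nat_lit 14056488427) (nat_lit 76) (nat_lit 17124908099) (nat_lit 89) (nat_lit 5) (nat_lit 93) (nat_lit 5) (nat_lit 90) (nat_lit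 5) (nat_lit 396) (nat_lit 331) (nat_lit 173))))) (XT.nd (nat_lit 234) (nat_lit 456) (nat_lit 0) (XT.nd (nat_lit 78) (nat_lit 228) (nat_lit 0) (XT.lf (nat_lit 0) (nat_lit 2992566832) (nat_lit 228) (nat_lit 4077683557) (nat_lit 304) (nat_lit 25144559544) (nat_lit 86) (nat_lit 5) (nat_lit 89) (nat_lit 5) (nat_lit 90) (nat_lit 5) (nat_lit 397) (nat_lit 331) (nat_lit 172)) (XT.nd (nat_lit 78) (nat_lit 228) (nat_lit 0) (XT.lf (nat_lit 0) (nat_lit 14135130706) (nat_lit 304) (nat_lit 12089530430) (nat_lit 76) (nat_lit 6629891647) (nat_lit 86) (nat_lit 5) (nat_lit 90) (nat_lit 5) (nat_lit 87) (nat_lit 5) (nat_lit 398) (nat_lit 331) (nat_lit 171)) (XT.lf (nat_lit 0) (nat_lit 5617269646) (nat_lit 228) (nat_lit 15883413382) (nat_lit 304) (nat_lit 12010144529) (nat_lit 83) (nat_lit 5) (nat_lit 86) (nat_lit 5) (nat_lit 87) (nat_lit 5) (nat_lit 399) (nat_lit 331) (nat_lit 170)))) (XT.nd (nat_lit 156) (nat_lit 228) (nat_lit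 0) (XT.nd (nat_lit 78) (nat_lit 228) (nat_lit 0) (XT.lf (nat_lit 0) (nat_lit 24094052764) (nat_lit 228) (nat_lit 5109663020) (nat_lit 304) (nat_lit 4979580740) (nat_lit 83) (nat_lit 5) (nat_lit 86) (nat_lit 5) (nat_lit 87) (nat_lit 5) (nat_lit 400) (nat_lit 331) (nat_lit 169)) (XT.lf (nat_lit 0) (nat_lit 2351410602) (nat_lit 228) (nat_lit 26549437126) (nat_lit 76) (nat_lit 5970431384) (nat_lit 80) (nat_lit 5) (nat_lit 83) (nat_lit 5) (nat_lit 81) (nat_lit 5) (nat_lit 401) (nat_lit 331) (nat_lit 168))) (XT.nd (nat_lit 78) (nat_lit 228) (nat_lit 0) (XT.lf (nat_lit 0) (nat_lit 9950310231) (nat_lit 228) (nat_lit 8194600806) (nat_lit 76) (nat_lit 17429070409) (nat_lit 80) (nat_lit 5) (nat_lit 83) (nat_lit 5) (nat_lit 81) (nat_lit 5) (nat_lit 402) (nat_lit 331) (nat_lit 167)) (XT.lf (nat_lit 0) (nat_lit 10915201956) (nat_lit 228) (nat_lit 6961638449) (nat_lit 304) (nat_lit 18417935753) (nat_lit 77) (nat_lit 5)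 (nat_lit 80) (nat_lit 5) (nat_lit 81) (nat_lit 5) (nat_lit 403) (nat_lit 331) (nat_lit 166)))))) (XT.nd (nat_lit 546) (nat_lit 836) (nat_lit 0) (XT.nd (nat_lit 234) (nat_lit 380) (nat_lit 0) (XT.nd (nat_lit 78) (nat_lit 228) (nat_lit 0) (XT.lf (nat_lit 0) (nat_lit 26163319059) (nat_lit 304) (nat_lit 6321770092) (nat_lit 76) (nat_lit 4548442159) (nat_lit 77) (nat_lit 5) (nat_lit 81) (nat_lit 5) (nat_lit 78) (nat_lit 5) (nat_lit 404) (nat_lit 331) (nat_lit 165)) (XT.nd (nat_lit 78) (nat_lit 76) (nat_lit 0) (XT.lf (nat_lit 0) (nat_lit 13493692639) (nat_lit 152) (nat_lit 21398266206) (nat_lit 228) (nat_lit 2896684413) (nat_lit 75) (nat_lit 5) (nat_lit 77) (nat_lit 5) (nat_lit 78) (nat_lit 5) (nat_lit 405) (nat_lit 331) (nat_lit 164)) (XT.lf (nat_lit 0) (nat_lit 5271730089) (nat_lit 228) (nat_lit 4591494925) (nat_lit 76) (nat_lit 28699869111) (nat_lit 74) (nat_lit 5) (nat_lit 77) (nat_lit 5) (nat_lit 75) (nat_lit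 5) (nat_lit 406) (nat_lit 331) (nat_lit 163)))) (XT.nd (nat_lit 156) (nat_lit 152) (nat_lit 0) (XT.nd (nat_lit 78) (nat_lit 0) (nat_lit 0) (XT.lf (nat_lit 0) (nat_lit 13796829700) (nat_lit 304) (nat_lit 23398687492) (nat_lit 76) (nat_lit 2159306377) (nat_lit 71) (nat_lit 5) (nat_lit 75) (nat_lit 5) (nat_lit 72) (nat_lit 5) (nat_lit 407) (nat_lit 331) (nat_lit 162)) (XT.lf (nat_lit 0) (nat_lit 22717288654) (nat_lit 304) (nat_lit 3060976046) (nat_lit 76) (nat_lit 14387853021) (nat_lit 71) (nat_lit 5) (nat_lit 75) (nat_lit 5) (nat_lit 72) (nat_lit 5) (nat_lit 408) (nat_lit 331) (nat_lit 161))) (XT.nd (nat_lit 78) (nat_lit 0) (nat_lit 0) (XT.lf (nat_lit 0) (nat_lit 18234666983) (nat_lit 152) (nat_lit 13841245619) (nat_lit 228) (nat_lit 8920722547) (nat_lit 69) (nat_lit 5) (nat_lit 71) (nat_lit 5) (nat_lit 72) (nat_lit 5) (nat_lit 409) (nat_lit 331) (nat_lit 160)) (XT.lf (nat_lit 0) (nat_lit 40223981185) (nat_lit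 152) (nat_lit 1517553829) (nat_lit 228) (nat_lit 109746849) (nat_lit 69) (nat_lit 5) (nat_lit 71) (nat_lit 5) (nat_lit 72) (nat_lit 5) (nat_lit 410) (nat_lit 331) (nat_lit 159))))) (XT.nd (nat_lit 234) (nat_lit 380) (nat_lit 0) (XT.nd (nat_lit 78) (nat_lit 152) (nat_lit 0) (XT.lf (nat_lit 0) (nat_lit 9092768568) (nat_lit 304) (nat_lit 22387020279) (nat_lit 76) (nat_lit 11240129739) (nat_lit 65) (nat_lit 5) (nat_lit 69) (nat_lit 5) (nat_lit 66) (nat_lit 5) (nat_lit 411) (nat_lit 331) (nat_lit 158)) (XT.nd (nat_lit 78) (nat_lit 152) (nat_lit 0) (XT.lf (nat_lit 0) (nat_lit 18596222539) (nat_lit 304) (nat_lit 652969587) (nat_lit 76) (nat_lit 24364578496) (nat_lit 65) (nat_lit 5) (nat_lit 69) (nat_lit 5) (nat_lit 66) (nat_lit 5) (nat_lit 412) (nat_lit 331) (nat_lit 157)) (XT.lf (nat_lit 0) (nat_lit 22157875897) (nat_lit 152) (nat_lit 6435480226) (nat_lit 228) (nat_lit 15934825666) (nat_lit 63) (nat_lit 5) (nat_lit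 65) (nat_lit 5) (nat_lit 66) (nat_lit 5) (nat_lit 413) (nat_lit 331) (nat_lit 156)))) (XT.nd (nat_lit 156) (nat_lit 152) (nat_lit 0) (XT.nd (nat_lit 78) (nat_lit 76) (nat_lit 0) (XT.lf (nat_lit 0) (nat_lit 126365027) (nat_lit 152) (nat_lit 38832525823) (nat_lit 228) (nat_lit 6509080654) (nat_lit 61) (nat_lit 5) (nat_lit 63) (nat_lit 5) (nat_lit 64) (nat_lit 5) (nat_lit 414) (nat_lit 331) (nat_lit 155)) (XT.lf (nat_lit 0) (nat_lit 3424472963) (nat_lit 228) (nat_lit 22777028285) (nat_lit 76) (nat_lit 20224907728) (nat_lit 60) (nat_lit 5) (nat_lit 63) (nat_lit 5) (nat_lit 61) (nat_lit 5) (nat_lit 415) (nat_lit 331) (nat_lit 154))) (XT.nd (nat_lit 78) (nat_lit 0) (nat_lit 0) (XT.lf (nat_lit 0) (nat_lit 400430965) (nat_lit 152) (nat_lit 13124371300) (nat_lit 228) (nat_lit 33886876820) (nat_lit 58) (nat_lit 5) (nat_lit 60) (nat_lit 5) (nat_lit 61) (nat_lit 5) (nat_lit 416) (nat_lit 331) (nat_lit 153)) (XT.lf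 (nat_lit 0) (nat_lit 24159508003) (nat_lit 228) (nat_lit 23692528254) (nat_lit 76) (nat_lit 567530777) (nat_lit 58) (nat_lit 5) (nat_lit 61) (nat_lit 5) (nat_lit 59) (nat_lit 5) (nat_lit 417) (nat_lit 331) (nat_lit 152))))))))
noncomputable def xc180 : XT := (XT.nd (nat_lit 40638) (nat_lit 0) (nat_lit 10640) (XT.nd (nat_lit 1014) (nat_lit 760) (nat_lit 0) (XT.nd (nat_lit 468) (nat_lit 532) (nat_lit 0) (XT.nd (nat_lit 234) (nat_lit 304) (nat_lit 0) (XT.nd (nat_lit 78) (nat_lit 76) (nat_lit 0) (XT.lf (nat_lit 0) (nat_lit 192331445) (nat_lit 152) (nat_lit 35048608704) (nat_lit 228) (nat_lit 14212921628) (nat_lit 56) (nat_lit 5) (nat_lit 58) (nat_lit 5) (nat_lit 59) (nat_lit 5) (nat_lit 418) (nat_lit 331) (nat_lit 151)) (XT.nd (nat_lit 78) (nat_lit 76) (nat_lit 0) (XT.lf (nat_lit 0) (nat_lit 25272250853) (nat_lit 152) (nat_lit 21617755466) (nat_lit 228) (nat_lit 3622124002) (nat_lit 56) (nat_lit 5) (nat_lit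 58) (nat_lit 5) (nat_lit 59) (nat_lit 5) (nat_lit 419) (nat_lit 331) (nat_lit 150)) (XT.lf (nat_lit 0) (nat_lit 7140235180) (nat_lit 228) (nat_lit 574651373) (nat_lit 76) (nat_lit 43885279138) (nat_lit 55) (nat_lit 5) (nat_lit 58) (nat_lit 5) (nat_lit 56) (nat_lit 5) (nat_lit 420) (nat_lit 331) (nat_lit 149)))) (XT.nd (nat_lit 78) (nat_lit 152) (nat_lit 0) (XT.lf (nat_lit 0) (nat_lit 18458044153) (nat_lit 228) (nat_lit 27497645409) (nat_lit 76) (nat_lit 6754915910) (nat_lit 53) (nat_lit 5) (nat_lit 56) (nat_lit 5) (nat_lit 54) (nat_lit 5) (nat_lit 421) (nat_lit 331) (nat_lit 148)) (XT.nd (nat_lit 78) (nat_lit 152) (nat_lit 0) (XT.lf (nat_lit 0) (nat_lit 30193789314) (nat_lit 228) (nat_lit 2151493236) (nat_lit 76) (nat_lit 21506724455) (nat_lit 53) (nat_lit 5) (nat_lit 56) (nat_lit 5) (nat_lit 54) (nat_lit 5) (nat_lit 422) (nat_lit 331) (nat_lit 147)) (XT.lf (nat_lit 0) (nat_lit 24425016916) (nat_lit 152)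 (nat_lit 18087646658) (nat_lit 228) (nat_lit 12508055904) (nat_lit 51) (nat_lit 5) (nat_lit 53) (nat_lit 5) (nat_lit 54) (nat_lit 5) (nat_lit 423) (nat_lit 331) (nat_lit 146))))) (XT.nd (nat_lit 234) (nat_lit 304) (nat_lit 0) (XT.nd (nat_lit 78) (nat_lit 228) (nat_lit 0) (XT.lf (nat_lit 0) (nat_lit 51836344399) (nat_lit 152) (nat_lit 3382799485) (nat_lit 228) (nat_lit 1004808825) (nat_lit 51) (nat_lit 5) (nat_lit 53) (nat_lit 5) (nat_lit 54) (nat_lit 5) (nat_lit 424) (nat_lit 331) (nat_lit 145)) (XT.nd (nat_lit 78) (nat_lit 0) (nat_lit 0) (XT.lf (nat_lit 0) (nat_lit 10965137212) (nat_lit 228) (nat_lit 34626164779) (nat_lit 76) (nat_lit 11858858512) (nat_lit 48) (nat_lit 5) (nat_lit 51) (nat_lit 5) (nat_lit 49) (nat_lit 5) (nat_lit 425) (nat_lit 331) (nat_lit 144)) (XT.lf (nat_lit 0) (nat_lit 23348625872) (nat_lit 228) (nat_lit 7820295520) (nat_lit 76) (nat_lit 27541696014) (nat_lit 48) (nat_lit 5) (nat_lit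 51) (nat_lit 5) (nat_lit 49) (nat_lit 5) (nat_lit 426) (nat_lit 331) (nat_lit 143)))) (XT.nd (nat_lit 156) (nat_lit 152) (nat_lit 0) (XT.nd (nat_lit 78) (nat_lit 0) (nat_lit 0) (XT.lf (nat_lit 0) (nat_lit 20177188778) (nat_lit 152) (nat_lit 16116892615) (nat_lit 228) (nat_lit 23709093273) (nat_lit 46) (nat_lit 5) (nat_lit 48) (nat_lit 5) (nat_lit 49) (nat_lit 5) (nat_lit 427) (nat_lit 331) (nat_lit 142)) (XT.lf (nat_lit 0) (nat_lit 49168677006) (nat_lit 152) (nat_lit 534741814) (nat_lit 228) (nat_lit 11628824775) (nat_lit 46) (nat_lit 5) (nat_lit 48) (nat_lit 5) (nat_lit 49) (nat_lit 5) (nat_lit 428) (nat_lit 331) (nat_lit 141))) (XT.nd (nat_lit 78) (nat_lit 0) (nat_lit 0) (XT.lf (nat_lit 0) (nat_lit 1105308264) (nat_lit 152) (nat_lit 46207543855) (nat_lit 76) (nat_lit 15378878116) (nat_lit 44) (nat_lit 5) (nat_lit 46) (nat_lit 5) (nat_lit 45) (nat_lit 5) (nat_lit 429) (nat_lit 331) (nat_lit 140)) (XT.lf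 (nat_lit 0) (nat_lit 14113705968) (nat_lit 152) (nat_lit 17975381133) (nat_lit 76) (nat_lit 31995681670) (nat_lit 44) (nat_lit 5) (nat_lit 46) (nat_lit 5) (nat_lit 45) (nat_lit 5) (nat_lit 430) (nat_lit 331) (nat_lit 139)))))) (XT.nd (nat_lit 702) (nat_lit 304) (nat_lit 0) (XT.nd (nat_lit 234) (nat_lit 228) (nat_lit 0) (XT.nd (nat_lit 78) (nat_lit 76) (nat_lit 0) (XT.lf (nat_lit 0) (nat_lit 11318662736) (nat_lit 152) (nat_lit 16299222709) (nat_lit 228) (nat_lit 37898547565) (nat_lit 42) (nat_lit 5) (nat_lit 44) (nat_lit 5) (nat_lit 45) (nat_lit 5) (nat_lit 431) (nat_lit 331) (nat_lit 138)) (XT.nd (nat_lit 78) (nat_lit 76) (nat_lit 0) (XT.lf (nat_lit 0) (nat_lit 41706901811) (nat_lit 228) (nat_lit 25133015590) (nat_lit 76) (nat_lit 145738862) (nat_lit 42) (nat_lit 5) (nat_lit 45) (nat_lit 5) (nat_lit 43) (nat_lit 4) (nat_lit 432) (nat_lit 331) (nat_lit 137)) (XT.lf (nat_lit 0) (nat_lit 4728787582) (nat_lit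 76) (nat_lit 51693471465) (nat_lit 152) (nat_lit 12070587474) (nat_lit 41) (nat_lit 5) (nat_lit 42) (nat_lit 5) (nat_lit 43) (nat_lit 4) (nat_lit 433) (nat_lit 331) (nat_lit 136)))) (XT.nd (nat_lit 156) (nat_lit 152) (nat_lit 0) (XT.nd (nat_lit 78) (nat_lit 0) (nat_lit 0) (XT.lf (nat_lit 0) (nat_lit 1757042676) (nat_lit 152) (nat_lit 34059046366) (nat_lit 76) (nat_lit 34221127060) (nat_lit 40) (nat_lit 5) (nat_lit 42) (nat_lit 5) (nat_lit 41) (nat_lit 5) (nat_lit 434) (nat_lit 331) (nat_lit 135)) (XT.lf (nat_lit 0) (nat_lit 15753828480) (nat_lit 152) (nat_lit 3588023173) (nat_lit 76) (nat_lit 52282572168) (nat_lit 40) (nat_lit 5) (nat_lit 42) (nat_lit 5) (nat_lit 41) (nat_lit 5) (nat_lit 435) (nat_lit 331) (nat_lit 134))) (XT.nd (nat_lit 78) (nat_lit 0) (nat_lit 0) (XT.lf (nat_lit 0) (nat_lit 28344774315) (nat_lit 152) (nat_lit 2095233770) (nat_lit 228) (nat_lit 42811155352) (nat_lit 38) (nat_lit 5) (nat_lit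 40) (nat_lit 5) (nat_lit 41) (nat_lit 5) (nat_lit 436) (nat_lit 331) (nat_lit 133)) (XT.lf (nat_lit 0) (nat_lit 45751015611) (nat_lit 228) (nat_lit 13772964613) (nat_lit 76) (nat_lit 15397198103) (nat_lit 38) (nat_lit 5) (nat_lit 41) (nat_lit 5) (nat_lit 39) (nat_lit 4) (nat_lit 437) (nat_lit 331) (nat_lit 132))))) (XT.nd (nat_lit 38610) (nat_lit 0) (nat_lit 16568) (XT.nd (nat_lit 38454) (nat_lit 0) (nat_lit 17708) (XT.lf (nat_lit 0) (nat_lit 6718715179) (nat_lit 152) (nat_lit 8216653070) (nat_lit 228) (nat_lit 65269727502) (nat_lit 34) (nat_lit 5) (nat_lit 36) (nat_lit 5) (nat_lit 37) (nat_lit 5) (nat_lit 440) (nat_lit 331) (nat_lit 129)) (XT.nd (nat_lit 78) (nat_lit 0) (nat_lit 0) (XT.lf (nat_lit 0) (nat_lit 4871122849) (nat_lit 1140) (nat_lit 286343858) (nat_lit 1140) (nat_lit 286343858) (nat_lit 267) (nat_lit 3) (nat_lit 282) (nat_lit 3) (nat_lit 282) (nat_lit 5) (nat_lit 332) (nat_lit 332) (nat_lit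 236)) (XT.lf (nat_lit 76) (nat_lit 4735560384) (nat_lit 0) (nat_lit 5764833702) (nat_lit 1140) (nat_lit 531859796) (nat_lit 268) (nat_lit 5) (nat_lit 267) (nat_lit 3) (nat_lit 282) (nat_lit 5) (nat_lit 333) (nat_lit 332) (nat_lit 235)))) (XT.nd (nat_lit 156) (nat_lit 0) (nat_lit 76) (XT.nd (nat_lit 78) (nat_lit 0) (nat_lit 76) (XT.lf (nat_lit 0) (nat_lit 81496393) (nat_lit 1140) (nat_lit 979353741) (nat_lit 1216) (nat_lit 10120857165) (nat_lit 252) (nat_lit 5) (nat_lit 267) (nat_lit 3) (nat_lit 268) (nat_lit 5) (nat_lit 334) (nat_lit 332) (nat_lit 234)) (XT.lf (nat_lit 0) (nat_lit 761651773) (nat_lit 1140) (nat_lit 6802109650) (nat_lit 1216) (nat_lit 3769964078) (nat_lit 253) (nat_lit 5) (nat_lit 268) (nat_lit 5) (nat_lit 269) (nat_lit 5) (nat_lit 335) (nat_lit 332) (nat_lit 233))) (XT.nd (nat_lit 78) (nat_lit 0) (nat_lit 76) (XT.lf (nat_lit 0) (nat_lit 1461520266) (nat_lit 1140) (nat_lit 1284972476) (nat_lit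 1216) (nat_lit 8743843724) (nat_lit 253) (nat_lit 5) (nat_lit 268) (nat_lit 5) (nat_lit 269) (nat_lit 5) (nat_lit 336) (nat_lit 332) (nat_lit 232)) (XT.lf (nat_lit 0) (nat_lit 2226619073) (nat_lit 1140) (nat_lit 7199818315) (nat_lit 1216) (nat_lit 2223892479) (nat_lit 254) (nat_lit 5) (nat_lit 269) (nat_lit 5) (nat_lit 270) (nat_lit 5) (nat_lit 337) (nat_lit 332) (nat_lit 231))))))) (XT.nd (nat_lit 1014) (nat_lit 4028) (nat_lit 0) (XT.nd (nat_lit 468) (nat_lit 2052) (nat_lit 0) (XT.nd (nat_lit 234) (nat_lit 0) (nat_lit 76) (XT.nd (nat_lit 78) (nat_lit 0) (nat_lit 76) (XT.lf (nat_lit 0) (nat_lit 3034966193) (nat_lit 1140) (nat_lit 1470223030) (nat_lit 1216) (nat_lit 7309335797) (nat_lit 254) (nat_lit 5) (nat_lit 269) (nat_lit 5) (nat_lit 270) (nat_lit 5) (nat_lit 338) (nat_lit 332) (nat_lit 230)) (XT.nd (nat_lit 78) (nat_lit 0) (nat_lit 0) (XT.lf (nat_lit 0) (nat_lit 3897385495) (nat_lit 1140) (nat_lit 7481850738)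 (nat_lit 1216) (nat_lit 603525638) (nat_lit 255) (nat_lit 5) (nat_lit 270) (nat_lit 5) (nat_lit 271) (nat_lit 5) (nat_lit 339) (nat_lit 332) (nat_lit 229)) (XT.lf (nat_lit 0) (nat_lit 4826372992) (nat_lit 1140) (nat_lit 1531764130) (nat_lit 1216) (nat_lit 5796698027) (nat_lit 255) (nat_lit 5) (nat_lit 270) (nat_lit 5) (nat_lit 271) (nat_lit 5) (nat_lit 340) (nat_lit 332) (nat_lit 228)))) (XT.nd (nat_lit 78) (nat_lit 0) (nat_lit 76) (XT.lf (nat_lit 76) (nat_lit 4675707377) (nat_lit 0) (nat_lit 1134115503) (nat_lit 1216) (nat_lit 6521459855) (nat_lit 256) (nat_lit 5) (nat_lit 255) (nat_lit 5) (nat_lit 271) (nat_lit 5) (nat_lit 341) (nat_lit 332) (nat_lit 227)) (XT.nd (nat_lit 78) (nat_lit 0) (nat_lit 0) (XT.lf (nat_lit 0) (nat_lit 6861337127) (nat_lit 1140) (nat_lit 1465570257) (nat_lit 1216) (nat_lit 4184969145) (nat_lit 256) (nat_lit 5) (nat_lit 271) (nat_lit 5) (nat_lit 272) (nat_lit 5) (nat_lit 342) (nat_lit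 332) (nat_lit 226)) (XT.lf (nat_lit 76) (nat_lit 4983690926) (nat_lit 0) (nat_lit 3002480565) (nat_lit 1216) (nat_lit 4710472730) (nat_lit 257) (nat_lit 5) (nat_lit 256) (nat_lit 5) (nat_lit 272) (nat_lit 5) (nat_lit 343) (nat_lit 332) (nat_lit 225))))) (XT.nd (nat_lit 234) (nat_lit 2280) (nat_lit 0) (XT.nd (nat_lit 78) (nat_lit 0) (nat_lit 0) (XT.lf (nat_lit 0) (nat_lit 9166623270) (nat_lit 1140) (nat_lit 1266945740) (nat_lit 1216) (nat_lit 2452738817) (nat_lit 257) (nat_lit 5) (nat_lit 272) (nat_lit 5) (nat_lit 273) (nat_lit 5) (nat_lit 344) (nat_lit 332) (nat_lit 224)) (XT.nd (nat_lit 78) (nat_lit 0) (nat_lit 76) (XT.lf (nat_lit 76) (nat_lit 5436266001) (nat_lit 0) (nat_lit 5011770971) (nat_lit 1216) (nat_lit 2631666706) (nat_lit 258) (nat_lit 5) (nat_lit 257) (nat_lit 5) (nat_lit 273) (nat_lit 5) (nat_lit 345) (nat_lit 332) (nat_lit 223)) (XT.lf (nat_lit 0) (nat_lit 11770277239) (nat_lit 1140) (nat_lit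 930536889) (nat_lit 1216) (nat_lit 578024288) (nat_lit 258) (nat_lit 5) (nat_lit 273) (nat_lit 5) (nat_lit 274) (nat_lit 5) (nat_lit 346) (nat_lit 332) (nat_lit 222)))) (XT.nd (nat_lit 156) (nat_lit 1140) (nat_lit 0) (XT.nd (nat_lit 78) (nat_lit 1216) (nat_lit 0) (XT.lf (nat_lit 76) (nat_lit 6039424130) (nat_lit 0) (nat_lit 7184862789) (nat_lit 1216) (nat_lit 256905495) (nat_lit 259) (nat_lit 5) (nat_lit 258) (nat_lit 5) (nat_lit 274) (nat_lit 5) (nat_lit 347) (nat_lit 332) (nat_lit 221)) (XT.lf (nat_lit 0) (nat_lit 1006246991) (nat_lit 1216) (nat_lit 474539583) (nat_lit 1292) (nat_lit 12208717844) (nat_lit 242) (nat_lit 5) (nat_lit 258) (nat_lit 5) (nat_lit 259) (nat_lit 5) (nat_lit 348) (nat_lit 332) (nat_lit 220))) (XT.nd (nat_lit 78) (nat_lit 1216) (nat_lit 0) (XT.lf (nat_lit 0) (nat_lit 2395677909) (nat_lit 1216) (nat_lit 7125553227) (nat_lit 76) (nat_lit 4379959500) (nat_lit 243) (nat_lit 5) (nat_lit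 259) (nat_lit 5) (nat_lit 244) (nat_lit 5) (nat_lit 349) (nat_lit 332) (nat_lit 219)) (XT.lf (nat_lit 0) (nat_lit 108651140) (nat_lit 1216) (nat_lit 3724076040) (nat_lit 1292) (nat_lit 10286329558) (nat_lit 227) (nat_lit 5) (nat_lit 243) (nat_lit 5) (nat_lit 244) (nat_lit 5) (nat_lit 350) (nat_lit 332) (nat_lit 218)))))) (XT.nd (nat_lit 546) (nat_lit 2128) (nat_lit 0) (XT.nd (nat_lit 234) (nat_lit 1292) (nat_lit 0) (XT.nd (nat_lit 78) (nat_lit 608) (nat_lit 0) (XT.lf (nat_lit 0) (nat_lit 5392865142) (nat_lit 1292) (nat_lit 6670715520) (nat_lit 76) (nat_lit 2277485992) (nat_lit 227) (nat_lit 5) (nat_lit 244) (nat_lit 5) (nat_lit 228) (nat_lit 5) (nat_lit 351) (nat_lit 332) (nat_lit 217)) (XT.nd (nat_lit 78) (nat_lit 0) (nat_lit 0) (XT.lf (nat_lit 0) (nat_lit 856331566) (nat_lit 608) (nat_lit 6174706676) (nat_lit 684) (nat_lit 7537768636) (nat_lit 219) (nat_lit 5) (nat_lit 227) (nat_lit 5) (nat_lit 228) (nat_lit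 5) (nat_lit 352) (nat_lit 332) (nat_lit 216)) (XT.lf (nat_lit 0) (nat_lit 8733385660) (nat_lit 608) (nat_lit 38742842) (nat_lit 684) (nat_lit 6029644382) (nat_lit 219) (nat_lit 5) (nat_lit 227) (nat_lit 5) (nat_lit 228) (nat_lit 5) (nat_lit 353) (nat_lit 332) (nat_lit 215)))) (XT.nd (nat_lit 156) (nat_lit 684) (nat_lit 0) (XT.nd (nat_lit 78) (nat_lit 0) (nat_lit 0) (XT.lf (nat_lit 0) (nat_lit 1766520856) (nat_lit 608) (nat_lit 8863107533) (nat_lit 684) (nat_lit 4410180715) (nat_lit 211) (nat_lit 5) (nat_lit 219) (nat_lit 5) (nat_lit 220) (nat_lit 5) (nat_lit 354) (nat_lit 332) (nat_lit 214)) (XT.lf (nat_lit 0) (nat_lit 9948010280) (nat_lit 608) (nat_lit 2643582095) (nat_lit 684) (nat_lit 2691938214) (nat_lit 211) (nat_lit 5) (nat_lit 219) (nat_lit 5) (nat_lit 220) (nat_lit 5) (nat_lit 355) (nat_lit 332) (nat_lit 213))) (XT.nd (nat_lit 78) (nat_lit 76) (nat_lit 0) (XT.lf (nat_lit 0) (nat_lit 2847279523)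 (nat_lit 608) (nat_lit 11816134226) (nat_lit 684) (nat_lit 869626181) (nat_lit 203) (nat_lit 5) (nat_lit 211) (nat_lit 5) (nat_lit 212) (nat_lit 5) (nat_lit 356) (nat_lit 332) (nat_lit 212)) (XT.lf (nat_lit 0) (nat_lit 1055863562) (nat_lit 684) (nat_lit 4452497359) (nat_lit 76) (nat_lit 10279343976) (nat_lit 202) (nat_lit 5) (nat_lit 211) (nat_lit 5) (nat_lit 203) (nat_lit 5) (nat_lit 357) (nat_lit 332) (nat_lit 211))))) (XT.nd (nat_lit 234) (nat_lit 1064) (nat_lit 0) (XT.nd (nat_lit 78) (nat_lit 532) (nat_lit 0) (XT.lf (nat_lit 0) (nat_lit 3058839839) (nat_lit 608) (nat_lit 11972274539) (nat_lit 76) (nat_lit 1017526759) (nat_lit 195) (nat_lit 5) (nat_lit 203) (nat_lit 5) (nat_lit 196) (nat_lit 5) (nat_lit 358) (nat_lit 332) (nat_lit 210)) (XT.nd (nat_lit 78) (nat_lit 532) (nat_lit 0) (XT.lf (nat_lit 0) (nat_lit 5210023250) (nat_lit 608) (nat_lit 3431165626) (nat_lit 76) (nat_lit 7673578530) (nat_lit 195)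 (nat_lit 5) (nat_lit 203) (nat_lit 5) (nat_lit 196) (nat_lit 5) (nat_lit 359) (nat_lit 332) (nat_lit 209)) (XT.lf (nat_lit 0) (nat_lit 5460602557) (nat_lit 532) (nat_lit 2006147699) (nat_lit 608) (nat_lit 9120902283) (nat_lit 188) (nat_lit 5) (nat_lit 195) (nat_lit 5) (nat_lit 196) (nat_lit 5) (nat_lit 360) (nat_lit 332) (nat_lit 208)))) (XT.nd (nat_lit 156) (nat_lit 608) (nat_lit 0) (XT.nd (nat_lit 78) (nat_lit 456) (nat_lit 0) (XT.lf (nat_lit 0) (nat_lit 9861308566) (nat_lit 608) (nat_lit 2237324659) (nat_lit 76) (nat_lit 4767992279) (nat_lit 188) (nat_lit 5) (nat_lit 196) (nat_lit 5) (nat_lit 189) (nat_lit 5) (nat_lit 361) (nat_lit 332) (nat_lit 207)) (XT.lf (nat_lit 0) (nat_lit 7024311836) (nat_lit 456) (nat_lit 5379834134) (nat_lit 532) (nat_lit 4747533432) (nat_lit 182) (nat_lit 5) (nat_lit 188) (nat_lit 5) (nat_lit 189) (nat_lit 5) (nat_lit 362) (nat_lit 332) (nat_lit 206))) (XT.nd (nat_lit 78) (nat_lit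 608) (nat_lit 0) (XT.lf (nat_lit 0) (nat_lit 15050144531) (nat_lit 532) (nat_lit 862164906) (nat_lit 76) (nat_lit 1532174064) (nat_lit 182) (nat_lit 5) (nat_lit 189) (nat_lit 5) (nat_lit 183) (nat_lit 5) (nat_lit 363) (nat_lit 332) (nat_lit 205)) (XT.lf (nat_lit 0) (nat_lit 157431962) (nat_lit 608) (nat_lit 8956430549) (nat_lit 76) (nat_lit 8628348648) (nat_lit 174) (nat_lit 5) (nat_lit 182) (nat_lit 5) (nat_lit 175) (nat_lit 5) (nat_lit 364) (nat_lit 332) (nat_lit 204))))))))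
noncomputable def xc181 : XT := (XT.nd (nat_lit 2106) (nat_lit 3268) (nat_lit 0) (XT.nd (nat_lit 1014) (nat_lit 2584) (nat_lit 0) (XT.nd (nat_lit 468) (nat_lit 1672) (nat_lit 0) (XT.nd (nat_lit 234) (nat_lit 380) (nat_lit 0) (XT.nd (nat_lit 78) (nat_lit 456) (nat_lit 0) (XT.lf (nat_lit 0) (nat_lit 669576403) (nat_lit 456) (nat_lit 2072934259) (nat_lit 532) (nat_lit 15305506893) (nat_lit 168) (nat_lit 5) (nat_lit 174) (nat_lit 5) (nat_lit 175) (nat_lit 5) (nat_lit 365) (nat_lit 332) (nat_lit 203)) (XT.nd (nat_lit 78) (nat_lit 456) (nat_lit 0) (XT.lf (nat_lit 0) (nat_lit 5536087287) (nat_lit 532) (nat_lit 7655106516) (nat_lit 76) (nat_lit 5167880297) (nat_lit 168) (nat_lit 5) (nat_lit 175) (nat_lit 5) (nat_lit 169) (nat_lit 5) (nat_lit 366) (nat_lit 332) (nat_lit 202)) (XT.lf (nat_lit 0) (nat_lit 2373979493) (nat_lit 456) (nat_lit 6072954270) (nat_lit 532) (nat_lit 10231528900) (nat_lit 162) (nat_lit 5) (nat_lit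 168) (nat_lit 5) (nat_lit 169) (nat_lit 5) (nat_lit 367) (nat_lit 332) (nat_lit 201)))) (XT.nd (nat_lit 78) (nat_lit 380) (nat_lit 0) (XT.lf (nat_lit 0) (nat_lit 11525548981) (nat_lit 532) (nat_lit 6169030576) (nat_lit 76) (nat_lit 1310444102) (nat_lit 162) (nat_lit 5) (nat_lit 169) (nat_lit 5) (nat_lit 163) (nat_lit 5) (nat_lit 368) (nat_lit 332) (nat_lit 200)) (XT.nd (nat_lit 78) (nat_lit 0) (nat_lit 0) (XT.lf (nat_lit 0) (nat_lit 4282357504) (nat_lit 380) (nat_lit 10506017031) (nat_lit 456) (nat_lit 4550255350) (nat_lit 157) (nat_lit 5) (nat_lit 162) (nat_lit 5) (nat_lit 163) (nat_lit 5) (nat_lit 369) (nat_lit 332) (nat_lit 199)) (XT.lf (nat_lit 0) (nat_lit 15162295630) (nat_lit 380) (nat_lit 3039808231) (nat_lit 456) (nat_lit 1478553710) (nat_lit 157) (nat_lit 5) (nat_lit 162) (nat_lit 5) (nat_lit 163) (nat_lit 5) (nat_lit 370) (nat_lit 332) (nat_lit 198))))) (XT.nd (nat_lit 234) (nat_lit 760) (nat_lit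 0) (XT.nd (nat_lit 78) (nat_lit 380) (nat_lit 0) (XT.lf (nat_lit 0) (nat_lit 1750612819) (nat_lit 532) (nat_lit 13642606181) (nat_lit 76) (nat_lit 4636298701) (nat_lit 150) (nat_lit 5) (nat_lit 157) (nat_lit 5) (nat_lit 151) (nat_lit 5) (nat_lit 371) (nat_lit 332) (nat_lit 197)) (XT.nd (nat_lit 78) (nat_lit 380) (nat_lit 0) (XT.lf (nat_lit 0) (nat_lit 5114149390) (nat_lit 532) (nat_lit 2732138860) (nat_lit 76) (nat_lit 12540103352) (nat_lit 150) (nat_lit 5) (nat_lit 157) (nat_lit 5) (nat_lit 151) (nat_lit 5) (nat_lit 372) (nat_lit 332) (nat_lit 196)) (XT.lf (nat_lit 0) (nat_lit 8653270108) (nat_lit 456) (nat_lit 12088245567) (nat_lit 76) (nat_lit 10219117) (nat_lit 145) (nat_lit 5) (nat_lit 151) (nat_lit 5) (nat_lit 146) (nat_lit 5) (nat_lit 373) (nat_lit 332) (nat_lit 195)))) (XT.nd (nat_lit 156) (nat_lit 380) (nat_lit 0) (XT.nd (nat_lit 78) (nat_lit 380) (nat_lit 0) (XT.lf (nat_lit 0) (nat_lit 12395535210)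 (nat_lit 456) (nat_lit 759412952) (nat_lit 76) (nat_lit 7970184307) (nat_lit 145) (nat_lit 5) (nat_lit 151) (nat_lit 5) (nat_lit 146) (nat_lit 5) (nat_lit 374) (nat_lit 332) (nat_lit 194)) (XT.lf (nat_lit 0) (nat_lit 11115275457) (nat_lit 380) (nat_lit 5233311804) (nat_lit 456) (nat_lit 5158192463) (nat_lit 140) (nat_lit 5) (nat_lit 145) (nat_lit 5) (nat_lit 146) (nat_lit 5) (nat_lit 375) (nat_lit 332) (nat_lit 193))) (XT.nd (nat_lit 78) (nat_lit 76) (nat_lit 0) (XT.lf (nat_lit 0) (nat_lit 1451216703) (nat_lit 304) (nat_lit 19010620697) (nat_lit 380) (nat_lit 1436793923) (nat_lit 136) (nat_lit 5) (nat_lit 140) (nat_lit 5) (nat_lit 141) (nat_lit 5) (nat_lit 376) (nat_lit 332) (nat_lit 192)) (XT.lf (nat_lit 0) (nat_lit 2499112030) (nat_lit 380) (nat_lit 8523825910) (nat_lit 76) (nat_lit 11274123704) (nat_lit 135) (nat_lit 5) (nat_lit 140) (nat_lit 5) (nat_lit 136) (nat_lit 5) (nat_lit 377) (nat_lit 332) (nat_lit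 191)))))) (XT.nd (nat_lit 546) (nat_lit 1216) (nat_lit 0) (XT.nd (nat_lit 234) (nat_lit 684) (nat_lit 0) (XT.nd (nat_lit 78) (nat_lit 304) (nat_lit 0) (XT.lf (nat_lit 0) (nat_lit 3806769039) (nat_lit 380) (nat_lit 2746115859) (nat_lit 456) (nat_lit 16153276030) (nat_lit 130) (nat_lit 5) (nat_lit 135) (nat_lit 5) (nat_lit 136) (nat_lit 5) (nat_lit 378) (nat_lit 332) (nat_lit 190)) (XT.nd (nat_lit 78) (nat_lit 304) (nat_lit 0) (XT.lf (nat_lit 0) (nat_lit 10862924313) (nat_lit 456) (nat_lit 6510205906) (nat_lit 76) (nat_lit 5750366145) (nat_lit 130) (nat_lit 5) (nat_lit 136) (nat_lit 5) (nat_lit 131) (nat_lit 5) (nat_lit 379) (nat_lit 332) (nat_lit 189)) (XT.lf (nat_lit 0) (nat_lit 6336568837) (nat_lit 304) (nat_lit 9046200031) (nat_lit 380) (nat_lit 8168170572) (nat_lit 126) (nat_lit 5) (nat_lit 130) (nat_lit 5) (nat_lit 131) (nat_lit 5) (nat_lit 380) (nat_lit 332) (nat_lit 188)))) (XT.nd (nat_lit 156) (nat_lit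 304) (nat_lit 0) (XT.nd (nat_lit 78) (nat_lit 380) (nat_lit 0) (XT.lf (nat_lit 0) (nat_lit 19691756228) (nat_lit 304) (nat_lit 404717425) (nat_lit 380) (nat_lit 3892986824) (nat_lit 126) (nat_lit 5) (nat_lit 130) (nat_lit 5) (nat_lit 131) (nat_lit 5) (nat_lit 381) (nat_lit 332) (nat_lit 187)) (XT.lf (nat_lit 0) (nat_lit 663871095) (nat_lit 380) (nat_lit 15350918138) (nat_lit 76) (nat_lit 8421301792) (nat_lit 121) (nat_lit 5) (nat_lit 126) (nat_lit 5) (nat_lit 122) (nat_lit 5) (nat_lit 382) (nat_lit 332) (nat_lit 186))) (XT.nd (nat_lit 78) (nat_lit 304) (nat_lit 0) (XT.lf (nat_lit 0) (nat_lit 5319779788) (nat_lit 380) (nat_lit 1990541807) (nat_lit 76) (nat_lit 17583427249) (nat_lit 121) (nat_lit 5) (nat_lit 126) (nat_lit 5) (nat_lit 122) (nat_lit 5) (nat_lit 383) (nat_lit 332) (nat_lit 185)) (XT.lf (nat_lit 0) (nat_lit 10240655431) (nat_lit 380) (nat_lit 13384285304) (nat_lit 76) (nat_lit 1736439298) (nat_lit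 117) (nat_lit 5) (nat_lit 122) (nat_lit 5) (nat_lit 118) (nat_lit 5) (nat_lit 384) (nat_lit 332) (nat_lit 184))))) (XT.nd (nat_lit 234) (nat_lit 608) (nat_lit 0) (XT.nd (nat_lit 78) (nat_lit 304) (nat_lit 0) (XT.lf (nat_lit 0) (nat_lit 488933009) (nat_lit 304) (nat_lit 14910648968) (nat_lit 380) (nat_lit 10440747697) (nat_lit 113) (nat_lit 5) (nat_lit 117) (nat_lit 5) (nat_lit 118) (nat_lit 5) (nat_lit 385) (nat_lit 332) (nat_lit 183)) (XT.nd (nat_lit 78) (nat_lit 304) (nat_lit 0) (XT.lf (nat_lit 0) (nat_lit 15042655399) (nat_lit 304) (nat_lit 5798927539) (nat_lit 380) (nat_lit 5488217858) (nat_lit 113) (nat_lit 5) (nat_lit 117) (nat_lit 5) (nat_lit 118) (nat_lit 5) (nat_lit 386) (nat_lit 332) (nat_lit 182)) (XT.lf (nat_lit 0) (nat_lit 3217408490) (nat_lit 304) (nat_lit 23288156465) (nat_lit 380) (nat_lit 326631594) (nat_lit 109) (nat_lit 5) (nat_lit 113) (nat_lit 5) (nat_lit 114) (nat_lit 5) (nat_lit 387)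 (nat_lit 332) (nat_lit 181)))) (XT.nd (nat_lit 156) (nat_lit 228) (nat_lit 0) (XT.nd (nat_lit 78) (nat_lit 304) (nat_lit 0) (XT.lf (nat_lit 0) (nat_lit 5058308796) (nat_lit 380) (nat_lit 9074251861) (nat_lit 76) (nat_lit 13210690306) (nat_lit 108) (nat_lit 5) (nat_lit 113) (nat_lit 5) (nat_lit 109) (nat_lit 5) (nat_lit 388) (nat_lit 332) (nat_lit 180)) (XT.lf (nat_lit 0) (nat_lit 6006798403) (nat_lit 304) (nat_lit 4642722517) (nat_lit 380) (nat_lit 17218482360) (nat_lit 104) (nat_lit 5) (nat_lit 108) (nat_lit 5) (nat_lit 109) (nat_lit 5) (nat_lit 389) (nat_lit 332) (nat_lit 179))) (XT.nd (nat_lit 78) (nat_lit 228) (nat_lit 0) (XT.lf (nat_lit 0) (nat_lit 16543951111) (nat_lit 380) (nat_lit 6739442043) (nat_lit 76) (nat_lit 5121042453) (nat_lit 104) (nat_lit 5) (nat_lit 109) (nat_lit 5) (nat_lit 105) (nat_lit 5) (nat_lit 390) (nat_lit 332) (nat_lit 178)) (XT.lf (nat_lit 0) (nat_lit 8955291133) (nat_lit 228)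 (nat_lit 13785772609) (nat_lit 304) (nat_lit 6212123511) (nat_lit 101) (nat_lit 5) (nat_lit 104) (nat_lit 5) (nat_lit 105) (nat_lit 5) (nat_lit 391) (nat_lit 332) (nat_lit 177))))))) (XT.nd (nat_lit 1014) (nat_lit 1444) (nat_lit 0) (XT.nd (nat_lit 468) (nat_lit 912) (nat_lit 0) (XT.nd (nat_lit 234) (nat_lit 532) (nat_lit 0) (XT.nd (nat_lit 78) (nat_lit 380) (nat_lit 0) (XT.lf (nat_lit 0) (nat_lit 25249646074) (nat_lit 228) (nat_lit 3936387619) (nat_lit 304) (nat_lit 330511218) (nat_lit 101) (nat_lit 5) (nat_lit 104) (nat_lit 5) (nat_lit 105) (nat_lit 5) (nat_lit 392) (nat_lit 332) (nat_lit 176)) (XT.nd (nat_lit 78) (nat_lit 0) (nat_lit 0) (XT.lf (nat_lit 0) (nat_lit 5787526562) (nat_lit 380) (nat_lit 18045164952) (nat_lit 76) (nat_lit 6257309494) (nat_lit 96) (nat_lit 5) (nat_lit 101) (nat_lit 5) (nat_lit 97) (nat_lit 5) (nat_lit 393) (nat_lit 332) (nat_lit 175)) (XT.lf (nat_lit 0) (nat_lit 12159012760)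 (nat_lit 380) (nat_lit 1797928695) (nat_lit 76) (nat_lit 16721326287) (nat_lit 96) (nat_lit 5) (nat_lit 101) (nat_lit 5) (nat_lit 97) (nat_lit 5) (nat_lit 394) (nat_lit 332) (nat_lit 174)))) (XT.nd (nat_lit 78) (nat_lit 304) (nat_lit 0) (XT.lf (nat_lit 0) (nat_lit 15224808080) (nat_lit 228) (nat_lit 3637420755) (nat_lit 304) (nat_lit 12417737665) (nat_lit 93) (nat_lit 5) (nat_lit 96) (nat_lit 5) (nat_lit 97) (nat_lit 5) (nat_lit 395) (nat_lit 332) (nat_lit 173)) (XT.nd (nat_lit 78) (nat_lit 76) (nat_lit 0) (XT.lf (nat_lit 0) (nat_lit 835771970) (nat_lit 228) (nat_lit 25018633233) (nat_lit 304) (nat_lit 6042676642) (nat_lit 90) (nat_lit 5) (nat_lit 93) (nat_lit 5) (nat_lit 94) (nat_lit 5) (nat_lit 396) (nat_lit 332) (nat_lit 172)) (XT.lf (nat_lit 0) (nat_lit 707472203) (nat_lit 304) (nat_lit 14017040279) (nat_lit 76) (nat_lit 17802226990) (nat_lit 89) (nat_lit 5) (nat_lit 93) (nat_lit 5) (nat_lit 90) (nat_lit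 5) (nat_lit 397) (nat_lit 332) (nat_lit 171))))) (XT.nd (nat_lit 234) (nat_lit 456) (nat_lit 0) (XT.nd (nat_lit 78) (nat_lit 228) (nat_lit 0) (XT.lf (nat_lit 0) (nat_lit 3538965631) (nat_lit 228) (nat_lit 4028201653) (nat_lit 304) (nat_lit 25605471289) (nat_lit 86) (nat_lit 5) (nat_lit 89) (nat_lit 5) (nat_lit 90) (nat_lit 5) (nat_lit 398) (nat_lit 332) (nat_lit 170)) (XT.nd (nat_lit 78) (nat_lit 228) (nat_lit 0) (XT.lf (nat_lit 0) (nat_lit 14837302053) (nat_lit 304) (nat_lit 12002132959) (nat_lit 76) (nat_lit 6992341534) (nat_lit 86) (nat_lit 5) (nat_lit 90) (nat_lit 5) (nat_lit 87) (nat_lit 5) (nat_lit 399) (nat_lit 332) (nat_lit 169)) (XT.lf (nat_lit 0) (nat_lit 6231458537) (nat_lit 228) (nat_lit 16188545960) (nat_lit 304) (nat_lit 12087851578) (nat_lit 83) (nat_lit 5) (nat_lit 86) (nat_lit 5) (nat_lit 87) (nat_lit 5) (nat_lit 400) (nat_lit 332) (nat_lit 168)))) (XT.nd (nat_lit 156) (nat_lit 228) (nat_lit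 0) (XT.nd (nat_lit 78) (nat_lit 228) (nat_lit 0) (XT.lf (nat_lit 0) (nat_lit 25249564446) (nat_lit 228) (nat_lit 5096574442) (nat_lit 304) (nat_lit 4854601864) (nat_lit 83) (nat_lit 5) (nat_lit 86) (nat_lit 5) (nat_lit 87) (nat_lit 5) (nat_lit 401) (nat_lit 332) (nat_lit 167)) (XT.lf (nat_lit 0) (nat_lit 2688919488) (nat_lit 228) (nat_lit 26905705423) (nat_lit 76) (nat_lit 6314722007) (nat_lit 80) (nat_lit 5) (nat_lit 83) (nat_lit 5) (nat_lit 81) (nat_lit 5) (nat_lit 402) (nat_lit 332) (nat_lit 166))) (XT.nd (nat_lit 78) (nat_lit 228) (nat_lit 0) (XT.lf (nat_lit 0) (nat_lit 10508010380) (nat_lit 228) (nat_lit 8013045805) (nat_lit 76) (nat_lit 18112309203) (nat_lit 80) (nat_lit 5) (nat_lit 83) (nat_lit 5) (nat_lit 81) (nat_lit 5) (nat_lit 403) (nat_lit 332) (nat_lit 165)) (XT.lf (nat_lit 0) (nat_lit 11665860912) (nat_lit 228) (nat_lit 7002994384) (nat_lit 304) (nat_lit 18707034820) (nat_lit 77) (nat_lit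 5) (nat_lit 80) (nat_lit 5) (nat_lit 81) (nat_lit 5) (nat_lit 404) (nat_lit 332) (nat_lit 164)))))) (XT.nd (nat_lit 546) (nat_lit 760) (nat_lit 0) (XT.nd (nat_lit 234) (nat_lit 456) (nat_lit 0) (XT.nd (nat_lit 78) (nat_lit 228) (nat_lit 0) (XT.lf (nat_lit 0) (nat_lit 27198043609) (nat_lit 304) (nat_lit 6094605547) (nat_lit 76) (nat_lit 4844336999) (nat_lit 77) (nat_lit 5) (nat_lit 81) (nat_lit 5) (nat_lit 78) (nat_lit 5) (nat_lit 405) (nat_lit 332) (nat_lit 163)) (XT.nd (nat_lit 78) (nat_lit 76) (nat_lit 0) (XT.lf (nat_lit 0) (nat_lit 14311234617) (nat_lit 152) (nat_lit 21873998939) (nat_lit 228) (nat_lit 2729618816) (nat_lit 75) (nat_lit 5) (nat_lit 77) (nat_lit 5) (nat_lit 78) (nat_lit 5) (nat_lit 406) (nat_lit 332) (nat_lit 162)) (XT.lf (nat_lit 0) (nat_lit 5671639599) (nat_lit 228) (nat_lit 4323666856) (nat_lit 76) (nat_lit 29717376202) (nat_lit 74) (nat_lit 5) (nat_lit 77) (nat_lit 5) (nat_lit 75)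 (nat_lit 5) (nat_lit 407) (nat_lit 332) (nat_lit 161)))) (XT.nd (nat_lit 156) (nat_lit 228) (nat_lit 0) (XT.nd (nat_lit 78) (nat_lit 0) (nat_lit 0) (XT.lf (nat_lit 0) (nat_lit 14450878157) (nat_lit 304) (nat_lit 23693411098) (nat_lit 76) (nat_lit 2383924652) (nat_lit 71) (nat_lit 5) (nat_lit 75) (nat_lit 5) (nat_lit 72) (nat_lit 5) (nat_lit 408) (nat_lit 332) (nat_lit 160)) (XT.lf (nat_lit 0) (nat_lit 23631956407) (nat_lit 304) (nat_lit 2757429581) (nat_lit 76) (nat_lit 14974672188) (nat_lit 71) (nat_lit 5) (nat_lit 75) (nat_lit 5) (nat_lit 72) (nat_lit 5) (nat_lit 409) (nat_lit 332) (nat_lit 159))) (XT.nd (nat_lit 78) (nat_lit 76) (nat_lit 0) (XT.lf (nat_lit 0) (nat_lit 19173206506) (nat_lit 152) (nat_lit 14095105150) (nat_lit 228) (nat_lit 8951271708) (nat_lit 69) (nat_lit 5) (nat_lit 71) (nat_lit 5) (nat_lit 72) (nat_lit 5) (nat_lit 410) (nat_lit 332) (nat_lit 158)) (XT.lf (nat_lit 0) (nat_lit 114842641)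 (nat_lit 228) (nat_lit 1290400604) (nat_lit 76) (nat_lit 41694794909) (nat_lit 68) (nat_lit 5) (nat_lit 71) (nat_lit 5) (nat_lit 69) (nat_lit 5) (nat_lit 411) (nat_lit 332) (nat_lit 157))))) (XT.nd (nat_lit 234) (nat_lit 380) (nat_lit 0) (XT.nd (nat_lit 78) (nat_lit 152) (nat_lit 0) (XT.lf (nat_lit 0) (nat_lit 9589835432) (nat_lit 304) (nat_lit 22672562926) (nat_lit 76) (nat_lit 11732346087) (nat_lit 65) (nat_lit 5) (nat_lit 69) (nat_lit 5) (nat_lit 66) (nat_lit 5) (nat_lit 412) (nat_lit 332) (nat_lit 156)) (XT.nd (nat_lit 78) (nat_lit 152) (nat_lit 0) (XT.lf (nat_lit 0) (nat_lit 19371860484) (nat_lit 304) (nat_lit 297735411) (nat_lit 76) (nat_lit 25246013380) (nat_lit 65) (nat_lit 5) (nat_lit 69) (nat_lit 5) (nat_lit 66) (nat_lit 5) (nat_lit 413) (nat_lit 332) (nat_lit 155)) (XT.lf (nat_lit 0) (nat_lit 23193760699) (nat_lit 152) (nat_lit 6472372814) (nat_lit 228) (nat_lit 16191403724) (nat_lit 63) (nat_lit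 5) (nat_lit 65) (nat_lit 5) (nat_lit 66) (nat_lit 5) (nat_lit 414) (nat_lit 332) (nat_lit 154)))) (XT.nd (nat_lit 156) (nat_lit 152) (nat_lit 0) (XT.nd (nat_lit 78) (nat_lit 76) (nat_lit 0) (XT.lf (nat_lit 0) (nat_lit 502605669) (nat_lit 152) (nat_lit 39838804863) (nat_lit 228) (nat_lit 6484148009) (nat_lit 61) (nat_lit 5) (nat_lit 63) (nat_lit 5) (nat_lit 64) (nat_lit 5) (nat_lit 415) (nat_lit 332) (nat_lit 153)) (XT.lf (nat_lit 0) (nat_lit 3736826639) (nat_lit 228) (nat_lit 23094528401) (nat_lit 76) (nat_lit 20981520370) (nat_lit 60) (nat_lit 5) (nat_lit 63) (nat_lit 5) (nat_lit 61) (nat_lit 5) (nat_lit 416) (nat_lit 332) (nat_lit 152))) (XT.nd (nat_lit 78) (nat_lit 0) (nat_lit 0) (XT.lf (nat_lit 0) (nat_lit 774668246) (nat_lit 152) (nat_lit 13362874074) (nat_lit 228) (nat_lit 34690241093) (nat_lit 58) (nat_lit 5) (nat_lit 60) (nat_lit 5) (nat_lit 61) (nat_lit 5) (nat_lit 417) (nat_lit 332) (nat_lit 151))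 (XT.lf (nat_lit 0) (nat_lit 25086708910) (nat_lit 228) (nat_lit 24047014541) (nat_lit 76) (nat_lit 732323012) (nat_lit 58) (nat_lit 5) (nat_lit 61) (nat_lit 5) (nat_lit 59) (nat_lit 5) (nat_lit 418) (nat_lit 332) (nat_lit 150))))))))
noncomputable def xc182 : XT := (XT.nd (nat_lit 40716) (nat_lit 0) (nat_lit 10032) (XT.nd (nat_lit 1014) (nat_lit 608) (nat_lit 0) (XT.nd (nat_lit 468) (nat_lit 532) (nat_lit 0) (XT.nd (nat_lit 234) (nat_lit 304) (nat_lit 0) (XT.nd (nat_lit 78) (nat_lit 76) (nat_lit 0) (XT.lf (nat_lit 0) (nat_lit 550897915) (nat_lit 152) (nat_lit 35947181800) (nat_lit 228) (nat_lit 14433366485) (nat_lit 56) (nat_lit 5) (nat_lit 58) (nat_lit 5) (nat_lit 59) (nat_lit 5) (nat_lit 419) (nat_lit 332) (nat_lit 149)) (XT.nd (nat_lit 78) (nat_lit 76) (nat_lit 0) (XT.lf (nat_lit 0) (nat_lit 26372939278) (nat_lit 152) (nat_lit 22117855931) (nat_lit 228) (nat_lit 3530843264) (nat_lit 56) (nat_lit 5) (nat_lit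 58) (nat_lit 5) (nat_lit 59) (nat_lit 5) (nat_lit 420) (nat_lit 332) (nat_lit 148)) (XT.lf (nat_lit 0) (nat_lit 7544775072) (nat_lit 228) (nat_lit 255527158) (nat_lit 76) (nat_lit 45342127250) (nat_lit 55) (nat_lit 5) (nat_lit 58) (nat_lit 5) (nat_lit 56) (nat_lit 5) (nat_lit 421) (nat_lit 332) (nat_lit 147)))) (XT.nd (nat_lit 78) (nat_lit 152) (nat_lit 0) (XT.lf (nat_lit 0) (nat_lit 19201170827) (nat_lit 228) (nat_lit 27985233240) (nat_lit 76) (nat_lit 7099807722) (nat_lit 53) (nat_lit 5) (nat_lit 56) (nat_lit 5) (nat_lit 54) (nat_lit 5) (nat_lit 422) (nat_lit 332) (nat_lit 146)) (XT.nd (nat_lit 78) (nat_lit 152) (nat_lit 0) (XT.lf (nat_lit 0) (nat_lit 31283472264) (nat_lit 228) (nat_lit 1888521983) (nat_lit 76) (nat_lit 22290027484) (nat_lit 53) (nat_lit 5) (nat_lit 56) (nat_lit 5) (nat_lit 54) (nat_lit 5) (nat_lit 423) (nat_lit 332) (nat_lit 145)) (XT.lf (nat_lit 0) (nat_lit 25482072532) (nat_lit 152)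 (nat_lit 18487602223) (nat_lit 228) (nat_lit 12696188819) (nat_lit 51) (nat_lit 5) (nat_lit 53) (nat_lit 5) (nat_lit 54) (nat_lit 5) (nat_lit 424) (nat_lit 332) (nat_lit 144))))) (XT.nd (nat_lit 234) (nat_lit 304) (nat_lit 0) (XT.nd (nat_lit 78) (nat_lit 228) (nat_lit 0) (XT.lf (nat_lit 0) (nat_lit 53706294060) (nat_lit 152) (nat_lit 3345765183) (nat_lit 228) (nat_lit 853294098) (nat_lit 51) (nat_lit 5) (nat_lit 53) (nat_lit 5) (nat_lit 54) (nat_lit 5) (nat_lit 425) (nat_lit 332) (nat_lit 143)) (XT.nd (nat_lit 78) (nat_lit 0) (nat_lit 0) (XT.lf (nat_lit 0) (nat_lit 11471388188) (nat_lit 228) (nat_lit 35345675224) (nat_lit 76) (nat_lit 12351256874) (nat_lit 48) (nat_lit 5) (nat_lit 51) (nat_lit 5) (nat_lit 49) (nat_lit 5) (nat_lit 426) (nat_lit 332) (nat_lit 142)) (XT.lf (nat_lit 0) (nat_lit 24221217521) (nat_lit 228) (nat_lit 7744929144) (nat_lit 76) (nat_lit 28500599911) (nat_lit 48) (nat_lit 5) (nat_lit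 51) (nat_lit 5) (nat_lit 49) (nat_lit 5) (nat_lit 427) (nat_lit 332) (nat_lit 141)))) (XT.nd (nat_lit 156) (nat_lit 152) (nat_lit 0) (XT.nd (nat_lit 78) (nat_lit 0) (nat_lit 0) (XT.lf (nat_lit 0) (nat_lit 21089440710) (nat_lit 152) (nat_lit 16463532878) (nat_lit 228) (nat_lit 24245169597) (nat_lit 46) (nat_lit 5) (nat_lit 48) (nat_lit 5) (nat_lit 49) (nat_lit 5) (nat_lit 428) (nat_lit 332) (nat_lit 140)) (XT.lf (nat_lit 0) (nat_lit 50941733694) (nat_lit 152) (nat_lit 417903957) (nat_lit 228) (nat_lit 11807595854) (nat_lit 46) (nat_lit 5) (nat_lit 48) (nat_lit 5) (nat_lit 49) (nat_lit 5) (nat_lit 429) (nat_lit 332) (nat_lit 139))) (XT.nd (nat_lit 78) (nat_lit 0) (nat_lit 0) (XT.lf (nat_lit 0) (nat_lit 1304537016) (nat_lit 152) (nat_lit 47291703883) (nat_lit 76) (nat_lit 15971236622) (nat_lit 44) (nat_lit 5) (nat_lit 46) (nat_lit 5) (nat_lit 45) (nat_lit 5) (nat_lit 430) (nat_lit 332) (nat_lit 138)) (XT.lf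 (nat_lit 0) (nat_lit 14698349675) (nat_lit 152) (nat_lit 18221374326) (nat_lit 76) (nat_lit 33082728976) (nat_lit 44) (nat_lit 5) (nat_lit 46) (nat_lit 5) (nat_lit 45) (nat_lit 5) (nat_lit 431) (nat_lit 332) (nat_lit 137)))))) (XT.nd (nat_lit 39156) (nat_lit 0) (nat_lit 16416) (XT.nd (nat_lit 234) (nat_lit 380) (nat_lit 0) (XT.nd (nat_lit 78) (nat_lit 76) (nat_lit 0) (XT.lf (nat_lit 0) (nat_lit 11948615681) (nat_lit 152) (nat_lit 16657134199) (nat_lit 228) (nat_lit 38871375041) (nat_lit 42) (nat_lit 5) (nat_lit 44) (nat_lit 5) (nat_lit 45) (nat_lit 5) (nat_lit 432) (nat_lit 332) (nat_lit 136)) (XT.nd (nat_lit 78) (nat_lit 76) (nat_lit 0) (XT.lf (nat_lit 0) (nat_lit 43114019301) (nat_lit 228) (nat_lit 25601632987) (nat_lit 76) (nat_lit 274875725) (nat_lit 42) (nat_lit 5) (nat_lit 45) (nat_lit 5) (nat_lit 43) (nat_lit 4) (nat_lit 433) (nat_lit 332) (nat_lit 135)) (XT.lf (nat_lit 0) (nat_lit 5153226505) (nat_lit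 76) (nat_lit 53115785955) (nat_lit 152) (nat_lit 12273976863) (nat_lit 41) (nat_lit 5) (nat_lit 42) (nat_lit 5) (nat_lit 43) (nat_lit 4) (nat_lit 434) (nat_lit 332) (nat_lit 134)))) (XT.nd (nat_lit 156) (nat_lit 304) (nat_lit 0) (XT.nd (nat_lit 78) (nat_lit 0) (nat_lit 0) (XT.lf (nat_lit 0) (nat_lit 1960851894) (nat_lit 152) (nat_lit 34803446790) (nat_lit 76) (nat_lit 35369482088) (nat_lit 40) (nat_lit 5) (nat_lit 42) (nat_lit 5) (nat_lit 41) (nat_lit 5) (nat_lit 435) (nat_lit 332) (nat_lit 133)) (XT.lf (nat_lit 0) (nat_lit 16373140361) (nat_lit 152) (nat_lit 3426371667) (nat_lit 76) (nat_lit 53969225272) (nat_lit 40) (nat_lit 5) (nat_lit 42) (nat_lit 5) (nat_lit 41) (nat_lit 5) (nat_lit 436) (nat_lit 332) (nat_lit 132))) (XT.nd (nat_lit 234) (nat_lit 152) (nat_lit 0) (XT.lf (nat_lit 0) (nat_lit 29461769626) (nat_lit 152) (nat_lit 2036426223) (nat_lit 228) (nat_lit 43946135075) (nat_lit 38) (nat_lit 5)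 (nat_lit 40) (nat_lit 5) (nat_lit 41) (nat_lit 5) (nat_lit 437) (nat_lit 332) (nat_lit 131)) (XT.lf (nat_lit 0) (nat_lit 40535468) (nat_lit 152) (nat_lit 26638548944) (nat_lit 76) (nat_lit 54065641266) (nat_lit 36) (nat_lit 5) (nat_lit 38) (nat_lit 5) (nat_lit 37) (nat_lit 5) (nat_lit 440) (nat_lit 332) (nat_lit 128))))) (XT.nd (nat_lit 234) (nat_lit 0) (nat_lit 76) (XT.nd (nat_lit 78) (nat_lit 1140) (nat_lit 0) (XT.lf (nat_lit 0) (nat_lit 5578304651) (nat_lit 1140) (nat_lit 5835375) (nat_lit 1140) (nat_lit 5835375) (nat_lit 267) (nat_lit 3) (nat_lit 282) (nat_lit 3) (nat_lit 282) (nat_lit 5) (nat_lit 333) (nat_lit 333) (nat_lit 234)) (XT.nd (nat_lit 78) (nat_lit 0) (nat_lit 0) (XT.lf (nat_lit 0) (nat_lit 569237847) (nat_lit 1140) (nat_lit 5885181003) (nat_lit 1216) (nat_lit 4875170157) (nat_lit 252) (nat_lit 5) (nat_lit 267) (nat_lit 3) (nat_lit 268) (nat_lit 5) (nat_lit 334) (nat_lit 333) (nat_lit 233))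 (XT.lf (nat_lit 0) (nat_lit 1158080685) (nat_lit 1140) (nat_lit 430921381) (nat_lit 1216) (nat_lit 9895350170) (nat_lit 252) (nat_lit 5) (nat_lit 267) (nat_lit 3) (nat_lit 268) (nat_lit 5) (nat_lit 335) (nat_lit 333) (nat_lit 232)))) (XT.nd (nat_lit 156) (nat_lit 0) (nat_lit 76) (XT.nd (nat_lit 78) (nat_lit 0) (nat_lit 0) (XT.lf (nat_lit 0) (nat_lit 1828277373) (nat_lit 1140) (nat_lit 6397431467) (nat_lit 1216) (nat_lit 3416150000) (nat_lit 253) (nat_lit 5) (nat_lit 268) (nat_lit 5) (nat_lit 269) (nat_lit 5) (nat_lit 336) (nat_lit 333) (nat_lit 231)) (XT.lf (nat_lit 0) (nat_lit 2518740676) (nat_lit 1140) (nat_lit 732510512) (nat_lit 1216) (nat_lit 8552845442) (nat_lit 253) (nat_lit 5) (nat_lit 268) (nat_lit 5) (nat_lit 269) (nat_lit 5) (nat_lit 337) (nat_lit 333) (nat_lit 230))) (XT.nd (nat_lit 78) (nat_lit 0) (nat_lit 0) (XT.lf (nat_lit 0) (nat_lit 3279016072) (nat_lit 1140) (nat_lit 6796492647) (nat_lit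 1216) (nat_lit 1894230387) (nat_lit 254) (nat_lit 5) (nat_lit 269) (nat_lit 5) (nat_lit 270) (nat_lit 5) (nat_lit 338) (nat_lit 333) (nat_lit 229)) (XT.lf (nat_lit 0) (nat_lit 4082906856) (nat_lit 1140) (nat_lit 913047956) (nat_lit 1216) (nat_lit 7143782020) (nat_lit 254) (nat_lit 5) (nat_lit 269) (nat_lit 5) (nat_lit 270) (nat_lit 5) (nat_lit 339) (nat_lit 333) (nat_lit 228))))))) (XT.nd (nat_lit 1014) (nat_lit 4484) (nat_lit 0) (XT.nd (nat_lit 468) (nat_lit 2128) (nat_lit 0) (XT.nd (nat_lit 234) (nat_lit 0) (nat_lit 76) (XT.nd (nat_lit 78) (nat_lit 0) (nat_lit 0) (XT.lf (nat_lit 0) (nat_lit 4945789217) (nat_lit 1140) (nat_lit 7079112851) (nat_lit 1216) (nat_lit 288896070) (nat_lit 255) (nat_lit 5) (nat_lit 270) (nat_lit 5) (nat_lit 271) (nat_lit 5) (nat_lit 340) (nat_lit 333) (nat_lit 227)) (XT.nd (nat_lit 78) (nat_lit 0) (nat_lit 0) (XT.lf (nat_lit 0) (nat_lit 5875515790) (nat_lit 1140) (nat_lit 968791413)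 (nat_lit 1216) (nat_lit 5647554952) (nat_lit 255) (nat_lit 5) (nat_lit 270) (nat_lit 5) (nat_lit 271) (nat_lit 5) (nat_lit 341) (nat_lit 333) (nat_lit 226)) (XT.lf (nat_lit 76) (nat_lit 5418934379) (nat_lit 0) (nat_lit 1448990438) (nat_lit 1216) (nat_lit 5806308882) (nat_lit 256) (nat_lit 5) (nat_lit 255) (nat_lit 5) (nat_lit 271) (nat_lit 5) (nat_lit 342) (nat_lit 333) (nat_lit 225)))) (XT.nd (nat_lit 78) (nat_lit 0) (nat_lit 0) (XT.lf (nat_lit 0) (nat_lit 7922621448) (nat_lit 1140) (nat_lit 895320845) (nat_lit 1216) (nat_lit 4043167689) (nat_lit 256) (nat_lit 5) (nat_lit 271) (nat_lit 5) (nat_lit 272) (nat_lit 5) (nat_lit 343) (nat_lit 333) (nat_lit 224)) (XT.nd (nat_lit 78) (nat_lit 0) (nat_lit 76) (XT.lf (nat_lit 76) (nat_lit 5741396442) (nat_lit 0) (nat_lit 3320734891) (nat_lit 1216) (nat_lit 3989874842) (nat_lit 257) (nat_lit 5) (nat_lit 256) (nat_lit 5) (nat_lit 272) (nat_lit 5) (nat_lit 344) (nat_lit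 333) (nat_lit 223)) (XT.lf (nat_lit 0) (nat_lit 10251506718) (nat_lit 1140) (nat_lit 687550650) (nat_lit 1216) (nat_lit 2309110013) (nat_lit 257) (nat_lit 5) (nat_lit 272) (nat_lit 5) (nat_lit 273) (nat_lit 5) (nat_lit 345) (nat_lit 333) (nat_lit 222))))) (XT.nd (nat_lit 234) (nat_lit 1140) (nat_lit 0) (XT.nd (nat_lit 78) (nat_lit 1140) (nat_lit 0) (XT.lf (nat_lit 76) (nat_lit 6210704468) (nat_lit 0) (nat_lit 5342946162) (nat_lit 1216) (nat_lit 1894258460) (nat_lit 258) (nat_lit 5) (nat_lit 257) (nat_lit 5) (nat_lit 273) (nat_lit 5) (nat_lit 346) (nat_lit 333) (nat_lit 221)) (XT.nd (nat_lit 78) (nat_lit 1216) (nat_lit 0) (XT.lf (nat_lit 0) (nat_lit 12890797572) (nat_lit 1140) (nat_lit 339740027) (nat_lit 1216) (nat_lit 423235335) (nat_lit 258) (nat_lit 5) (nat_lit 273) (nat_lit 5) (nat_lit 274) (nat_lit 5) (nat_lit 347) (nat_lit 333) (nat_lit 220)) (XT.lf (nat_lit 0) (nat_lit 499324023) (nat_lit 1216) (nat_lit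 7034344650) (nat_lit 1292) (nat_lit 6328887791) (nat_lit 242) (nat_lit 5) (nat_lit 258) (nat_lit 5) (nat_lit 259) (nat_lit 5) (nat_lit 348) (nat_lit 333) (nat_lit 219)))) (XT.nd (nat_lit 156) (nat_lit 1140) (nat_lit 0) (XT.nd (nat_lit 78) (nat_lit 0) (nat_lit 76) (XT.lf (nat_lit 76) (nat_lit 123471529) (nat_lit 0) (nat_lit 1650822705) (nat_lit 1292) (nat_lit 12303385895) (nat_lit 243) (nat_lit 5) (nat_lit 242) (nat_lit 5) (nat_lit 259) (nat_lit 5) (nat_lit 349) (nat_lit 333) (nat_lit 218)) (XT.lf (nat_lit 0) (nat_lit 3187443132) (nat_lit 1216) (nat_lit 6712341089) (nat_lit 76) (nat_lit 4396482542) (nat_lit 243) (nat_lit 5) (nat_lit 259) (nat_lit 5) (nat_lit 244) (nat_lit 5) (nat_lit 350) (nat_lit 333) (nat_lit 217))) (XT.nd (nat_lit 78) (nat_lit 0) (nat_lit 0) (XT.lf (nat_lit 0) (nat_lit 732742559) (nat_lit 1216) (nat_lit 3919861326) (nat_lit 1292) (nat_lit 9868525528) (nat_lit 227) (nat_lit 5) (nat_lit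 243) (nat_lit 5) (nat_lit 244) (nat_lit 5) (nat_lit 351) (nat_lit 333) (nat_lit 216)) (XT.lf (nat_lit 0) (nat_lit 6238230538) (nat_lit 1292) (nat_lit 6246430212) (nat_lit 76) (nat_lit 2265788598) (nat_lit 227) (nat_lit 5) (nat_lit 244) (nat_lit 5) (nat_lit 228) (nat_lit 5) (nat_lit 352) (nat_lit 333) (nat_lit 215)))))) (XT.nd (nat_lit 546) (nat_lit 2052) (nat_lit 0) (XT.nd (nat_lit 234) (nat_lit 1216) (nat_lit 0) (XT.nd (nat_lit 78) (nat_lit 608) (nat_lit 0) (XT.lf (nat_lit 0) (nat_lit 1500306651) (nat_lit 608) (nat_lit 6411275433) (nat_lit 684) (nat_lit 7073868655) (nat_lit 219) (nat_lit 5) (nat_lit 227) (nat_lit 5) (nat_lit 228) (nat_lit 5) (nat_lit 353) (nat_lit 333) (nat_lit 214)) (XT.nd (nat_lit 78) (nat_lit 608) (nat_lit 0) (XT.lf (nat_lit 0) (nat_lit 9595664063) (nat_lit 608) (nat_lit 89737707) (nat_lit 684) (nat_lit 5540598723) (nat_lit 219) (nat_lit 5) (nat_lit 227) (nat_lit 5) (nat_lit 228) (nat_lit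 5) (nat_lit 354) (nat_lit 333) (nat_lit 213)) (XT.lf (nat_lit 0) (nat_lit 2434013782) (nat_lit 608) (nat_lit 9151119502) (nat_lit 684) (nat_lit 3886458705) (nat_lit 211) (nat_lit 5) (nat_lit 219) (nat_lit 5) (nat_lit 220) (nat_lit 5) (nat_lit 355) (nat_lit 333) (nat_lit 212)))) (XT.nd (nat_lit 156) (nat_lit 608) (nat_lit 0) (XT.nd (nat_lit 78) (nat_lit 608) (nat_lit 0) (XT.lf (nat_lit 0) (nat_lit 10843049909) (nat_lit 608) (nat_lit 2744364066) (nat_lit 684) (nat_lit 2135776524) (nat_lit 211) (nat_lit 5) (nat_lit 219) (nat_lit 5) (nat_lit 220) (nat_lit 5) (nat_lit 356) (nat_lit 333) (nat_lit 211)) (XT.lf (nat_lit 0) (nat_lit 3542313862) (nat_lit 608) (nat_lit 12166733564) (nat_lit 684) (nat_lit 271516818) (nat_lit 203) (nat_lit 5) (nat_lit 211) (nat_lit 5) (nat_lit 212) (nat_lit 5) (nat_lit 357) (nat_lit 333) (nat_lit 210))) (XT.nd (nat_lit 78) (nat_lit 532) (nat_lit 0) (XT.lf (nat_lit 0) (nat_lit 1681731502)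 (nat_lit 684) (nat_lit 3982108530) (nat_lit 76) (nat_lit 10579392237) (nat_lit 202) (nat_lit 5) (nat_lit 211) (nat_lit 5) (nat_lit 203) (nat_lit 5) (nat_lit 358) (nat_lit 333) (nat_lit 209)) (XT.lf (nat_lit 0) (nat_lit 3733387368) (nat_lit 608) (nat_lit 11715799410) (nat_lit 76) (nat_lit 1063160206) (nat_lit 195) (nat_lit 5) (nat_lit 203) (nat_lit 5) (nat_lit 196) (nat_lit 5) (nat_lit 359) (nat_lit 333) (nat_lit 208))))) (XT.nd (nat_lit 234) (nat_lit 1520) (nat_lit 0) (XT.nd (nat_lit 78) (nat_lit 532) (nat_lit 0) (XT.lf (nat_lit 0) (nat_lit 5932132039) (nat_lit 608) (nat_lit 2936388589) (nat_lit 76) (nat_lit 7918453502) (nat_lit 195) (nat_lit 5) (nat_lit 203) (nat_lit 5) (nat_lit 196) (nat_lit 5) (nat_lit 360) (nat_lit 333) (nat_lit 207)) (XT.nd (nat_lit 78) (nat_lit 0) (nat_lit 0) (XT.lf (nat_lit 0) (nat_lit 6216272718) (nat_lit 532) (nat_lit 2029497535) (nat_lit 608) (nat_lit 8822606916) (nat_lit 188)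 (nat_lit 5) (nat_lit 195) (nat_lit 5) (nat_lit 196) (nat_lit 5) (nat_lit 361) (nat_lit 333) (nat_lit 206)) (XT.lf (nat_lit 0) (nat_lit 10696343518) (nat_lit 608) (nat_lit 1713761919) (nat_lit 76) (nat_lit 4946095950) (nat_lit 188) (nat_lit 5) (nat_lit 196) (nat_lit 5) (nat_lit 189) (nat_lit 5) (nat_lit 362) (nat_lit 333) (nat_lit 205)))) (XT.nd (nat_lit 156) (nat_lit 1064) (nat_lit 0) (XT.nd (nat_lit 78) (nat_lit 0) (nat_lit 0) (XT.lf (nat_lit 0) (nat_lit 7819932666) (nat_lit 456) (nat_lit 5485450983) (nat_lit 532) (nat_lit 4344732918) (nat_lit 182) (nat_lit 5) (nat_lit 188) (nat_lit 5) (nat_lit 189) (nat_lit 5) (nat_lit 363) (nat_lit 333) (nat_lit 204)) (XT.lf (nat_lit 0) (nat_lit 16015871658) (nat_lit 532) (nat_lit 305050710) (nat_lit 76) (nat_lit 1631236123) (nat_lit 182) (nat_lit 5) (nat_lit 189) (nat_lit 5) (nat_lit 183) (nat_lit 5) (nat_lit 364) (nat_lit 333) (nat_lit 203))) (XT.nd (nat_lit 78) (nat_lit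 456) (nat_lit 0) (XT.lf (nat_lit 0) (nat_lit 672168964) (nat_lit 608) (nat_lit 8637490057) (nat_lit 76) (nat_lit 8949298584) (nat_lit 174) (nat_lit 5) (nat_lit 182) (nat_lit 5) (nat_lit 175) (nat_lit 5) (nat_lit 365) (nat_lit 333) (nat_lit 202)) (XT.lf (nat_lit 0) (nat_lit 1271535992) (nat_lit 456) (nat_lit 2054002568) (nat_lit 532) (nat_lit 15248683869) (nat_lit 168) (nat_lit 5) (nat_lit 174) (nat_lit 5) (nat_lit 175) (nat_lit 5) (nat_lit 366) (nat_lit 333) (nat_lit 201))))))))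
noncomputable def xc183 : XT := (XT.nd (nat_lit 2106) (nat_lit 3420) (nat_lit 0) (XT.nd (nat_lit 1014) (nat_lit 2204) (nat_lit 0) (XT.nd (nat_lit 468) (nat_lit 1520) (nat_lit 0) (XT.nd (nat_lit 234) (nat_lit 912) (nat_lit 0) (XT.nd (nat_lit 78) (nat_lit 456) (nat_lit 0) (XT.lf (nat_lit 0) (nat_lit 6189094518) (nat_lit 532) (nat_lit 7305800318) (nat_lit 76) (nat_lit 5400136881) (nat_lit 168) (nat_lit 5) (nat_lit 175) (nat_lit 5) (nat_lit 169) (nat_lit 5) (nat_lit 367) (nat_lit 333) (nat_lit 200)) (XT.nd (nat_lit 78) (nat_lit 0) (nat_lit 0) (XT.lf (nat_lit 0) (nat_lit 3018482200) (nat_lit 456) (nat_lit 6160112668) (nat_lit 532) (nat_lit 10045673239) (nat_lit 162) (nat_lit 5) (nat_lit 168) (nat_lit 5) (nat_lit 169) (nat_lit 5) (nat_lit 368) (nat_lit 333) (nat_lit 199)) (XT.lf (nat_lit 0) (nat_lit 12336525723) (nat_lit 532) (nat_lit 5784277931) (nat_lit 76) (nat_lit 1440219413) (nat_lit 162) (nat_lit 5) (nat_lit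 169) (nat_lit 5) (nat_lit 163) (nat_lit 5) (nat_lit 369) (nat_lit 333) (nat_lit 198)))) (XT.nd (nat_lit 78) (nat_lit 532) (nat_lit 0) (XT.lf (nat_lit 0) (nat_lit 4975065286) (nat_lit 380) (nat_lit 10714044736) (nat_lit 456) (nat_lit 4215776919) (nat_lit 157) (nat_lit 5) (nat_lit 162) (nat_lit 5) (nat_lit 163) (nat_lit 5) (nat_lit 370) (nat_lit 333) (nat_lit 197)) (XT.nd (nat_lit 78) (nat_lit 532) (nat_lit 0) (XT.lf (nat_lit 0) (nat_lit 16164967466) (nat_lit 380) (nat_lit 3026970627) (nat_lit 456) (nat_lit 1065642271) (nat_lit 157) (nat_lit 5) (nat_lit 162) (nat_lit 5) (nat_lit 163) (nat_lit 5) (nat_lit 371) (nat_lit 333) (nat_lit 196)) (XT.lf (nat_lit 0) (nat_lit 2244784161) (nat_lit 532) (nat_lit 13488114610) (nat_lit 76) (nat_lit 4884081623) (nat_lit 150) (nat_lit 5) (nat_lit 157) (nat_lit 5) (nat_lit 151) (nat_lit 5) (nat_lit 372) (nat_lit 333) (nat_lit 195))))) (XT.nd (nat_lit 234) (nat_lit 1140) (nat_lit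 0) (XT.nd (nat_lit 78) (nat_lit 380) (nat_lit 0) (XT.lf (nat_lit 0) (nat_lit 5696363151) (nat_lit 532) (nat_lit 2266753747) (nat_lit 76) (nat_lit 13021834570) (nat_lit 150) (nat_lit 5) (nat_lit 157) (nat_lit 5) (nat_lit 151) (nat_lit 5) (nat_lit 373) (nat_lit 333) (nat_lit 194)) (XT.nd (nat_lit 78) (nat_lit 0) (nat_lit 0) (XT.lf (nat_lit 0) (nat_lit 9335536415) (nat_lit 456) (nat_lit 11897259276) (nat_lit 76) (nat_lit 128647794) (nat_lit 145) (nat_lit 5) (nat_lit 151) (nat_lit 5) (nat_lit 146) (nat_lit 5) (nat_lit 374) (nat_lit 333) (nat_lit 193)) (XT.lf (nat_lit 0) (nat_lit 13177758746) (nat_lit 456) (nat_lit 244686935) (nat_lit 76) (nat_lit 8323971490) (nat_lit 145) (nat_lit 5) (nat_lit 151) (nat_lit 5) (nat_lit 146) (nat_lit 5) (nat_lit 375) (nat_lit 333) (nat_lit 192)))) (XT.nd (nat_lit 156) (nat_lit 456) (nat_lit 0) (XT.nd (nat_lit 78) (nat_lit 304) (nat_lit 0) (XT.lf (nat_lit 0) (nat_lit 11980972435)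 (nat_lit 380) (nat_lit 5261593967) (nat_lit 456) (nat_lit 4897157137) (nat_lit 140) (nat_lit 5) (nat_lit 145) (nat_lit 5) (nat_lit 146) (nat_lit 5) (nat_lit 376) (nat_lit 333) (nat_lit 191)) (XT.lf (nat_lit 0) (nat_lit 2032688098) (nat_lit 304) (nat_lit 19441145124) (nat_lit 380) (nat_lit 1069663373) (nat_lit 136) (nat_lit 5) (nat_lit 140) (nat_lit 5) (nat_lit 141) (nat_lit 5) (nat_lit 377) (nat_lit 333) (nat_lit 190))) (XT.nd (nat_lit 78) (nat_lit 380) (nat_lit 0) (XT.lf (nat_lit 0) (nat_lit 2964599194) (nat_lit 380) (nat_lit 8249360942) (nat_lit 76) (nat_lit 11740157076) (nat_lit 135) (nat_lit 5) (nat_lit 140) (nat_lit 5) (nat_lit 136) (nat_lit 5) (nat_lit 378) (nat_lit 333) (nat_lit 189)) (XT.lf (nat_lit 0) (nat_lit 4445954014) (nat_lit 380) (nat_lit 2687703492) (nat_lit 456) (nat_lit 16242025903) (nat_lit 130) (nat_lit 5) (nat_lit 135) (nat_lit 5) (nat_lit 136) (nat_lit 5) (nat_lit 379) (nat_lit 333)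 (nat_lit 188)))))) (XT.nd (nat_lit 546) (nat_lit 912) (nat_lit 0) (XT.nd (nat_lit 234) (nat_lit 988) (nat_lit 0) (XT.nd (nat_lit 78) (nat_lit 304) (nat_lit 0) (XT.lf (nat_lit 0) (nat_lit 11563122215) (nat_lit 456) (nat_lit 6185812243) (nat_lit 76) (nat_lit 6056904711) (nat_lit 130) (nat_lit 5) (nat_lit 136) (nat_lit 5) (nat_lit 131) (nat_lit 5) (nat_lit 380) (nat_lit 333) (nat_lit 187)) (XT.nd (nat_lit 78) (nat_lit 0) (nat_lit 0) (XT.lf (nat_lit 0) (nat_lit 7041270646) (nat_lit 304) (nat_lit 9171335918) (nat_lit 380) (nat_lit 8033681507) (nat_lit 126) (nat_lit 5) (nat_lit 130) (nat_lit 5) (nat_lit 131) (nat_lit 5) (nat_lit 381) (nat_lit 333) (nat_lit 186)) (XT.lf (nat_lit 0) (nat_lit 20782125170) (nat_lit 304) (nat_lit 274868546) (nat_lit 380) (nat_lit 3641296640) (nat_lit 126) (nat_lit 5) (nat_lit 130) (nat_lit 5) (nat_lit 131) (nat_lit 5) (nat_lit 382) (nat_lit 333) (nat_lit 185)))) (XT.nd (nat_lit 156)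 (nat_lit 608) (nat_lit 0) (XT.nd (nat_lit 78) (nat_lit 0) (nat_lit 0) (XT.lf (nat_lit 0) (nat_lit 1040785752) (nat_lit 380) (nat_lit 15300108674) (nat_lit 76) (nat_lit 8817451400) (nat_lit 121) (nat_lit 5) (nat_lit 126) (nat_lit 5) (nat_lit 122) (nat_lit 5) (nat_lit 383) (nat_lit 333) (nat_lit 184)) (XT.lf (nat_lit 0) (nat_lit 5825973691) (nat_lit 380) (nat_lit 1553814364) (nat_lit 76) (nat_lit 18250260702) (nat_lit 121) (nat_lit 5) (nat_lit 126) (nat_lit 5) (nat_lit 122) (nat_lit 5) (nat_lit 384) (nat_lit 333) (nat_lit 183))) (XT.nd (nat_lit 78) (nat_lit 304) (nat_lit 0) (XT.lf (nat_lit 0) (nat_lit 10890550994) (nat_lit 380) (nat_lit 13285334355) (nat_lit 76) (nat_lit 1935944605) (nat_lit 117) (nat_lit 5) (nat_lit 122) (nat_lit 5) (nat_lit 118) (nat_lit 5) (nat_lit 385) (nat_lit 333) (nat_lit 182)) (XT.lf (nat_lit 0) (nat_lit 999173845) (nat_lit 304) (nat_lit 15199854389) (nat_lit 380) (nat_lit 10406279603)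 (nat_lit 113) (nat_lit 5) (nat_lit 117) (nat_lit 5) (nat_lit 118) (nat_lit 5) (nat_lit 386) (nat_lit 333) (nat_lit 181))))) (XT.nd (nat_lit 234) (nat_lit 532) (nat_lit 0) (XT.nd (nat_lit 78) (nat_lit 380) (nat_lit 0) (XT.lf (nat_lit 0) (nat_lit 15975073747) (nat_lit 304) (nat_lit 5819386580) (nat_lit 380) (nat_lit 5315300777) (nat_lit 113) (nat_lit 5) (nat_lit 117) (nat_lit 5) (nat_lit 118) (nat_lit 5) (nat_lit 387) (nat_lit 333) (nat_lit 180)) (XT.nd (nat_lit 78) (nat_lit 76) (nat_lit 0) (XT.lf (nat_lit 0) (nat_lit 3798727557) (nat_lit 304) (nat_lit 23826184434) (nat_lit 380) (nat_lit 2423287) (nat_lit 109) (nat_lit 5) (nat_lit 113) (nat_lit 5) (nat_lit 114) (nat_lit 5) (nat_lit 388) (nat_lit 333) (nat_lit 179)) (XT.lf (nat_lit 0) (nat_lit 5528009099) (nat_lit 380) (nat_lit 8869379127) (nat_lit 76) (nat_lit 13756525810) (nat_lit 108) (nat_lit 5) (nat_lit 113) (nat_lit 5) (nat_lit 109) (nat_lit 5) (nat_lit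 389) (nat_lit 333) (nat_lit 178)))) (XT.nd (nat_lit 156) (nat_lit 228) (nat_lit 0) (XT.nd (nat_lit 78) (nat_lit 0) (nat_lit 0) (XT.lf (nat_lit 0) (nat_lit 6659425192) (nat_lit 304) (nat_lit 4622812904) (nat_lit 380) (nat_lit 17412315207) (nat_lit 104) (nat_lit 5) (nat_lit 108) (nat_lit 5) (nat_lit 109) (nat_lit 5) (nat_lit 390) (nat_lit 333) (nat_lit 177)) (XT.lf (nat_lit 0) (nat_lit 17345863617) (nat_lit 380) (nat_lit 6475234364) (nat_lit 76) (nat_lit 5426212458) (nat_lit 104) (nat_lit 5) (nat_lit 109) (nat_lit 5) (nat_lit 105) (nat_lit 5) (nat_lit 391) (nat_lit 333) (nat_lit 176))) (XT.nd (nat_lit 78) (nat_lit 0) (nat_lit 0) (XT.lf (nat_lit 0) (nat_lit 9685768347) (nat_lit 228) (nat_lit 14038659765) (nat_lit 304) (nat_lit 6088233000) (nat_lit 101) (nat_lit 5) (nat_lit 104) (nat_lit 5) (nat_lit 105) (nat_lit 5) (nat_lit 392) (nat_lit 333) (nat_lit 175)) (XT.lf (nat_lit 0) (nat_lit 26455502913) (nat_lit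 228) (nat_lit 3898473401) (nat_lit 304) (nat_lit 39208869) (nat_lit 101) (nat_lit 5) (nat_lit 104) (nat_lit 5) (nat_lit 105) (nat_lit 5) (nat_lit 393) (nat_lit 333) (nat_lit 174))))))) (XT.nd (nat_lit 1014) (nat_lit 1596) (nat_lit 0) (XT.nd (nat_lit 468) (nat_lit 684) (nat_lit 0) (XT.nd (nat_lit 234) (nat_lit 532) (nat_lit 0) (XT.nd (nat_lit 78) (nat_lit 228) (nat_lit 0) (XT.lf (nat_lit 0) (nat_lit 6253741129) (nat_lit 380) (nat_lit 18129360449) (nat_lit 76) (nat_lit 6600741463) (nat_lit 96) (nat_lit 5) (nat_lit 101) (nat_lit 5) (nat_lit 97) (nat_lit 5) (nat_lit 394) (nat_lit 333) (nat_lit 173)) (XT.nd (nat_lit 78) (nat_lit 228) (nat_lit 0) (XT.lf (nat_lit 0) (nat_lit 12807849910) (nat_lit 380) (nat_lit 1408022428) (nat_lit 76) (nat_lit 17374143439) (nat_lit 96) (nat_lit 5) (nat_lit 101) (nat_lit 5) (nat_lit 97) (nat_lit 5) (nat_lit 395) (nat_lit 333) (nat_lit 172)) (XT.lf (nat_lit 0) (nat_lit 16121045038)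 (nat_lit 228) (nat_lit 3587068313) (nat_lit 304) (nat_lit 12501775892) (nat_lit 93) (nat_lit 5) (nat_lit 96) (nat_lit 5) (nat_lit 97) (nat_lit 5) (nat_lit 396) (nat_lit 333) (nat_lit 171)))) (XT.nd (nat_lit 78) (nat_lit 304) (nat_lit 0) (XT.lf (nat_lit 0) (nat_lit 1302904302) (nat_lit 228) (nat_lit 25604732520) (nat_lit 304) (nat_lit 5937955978) (nat_lit 90) (nat_lit 5) (nat_lit 93) (nat_lit 5) (nat_lit 94) (nat_lit 5) (nat_lit 397) (nat_lit 333) (nat_lit 170)) (XT.nd (nat_lit 78) (nat_lit 228) (nat_lit 0) (XT.lf (nat_lit 0) (nat_lit 1000948850) (nat_lit 304) (nat_lit 14002880169) (nat_lit 76) (nat_lit 18490475766) (nat_lit 89) (nat_lit 5) (nat_lit 93) (nat_lit 5) (nat_lit 90) (nat_lit 5) (nat_lit 398) (nat_lit 333) (nat_lit 169)) (XT.lf (nat_lit 0) (nat_lit 4075544434) (nat_lit 228) (nat_lit 3987098026) (nat_lit 304) (nat_lit 26097054185) (nat_lit 86) (nat_lit 5) (nat_lit 89) (nat_lit 5) (nat_lit 90) (nat_lit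 5) (nat_lit 399) (nat_lit 333) (nat_lit 168))))) (XT.nd (nat_lit 234) (nat_lit 456) (nat_lit 0) (XT.nd (nat_lit 78) (nat_lit 228) (nat_lit 0) (XT.lf (nat_lit 0) (nat_lit 15544573462) (nat_lit 304) (nat_lit 11937950191) (nat_lit 76) (nat_lit 7356276299) (nat_lit 86) (nat_lit 5) (nat_lit 90) (nat_lit 5) (nat_lit 87) (nat_lit 5) (nat_lit 400) (nat_lit 333) (nat_lit 167)) (XT.nd (nat_lit 78) (nat_lit 0) (nat_lit 0) (XT.lf (nat_lit 0) (nat_lit 6838489768) (nat_lit 228) (nat_lit 16512669845) (nat_lit 304) (nat_lit 12184112079) (nat_lit 83) (nat_lit 5) (nat_lit 86) (nat_lit 5) (nat_lit 87) (nat_lit 5) (nat_lit 401) (nat_lit 333) (nat_lit 166)) (XT.lf (nat_lit 0) (nat_lit 26414903297) (nat_lit 228) (nat_lit 5092644011) (nat_lit 304) (nat_lit 4741623370) (nat_lit 83) (nat_lit 5) (nat_lit 86) (nat_lit 5) (nat_lit 87) (nat_lit 5) (nat_lit 402) (nat_lit 333) (nat_lit 165)))) (XT.nd (nat_lit 156) (nat_lit 228) (nat_lit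 0) (XT.nd (nat_lit 78) (nat_lit 0) (nat_lit 0) (XT.lf (nat_lit 0) (nat_lit 3021228667) (nat_lit 228) (nat_lit 27297931901) (nat_lit 76) (nat_lit 6659859474) (nat_lit 80) (nat_lit 5) (nat_lit 83) (nat_lit 5) (nat_lit 81) (nat_lit 5) (nat_lit 403) (nat_lit 333) (nat_lit 164)) (XT.lf (nat_lit 0) (nat_lit 11067562919) (nat_lit 228) (nat_lit 7850578261) (nat_lit 76) (nat_lit 18806839457) (nat_lit 80) (nat_lit 5) (nat_lit 83) (nat_lit 5) (nat_lit 81) (nat_lit 5) (nat_lit 404) (nat_lit 333) (nat_lit 163))) (XT.nd (nat_lit 78) (nat_lit 0) (nat_lit 0) (XT.lf (nat_lit 0) (nat_lit 12414746059) (nat_lit 228) (nat_lit 7055205793) (nat_lit 304) (nat_lit 19019929335) (nat_lit 77) (nat_lit 5) (nat_lit 80) (nat_lit 5) (nat_lit 81) (nat_lit 5) (nat_lit 405) (nat_lit 333) (nat_lit 162)) (XT.lf (nat_lit 0) (nat_lit 28249468919) (nat_lit 304) (nat_lit 5884553105) (nat_lit 76) (nat_lit 5139956085) (nat_lit 77) (nat_lit 5) (nat_lit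 81) (nat_lit 5) (nat_lit 78) (nat_lit 5) (nat_lit 406) (nat_lit 333) (nat_lit 161)))))) (XT.nd (nat_lit 546) (nat_lit 684) (nat_lit 0) (XT.nd (nat_lit 234) (nat_lit 456) (nat_lit 0) (XT.nd (nat_lit 78) (nat_lit 304) (nat_lit 0) (XT.lf (nat_lit 0) (nat_lit 15129610396) (nat_lit 152) (nat_lit 22373545090) (nat_lit 228) (nat_lit 2572119946) (nat_lit 75) (nat_lit 5) (nat_lit 77) (nat_lit 5) (nat_lit 78) (nat_lit 5) (nat_lit 407) (nat_lit 333) (nat_lit 160)) (XT.nd (nat_lit 78) (nat_lit 228) (nat_lit 0) (XT.lf (nat_lit 0) (nat_lit 6069668518) (nat_lit 228) (nat_lit 4071085490) (nat_lit 76) (nat_lit 30756424133) (nat_lit 74) (nat_lit 5) (nat_lit 77) (nat_lit 5) (nat_lit 75) (nat_lit 5) (nat_lit 408) (nat_lit 333) (nat_lit 159)) (XT.lf (nat_lit 0) (nat_lit 15110762845) (nat_lit 304) (nat_lit 24020353482) (nat_lit 76) (nat_lit 2606106058) (nat_lit 71) (nat_lit 5) (nat_lit 75) (nat_lit 5) (nat_lit 72) (nat_lit 5)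 (nat_lit 409) (nat_lit 333) (nat_lit 158)))) (XT.nd (nat_lit 156) (nat_lit 304) (nat_lit 0) (XT.nd (nat_lit 78) (nat_lit 152) (nat_lit 0) (XT.lf (nat_lit 0) (nat_lit 24560680481) (nat_lit 304) (nat_lit 2467472907) (nat_lit 76) (nat_lit 15570187758) (nat_lit 71) (nat_lit 5) (nat_lit 75) (nat_lit 5) (nat_lit 72) (nat_lit 5) (nat_lit 410) (nat_lit 333) (nat_lit 157)) (XT.lf (nat_lit 0) (nat_lit 20117428542) (nat_lit 152) (nat_lit 14365844214) (nat_lit 228) (nat_lit 8996346277) (nat_lit 69) (nat_lit 5) (nat_lit 71) (nat_lit 5) (nat_lit 72) (nat_lit 5) (nat_lit 411) (nat_lit 333) (nat_lit 156))) (XT.nd (nat_lit 78) (nat_lit 228) (nat_lit 0) (XT.lf (nat_lit 0) (nat_lit 331009283) (nat_lit 228) (nat_lit 966559609) (nat_lit 76) (nat_lit 43089046841) (nat_lit 68) (nat_lit 5) (nat_lit 71) (nat_lit 5) (nat_lit 69) (nat_lit 5) (nat_lit 412) (nat_lit 333) (nat_lit 155)) (XT.lf (nat_lit 0) (nat_lit 10088939495) (nat_lit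 304) (nat_lit 22988833733) (nat_lit 76) (nat_lit 12230430575) (nat_lit 65) (nat_lit 5) (nat_lit 69) (nat_lit 5) (nat_lit 66) (nat_lit 5) (nat_lit 413) (nat_lit 333) (nat_lit 154))))) (XT.nd (nat_lit 234) (nat_lit 380) (nat_lit 0) (XT.nd (nat_lit 78) (nat_lit 152) (nat_lit 0) (XT.lf (nat_lit 0) (nat_lit 47567616) (nat_lit 152) (nat_lit 20111157388) (nat_lit 228) (nat_lit 26098141770) (nat_lit 63) (nat_lit 5) (nat_lit 65) (nat_lit 5) (nat_lit 66) (nat_lit 5) (nat_lit 414) (nat_lit 333) (nat_lit 153)) (XT.nd (nat_lit 78) (nat_lit 152) (nat_lit 0) (XT.lf (nat_lit 0) (nat_lit 24239416602) (nat_lit 152) (nat_lit 6519337080) (nat_lit 228) (nat_lit 16468392218) (nat_lit 63) (nat_lit 5) (nat_lit 65) (nat_lit 5) (nat_lit 66) (nat_lit 5) (nat_lit 415) (nat_lit 333) (nat_lit 152)) (XT.lf (nat_lit 0) (nat_lit 868753395) (nat_lit 152) (nat_lit 40884382116) (nat_lit 228) (nat_lit 6471108055) (nat_lit 61) (nat_lit 5) (nat_lit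 63) (nat_lit 5) (nat_lit 64) (nat_lit 5) (nat_lit 416) (nat_lit 333) (nat_lit 151)))) (XT.nd (nat_lit 156) (nat_lit 152) (nat_lit 0) (XT.nd (nat_lit 78) (nat_lit 152) (nat_lit 0) (XT.lf (nat_lit 0) (nat_lit 4046517909) (nat_lit 228) (nat_lit 23442552554) (nat_lit 76) (nat_lit 21752228504) (nat_lit 60) (nat_lit 5) (nat_lit 63) (nat_lit 5) (nat_lit 61) (nat_lit 5) (nat_lit 417) (nat_lit 333) (nat_lit 150)) (XT.lf (nat_lit 0) (nat_lit 1139339486) (nat_lit 152) (nat_lit 13617442674) (nat_lit 228) (nat_lit 35529947258) (nat_lit 58) (nat_lit 5) (nat_lit 60) (nat_lit 5) (nat_lit 61) (nat_lit 5) (nat_lit 418) (nat_lit 333) (nat_lit 149))) (XT.nd (nat_lit 78) (nat_lit 152) (nat_lit 0) (XT.lf (nat_lit 0) (nat_lit 26030106357) (nat_lit 228) (nat_lit 24432587894) (nat_lit 76) (nat_lit 893576623) (nat_lit 58) (nat_lit 5) (nat_lit 61) (nat_lit 5) (nat_lit 59) (nat_lit 5) (nat_lit 419) (nat_lit 333) (nat_lit 148)) (XT.lf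 (nat_lit 0) (nat_lit 899969414) (nat_lit 152) (nat_lit 36881488322) (nat_lit 228) (nat_lit 14672246647) (nat_lit 56) (nat_lit 5) (nat_lit 58) (nat_lit 5) (nat_lit 59) (nat_lit 5) (nat_lit 420) (nat_lit 333) (nat_lit 147))))))))
noncomputable def xc184 : XT := (XT.nd (nat_lit 40716) (nat_lit 0) (nat_lit 9956) (XT.nd (nat_lit 1014) (nat_lit 380) (nat_lit 0) (XT.nd (nat_lit 468) (nat_lit 684) (nat_lit 0) (XT.nd (nat_lit 234) (nat_lit 152) (nat_lit 0) (XT.nd (nat_lit 78) (nat_lit 228) (nat_lit 0) (XT.lf (nat_lit 0) (nat_lit 27486986255) (nat_lit 152) (nat_lit 22641480026) (nat_lit 228) (nat_lit 3448301734) (nat_lit 56) (nat_lit 5) (nat_lit 58) (nat_lit 5) (nat_lit 59) (nat_lit 5) (nat_lit 421) (nat_lit 333) (nat_lit 146)) (XT.nd (nat_lit 78) (nat_lit 0) (nat_lit 0) (XT.lf (nat_lit 0) (nat_lit 54934089) (nat_lit 152) (nat_lit 7896119248) (nat_lit 228) (nat_lit 46780221571) (nat_lit 53) (nat_lit 5) (nat_lit 55)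 (nat_lit 5) (nat_lit 56) (nat_lit 5) (nat_lit 422) (nat_lit 333) (nat_lit 145)) (XT.lf (nat_lit 0) (nat_lit 19955719806) (nat_lit 228) (nat_lit 28506813489) (nat_lit 76) (nat_lit 7446880882) (nat_lit 53) (nat_lit 5) (nat_lit 56) (nat_lit 5) (nat_lit 54) (nat_lit 5) (nat_lit 423) (nat_lit 333) (nat_lit 144)))) (XT.nd (nat_lit 78) (nat_lit 152) (nat_lit 0) (XT.lf (nat_lit 0) (nat_lit 32395290854) (nat_lit 228) (nat_lit 1636462353) (nat_lit 76) (nat_lit 23088902025) (nat_lit 53) (nat_lit 5) (nat_lit 56) (nat_lit 5) (nat_lit 54) (nat_lit 5) (nat_lit 424) (nat_lit 333) (nat_lit 143)) (XT.nd (nat_lit 78) (nat_lit 0) (nat_lit 0) (XT.lf (nat_lit 0) (nat_lit 26552223377) (nat_lit 152) (nat_lit 18907746517) (nat_lit 228) (nat_lit 12900706531) (nat_lit 51) (nat_lit 5) (nat_lit 53) (nat_lit 5) (nat_lit 54) (nat_lit 5) (nat_lit 425) (nat_lit 333) (nat_lit 142)) (XT.lf (nat_lit 0) (nat_lit 55614267997) (nat_lit 152)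 (nat_lit 3315571369) (nat_lit 228) (nat_lit 707661899) (nat_lit 51) (nat_lit 5) (nat_lit 53) (nat_lit 5) (nat_lit 54) (nat_lit 5) (nat_lit 426) (nat_lit 333) (nat_lit 141))))) (XT.nd (nat_lit 234) (nat_lit 304) (nat_lit 0) (XT.nd (nat_lit 78) (nat_lit 152) (nat_lit 0) (XT.lf (nat_lit 0) (nat_lit 11982649128) (nat_lit 228) (nat_lit 36105098644) (nat_lit 76) (nat_lit 12850583917) (nat_lit 48) (nat_lit 5) (nat_lit 51) (nat_lit 5) (nat_lit 49) (nat_lit 5) (nat_lit 427) (nat_lit 333) (nat_lit 140)) (XT.nd (nat_lit 78) (nat_lit 152) (nat_lit 0) (XT.lf (nat_lit 0) (nat_lit 25110105789) (nat_lit 228) (nat_lit 7685095624) (nat_lit 76) (nat_lit 29480656099) (nat_lit 48) (nat_lit 5) (nat_lit 51) (nat_lit 5) (nat_lit 49) (nat_lit 5) (nat_lit 428) (nat_lit 333) (nat_lit 139)) (XT.lf (nat_lit 0) (nat_lit 22011440803) (nat_lit 152) (nat_lit 16828429047) (nat_lit 228) (nat_lit 24807385206) (nat_lit 46) (nat_lit 5) (nat_lit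 48) (nat_lit 5) (nat_lit 49) (nat_lit 5) (nat_lit 429) (nat_lit 333) (nat_lit 138)))) (XT.nd (nat_lit 156) (nat_lit 152) (nat_lit 0) (XT.nd (nat_lit 78) (nat_lit 152) (nat_lit 0) (XT.lf (nat_lit 0) (nat_lit 52750875871) (nat_lit 152) (nat_lit 305188826) (nat_lit 228) (nat_lit 12001494139) (nat_lit 46) (nat_lit 5) (nat_lit 48) (nat_lit 5) (nat_lit 49) (nat_lit 5) (nat_lit 430) (nat_lit 333) (nat_lit 137)) (XT.lf (nat_lit 0) (nat_lit 1500209561) (nat_lit 152) (nat_lit 48425728552) (nat_lit 76) (nat_lit 16573846396) (nat_lit 44) (nat_lit 5) (nat_lit 46) (nat_lit 5) (nat_lit 45) (nat_lit 5) (nat_lit 431) (nat_lit 333) (nat_lit 136))) (XT.nd (nat_lit 78) (nat_lit 152) (nat_lit 0) (XT.lf (nat_lit 0) (nat_lit 15291277286) (nat_lit 152) (nat_lit 18491582111) (nat_lit 76) (nat_lit 34195087230) (nat_lit 44) (nat_lit 5) (nat_lit 46) (nat_lit 5) (nat_lit 45) (nat_lit 5) (nat_lit 432) (nat_lit 333) (nat_lit 135)) (XT.lf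 (nat_lit 0) (nat_lit 12580797463) (nat_lit 152) (nat_lit 17033306712) (nat_lit 228) (nat_lit 39882809016) (nat_lit 42) (nat_lit 5) (nat_lit 44) (nat_lit 5) (nat_lit 45) (nat_lit 5) (nat_lit 433) (nat_lit 333) (nat_lit 134)))))) (XT.nd (nat_lit 39156) (nat_lit 0) (nat_lit 16340) (XT.nd (nat_lit 234) (nat_lit 228) (nat_lit 0) (XT.nd (nat_lit 78) (nat_lit 152) (nat_lit 0) (XT.lf (nat_lit 0) (nat_lit 44554400420) (nat_lit 228) (nat_lit 26100690488) (nat_lit 76) (nat_lit 400724689) (nat_lit 42) (nat_lit 5) (nat_lit 45) (nat_lit 5) (nat_lit 43) (nat_lit 4) (nat_lit 434) (nat_lit 333) (nat_lit 133)) (XT.nd (nat_lit 78) (nat_lit 76) (nat_lit 0) (XT.lf (nat_lit 0) (nat_lit 5574177618) (nat_lit 76) (nat_lit 54588145712) (nat_lit 152) (nat_lit 12492579583) (nat_lit 41) (nat_lit 5) (nat_lit 42) (nat_lit 5) (nat_lit 43) (nat_lit 4) (nat_lit 435) (nat_lit 333) (nat_lit 132)) (XT.lf (nat_lit 0) (nat_lit 2162101749) (nat_lit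 152) (nat_lit 35586101455) (nat_lit 76) (nat_lit 36545300471) (nat_lit 40) (nat_lit 5) (nat_lit 42) (nat_lit 5) (nat_lit 41) (nat_lit 5) (nat_lit 436) (nat_lit 333) (nat_lit 131)))) (XT.nd (nat_lit 234) (nat_lit 228) (nat_lit 0) (XT.lf (nat_lit 0) (nat_lit 17002610590) (nat_lit 152) (nat_lit 3275329090) (nat_lit 76) (nat_lit 55699694186) (nat_lit 40) (nat_lit 5) (nat_lit 42) (nat_lit 5) (nat_lit 41) (nat_lit 5) (nat_lit 437) (nat_lit 333) (nat_lit 130)) (XT.nd (nat_lit 38610) (nat_lit 0) (nat_lit 16340) (XT.lf (nat_lit 0) (nat_lit 20278399611) (nat_lit 76) (nat_lit 45475244365) (nat_lit 152) (nat_lit 15540502558) (nat_lit 37) (nat_lit 5) (nat_lit 38) (nat_lit 5) (nat_lit 39) (nat_lit 4) (nat_lit 440) (nat_lit 333) (nat_lit 127)) (XT.lf (nat_lit 0) (nat_lit 263880233) (nat_lit 0) (nat_lit 263880233) (nat_lit 1140) (nat_lit 5213440210) (nat_lit 252) (nat_lit 5) (nat_lit 252) (nat_lit 3) (nat_lit 267) (nat_lit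 3) (nat_lit 334) (nat_lit 334) (nat_lit 232))))) (XT.nd (nat_lit 234) (nat_lit 0) (nat_lit 76) (XT.nd (nat_lit 78) (nat_lit 0) (nat_lit 0) (XT.lf (nat_lit 0) (nat_lit 1629168769) (nat_lit 1140) (nat_lit 5500752964) (nat_lit 1216) (nat_lit 4507704184) (nat_lit 252) (nat_lit 5) (nat_lit 267) (nat_lit 3) (nat_lit 268) (nat_lit 5) (nat_lit 335) (nat_lit 334) (nat_lit 231)) (XT.nd (nat_lit 78) (nat_lit 0) (nat_lit 76) (XT.lf (nat_lit 76) (nat_lit 102801142) (nat_lit 0) (nat_lit 2103489555) (nat_lit 1216) (nat_lit 9591639393) (nat_lit 253) (nat_lit 5) (nat_lit 252) (nat_lit 5) (nat_lit 268) (nat_lit 5) (nat_lit 336) (nat_lit 334) (nat_lit 230)) (XT.lf (nat_lit 0) (nat_lit 2866984725) (nat_lit 1140) (nat_lit 6015557190) (nat_lit 1216) (nat_lit 3078524215) (nat_lit 253) (nat_lit 5) (nat_lit 268) (nat_lit 5) (nat_lit 269) (nat_lit 5) (nat_lit 337) (nat_lit 334) (nat_lit 229)))) (XT.nd (nat_lit 156) (nat_lit 0) (nat_lit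 76) (XT.nd (nat_lit 78) (nat_lit 0) (nat_lit 76) (XT.lf (nat_lit 0) (nat_lit 3549505840) (nat_lit 1140) (nat_lit 197401146) (nat_lit 1216) (nat_lit 8382139267) (nat_lit 253) (nat_lit 5) (nat_lit 268) (nat_lit 5) (nat_lit 269) (nat_lit 5) (nat_lit 338) (nat_lit 334) (nat_lit 228)) (XT.lf (nat_lit 0) (nat_lit 4306407599) (nat_lit 1140) (nat_lit 6416618723) (nat_lit 1216) (nat_lit 1577432201) (nat_lit 254) (nat_lit 5) (nat_lit 269) (nat_lit 5) (nat_lit 270) (nat_lit 5) (nat_lit 339) (nat_lit 334) (nat_lit 227))) (XT.nd (nat_lit 78) (nat_lit 0) (nat_lit 0) (XT.lf (nat_lit 0) (nat_lit 5107356241) (nat_lit 1140) (nat_lit 373673663) (nat_lit 1216) (nat_lit 6995352668) (nat_lit 254) (nat_lit 5) (nat_lit 269) (nat_lit 5) (nat_lit 270) (nat_lit 5) (nat_lit 340) (nat_lit 334) (nat_lit 226)) (XT.lf (nat_lit 76) (nat_lit 5955939853) (nat_lit 0) (nat_lit 16391879) (nat_lit 1216) (nat_lit 6684061984) (nat_lit 255) (nat_lit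 5) (nat_lit 254) (nat_lit 5) (nat_lit 270) (nat_lit 5) (nat_lit 341) (nat_lit 334) (nat_lit 225))))))) (XT.nd (nat_lit 1014) (nat_lit 3876) (nat_lit 0) (XT.nd (nat_lit 468) (nat_lit 2736) (nat_lit 0) (XT.nd (nat_lit 234) (nat_lit 0) (nat_lit 76) (XT.nd (nat_lit 78) (nat_lit 0) (nat_lit 0) (XT.lf (nat_lit 0) (nat_lit 6904219390) (nat_lit 1140) (nat_lit 423884339) (nat_lit 1216) (nat_lit 5512481632) (nat_lit 255) (nat_lit 5) (nat_lit 270) (nat_lit 5) (nat_lit 271) (nat_lit 5) (nat_lit 342) (nat_lit 334) (nat_lit 224)) (XT.nd (nat_lit 78) (nat_lit 0) (nat_lit 76) (XT.lf (nat_lit 76) (nat_lit 6149846063) (nat_lit 0) (nat_lit 1757189597) (nat_lit 1216) (nat_lit 5121986726) (nat_lit 256) (nat_lit 5) (nat_lit 255) (nat_lit 5) (nat_lit 271) (nat_lit 5) (nat_lit 343) (nat_lit 334) (nat_lit 223)) (XT.lf (nat_lit 0) (nat_lit 8966638303) (nat_lit 1140) (nat_lit 343222492) (nat_lit 1216) (nat_lit 3912459204) (nat_lit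 256) (nat_lit 5) (nat_lit 271) (nat_lit 5) (nat_lit 272) (nat_lit 5) (nat_lit 344) (nat_lit 334) (nat_lit 222)))) (XT.nd (nat_lit 78) (nat_lit 0) (nat_lit 76) (XT.lf (nat_lit 76) (nat_lit 6486920256) (nat_lit 0) (nat_lit 3635438386) (nat_lit 1216) (nat_lit 3297136296) (nat_lit 257) (nat_lit 5) (nat_lit 256) (nat_lit 5) (nat_lit 272) (nat_lit 5) (nat_lit 345) (nat_lit 334) (nat_lit 221)) (XT.nd (nat_lit 78) (nat_lit 0) (nat_lit 0) (XT.lf (nat_lit 0) (nat_lit 11322445972) (nat_lit 1140) (nat_lit 126215192) (nat_lit 1216) (nat_lit 2173641144) (nat_lit 257) (nat_lit 5) (nat_lit 272) (nat_lit 5) (nat_lit 273) (nat_lit 5) (nat_lit 346) (nat_lit 334) (nat_lit 220)) (XT.lf (nat_lit 76) (nat_lit 6973282070) (nat_lit 0) (nat_lit 5673676683) (nat_lit 1216) (nat_lit 1181590271) (nat_lit 258) (nat_lit 5) (nat_lit 257) (nat_lit 5) (nat_lit 273) (nat_lit 5) (nat_lit 347) (nat_lit 334) (nat_lit 219))))) (XT.nd (nat_lit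 234) (nat_lit 1748) (nat_lit 0) (XT.nd (nat_lit 78) (nat_lit 1216) (nat_lit 0) (XT.lf (nat_lit 76) (nat_lit 237906496) (nat_lit 0) (nat_lit 13765261332) (nat_lit 1216) (nat_lit 38064067) (nat_lit 259) (nat_lit 5) (nat_lit 258) (nat_lit 5) (nat_lit 274) (nat_lit 5) (nat_lit 348) (nat_lit 334) (nat_lit 218)) (XT.nd (nat_lit 78) (nat_lit 0) (nat_lit 0) (XT.lf (nat_lit 0) (nat_lit 1229520199) (nat_lit 1216) (nat_lit 6653299333) (nat_lit 1292) (nat_lit 6373794387) (nat_lit 242) (nat_lit 5) (nat_lit 258) (nat_lit 5) (nat_lit 259) (nat_lit 5) (nat_lit 349) (nat_lit 334) (nat_lit 217)) (XT.lf (nat_lit 76) (nat_lit 713446669) (nat_lit 0) (nat_lit 1814096896) (nat_lit 1292) (nat_lit 11951114172) (nat_lit 243) (nat_lit 5) (nat_lit 242) (nat_lit 5) (nat_lit 259) (nat_lit 5) (nat_lit 350) (nat_lit 334) (nat_lit 216)))) (XT.nd (nat_lit 156) (nat_lit 608) (nat_lit 0) (XT.nd (nat_lit 78) (nat_lit 1216) (nat_lit 0) (XT.lf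 (nat_lit 0) (nat_lit 3961636401) (nat_lit 1216) (nat_lit 6322723730) (nat_lit 76) (nat_lit 4420095613) (nat_lit 243) (nat_lit 5) (nat_lit 259) (nat_lit 5) (nat_lit 244) (nat_lit 5) (nat_lit 351) (nat_lit 334) (nat_lit 215)) (XT.lf (nat_lit 0) (nat_lit 1339918431) (nat_lit 1216) (nat_lit 4116694611) (nat_lit 1292) (nat_lit 9479885359) (nat_lit 227) (nat_lit 5) (nat_lit 243) (nat_lit 5) (nat_lit 244) (nat_lit 5) (nat_lit 352) (nat_lit 334) (nat_lit 214))) (XT.nd (nat_lit 78) (nat_lit 608) (nat_lit 0) (XT.lf (nat_lit 0) (nat_lit 7069716639) (nat_lit 1292) (nat_lit 5845259848) (nat_lit 76) (nat_lit 2258333871) (nat_lit 227) (nat_lit 5) (nat_lit 244) (nat_lit 5) (nat_lit 228) (nat_lit 5) (nat_lit 353) (nat_lit 334) (nat_lit 213)) (XT.lf (nat_lit 0) (nat_lit 2128108893) (nat_lit 608) (nat_lit 6651994842) (nat_lit 684) (nat_lit 6635662393) (nat_lit 219) (nat_lit 5) (nat_lit 227) (nat_lit 5) (nat_lit 228) (nat_lit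 5) (nat_lit 354) (nat_lit 334) (nat_lit 212)))))) (XT.nd (nat_lit 546) (nat_lit 2052) (nat_lit 0) (XT.nd (nat_lit 234) (nat_lit 1216) (nat_lit 0) (XT.nd (nat_lit 78) (nat_lit 608) (nat_lit 0) (XT.lf (nat_lit 0) (nat_lit 10449352473) (nat_lit 608) (nat_lit 139401825) (nat_lit 684) (nat_lit 5075338704) (nat_lit 219) (nat_lit 5) (nat_lit 227) (nat_lit 5) (nat_lit 228) (nat_lit 5) (nat_lit 355) (nat_lit 334) (nat_lit 211)) (XT.nd (nat_lit 78) (nat_lit 0) (nat_lit 0) (XT.lf (nat_lit 0) (nat_lit 3086256837) (nat_lit 608) (nat_lit 9446502123) (nat_lit 684) (nat_lit 3384683693) (nat_lit 211) (nat_lit 5) (nat_lit 219) (nat_lit 5) (nat_lit 220) (nat_lit 5) (nat_lit 356) (nat_lit 334) (nat_lit 210)) (XT.lf (nat_lit 0) (nat_lit 11730693485) (nat_lit 608) (nat_lit 2846936770) (nat_lit 684) (nat_lit 1599491788) (nat_lit 211) (nat_lit 5) (nat_lit 219) (nat_lit 5) (nat_lit 220) (nat_lit 5) (nat_lit 357) (nat_lit 334) (nat_lit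 209)))) (XT.nd (nat_lit 156) (nat_lit 532) (nat_lit 0) (XT.nd (nat_lit 78) (nat_lit 0) (nat_lit 0) (XT.lf (nat_lit 0) (nat_lit 302680365) (nat_lit 684) (nat_lit 12222337036) (nat_lit 76) (nat_lit 3917467938) (nat_lit 202) (nat_lit 5) (nat_lit 211) (nat_lit 5) (nat_lit 203) (nat_lit 5) (nat_lit 358) (nat_lit 334) (nat_lit 208)) (XT.lf (nat_lit 0) (nat_lit 2292266427) (nat_lit 684) (nat_lit 3532278026) (nat_lit 76) (nat_lit 10888920239) (nat_lit 202) (nat_lit 5) (nat_lit 211) (nat_lit 5) (nat_lit 203) (nat_lit 5) (nat_lit 359) (nat_lit 334) (nat_lit 207))) (XT.nd (nat_lit 78) (nat_lit 0) (nat_lit 0) (XT.lf (nat_lit 0) (nat_lit 4394717233) (nat_lit 608) (nat_lit 11486970474) (nat_lit 76) (nat_lit 1109295417) (nat_lit 195) (nat_lit 5) (nat_lit 203) (nat_lit 5) (nat_lit 196) (nat_lit 5) (nat_lit 360) (nat_lit 334) (nat_lit 206)) (XT.lf (nat_lit 0) (nat_lit 6643424393) (nat_lit 608) (nat_lit 2461079356) (nat_lit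 76) (nat_lit 8169832742) (nat_lit 195) (nat_lit 5) (nat_lit 203) (nat_lit 5) (nat_lit 196) (nat_lit 5) (nat_lit 361) (nat_lit 334) (nat_lit 205))))) (XT.nd (nat_lit 234) (nat_lit 1064) (nat_lit 0) (XT.nd (nat_lit 78) (nat_lit 456) (nat_lit 0) (XT.lf (nat_lit 0) (nat_lit 6960638252) (nat_lit 532) (nat_lit 2055662322) (nat_lit 608) (nat_lit 8548193376) (nat_lit 188) (nat_lit 5) (nat_lit 195) (nat_lit 5) (nat_lit 196) (nat_lit 5) (nat_lit 362) (nat_lit 334) (nat_lit 204)) (XT.nd (nat_lit 78) (nat_lit 456) (nat_lit 0) (XT.lf (nat_lit 0) (nat_lit 11525477479) (nat_lit 608) (nat_lit 1208399888) (nat_lit 76) (nat_lit 5127529920) (nat_lit 188) (nat_lit 5) (nat_lit 196) (nat_lit 5) (nat_lit 189) (nat_lit 5) (nat_lit 363) (nat_lit 334) (nat_lit 203)) (XT.lf (nat_lit 0) (nat_lit 8605846958) (nat_lit 456) (nat_lit 5597438233) (nat_lit 532) (nat_lit 3961146622) (nat_lit 182) (nat_lit 5) (nat_lit 188) (nat_lit 5) (nat_lit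 189) (nat_lit 5) (nat_lit 364) (nat_lit 334) (nat_lit 202)))) (XT.nd (nat_lit 156) (nat_lit 456) (nat_lit 0) (XT.nd (nat_lit 78) (nat_lit 76) (nat_lit 0) (XT.lf (nat_lit 0) (nat_lit 239994684) (nat_lit 532) (nat_lit 16743364397) (nat_lit 608) (nat_lit 1492534359) (nat_lit 175) (nat_lit 5) (nat_lit 182) (nat_lit 5) (nat_lit 183) (nat_lit 5) (nat_lit 365) (nat_lit 334) (nat_lit 201)) (XT.lf (nat_lit 0) (nat_lit 1173071184) (nat_lit 608) (nat_lit 8342713912) (nat_lit 76) (nat_lit 9276312254) (nat_lit 174) (nat_lit 5) (nat_lit 182) (nat_lit 5) (nat_lit 175) (nat_lit 5) (nat_lit 366) (nat_lit 334) (nat_lit 200))) (XT.nd (nat_lit 78) (nat_lit 0) (nat_lit 0) (XT.lf (nat_lit 0) (nat_lit 1858152518) (nat_lit 456) (nat_lit 2039159531) (nat_lit 532) (nat_lit 15219775991) (nat_lit 168) (nat_lit 5) (nat_lit 174) (nat_lit 5) (nat_lit 175) (nat_lit 5) (nat_lit 367) (nat_lit 334) (nat_lit 199)) (XT.lf (nat_lit 0) (nat_lit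 6833740501) (nat_lit 532) (nat_lit 6979249571) (nat_lit 76) (nat_lit 5634928408) (nat_lit 168) (nat_lit 5) (nat_lit 175) (nat_lit 5) (nat_lit 169) (nat_lit 5) (nat_lit 368) (nat_lit 334) (nat_lit 198))))))))
noncomputable def xc185 : XT := (XT.nd (nat_lit 2106) (nat_lit 3040) (nat_lit 0) (XT.nd (nat_lit 1014) (nat_lit 2584) (nat_lit 0) (XT.nd (nat_lit 468) (nat_lit 1520) (nat_lit 0) (XT.nd (nat_lit 234) (nat_lit 532) (nat_lit 0) (XT.nd (nat_lit 78) (nat_lit 380) (nat_lit 0) (XT.lf (nat_lit 0) (nat_lit 3649411179) (nat_lit 456) (nat_lit 6255340943) (nat_lit 532) (nat_lit 9882530732) (nat_lit 162) (nat_lit 5) (nat_lit 168) (nat_lit 5) (nat_lit 169) (nat_lit 5) (nat_lit 369) (nat_lit 334) (nat_lit 197)) (XT.nd (nat_lit 78) (nat_lit 380) (nat_lit 0) (XT.lf (nat_lit 0) (nat_lit 13145126794) (nat_lit 532) (nat_lit 5420692911) (nat_lit 76) (nat_lit 1568695096) (nat_lit 162) (nat_lit 5) (nat_lit 169) (nat_lit 5)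 (nat_lit 163) (nat_lit 5) (nat_lit 370) (nat_lit 334) (nat_lit 196)) (XT.lf (nat_lit 0) (nat_lit 5656164786) (nat_lit 380) (nat_lit 10934464281) (nat_lit 456) (nat_lit 3898300663) (nat_lit 157) (nat_lit 5) (nat_lit 162) (nat_lit 5) (nat_lit 163) (nat_lit 5) (nat_lit 371) (nat_lit 334) (nat_lit 195)))) (XT.nd (nat_lit 78) (nat_lit 532) (nat_lit 0) (XT.lf (nat_lit 0) (nat_lit 17166273327) (nat_lit 380) (nat_lit 3019719749) (nat_lit 456) (nat_lit 666592545) (nat_lit 157) (nat_lit 5) (nat_lit 162) (nat_lit 5) (nat_lit 163) (nat_lit 5) (nat_lit 372) (nat_lit 334) (nat_lit 194)) (XT.nd (nat_lit 78) (nat_lit 0) (nat_lit 0) (XT.lf (nat_lit 0) (nat_lit 2728427957) (nat_lit 532) (nat_lit 13361350982) (nat_lit 76) (nat_lit 5133058555) (nat_lit 150) (nat_lit 5) (nat_lit 157) (nat_lit 5) (nat_lit 151) (nat_lit 5) (nat_lit 373) (nat_lit 334) (nat_lit 193)) (XT.lf (nat_lit 0) (nat_lit 6271429066) (nat_lit 532) (nat_lit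 1818827169) (nat_lit 76) (nat_lit 13511959979) (nat_lit 150) (nat_lit 5) (nat_lit 157) (nat_lit 5) (nat_lit 151) (nat_lit 5) (nat_lit 374) (nat_lit 334) (nat_lit 192))))) (XT.nd (nat_lit 234) (nat_lit 760) (nat_lit 0) (XT.nd (nat_lit 78) (nat_lit 380) (nat_lit 0) (XT.lf (nat_lit 0) (nat_lit 10014007828) (nat_lit 456) (nat_lit 11732324234) (nat_lit 76) (nat_lit 243848639) (nat_lit 145) (nat_lit 5) (nat_lit 151) (nat_lit 5) (nat_lit 146) (nat_lit 5) (nat_lit 375) (nat_lit 334) (nat_lit 191)) (XT.nd (nat_lit 78) (nat_lit 0) (nat_lit 0) (XT.lf (nat_lit 0) (nat_lit 259693230) (nat_lit 380) (nat_lit 13702695890) (nat_lit 456) (nat_lit 8424592192) (nat_lit 140) (nat_lit 5) (nat_lit 145) (nat_lit 5) (nat_lit 146) (nat_lit 5) (nat_lit 376) (nat_lit 334) (nat_lit 190)) (XT.lf (nat_lit 0) (nat_lit 12842087644) (nat_lit 380) (nat_lit 5298113489) (nat_lit 456) (nat_lit 4652158288) (nat_lit 140) (nat_lit 5) (nat_lit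 145) (nat_lit 5) (nat_lit 146) (nat_lit 5) (nat_lit 377) (nat_lit 334) (nat_lit 189)))) (XT.nd (nat_lit 156) (nat_lit 380) (nat_lit 0) (XT.nd (nat_lit 78) (nat_lit 76) (nat_lit 0) (XT.lf (nat_lit 0) (nat_lit 2600723971) (nat_lit 304) (nat_lit 19892610042) (nat_lit 380) (nat_lit 715068039) (nat_lit 136) (nat_lit 5) (nat_lit 140) (nat_lit 5) (nat_lit 141) (nat_lit 5) (nat_lit 378) (nat_lit 334) (nat_lit 188)) (XT.lf (nat_lit 0) (nat_lit 3421633883) (nat_lit 380) (nat_lit 7997096512) (nat_lit 76) (nat_lit 12212834652) (nat_lit 135) (nat_lit 5) (nat_lit 140) (nat_lit 5) (nat_lit 136) (nat_lit 5) (nat_lit 379) (nat_lit 334) (nat_lit 187))) (XT.nd (nat_lit 78) (nat_lit 0) (nat_lit 0) (XT.lf (nat_lit 0) (nat_lit 5074178430) (nat_lit 380) (nat_lit 2635621011) (nat_lit 456) (nat_lit 16356161590) (nat_lit 130) (nat_lit 5) (nat_lit 135) (nat_lit 5) (nat_lit 136) (nat_lit 5) (nat_lit 380) (nat_lit 334) (nat_lit 186))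 (XT.lf (nat_lit 0) (nat_lit 12262839118) (nat_lit 456) (nat_lit 5881519667) (nat_lit 76) (nat_lit 6364945703) (nat_lit 130) (nat_lit 5) (nat_lit 136) (nat_lit 5) (nat_lit 131) (nat_lit 5) (nat_lit 381) (nat_lit 334) (nat_lit 185)))))) (XT.nd (nat_lit 546) (nat_lit 1292) (nat_lit 0) (XT.nd (nat_lit 234) (nat_lit 608) (nat_lit 0) (XT.nd (nat_lit 78) (nat_lit 380) (nat_lit 0) (XT.lf (nat_lit 0) (nat_lit 7737573091) (nat_lit 304) (nat_lit 9308621237) (nat_lit 380) (nat_lit 7916944584) (nat_lit 126) (nat_lit 5) (nat_lit 130) (nat_lit 5) (nat_lit 131) (nat_lit 5) (nat_lit 382) (nat_lit 334) (nat_lit 184)) (XT.nd (nat_lit 78) (nat_lit 380) (nat_lit 0) (XT.lf (nat_lit 0) (nat_lit 21876525164) (nat_lit 304) (nat_lit 149275031) (nat_lit 380) (nat_lit 3403207998) (nat_lit 126) (nat_lit 5) (nat_lit 130) (nat_lit 5) (nat_lit 131) (nat_lit 5) (nat_lit 383) (nat_lit 334) (nat_lit 183)) (XT.lf (nat_lit 0) (nat_lit 1408514673)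 (nat_lit 380) (nat_lit 15277127762) (nat_lit 76) (nat_lit 9217247404) (nat_lit 121) (nat_lit 5) (nat_lit 126) (nat_lit 5) (nat_lit 122) (nat_lit 5) (nat_lit 384) (nat_lit 334) (nat_lit 182)))) (XT.nd (nat_lit 156) (nat_lit 304) (nat_lit 0) (XT.nd (nat_lit 78) (nat_lit 304) (nat_lit 0) (XT.lf (nat_lit 0) (nat_lit 6327457123) (nat_lit 380) (nat_lit 1132482997) (nat_lit 76) (nat_lit 18929101009) (nat_lit 121) (nat_lit 5) (nat_lit 126) (nat_lit 5) (nat_lit 122) (nat_lit 5) (nat_lit 385) (nat_lit 334) (nat_lit 181)) (XT.lf (nat_lit 0) (nat_lit 11540272426) (nat_lit 380) (nat_lit 13212144449) (nat_lit 76) (nat_lit 2132973013) (nat_lit 117) (nat_lit 5) (nat_lit 122) (nat_lit 5) (nat_lit 118) (nat_lit 5) (nat_lit 386) (nat_lit 334) (nat_lit 180))) (XT.nd (nat_lit 78) (nat_lit 0) (nat_lit 0) (XT.lf (nat_lit 0) (nat_lit 1496273998) (nat_lit 304) (nat_lit 15506812366) (nat_lit 380) (nat_lit 10390736324) (nat_lit 113)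 (nat_lit 5) (nat_lit 117) (nat_lit 5) (nat_lit 118) (nat_lit 5) (nat_lit 387) (nat_lit 334) (nat_lit 179)) (XT.lf (nat_lit 0) (nat_lit 16907845316) (nat_lit 304) (nat_lit 5849271425) (nat_lit 380) (nat_lit 5156573716) (nat_lit 113) (nat_lit 5) (nat_lit 117) (nat_lit 5) (nat_lit 118) (nat_lit 5) (nat_lit 388) (nat_lit 334) (nat_lit 178))))) (XT.nd (nat_lit 234) (nat_lit 608) (nat_lit 0) (XT.nd (nat_lit 78) (nat_lit 304) (nat_lit 0) (XT.lf (nat_lit 0) (nat_lit 306243049) (nat_lit 380) (nat_lit 24080237795) (nat_lit 76) (nat_lit 4060321372) (nat_lit 108) (nat_lit 5) (nat_lit 113) (nat_lit 5) (nat_lit 109) (nat_lit 5) (nat_lit 389) (nat_lit 334) (nat_lit 177)) (XT.nd (nat_lit 78) (nat_lit 304) (nat_lit 0) (XT.lf (nat_lit 0) (nat_lit 5993548722) (nat_lit 380) (nat_lit 8685747719) (nat_lit 76) (nat_lit 14310153619) (nat_lit 108) (nat_lit 5) (nat_lit 113) (nat_lit 5) (nat_lit 109) (nat_lit 5) (nat_lit 390) (nat_lit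 334) (nat_lit 176)) (XT.lf (nat_lit 0) (nat_lit 7304511780) (nat_lit 304) (nat_lit 4611444233) (nat_lit 380) (nat_lit 17630488581) (nat_lit 104) (nat_lit 5) (nat_lit 108) (nat_lit 5) (nat_lit 109) (nat_lit 5) (nat_lit 391) (nat_lit 334) (nat_lit 175)))) (XT.nd (nat_lit 156) (nat_lit 380) (nat_lit 0) (XT.nd (nat_lit 78) (nat_lit 228) (nat_lit 0) (XT.lf (nat_lit 0) (nat_lit 18154291153) (nat_lit 380) (nat_lit 6229873202) (nat_lit 76) (nat_lit 5731838621) (nat_lit 104) (nat_lit 5) (nat_lit 109) (nat_lit 5) (nat_lit 105) (nat_lit 5) (nat_lit 392) (nat_lit 334) (nat_lit 174)) (XT.lf (nat_lit 0) (nat_lit 10411649608) (nat_lit 228) (nat_lit 14308357572) (nat_lit 304) (nat_lit 5978435635) (nat_lit 101) (nat_lit 5) (nat_lit 104) (nat_lit 5) (nat_lit 105) (nat_lit 5) (nat_lit 393) (nat_lit 334) (nat_lit 173))) (XT.nd (nat_lit 78) (nat_lit 304) (nat_lit 0) (XT.lf (nat_lit 0) (nat_lit 238789052) (nat_lit 304) (nat_lit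 3627176777) (nat_lit 76) (nat_lit 27430596976) (nat_lit 100) (nat_lit 5) (nat_lit 104) (nat_lit 5) (nat_lit 101) (nat_lit 5) (nat_lit 394) (nat_lit 334) (nat_lit 172)) (XT.lf (nat_lit 0) (nat_lit 6717146341) (nat_lit 380) (nat_lit 18242324634) (nat_lit 76) (nat_lit 6945537846) (nat_lit 96) (nat_lit 5) (nat_lit 101) (nat_lit 5) (nat_lit 97) (nat_lit 5) (nat_lit 395) (nat_lit 334) (nat_lit 171))))))) (XT.nd (nat_lit 1014) (nat_lit 1444) (nat_lit 0) (XT.nd (nat_lit 468) (nat_lit 836) (nat_lit 0) (XT.nd (nat_lit 234) (nat_lit 304) (nat_lit 0) (XT.nd (nat_lit 78) (nat_lit 456) (nat_lit 0) (XT.lf (nat_lit 0) (nat_lit 13459845579) (nat_lit 380) (nat_lit 1031897441) (nat_lit 76) (nat_lit 18037866906) (nat_lit 96) (nat_lit 5) (nat_lit 101) (nat_lit 5) (nat_lit 97) (nat_lit 5) (nat_lit 396) (nat_lit 334) (nat_lit 170)) (XT.nd (nat_lit 78) (nat_lit 228) (nat_lit 0) (XT.lf (nat_lit 0) (nat_lit 17018940424) (nat_lit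 228) (nat_lit 3544359819) (nat_lit 304) (nat_lit 12604895996) (nat_lit 93) (nat_lit 5) (nat_lit 96) (nat_lit 5) (nat_lit 97) (nat_lit 5) (nat_lit 397) (nat_lit 334) (nat_lit 169)) (XT.lf (nat_lit 0) (nat_lit 1758674598) (nat_lit 228) (nat_lit 26217855445) (nat_lit 304) (nat_lit 5846511319) (nat_lit 90) (nat_lit 5) (nat_lit 93) (nat_lit 5) (nat_lit 94) (nat_lit 5) (nat_lit 398) (nat_lit 334) (nat_lit 168)))) (XT.nd (nat_lit 78) (nat_lit 228) (nat_lit 0) (XT.lf (nat_lit 0) (nat_lit 1287601389) (nat_lit 304) (nat_lit 14013247168) (nat_lit 76) (nat_lit 19190521330) (nat_lit 89) (nat_lit 5) (nat_lit 93) (nat_lit 5) (nat_lit 90) (nat_lit 5) (nat_lit 399) (nat_lit 334) (nat_lit 167)) (XT.nd (nat_lit 78) (nat_lit 0) (nat_lit 0) (XT.lf (nat_lit 0) (nat_lit 4603513317) (nat_lit 228) (nat_lit 3954057865) (nat_lit 304) (nat_lit 26619261463) (nat_lit 86) (nat_lit 5) (nat_lit 89) (nat_lit 5) (nat_lit 90) (nat_lit 5)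 (nat_lit 400) (nat_lit 334) (nat_lit 166)) (XT.lf (nat_lit 0) (nat_lit 16258014397) (nat_lit 304) (nat_lit 11896195440) (nat_lit 76) (nat_lit 7722279433) (nat_lit 86) (nat_lit 5) (nat_lit 90) (nat_lit 5) (nat_lit 87) (nat_lit 5) (nat_lit 401) (nat_lit 334) (nat_lit 165))))) (XT.nd (nat_lit 234) (nat_lit 380) (nat_lit 0) (XT.nd (nat_lit 78) (nat_lit 228) (nat_lit 0) (XT.lf (nat_lit 0) (nat_lit 7439617196) (nat_lit 228) (nat_lit 16855790072) (nat_lit 304) (nat_lit 12298551412) (nat_lit 83) (nat_lit 5) (nat_lit 86) (nat_lit 5) (nat_lit 87) (nat_lit 5) (nat_lit 402) (nat_lit 334) (nat_lit 164)) (XT.nd (nat_lit 78) (nat_lit 228) (nat_lit 0) (XT.lf (nat_lit 0) (nat_lit 27591789944) (nat_lit 228) (nat_lit 5097598216) (nat_lit 304) (nat_lit 4640101169) (nat_lit 83) (nat_lit 5) (nat_lit 86) (nat_lit 5) (nat_lit 87) (nat_lit 5) (nat_lit 403) (nat_lit 334) (nat_lit 163)) (XT.lf (nat_lit 0) (nat_lit 3349061865) (nat_lit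 228) (nat_lit 27725744696) (nat_lit 76) (nat_lit 7006413489) (nat_lit 80) (nat_lit 5) (nat_lit 83) (nat_lit 5) (nat_lit 81) (nat_lit 5) (nat_lit 404) (nat_lit 334) (nat_lit 162)))) (XT.nd (nat_lit 156) (nat_lit 152) (nat_lit 0) (XT.nd (nat_lit 78) (nat_lit 228) (nat_lit 0) (XT.lf (nat_lit 0) (nat_lit 11629877513) (nat_lit 228) (nat_lit 7706362442) (nat_lit 76) (nat_lit 19513528359) (nat_lit 80) (nat_lit 5) (nat_lit 83) (nat_lit 5) (nat_lit 81) (nat_lit 5) (nat_lit 405) (nat_lit 334) (nat_lit 161)) (XT.lf (nat_lit 0) (nat_lit 13163198735) (nat_lit 228) (nat_lit 7118046412) (nat_lit 304) (nat_lit 19356465071) (nat_lit 77) (nat_lit 5) (nat_lit 80) (nat_lit 5) (nat_lit 81) (nat_lit 5) (nat_lit 406) (nat_lit 334) (nat_lit 160))) (XT.nd (nat_lit 78) (nat_lit 152) (nat_lit 0) (XT.lf (nat_lit 0) (nat_lit 29318919243) (nat_lit 304) (nat_lit 5690752617) (nat_lit 76) (nat_lit 5435816541) (nat_lit 77) (nat_lit 5) (nat_lit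 81) (nat_lit 5) (nat_lit 78) (nat_lit 5) (nat_lit 407) (nat_lit 334) (nat_lit 159)) (XT.lf (nat_lit 0) (nat_lit 15950205033) (nat_lit 152) (nat_lit 22897071343) (nat_lit 228) (nat_lit 2423637928) (nat_lit 75) (nat_lit 5) (nat_lit 77) (nat_lit 5) (nat_lit 78) (nat_lit 5) (nat_lit 408) (nat_lit 334) (nat_lit 158)))))) (XT.nd (nat_lit 546) (nat_lit 532) (nat_lit 0) (XT.nd (nat_lit 234) (nat_lit 608) (nat_lit 0) (XT.nd (nat_lit 78) (nat_lit 228) (nat_lit 0) (XT.lf (nat_lit 0) (nat_lit 6466557076) (nat_lit 228) (nat_lit 3832871771) (nat_lit 76) (nat_lit 31818174869) (nat_lit 74) (nat_lit 5) (nat_lit 77) (nat_lit 5) (nat_lit 75) (nat_lit 5) (nat_lit 409) (nat_lit 334) (nat_lit 157)) (XT.nd (nat_lit 78) (nat_lit 0) (nat_lit 0) (XT.lf (nat_lit 0) (nat_lit 15777450179) (nat_lit 304) (nat_lit 24379139270) (nat_lit 76) (nat_lit 2826304195) (nat_lit 71) (nat_lit 5) (nat_lit 75) (nat_lit 5) (nat_lit 72) (nat_lit 5)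 (nat_lit 410) (nat_lit 334) (nat_lit 156)) (XT.lf (nat_lit 0) (nat_lit 25504650846) (nat_lit 304) (nat_lit 2190210864) (nat_lit 76) (nat_lit 16175171989) (nat_lit 71) (nat_lit 5) (nat_lit 75) (nat_lit 5) (nat_lit 72) (nat_lit 5) (nat_lit 411) (nat_lit 334) (nat_lit 155)))) (XT.nd (nat_lit 156) (nat_lit 380) (nat_lit 0) (XT.nd (nat_lit 78) (nat_lit 76) (nat_lit 0) (XT.lf (nat_lit 0) (nat_lit 21068793645) (nat_lit 152) (nat_lit 14653437422) (nat_lit 228) (nat_lit 9055600807) (nat_lit 69) (nat_lit 5) (nat_lit 71) (nat_lit 5) (nat_lit 72) (nat_lit 5) (nat_lit 412) (nat_lit 334) (nat_lit 154)) (XT.lf (nat_lit 0) (nat_lit 541449847) (nat_lit 228) (nat_lit 653815410) (nat_lit 76) (nat_lit 44516894119) (nat_lit 68) (nat_lit 5) (nat_lit 71) (nat_lit 5) (nat_lit 69) (nat_lit 5) (nat_lit 413) (nat_lit 334) (nat_lit 153))) (XT.nd (nat_lit 78) (nat_lit 152) (nat_lit 0) (XT.lf (nat_lit 0) (nat_lit 10590880938) (nat_lit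 304) (nat_lit 23335482362) (nat_lit 76) (nat_lit 12735070052) (nat_lit 65) (nat_lit 5) (nat_lit 69) (nat_lit 5) (nat_lit 66) (nat_lit 5) (nat_lit 414) (nat_lit 334) (nat_lit 152)) (XT.lf (nat_lit 0) (nat_lit 388648122) (nat_lit 152) (nat_lit 20571572771) (nat_lit 228) (nat_lit 26678412608) (nat_lit 63) (nat_lit 5) (nat_lit 65) (nat_lit 5) (nat_lit 66) (nat_lit 5) (nat_lit 415) (nat_lit 334) (nat_lit 151))))) (XT.nd (nat_lit 234) (nat_lit 304) (nat_lit 0) (XT.nd (nat_lit 78) (nat_lit 228) (nat_lit 0) (XT.lf (nat_lit 0) (nat_lit 25296359757) (nat_lit 152) (nat_lit 6576160554) (nat_lit 228) (nat_lit 16765673679) (nat_lit 63) (nat_lit 5) (nat_lit 65) (nat_lit 5) (nat_lit 66) (nat_lit 5) (nat_lit 416) (nat_lit 334) (nat_lit 150)) (XT.nd (nat_lit 78) (nat_lit 76) (nat_lit 0) (XT.lf (nat_lit 0) (nat_lit 1225732724) (nat_lit 152) (nat_lit 41969913587) (nat_lit 228) (nat_lit 6469591948) (nat_lit 61) (nat_lit 5)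 (nat_lit 63) (nat_lit 5) (nat_lit 64) (nat_lit 5) (nat_lit 417) (nat_lit 334) (nat_lit 149)) (XT.lf (nat_lit 0) (nat_lit 4354157645) (nat_lit 228) (nat_lit 23820811033) (nat_lit 76) (nat_lit 22537948834) (nat_lit 60) (nat_lit 5) (nat_lit 63) (nat_lit 5) (nat_lit 61) (nat_lit 5) (nat_lit 418) (nat_lit 334) (nat_lit 148)))) (XT.nd (nat_lit 156) (nat_lit 152) (nat_lit 0) (XT.nd (nat_lit 78) (nat_lit 0) (nat_lit 0) (XT.lf (nat_lit 0) (nat_lit 1495351316) (nat_lit 152) (nat_lit 13888047562) (nat_lit 228) (nat_lit 36406382892) (nat_lit 58) (nat_lit 5) (nat_lit 60) (nat_lit 5) (nat_lit 61) (nat_lit 5) (nat_lit 419) (nat_lit 334) (nat_lit 147)) (XT.lf (nat_lit 0) (nat_lit 26990853246) (nat_lit 228) (nat_lit 24849006871) (nat_lit 76) (nat_lit 1051672376) (nat_lit 58) (nat_lit 5) (nat_lit 61) (nat_lit 5) (nat_lit 59) (nat_lit 5) (nat_lit 420) (nat_lit 334) (nat_lit 146))) (XT.nd (nat_lit 78) (nat_lit 0) (nat_lit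 0) (XT.lf (nat_lit 0) (nat_lit 1240423641) (nat_lit 152) (nat_lit 37852096483) (nat_lit 228) (nat_lit 14929436544) (nat_lit 56) (nat_lit 5) (nat_lit 58) (nat_lit 5) (nat_lit 59) (nat_lit 5) (nat_lit 421) (nat_lit 334) (nat_lit 145)) (XT.lf (nat_lit 0) (nat_lit 28615921225) (nat_lit 152) (nat_lit 23188844340) (nat_lit 228) (nat_lit 3374102725) (nat_lit 56) (nat_lit 5) (nat_lit 58) (nat_lit 5) (nat_lit 59) (nat_lit 5) (nat_lit 422) (nat_lit 334) (nat_lit 144))))))))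
noncomputable def xc186 : XT := (XT.nd (nat_lit 41028) (nat_lit 0) (nat_lit 8284) (XT.nd (nat_lit 1014) (nat_lit 76) (nat_lit 0) (XT.nd (nat_lit 468) (nat_lit 456) (nat_lit 0) (XT.nd (nat_lit 234) (nat_lit 380) (nat_lit 0) (XT.nd (nat_lit 78) (nat_lit 0) (nat_lit 0) (XT.lf (nat_lit 0) (nat_lit 361384749) (nat_lit 152) (nat_lit 8000238397) (nat_lit 228) (nat_lit 48006401145) (nat_lit 53) (nat_lit 5) (nat_lit 55) (nat_lit 5) (nat_lit 56) (nat_lit 5) (nat_lit 423) (nat_lit 334) (nat_lit 143)) (XT.nd (nat_lit 78) (nat_lit 0) (nat_lit 0) (XT.lf (nat_lit 0) (nat_lit 20722657830) (nat_lit 228) (nat_lit 29062294312) (nat_lit 76) (nat_lit 7796669557) (nat_lit 53) (nat_lit 5) (nat_lit 56) (nat_lit 5) (nat_lit 54) (nat_lit 5) (nat_lit 424) (nat_lit 334) (nat_lit 142)) (XT.lf (nat_lit 0) (nat_lit 33530515045) (nat_lit 228) (nat_lit 1394562455) (nat_lit 76) (nat_lit 23904270299) (nat_lit 53) (nat_lit 5) (nat_lit 56)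 (nat_lit 5) (nat_lit 54) (nat_lit 5) (nat_lit 425) (nat_lit 334) (nat_lit 141)))) (XT.nd (nat_lit 78) (nat_lit 228) (nat_lit 0) (XT.lf (nat_lit 0) (nat_lit 27636930967) (nat_lit 152) (nat_lit 19348215058) (nat_lit 228) (nat_lit 13121484015) (nat_lit 51) (nat_lit 5) (nat_lit 53) (nat_lit 5) (nat_lit 54) (nat_lit 5) (nat_lit 426) (nat_lit 334) (nat_lit 140)) (XT.nd (nat_lit 78) (nat_lit 228) (nat_lit 0) (XT.lf (nat_lit 0) (nat_lit 57562444472) (nat_lit 152) (nat_lit 3291966807) (nat_lit 228) (nat_lit 567490094) (nat_lit 51) (nat_lit 5) (nat_lit 53) (nat_lit 5) (nat_lit 54) (nat_lit 5) (nat_lit 427) (nat_lit 334) (nat_lit 139)) (XT.lf (nat_lit 0) (nat_lit 12499654565) (nat_lit 228) (nat_lit 36904580346) (nat_lit 76) (nat_lit 13357497736) (nat_lit 48) (nat_lit 5) (nat_lit 51) (nat_lit 5) (nat_lit 49) (nat_lit 5) (nat_lit 428) (nat_lit 334) (nat_lit 138))))) (XT.nd (nat_lit 234) (nat_lit 304) (nat_lit 0) (XT.nd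 (nat_lit 78) (nat_lit 152) (nat_lit 0) (XT.lf (nat_lit 0) (nat_lit 26016346791) (nat_lit 228) (nat_lit 7640239505) (nat_lit 76) (nat_lit 30482936269) (nat_lit 48) (nat_lit 5) (nat_lit 51) (nat_lit 5) (nat_lit 49) (nat_lit 5) (nat_lit 429) (nat_lit 334) (nat_lit 137)) (XT.nd (nat_lit 78) (nat_lit 0) (nat_lit 0) (XT.lf (nat_lit 0) (nat_lit 22944492926) (nat_lit 152) (nat_lit 17211677792) (nat_lit 228) (nat_lit 25395946965) (nat_lit 46) (nat_lit 5) (nat_lit 48) (nat_lit 5) (nat_lit 49) (nat_lit 5) (nat_lit 430) (nat_lit 334) (nat_lit 136)) (XT.lf (nat_lit 0) (nat_lit 54598168069) (nat_lit 152) (nat_lit 196282232) (nat_lit 228) (nat_lit 12210412946) (nat_lit 46) (nat_lit 5) (nat_lit 48) (nat_lit 5) (nat_lit 49) (nat_lit 5) (nat_lit 431) (nat_lit 334) (nat_lit 135)))) (XT.nd (nat_lit 156) (nat_lit 152) (nat_lit 0) (XT.nd (nat_lit 78) (nat_lit 0) (nat_lit 0) (XT.lf (nat_lit 0) (nat_lit 1692766451) (nat_lit 152)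 (nat_lit 49610118423) (nat_lit 76) (nat_lit 17187446628) (nat_lit 44) (nat_lit 5) (nat_lit 46) (nat_lit 5) (nat_lit 45) (nat_lit 5) (nat_lit 432) (nat_lit 334) (nat_lit 134)) (XT.lf (nat_lit 0) (nat_lit 15893268618) (nat_lit 152) (nat_lit 18785764541) (nat_lit 76) (nat_lit 35333934836) (nat_lit 44) (nat_lit 5) (nat_lit 46) (nat_lit 5) (nat_lit 45) (nat_lit 5) (nat_lit 433) (nat_lit 334) (nat_lit 133))) (XT.nd (nat_lit 78) (nat_lit 0) (nat_lit 0) (XT.lf (nat_lit 0) (nat_lit 13216231862) (nat_lit 152) (nat_lit 17427856188) (nat_lit 228) (nat_lit 40933466839) (nat_lit 42) (nat_lit 5) (nat_lit 44) (nat_lit 5) (nat_lit 45) (nat_lit 5) (nat_lit 434) (nat_lit 334) (nat_lit 132)) (XT.lf (nat_lit 0) (nat_lit 46029556836) (nat_lit 228) (nat_lit 26630160925) (nat_lit 76) (nat_lit 523598247) (nat_lit 42) (nat_lit 5) (nat_lit 45) (nat_lit 5) (nat_lit 43) (nat_lit 4) (nat_lit 435) (nat_lit 334) (nat_lit 131)))))) (XT.nd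 (nat_lit 39468) (nat_lit 0) (nat_lit 16188) (XT.nd (nat_lit 39156) (nat_lit 0) (nat_lit 16036) (XT.nd (nat_lit 39000) (nat_lit 0) (nat_lit 16036) (XT.lf (nat_lit 0) (nat_lit 5992467437) (nat_lit 76) (nat_lit 56111628691) (nat_lit 152) (nat_lit 12726328989) (nat_lit 41) (nat_lit 5) (nat_lit 42) (nat_lit 5) (nat_lit 43) (nat_lit 4) (nat_lit 436) (nat_lit 334) (nat_lit 130)) (XT.nd (nat_lit 78) (nat_lit 0) (nat_lit 0) (XT.lf (nat_lit 0) (nat_lit 526138938) (nat_lit 0) (nat_lit 526138938) (nat_lit 1140) (nat_lit 4845623940) (nat_lit 252) (nat_lit 5) (nat_lit 252) (nat_lit 3) (nat_lit 267) (nat_lit 3) (nat_lit 335) (nat_lit 335) (nat_lit 230)) (XT.lf (nat_lit 0) (nat_lit 2661033546) (nat_lit 1140) (nat_lit 5136994830) (nat_lit 1216) (nat_lit 4158703924) (nat_lit 252) (nat_lit 5) (nat_lit 267) (nat_lit 3) (nat_lit 268) (nat_lit 5) (nat_lit 336) (nat_lit 335) (nat_lit 229)))) (XT.nd (nat_lit 156) (nat_lit 0) (nat_lit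 76) (XT.nd (nat_lit 78) (nat_lit 0) (nat_lit 76) (XT.lf (nat_lit 76) (nat_lit 629481774) (nat_lit 0) (nat_lit 2602389720) (nat_lit 1216) (nat_lit 8890697548) (nat_lit 253) (nat_lit 5) (nat_lit 252) (nat_lit 5) (nat_lit 268) (nat_lit 5) (nat_lit 337) (nat_lit 335) (nat_lit 228)) (XT.lf (nat_lit 0) (nat_lit 3880375765) (nat_lit 1140) (nat_lit 5655164991) (nat_lit 1216) (nat_lit 2756033788) (nat_lit 253) (nat_lit 5) (nat_lit 268) (nat_lit 5) (nat_lit 269) (nat_lit 5) (nat_lit 338) (nat_lit 335) (nat_lit 227))) (XT.nd (nat_lit 78) (nat_lit 0) (nat_lit 76) (XT.lf (nat_lit 76) (nat_lit 328186664) (nat_lit 0) (nat_lit 4231329468) (nat_lit 1216) (nat_lit 7905808256) (nat_lit 254) (nat_lit 5) (nat_lit 253) (nat_lit 5) (nat_lit 269) (nat_lit 5) (nat_lit 339) (nat_lit 335) (nat_lit 226)) (XT.lf (nat_lit 0) (nat_lit 5311291264) (nat_lit 1140) (nat_lit 6058859293) (nat_lit 1216) (nat_lit 1272577679) (nat_lit 254) (nat_lit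 5) (nat_lit 269) (nat_lit 5) (nat_lit 270) (nat_lit 5) (nat_lit 340) (nat_lit 335) (nat_lit 225))))) (XT.nd (nat_lit 234) (nat_lit 0) (nat_lit 76) (XT.nd (nat_lit 78) (nat_lit 0) (nat_lit 0) (XT.lf (nat_lit 76) (nat_lit 152319488) (nat_lit 0) (nat_lit 5959907490) (nat_lit 1216) (nat_lit 6712438056) (nat_lit 255) (nat_lit 5) (nat_lit 254) (nat_lit 5) (nat_lit 270) (nat_lit 5) (nat_lit 341) (nat_lit 335) (nat_lit 224)) (XT.nd (nat_lit 78) (nat_lit 0) (nat_lit 76) (XT.lf (nat_lit 76) (nat_lit 6663611550) (nat_lit 0) (nat_lit 318398310) (nat_lit 1216) (nat_lit 6028714292) (nat_lit 255) (nat_lit 5) (nat_lit 254) (nat_lit 5) (nat_lit 270) (nat_lit 5) (nat_lit 342) (nat_lit 335) (nat_lit 223)) (XT.lf (nat_lit 76) (nat_lit 106499871) (nat_lit 0) (nat_lit 7809374534) (nat_lit 1216) (nat_lit 5285359528) (nat_lit 256) (nat_lit 5) (nat_lit 255) (nat_lit 5) (nat_lit 271) (nat_lit 5) (nat_lit 343) (nat_lit 335) (nat_lit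 222)))) (XT.nd (nat_lit 156) (nat_lit 0) (nat_lit 76) (XT.nd (nat_lit 78) (nat_lit 0) (nat_lit 76) (XT.lf (nat_lit 76) (nat_lit 6870059847) (nat_lit 0) (nat_lit 2059438178) (nat_lit 1216) (nat_lit 4466416973) (nat_lit 256) (nat_lit 5) (nat_lit 255) (nat_lit 5) (nat_lit 271) (nat_lit 5) (nat_lit 344) (nat_lit 335) (nat_lit 221)) (XT.lf (nat_lit 76) (nat_lit 196029496) (nat_lit 0) (nat_lit 9801543410) (nat_lit 1216) (nat_lit 3598150357) (nat_lit 257) (nat_lit 5) (nat_lit 256) (nat_lit 5) (nat_lit 272) (nat_lit 5) (nat_lit 345) (nat_lit 335) (nat_lit 220))) (XT.nd (nat_lit 78) (nat_lit 0) (nat_lit 76) (XT.lf (nat_lit 76) (nat_lit 7221901056) (nat_lit 0) (nat_lit 3947236431) (nat_lit 1216) (nat_lit 2630252675) (nat_lit 257) (nat_lit 5) (nat_lit 256) (nat_lit 5) (nat_lit 272) (nat_lit 5) (nat_lit 346) (nat_lit 335) (nat_lit 219)) (XT.lf (nat_lit 76) (nat_lit 426883363) (nat_lit 0) (nat_lit 11958911563) (nat_lit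 1216) (nat_lit 1623081348) (nat_lit 258) (nat_lit 5) (nat_lit 257) (nat_lit 5) (nat_lit 273) (nat_lit 5) (nat_lit 347) (nat_lit 335) (nat_lit 218))))))) (XT.nd (nat_lit 1014) (nat_lit 3952) (nat_lit 0) (XT.nd (nat_lit 468) (nat_lit 1900) (nat_lit 0) (XT.nd (nat_lit 234) (nat_lit 1140) (nat_lit 0) (XT.nd (nat_lit 78) (nat_lit 1140) (nat_lit 0) (XT.lf (nat_lit 76) (nat_lit 7725657521) (nat_lit 0) (nat_lit 6004545043) (nat_lit 1216) (nat_lit 491714250) (nat_lit 258) (nat_lit 5) (nat_lit 257) (nat_lit 5) (nat_lit 273) (nat_lit 5) (nat_lit 348) (nat_lit 335) (nat_lit 217)) (XT.nd (nat_lit 78) (nat_lit 0) (nat_lit 0) (XT.lf (nat_lit 0) (nat_lit 655943968) (nat_lit 1216) (nat_lit 13642217555) (nat_lit 1292) (nat_lit 143134908) (nat_lit 242) (nat_lit 5) (nat_lit 258) (nat_lit 5) (nat_lit 259) (nat_lit 5) (nat_lit 349) (nat_lit 335) (nat_lit 216)) (XT.lf (nat_lit 0) (nat_lit 1940565911) (nat_lit 1216) (nat_lit 6294810220)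 (nat_lit 1292) (nat_lit 6428369480) (nat_lit 242) (nat_lit 5) (nat_lit 258) (nat_lit 5) (nat_lit 259) (nat_lit 5) (nat_lit 350) (nat_lit 335) (nat_lit 215)))) (XT.nd (nat_lit 78) (nat_lit 1140) (nat_lit 0) (XT.lf (nat_lit 76) (nat_lit 1287466709) (nat_lit 0) (nat_lit 1975739626) (nat_lit 1292) (nat_lit 11629684077) (nat_lit 243) (nat_lit 5) (nat_lit 242) (nat_lit 5) (nat_lit 259) (nat_lit 5) (nat_lit 351) (nat_lit 335) (nat_lit 214)) (XT.nd (nat_lit 78) (nat_lit 1216) (nat_lit 0) (XT.lf (nat_lit 0) (nat_lit 4720102776) (nat_lit 1216) (nat_lit 5955342957) (nat_lit 76) (nat_lit 4450632871) (nat_lit 243) (nat_lit 5) (nat_lit 259) (nat_lit 5) (nat_lit 244) (nat_lit 5) (nat_lit 352) (nat_lit 335) (nat_lit 213)) (XT.lf (nat_lit 0) (nat_lit 1931717073) (nat_lit 1216) (nat_lit 4314884341) (nat_lit 1292) (nat_lit 9118890333) (nat_lit 227) (nat_lit 5) (nat_lit 243) (nat_lit 5) (nat_lit 244) (nat_lit 5) (nat_lit 353)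 (nat_lit 335) (nat_lit 212))))) (XT.nd (nat_lit 234) (nat_lit 1292) (nat_lit 0) (XT.nd (nat_lit 78) (nat_lit 608) (nat_lit 0) (XT.lf (nat_lit 0) (nat_lit 7889159619) (nat_lit 1292) (nat_lit 5465840313) (nat_lit 76) (nat_lit 2254985400) (nat_lit 227) (nat_lit 5) (nat_lit 244) (nat_lit 5) (nat_lit 228) (nat_lit 5) (nat_lit 354) (nat_lit 335) (nat_lit 211)) (XT.nd (nat_lit 78) (nat_lit 0) (nat_lit 0) (XT.lf (nat_lit 0) (nat_lit 2741290497) (nat_lit 608) (nat_lit 6897158557) (nat_lit 684) (nat_lit 6221646846) (nat_lit 219) (nat_lit 5) (nat_lit 227) (nat_lit 5) (nat_lit 228) (nat_lit 5) (nat_lit 355) (nat_lit 335) (nat_lit 210)) (XT.lf (nat_lit 0) (nat_lit 11296171239) (nat_lit 608) (nat_lit 187859481) (nat_lit 684) (nat_lit 4632370303) (nat_lit 219) (nat_lit 5) (nat_lit 227) (nat_lit 5) (nat_lit 228) (nat_lit 5) (nat_lit 356) (nat_lit 335) (nat_lit 209)))) (XT.nd (nat_lit 156) (nat_lit 684) (nat_lit 0) (XT.nd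 (nat_lit 78) (nat_lit 0) (nat_lit 0) (XT.lf (nat_lit 0) (nat_lit 3724817434) (nat_lit 608) (nat_lit 9749549403) (nat_lit 684) (nat_lit 2903352328) (nat_lit 211) (nat_lit 5) (nat_lit 219) (nat_lit 5) (nat_lit 220) (nat_lit 5) (nat_lit 357) (nat_lit 335) (nat_lit 208)) (XT.lf (nat_lit 0) (nat_lit 12612685058) (nat_lit 608) (nat_lit 2951424695) (nat_lit 684) (nat_lit 1081581516) (nat_lit 211) (nat_lit 5) (nat_lit 219) (nat_lit 5) (nat_lit 220) (nat_lit 5) (nat_lit 358) (nat_lit 335) (nat_lit 207))) (XT.nd (nat_lit 78) (nat_lit 0) (nat_lit 0) (XT.lf (nat_lit 0) (nat_lit 855530660) (nat_lit 684) (nat_lit 12036294759) (nat_lit 76) (nat_lit 4027366962) (nat_lit 202) (nat_lit 5) (nat_lit 211) (nat_lit 5) (nat_lit 203) (nat_lit 5) (nat_lit 359) (nat_lit 335) (nat_lit 206)) (XT.lf (nat_lit 0) (nat_lit 2888966346) (nat_lit 684) (nat_lit 3101632398) (nat_lit 76) (nat_lit 11208184920) (nat_lit 202) (nat_lit 5) (nat_lit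 211) (nat_lit 5) (nat_lit 203) (nat_lit 5) (nat_lit 360) (nat_lit 335) (nat_lit 205)))))) (XT.nd (nat_lit 546) (nat_lit 1824) (nat_lit 0) (XT.nd (nat_lit 234) (nat_lit 1064) (nat_lit 0) (XT.nd (nat_lit 78) (nat_lit 532) (nat_lit 0) (XT.lf (nat_lit 0) (nat_lit 5044353306) (nat_lit 608) (nat_lit 11284588432) (nat_lit 76) (nat_lit 1155997226) (nat_lit 195) (nat_lit 5) (nat_lit 203) (nat_lit 5) (nat_lit 196) (nat_lit 5) (nat_lit 361) (nat_lit 335) (nat_lit 204)) (XT.nd (nat_lit 78) (nat_lit 532) (nat_lit 0) (XT.lf (nat_lit 0) (nat_lit 7345440285) (nat_lit 608) (nat_lit 2003852361) (nat_lit 76) (nat_lit 8427959712) (nat_lit 195) (nat_lit 5) (nat_lit 203) (nat_lit 5) (nat_lit 196) (nat_lit 5) (nat_lit 362) (nat_lit 335) (nat_lit 203)) (XT.lf (nat_lit 0) (nat_lit 7695310311) (nat_lit 532) (nat_lit 2084605130) (nat_lit 608) (nat_lit 8296493501) (nat_lit 188) (nat_lit 5) (nat_lit 195) (nat_lit 5) (nat_lit 196) (nat_lit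 5) (nat_lit 363) (nat_lit 335) (nat_lit 202)))) (XT.nd (nat_lit 156) (nat_lit 608) (nat_lit 0) (XT.nd (nat_lit 78) (nat_lit 456) (nat_lit 0) (XT.lf (nat_lit 0) (nat_lit 12350310194) (nat_lit 608) (nat_lit 719838151) (nat_lit 76) (nat_lit 5312509641) (nat_lit 188) (nat_lit 5) (nat_lit 196) (nat_lit 5) (nat_lit 189) (nat_lit 5) (nat_lit 364) (nat_lit 335) (nat_lit 201)) (XT.lf (nat_lit 0) (nat_lit 9383690867) (nat_lit 456) (nat_lit 5715803193) (nat_lit 532) (nat_lit 3595554322) (nat_lit 182) (nat_lit 5) (nat_lit 188) (nat_lit 5) (nat_lit 189) (nat_lit 5) (nat_lit 365) (nat_lit 335) (nat_lit 200))) (XT.nd (nat_lit 78) (nat_lit 76) (nat_lit 0) (XT.lf (nat_lit 0) (nat_lit 775472550) (nat_lit 532) (nat_lit 17179345724) (nat_lit 608) (nat_lit 1061286348) (nat_lit 175) (nat_lit 5) (nat_lit 182) (nat_lit 5) (nat_lit 183) (nat_lit 5) (nat_lit 366) (nat_lit 335) (nat_lit 199)) (XT.lf (nat_lit 0) (nat_lit 1661404191)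 (nat_lit 608) (nat_lit 8070890658) (nat_lit 76) (nat_lit 9609776202) (nat_lit 174) (nat_lit 5) (nat_lit 182) (nat_lit 5) (nat_lit 175) (nat_lit 5) (nat_lit 367) (nat_lit 335) (nat_lit 198))))) (XT.nd (nat_lit 234) (nat_lit 912) (nat_lit 0) (XT.nd (nat_lit 78) (nat_lit 456) (nat_lit 0) (XT.lf (nat_lit 0) (nat_lit 2430883092) (nat_lit 456) (nat_lit 2028260498) (nat_lit 532) (nat_lit 15217920411) (nat_lit 168) (nat_lit 5) (nat_lit 174) (nat_lit 5) (nat_lit 175) (nat_lit 5) (nat_lit 368) (nat_lit 335) (nat_lit 197)) (XT.nd (nat_lit 78) (nat_lit 456) (nat_lit 0) (XT.lf (nat_lit 0) (nat_lit 7471378927) (nat_lit 532) (nat_lit 6674229135) (nat_lit 76) (nat_lit 5872585386) (nat_lit 168) (nat_lit 5) (nat_lit 175) (nat_lit 5) (nat_lit 169) (nat_lit 5) (nat_lit 369) (nat_lit 335) (nat_lit 196)) (XT.lf (nat_lit 0) (nat_lit 4268248321) (nat_lit 456) (nat_lit 6358568042) (nat_lit 532) (nat_lit 9741158880) (nat_lit 162)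 (nat_lit 5) (nat_lit 168) (nat_lit 5) (nat_lit 169) (nat_lit 5) (nat_lit 370) (nat_lit 335) (nat_lit 195)))) (XT.nd (nat_lit 156) (nat_lit 532) (nat_lit 0) (XT.nd (nat_lit 78) (nat_lit 380) (nat_lit 0) (XT.lf (nat_lit 0) (nat_lit 13952813899) (nat_lit 532) (nat_lit 5077032843) (nat_lit 76) (nat_lit 1696130254) (nat_lit 162) (nat_lit 5) (nat_lit 169) (nat_lit 5) (nat_lit 163) (nat_lit 5) (nat_lit 371) (nat_lit 335) (nat_lit 194)) (XT.lf (nat_lit 0) (nat_lit 6327167046) (nat_lit 380) (nat_lit 11167294329) (nat_lit 456) (nat_lit 3596784641) (nat_lit 157) (nat_lit 5) (nat_lit 162) (nat_lit 5) (nat_lit 163) (nat_lit 5) (nat_lit 372) (nat_lit 335) (nat_lit 193))) (XT.nd (nat_lit 78) (nat_lit 532) (nat_lit 0) (XT.lf (nat_lit 0) (nat_lit 18167977368) (nat_lit 380) (nat_lit 3017880390) (nat_lit 456) (nat_lit 280313581) (nat_lit 157) (nat_lit 5) (nat_lit 162) (nat_lit 5) (nat_lit 163) (nat_lit 5) (nat_lit 373) (nat_lit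 335) (nat_lit 192)) (XT.lf (nat_lit 0) (nat_lit 3202683728) (nat_lit 532) (nat_lit 13261289385) (nat_lit 76) (nat_lit 5383623488) (nat_lit 150) (nat_lit 5) (nat_lit 157) (nat_lit 5) (nat_lit 151) (nat_lit 5) (nat_lit 374) (nat_lit 335) (nat_lit 191))))))))
noncomputable def xc187 : XT := (XT.nd (nat_lit 2106) (nat_lit 2660) (nat_lit 0) (XT.nd (nat_lit 1014) (nat_lit 2356) (nat_lit 0) (XT.nd (nat_lit 468) (nat_lit 1368) (nat_lit 0) (XT.nd (nat_lit 234) (nat_lit 380) (nat_lit 0) (XT.nd (nat_lit 78) (nat_lit 760) (nat_lit 0) (XT.lf (nat_lit 0) (nat_lit 6840545658) (nat_lit 532) (nat_lit 1387079240) (nat_lit 76) (nat_lit 14011079144) (nat_lit 150) (nat_lit 5) (nat_lit 157) (nat_lit 5) (nat_lit 151) (nat_lit 5) (nat_lit 375) (nat_lit 335) (nat_lit 190)) (XT.nd (nat_lit 78) (nat_lit 380) (nat_lit 0) (XT.lf (nat_lit 0) (nat_lit 10689963287) (nat_lit 456) (nat_lit 11592397627) (nat_lit 76) (nat_lit 356114056) (nat_lit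 145) (nat_lit 5) (nat_lit 151) (nat_lit 5) (nat_lit 146) (nat_lit 5) (nat_lit 376) (nat_lit 335) (nat_lit 189)) (XT.lf (nat_lit 0) (nat_lit 754557847) (nat_lit 380) (nat_lit 13995982303) (nat_lit 456) (nat_lit 8296831352) (nat_lit 140) (nat_lit 5) (nat_lit 145) (nat_lit 5) (nat_lit 146) (nat_lit 5) (nat_lit 377) (nat_lit 335) (nat_lit 188)))) (XT.nd (nat_lit 78) (nat_lit 380) (nat_lit 0) (XT.lf (nat_lit 0) (nat_lit 13700237477) (nat_lit 380) (nat_lit 5342693337) (nat_lit 456) (nat_lit 4422306914) (nat_lit 140) (nat_lit 5) (nat_lit 145) (nat_lit 5) (nat_lit 146) (nat_lit 5) (nat_lit 378) (nat_lit 335) (nat_lit 187)) (XT.nd (nat_lit 78) (nat_lit 76) (nat_lit 0) (XT.lf (nat_lit 0) (nat_lit 3156693876) (nat_lit 304) (nat_lit 20365183013) (nat_lit 380) (nat_lit 372032158) (nat_lit 136) (nat_lit 5) (nat_lit 140) (nat_lit 5) (nat_lit 141) (nat_lit 5) (nat_lit 379) (nat_lit 335) (nat_lit 186)) (XT.lf (nat_lit 0)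 (nat_lit 3871249355) (nat_lit 380) (nat_lit 7765951570) (nat_lit 76) (nat_lit 12692776920) (nat_lit 135) (nat_lit 5) (nat_lit 140) (nat_lit 5) (nat_lit 136) (nat_lit 5) (nat_lit 380) (nat_lit 335) (nat_lit 185))))) (XT.nd (nat_lit 234) (nat_lit 684) (nat_lit 0) (XT.nd (nat_lit 78) (nat_lit 304) (nat_lit 0) (XT.lf (nat_lit 0) (nat_lit 5692843406) (nat_lit 380) (nat_lit 2589594359) (nat_lit 456) (nat_lit 16495140255) (nat_lit 130) (nat_lit 5) (nat_lit 135) (nat_lit 5) (nat_lit 136) (nat_lit 5) (nat_lit 381) (nat_lit 335) (nat_lit 184)) (XT.nd (nat_lit 78) (nat_lit 304) (nat_lit 0) (XT.lf (nat_lit 0) (nat_lit 12963294032) (nat_lit 456) (nat_lit 5596218681) (nat_lit 76) (nat_lit 6674975844) (nat_lit 130) (nat_lit 5) (nat_lit 136) (nat_lit 5) (nat_lit 131) (nat_lit 5) (nat_lit 382) (nat_lit 335) (nat_lit 183)) (XT.lf (nat_lit 0) (nat_lit 8426919933) (nat_lit 304) (nat_lit 9457938542) (nat_lit 380) (nat_lit 7817241717)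 (nat_lit 126) (nat_lit 5) (nat_lit 130) (nat_lit 5) (nat_lit 131) (nat_lit 5) (nat_lit 383) (nat_lit 335) (nat_lit 182)))) (XT.nd (nat_lit 156) (nat_lit 304) (nat_lit 0) (XT.nd (nat_lit 78) (nat_lit 380) (nat_lit 0) (XT.lf (nat_lit 0) (nat_lit 22976723491) (nat_lit 304) (nat_lit 27596649) (nat_lit 380) (nat_lit 3177914718) (nat_lit 126) (nat_lit 5) (nat_lit 130) (nat_lit 5) (nat_lit 131) (nat_lit 5) (nat_lit 384) (nat_lit 335) (nat_lit 181)) (XT.lf (nat_lit 0) (nat_lit 1767958678) (nat_lit 380) (nat_lit 15281125286) (nat_lit 76) (nat_lit 9621272095) (nat_lit 121) (nat_lit 5) (nat_lit 126) (nat_lit 5) (nat_lit 122) (nat_lit 5) (nat_lit 385) (nat_lit 335) (nat_lit 180))) (XT.nd (nat_lit 78) (nat_lit 304) (nat_lit 0) (XT.lf (nat_lit 0) (nat_lit 6825230900) (nat_lit 380) (nat_lit 725373691) (nat_lit 76) (nat_lit 19620767505) (nat_lit 121) (nat_lit 5) (nat_lit 126) (nat_lit 5) (nat_lit 122) (nat_lit 5) (nat_lit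 386) (nat_lit 335) (nat_lit 179)) (XT.lf (nat_lit 0) (nat_lit 12190943697) (nat_lit 380) (nat_lit 13163839222) (nat_lit 76) (nat_lit 2327935970) (nat_lit 117) (nat_lit 5) (nat_lit 122) (nat_lit 5) (nat_lit 118) (nat_lit 5) (nat_lit 387) (nat_lit 335) (nat_lit 178)))))) (XT.nd (nat_lit 546) (nat_lit 1140) (nat_lit 0) (XT.nd (nat_lit 234) (nat_lit 532) (nat_lit 0) (XT.nd (nat_lit 78) (nat_lit 380) (nat_lit 0) (XT.lf (nat_lit 0) (nat_lit 1981472273) (nat_lit 304) (nat_lit 15831534453) (nat_lit 380) (nat_lit 10393539885) (nat_lit 113) (nat_lit 5) (nat_lit 117) (nat_lit 5) (nat_lit 118) (nat_lit 5) (nat_lit 388) (nat_lit 335) (nat_lit 177)) (XT.nd (nat_lit 78) (nat_lit 380) (nat_lit 0) (XT.lf (nat_lit 0) (nat_lit 17842566166) (nat_lit 304) (nat_lit 5888359002) (nat_lit 380) (nat_lit 5011350027) (nat_lit 113) (nat_lit 5) (nat_lit 117) (nat_lit 5) (nat_lit 118) (nat_lit 5) (nat_lit 389) (nat_lit 335) (nat_lit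 176)) (XT.lf (nat_lit 0) (nat_lit 606400583) (nat_lit 380) (nat_lit 24366030577) (nat_lit 76) (nat_lit 4318958231) (nat_lit 108) (nat_lit 5) (nat_lit 113) (nat_lit 5) (nat_lit 109) (nat_lit 5) (nat_lit 390) (nat_lit 335) (nat_lit 175)))) (XT.nd (nat_lit 156) (nat_lit 228) (nat_lit 0) (XT.nd (nat_lit 78) (nat_lit 304) (nat_lit 0) (XT.lf (nat_lit 0) (nat_lit 6455850564) (nat_lit 380) (nat_lit 8522422722) (nat_lit 76) (nat_lit 14872300186) (nat_lit 108) (nat_lit 5) (nat_lit 113) (nat_lit 5) (nat_lit 109) (nat_lit 5) (nat_lit 391) (nat_lit 335) (nat_lit 174)) (XT.lf (nat_lit 0) (nat_lit 7943388705) (nat_lit 304) (nat_lit 4608348162) (nat_lit 380) (nat_lit 17872669256) (nat_lit 104) (nat_lit 5) (nat_lit 108) (nat_lit 5) (nat_lit 109) (nat_lit 5) (nat_lit 392) (nat_lit 335) (nat_lit 173))) (XT.nd (nat_lit 78) (nat_lit 228) (nat_lit 0) (XT.lf (nat_lit 0) (nat_lit 18970436174) (nat_lit 380) (nat_lit 6002387089)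 (nat_lit 76) (nat_lit 6038433980) (nat_lit 104) (nat_lit 5) (nat_lit 109) (nat_lit 5) (nat_lit 105) (nat_lit 5) (nat_lit 393) (nat_lit 335) (nat_lit 172)) (XT.lf (nat_lit 0) (nat_lit 11134318834) (nat_lit 228) (nat_lit 14594840850) (nat_lit 304) (nat_lit 5882131851) (nat_lit 101) (nat_lit 5) (nat_lit 104) (nat_lit 5) (nat_lit 105) (nat_lit 5) (nat_lit 394) (nat_lit 335) (nat_lit 171))))) (XT.nd (nat_lit 234) (nat_lit 760) (nat_lit 0) (XT.nd (nat_lit 78) (nat_lit 304) (nat_lit 0) (XT.lf (nat_lit 0) (nat_lit 508358350) (nat_lit 304) (nat_lit 3332327498) (nat_lit 76) (nat_lit 28386828155) (nat_lit 100) (nat_lit 5) (nat_lit 104) (nat_lit 5) (nat_lit 101) (nat_lit 5) (nat_lit 395) (nat_lit 335) (nat_lit 170)) (XT.nd (nat_lit 78) (nat_lit 0) (nat_lit 0) (XT.lf (nat_lit 0) (nat_lit 7178622063) (nat_lit 380) (nat_lit 18383414121) (nat_lit 76) (nat_lit 7292252684) (nat_lit 96) (nat_lit 5) (nat_lit 101) (nat_lit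 5) (nat_lit 97) (nat_lit 5) (nat_lit 396) (nat_lit 335) (nat_lit 169)) (XT.lf (nat_lit 0) (nat_lit 14116030590) (nat_lit 380) (nat_lit 668504605) (nat_lit 76) (nat_lit 18713322042) (nat_lit 96) (nat_lit 5) (nat_lit 101) (nat_lit 5) (nat_lit 97) (nat_lit 5) (nat_lit 397) (nat_lit 335) (nat_lit 168)))) (XT.nd (nat_lit 156) (nat_lit 304) (nat_lit 0) (XT.nd (nat_lit 78) (nat_lit 228) (nat_lit 0) (XT.lf (nat_lit 0) (nat_lit 17919992222) (nat_lit 228) (nat_lit 3508999085) (nat_lit 304) (nat_lit 12726719780) (nat_lit 93) (nat_lit 5) (nat_lit 96) (nat_lit 5) (nat_lit 97) (nat_lit 5) (nat_lit 398) (nat_lit 335) (nat_lit 167)) (XT.lf (nat_lit 0) (nat_lit 2204198685) (nat_lit 228) (nat_lit 26858270786) (nat_lit 304) (nat_lit 5767798507) (nat_lit 90) (nat_lit 5) (nat_lit 93) (nat_lit 5) (nat_lit 94) (nat_lit 5) (nat_lit 399) (nat_lit 335) (nat_lit 166))) (XT.nd (nat_lit 78) (nat_lit 228) (nat_lit 0) (XT.lf (nat_lit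 0) (nat_lit 1568122233) (nat_lit 304) (nat_lit 14047444747) (nat_lit 76) (nat_lit 19903225650) (nat_lit 89) (nat_lit 5) (nat_lit 93) (nat_lit 5) (nat_lit 90) (nat_lit 5) (nat_lit 400) (nat_lit 335) (nat_lit 165)) (XT.lf (nat_lit 0) (nat_lit 5124032280) (nat_lit 228) (nat_lit 3928789412) (nat_lit 304) (nat_lit 27172100455) (nat_lit 86) (nat_lit 5) (nat_lit 89) (nat_lit 5) (nat_lit 90) (nat_lit 5) (nat_lit 401) (nat_lit 335) (nat_lit 164))))))) (XT.nd (nat_lit 1014) (nat_lit 1292) (nat_lit 0) (XT.nd (nat_lit 468) (nat_lit 684) (nat_lit 0) (XT.nd (nat_lit 234) (nat_lit 456) (nat_lit 0) (XT.nd (nat_lit 78) (nat_lit 228) (nat_lit 0) (XT.lf (nat_lit 0) (nat_lit 16978673794) (nat_lit 304) (nat_lit 11876143555) (nat_lit 76) (nat_lit 8090920994) (nat_lit 86) (nat_lit 5) (nat_lit 90) (nat_lit 5) (nat_lit 87) (nat_lit 5) (nat_lit 402) (nat_lit 335) (nat_lit 163)) (XT.nd (nat_lit 78) (nat_lit 0) (nat_lit 0) (XT.lf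 (nat_lit 0) (nat_lit 8036047992) (nat_lit 228) (nat_lit 17217944245) (nat_lit 304) (nat_lit 12430837175) (nat_lit 83) (nat_lit 5) (nat_lit 86) (nat_lit 5) (nat_lit 87) (nat_lit 5) (nat_lit 403) (nat_lit 335) (nat_lit 162)) (XT.lf (nat_lit 0) (nat_lit 28781914788) (nat_lit 228) (nat_lit 5111186814) (nat_lit 304) (nat_lit 4549526749) (nat_lit 83) (nat_lit 5) (nat_lit 86) (nat_lit 5) (nat_lit 87) (nat_lit 5) (nat_lit 404) (nat_lit 335) (nat_lit 161)))) (XT.nd (nat_lit 78) (nat_lit 228) (nat_lit 0) (XT.lf (nat_lit 0) (nat_lit 3673114018) (nat_lit 228) (nat_lit 28188844058) (nat_lit 76) (nat_lit 7354939602) (nat_lit 80) (nat_lit 5) (nat_lit 83) (nat_lit 5) (nat_lit 81) (nat_lit 5) (nat_lit 405) (nat_lit 335) (nat_lit 160)) (XT.nd (nat_lit 78) (nat_lit 228) (nat_lit 0) (XT.lf (nat_lit 0) (nat_lit 12195842088) (nat_lit 228) (nat_lit 7579618385) (nat_lit 76) (nat_lit 20233238781) (nat_lit 80) (nat_lit 5) (nat_lit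 83) (nat_lit 5) (nat_lit 81) (nat_lit 5) (nat_lit 406) (nat_lit 335) (nat_lit 159)) (XT.lf (nat_lit 0) (nat_lit 13912520461) (nat_lit 228) (nat_lit 7191314872) (nat_lit 304) (nat_lit 19716533003) (nat_lit 77) (nat_lit 5) (nat_lit 80) (nat_lit 5) (nat_lit 81) (nat_lit 5) (nat_lit 407) (nat_lit 335) (nat_lit 158))))) (XT.nd (nat_lit 234) (nat_lit 456) (nat_lit 0) (XT.nd (nat_lit 78) (nat_lit 228) (nat_lit 0) (XT.lf (nat_lit 0) (nat_lit 30407711306) (nat_lit 304) (nat_lit 5512396979) (nat_lit 76) (nat_lit 5732420847) (nat_lit 77) (nat_lit 5) (nat_lit 81) (nat_lit 5) (nat_lit 78) (nat_lit 5) (nat_lit 408) (nat_lit 335) (nat_lit 157)) (XT.nd (nat_lit 78) (nat_lit 76) (nat_lit 0) (XT.lf (nat_lit 0) (nat_lit 16774367066) (nat_lit 152) (nat_lit 23444780826) (nat_lit 228) (nat_lit 2283654431) (nat_lit 75) (nat_lit 5) (nat_lit 77) (nat_lit 5) (nat_lit 78) (nat_lit 5) (nat_lit 409) (nat_lit 335) (nat_lit 156)) (XT.lf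 (nat_lit 0) (nat_lit 6863021978) (nat_lit 228) (nat_lit 3608196992) (nat_lit 76) (nat_lit 32903795628) (nat_lit 74) (nat_lit 5) (nat_lit 77) (nat_lit 5) (nat_lit 75) (nat_lit 5) (nat_lit 410) (nat_lit 335) (nat_lit 155)))) (XT.nd (nat_lit 156) (nat_lit 228) (nat_lit 0) (XT.nd (nat_lit 78) (nat_lit 0) (nat_lit 0) (XT.lf (nat_lit 0) (nat_lit 16451890141) (nat_lit 304) (nat_lit 24769458856) (nat_lit 76) (nat_lit 3044956037) (nat_lit 71) (nat_lit 5) (nat_lit 75) (nat_lit 5) (nat_lit 72) (nat_lit 5) (nat_lit 411) (nat_lit 335) (nat_lit 154)) (XT.lf (nat_lit 0) (nat_lit 26465049066) (nat_lit 304) (nat_lit 1924796227) (nat_lit 76) (nat_lit 16790390951) (nat_lit 71) (nat_lit 5) (nat_lit 75) (nat_lit 5) (nat_lit 72) (nat_lit 5) (nat_lit 412) (nat_lit 335) (nat_lit 153))) (XT.nd (nat_lit 78) (nat_lit 76) (nat_lit 0) (XT.lf (nat_lit 0) (nat_lit 22028732134) (nat_lit 152) (nat_lit 14957889146) (nat_lit 228) (nat_lit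 9128724332) (nat_lit 69) (nat_lit 5) (nat_lit 71) (nat_lit 5) (nat_lit 72) (nat_lit 5) (nat_lit 413) (nat_lit 335) (nat_lit 152)) (XT.lf (nat_lit 0) (nat_lit 746693518) (nat_lit 228) (nat_lit 351306216) (nat_lit 76) (nat_lit 45979817168) (nat_lit 68) (nat_lit 5) (nat_lit 71) (nat_lit 5) (nat_lit 69) (nat_lit 5) (nat_lit 414) (nat_lit 335) (nat_lit 151)))))) (XT.nd (nat_lit 546) (nat_lit 532) (nat_lit 0) (XT.nd (nat_lit 234) (nat_lit 380) (nat_lit 0) (XT.nd (nat_lit 78) (nat_lit 152) (nat_lit 0) (XT.lf (nat_lit 0) (nat_lit 11096441524) (nat_lit 304) (nat_lit 23712220993) (nat_lit 76) (nat_lit 13246942644) (nat_lit 65) (nat_lit 5) (nat_lit 69) (nat_lit 5) (nat_lit 66) (nat_lit 5) (nat_lit 415) (nat_lit 335) (nat_lit 150)) (XT.nd (nat_lit 78) (nat_lit 0) (nat_lit 0) (XT.lf (nat_lit 0) (nat_lit 720463544) (nat_lit 152) (nat_lit 21054004772) (nat_lit 228) (nat_lit 27287725855) (nat_lit 63) (nat_lit 5) (nat_lit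 65) (nat_lit 5) (nat_lit 66) (nat_lit 5) (nat_lit 416) (nat_lit 335) (nat_lit 149)) (XT.lf (nat_lit 0) (nat_lit 26366081597) (nat_lit 152) (nat_lit 6642653931) (nat_lit 228) (nat_lit 17083169005) (nat_lit 63) (nat_lit 5) (nat_lit 65) (nat_lit 5) (nat_lit 66) (nat_lit 5) (nat_lit 417) (nat_lit 335) (nat_lit 148)))) (XT.nd (nat_lit 156) (nat_lit 152) (nat_lit 0) (XT.nd (nat_lit 78) (nat_lit 76) (nat_lit 0) (XT.lf (nat_lit 0) (nat_lit 1574425459) (nat_lit 152) (nat_lit 43096104978) (nat_lit 228) (nat_lit 6479261431) (nat_lit 61) (nat_lit 5) (nat_lit 63) (nat_lit 5) (nat_lit 64) (nat_lit 5) (nat_lit 418) (nat_lit 335) (nat_lit 147)) (XT.lf (nat_lit 0) (nat_lit 4660335395) (nat_lit 228) (nat_lit 24229074635) (nat_lit 76) (nat_lit 23339597221) (nat_lit 60) (nat_lit 5) (nat_lit 63) (nat_lit 5) (nat_lit 61) (nat_lit 5) (nat_lit 419) (nat_lit 335) (nat_lit 146))) (XT.nd (nat_lit 78) (nat_lit 0) (nat_lit 0) (XT.lf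 (nat_lit 0) (nat_lit 1843569048) (nat_lit 152) (nat_lit 14174687676) (nat_lit 228) (nat_lit 37319987534) (nat_lit 58) (nat_lit 5) (nat_lit 60) (nat_lit 5) (nat_lit 61) (nat_lit 5) (nat_lit 420) (nat_lit 335) (nat_lit 145)) (XT.lf (nat_lit 0) (nat_lit 27970098778) (nat_lit 228) (nat_lit 25296090179) (nat_lit 76) (nat_lit 1206974507) (nat_lit 58) (nat_lit 5) (nat_lit 61) (nat_lit 5) (nat_lit 59) (nat_lit 5) (nat_lit 421) (nat_lit 335) (nat_lit 144))))) (XT.nd (nat_lit 234) (nat_lit 152) (nat_lit 0) (XT.nd (nat_lit 78) (nat_lit 228) (nat_lit 0) (XT.lf (nat_lit 0) (nat_lit 1573097886) (nat_lit 152) (nat_lit 38859620459) (nat_lit 228) (nat_lit 15204845794) (nat_lit 56) (nat_lit 5) (nat_lit 58) (nat_lit 5) (nat_lit 59) (nat_lit 5) (nat_lit 422) (nat_lit 335) (nat_lit 143)) (XT.nd (nat_lit 78) (nat_lit 228) (nat_lit 0) (XT.lf (nat_lit 0) (nat_lit 29761254722) (nat_lit 152) (nat_lit 23760200040) (nat_lit 228) (nat_lit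 3307875471) (nat_lit 56) (nat_lit 5) (nat_lit 58) (nat_lit 5) (nat_lit 59) (nat_lit 5) (nat_lit 423) (nat_lit 335) (nat_lit 142)) (XT.lf (nat_lit 0) (nat_lit 659532011) (nat_lit 152) (nat_lit 8115102342) (nat_lit 228) (nat_lit 49279539665) (nat_lit 53) (nat_lit 5) (nat_lit 55) (nat_lit 5) (nat_lit 56) (nat_lit 5) (nat_lit 424) (nat_lit 335) (nat_lit 141)))) (XT.nd (nat_lit 156) (nat_lit 152) (nat_lit 0) (XT.nd (nat_lit 78) (nat_lit 0) (nat_lit 0) (XT.lf (nat_lit 0) (nat_lit 21502944812) (nat_lit 228) (nat_lit 29651644919) (nat_lit 76) (nat_lit 8149697035) (nat_lit 53) (nat_lit 5) (nat_lit 56) (nat_lit 5) (nat_lit 54) (nat_lit 5) (nat_lit 425) (nat_lit 335) (nat_lit 140)) (XT.lf (nat_lit 0) (nat_lit 34690418115) (nat_lit 228) (nat_lit 1162109793) (nat_lit 76) (nat_lit 24737056068) (nat_lit 53) (nat_lit 5) (nat_lit 56) (nat_lit 5) (nat_lit 54) (nat_lit 5) (nat_lit 426) (nat_lit 335) (nat_lit 139))) (XT.nd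 (nat_lit 78) (nat_lit 0) (nat_lit 0) (XT.lf (nat_lit 0) (nat_lit 28737639319) (nat_lit 152) (nat_lit 19809174419) (nat_lit 228) (nat_lit 13358427893) (nat_lit 51) (nat_lit 5) (nat_lit 53) (nat_lit 5) (nat_lit 54) (nat_lit 5) (nat_lit 427) (nat_lit 335) (nat_lit 138)) (XT.lf (nat_lit 0) (nat_lit 59553007537) (nat_lit 152) (nat_lit 3274718927) (nat_lit 228) (nat_lit 432378251) (nat_lit 51) (nat_lit 5) (nat_lit 53) (nat_lit 5) (nat_lit 54) (nat_lit 5) (nat_lit 428) (nat_lit 335) (nat_lit 137))))))))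
noncomputable def xc188 : XT := (XT.nd (nat_lit 41106) (nat_lit 0) (nat_lit 7068) (XT.nd (nat_lit 40014) (nat_lit 0) (nat_lit 14060) (XT.nd (nat_lit 468) (nat_lit 152) (nat_lit 0) (XT.nd (nat_lit 234) (nat_lit 152) (nat_lit 0) (XT.nd (nat_lit 78) (nat_lit 152) (nat_lit 0) (XT.lf (nat_lit 0) (nat_lit 13023127531) (nat_lit 228) (nat_lit 37744330390) (nat_lit 76) (nat_lit 13872650325) (nat_lit 48) (nat_lit 5) (nat_lit 51) (nat_lit 5) (nat_lit 49) (nat_lit 5) (nat_lit 429) (nat_lit 335) (nat_lit 136)) (XT.nd (nat_lit 78) (nat_lit 152) (nat_lit 0) (XT.lf (nat_lit 0) (nat_lit 26940995766) (nat_lit 228) (nat_lit 7609847305) (nat_lit 76) (nat_lit 31508519169) (nat_lit 48) (nat_lit 5) (nat_lit 51) (nat_lit 5) (nat_lit 49) (nat_lit 5) (nat_lit 430) (nat_lit 335) (nat_lit 135)) (XT.lf (nat_lit 0) (nat_lit 23889882007) (nat_lit 152) (nat_lit 17613404574) (nat_lit 228) (nat_lit 26011101086) (nat_lit 46) (nat_lit 5)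 (nat_lit 48) (nat_lit 5) (nat_lit 49) (nat_lit 5) (nat_lit 431) (nat_lit 335) (nat_lit 134)))) (XT.nd (nat_lit 78) (nat_lit 152) (nat_lit 0) (XT.lf (nat_lit 0) (nat_lit 56485680385) (nat_lit 152) (nat_lit 90885697) (nat_lit 228) (nat_lit 12434274569) (nat_lit 46) (nat_lit 5) (nat_lit 48) (nat_lit 5) (nat_lit 49) (nat_lit 5) (nat_lit 432) (nat_lit 335) (nat_lit 133)) (XT.nd (nat_lit 78) (nat_lit 0) (nat_lit 0) (XT.lf (nat_lit 0) (nat_lit 1882630039) (nat_lit 152) (nat_lit 50845446215) (nat_lit 76) (nat_lit 17812773900) (nat_lit 44) (nat_lit 5) (nat_lit 46) (nat_lit 5) (nat_lit 45) (nat_lit 5) (nat_lit 433) (nat_lit 335) (nat_lit 132)) (XT.lf (nat_lit 0) (nat_lit 16505096380) (nat_lit 152) (nat_lit 19103729943) (nat_lit 76) (nat_lit 36500461497) (nat_lit 44) (nat_lit 5) (nat_lit 46) (nat_lit 5) (nat_lit 45) (nat_lit 5) (nat_lit 434) (nat_lit 335) (nat_lit 131))))) (XT.nd (nat_lit 39234) (nat_lit 0) (nat_lit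 15960) (XT.nd (nat_lit 78) (nat_lit 0) (nat_lit 0) (XT.lf (nat_lit 0) (nat_lit 13855918435) (nat_lit 152) (nat_lit 17840926839) (nat_lit 228) (nat_lit 42024015433) (nat_lit 42) (nat_lit 5) (nat_lit 44) (nat_lit 5) (nat_lit 45) (nat_lit 5) (nat_lit 435) (nat_lit 335) (nat_lit 130)) (XT.nd (nat_lit 39078) (nat_lit 0) (nat_lit 15960) (XT.lf (nat_lit 0) (nat_lit 47541016077) (nat_lit 228) (nat_lit 27190070299) (nat_lit 76) (nat_lit 643794664) (nat_lit 42) (nat_lit 5) (nat_lit 45) (nat_lit 5) (nat_lit 43) (nat_lit 4) (nat_lit 436) (nat_lit 335) (nat_lit 129)) (XT.lf (nat_lit 0) (nat_lit 781665116) (nat_lit 0) (nat_lit 781665116) (nat_lit 1140) (nat_lit 4496865524) (nat_lit 252) (nat_lit 5) (nat_lit 252) (nat_lit 3) (nat_lit 267) (nat_lit 3) (nat_lit 336) (nat_lit 336) (nat_lit 228)))) (XT.nd (nat_lit 156) (nat_lit 0) (nat_lit 76) (XT.nd (nat_lit 78) (nat_lit 0) (nat_lit 0) (XT.lf (nat_lit 0) (nat_lit 3667426635)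 (nat_lit 1140) (nat_lit 4792678129) (nat_lit 1216) (nat_lit 3827030518) (nat_lit 252) (nat_lit 5) (nat_lit 267) (nat_lit 3) (nat_lit 268) (nat_lit 5) (nat_lit 337) (nat_lit 336) (nat_lit 227)) (XT.lf (nat_lit 76) (nat_lit 1141906239) (nat_lit 0) (nat_lit 3091240446) (nat_lit 1216) (nat_lit 8225482358) (nat_lit 253) (nat_lit 5) (nat_lit 252) (nat_lit 5) (nat_lit 268) (nat_lit 5) (nat_lit 338) (nat_lit 336) (nat_lit 226))) (XT.nd (nat_lit 78) (nat_lit 0) (nat_lit 0) (XT.lf (nat_lit 0) (nat_lit 4870933044) (nat_lit 1140) (nat_lit 5315008541) (nat_lit 1216) (nat_lit 2447682514) (nat_lit 253) (nat_lit 5) (nat_lit 268) (nat_lit 5) (nat_lit 269) (nat_lit 5) (nat_lit 339) (nat_lit 336) (nat_lit 225)) (XT.lf (nat_lit 76) (nat_lit 842845513) (nat_lit 0) (nat_lit 4706994120) (nat_lit 1216) (nat_lit 7263378831) (nat_lit 254) (nat_lit 5) (nat_lit 253) (nat_lit 5) (nat_lit 269) (nat_lit 5) (nat_lit 340) (nat_lit 336)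 (nat_lit 224)))))) (XT.nd (nat_lit 546) (nat_lit 2052) (nat_lit 0) (XT.nd (nat_lit 234) (nat_lit 0) (nat_lit 76) (XT.nd (nat_lit 78) (nat_lit 0) (nat_lit 0) (XT.lf (nat_lit 0) (nat_lit 6296053168) (nat_lit 1140) (nat_lit 5721954139) (nat_lit 1216) (nat_lit 978793949) (nat_lit 254) (nat_lit 5) (nat_lit 269) (nat_lit 5) (nat_lit 270) (nat_lit 5) (nat_lit 341) (nat_lit 336) (nat_lit 223)) (XT.nd (nat_lit 78) (nat_lit 0) (nat_lit 0) (XT.lf (nat_lit 76) (nat_lit 670474996) (nat_lit 0) (nat_lit 6431437408) (nat_lit 1216) (nat_lit 6082869885) (nat_lit 255) (nat_lit 5) (nat_lit 254) (nat_lit 5) (nat_lit 270) (nat_lit 5) (nat_lit 342) (nat_lit 336) (nat_lit 222)) (XT.lf (nat_lit 76) (nat_lit 7362147006) (nat_lit 0) (nat_lit 612156758) (nat_lit 1216) (nat_lit 5402836583) (nat_lit 255) (nat_lit 5) (nat_lit 254) (nat_lit 5) (nat_lit 270) (nat_lit 5) (nat_lit 343) (nat_lit 336) (nat_lit 221)))) (XT.nd (nat_lit 156)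 (nat_lit 0) (nat_lit 76) (XT.nd (nat_lit 78) (nat_lit 0) (nat_lit 0) (XT.lf (nat_lit 76) (nat_lit 629809820) (nat_lit 0) (nat_lit 8285920714) (nat_lit 1216) (nat_lit 4658260745) (nat_lit 256) (nat_lit 5) (nat_lit 255) (nat_lit 5) (nat_lit 271) (nat_lit 5) (nat_lit 344) (nat_lit 336) (nat_lit 220)) (XT.lf (nat_lit 76) (nat_lit 7581127616) (nat_lit 0) (nat_lit 2356430007) (nat_lit 1216) (nat_lit 3837633203) (nat_lit 256) (nat_lit 5) (nat_lit 255) (nat_lit 5) (nat_lit 271) (nat_lit 5) (nat_lit 345) (nat_lit 336) (nat_lit 219))) (XT.nd (nat_lit 78) (nat_lit 0) (nat_lit 0) (XT.lf (nat_lit 76) (nat_lit 726544548) (nat_lit 0) (nat_lit 10292419706) (nat_lit 1216) (nat_lit 2962601945) (nat_lit 257) (nat_lit 5) (nat_lit 256) (nat_lit 5) (nat_lit 272) (nat_lit 5) (nat_lit 346) (nat_lit 336) (nat_lit 218)) (XT.lf (nat_lit 76) (nat_lit 7947911648) (nat_lit 0) (nat_lit 4256750605) (nat_lit 1216) (nat_lit 1987322466)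 (nat_lit 257) (nat_lit 5) (nat_lit 256) (nat_lit 5) (nat_lit 272) (nat_lit 5) (nat_lit 347) (nat_lit 336) (nat_lit 217))))) (XT.nd (nat_lit 234) (nat_lit 1064) (nat_lit 0) (XT.nd (nat_lit 78) (nat_lit 1216) (nat_lit 0) (XT.lf (nat_lit 76) (nat_lit 967046164) (nat_lit 0) (nat_lit 12473657608) (nat_lit 1216) (nat_lit 967575993) (nat_lit 258) (nat_lit 5) (nat_lit 257) (nat_lit 5) (nat_lit 273) (nat_lit 5) (nat_lit 348) (nat_lit 336) (nat_lit 216)) (XT.nd (nat_lit 78) (nat_lit 0) (nat_lit 76) (XT.lf (nat_lit 0) (nat_lit 173763271) (nat_lit 1216) (nat_lit 6160599085) (nat_lit 1292) (nat_lit 8293905715) (nat_lit 241) (nat_lit 5) (nat_lit 257) (nat_lit 5) (nat_lit 258) (nat_lit 5) (nat_lit 349) (nat_lit 336) (nat_lit 215)) (XT.lf (nat_lit 0) (nat_lit 1330146662) (nat_lit 1216) (nat_lit 13509650983) (nat_lit 1292) (nat_lit 14769985) (nat_lit 242) (nat_lit 5) (nat_lit 258) (nat_lit 5) (nat_lit 259) (nat_lit 5) (nat_lit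 350) (nat_lit 336) (nat_lit 214)))) (XT.nd (nat_lit 156) (nat_lit 1140) (nat_lit 0) (XT.nd (nat_lit 78) (nat_lit 0) (nat_lit 0) (XT.lf (nat_lit 0) (nat_lit 2634243446) (nat_lit 1216) (nat_lit 5957602974) (nat_lit 1292) (nat_lit 6492425448) (nat_lit 242) (nat_lit 5) (nat_lit 258) (nat_lit 5) (nat_lit 259) (nat_lit 5) (nat_lit 351) (nat_lit 336) (nat_lit 213)) (XT.lf (nat_lit 76) (nat_lit 1846984895) (nat_lit 0) (nat_lit 2136076782) (nat_lit 1292) (nat_lit 11337643766) (nat_lit 243) (nat_lit 5) (nat_lit 242) (nat_lit 5) (nat_lit 259) (nat_lit 5) (nat_lit 352) (nat_lit 336) (nat_lit 212))) (XT.nd (nat_lit 78) (nat_lit 1216) (nat_lit 0) (XT.lf (nat_lit 0) (nat_lit 5464606493) (nat_lit 1216) (nat_lit 5608918425) (nat_lit 76) (nat_lit 4487945231) (nat_lit 243) (nat_lit 5) (nat_lit 259) (nat_lit 5) (nat_lit 244) (nat_lit 5) (nat_lit 353) (nat_lit 336) (nat_lit 211)) (XT.lf (nat_lit 0) (nat_lit 2509605515) (nat_lit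 1216) (nat_lit 4514732314) (nat_lit 1292) (nat_lit 8784113574) (nat_lit 227) (nat_lit 5) (nat_lit 243) (nat_lit 5) (nat_lit 244) (nat_lit 5) (nat_lit 354) (nat_lit 336) (nat_lit 210))))))) (XT.nd (nat_lit 1014) (nat_lit 3040) (nat_lit 0) (XT.nd (nat_lit 468) (nat_lit 2052) (nat_lit 0) (XT.nd (nat_lit 234) (nat_lit 1292) (nat_lit 0) (XT.nd (nat_lit 78) (nat_lit 608) (nat_lit 0) (XT.lf (nat_lit 0) (nat_lit 8698321428) (nat_lit 1292) (nat_lit 5106884680) (nat_lit 76) (nat_lit 2255617819) (nat_lit 227) (nat_lit 5) (nat_lit 244) (nat_lit 5) (nat_lit 228) (nat_lit 5) (nat_lit 355) (nat_lit 336) (nat_lit 209)) (XT.nd (nat_lit 78) (nat_lit 0) (nat_lit 0) (XT.lf (nat_lit 0) (nat_lit 3341333282) (nat_lit 608) (nat_lit 7147059335) (nat_lit 684) (nat_lit 5830404444) (nat_lit 219) (nat_lit 5) (nat_lit 227) (nat_lit 5) (nat_lit 228) (nat_lit 5) (nat_lit 356) (nat_lit 336) (nat_lit 208)) (XT.lf (nat_lit 0) (nat_lit 12137778774)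 (nat_lit 608) (nat_lit 235229267) (nat_lit 684) (nat_lit 4210281404) (nat_lit 219) (nat_lit 5) (nat_lit 227) (nat_lit 5) (nat_lit 228) (nat_lit 5) (nat_lit 357) (nat_lit 336) (nat_lit 207)))) (XT.nd (nat_lit 78) (nat_lit 684) (nat_lit 0) (XT.lf (nat_lit 0) (nat_lit 4351193772) (nat_lit 608) (nat_lit 10060559984) (nat_lit 684) (nat_lit 2441040253) (nat_lit 211) (nat_lit 5) (nat_lit 219) (nat_lit 5) (nat_lit 220) (nat_lit 5) (nat_lit 358) (nat_lit 336) (nat_lit 206)) (XT.nd (nat_lit 78) (nat_lit 684) (nat_lit 0) (XT.lf (nat_lit 0) (nat_lit 13490708149) (nat_lit 608) (nat_lit 3057951998) (nat_lit 684) (nat_lit 580618626) (nat_lit 211) (nat_lit 5) (nat_lit 219) (nat_lit 5) (nat_lit 220) (nat_lit 5) (nat_lit 359) (nat_lit 336) (nat_lit 205)) (XT.lf (nat_lit 0) (nat_lit 1393751847) (nat_lit 684) (nat_lit 11876399166) (nat_lit 76) (nat_lit 4141000663) (nat_lit 202) (nat_lit 5) (nat_lit 211) (nat_lit 5) (nat_lit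 203) (nat_lit 5) (nat_lit 360) (nat_lit 336) (nat_lit 204))))) (XT.nd (nat_lit 234) (nat_lit 1520) (nat_lit 0) (XT.nd (nat_lit 78) (nat_lit 532) (nat_lit 0) (XT.lf (nat_lit 0) (nat_lit 3473261810) (nat_lit 684) (nat_lit 2688871237) (nat_lit 76) (nat_lit 11537452500) (nat_lit 202) (nat_lit 5) (nat_lit 211) (nat_lit 5) (nat_lit 203) (nat_lit 5) (nat_lit 361) (nat_lit 336) (nat_lit 203)) (XT.nd (nat_lit 78) (nat_lit 0) (nat_lit 0) (XT.lf (nat_lit 0) (nat_lit 5683754935) (nat_lit 608) (nat_lit 11107534458) (nat_lit 76) (nat_lit 1203329558) (nat_lit 195) (nat_lit 5) (nat_lit 203) (nat_lit 5) (nat_lit 196) (nat_lit 5) (nat_lit 362) (nat_lit 336) (nat_lit 202)) (XT.lf (nat_lit 0) (nat_lit 8039658863) (nat_lit 608) (nat_lit 1563393537) (nat_lit 76) (nat_lit 8693082401) (nat_lit 195) (nat_lit 5) (nat_lit 203) (nat_lit 5) (nat_lit 196) (nat_lit 5) (nat_lit 363) (nat_lit 336) (nat_lit 201)))) (XT.nd (nat_lit 156)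 (nat_lit 988) (nat_lit 0) (XT.nd (nat_lit 78) (nat_lit 0) (nat_lit 0) (XT.lf (nat_lit 0) (nat_lit 8421836423) (nat_lit 532) (nat_lit 2116294890) (nat_lit 608) (nat_lit 8066412270) (nat_lit 188) (nat_lit 5) (nat_lit 195) (nat_lit 5) (nat_lit 196) (nat_lit 5) (nat_lit 364) (nat_lit 336) (nat_lit 200)) (XT.lf (nat_lit 0) (nat_lit 13172387405) (nat_lit 608) (nat_lit 246746018) (nat_lit 76) (nat_lit 5501250397) (nat_lit 188) (nat_lit 5) (nat_lit 196) (nat_lit 5) (nat_lit 189) (nat_lit 5) (nat_lit 365) (nat_lit 336) (nat_lit 199))) (XT.nd (nat_lit 78) (nat_lit 532) (nat_lit 0) (XT.lf (nat_lit 0) (nat_lit 10155038996) (nat_lit 456) (nat_lit 5840563946) (nat_lit 532) (nat_lit 3246802328) (nat_lit 182) (nat_lit 5) (nat_lit 188) (nat_lit 5) (nat_lit 189) (nat_lit 5) (nat_lit 366) (nat_lit 336) (nat_lit 198)) (XT.lf (nat_lit 0) (nat_lit 1296689432) (nat_lit 532) (nat_lit 17632213507) (nat_lit 608) (nat_lit 644426624)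 (nat_lit 175) (nat_lit 5) (nat_lit 182) (nat_lit 5) (nat_lit 183) (nat_lit 5) (nat_lit 367) (nat_lit 336) (nat_lit 197)))))) (XT.nd (nat_lit 546) (nat_lit 1596) (nat_lit 0) (XT.nd (nat_lit 234) (nat_lit 912) (nat_lit 0) (XT.nd (nat_lit 78) (nat_lit 456) (nat_lit 0) (XT.lf (nat_lit 0) (nat_lit 2138375049) (nat_lit 608) (nat_lit 7820883650) (nat_lit 76) (nat_lit 9950076822) (nat_lit 174) (nat_lit 5) (nat_lit 182) (nat_lit 5) (nat_lit 175) (nat_lit 5) (nat_lit 368) (nat_lit 336) (nat_lit 196)) (XT.nd (nat_lit 78) (nat_lit 0) (nat_lit 0) (XT.lf (nat_lit 0) (nat_lit 2991118472) (nat_lit 456) (nat_lit 2021171826) (nat_lit 532) (nat_lit 15242326004) (nat_lit 168) (nat_lit 5) (nat_lit 174) (nat_lit 5) (nat_lit 175) (nat_lit 5) (nat_lit 369) (nat_lit 336) (nat_lit 195)) (XT.lf (nat_lit 0) (nat_lit 8103311991) (nat_lit 532) (nat_lit 6389586631) (nat_lit 76) (nat_lit 6113433629) (nat_lit 168) (nat_lit 5) (nat_lit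 175) (nat_lit 5) (nat_lit 169) (nat_lit 5) (nat_lit 370) (nat_lit 336) (nat_lit 194)))) (XT.nd (nat_lit 156) (nat_lit 456) (nat_lit 0) (XT.nd (nat_lit 78) (nat_lit 0) (nat_lit 0) (XT.lf (nat_lit 0) (nat_lit 4876411527) (nat_lit 456) (nat_lit 6469738762) (nat_lit 532) (nat_lit 9620680125) (nat_lit 162) (nat_lit 5) (nat_lit 168) (nat_lit 5) (nat_lit 169) (nat_lit 5) (nat_lit 371) (nat_lit 336) (nat_lit 193)) (XT.lf (nat_lit 0) (nat_lit 14761004595) (nat_lit 532) (nat_lit 4752125566) (nat_lit 76) (nat_lit 1822774652) (nat_lit 162) (nat_lit 5) (nat_lit 169) (nat_lit 5) (nat_lit 163) (nat_lit 5) (nat_lit 372) (nat_lit 336) (nat_lit 192))) (XT.nd (nat_lit 78) (nat_lit 76) (nat_lit 0) (XT.lf (nat_lit 0) (nat_lit 6989521710) (nat_lit 380) (nat_lit 11412574370) (nat_lit 456) (nat_lit 3310244743) (nat_lit 157) (nat_lit 5) (nat_lit 162) (nat_lit 5) (nat_lit 163) (nat_lit 5) (nat_lit 373) (nat_lit 336) (nat_lit 191))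 (XT.lf (nat_lit 0) (nat_lit 92393002) (nat_lit 456) (nat_lit 2927965774) (nat_lit 76) (nat_lit 19078467060) (nat_lit 156) (nat_lit 5) (nat_lit 162) (nat_lit 5) (nat_lit 157) (nat_lit 5) (nat_lit 374) (nat_lit 336) (nat_lit 190))))) (XT.nd (nat_lit 234) (nat_lit 760) (nat_lit 0) (XT.nd (nat_lit 78) (nat_lit 380) (nat_lit 0) (XT.lf (nat_lit 0) (nat_lit 3668641639) (nat_lit 532) (nat_lit 13186979771) (nat_lit 76) (nat_lit 5636161674) (nat_lit 150) (nat_lit 5) (nat_lit 157) (nat_lit 5) (nat_lit 151) (nat_lit 5) (nat_lit 375) (nat_lit 336) (nat_lit 189)) (XT.nd (nat_lit 78) (nat_lit 380) (nat_lit 0) (XT.lf (nat_lit 0) (nat_lit 7404866299) (nat_lit 532) (nat_lit 970295214) (nat_lit 76) (nat_lit 14519789656) (nat_lit 150) (nat_lit 5) (nat_lit 157) (nat_lit 5) (nat_lit 151) (nat_lit 5) (nat_lit 376) (nat_lit 336) (nat_lit 188)) (XT.lf (nat_lit 0) (nat_lit 11364640153) (nat_lit 456) (nat_lit 11476510084) (nat_lit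 76) (nat_lit 465722880) (nat_lit 145) (nat_lit 5) (nat_lit 151) (nat_lit 5) (nat_lit 146) (nat_lit 5) (nat_lit 377) (nat_lit 336) (nat_lit 187)))) (XT.nd (nat_lit 156) (nat_lit 380) (nat_lit 0) (XT.nd (nat_lit 78) (nat_lit 0) (nat_lit 0) (XT.lf (nat_lit 0) (nat_lit 1236308374) (nat_lit 380) (nat_lit 14304829193) (nat_lit 456) (nat_lit 8187079864) (nat_lit 140) (nat_lit 5) (nat_lit 145) (nat_lit 5) (nat_lit 146) (nat_lit 5) (nat_lit 378) (nat_lit 336) (nat_lit 186)) (XT.lf (nat_lit 0) (nat_lit 14556986146) (nat_lit 380) (nat_lit 5395175516) (nat_lit 456) (nat_lit 4206765997) (nat_lit 140) (nat_lit 5) (nat_lit 145) (nat_lit 5) (nat_lit 146) (nat_lit 5) (nat_lit 379) (nat_lit 336) (nat_lit 185))) (XT.nd (nat_lit 78) (nat_lit 76) (nat_lit 0) (XT.lf (nat_lit 0) (nat_lit 3701906697) (nat_lit 304) (nat_lit 20859063066) (nat_lit 380) (nat_lit 39628299) (nat_lit 136) (nat_lit 5) (nat_lit 140) (nat_lit 5) (nat_lit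 141) (nat_lit 5) (nat_lit 380) (nat_lit 336) (nat_lit 184)) (XT.lf (nat_lit 0) (nat_lit 4314435997) (nat_lit 380) (nat_lit 7554912928) (nat_lit 76) (nat_lit 13180598806) (nat_lit 135) (nat_lit 5) (nat_lit 140) (nat_lit 5) (nat_lit 136) (nat_lit 5) (nat_lit 381) (nat_lit 336) (nat_lit 183))))))))
noncomputable def xc189 : XT := (XT.nd (nat_lit 2106) (nat_lit 2508) (nat_lit 0) (XT.nd (nat_lit 1014) (nat_lit 2052) (nat_lit 0) (XT.nd (nat_lit 468) (nat_lit 1292) (nat_lit 0) (XT.nd (nat_lit 234) (nat_lit 380) (nat_lit 0) (XT.nd (nat_lit 78) (nat_lit 304) (nat_lit 0) (XT.lf (nat_lit 0) (nat_lit 6303292788) (nat_lit 380) (nat_lit 2549367887) (nat_lit 456) (nat_lit 16658477653) (nat_lit 130) (nat_lit 5) (nat_lit 135) (nat_lit 5) (nat_lit 136) (nat_lit 5) (nat_lit 382) (nat_lit 336) (nat_lit 182)) (XT.nd (nat_lit 78) (nat_lit 304) (nat_lit 0) (XT.lf (nat_lit 0) (nat_lit 13665671729) (nat_lit 456) (nat_lit 5328864807)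 (nat_lit 76) (nat_lit 6987471109) (nat_lit 130) (nat_lit 5) (nat_lit 136) (nat_lit 5) (nat_lit 131) (nat_lit 5) (nat_lit 383) (nat_lit 336) (nat_lit 181)) (XT.lf (nat_lit 0) (nat_lit 9110700902) (nat_lit 304) (nat_lit 9619194530) (nat_lit 380) (nat_lit 7733905066) (nat_lit 126) (nat_lit 5) (nat_lit 130) (nat_lit 5) (nat_lit 131) (nat_lit 5) (nat_lit 384) (nat_lit 336) (nat_lit 180)))) (XT.nd (nat_lit 78) (nat_lit 380) (nat_lit 0) (XT.lf (nat_lit 0) (nat_lit 23994825615) (nat_lit 380) (nat_lit 2875035808) (nat_lit 76) (nat_lit 88724387) (nat_lit 126) (nat_lit 5) (nat_lit 131) (nat_lit 5) (nat_lit 127) (nat_lit 5) (nat_lit 385) (nat_lit 336) (nat_lit 179)) (XT.nd (nat_lit 78) (nat_lit 0) (nat_lit 0) (XT.lf (nat_lit 0) (nat_lit 2119978081) (nat_lit 380) (nat_lit 15311322350) (nat_lit 76) (nat_lit 10030098087) (nat_lit 121) (nat_lit 5) (nat_lit 126) (nat_lit 5) (nat_lit 122) (nat_lit 5) (nat_lit 386) (nat_lit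 336) (nat_lit 178)) (XT.lf (nat_lit 0) (nat_lit 7320260296) (nat_lit 380) (nat_lit 331371121) (nat_lit 76) (nat_lit 20326077743) (nat_lit 121) (nat_lit 5) (nat_lit 126) (nat_lit 5) (nat_lit 122) (nat_lit 5) (nat_lit 387) (nat_lit 336) (nat_lit 177))))) (XT.nd (nat_lit 234) (nat_lit 684) (nat_lit 0) (XT.nd (nat_lit 78) (nat_lit 304) (nat_lit 0) (XT.lf (nat_lit 0) (nat_lit 12843657680) (nat_lit 380) (nat_lit 13139610689) (nat_lit 76) (nat_lit 2521229386) (nat_lit 117) (nat_lit 5) (nat_lit 122) (nat_lit 5) (nat_lit 118) (nat_lit 5) (nat_lit 388) (nat_lit 336) (nat_lit 176)) (XT.nd (nat_lit 78) (nat_lit 0) (nat_lit 0) (XT.lf (nat_lit 0) (nat_lit 2455950898) (nat_lit 304) (nat_lit 16174062460) (nat_lit 380) (nat_lit 10414160741) (nat_lit 113) (nat_lit 5) (nat_lit 117) (nat_lit 5) (nat_lit 118) (nat_lit 5) (nat_lit 389) (nat_lit 336) (nat_lit 175)) (XT.lf (nat_lit 0) (nat_lit 18780789226) (nat_lit 304) (nat_lit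 5936448581) (nat_lit 380) (nat_lit 4878986313) (nat_lit 113) (nat_lit 5) (nat_lit 117) (nat_lit 5) (nat_lit 118) (nat_lit 5) (nat_lit 390) (nat_lit 336) (nat_lit 174)))) (XT.nd (nat_lit 156) (nat_lit 304) (nat_lit 0) (XT.nd (nat_lit 78) (nat_lit 0) (nat_lit 0) (XT.lf (nat_lit 0) (nat_lit 898859960) (nat_lit 380) (nat_lit 24685460594) (nat_lit 76) (nat_lit 4577499754) (nat_lit 108) (nat_lit 5) (nat_lit 113) (nat_lit 5) (nat_lit 109) (nat_lit 5) (nat_lit 391) (nat_lit 336) (nat_lit 173)) (XT.lf (nat_lit 0) (nat_lit 6915805071) (nat_lit 380) (nat_lit 8378531422) (nat_lit 76) (nat_lit 15443685479) (nat_lit 108) (nat_lit 5) (nat_lit 113) (nat_lit 5) (nat_lit 109) (nat_lit 5) (nat_lit 392) (nat_lit 336) (nat_lit 172))) (XT.nd (nat_lit 78) (nat_lit 0) (nat_lit 0) (XT.lf (nat_lit 0) (nat_lit 8577337054) (nat_lit 304) (nat_lit 4613278408) (nat_lit 380) (nat_lit 18138575054) (nat_lit 104) (nat_lit 5) (nat_lit 108)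 (nat_lit 5) (nat_lit 109) (nat_lit 5) (nat_lit 393) (nat_lit 336) (nat_lit 171)) (XT.lf (nat_lit 0) (nat_lit 19795479400) (nat_lit 380) (nat_lit 5791863631) (nat_lit 76) (nat_lit 6346498301) (nat_lit 104) (nat_lit 5) (nat_lit 109) (nat_lit 5) (nat_lit 105) (nat_lit 5) (nat_lit 394) (nat_lit 336) (nat_lit 170)))))) (XT.nd (nat_lit 546) (nat_lit 912) (nat_lit 0) (XT.nd (nat_lit 234) (nat_lit 532) (nat_lit 0) (XT.nd (nat_lit 78) (nat_lit 380) (nat_lit 0) (XT.lf (nat_lit 0) (nat_lit 11855114106) (nat_lit 228) (nat_lit 14898114062) (nat_lit 304) (nat_lit 5798762785) (nat_lit 101) (nat_lit 5) (nat_lit 104) (nat_lit 5) (nat_lit 105) (nat_lit 5) (nat_lit 395) (nat_lit 336) (nat_lit 169)) (XT.nd (nat_lit 78) (nat_lit 304) (nat_lit 0) (XT.lf (nat_lit 0) (nat_lit 770951570) (nat_lit 304) (nat_lit 3051804739) (nat_lit 76) (nat_lit 29364093543) (nat_lit 100) (nat_lit 5) (nat_lit 104) (nat_lit 5) (nat_lit 101) (nat_lit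 5) (nat_lit 396) (nat_lit 336) (nat_lit 168)) (XT.lf (nat_lit 0) (nat_lit 7639019214) (nat_lit 380) (nat_lit 18552052701) (nat_lit 76) (nat_lit 7641427186) (nat_lit 96) (nat_lit 5) (nat_lit 101) (nat_lit 5) (nat_lit 97) (nat_lit 5) (nat_lit 397) (nat_lit 336) (nat_lit 167)))) (XT.nd (nat_lit 156) (nat_lit 304) (nat_lit 0) (XT.nd (nat_lit 78) (nat_lit 228) (nat_lit 0) (XT.lf (nat_lit 0) (nat_lit 14777412953) (nat_lit 380) (nat_lit 316847274) (nat_lit 76) (nat_lit 19401330365) (nat_lit 96) (nat_lit 5) (nat_lit 101) (nat_lit 5) (nat_lit 97) (nat_lit 5) (nat_lit 398) (nat_lit 336) (nat_lit 166)) (XT.lf (nat_lit 0) (nat_lit 18825660218) (nat_lit 228) (nat_lit 3480711201) (nat_lit 304) (nat_lit 12866912271) (nat_lit 93) (nat_lit 5) (nat_lit 96) (nat_lit 5) (nat_lit 97) (nat_lit 5) (nat_lit 399) (nat_lit 336) (nat_lit 165))) (XT.nd (nat_lit 78) (nat_lit 76) (nat_lit 0) (XT.lf (nat_lit 0) (nat_lit 2640542243) (nat_lit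 228) (nat_lit 27526286491) (nat_lit 304) (nat_lit 5701311158) (nat_lit 90) (nat_lit 5) (nat_lit 93) (nat_lit 5) (nat_lit 94) (nat_lit 5) (nat_lit 400) (nat_lit 336) (nat_lit 164)) (XT.lf (nat_lit 0) (nat_lit 1843173066) (nat_lit 304) (nat_lit 14104837703) (nat_lit 76) (nat_lit 20629447388) (nat_lit 89) (nat_lit 5) (nat_lit 93) (nat_lit 5) (nat_lit 90) (nat_lit 5) (nat_lit 401) (nat_lit 336) (nat_lit 163))))) (XT.nd (nat_lit 234) (nat_lit 456) (nat_lit 0) (XT.nd (nat_lit 78) (nat_lit 228) (nat_lit 0) (XT.lf (nat_lit 0) (nat_lit 5638214709) (nat_lit 228) (nat_lit 3911022791) (nat_lit 304) (nat_lit 27755631032) (nat_lit 86) (nat_lit 5) (nat_lit 89) (nat_lit 5) (nat_lit 90) (nat_lit 5) (nat_lit 402) (nat_lit 336) (nat_lit 162)) (XT.nd (nat_lit 78) (nat_lit 228) (nat_lit 0) (XT.lf (nat_lit 0) (nat_lit 17707582472) (nat_lit 304) (nat_lit 11877127882) (nat_lit 76) (nat_lit 8462758981) (nat_lit 86) (nat_lit 5)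 (nat_lit 90) (nat_lit 5) (nat_lit 87) (nat_lit 5) (nat_lit 403) (nat_lit 336) (nat_lit 161)) (XT.lf (nat_lit 0) (nat_lit 8628946078) (nat_lit 228) (nat_lit 17599201652) (nat_lit 304) (nat_lit 12580677383) (nat_lit 83) (nat_lit 5) (nat_lit 86) (nat_lit 5) (nat_lit 87) (nat_lit 5) (nat_lit 404) (nat_lit 336) (nat_lit 160)))) (XT.nd (nat_lit 156) (nat_lit 228) (nat_lit 0) (XT.nd (nat_lit 78) (nat_lit 228) (nat_lit 0) (XT.lf (nat_lit 0) (nat_lit 29986941791) (nat_lit 228) (nat_lit 5133181719) (nat_lit 304) (nat_lit 4469425262) (nat_lit 83) (nat_lit 5) (nat_lit 86) (nat_lit 5) (nat_lit 87) (nat_lit 5) (nat_lit 405) (nat_lit 336) (nat_lit 159)) (XT.lf (nat_lit 0) (nat_lit 3994053312) (nat_lit 228) (nat_lit 28686999739) (nat_lit 76) (nat_lit 7705980577) (nat_lit 80) (nat_lit 5) (nat_lit 83) (nat_lit 5) (nat_lit 81) (nat_lit 5) (nat_lit 406) (nat_lit 336) (nat_lit 158))) (XT.nd (nat_lit 78) (nat_lit 228) (nat_lit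 0) (XT.lf (nat_lit 0) (nat_lit 12766324996) (nat_lit 228) (nat_lit 7469618935) (nat_lit 76) (nat_lit 20966830884) (nat_lit 80) (nat_lit 5) (nat_lit 83) (nat_lit 5) (nat_lit 81) (nat_lit 5) (nat_lit 407) (nat_lit 336) (nat_lit 157)) (XT.lf (nat_lit 0) (nat_lit 14663976350) (nat_lit 228) (nat_lit 7274833625) (nat_lit 304) (nat_lit 20100067810) (nat_lit 77) (nat_lit 5) (nat_lit 80) (nat_lit 5) (nat_lit 81) (nat_lit 5) (nat_lit 408) (nat_lit 336) (nat_lit 156))))))) (XT.nd (nat_lit 1014) (nat_lit 1064) (nat_lit 0) (XT.nd (nat_lit 468) (nat_lit 836) (nat_lit 0) (XT.nd (nat_lit 234) (nat_lit 380) (nat_lit 0) (XT.nd (nat_lit 78) (nat_lit 228) (nat_lit 0) (XT.lf (nat_lit 0) (nat_lit 31517156790) (nat_lit 304) (nat_lit 5348729188) (nat_lit 76) (nat_lit 6030258123) (nat_lit 77) (nat_lit 5) (nat_lit 81) (nat_lit 5) (nat_lit 78) (nat_lit 5) (nat_lit 409) (nat_lit 336) (nat_lit 155)) (XT.nd (nat_lit 78) (nat_lit 76)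 (nat_lit 0) (XT.lf (nat_lit 0) (nat_lit 17603411898) (nat_lit 152) (nat_lit 24016912396) (nat_lit 228) (nat_lit 2151680857) (nat_lit 75) (nat_lit 5) (nat_lit 77) (nat_lit 5) (nat_lit 78) (nat_lit 5) (nat_lit 410) (nat_lit 336) (nat_lit 154)) (XT.lf (nat_lit 0) (nat_lit 7259758325) (nat_lit 228) (nat_lit 3396279896) (nat_lit 76) (nat_lit 34014460739) (nat_lit 74) (nat_lit 5) (nat_lit 77) (nat_lit 5) (nat_lit 75) (nat_lit 5) (nat_lit 411) (nat_lit 336) (nat_lit 153)))) (XT.nd (nat_lit 78) (nat_lit 152) (nat_lit 0) (XT.lf (nat_lit 0) (nat_lit 17135018394) (nat_lit 304) (nat_lit 25191065958) (nat_lit 76) (nat_lit 3262483167) (nat_lit 71) (nat_lit 5) (nat_lit 75) (nat_lit 5) (nat_lit 72) (nat_lit 5) (nat_lit 412) (nat_lit 336) (nat_lit 152)) (XT.nd (nat_lit 78) (nat_lit 152) (nat_lit 0) (XT.lf (nat_lit 0) (nat_lit 27443050586) (nat_lit 304) (nat_lit 1670426848) (nat_lit 76) (nat_lit 17416606028) (nat_lit 71)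 (nat_lit 5) (nat_lit 75) (nat_lit 5) (nat_lit 72) (nat_lit 5) (nat_lit 413) (nat_lit 336) (nat_lit 151)) (XT.lf (nat_lit 0) (nat_lit 22998647430) (nat_lit 152) (nat_lit 15279232665) (nat_lit 228) (nat_lit 9215438830) (nat_lit 69) (nat_lit 5) (nat_lit 71) (nat_lit 5) (nat_lit 72) (nat_lit 5) (nat_lit 414) (nat_lit 336) (nat_lit 150))))) (XT.nd (nat_lit 234) (nat_lit 380) (nat_lit 0) (XT.nd (nat_lit 78) (nat_lit 380) (nat_lit 0) (XT.lf (nat_lit 0) (nat_lit 947245115) (nat_lit 228) (nat_lit 58212962) (nat_lit 76) (nat_lit 47479313695) (nat_lit 68) (nat_lit 5) (nat_lit 71) (nat_lit 5) (nat_lit 69) (nat_lit 5) (nat_lit 415) (nat_lit 336) (nat_lit 149)) (XT.nd (nat_lit 78) (nat_lit 152) (nat_lit 0) (XT.lf (nat_lit 0) (nat_lit 11606386478) (nat_lit 304) (nat_lit 24118822010) (nat_lit 76) (nat_lit 13766719187) (nat_lit 65) (nat_lit 5) (nat_lit 69) (nat_lit 5) (nat_lit 66) (nat_lit 5) (nat_lit 416) (nat_lit 336)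 (nat_lit 148)) (XT.lf (nat_lit 0) (nat_lit 1043855165) (nat_lit 152) (nat_lit 21558642934) (nat_lit 228) (nat_lit 27926284927) (nat_lit 63) (nat_lit 5) (nat_lit 65) (nat_lit 5) (nat_lit 66) (nat_lit 5) (nat_lit 417) (nat_lit 336) (nat_lit 147)))) (XT.nd (nat_lit 156) (nat_lit 228) (nat_lit 0) (XT.nd (nat_lit 78) (nat_lit 152) (nat_lit 0) (XT.lf (nat_lit 0) (nat_lit 27450052118) (nat_lit 152) (nat_lit 6718650073) (nat_lit 228) (nat_lit 17420836207) (nat_lit 63) (nat_lit 5) (nat_lit 65) (nat_lit 5) (nat_lit 66) (nat_lit 5) (nat_lit 418) (nat_lit 336) (nat_lit 146)) (XT.lf (nat_lit 0) (nat_lit 1915673449) (nat_lit 152) (nat_lit 44263711459) (nat_lit 228) (nat_lit 6499807362) (nat_lit 61) (nat_lit 5) (nat_lit 63) (nat_lit 5) (nat_lit 64) (nat_lit 5) (nat_lit 419) (nat_lit 336) (nat_lit 145))) (XT.nd (nat_lit 78) (nat_lit 152) (nat_lit 0) (XT.lf (nat_lit 0) (nat_lit 4965621015) (nat_lit 228) (nat_lit 24667172504)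 (nat_lit 76) (nat_lit 24158090276) (nat_lit 60) (nat_lit 5) (nat_lit 63) (nat_lit 5) (nat_lit 61) (nat_lit 5) (nat_lit 420) (nat_lit 336) (nat_lit 144)) (XT.lf (nat_lit 0) (nat_lit 2184819368) (nat_lit 152) (nat_lit 14477389601) (nat_lit 228) (nat_lit 38271251931) (nat_lit 58) (nat_lit 5) (nat_lit 60) (nat_lit 5) (nat_lit 61) (nat_lit 5) (nat_lit 421) (nat_lit 336) (nat_lit 143)))))) (XT.nd (nat_lit 546) (nat_lit 532) (nat_lit 0) (XT.nd (nat_lit 234) (nat_lit 380) (nat_lit 0) (XT.nd (nat_lit 78) (nat_lit 152) (nat_lit 0) (XT.lf (nat_lit 0) (nat_lit 28968990538) (nat_lit 228) (nat_lit 25773714615) (nat_lit 76) (nat_lit 1359831833) (nat_lit 58) (nat_lit 5) (nat_lit 61) (nat_lit 5) (nat_lit 59) (nat_lit 5) (nat_lit 422) (nat_lit 336) (nat_lit 142)) (XT.nd (nat_lit 78) (nat_lit 0) (nat_lit 0) (XT.lf (nat_lit 0) (nat_lit 1898791658) (nat_lit 152) (nat_lit 39904720111) (nat_lit 228) (nat_lit 15498418027) (nat_lit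 56) (nat_lit 5) (nat_lit 58) (nat_lit 5) (nat_lit 59) (nat_lit 5) (nat_lit 423) (nat_lit 336) (nat_lit 141)) (XT.lf (nat_lit 0) (nat_lit 30924481525) (nat_lit 152) (nat_lit 24355832293) (nat_lit 228) (nat_lit 3249273734) (nat_lit 56) (nat_lit 5) (nat_lit 58) (nat_lit 5) (nat_lit 59) (nat_lit 5) (nat_lit 424) (nat_lit 336) (nat_lit 140)))) (XT.nd (nat_lit 156) (nat_lit 152) (nat_lit 0) (XT.nd (nat_lit 78) (nat_lit 0) (nat_lit 0) (XT.lf (nat_lit 0) (nat_lit 950131167) (nat_lit 152) (nat_lit 8240595937) (nat_lit 228) (nat_lit 50600461895) (nat_lit 53) (nat_lit 5) (nat_lit 55) (nat_lit 5) (nat_lit 56) (nat_lit 5) (nat_lit 425) (nat_lit 336) (nat_lit 139)) (XT.lf (nat_lit 0) (nat_lit 22297535700) (nat_lit 228) (nat_lit 30274893746) (nat_lit 76) (nat_lit 8506476937) (nat_lit 53) (nat_lit 5) (nat_lit 56) (nat_lit 5) (nat_lit 54) (nat_lit 5) (nat_lit 426) (nat_lit 336) (nat_lit 138))) (XT.nd (nat_lit 78) (nat_lit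 152) (nat_lit 0) (XT.lf (nat_lit 0) (nat_lit 35876278759) (nat_lit 228) (nat_lit 938428892) (nat_lit 76) (nat_lit 25588186189) (nat_lit 53) (nat_lit 5) (nat_lit 56) (nat_lit 5) (nat_lit 54) (nat_lit 5) (nat_lit 427) (nat_lit 336) (nat_lit 137)) (XT.lf (nat_lit 0) (nat_lit 29855777946) (nat_lit 152) (nat_lit 20290821609) (nat_lit 228) (nat_lit 13611475346) (nat_lit 51) (nat_lit 5) (nat_lit 53) (nat_lit 5) (nat_lit 54) (nat_lit 5) (nat_lit 428) (nat_lit 336) (nat_lit 136))))) (XT.nd (nat_lit 234) (nat_lit 304) (nat_lit 0) (XT.nd (nat_lit 78) (nat_lit 228) (nat_lit 0) (XT.lf (nat_lit 0) (nat_lit 61588150625) (nat_lit 152) (nat_lit 3263612881) (nat_lit 228) (nat_lit 301946313) (nat_lit 51) (nat_lit 5) (nat_lit 53) (nat_lit 5) (nat_lit 54) (nat_lit 5) (nat_lit 429) (nat_lit 336) (nat_lit 135)) (XT.nd (nat_lit 78) (nat_lit 0) (nat_lit 0) (XT.lf (nat_lit 0) (nat_lit 13553781135) (nat_lit 228) (nat_lit 38624622064)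 (nat_lit 76) (nat_lit 14396688876) (nat_lit 48) (nat_lit 5) (nat_lit 51) (nat_lit 5) (nat_lit 49) (nat_lit 5) (nat_lit 430) (nat_lit 336) (nat_lit 134)) (XT.lf (nat_lit 0) (nat_lit 27885108919) (nat_lit 228) (nat_lit 7593445406) (nat_lit 76) (nat_lit 32558492261) (nat_lit 48) (nat_lit 5) (nat_lit 51) (nat_lit 5) (nat_lit 49) (nat_lit 5) (nat_lit 431) (nat_lit 336) (nat_lit 133)))) (XT.nd (nat_lit 156) (nat_lit 152) (nat_lit 0) (XT.nd (nat_lit 78) (nat_lit 0) (nat_lit 0) (XT.lf (nat_lit 0) (nat_lit 24848876792) (nat_lit 152) (nat_lit 18033763021) (nat_lit 228) (nat_lit 26653132404) (nat_lit 46) (nat_lit 5) (nat_lit 48) (nat_lit 5) (nat_lit 49) (nat_lit 5) (nat_lit 432) (nat_lit 336) (nat_lit 132)) (XT.lf (nat_lit 0) (nat_lit 58404315844) (nat_lit 228) (nat_lit 12661853253) (nat_lit 76) (nat_lit 11064316) (nat_lit 46) (nat_lit 5) (nat_lit 49) (nat_lit 5) (nat_lit 47) (nat_lit 4) (nat_lit 433) (nat_lit 336)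 (nat_lit 131))) (XT.nd (nat_lit 78) (nat_lit 0) (nat_lit 0) (XT.lf (nat_lit 0) (nat_lit 2070205740) (nat_lit 152) (nat_lit 52132355685) (nat_lit 76) (nat_lit 18450563539) (nat_lit 44) (nat_lit 5) (nat_lit 46) (nat_lit 5) (nat_lit 45) (nat_lit 5) (nat_lit 434) (nat_lit 336) (nat_lit 130)) (XT.lf (nat_lit 0) (nat_lit 17127527718) (nat_lit 152) (nat_lit 19445333183) (nat_lit 76) (nat_lit 37695869926) (nat_lit 44) (nat_lit 5) (nat_lit 46) (nat_lit 5) (nat_lit 45) (nat_lit 5) (nat_lit 435) (nat_lit 336) (nat_lit 129))))))))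
noncomputable def xc190 : XT := (XT.nd (nat_lit 41184) (nat_lit 0) (nat_lit 5700) (XT.nd (nat_lit 40092) (nat_lit 0) (nat_lit 12160) (XT.nd (nat_lit 39546) (nat_lit 0) (nat_lit 16112) (XT.nd (nat_lit 39312) (nat_lit 0) (nat_lit 15960) (XT.nd (nat_lit 39156) (nat_lit 0) (nat_lit 15960) (XT.lf (nat_lit 0) (nat_lit 14500834953) (nat_lit 152) (nat_lit 18272690572) (nat_lit 228) (nat_lit 43155170987) (nat_lit 42) (nat_lit 5) (nat_lit 44) (nat_lit 5) (nat_lit 45) (nat_lit 5) (nat_lit 436) (nat_lit 336) (nat_lit 128)) (XT.nd (nat_lit 78) (nat_lit 0) (nat_lit 0) (XT.lf (nat_lit 0) (nat_lit 1031094907) (nat_lit 0) (nat_lit 1031094907) (nat_lit 1140) (nat_lit 4166009274) (nat_lit 252) (nat_lit 5) (nat_lit 252) (nat_lit 3) (nat_lit 267) (nat_lit 3) (nat_lit 337) (nat_lit 337) (nat_lit 226)) (XT.lf (nat_lit 0) (nat_lit 4650823062) (nat_lit 1140) (nat_lit 4466643649) (nat_lit 1216) (nat_lit 3511608119) (nat_lit 252)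 (nat_lit 5) (nat_lit 267) (nat_lit 3) (nat_lit 268) (nat_lit 5) (nat_lit 338) (nat_lit 337) (nat_lit 225)))) (XT.nd (nat_lit 78) (nat_lit 0) (nat_lit 76) (XT.lf (nat_lit 76) (nat_lit 1641372222) (nat_lit 0) (nat_lit 3571176297) (nat_lit 1216) (nat_lit 7593807657) (nat_lit 253) (nat_lit 5) (nat_lit 252) (nat_lit 5) (nat_lit 268) (nat_lit 5) (nat_lit 339) (nat_lit 337) (nat_lit 224)) (XT.nd (nat_lit 78) (nat_lit 0) (nat_lit 0) (XT.lf (nat_lit 0) (nat_lit 5841027485) (nat_lit 1140) (nat_lit 4993912658) (nat_lit 1216) (nat_lit 2152527555) (nat_lit 253) (nat_lit 5) (nat_lit 268) (nat_lit 5) (nat_lit 269) (nat_lit 5) (nat_lit 340) (nat_lit 337) (nat_lit 223)) (XT.lf (nat_lit 76) (nat_lit 1343965781) (nat_lit 0) (nat_lit 5176910484) (nat_lit 1216) (nat_lit 6652169373) (nat_lit 254) (nat_lit 5) (nat_lit 253) (nat_lit 5) (nat_lit 269) (nat_lit 5) (nat_lit 341) (nat_lit 337) (nat_lit 222))))) (XT.nd (nat_lit 234)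 (nat_lit 0) (nat_lit 76) (XT.nd (nat_lit 78) (nat_lit 0) (nat_lit 0) (XT.lf (nat_lit 0) (nat_lit 7262975263) (nat_lit 1140) (nat_lit 5404715665) (nat_lit 1216) (nat_lit 695252631) (nat_lit 254) (nat_lit 5) (nat_lit 269) (nat_lit 5) (nat_lit 270) (nat_lit 5) (nat_lit 342) (nat_lit 337) (nat_lit 221)) (XT.nd (nat_lit 78) (nat_lit 0) (nat_lit 0) (XT.lf (nat_lit 76) (nat_lit 1174693235) (nat_lit 0) (nat_lit 6900309170) (nat_lit 1216) (nat_lit 5482114100) (nat_lit 255) (nat_lit 5) (nat_lit 254) (nat_lit 5) (nat_lit 270) (nat_lit 5) (nat_lit 343) (nat_lit 337) (nat_lit 220)) (XT.lf (nat_lit 76) (nat_lit 8053015290) (nat_lit 0) (nat_lit 898413343) (nat_lit 1216) (nat_lit 4804492669) (nat_lit 255) (nat_lit 5) (nat_lit 254) (nat_lit 5) (nat_lit 270) (nat_lit 5) (nat_lit 344) (nat_lit 337) (nat_lit 219)))) (XT.nd (nat_lit 156) (nat_lit 0) (nat_lit 76) (XT.nd (nat_lit 78) (nat_lit 0) (nat_lit 0) (XT.lf (nat_lit 76)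 (nat_lit 1138962342) (nat_lit 0) (nat_lit 8762856282) (nat_lit 1216) (nat_lit 4057449073) (nat_lit 256) (nat_lit 5) (nat_lit 255) (nat_lit 5) (nat_lit 271) (nat_lit 5) (nat_lit 345) (nat_lit 337) (nat_lit 218)) (XT.lf (nat_lit 76) (nat_lit 8284540306) (nat_lit 0) (nat_lit 2648829651) (nat_lit 1216) (nat_lit 3233772398) (nat_lit 256) (nat_lit 5) (nat_lit 255) (nat_lit 5) (nat_lit 271) (nat_lit 5) (nat_lit 346) (nat_lit 337) (nat_lit 217))) (XT.nd (nat_lit 78) (nat_lit 0) (nat_lit 0) (XT.lf (nat_lit 76) (nat_lit 1242858905) (nat_lit 0) (nat_lit 10786723444) (nat_lit 1216) (nat_lit 2350666616) (nat_lit 257) (nat_lit 5) (nat_lit 256) (nat_lit 5) (nat_lit 272) (nat_lit 5) (nat_lit 347) (nat_lit 337) (nat_lit 216)) (XT.lf (nat_lit 76) (nat_lit 8666463580) (nat_lit 0) (nat_lit 4564580450) (nat_lit 1216) (nat_lit 1366540793) (nat_lit 257) (nat_lit 5) (nat_lit 256) (nat_lit 5) (nat_lit 272) (nat_lit 5) (nat_lit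 348) (nat_lit 337) (nat_lit 215)))))) (XT.nd (nat_lit 546) (nat_lit 1900) (nat_lit 0) (XT.nd (nat_lit 234) (nat_lit 1064) (nat_lit 0) (XT.nd (nat_lit 78) (nat_lit 1216) (nat_lit 0) (XT.lf (nat_lit 76) (nat_lit 1493141440) (nat_lit 0) (nat_lit 12994892220) (nat_lit 1216) (nat_lit 332829312) (nat_lit 258) (nat_lit 5) (nat_lit 257) (nat_lit 5) (nat_lit 273) (nat_lit 5) (nat_lit 349) (nat_lit 337) (nat_lit 214)) (XT.nd (nat_lit 78) (nat_lit 0) (nat_lit 0) (XT.lf (nat_lit 0) (nat_lit 810841548) (nat_lit 1216) (nat_lit 5849913683) (nat_lit 1292) (nat_lit 8387082626) (nat_lit 241) (nat_lit 5) (nat_lit 257) (nat_lit 5) (nat_lit 258) (nat_lit 5) (nat_lit 350) (nat_lit 337) (nat_lit 213)) (XT.lf (nat_lit 76) (nat_lit 1876063267) (nat_lit 0) (nat_lit 112016563) (nat_lit 1292) (nat_lit 13293271058) (nat_lit 242) (nat_lit 5) (nat_lit 241) (nat_lit 5) (nat_lit 258) (nat_lit 5) (nat_lit 351) (nat_lit 337) (nat_lit 212))))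 (XT.nd (nat_lit 156) (nat_lit 1140) (nat_lit 0) (XT.nd (nat_lit 78) (nat_lit 0) (nat_lit 0) (XT.lf (nat_lit 0) (nat_lit 3312253271) (nat_lit 1216) (nat_lit 5640477022) (nat_lit 1292) (nat_lit 6565796462) (nat_lit 242) (nat_lit 5) (nat_lit 258) (nat_lit 5) (nat_lit 259) (nat_lit 5) (nat_lit 352) (nat_lit 337) (nat_lit 211)) (XT.lf (nat_lit 76) (nat_lit 2393387169) (nat_lit 0) (nat_lit 2295422510) (nat_lit 1292) (nat_lit 11073634298) (nat_lit 243) (nat_lit 5) (nat_lit 242) (nat_lit 5) (nat_lit 259) (nat_lit 5) (nat_lit 353) (nat_lit 337) (nat_lit 210))) (XT.nd (nat_lit 78) (nat_lit 1216) (nat_lit 0) (XT.lf (nat_lit 0) (nat_lit 6196836359) (nat_lit 1216) (nat_lit 5282243175) (nat_lit 76) (nat_lit 4531899616) (nat_lit 243) (nat_lit 5) (nat_lit 259) (nat_lit 5) (nat_lit 244) (nat_lit 5) (nat_lit 354) (nat_lit 337) (nat_lit 209)) (XT.lf (nat_lit 0) (nat_lit 3074984103) (nat_lit 1216) (nat_lit 4716534396) (nat_lit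 1292) (nat_lit 8474214915) (nat_lit 227) (nat_lit 5) (nat_lit 243) (nat_lit 5) (nat_lit 244) (nat_lit 5) (nat_lit 355) (nat_lit 337) (nat_lit 208))))) (XT.nd (nat_lit 234) (nat_lit 1292) (nat_lit 0) (XT.nd (nat_lit 78) (nat_lit 608) (nat_lit 0) (XT.lf (nat_lit 0) (nat_lit 9498894994) (nat_lit 1292) (nat_lit 4767178747) (nat_lit 76) (nat_lit 2260116268) (nat_lit 227) (nat_lit 5) (nat_lit 244) (nat_lit 5) (nat_lit 228) (nat_lit 5) (nat_lit 356) (nat_lit 337) (nat_lit 207)) (XT.nd (nat_lit 78) (nat_lit 0) (nat_lit 0) (XT.lf (nat_lit 0) (nat_lit 3929653278) (nat_lit 608) (nat_lit 7401989563) (nat_lit 684) (nat_lit 5460598123) (nat_lit 219) (nat_lit 5) (nat_lit 227) (nat_lit 5) (nat_lit 228) (nat_lit 5) (nat_lit 357) (nat_lit 337) (nat_lit 206)) (XT.lf (nat_lit 0) (nat_lit 12975776212) (nat_lit 608) (nat_lit 281624444) (nat_lit 684) (nat_lit 3807736978) (nat_lit 219) (nat_lit 5) (nat_lit 227) (nat_lit 5) (nat_lit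 228) (nat_lit 5) (nat_lit 358) (nat_lit 337) (nat_lit 205)))) (XT.nd (nat_lit 156) (nat_lit 684) (nat_lit 0) (XT.nd (nat_lit 78) (nat_lit 0) (nat_lit 0) (XT.lf (nat_lit 0) (nat_lit 4966819428) (nat_lit 608) (nat_lit 10379837523) (nat_lit 684) (nat_lit 1996397348) (nat_lit 211) (nat_lit 5) (nat_lit 219) (nat_lit 5) (nat_lit 220) (nat_lit 5) (nat_lit 359) (nat_lit 337) (nat_lit 204)) (XT.lf (nat_lit 0) (nat_lit 14366390406) (nat_lit 608) (nat_lit 3166642732) (nat_lit 684) (nat_lit 95246785) (nat_lit 211) (nat_lit 5) (nat_lit 219) (nat_lit 5) (nat_lit 220) (nat_lit 5) (nat_lit 360) (nat_lit 337) (nat_lit 203))) (XT.nd (nat_lit 78) (nat_lit 0) (nat_lit 0) (XT.lf (nat_lit 0) (nat_lit 1918696901) (nat_lit 684) (nat_lit 11741613343) (nat_lit 76) (nat_lit 4258455957) (nat_lit 202) (nat_lit 5) (nat_lit 211) (nat_lit 5) (nat_lit 203) (nat_lit 5) (nat_lit 361) (nat_lit 337) (nat_lit 202)) (XT.lf (nat_lit 0) (nat_lit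 4046520342) (nat_lit 684) (nat_lit 2292762813) (nat_lit 76) (nat_lit 11876998671) (nat_lit 202) (nat_lit 5) (nat_lit 211) (nat_lit 5) (nat_lit 203) (nat_lit 5) (nat_lit 362) (nat_lit 337) (nat_lit 201))))))) (XT.nd (nat_lit 1014) (nat_lit 2964) (nat_lit 0) (XT.nd (nat_lit 468) (nat_lit 1444) (nat_lit 0) (XT.nd (nat_lit 234) (nat_lit 988) (nat_lit 0) (XT.nd (nat_lit 78) (nat_lit 532) (nat_lit 0) (XT.lf (nat_lit 0) (nat_lit 6314321339) (nat_lit 608) (nat_lit 10954765934) (nat_lit 76) (nat_lit 1251355559) (nat_lit 195) (nat_lit 5) (nat_lit 203) (nat_lit 5) (nat_lit 196) (nat_lit 5) (nat_lit 363) (nat_lit 337) (nat_lit 200)) (XT.nd (nat_lit 78) (nat_lit 532) (nat_lit 0) (XT.lf (nat_lit 0) (nat_lit 8727502761) (nat_lit 608) (nat_lit 1138455967) (nat_lit 76) (nat_lit 8965453625) (nat_lit 195) (nat_lit 5) (nat_lit 203) (nat_lit 5) (nat_lit 196) (nat_lit 5) (nat_lit 364) (nat_lit 337) (nat_lit 199)) (XT.lf (nat_lit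 0) (nat_lit 9141705016) (nat_lit 532) (nat_lit 2150706167) (nat_lit 608) (nat_lit 7856923786) (nat_lit 188) (nat_lit 5) (nat_lit 195) (nat_lit 5) (nat_lit 196) (nat_lit 5) (nat_lit 365) (nat_lit 337) (nat_lit 198)))) (XT.nd (nat_lit 78) (nat_lit 532) (nat_lit 0) (XT.lf (nat_lit 0) (nat_lit 216363842) (nat_lit 456) (nat_lit 13778921066) (nat_lit 532) (nat_lit 5479683657) (nat_lit 182) (nat_lit 5) (nat_lit 188) (nat_lit 5) (nat_lit 189) (nat_lit 5) (nat_lit 366) (nat_lit 337) (nat_lit 197)) (XT.nd (nat_lit 78) (nat_lit 532) (nat_lit 0) (XT.lf (nat_lit 0) (nat_lit 10921408897) (nat_lit 456) (nat_lit 5971749057) (nat_lit 532) (nat_lit 2913799551) (nat_lit 182) (nat_lit 5) (nat_lit 188) (nat_lit 5) (nat_lit 189) (nat_lit 5) (nat_lit 367) (nat_lit 337) (nat_lit 196)) (XT.lf (nat_lit 0) (nat_lit 1804958298) (nat_lit 532) (nat_lit 18102255803) (nat_lit 608) (nat_lit 240818228) (nat_lit 175) (nat_lit 5) (nat_lit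 182) (nat_lit 5) (nat_lit 183) (nat_lit 5) (nat_lit 368) (nat_lit 337) (nat_lit 195))))) (XT.nd (nat_lit 234) (nat_lit 912) (nat_lit 0) (XT.nd (nat_lit 78) (nat_lit 456) (nat_lit 0) (XT.lf (nat_lit 0) (nat_lit 2605136096) (nat_lit 608) (nat_lit 7591626920) (nat_lit 76) (nat_lit 10297601026) (nat_lit 174) (nat_lit 5) (nat_lit 182) (nat_lit 5) (nat_lit 175) (nat_lit 5) (nat_lit 369) (nat_lit 337) (nat_lit 194)) (XT.nd (nat_lit 78) (nat_lit 0) (nat_lit 0) (XT.lf (nat_lit 0) (nat_lit 3540187390) (nat_lit 456) (nat_lit 2017770326) (nat_lit 532) (nat_lit 15292269911) (nat_lit 168) (nat_lit 5) (nat_lit 174) (nat_lit 5) (nat_lit 175) (nat_lit 5) (nat_lit 370) (nat_lit 337) (nat_lit 193)) (XT.lf (nat_lit 0) (nat_lit 8730794136) (nat_lit 532) (nat_lit 6124238338) (nat_lit 76) (nat_lit 6357794957) (nat_lit 168) (nat_lit 5) (nat_lit 175) (nat_lit 5) (nat_lit 169) (nat_lit 5) (nat_lit 371) (nat_lit 337) (nat_lit 192))))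 (XT.nd (nat_lit 156) (nat_lit 456) (nat_lit 0) (XT.nd (nat_lit 78) (nat_lit 0) (nat_lit 0) (XT.lf (nat_lit 0) (nat_lit 5475259021) (nat_lit 456) (nat_lit 6588813184) (nat_lit 532) (nat_lit 9520278452) (nat_lit 162) (nat_lit 5) (nat_lit 168) (nat_lit 5) (nat_lit 169) (nat_lit 5) (nat_lit 372) (nat_lit 337) (nat_lit 191)) (XT.lf (nat_lit 0) (nat_lit 15571076018) (nat_lit 532) (nat_lit 4444865351) (nat_lit 76) (nat_lit 1948869421) (nat_lit 162) (nat_lit 5) (nat_lit 169) (nat_lit 5) (nat_lit 163) (nat_lit 5) (nat_lit 373) (nat_lit 337) (nat_lit 190))) (XT.nd (nat_lit 78) (nat_lit 76) (nat_lit 0) (XT.lf (nat_lit 0) (nat_lit 7644621304) (nat_lit 380) (nat_lit 11670364186) (nat_lit 456) (nat_lit 3037751315) (nat_lit 157) (nat_lit 5) (nat_lit 162) (nat_lit 5) (nat_lit 163) (nat_lit 5) (nat_lit 374) (nat_lit 337) (nat_lit 189)) (XT.lf (nat_lit 0) (nat_lit 449092557) (nat_lit 456) (nat_lit 2576179302) (nat_lit 76)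 (nat_lit 19725760051) (nat_lit 156) (nat_lit 5) (nat_lit 162) (nat_lit 5) (nat_lit 157) (nat_lit 5) (nat_lit 375) (nat_lit 337) (nat_lit 188)))))) (XT.nd (nat_lit 546) (nat_lit 1368) (nat_lit 0) (XT.nd (nat_lit 234) (nat_lit 760) (nat_lit 0) (XT.nd (nat_lit 78) (nat_lit 380) (nat_lit 0) (XT.lf (nat_lit 0) (nat_lit 4127345811) (nat_lit 532) (nat_lit 13137544113) (nat_lit 76) (nat_lit 5891050541) (nat_lit 150) (nat_lit 5) (nat_lit 157) (nat_lit 5) (nat_lit 151) (nat_lit 5) (nat_lit 376) (nat_lit 337) (nat_lit 187)) (XT.nd (nat_lit 78) (nat_lit 380) (nat_lit 0) (XT.lf (nat_lit 0) (nat_lit 7965502505) (nat_lit 532) (nat_lit 567321496) (nat_lit 76) (nat_lit 15038688216) (nat_lit 150) (nat_lit 5) (nat_lit 157) (nat_lit 5) (nat_lit 151) (nat_lit 5) (nat_lit 377) (nat_lit 337) (nat_lit 186)) (XT.lf (nat_lit 0) (nat_lit 12039237541) (nat_lit 456) (nat_lit 11383761865) (nat_lit 76) (nat_lit 572941245) (nat_lit 145)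 (nat_lit 5) (nat_lit 151) (nat_lit 5) (nat_lit 146) (nat_lit 5) (nat_lit 378) (nat_lit 337) (nat_lit 185)))) (XT.nd (nat_lit 156) (nat_lit 380) (nat_lit 0) (XT.nd (nat_lit 78) (nat_lit 0) (nat_lit 0) (XT.lf (nat_lit 0) (nat_lit 1706156406) (nat_lit 380) (nat_lit 14629315213) (nat_lit 456) (nat_lit 8094624177) (nat_lit 140) (nat_lit 5) (nat_lit 145) (nat_lit 5) (nat_lit 146) (nat_lit 5) (nat_lit 379) (nat_lit 337) (nat_lit 184)) (XT.lf (nat_lit 0) (nat_lit 15413849887) (nat_lit 380) (nat_lit 5455420242) (nat_lit 456) (nat_lit 4004747537) (nat_lit 140) (nat_lit 5) (nat_lit 145) (nat_lit 5) (nat_lit 146) (nat_lit 5) (nat_lit 380) (nat_lit 337) (nat_lit 183))) (XT.nd (nat_lit 78) (nat_lit 0) (nat_lit 0) (XT.lf (nat_lit 0) (nat_lit 277502799) (nat_lit 380) (nat_lit 21094175097) (nat_lit 76) (nat_lit 3957309638) (nat_lit 135) (nat_lit 5) (nat_lit 140) (nat_lit 5) (nat_lit 136) (nat_lit 5) (nat_lit 381) (nat_lit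 337) (nat_lit 182)) (XT.lf (nat_lit 0) (nat_lit 4752144279) (nat_lit 380) (nat_lit 7363031529) (nat_lit 76) (nat_lit 13676910897) (nat_lit 135) (nat_lit 5) (nat_lit 140) (nat_lit 5) (nat_lit 136) (nat_lit 5) (nat_lit 382) (nat_lit 337) (nat_lit 181))))) (XT.nd (nat_lit 234) (nat_lit 684) (nat_lit 0) (XT.nd (nat_lit 78) (nat_lit 304) (nat_lit 0) (XT.lf (nat_lit 0) (nat_lit 6906817135) (nat_lit 380) (nat_lit 2514703385) (nat_lit 456) (nat_lit 16845745594) (nat_lit 130) (nat_lit 5) (nat_lit 135) (nat_lit 5) (nat_lit 136) (nat_lit 5) (nat_lit 383) (nat_lit 337) (nat_lit 180)) (XT.nd (nat_lit 78) (nat_lit 304) (nat_lit 0) (XT.lf (nat_lit 0) (nat_lit 14371125787) (nat_lit 456) (nat_lit 5078474899) (nat_lit 76) (nat_lit 7302897853) (nat_lit 130) (nat_lit 5) (nat_lit 136) (nat_lit 5) (nat_lit 131) (nat_lit 5) (nat_lit 384) (nat_lit 337) (nat_lit 179)) (XT.lf (nat_lit 0) (nat_lit 9790255666) (nat_lit 304) (nat_lit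 9792319176) (nat_lit 380) (nat_lit 7666314429) (nat_lit 126) (nat_lit 5) (nat_lit 130) (nat_lit 5) (nat_lit 131) (nat_lit 5) (nat_lit 385) (nat_lit 337) (nat_lit 178)))) (XT.nd (nat_lit 156) (nat_lit 304) (nat_lit 0) (XT.nd (nat_lit 78) (nat_lit 380) (nat_lit 0) (XT.lf (nat_lit 0) (nat_lit 24998060998) (nat_lit 380) (nat_lit 2559394464) (nat_lit 76) (nat_lit 201287402) (nat_lit 126) (nat_lit 5) (nat_lit 131) (nat_lit 5) (nat_lit 127) (nat_lit 5) (nat_lit 386) (nat_lit 337) (nat_lit 177)) (XT.lf (nat_lit 0) (nat_lit 2465395355) (nat_lit 380) (nat_lit 15367007864) (nat_lit 76) (nat_lit 10444289587) (nat_lit 121) (nat_lit 5) (nat_lit 126) (nat_lit 5) (nat_lit 122) (nat_lit 5) (nat_lit 387) (nat_lit 337) (nat_lit 176))) (XT.nd (nat_lit 78) (nat_lit 0) (nat_lit 0) (XT.lf (nat_lit 0) (nat_lit 51591723) (nat_lit 304) (nat_lit 7762381955) (nat_lit 380) (nat_lit 20994753173) (nat_lit 117) (nat_lit 5) (nat_lit 121)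 (nat_lit 5) (nat_lit 122) (nat_lit 5) (nat_lit 388) (nat_lit 337) (nat_lit 175)) (XT.lf (nat_lit 0) (nat_lit 13499478930) (nat_lit 380) (nat_lit 13138715865) (nat_lit 76) (nat_lit 2713234764) (nat_lit 117) (nat_lit 5) (nat_lit 122) (nat_lit 5) (nat_lit 118) (nat_lit 5) (nat_lit 389) (nat_lit 337) (nat_lit 174))))))))
noncomputable def xc191 : XT := (XT.nd (nat_lit 2106) (nat_lit 1596) (nat_lit 0) (XT.nd (nat_lit 1014) (nat_lit 1824) (nat_lit 0) (XT.nd (nat_lit 468) (nat_lit 1140) (nat_lit 0) (XT.nd (nat_lit 234) (nat_lit 304) (nat_lit 0) (XT.nd (nat_lit 78) (nat_lit 380) (nat_lit 0) (XT.lf (nat_lit 0) (nat_lit 2920839206) (nat_lit 304) (nat_lit 16534467645) (nat_lit 380) (nat_lit 10452115452) (nat_lit 113) (nat_lit 5) (nat_lit 117) (nat_lit 5) (nat_lit 118) (nat_lit 5) (nat_lit 390) (nat_lit 337) (nat_lit 173)) (XT.nd (nat_lit 78) (nat_lit 380) (nat_lit 0) (XT.lf (nat_lit 0) (nat_lit 19724028224) (nat_lit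 304) (nat_lit 5993360787) (nat_lit 380) (nat_lit 4758880066) (nat_lit 113) (nat_lit 5) (nat_lit 117) (nat_lit 5) (nat_lit 118) (nat_lit 5) (nat_lit 391) (nat_lit 337) (nat_lit 172)) (XT.lf (nat_lit 0) (nat_lit 1184349051) (nat_lit 380) (nat_lit 25038098215) (nat_lit 76) (nat_lit 4836393957) (nat_lit 108) (nat_lit 5) (nat_lit 113) (nat_lit 5) (nat_lit 109) (nat_lit 5) (nat_lit 392) (nat_lit 337) (nat_lit 171)))) (XT.nd (nat_lit 78) (nat_lit 304) (nat_lit 0) (XT.lf (nat_lit 0) (nat_lit 7374272710) (nat_lit 380) (nat_lit 8253259990) (nat_lit 76) (nat_lit 16025024403) (nat_lit 108) (nat_lit 5) (nat_lit 113) (nat_lit 5) (nat_lit 109) (nat_lit 5) (nat_lit 393) (nat_lit 337) (nat_lit 170)) (XT.nd (nat_lit 78) (nat_lit 0) (nat_lit 0) (XT.lf (nat_lit 0) (nat_lit 9207592115) (nat_lit 304) (nat_lit 4626009687) (nat_lit 380) (nat_lit 18427972876) (nat_lit 104) (nat_lit 5) (nat_lit 108) (nat_lit 5) (nat_lit 109) (nat_lit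 5) (nat_lit 394) (nat_lit 337) (nat_lit 169)) (XT.lf (nat_lit 0) (nat_lit 20630582485) (nat_lit 380) (nat_lit 5597446225) (nat_lit 76) (nat_lit 6656519324) (nat_lit 104) (nat_lit 5) (nat_lit 109) (nat_lit 5) (nat_lit 105) (nat_lit 5) (nat_lit 395) (nat_lit 337) (nat_lit 168))))) (XT.nd (nat_lit 234) (nat_lit 532) (nat_lit 0) (XT.nd (nat_lit 78) (nat_lit 380) (nat_lit 0) (XT.lf (nat_lit 0) (nat_lit 12575331302) (nat_lit 228) (nat_lit 15218210455) (nat_lit 304) (nat_lit 5727808125) (nat_lit 101) (nat_lit 5) (nat_lit 104) (nat_lit 5) (nat_lit 105) (nat_lit 5) (nat_lit 396) (nat_lit 337) (nat_lit 167)) (XT.nd (nat_lit 78) (nat_lit 304) (nat_lit 0) (XT.lf (nat_lit 0) (nat_lit 1027224117) (nat_lit 304) (nat_lit 2784708129) (nat_lit 76) (nat_lit 30363463462) (nat_lit 100) (nat_lit 5) (nat_lit 104) (nat_lit 5) (nat_lit 101) (nat_lit 5) (nat_lit 397) (nat_lit 337) (nat_lit 166)) (XT.lf (nat_lit 0) (nat_lit 8099162067)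 (nat_lit 380) (nat_lit 18747728389) (nat_lit 76) (nat_lit 7993591032) (nat_lit 96) (nat_lit 5) (nat_lit 101) (nat_lit 5) (nat_lit 97) (nat_lit 5) (nat_lit 398) (nat_lit 337) (nat_lit 165)))) (XT.nd (nat_lit 156) (nat_lit 304) (nat_lit 0) (XT.nd (nat_lit 78) (nat_lit 0) (nat_lit 0) (XT.lf (nat_lit 0) (nat_lit 24500044) (nat_lit 228) (nat_lit 15420715735) (nat_lit 304) (nat_lit 20078446548) (nat_lit 93) (nat_lit 5) (nat_lit 96) (nat_lit 5) (nat_lit 97) (nat_lit 5) (nat_lit 399) (nat_lit 337) (nat_lit 164)) (XT.lf (nat_lit 0) (nat_lit 19737369632) (nat_lit 228) (nat_lit 3459241449) (nat_lit 304) (nat_lit 13025179888) (nat_lit 93) (nat_lit 5) (nat_lit 96) (nat_lit 5) (nat_lit 97) (nat_lit 5) (nat_lit 400) (nat_lit 337) (nat_lit 163))) (XT.nd (nat_lit 78) (nat_lit 76) (nat_lit 0) (XT.lf (nat_lit 0) (nat_lit 3068724103) (nat_lit 228) (nat_lit 28222249072) (nat_lit 304) (nat_lit 5646578691) (nat_lit 90) (nat_lit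 5) (nat_lit 93) (nat_lit 5) (nat_lit 94) (nat_lit 5) (nat_lit 401) (nat_lit 337) (nat_lit 162)) (XT.lf (nat_lit 0) (nat_lit 2113386880) (nat_lit 304) (nat_lit 14184849282) (nat_lit 76) (nat_lit 21370043478) (nat_lit 89) (nat_lit 5) (nat_lit 93) (nat_lit 5) (nat_lit 90) (nat_lit 5) (nat_lit 402) (nat_lit 337) (nat_lit 161)))))) (XT.nd (nat_lit 546) (nat_lit 912) (nat_lit 0) (XT.nd (nat_lit 234) (nat_lit 456) (nat_lit 0) (XT.nd (nat_lit 78) (nat_lit 228) (nat_lit 0) (XT.lf (nat_lit 0) (nat_lit 6147130648) (nat_lit 228) (nat_lit 3900508905) (nat_lit 304) (nat_lit 28369964176) (nat_lit 86) (nat_lit 5) (nat_lit 89) (nat_lit 5) (nat_lit 90) (nat_lit 5) (nat_lit 403) (nat_lit 337) (nat_lit 160)) (XT.nd (nat_lit 78) (nat_lit 228) (nat_lit 0) (XT.lf (nat_lit 0) (nat_lit 18445755431) (nat_lit 304) (nat_lit 11898537412) (nat_lit 76) (nat_lit 8838340645) (nat_lit 86) (nat_lit 5) (nat_lit 90) (nat_lit 5) (nat_lit 87)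 (nat_lit 5) (nat_lit 404) (nat_lit 337) (nat_lit 159)) (XT.lf (nat_lit 0) (nat_lit 9219435392) (nat_lit 228) (nat_lit 17999662459) (nat_lit 304) (nat_lit 12747818782) (nat_lit 83) (nat_lit 5) (nat_lit 86) (nat_lit 5) (nat_lit 87) (nat_lit 5) (nat_lit 405) (nat_lit 337) (nat_lit 158)))) (XT.nd (nat_lit 156) (nat_lit 228) (nat_lit 0) (XT.nd (nat_lit 78) (nat_lit 228) (nat_lit 0) (XT.lf (nat_lit 0) (nat_lit 31208512115) (nat_lit 228) (nat_lit 5163375964) (nat_lit 304) (nat_lit 4399353727) (nat_lit 83) (nat_lit 5) (nat_lit 86) (nat_lit 5) (nat_lit 87) (nat_lit 5) (nat_lit 406) (nat_lit 337) (nat_lit 157)) (XT.lf (nat_lit 0) (nat_lit 4312523110) (nat_lit 228) (nat_lit 29220048565) (nat_lit 76) (nat_lit 8060067702) (nat_lit 80) (nat_lit 5) (nat_lit 83) (nat_lit 5) (nat_lit 81) (nat_lit 5) (nat_lit 407) (nat_lit 337) (nat_lit 156))) (XT.nd (nat_lit 78) (nat_lit 228) (nat_lit 0) (XT.lf (nat_lit 0) (nat_lit 13342177074)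 (nat_lit 228) (nat_lit 7375686954) (nat_lit 76) (nat_lit 21715163682) (nat_lit 80) (nat_lit 5) (nat_lit 83) (nat_lit 5) (nat_lit 81) (nat_lit 5) (nat_lit 408) (nat_lit 337) (nat_lit 155)) (XT.lf (nat_lit 0) (nat_lit 15418798342) (nat_lit 228) (nat_lit 7368447949) (nat_lit 304) (nat_lit 20507046483) (nat_lit 77) (nat_lit 5) (nat_lit 80) (nat_lit 5) (nat_lit 81) (nat_lit 5) (nat_lit 409) (nat_lit 337) (nat_lit 154))))) (XT.nd (nat_lit 234) (nat_lit 684) (nat_lit 0) (XT.nd (nat_lit 78) (nat_lit 228) (nat_lit 0) (XT.lf (nat_lit 0) (nat_lit 32648564739) (nat_lit 304) (nat_lit 5199039589) (nat_lit 76) (nat_lit 6329805373) (nat_lit 77) (nat_lit 5) (nat_lit 81) (nat_lit 5) (nat_lit 78) (nat_lit 5) (nat_lit 410) (nat_lit 337) (nat_lit 153)) (XT.nd (nat_lit 78) (nat_lit 76) (nat_lit 0) (XT.lf (nat_lit 0) (nat_lit 18438625029) (nat_lit 152) (nat_lit 24613740009) (nat_lit 228) (nat_lit 2027256631) (nat_lit 75) (nat_lit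 5) (nat_lit 77) (nat_lit 5) (nat_lit 78) (nat_lit 5) (nat_lit 411) (nat_lit 337) (nat_lit 152)) (XT.lf (nat_lit 0) (nat_lit 7657441439) (nat_lit 228) (nat_lit 3196383954) (nat_lit 76) (nat_lit 35151353457) (nat_lit 74) (nat_lit 5) (nat_lit 77) (nat_lit 5) (nat_lit 75) (nat_lit 5) (nat_lit 412) (nat_lit 337) (nat_lit 151)))) (XT.nd (nat_lit 156) (nat_lit 456) (nat_lit 0) (XT.nd (nat_lit 78) (nat_lit 0) (nat_lit 0) (XT.lf (nat_lit 0) (nat_lit 17827758312) (nat_lit 304) (nat_lit 25643775349) (nat_lit 76) (nat_lit 3479292952) (nat_lit 71) (nat_lit 5) (nat_lit 75) (nat_lit 5) (nat_lit 72) (nat_lit 5) (nat_lit 413) (nat_lit 337) (nat_lit 150)) (XT.lf (nat_lit 0) (nat_lit 28439826925) (nat_lit 304) (nat_lit 1426342966) (nat_lit 76) (nat_lit 18054575363) (nat_lit 71) (nat_lit 5) (nat_lit 75) (nat_lit 5) (nat_lit 72) (nat_lit 5) (nat_lit 414) (nat_lit 337) (nat_lit 149))) (XT.nd (nat_lit 78) (nat_lit 304) (nat_lit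 0) (XT.lf (nat_lit 0) (nat_lit 23979919259) (nat_lit 152) (nat_lit 15617529378) (nat_lit 228) (nat_lit 9315497779) (nat_lit 69) (nat_lit 5) (nat_lit 71) (nat_lit 5) (nat_lit 72) (nat_lit 5) (nat_lit 415) (nat_lit 337) (nat_lit 148)) (XT.lf (nat_lit 0) (nat_lit 230746031) (nat_lit 228) (nat_lit 915058717) (nat_lit 304) (nat_lit 48788372813) (nat_lit 65) (nat_lit 5) (nat_lit 68) (nat_lit 5) (nat_lit 69) (nat_lit 5) (nat_lit 416) (nat_lit 337) (nat_lit 147))))))) (XT.nd (nat_lit 1014) (nat_lit 532) (nat_lit 0) (XT.nd (nat_lit 468) (nat_lit 532) (nat_lit 0) (XT.nd (nat_lit 234) (nat_lit 380) (nat_lit 0) (XT.nd (nat_lit 78) (nat_lit 152) (nat_lit 0) (XT.lf (nat_lit 0) (nat_lit 12121466289) (nat_lit 304) (nat_lit 24555115849) (nat_lit 76) (nat_lit 14295064588) (nat_lit 65) (nat_lit 5) (nat_lit 69) (nat_lit 5) (nat_lit 66) (nat_lit 5) (nat_lit 417) (nat_lit 337) (nat_lit 146)) (XT.nd (nat_lit 78) (nat_lit 0) (nat_lit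 0) (XT.lf (nat_lit 0) (nat_lit 1359625260) (nat_lit 152) (nat_lit 22085709527) (nat_lit 228) (nat_lit 28594337681) (nat_lit 63) (nat_lit 5) (nat_lit 65) (nat_lit 5) (nat_lit 66) (nat_lit 5) (nat_lit 418) (nat_lit 337) (nat_lit 145)) (XT.lf (nat_lit 0) (nat_lit 28549723041) (nat_lit 152) (nat_lit 6804003075) (nat_lit 228) (nat_lit 17778669260) (nat_lit 63) (nat_lit 5) (nat_lit 65) (nat_lit 5) (nat_lit 66) (nat_lit 5) (nat_lit 419) (nat_lit 337) (nat_lit 144)))) (XT.nd (nat_lit 78) (nat_lit 228) (nat_lit 0) (XT.lf (nat_lit 0) (nat_lit 2250281202) (nat_lit 152) (nat_lit 45473537529) (nat_lit 228) (nat_lit 6530948334) (nat_lit 61) (nat_lit 5) (nat_lit 63) (nat_lit 5) (nat_lit 64) (nat_lit 5) (nat_lit 420) (nat_lit 337) (nat_lit 143)) (XT.nd (nat_lit 78) (nat_lit 152) (nat_lit 0) (XT.lf (nat_lit 0) (nat_lit 5270566230) (nat_lit 228) (nat_lit 25134990139) (nat_lit 76) (nat_lit 24994346924) (nat_lit 60) (nat_lit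 5) (nat_lit 63) (nat_lit 5) (nat_lit 61) (nat_lit 5) (nat_lit 421) (nat_lit 337) (nat_lit 142)) (XT.lf (nat_lit 0) (nat_lit 2519892886) (nat_lit 152) (nat_lit 14796206807) (nat_lit 228) (nat_lit 39260717390) (nat_lit 58) (nat_lit 5) (nat_lit 60) (nat_lit 5) (nat_lit 61) (nat_lit 5) (nat_lit 422) (nat_lit 337) (nat_lit 141))))) (XT.nd (nat_lit 234) (nat_lit 380) (nat_lit 0) (XT.nd (nat_lit 78) (nat_lit 152) (nat_lit 0) (XT.lf (nat_lit 0) (nat_lit 29988676520) (nat_lit 228) (nat_lit 26281813159) (nat_lit 76) (nat_lit 1510578801) (nat_lit 58) (nat_lit 5) (nat_lit 61) (nat_lit 5) (nat_lit 59) (nat_lit 5) (nat_lit 423) (nat_lit 337) (nat_lit 140)) (XT.nd (nat_lit 78) (nat_lit 0) (nat_lit 0) (XT.lf (nat_lit 0) (nat_lit 2218269156) (nat_lit 152) (nat_lit 40988100794) (nat_lit 228) (nat_lit 15810129789) (nat_lit 56) (nat_lit 5) (nat_lit 58) (nat_lit 5) (nat_lit 59) (nat_lit 5) (nat_lit 424) (nat_lit 337) (nat_lit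 139)) (XT.lf (nat_lit 0) (nat_lit 32107083687) (nat_lit 152) (nat_lit 24976059765) (nat_lit 228) (nat_lit 3197974492) (nat_lit 56) (nat_lit 5) (nat_lit 58) (nat_lit 5) (nat_lit 59) (nat_lit 5) (nat_lit 425) (nat_lit 337) (nat_lit 138)))) (XT.nd (nat_lit 156) (nat_lit 152) (nat_lit 0) (XT.nd (nat_lit 78) (nat_lit 0) (nat_lit 0) (XT.lf (nat_lit 0) (nat_lit 1233902513) (nat_lit 152) (nat_lit 8376625696) (nat_lit 228) (nat_lit 51970050868) (nat_lit 53) (nat_lit 5) (nat_lit 55) (nat_lit 5) (nat_lit 56) (nat_lit 5) (nat_lit 426) (nat_lit 337) (nat_lit 137)) (XT.lf (nat_lit 0) (nat_lit 23107382256) (nat_lit 228) (nat_lit 30932126778) (nat_lit 76) (nat_lit 8867514389) (nat_lit 53) (nat_lit 5) (nat_lit 56) (nat_lit 5) (nat_lit 54) (nat_lit 5) (nat_lit 427) (nat_lit 337) (nat_lit 136))) (XT.nd (nat_lit 78) (nat_lit 152) (nat_lit 0) (XT.lf (nat_lit 0) (nat_lit 37089383127) (nat_lit 228) (nat_lit 722879059) (nat_lit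 76) (nat_lit 26458592108) (nat_lit 53) (nat_lit 5) (nat_lit 56) (nat_lit 5) (nat_lit 54) (nat_lit 5) (nat_lit 428) (nat_lit 337) (nat_lit 135)) (XT.lf (nat_lit 0) (nat_lit 30992764742) (nat_lit 152) (nat_lit 20793383525) (nat_lit 228) (nat_lit 13880593115) (nat_lit 51) (nat_lit 5) (nat_lit 53) (nat_lit 5) (nat_lit 54) (nat_lit 5) (nat_lit 429) (nat_lit 337) (nat_lit 134)))))) (XT.nd (nat_lit 39702) (nat_lit 0) (nat_lit 15808) (XT.nd (nat_lit 234) (nat_lit 304) (nat_lit 0) (XT.nd (nat_lit 78) (nat_lit 228) (nat_lit 0) (XT.lf (nat_lit 0) (nat_lit 63670080055) (nat_lit 152) (nat_lit 3258450653) (nat_lit 228) (nat_lit 175833352) (nat_lit 51) (nat_lit 5) (nat_lit 53) (nat_lit 5) (nat_lit 54) (nat_lit 5) (nat_lit 430) (nat_lit 337) (nat_lit 133)) (XT.nd (nat_lit 78) (nat_lit 0) (nat_lit 0) (XT.lf (nat_lit 0) (nat_lit 14092320083) (nat_lit 228) (nat_lit 39545790514) (nat_lit 76) (nat_lit 14930257034) (nat_lit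 48) (nat_lit 5) (nat_lit 51) (nat_lit 5) (nat_lit 49) (nat_lit 5) (nat_lit 431) (nat_lit 337) (nat_lit 132)) (XT.lf (nat_lit 0) (nat_lit 28849745210) (nat_lit 228) (nat_lit 7590598077) (nat_lit 76) (nat_lit 33633953331) (nat_lit 48) (nat_lit 5) (nat_lit 51) (nat_lit 5) (nat_lit 49) (nat_lit 5) (nat_lit 432) (nat_lit 337) (nat_lit 131)))) (XT.nd (nat_lit 156) (nat_lit 152) (nat_lit 0) (XT.nd (nat_lit 78) (nat_lit 0) (nat_lit 0) (XT.lf (nat_lit 0) (nat_lit 25822732506) (nat_lit 152) (nat_lit 18472934370) (nat_lit 228) (nat_lit 27322363747) (nat_lit 46) (nat_lit 5) (nat_lit 48) (nat_lit 5) (nat_lit 49) (nat_lit 5) (nat_lit 433) (nat_lit 337) (nat_lit 130)) (XT.lf (nat_lit 0) (nat_lit 60280257778) (nat_lit 228) (nat_lit 12817218357) (nat_lit 76) (nat_lit 108342116) (nat_lit 46) (nat_lit 5) (nat_lit 49) (nat_lit 5) (nat_lit 47) (nat_lit 4) (nat_lit 434) (nat_lit 337) (nat_lit 129))) (XT.nd (nat_lit 78) (nat_lit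 0) (nat_lit 0) (XT.lf (nat_lit 0) (nat_lit 2255883220) (nat_lit 152) (nat_lit 53471560668) (nat_lit 76) (nat_lit 19101550916) (nat_lit 44) (nat_lit 5) (nat_lit 46) (nat_lit 5) (nat_lit 45) (nat_lit 5) (nat_lit 435) (nat_lit 337) (nat_lit 128)) (XT.lf (nat_lit 0) (nat_lit 17761325692) (nat_lit 152) (nat_lit 19810474065) (nat_lit 76) (nat_lit 38921377549) (nat_lit 44) (nat_lit 5) (nat_lit 46) (nat_lit 5) (nat_lit 45) (nat_lit 5) (nat_lit 436) (nat_lit 337) (nat_lit 127))))) (XT.nd (nat_lit 234) (nat_lit 0) (nat_lit 76) (XT.nd (nat_lit 78) (nat_lit 0) (nat_lit 0) (XT.lf (nat_lit 0) (nat_lit 1275035425) (nat_lit 0) (nat_lit 1275035425) (nat_lit 1140) (nat_lit 3851963994) (nat_lit 252) (nat_lit 5) (nat_lit 252) (nat_lit 3) (nat_lit 267) (nat_lit 3) (nat_lit 338) (nat_lit 338) (nat_lit 224)) (XT.nd (nat_lit 78) (nat_lit 0) (nat_lit 0) (XT.lf (nat_lit 0) (nat_lit 5613586163) (nat_lit 1140) (nat_lit 4157797428)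 (nat_lit 1216) (nat_lit 3211420201) (nat_lit 252) (nat_lit 5) (nat_lit 267) (nat_lit 3) (nat_lit 268) (nat_lit 5) (nat_lit 339) (nat_lit 338) (nat_lit 223)) (XT.lf (nat_lit 76) (nat_lit 2129117296) (nat_lit 0) (nat_lit 4043283437) (nat_lit 1216) (nat_lit 6993608717) (nat_lit 253) (nat_lit 5) (nat_lit 252) (nat_lit 5) (nat_lit 268) (nat_lit 5) (nat_lit 340) (nat_lit 338) (nat_lit 222)))) (XT.nd (nat_lit 156) (nat_lit 0) (nat_lit 76) (XT.nd (nat_lit 78) (nat_lit 0) (nat_lit 0) (XT.lf (nat_lit 0) (nat_lit 6792925715) (nat_lit 1140) (nat_lit 4690769212) (nat_lit 1216) (nat_lit 1869676259) (nat_lit 253) (nat_lit 5) (nat_lit 268) (nat_lit 5) (nat_lit 269) (nat_lit 5) (nat_lit 341) (nat_lit 338) (nat_lit 221)) (XT.lf (nat_lit 76) (nat_lit 1832804788) (nat_lit 0) (nat_lit 5642055238) (nat_lit 1216) (nat_lit 6070217984) (nat_lit 254) (nat_lit 5) (nat_lit 253) (nat_lit 5) (nat_lit 269) (nat_lit 5) (nat_lit 342) (nat_lit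 338) (nat_lit 220))) (XT.nd (nat_lit 78) (nat_lit 0) (nat_lit 0) (XT.lf (nat_lit 0) (nat_lit 8214242313) (nat_lit 1140) (nat_lit 5106024729) (nat_lit 1216) (nat_lit 421167107) (nat_lit 254) (nat_lit 5) (nat_lit 269) (nat_lit 5) (nat_lit 270) (nat_lit 5) (nat_lit 343) (nat_lit 338) (nat_lit 219)) (XT.lf (nat_lit 76) (nat_lit 1666248473) (nat_lit 0) (nat_lit 7367407652) (nat_lit 1216) (nat_lit 4908296929) (nat_lit 255) (nat_lit 5) (nat_lit 254) (nat_lit 5) (nat_lit 270) (nat_lit 5) (nat_lit 344) (nat_lit 338) (nat_lit 218))))))))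
noncomputable def xc192 : XT := (XT.nd (nat_lit 2028) (nat_lit 5548) (nat_lit 0) (XT.nd (nat_lit 1014) (nat_lit 4028) (nat_lit 0) (XT.nd (nat_lit 468) (nat_lit 1064) (nat_lit 0) (XT.nd (nat_lit 234) (nat_lit 988) (nat_lit 0) (XT.nd (nat_lit 78) (nat_lit 0) (nat_lit 76) (XT.lf (nat_lit 76) (nat_lit 8737629477) (nat_lit 0) (nat_lit 1177879537) (nat_lit 1216) (nat_lit 4231850174) (nat_lit 255) (nat_lit 5) (nat_lit 254) (nat_lit 5) (nat_lit 270) (nat_lit 5) (nat_lit 345) (nat_lit 338) (nat_lit 217)) (XT.nd (nat_lit 78) (nat_lit 0) (nat_lit 0) (XT.lf (nat_lit 76) (nat_lit 1635246611) (nat_lit 0) (nat_lit 9240991236) (nat_lit 1216) (nat_lit 3481124195) (nat_lit 256) (nat_lit 5) (nat_lit 255) (nat_lit 5) (nat_lit 271) (nat_lit 5) (nat_lit 346) (nat_lit 338) (nat_lit 216)) (XT.lf (nat_lit 76) (nat_lit 8981732243) (nat_lit 0) (nat_lit 2937274410) (nat_lit 1216) (nat_lit 2653068725) (nat_lit 256) (nat_lit 5) (nat_lit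 255) (nat_lit 5) (nat_lit 271) (nat_lit 5) (nat_lit 347) (nat_lit 338) (nat_lit 215)))) (XT.nd (nat_lit 78) (nat_lit 1140) (nat_lit 0) (XT.lf (nat_lit 76) (nat_lit 1746275335) (nat_lit 0) (nat_lit 11285206047) (nat_lit 1216) (nat_lit 1760602782) (nat_lit 257) (nat_lit 5) (nat_lit 256) (nat_lit 5) (nat_lit 272) (nat_lit 5) (nat_lit 348) (nat_lit 338) (nat_lit 214)) (XT.nd (nat_lit 78) (nat_lit 1140) (nat_lit 0) (XT.lf (nat_lit 76) (nat_lit 9379011529) (nat_lit 0) (nat_lit 4871305146) (nat_lit 1216) (nat_lit 766193491) (nat_lit 257) (nat_lit 5) (nat_lit 256) (nat_lit 5) (nat_lit 272) (nat_lit 5) (nat_lit 349) (nat_lit 338) (nat_lit 213)) (XT.lf (nat_lit 0) (nat_lit 277336879) (nat_lit 1216) (nat_lit 13243186602) (nat_lit 1292) (nat_lit 1726347488) (nat_lit 241) (nat_lit 5) (nat_lit 257) (nat_lit 5) (nat_lit 258) (nat_lit 5) (nat_lit 350) (nat_lit 338) (nat_lit 212))))) (XT.nd (nat_lit 234) (nat_lit 1064)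 (nat_lit 0) (XT.nd (nat_lit 78) (nat_lit 0) (nat_lit 0) (XT.lf (nat_lit 0) (nat_lit 1430760515) (nat_lit 1216) (nat_lit 5558351640) (nat_lit 1292) (nat_lit 8491989233) (nat_lit 241) (nat_lit 5) (nat_lit 257) (nat_lit 5) (nat_lit 258) (nat_lit 5) (nat_lit 351) (nat_lit 338) (nat_lit 211)) (XT.nd (nat_lit 78) (nat_lit 0) (nat_lit 76) (XT.lf (nat_lit 76) (nat_lit 2394825605) (nat_lit 0) (nat_lit 235588596) (nat_lit 1292) (nat_lit 13091601509) (nat_lit 242) (nat_lit 5) (nat_lit 241) (nat_lit 5) (nat_lit 258) (nat_lit 5) (nat_lit 352) (nat_lit 338) (nat_lit 210)) (XT.lf (nat_lit 0) (nat_lit 3976219344) (nat_lit 1216) (nat_lit 5342301342) (nat_lit 1292) (nat_lit 6648337563) (nat_lit 242) (nat_lit 5) (nat_lit 258) (nat_lit 5) (nat_lit 259) (nat_lit 5) (nat_lit 353) (nat_lit 338) (nat_lit 209)))) (XT.nd (nat_lit 156) (nat_lit 1140) (nat_lit 0) (XT.nd (nat_lit 78) (nat_lit 0) (nat_lit 76) (XT.lf (nat_lit 76) (nat_lit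 2927996520) (nat_lit 0) (nat_lit 2454080099) (nat_lit 1292) (nat_lit 10836384583) (nat_lit 243) (nat_lit 5) (nat_lit 242) (nat_lit 5) (nat_lit 259) (nat_lit 5) (nat_lit 354) (nat_lit 338) (nat_lit 208)) (XT.lf (nat_lit 0) (nat_lit 6918410854) (nat_lit 1216) (nat_lit 4974179408) (nat_lit 76) (nat_lit 4582378263) (nat_lit 243) (nat_lit 5) (nat_lit 259) (nat_lit 5) (nat_lit 244) (nat_lit 5) (nat_lit 355) (nat_lit 338) (nat_lit 207))) (XT.nd (nat_lit 78) (nat_lit 0) (nat_lit 0) (XT.lf (nat_lit 0) (nat_lit 3629190854) (nat_lit 1216) (nat_lit 4920581198) (nat_lit 1292) (nat_lit 8187936070) (nat_lit 227) (nat_lit 5) (nat_lit 243) (nat_lit 5) (nat_lit 244) (nat_lit 5) (nat_lit 356) (nat_lit 338) (nat_lit 206)) (XT.lf (nat_lit 0) (nat_lit 10292509147) (nat_lit 1292) (nat_lit 4445576829) (nat_lit 76) (nat_lit 2268375892) (nat_lit 227) (nat_lit 5) (nat_lit 244) (nat_lit 5) (nat_lit 228) (nat_lit 5) (nat_lit 357) (nat_lit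 338) (nat_lit 205)))))) (XT.nd (nat_lit 468) (nat_lit 2128) (nat_lit 0) (XT.nd (nat_lit 234) (nat_lit 684) (nat_lit 0) (XT.nd (nat_lit 78) (nat_lit 608) (nat_lit 0) (XT.lf (nat_lit 0) (nat_lit 4507605086) (nat_lit 608) (nat_lit 7662241773) (nat_lit 684) (nat_lit 5110966680) (nat_lit 219) (nat_lit 5) (nat_lit 227) (nat_lit 5) (nat_lit 228) (nat_lit 5) (nat_lit 358) (nat_lit 338) (nat_lit 204)) (XT.nd (nat_lit 78) (nat_lit 608) (nat_lit 0) (XT.lf (nat_lit 0) (nat_lit 13811711838) (nat_lit 608) (nat_lit 327153297) (nat_lit 684) (nat_lit 3423474538) (nat_lit 219) (nat_lit 5) (nat_lit 227) (nat_lit 5) (nat_lit 228) (nat_lit 5) (nat_lit 359) (nat_lit 338) (nat_lit 203)) (XT.lf (nat_lit 0) (nat_lit 5573067713) (nat_lit 608) (nat_lit 10707691071) (nat_lit 684) (nat_lit 1568143249) (nat_lit 211) (nat_lit 5) (nat_lit 219) (nat_lit 5) (nat_lit 220) (nat_lit 5) (nat_lit 360) (nat_lit 338) (nat_lit 202)))) (XT.nd (nat_lit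 78) (nat_lit 608) (nat_lit 0) (XT.lf (nat_lit 0) (nat_lit 368490306) (nat_lit 684) (nat_lit 2905409729) (nat_lit 76) (nat_lit 14869096706) (nat_lit 210) (nat_lit 5) (nat_lit 219) (nat_lit 5) (nat_lit 211) (nat_lit 5) (nat_lit 361) (nat_lit 338) (nat_lit 201)) (XT.nd (nat_lit 78) (nat_lit 0) (nat_lit 0) (XT.lf (nat_lit 0) (nat_lit 2431656524) (nat_lit 684) (nat_lit 11630973819) (nat_lit 76) (nat_lit 4379823807) (nat_lit 202) (nat_lit 5) (nat_lit 211) (nat_lit 5) (nat_lit 203) (nat_lit 5) (nat_lit 362) (nat_lit 338) (nat_lit 200)) (XT.lf (nat_lit 0) (nat_lit 4610050628) (nat_lit 684) (nat_lit 1912139947) (nat_lit 76) (nat_lit 12227108796) (nat_lit 202) (nat_lit 5) (nat_lit 211) (nat_lit 5) (nat_lit 203) (nat_lit 5) (nat_lit 363) (nat_lit 338) (nat_lit 199))))) (XT.nd (nat_lit 234) (nat_lit 1064) (nat_lit 0) (XT.nd (nat_lit 78) (nat_lit 532) (nat_lit 0) (XT.lf (nat_lit 0) (nat_lit 6937395768) (nat_lit 608)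 (nat_lit 10825312430) (nat_lit 76) (nat_lit 1300137732) (nat_lit 195) (nat_lit 5) (nat_lit 203) (nat_lit 5) (nat_lit 196) (nat_lit 5) (nat_lit 364) (nat_lit 338) (nat_lit 198)) (XT.nd (nat_lit 78) (nat_lit 532) (nat_lit 0) (XT.lf (nat_lit 0) (nat_lit 9410342202) (nat_lit 608) (nat_lit 727855780) (nat_lit 76) (nat_lit 9245331318) (nat_lit 195) (nat_lit 5) (nat_lit 203) (nat_lit 5) (nat_lit 196) (nat_lit 5) (nat_lit 365) (nat_lit 338) (nat_lit 197)) (XT.lf (nat_lit 0) (nat_lit 9856349700) (nat_lit 532) (nat_lit 2187818954) (nat_lit 608) (nat_lit 7667067496) (nat_lit 188) (nat_lit 5) (nat_lit 195) (nat_lit 5) (nat_lit 196) (nat_lit 5) (nat_lit 366) (nat_lit 338) (nat_lit 196)))) (XT.nd (nat_lit 156) (nat_lit 608) (nat_lit 0) (XT.nd (nat_lit 78) (nat_lit 0) (nat_lit 0) (XT.lf (nat_lit 0) (nat_lit 671125371) (nat_lit 456) (nat_lit 14149539371) (nat_lit 532) (nat_lit 5226203442) (nat_lit 182) (nat_lit 5) (nat_lit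 188) (nat_lit 5) (nat_lit 189) (nat_lit 5) (nat_lit 367) (nat_lit 338) (nat_lit 195)) (XT.lf (nat_lit 0) (nat_lit 11684265351) (nat_lit 456) (nat_lit 6109397328) (nat_lit 532) (nat_lit 2595513805) (nat_lit 182) (nat_lit 5) (nat_lit 188) (nat_lit 5) (nat_lit 189) (nat_lit 5) (nat_lit 368) (nat_lit 338) (nat_lit 194))) (XT.nd (nat_lit 78) (nat_lit 0) (nat_lit 0) (XT.lf (nat_lit 0) (nat_lit 147680729) (nat_lit 608) (nat_lit 18440609836) (nat_lit 76) (nat_lit 2152359561) (nat_lit 174) (nat_lit 5) (nat_lit 182) (nat_lit 5) (nat_lit 175) (nat_lit 5) (nat_lit 369) (nat_lit 338) (nat_lit 193)) (XT.lf (nat_lit 0) (nat_lit 3062788525) (nat_lit 608) (nat_lit 7382121285) (nat_lit 76) (nat_lit 10652736900) (nat_lit 174) (nat_lit 5) (nat_lit 182) (nat_lit 5) (nat_lit 175) (nat_lit 5) (nat_lit 370) (nat_lit 338) (nat_lit 192))))))) (XT.nd (nat_lit 1014) (nat_lit 2584) (nat_lit 0) (XT.nd (nat_lit 468) (nat_lit 1596) (nat_lit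 0) (XT.nd (nat_lit 234) (nat_lit 456) (nat_lit 0) (XT.nd (nat_lit 78) (nat_lit 456) (nat_lit 0) (XT.lf (nat_lit 0) (nat_lit 4079360647) (nat_lit 456) (nat_lit 2017942747) (nat_lit 532) (nat_lit 15367094306) (nat_lit 168) (nat_lit 5) (nat_lit 174) (nat_lit 5) (nat_lit 175) (nat_lit 5) (nat_lit 371) (nat_lit 338) (nat_lit 191)) (XT.nd (nat_lit 78) (nat_lit 456) (nat_lit 0) (XT.lf (nat_lit 0) (nat_lit 9355035601) (nat_lit 532) (nat_lit 5877165326) (nat_lit 76) (nat_lit 6605987868) (nat_lit 168) (nat_lit 5) (nat_lit 175) (nat_lit 5) (nat_lit 169) (nat_lit 5) (nat_lit 372) (nat_lit 338) (nat_lit 190)) (XT.lf (nat_lit 0) (nat_lit 6066093422) (nat_lit 456) (nat_lit 6715766164) (nat_lit 532) (nat_lit 9439196187) (nat_lit 162) (nat_lit 5) (nat_lit 168) (nat_lit 5) (nat_lit 169) (nat_lit 5) (nat_lit 373) (nat_lit 338) (nat_lit 189)))) (XT.nd (nat_lit 78) (nat_lit 456) (nat_lit 0) (XT.lf (nat_lit 0) (nat_lit 16384368431)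 (nat_lit 532) (nat_lit 4154209067) (nat_lit 76) (nat_lit 2074647718) (nat_lit 162) (nat_lit 5) (nat_lit 169) (nat_lit 5) (nat_lit 163) (nat_lit 5) (nat_lit 374) (nat_lit 338) (nat_lit 188)) (XT.nd (nat_lit 78) (nat_lit 76) (nat_lit 0) (XT.lf (nat_lit 0) (nat_lit 8293805304) (nat_lit 380) (nat_lit 11940743361) (nat_lit 456) (nat_lit 2778425969) (nat_lit 157) (nat_lit 5) (nat_lit 162) (nat_lit 5) (nat_lit 163) (nat_lit 5) (nat_lit 375) (nat_lit 338) (nat_lit 187)) (XT.lf (nat_lit 0) (nat_lit 796176197) (nat_lit 456) (nat_lit 2239075534) (nat_lit 76) (nat_lit 20388170029) (nat_lit 156) (nat_lit 5) (nat_lit 162) (nat_lit 5) (nat_lit 157) (nat_lit 5) (nat_lit 376) (nat_lit 338) (nat_lit 186))))) (XT.nd (nat_lit 234) (nat_lit 760) (nat_lit 0) (XT.nd (nat_lit 78) (nat_lit 380) (nat_lit 0) (XT.lf (nat_lit 0) (nat_lit 4579797464) (nat_lit 532) (nat_lit 13112172791) (nat_lit 76) (nat_lit 6148660572) (nat_lit 150)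 (nat_lit 5) (nat_lit 157) (nat_lit 5) (nat_lit 151) (nat_lit 5) (nat_lit 377) (nat_lit 338) (nat_lit 185)) (XT.nd (nat_lit 78) (nat_lit 380) (nat_lit 0) (XT.lf (nat_lit 0) (nat_lit 8523527073) (nat_lit 532) (nat_lit 177061874) (nat_lit 76) (nat_lit 15568371692) (nat_lit 150) (nat_lit 5) (nat_lit 157) (nat_lit 5) (nat_lit 151) (nat_lit 5) (nat_lit 378) (nat_lit 338) (nat_lit 184)) (XT.lf (nat_lit 0) (nat_lit 12714919506) (nat_lit 456) (nat_lit 11313319286) (nat_lit 76) (nat_lit 678023421) (nat_lit 145) (nat_lit 5) (nat_lit 151) (nat_lit 5) (nat_lit 146) (nat_lit 5) (nat_lit 379) (nat_lit 338) (nat_lit 183)))) (XT.nd (nat_lit 156) (nat_lit 380) (nat_lit 0) (XT.nd (nat_lit 78) (nat_lit 0) (nat_lit 0) (XT.lf (nat_lit 0) (nat_lit 2165257755) (nat_lit 380) (nat_lit 14969543661) (nat_lit 456) (nat_lit 8018801310) (nat_lit 140) (nat_lit 5) (nat_lit 145) (nat_lit 5) (nat_lit 146) (nat_lit 5) (nat_lit 380) (nat_lit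 338) (nat_lit 182)) (XT.lf (nat_lit 0) (nat_lit 16272300973) (nat_lit 380) (nat_lit 5523305171) (nat_lit 456) (nat_lit 3815509777) (nat_lit 140) (nat_lit 5) (nat_lit 145) (nat_lit 5) (nat_lit 146) (nat_lit 5) (nat_lit 381) (nat_lit 338) (nat_lit 181))) (XT.nd (nat_lit 78) (nat_lit 0) (nat_lit 0) (XT.lf (nat_lit 0) (nat_lit 585124195) (nat_lit 380) (nat_lit 21320661722) (nat_lit 76) (nat_lit 4173984389) (nat_lit 135) (nat_lit 5) (nat_lit 140) (nat_lit 5) (nat_lit 136) (nat_lit 5) (nat_lit 382) (nat_lit 338) (nat_lit 180)) (XT.lf (nat_lit 0) (nat_lit 5185287552) (nat_lit 380) (nat_lit 7189418953) (nat_lit 76) (nat_lit 14182320615) (nat_lit 135) (nat_lit 5) (nat_lit 140) (nat_lit 5) (nat_lit 136) (nat_lit 5) (nat_lit 383) (nat_lit 338) (nat_lit 179)))))) (XT.nd (nat_lit 546) (nat_lit 1216) (nat_lit 0) (XT.nd (nat_lit 234) (nat_lit 684) (nat_lit 0) (XT.nd (nat_lit 78) (nat_lit 304) (nat_lit 0) (XT.lf (nat_lit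 0) (nat_lit 7504657490) (nat_lit 380) (nat_lit 2485379157) (nat_lit 456) (nat_lit 17056569570) (nat_lit 130) (nat_lit 5) (nat_lit 135) (nat_lit 5) (nat_lit 136) (nat_lit 5) (nat_lit 384) (nat_lit 338) (nat_lit 178)) (XT.nd (nat_lit 78) (nat_lit 304) (nat_lit 0) (XT.lf (nat_lit 0) (nat_lit 15080781482) (nat_lit 456) (nat_lit 4844123657) (nat_lit 76) (nat_lit 7621713896) (nat_lit 130) (nat_lit 5) (nat_lit 136) (nat_lit 5) (nat_lit 131) (nat_lit 5) (nat_lit 385) (nat_lit 338) (nat_lit 177)) (XT.lf (nat_lit 0) (nat_lit 10466877594) (nat_lit 304) (nat_lit 9977264932) (nat_lit 380) (nat_lit 7613894787) (nat_lit 126) (nat_lit 5) (nat_lit 130) (nat_lit 5) (nat_lit 131) (nat_lit 5) (nat_lit 386) (nat_lit 338) (nat_lit 176)))) (XT.nd (nat_lit 156) (nat_lit 304) (nat_lit 0) (XT.nd (nat_lit 78) (nat_lit 380) (nat_lit 0) (XT.lf (nat_lit 0) (nat_lit 26015125663) (nat_lit 380) (nat_lit 2257354148) (nat_lit 76) (nat_lit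 310918524) (nat_lit 126) (nat_lit 5) (nat_lit 131) (nat_lit 5) (nat_lit 127) (nat_lit 5) (nat_lit 387) (nat_lit 338) (nat_lit 175)) (XT.lf (nat_lit 0) (nat_lit 2804997645) (nat_lit 380) (nat_lit 15447535344) (nat_lit 76) (nat_lit 10864403605) (nat_lit 121) (nat_lit 5) (nat_lit 126) (nat_lit 5) (nat_lit 122) (nat_lit 5) (nat_lit 388) (nat_lit 338) (nat_lit 174))) (XT.nd (nat_lit 78) (nat_lit 0) (nat_lit 0) (XT.lf (nat_lit 0) (nat_lit 429892008) (nat_lit 304) (nat_lit 7880025785) (nat_lit 380) (nat_lit 21355139888) (nat_lit 117) (nat_lit 5) (nat_lit 121) (nat_lit 5) (nat_lit 122) (nat_lit 5) (nat_lit 389) (nat_lit 338) (nat_lit 173)) (XT.lf (nat_lit 0) (nat_lit 14159446351) (nat_lit 380) (nat_lit 13160473584) (nat_lit 76) (nat_lit 2904320274) (nat_lit 117) (nat_lit 5) (nat_lit 122) (nat_lit 5) (nat_lit 118) (nat_lit 5) (nat_lit 390) (nat_lit 338) (nat_lit 172))))) (XT.nd (nat_lit 234) (nat_lit 532) (nat_lit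 0) (XT.nd (nat_lit 78) (nat_lit 380) (nat_lit 0) (XT.lf (nat_lit 0) (nat_lit 3377217122) (nat_lit 304) (nat_lit 16912849973) (nat_lit 380) (nat_lit 10506964511) (nat_lit 113) (nat_lit 5) (nat_lit 117) (nat_lit 5) (nat_lit 118) (nat_lit 5) (nat_lit 391) (nat_lit 338) (nat_lit 171)) (XT.nd (nat_lit 78) (nat_lit 380) (nat_lit 0) (XT.lf (nat_lit 0) (nat_lit 20673761439) (nat_lit 304) (nat_lit 6058936658) (nat_lit 380) (nat_lit 4650467435) (nat_lit 113) (nat_lit 5) (nat_lit 117) (nat_lit 5) (nat_lit 118) (nat_lit 5) (nat_lit 392) (nat_lit 338) (nat_lit 170)) (XT.lf (nat_lit 0) (nat_lit 1463562519) (nat_lit 380) (nat_lit 25423583517) (nat_lit 76) (nat_lit 5096076416) (nat_lit 108) (nat_lit 5) (nat_lit 113) (nat_lit 5) (nat_lit 109) (nat_lit 5) (nat_lit 393) (nat_lit 338) (nat_lit 169)))) (XT.nd (nat_lit 156) (nat_lit 228) (nat_lit 0) (XT.nd (nat_lit 78) (nat_lit 304) (nat_lit 0) (XT.lf (nat_lit 0) (nat_lit 7832086326)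 (nat_lit 380) (nat_lit 8145850367) (nat_lit 76) (nat_lit 16617028185) (nat_lit 108) (nat_lit 5) (nat_lit 113) (nat_lit 5) (nat_lit 109) (nat_lit 5) (nat_lit 394) (nat_lit 338) (nat_lit 168)) (XT.lf (nat_lit 0) (nat_lit 9835346836) (nat_lit 304) (nat_lit 4646336708) (nat_lit 380) (nat_lit 18740676866) (nat_lit 104) (nat_lit 5) (nat_lit 108) (nat_lit 5) (nat_lit 109) (nat_lit 5) (nat_lit 395) (nat_lit 338) (nat_lit 167))) (XT.nd (nat_lit 78) (nat_lit 228) (nat_lit 0) (XT.lf (nat_lit 0) (nat_lit 21476890575) (nat_lit 380) (nat_lit 5418330951) (nat_lit 76) (nat_lit 6968973952) (nat_lit 104) (nat_lit 5) (nat_lit 109) (nat_lit 5) (nat_lit 105) (nat_lit 5) (nat_lit 396) (nat_lit 338) (nat_lit 166)) (XT.lf (nat_lit 0) (nat_lit 13296227562) (nat_lit 228) (nat_lit 15555191277) (nat_lit 304) (nat_lit 5668784095) (nat_lit 101) (nat_lit 5) (nat_lit 104) (nat_lit 5) (nat_lit 105) (nat_lit 5) (nat_lit 397) (nat_lit 338)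 (nat_lit 165))))))))
noncomputable def xc193 : XT := (XT.nd (nat_lit 2106) (nat_lit 912) (nat_lit 0) (XT.nd (nat_lit 1014) (nat_lit 1444) (nat_lit 0) (XT.nd (nat_lit 468) (nat_lit 912) (nat_lit 0) (XT.nd (nat_lit 234) (nat_lit 304) (nat_lit 0) (XT.nd (nat_lit 78) (nat_lit 532) (nat_lit 0) (XT.lf (nat_lit 0) (nat_lit 1277801421) (nat_lit 304) (nat_lit 2530186640) (nat_lit 76) (nat_lit 31386015131) (nat_lit 100) (nat_lit 5) (nat_lit 104) (nat_lit 5) (nat_lit 101) (nat_lit 5) (nat_lit 398) (nat_lit 338) (nat_lit 164)) (XT.nd (nat_lit 78) (nat_lit 228) (nat_lit 0) (XT.lf (nat_lit 0) (nat_lit 8559850452) (nat_lit 380) (nat_lit 18969990674) (nat_lit 76) (nat_lit 8349263624) (nat_lit 96) (nat_lit 5) (nat_lit 101) (nat_lit 5) (nat_lit 97) (nat_lit 5) (nat_lit 399) (nat_lit 338) (nat_lit 163)) (XT.lf (nat_lit 0) (nat_lit 362069616) (nat_lit 228) (nat_lit 15761112849) (nat_lit 304) (nat_lit 20459693390) (nat_lit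 93) (nat_lit 5) (nat_lit 96) (nat_lit 5) (nat_lit 97) (nat_lit 5) (nat_lit 400) (nat_lit 338) (nat_lit 162)))) (XT.nd (nat_lit 78) (nat_lit 304) (nat_lit 0) (XT.lf (nat_lit 0) (nat_lit 20656514576) (nat_lit 228) (nat_lit 3444354267) (nat_lit 304) (nat_lit 13201268727) (nat_lit 93) (nat_lit 5) (nat_lit 96) (nat_lit 5) (nat_lit 97) (nat_lit 5) (nat_lit 401) (nat_lit 338) (nat_lit 161)) (XT.nd (nat_lit 78) (nat_lit 76) (nat_lit 0) (XT.lf (nat_lit 0) (nat_lit 3489719367) (nat_lit 228) (nat_lit 28946543074) (nat_lit 304) (nat_lit 5603164475) (nat_lit 90) (nat_lit 5) (nat_lit 93) (nat_lit 5) (nat_lit 94) (nat_lit 5) (nat_lit 402) (nat_lit 338) (nat_lit 160)) (XT.lf (nat_lit 0) (nat_lit 2379369900) (nat_lit 304) (nat_lit 14286958478) (nat_lit 76) (nat_lit 22125870645) (nat_lit 89) (nat_lit 5) (nat_lit 93) (nat_lit 5) (nat_lit 90) (nat_lit 5) (nat_lit 403) (nat_lit 338) (nat_lit 159))))) (XT.nd (nat_lit 234) (nat_lit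 456) (nat_lit 0) (XT.nd (nat_lit 78) (nat_lit 228) (nat_lit 0) (XT.lf (nat_lit 0) (nat_lit 6651809906) (nat_lit 228) (nat_lit 3897018404) (nat_lit 304) (nat_lit 29015260682) (nat_lit 86) (nat_lit 5) (nat_lit 89) (nat_lit 5) (nat_lit 90) (nat_lit 5) (nat_lit 404) (nat_lit 338) (nat_lit 158)) (XT.nd (nat_lit 78) (nat_lit 228) (nat_lit 0) (XT.lf (nat_lit 0) (nat_lit 19194194060) (nat_lit 304) (nat_lit 11939814104) (nat_lit 76) (nat_lit 9218203745) (nat_lit 86) (nat_lit 5) (nat_lit 90) (nat_lit 5) (nat_lit 87) (nat_lit 5) (nat_lit 405) (nat_lit 338) (nat_lit 157)) (XT.lf (nat_lit 0) (nat_lit 9808602987) (nat_lit 228) (nat_lit 18419456987) (nat_lit 304) (nat_lit 12932045295) (nat_lit 83) (nat_lit 5) (nat_lit 86) (nat_lit 5) (nat_lit 87) (nat_lit 5) (nat_lit 406) (nat_lit 338) (nat_lit 156)))) (XT.nd (nat_lit 156) (nat_lit 228) (nat_lit 0) (XT.nd (nat_lit 78) (nat_lit 228) (nat_lit 0) (XT.lf (nat_lit 0) (nat_lit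 32448247608) (nat_lit 228) (nat_lit 5201582732) (nat_lit 304) (nat_lit 4338899337) (nat_lit 83) (nat_lit 5) (nat_lit 86) (nat_lit 5) (nat_lit 87) (nat_lit 5) (nat_lit 407) (nat_lit 338) (nat_lit 155)) (XT.lf (nat_lit 0) (nat_lit 4629143783) (nat_lit 228) (nat_lit 29787892207) (nat_lit 76) (nat_lit 8417722036) (nat_lit 80) (nat_lit 5) (nat_lit 83) (nat_lit 5) (nat_lit 81) (nat_lit 5) (nat_lit 408) (nat_lit 338) (nat_lit 154))) (XT.nd (nat_lit 78) (nat_lit 228) (nat_lit 0) (XT.lf (nat_lit 0) (nat_lit 13924233628) (nat_lit 228) (nat_lit 7297192694) (nat_lit 76) (nat_lit 22479096556) (nat_lit 80) (nat_lit 5) (nat_lit 83) (nat_lit 5) (nat_lit 81) (nat_lit 5) (nat_lit 409) (nat_lit 338) (nat_lit 153)) (XT.lf (nat_lit 0) (nat_lit 16178188290) (nat_lit 228) (nat_lit 7472025014) (nat_lit 304) (nat_lit 20937487059) (nat_lit 77) (nat_lit 5) (nat_lit 80) (nat_lit 5) (nat_lit 81) (nat_lit 5) (nat_lit 410) (nat_lit 338)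 (nat_lit 152)))))) (XT.nd (nat_lit 546) (nat_lit 532) (nat_lit 0) (XT.nd (nat_lit 234) (nat_lit 684) (nat_lit 0) (XT.nd (nat_lit 78) (nat_lit 228) (nat_lit 0) (XT.lf (nat_lit 0) (nat_lit 33803243894) (nat_lit 304) (nat_lit 5062663266) (nat_lit 76) (nat_lit 6631528647) (nat_lit 77) (nat_lit 5) (nat_lit 81) (nat_lit 5) (nat_lit 78) (nat_lit 5) (nat_lit 411) (nat_lit 338) (nat_lit 151)) (XT.nd (nat_lit 78) (nat_lit 76) (nat_lit 0) (XT.lf (nat_lit 0) (nat_lit 19281265139) (nat_lit 152) (nat_lit 25235572176) (nat_lit 228) (nat_lit 1909947597) (nat_lit 75) (nat_lit 5) (nat_lit 77) (nat_lit 5) (nat_lit 78) (nat_lit 5) (nat_lit 412) (nat_lit 338) (nat_lit 150)) (XT.lf (nat_lit 0) (nat_lit 8056728604) (nat_lit 228) (nat_lit 3007814789) (nat_lit 76) (nat_lit 36315667740) (nat_lit 74) (nat_lit 5) (nat_lit 77) (nat_lit 5) (nat_lit 75) (nat_lit 5) (nat_lit 413) (nat_lit 338) (nat_lit 149)))) (XT.nd (nat_lit 156) (nat_lit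 456) (nat_lit 0) (XT.nd (nat_lit 78) (nat_lit 0) (nat_lit 0) (XT.lf (nat_lit 0) (nat_lit 18531022928) (nat_lit 304) (nat_lit 26127460757) (nat_lit 76) (nat_lit 3695779658) (nat_lit 71) (nat_lit 5) (nat_lit 75) (nat_lit 5) (nat_lit 72) (nat_lit 5) (nat_lit 414) (nat_lit 338) (nat_lit 148)) (XT.lf (nat_lit 0) (nat_lit 29456547816) (nat_lit 304) (nat_lit 1191824661) (nat_lit 76) (nat_lit 18705055263) (nat_lit 71) (nat_lit 5) (nat_lit 75) (nat_lit 5) (nat_lit 72) (nat_lit 5) (nat_lit 415) (nat_lit 338) (nat_lit 147))) (XT.nd (nat_lit 78) (nat_lit 304) (nat_lit 0) (XT.lf (nat_lit 0) (nat_lit 24973906719) (nat_lit 152) (nat_lit 15972868091) (nat_lit 228) (nat_lit 9428684821) (nat_lit 69) (nat_lit 5) (nat_lit 71) (nat_lit 5) (nat_lit 72) (nat_lit 5) (nat_lit 416) (nat_lit 338) (nat_lit 146)) (XT.lf (nat_lit 0) (nat_lit 512810924) (nat_lit 228) (nat_lit 828297475) (nat_lit 304) (nat_lit 50086235406) (nat_lit 65)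 (nat_lit 5) (nat_lit 68) (nat_lit 5) (nat_lit 69) (nat_lit 5) (nat_lit 417) (nat_lit 338) (nat_lit 145))))) (XT.nd (nat_lit 234) (nat_lit 380) (nat_lit 0) (XT.nd (nat_lit 78) (nat_lit 152) (nat_lit 0) (XT.lf (nat_lit 0) (nat_lit 12642418428) (nat_lit 304) (nat_lit 25020989024) (nat_lit 76) (nat_lit 14832639143) (nat_lit 65) (nat_lit 5) (nat_lit 69) (nat_lit 5) (nat_lit 66) (nat_lit 5) (nat_lit 418) (nat_lit 338) (nat_lit 144)) (XT.nd (nat_lit 78) (nat_lit 0) (nat_lit 0) (XT.lf (nat_lit 0) (nat_lit 1668539610) (nat_lit 152) (nat_lit 22635458968) (nat_lit 228) (nat_lit 29292175546) (nat_lit 63) (nat_lit 5) (nat_lit 65) (nat_lit 5) (nat_lit 66) (nat_lit 5) (nat_lit 419) (nat_lit 338) (nat_lit 143)) (XT.lf (nat_lit 0) (nat_lit 29666530841) (nat_lit 152) (nat_lit 6898587395) (nat_lit 228) (nat_lit 18156697042) (nat_lit 63) (nat_lit 5) (nat_lit 65) (nat_lit 5) (nat_lit 66) (nat_lit 5) (nat_lit 420) (nat_lit 338)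 (nat_lit 142)))) (XT.nd (nat_lit 156) (nat_lit 152) (nat_lit 0) (XT.nd (nat_lit 78) (nat_lit 76) (nat_lit 0) (XT.lf (nat_lit 0) (nat_lit 2579018358) (nat_lit 152) (nat_lit 46726436958) (nat_lit 228) (nat_lit 6572429382) (nat_lit 61) (nat_lit 5) (nat_lit 63) (nat_lit 5) (nat_lit 64) (nat_lit 5) (nat_lit 421) (nat_lit 338) (nat_lit 141)) (XT.lf (nat_lit 0) (nat_lit 5575706108) (nat_lit 228) (nat_lit 25632467556) (nat_lit 76) (nat_lit 25849289915) (nat_lit 60) (nat_lit 5) (nat_lit 63) (nat_lit 5) (nat_lit 61) (nat_lit 5) (nat_lit 422) (nat_lit 338) (nat_lit 140))) (XT.nd (nat_lit 78) (nat_lit 0) (nat_lit 0) (XT.lf (nat_lit 0) (nat_lit 2849546545) (nat_lit 152) (nat_lit 15131218959) (nat_lit 228) (nat_lit 40288975240) (nat_lit 58) (nat_lit 5) (nat_lit 60) (nat_lit 5) (nat_lit 61) (nat_lit 5) (nat_lit 423) (nat_lit 338) (nat_lit 139)) (XT.lf (nat_lit 0) (nat_lit 31030307092) (nat_lit 228) (nat_lit 26820373224)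 (nat_lit 76) (nat_lit 1659536483) (nat_lit 58) (nat_lit 5) (nat_lit 61) (nat_lit 5) (nat_lit 59) (nat_lit 5) (nat_lit 424) (nat_lit 338) (nat_lit 138))))))) (XT.nd (nat_lit 40326) (nat_lit 0) (nat_lit 14820) (XT.nd (nat_lit 468) (nat_lit 380) (nat_lit 0) (XT.nd (nat_lit 234) (nat_lit 152) (nat_lit 0) (XT.nd (nat_lit 78) (nat_lit 228) (nat_lit 0) (XT.lf (nat_lit 0) (nat_lit 2532261616) (nat_lit 152) (nat_lit 42110513239) (nat_lit 228) (nat_lit 16139989552) (nat_lit 56) (nat_lit 5) (nat_lit 58) (nat_lit 5) (nat_lit 59) (nat_lit 5) (nat_lit 425) (nat_lit 338) (nat_lit 137)) (XT.nd (nat_lit 78) (nat_lit 228) (nat_lit 0) (XT.lf (nat_lit 0) (nat_lit 33310533465) (nat_lit 152) (nat_lit 25621234200) (nat_lit 228) (nat_lit 3153676707) (nat_lit 56) (nat_lit 5) (nat_lit 58) (nat_lit 5) (nat_lit 59) (nat_lit 5) (nat_lit 426) (nat_lit 338) (nat_lit 136)) (XT.lf (nat_lit 0) (nat_lit 1511533605) (nat_lit 152) (nat_lit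 8523119001) (nat_lit 228) (nat_lit 53389247706) (nat_lit 53) (nat_lit 5) (nat_lit 55) (nat_lit 5) (nat_lit 56) (nat_lit 5) (nat_lit 427) (nat_lit 338) (nat_lit 135)))) (XT.nd (nat_lit 78) (nat_lit 152) (nat_lit 0) (XT.lf (nat_lit 0) (nat_lit 23933434797) (nat_lit 228) (nat_lit 31623486018) (nat_lit 76) (nat_lit 9233307135) (nat_lit 53) (nat_lit 5) (nat_lit 56) (nat_lit 5) (nat_lit 54) (nat_lit 5) (nat_lit 428) (nat_lit 338) (nat_lit 134)) (XT.nd (nat_lit 78) (nat_lit 152) (nat_lit 0) (XT.lf (nat_lit 0) (nat_lit 38331026827) (nat_lit 228) (nat_lit 514852263) (nat_lit 76) (nat_lit 27349211342) (nat_lit 53) (nat_lit 5) (nat_lit 56) (nat_lit 5) (nat_lit 54) (nat_lit 5) (nat_lit 429) (nat_lit 338) (nat_lit 133)) (XT.lf (nat_lit 0) (nat_lit 32150008763) (nat_lit 152) (nat_lit 21317116474) (nat_lit 228) (nat_lit 14165776588) (nat_lit 51) (nat_lit 5) (nat_lit 53) (nat_lit 5) (nat_lit 54) (nat_lit 5) (nat_lit 430)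 (nat_lit 338) (nat_lit 132))))) (XT.nd (nat_lit 234) (nat_lit 152) (nat_lit 0) (XT.nd (nat_lit 78) (nat_lit 228) (nat_lit 0) (XT.lf (nat_lit 0) (nat_lit 65801018455) (nat_lit 152) (nat_lit 3259050234) (nat_lit 228) (nat_lit 53696390) (nat_lit 51) (nat_lit 5) (nat_lit 53) (nat_lit 5) (nat_lit 54) (nat_lit 5) (nat_lit 431) (nat_lit 338) (nat_lit 131)) (XT.nd (nat_lit 78) (nat_lit 0) (nat_lit 0) (XT.lf (nat_lit 0) (nat_lit 14639442136) (nat_lit 228) (nat_lit 40508231519) (nat_lit 76) (nat_lit 15473996106) (nat_lit 48) (nat_lit 5) (nat_lit 51) (nat_lit 5) (nat_lit 49) (nat_lit 5) (nat_lit 432) (nat_lit 338) (nat_lit 130)) (XT.lf (nat_lit 0) (nat_lit 29835968101) (nat_lit 228) (nat_lit 7600905622) (nat_lit 76) (nat_lit 34736012087) (nat_lit 48) (nat_lit 5) (nat_lit 51) (nat_lit 5) (nat_lit 49) (nat_lit 5) (nat_lit 433) (nat_lit 338) (nat_lit 129)))) (XT.nd (nat_lit 39468) (nat_lit 0) (nat_lit 15656) (XT.nd (nat_lit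 78) (nat_lit 0) (nat_lit 0) (XT.lf (nat_lit 0) (nat_lit 26812693405) (nat_lit 152) (nat_lit 18931126981) (nat_lit 228) (nat_lit 28019155377) (nat_lit 46) (nat_lit 5) (nat_lit 48) (nat_lit 5) (nat_lit 49) (nat_lit 5) (nat_lit 434) (nat_lit 338) (nat_lit 128)) (XT.lf (nat_lit 0) (nat_lit 62205370628) (nat_lit 228) (nat_lit 12990131088) (nat_lit 76) (nat_lit 202973159) (nat_lit 46) (nat_lit 5) (nat_lit 49) (nat_lit 5) (nat_lit 47) (nat_lit 4) (nat_lit 435) (nat_lit 338) (nat_lit 127))) (XT.nd (nat_lit 78) (nat_lit 0) (nat_lit 0) (XT.lf (nat_lit 0) (nat_lit 1514066646) (nat_lit 0) (nat_lit 1514066646) (nat_lit 1140) (nat_lit 3553699218) (nat_lit 252) (nat_lit 5) (nat_lit 252) (nat_lit 3) (nat_lit 267) (nat_lit 3) (nat_lit 339) (nat_lit 339) (nat_lit 222)) (XT.lf (nat_lit 0) (nat_lit 6557974905) (nat_lit 1140) (nat_lit 3865106966) (nat_lit 1216) (nat_lit 2925506079) (nat_lit 252) (nat_lit 5) (nat_lit 267) (nat_lit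 3) (nat_lit 268) (nat_lit 5) (nat_lit 340) (nat_lit 339) (nat_lit 221)))))) (XT.nd (nat_lit 546) (nat_lit 836) (nat_lit 0) (XT.nd (nat_lit 234) (nat_lit 0) (nat_lit 152) (XT.nd (nat_lit 78) (nat_lit 0) (nat_lit 76) (XT.lf (nat_lit 76) (nat_lit 2606322805) (nat_lit 0) (nat_lit 4508602915) (nat_lit 1216) (nat_lit 6422935153) (nat_lit 253) (nat_lit 5) (nat_lit 252) (nat_lit 5) (nat_lit 268) (nat_lit 5) (nat_lit 341) (nat_lit 339) (nat_lit 220)) (XT.nd (nat_lit 78) (nat_lit 0) (nat_lit 0) (XT.lf (nat_lit 0) (nat_lit 7728797005) (nat_lit 1140) (nat_lit 4404533267) (nat_lit 1216) (nat_lit 1598283163) (nat_lit 253) (nat_lit 5) (nat_lit 268) (nat_lit 5) (nat_lit 269) (nat_lit 5) (nat_lit 342) (nat_lit 339) (nat_lit 219)) (XT.lf (nat_lit 76) (nat_lit 2310562080) (nat_lit 0) (nat_lit 6103368398) (nat_lit 1216) (nat_lit 5515670295) (nat_lit 254) (nat_lit 5) (nat_lit 253) (nat_lit 5) (nat_lit 269) (nat_lit 5) (nat_lit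 343) (nat_lit 339) (nat_lit 218)))) (XT.nd (nat_lit 156) (nat_lit 0) (nat_lit 0) (XT.nd (nat_lit 78) (nat_lit 0) (nat_lit 0) (XT.lf (nat_lit 0) (nat_lit 9151948489) (nat_lit 1140) (nat_lit 4824826731) (nat_lit 1216) (nat_lit 155789959) (nat_lit 254) (nat_lit 5) (nat_lit 269) (nat_lit 5) (nat_lit 270) (nat_lit 5) (nat_lit 344) (nat_lit 339) (nat_lit 217)) (XT.lf (nat_lit 76) (nat_lit 2146356052) (nat_lit 0) (nat_lit 7833588904) (nat_lit 1216) (nat_lit 4359645570) (nat_lit 255) (nat_lit 5) (nat_lit 254) (nat_lit 5) (nat_lit 270) (nat_lit 5) (nat_lit 345) (nat_lit 339) (nat_lit 216))) (XT.nd (nat_lit 78) (nat_lit 0) (nat_lit 76) (XT.lf (nat_lit 76) (nat_lit 9417350716) (nat_lit 0) (nat_lit 1451234391) (nat_lit 1216) (nat_lit 3683174352) (nat_lit 255) (nat_lit 5) (nat_lit 254) (nat_lit 5) (nat_lit 270) (nat_lit 5) (nat_lit 346) (nat_lit 339) (nat_lit 215)) (XT.lf (nat_lit 76) (nat_lit 2119892095) (nat_lit 0)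 (nat_lit 9721114050) (nat_lit 1216) (nat_lit 2927580402) (nat_lit 256) (nat_lit 5) (nat_lit 255) (nat_lit 5) (nat_lit 271) (nat_lit 5) (nat_lit 347) (nat_lit 339) (nat_lit 214))))) (XT.nd (nat_lit 234) (nat_lit 1064) (nat_lit 0) (XT.nd (nat_lit 78) (nat_lit 0) (nat_lit 76) (XT.lf (nat_lit 76) (nat_lit 9674085263) (nat_lit 0) (nat_lit 3222376212) (nat_lit 1216) (nat_lit 2093847661) (nat_lit 256) (nat_lit 5) (nat_lit 255) (nat_lit 5) (nat_lit 271) (nat_lit 5) (nat_lit 348) (nat_lit 339) (nat_lit 213)) (XT.nd (nat_lit 78) (nat_lit 0) (nat_lit 0) (XT.lf (nat_lit 76) (nat_lit 2238036451) (nat_lit 0) (nat_lit 11788604250) (nat_lit 1216) (nat_lit 1190757248) (nat_lit 257) (nat_lit 5) (nat_lit 256) (nat_lit 5) (nat_lit 272) (nat_lit 5) (nat_lit 349) (nat_lit 339) (nat_lit 212)) (XT.lf (nat_lit 76) (nat_lit 10086957463) (nat_lit 0) (nat_lit 5177485097) (nat_lit 1216) (nat_lit 184651511) (nat_lit 257) (nat_lit 5)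 (nat_lit 256) (nat_lit 5) (nat_lit 272) (nat_lit 5) (nat_lit 350) (nat_lit 339) (nat_lit 211)))) (XT.nd (nat_lit 156) (nat_lit 0) (nat_lit 0) (XT.nd (nat_lit 78) (nat_lit 0) (nat_lit 0) (XT.lf (nat_lit 0) (nat_lit 863903317) (nat_lit 1216) (nat_lit 13187026420) (nat_lit 1292) (nat_lit 1635705026) (nat_lit 241) (nat_lit 5) (nat_lit 257) (nat_lit 5) (nat_lit 258) (nat_lit 5) (nat_lit 351) (nat_lit 339) (nat_lit 210)) (XT.lf (nat_lit 0) (nat_lit 2035087535) (nat_lit 1216) (nat_lit 5284853859) (nat_lit 1292) (nat_lit 8608464555) (nat_lit 241) (nat_lit 5) (nat_lit 257) (nat_lit 5) (nat_lit 258) (nat_lit 5) (nat_lit 352) (nat_lit 339) (nat_lit 209))) (XT.nd (nat_lit 78) (nat_lit 0) (nat_lit 76) (XT.lf (nat_lit 76) (nat_lit 2902602543) (nat_lit 0) (nat_lit 355967157) (nat_lit 1292) (nat_lit 12918351175) (nat_lit 242) (nat_lit 5) (nat_lit 241) (nat_lit 5) (nat_lit 258) (nat_lit 5) (nat_lit 353) (nat_lit 339) (nat_lit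 208)) (XT.lf (nat_lit 0) (nat_lit 4627694137) (nat_lit 1216) (nat_lit 5062010489) (nat_lit 1292) (nat_lit 6739923808) (nat_lit 242) (nat_lit 5) (nat_lit 258) (nat_lit 5) (nat_lit 259) (nat_lit 5) (nat_lit 354) (nat_lit 339) (nat_lit 207))))))))
noncomputable def xc194 : XT := (XT.nd (nat_lit 2106) (nat_lit 4332) (nat_lit 0) (XT.nd (nat_lit 1014) (nat_lit 3648) (nat_lit 0) (XT.nd (nat_lit 468) (nat_lit 2356) (nat_lit 0) (XT.nd (nat_lit 234) (nat_lit 608) (nat_lit 0) (XT.nd (nat_lit 78) (nat_lit 1140) (nat_lit 0) (XT.lf (nat_lit 76) (nat_lit 3452077095) (nat_lit 0) (nat_lit 2612342820) (nat_lit 1292) (nat_lit 10624706638) (nat_lit 243) (nat_lit 5) (nat_lit 242) (nat_lit 5) (nat_lit 259) (nat_lit 5) (nat_lit 355) (nat_lit 339) (nat_lit 206)) (XT.nd (nat_lit 78) (nat_lit 1216) (nat_lit 0) (XT.lf (nat_lit 0) (nat_lit 7630882968) (nat_lit 1216) (nat_lit 4683654520) (nat_lit 76) (nat_lit 4639278076) (nat_lit 243)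 (nat_lit 5) (nat_lit 259) (nat_lit 5) (nat_lit 244) (nat_lit 5) (nat_lit 356) (nat_lit 339) (nat_lit 205)) (XT.lf (nat_lit 0) (nat_lit 4173505573) (nat_lit 1216) (nat_lit 5127158735) (nat_lit 1292) (nat_lit 7924096073) (nat_lit 227) (nat_lit 5) (nat_lit 243) (nat_lit 5) (nat_lit 244) (nat_lit 5) (nat_lit 357) (nat_lit 339) (nat_lit 204)))) (XT.nd (nat_lit 78) (nat_lit 608) (nat_lit 0) (XT.lf (nat_lit 0) (nat_lit 11080733289) (nat_lit 1292) (nat_lit 4140997786) (nat_lit 76) (nat_lit 2280301367) (nat_lit 227) (nat_lit 5) (nat_lit 244) (nat_lit 5) (nat_lit 228) (nat_lit 5) (nat_lit 358) (nat_lit 339) (nat_lit 203)) (XT.nd (nat_lit 78) (nat_lit 0) (nat_lit 0) (XT.lf (nat_lit 0) (nat_lit 5076485995) (nat_lit 608) (nat_lit 7928109142) (nat_lit 684) (nat_lit 4780320390) (nat_lit 219) (nat_lit 5) (nat_lit 227) (nat_lit 5) (nat_lit 228) (nat_lit 5) (nat_lit 359) (nat_lit 339) (nat_lit 202)) (XT.lf (nat_lit 0) (nat_lit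 14647085286) (nat_lit 608) (nat_lit 371919465) (nat_lit 684) (nat_lit 3056299851) (nat_lit 219) (nat_lit 5) (nat_lit 227) (nat_lit 5) (nat_lit 228) (nat_lit 5) (nat_lit 360) (nat_lit 339) (nat_lit 201))))) (XT.nd (nat_lit 234) (nat_lit 1064) (nat_lit 0) (XT.nd (nat_lit 78) (nat_lit 684) (nat_lit 0) (XT.lf (nat_lit 0) (nat_lit 6171255787) (nat_lit 608) (nat_lit 11044435444) (nat_lit 684) (nat_lit 1155063105) (nat_lit 211) (nat_lit 5) (nat_lit 219) (nat_lit 5) (nat_lit 220) (nat_lit 5) (nat_lit 361) (nat_lit 339) (nat_lit 200)) (XT.nd (nat_lit 78) (nat_lit 608) (nat_lit 0) (XT.lf (nat_lit 0) (nat_lit 817550603) (nat_lit 684) (nat_lit 2565205222) (nat_lit 76) (nat_lit 15291183782) (nat_lit 210) (nat_lit 5) (nat_lit 219) (nat_lit 5) (nat_lit 211) (nat_lit 5) (nat_lit 362) (nat_lit 339) (nat_lit 199)) (XT.lf (nat_lit 0) (nat_lit 2933863188) (nat_lit 684) (nat_lit 11543586771) (nat_lit 76) (nat_lit 4505199264)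 (nat_lit 202) (nat_lit 5) (nat_lit 211) (nat_lit 5) (nat_lit 203) (nat_lit 5) (nat_lit 363) (nat_lit 339) (nat_lit 198)))) (XT.nd (nat_lit 156) (nat_lit 532) (nat_lit 0) (XT.nd (nat_lit 78) (nat_lit 532) (nat_lit 0) (XT.lf (nat_lit 0) (nat_lit 5165106485) (nat_lit 684) (nat_lit 1545896123) (nat_lit 76) (nat_lit 12588078122) (nat_lit 202) (nat_lit 5) (nat_lit 211) (nat_lit 5) (nat_lit 203) (nat_lit 5) (nat_lit 364) (nat_lit 339) (nat_lit 197)) (XT.lf (nat_lit 0) (nat_lit 7554269445) (nat_lit 608) (nat_lit 10718271933) (nat_lit 76) (nat_lit 1349738062) (nat_lit 195) (nat_lit 5) (nat_lit 203) (nat_lit 5) (nat_lit 196) (nat_lit 5) (nat_lit 365) (nat_lit 339) (nat_lit 196))) (XT.nd (nat_lit 78) (nat_lit 532) (nat_lit 0) (XT.lf (nat_lit 0) (nat_lit 10089498879) (nat_lit 608) (nat_lit 330468278) (nat_lit 76) (nat_lit 9532978828) (nat_lit 195) (nat_lit 5) (nat_lit 203) (nat_lit 5) (nat_lit 196) (nat_lit 5) (nat_lit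 366) (nat_lit 339) (nat_lit 195)) (XT.lf (nat_lit 0) (nat_lit 10567153335) (nat_lit 532) (nat_lit 2227618478) (nat_lit 608) (nat_lit 7495944632) (nat_lit 188) (nat_lit 5) (nat_lit 195) (nat_lit 5) (nat_lit 196) (nat_lit 5) (nat_lit 367) (nat_lit 339) (nat_lit 194)))))) (XT.nd (nat_lit 546) (nat_lit 1672) (nat_lit 0) (XT.nd (nat_lit 234) (nat_lit 912) (nat_lit 0) (XT.nd (nat_lit 78) (nat_lit 608) (nat_lit 0) (XT.lf (nat_lit 0) (nat_lit 1113797178) (nat_lit 456) (nat_lit 14533730212) (nat_lit 532) (nat_lit 4989106309) (nat_lit 182) (nat_lit 5) (nat_lit 188) (nat_lit 5) (nat_lit 189) (nat_lit 5) (nat_lit 368) (nat_lit 339) (nat_lit 193)) (XT.nd (nat_lit 78) (nat_lit 608) (nat_lit 0) (XT.lf (nat_lit 0) (nat_lit 12445024425) (nat_lit 456) (nat_lit 6253557558) (nat_lit 532) (nat_lit 2290968310) (nat_lit 182) (nat_lit 5) (nat_lit 188) (nat_lit 5) (nat_lit 189) (nat_lit 5) (nat_lit 369) (nat_lit 339) (nat_lit 192))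 (XT.lf (nat_lit 0) (nat_lit 520556147) (nat_lit 608) (nat_lit 18569309255) (nat_lit 76) (nat_lit 2261792331) (nat_lit 174) (nat_lit 5) (nat_lit 182) (nat_lit 5) (nat_lit 175) (nat_lit 5) (nat_lit 370) (nat_lit 339) (nat_lit 191)))) (XT.nd (nat_lit 156) (nat_lit 456) (nat_lit 0) (XT.nd (nat_lit 78) (nat_lit 456) (nat_lit 0) (XT.lf (nat_lit 0) (nat_lit 3512385770) (nat_lit 608) (nat_lit 7191430674) (nat_lit 76) (nat_lit 11015874330) (nat_lit 174) (nat_lit 5) (nat_lit 182) (nat_lit 5) (nat_lit 175) (nat_lit 5) (nat_lit 371) (nat_lit 339) (nat_lit 190)) (XT.lf (nat_lit 0) (nat_lit 4609854988) (nat_lit 456) (nat_lit 2021585291) (nat_lit 532) (nat_lit 15466203372) (nat_lit 168) (nat_lit 5) (nat_lit 174) (nat_lit 5) (nat_lit 175) (nat_lit 5) (nat_lit 372) (nat_lit 339) (nat_lit 189))) (XT.nd (nat_lit 78) (nat_lit 456) (nat_lit 0) (XT.lf (nat_lit 0) (nat_lit 9977205795) (nat_lit 532) (nat_lit 5647409815) (nat_lit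 76) (nat_lit 6858328181) (nat_lit 168) (nat_lit 5) (nat_lit 175) (nat_lit 5) (nat_lit 169) (nat_lit 5) (nat_lit 373) (nat_lit 339) (nat_lit 188)) (XT.lf (nat_lit 0) (nat_lit 6650165613) (nat_lit 456) (nat_lit 6850586857) (nat_lit 532) (nat_lit 9376730996) (nat_lit 162) (nat_lit 5) (nat_lit 168) (nat_lit 5) (nat_lit 169) (nat_lit 5) (nat_lit 374) (nat_lit 339) (nat_lit 187))))) (XT.nd (nat_lit 234) (nat_lit 1216) (nat_lit 0) (XT.nd (nat_lit 78) (nat_lit 456) (nat_lit 0) (XT.lf (nat_lit 0) (nat_lit 17202188609) (nat_lit 532) (nat_lit 3879172557) (nat_lit 76) (nat_lit 2200335368) (nat_lit 162) (nat_lit 5) (nat_lit 169) (nat_lit 5) (nat_lit 163) (nat_lit 5) (nat_lit 375) (nat_lit 339) (nat_lit 186)) (XT.nd (nat_lit 78) (nat_lit 76) (nat_lit 0) (XT.lf (nat_lit 0) (nat_lit 8938363982) (nat_lit 380) (nat_lit 12223810839) (nat_lit 456) (nat_lit 2531438580) (nat_lit 157) (nat_lit 5) (nat_lit 162) (nat_lit 5) (nat_lit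 163) (nat_lit 5) (nat_lit 376) (nat_lit 339) (nat_lit 185)) (XT.lf (nat_lit 0) (nat_lit 1134521718) (nat_lit 456) (nat_lit 1915646286) (nat_lit 76) (nat_lit 21066397443) (nat_lit 156) (nat_lit 5) (nat_lit 162) (nat_lit 5) (nat_lit 157) (nat_lit 5) (nat_lit 377) (nat_lit 339) (nat_lit 184)))) (XT.nd (nat_lit 156) (nat_lit 380) (nat_lit 0) (XT.nd (nat_lit 78) (nat_lit 380) (nat_lit 0) (XT.lf (nat_lit 0) (nat_lit 5026957886) (nat_lit 532) (nat_lit 13110121210) (nat_lit 76) (nat_lit 6409356146) (nat_lit 150) (nat_lit 5) (nat_lit 157) (nat_lit 5) (nat_lit 151) (nat_lit 5) (nat_lit 378) (nat_lit 339) (nat_lit 183)) (XT.lf (nat_lit 0) (nat_lit 205536804) (nat_lit 380) (nat_lit 8876416000) (nat_lit 456) (nat_lit 15905877083) (nat_lit 145) (nat_lit 5) (nat_lit 150) (nat_lit 5) (nat_lit 151) (nat_lit 5) (nat_lit 379) (nat_lit 339) (nat_lit 182))) (XT.nd (nat_lit 78) (nat_lit 380) (nat_lit 0) (XT.lf (nat_lit 0) (nat_lit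 13392818065) (nat_lit 456) (nat_lit 11264411356) (nat_lit 76) (nat_lit 781212590) (nat_lit 145) (nat_lit 5) (nat_lit 151) (nat_lit 5) (nat_lit 146) (nat_lit 5) (nat_lit 380) (nat_lit 339) (nat_lit 181)) (XT.lf (nat_lit 0) (nat_lit 2614716059) (nat_lit 380) (nat_lit 15325641934) (nat_lit 456) (nat_lit 7958996237) (nat_lit 140) (nat_lit 5) (nat_lit 145) (nat_lit 5) (nat_lit 146) (nat_lit 5) (nat_lit 381) (nat_lit 339) (nat_lit 180))))))) (XT.nd (nat_lit 1014) (nat_lit 1900) (nat_lit 0) (XT.nd (nat_lit 468) (nat_lit 1368) (nat_lit 0) (XT.nd (nat_lit 234) (nat_lit 684) (nat_lit 0) (XT.nd (nat_lit 78) (nat_lit 380) (nat_lit 0) (XT.lf (nat_lit 0) (nat_lit 17133771528) (nat_lit 380) (nat_lit 5598724679) (nat_lit 456) (nat_lit 3638354573) (nat_lit 140) (nat_lit 5) (nat_lit 145) (nat_lit 5) (nat_lit 146) (nat_lit 5) (nat_lit 382) (nat_lit 339) (nat_lit 179)) (XT.nd (nat_lit 78) (nat_lit 0) (nat_lit 0) (XT.lf (nat_lit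 0) (nat_lit 884793401) (nat_lit 380) (nat_lit 21577268445) (nat_lit 76) (nat_lit 4391536339) (nat_lit 135) (nat_lit 5) (nat_lit 140) (nat_lit 5) (nat_lit 136) (nat_lit 5) (nat_lit 383) (nat_lit 339) (nat_lit 178)) (XT.lf (nat_lit 0) (nat_lit 5614744703) (nat_lit 380) (nat_lit 7033244115) (nat_lit 76) (nat_lit 14697433358) (nat_lit 135) (nat_lit 5) (nat_lit 140) (nat_lit 5) (nat_lit 136) (nat_lit 5) (nat_lit 384) (nat_lit 339) (nat_lit 177)))) (XT.nd (nat_lit 78) (nat_lit 304) (nat_lit 0) (XT.lf (nat_lit 0) (nat_lit 8098008960) (nat_lit 380) (nat_lit 2461189160) (nat_lit 456) (nat_lit 17290626548) (nat_lit 130) (nat_lit 5) (nat_lit 135) (nat_lit 5) (nat_lit 136) (nat_lit 5) (nat_lit 385) (nat_lit 339) (nat_lit 176)) (XT.nd (nat_lit 78) (nat_lit 304) (nat_lit 0) (XT.lf (nat_lit 0) (nat_lit 15795738550) (nat_lit 456) (nat_lit 4624940355) (nat_lit 76) (nat_lit 7944369562) (nat_lit 130) (nat_lit 5) (nat_lit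 136) (nat_lit 5) (nat_lit 131) (nat_lit 5) (nat_lit 386) (nat_lit 339) (nat_lit 175)) (XT.lf (nat_lit 0) (nat_lit 11141817335) (nat_lit 304) (nat_lit 10174005992) (nat_lit 380) (nat_lit 7576113991) (nat_lit 126) (nat_lit 5) (nat_lit 130) (nat_lit 5) (nat_lit 131) (nat_lit 5) (nat_lit 387) (nat_lit 339) (nat_lit 174))))) (XT.nd (nat_lit 234) (nat_lit 684) (nat_lit 0) (XT.nd (nat_lit 78) (nat_lit 684) (nat_lit 0) (XT.lf (nat_lit 0) (nat_lit 27047368324) (nat_lit 380) (nat_lit 1967998564) (nat_lit 76) (nat_lit 417891946) (nat_lit 126) (nat_lit 5) (nat_lit 131) (nat_lit 5) (nat_lit 127) (nat_lit 5) (nat_lit 388) (nat_lit 339) (nat_lit 173)) (XT.nd (nat_lit 78) (nat_lit 304) (nat_lit 0) (XT.lf (nat_lit 0) (nat_lit 3139539157) (nat_lit 380) (nat_lit 15552319914) (nat_lit 76) (nat_lit 11290991128) (nat_lit 121) (nat_lit 5) (nat_lit 126) (nat_lit 5) (nat_lit 122) (nat_lit 5) (nat_lit 389) (nat_lit 339) (nat_lit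 172)) (XT.lf (nat_lit 0) (nat_lit 797914165) (nat_lit 304) (nat_lit 8007813468) (nat_lit 380) (nat_lit 21741806075) (nat_lit 117) (nat_lit 5) (nat_lit 121) (nat_lit 5) (nat_lit 122) (nat_lit 5) (nat_lit 390) (nat_lit 339) (nat_lit 171)))) (XT.nd (nat_lit 156) (nat_lit 380) (nat_lit 0) (XT.nd (nat_lit 78) (nat_lit 304) (nat_lit 0) (XT.lf (nat_lit 0) (nat_lit 14824575723) (nat_lit 380) (nat_lit 13204261535) (nat_lit 76) (nat_lit 3094841784) (nat_lit 117) (nat_lit 5) (nat_lit 122) (nat_lit 5) (nat_lit 118) (nat_lit 5) (nat_lit 391) (nat_lit 339) (nat_lit 170)) (XT.lf (nat_lit 0) (nat_lit 3826118459) (nat_lit 304) (nat_lit 17309337460) (nat_lit 380) (nat_lit 10578310307) (nat_lit 113) (nat_lit 5) (nat_lit 117) (nat_lit 5) (nat_lit 118) (nat_lit 5) (nat_lit 392) (nat_lit 339) (nat_lit 169))) (XT.nd (nat_lit 78) (nat_lit 380) (nat_lit 0) (XT.lf (nat_lit 0) (nat_lit 21631435276) (nat_lit 304) (nat_lit 6133036785)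 (nat_lit 380) (nat_lit 4553221129) (nat_lit 113) (nat_lit 5) (nat_lit 117) (nat_lit 5) (nat_lit 118) (nat_lit 5) (nat_lit 393) (nat_lit 339) (nat_lit 168)) (XT.lf (nat_lit 0) (nat_lit 1737163991) (nat_lit 380) (nat_lit 25841623622) (nat_lit 76) (nat_lit 5356971378) (nat_lit 108) (nat_lit 5) (nat_lit 113) (nat_lit 5) (nat_lit 109) (nat_lit 5) (nat_lit 394) (nat_lit 339) (nat_lit 167)))))) (XT.nd (nat_lit 546) (nat_lit 760) (nat_lit 0) (XT.nd (nat_lit 234) (nat_lit 836) (nat_lit 0) (XT.nd (nat_lit 78) (nat_lit 304) (nat_lit 0) (XT.lf (nat_lit 0) (nat_lit 8290053378) (nat_lit 380) (nat_lit 8055597334) (nat_lit 76) (nat_lit 17220405699) (nat_lit 108) (nat_lit 5) (nat_lit 113) (nat_lit 5) (nat_lit 109) (nat_lit 5) (nat_lit 395) (nat_lit 339) (nat_lit 166)) (XT.nd (nat_lit 78) (nat_lit 0) (nat_lit 0) (XT.lf (nat_lit 0) (nat_lit 10461755113) (nat_lit 304) (nat_lit 4674073242) (nat_lit 380) (nat_lit 19076546719)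 (nat_lit 104) (nat_lit 5) (nat_lit 108) (nat_lit 5) (nat_lit 109) (nat_lit 5) (nat_lit 396) (nat_lit 339) (nat_lit 165)) (XT.lf (nat_lit 0) (nat_lit 22335534756) (nat_lit 380) (nat_lit 5253763658) (nat_lit 76) (nat_lit 7284329388) (nat_lit 104) (nat_lit 5) (nat_lit 109) (nat_lit 5) (nat_lit 105) (nat_lit 5) (nat_lit 397) (nat_lit 339) (nat_lit 164)))) (XT.nd (nat_lit 156) (nat_lit 532) (nat_lit 0) (XT.nd (nat_lit 78) (nat_lit 76) (nat_lit 0) (XT.lf (nat_lit 0) (nat_lit 14019024579) (nat_lit 228) (nat_lit 15909145073) (nat_lit 304) (nat_lit 5621241553) (nat_lit 101) (nat_lit 5) (nat_lit 104) (nat_lit 5) (nat_lit 105) (nat_lit 5) (nat_lit 398) (nat_lit 339) (nat_lit 163)) (XT.lf (nat_lit 0) (nat_lit 1523280887) (nat_lit 304) (nat_lit 2287435691) (nat_lit 76) (nat_lit 32432834311) (nat_lit 100) (nat_lit 5) (nat_lit 104) (nat_lit 5) (nat_lit 101) (nat_lit 5) (nat_lit 399) (nat_lit 339) (nat_lit 162))) (XT.nd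 (nat_lit 78) (nat_lit 228) (nat_lit 0) (XT.lf (nat_lit 0) (nat_lit 9021861842) (nat_lit 380) (nat_lit 19218447953) (nat_lit 76) (nat_lit 8708955276) (nat_lit 96) (nat_lit 5) (nat_lit 101) (nat_lit 5) (nat_lit 97) (nat_lit 5) (nat_lit 400) (nat_lit 339) (nat_lit 161)) (XT.lf (nat_lit 0) (nat_lit 690430593) (nat_lit 228) (nat_lit 16118738055) (nat_lit 304) (nat_lit 20865070057) (nat_lit 93) (nat_lit 5) (nat_lit 96) (nat_lit 5) (nat_lit 97) (nat_lit 5) (nat_lit 401) (nat_lit 339) (nat_lit 160))))) (XT.nd (nat_lit 234) (nat_lit 456) (nat_lit 0) (XT.nd (nat_lit 78) (nat_lit 304) (nat_lit 0) (XT.lf (nat_lit 0) (nat_lit 21584461361) (nat_lit 228) (nat_lit 3435832293) (nat_lit 304) (nat_lit 13394962969) (nat_lit 93) (nat_lit 5) (nat_lit 96) (nat_lit 5) (nat_lit 97) (nat_lit 5) (nat_lit 402) (nat_lit 339) (nat_lit 159)) (XT.nd (nat_lit 78) (nat_lit 76) (nat_lit 0) (XT.lf (nat_lit 0) (nat_lit 3904462357) (nat_lit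 228) (nat_lit 29699590634) (nat_lit 304) (nat_lit 5570664088) (nat_lit 90) (nat_lit 5) (nat_lit 93) (nat_lit 5) (nat_lit 94) (nat_lit 5) (nat_lit 403) (nat_lit 339) (nat_lit 158)) (XT.lf (nat_lit 0) (nat_lit 2641703409) (nat_lit 304) (nat_lit 14410697515) (nat_lit 76) (nat_lit 22897786893) (nat_lit 89) (nat_lit 5) (nat_lit 93) (nat_lit 5) (nat_lit 90) (nat_lit 5) (nat_lit 404) (nat_lit 339) (nat_lit 157)))) (XT.nd (nat_lit 156) (nat_lit 228) (nat_lit 0) (XT.nd (nat_lit 78) (nat_lit 0) (nat_lit 0) (XT.lf (nat_lit 0) (nat_lit 7153245002) (nat_lit 228) (nat_lit 3900340712) (nat_lit 304) (nat_lit 29691729983) (nat_lit 86) (nat_lit 5) (nat_lit 89) (nat_lit 5) (nat_lit 90) (nat_lit 5) (nat_lit 405) (nat_lit 339) (nat_lit 156)) (XT.lf (nat_lit 0) (nat_lit 19953888265) (nat_lit 304) (nat_lit 12000450388) (nat_lit 76) (nat_lit 9602877749) (nat_lit 86) (nat_lit 5) (nat_lit 90) (nat_lit 5) (nat_lit 87) (nat_lit 5)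 (nat_lit 406) (nat_lit 339) (nat_lit 155))) (XT.nd (nat_lit 78) (nat_lit 0) (nat_lit 0) (XT.lf (nat_lit 0) (nat_lit 10397501980) (nat_lit 228) (nat_lit 18858745055) (nat_lit 304) (nat_lit 13133176555) (nat_lit 83) (nat_lit 5) (nat_lit 86) (nat_lit 5) (nat_lit 87) (nat_lit 5) (nat_lit 407) (nat_lit 339) (nat_lit 154)) (XT.lf (nat_lit 0) (nat_lit 33707754165) (nat_lit 228) (nat_lit 5247634446) (nat_lit 304) (nat_lit 4287677873) (nat_lit 83) (nat_lit 5) (nat_lit 86) (nat_lit 5) (nat_lit 87) (nat_lit 5) (nat_lit 408) (nat_lit 339) (nat_lit 153))))))))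
noncomputable def xc195 : XT := (XT.nd (nat_lit 41574) (nat_lit 0) (nat_lit 10640) (XT.nd (nat_lit 1014) (nat_lit 1140) (nat_lit 0) (XT.nd (nat_lit 468) (nat_lit 836) (nat_lit 0) (XT.nd (nat_lit 234) (nat_lit 228) (nat_lit 0) (XT.nd (nat_lit 78) (nat_lit 228) (nat_lit 0) (XT.lf (nat_lit 0) (nat_lit 4944514448) (nat_lit 228) (nat_lit 30390495120) (nat_lit 76) (nat_lit 8779455603) (nat_lit 80) (nat_lit 5) (nat_lit 83) (nat_lit 5) (nat_lit 81) (nat_lit 5) (nat_lit 409) (nat_lit 339) (nat_lit 152)) (XT.nd (nat_lit 78) (nat_lit 228) (nat_lit 0) (XT.lf (nat_lit 0) (nat_lit 14513316318) (nat_lit 228) (nat_lit 7233551335) (nat_lit 76) (nat_lit 23259490721) (nat_lit 80) (nat_lit 5) (nat_lit 83) (nat_lit 5) (nat_lit 81) (nat_lit 5) (nat_lit 410) (nat_lit 339) (nat_lit 151)) (XT.lf (nat_lit 0) (nat_lit 16943320909) (nat_lit 228) (nat_lit 7585453016) (nat_lit 304) (nat_lit 21391447454) (nat_lit 77) (nat_lit 5) (nat_lit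 80) (nat_lit 5) (nat_lit 81) (nat_lit 5) (nat_lit 411) (nat_lit 339) (nat_lit 150)))) (XT.nd (nat_lit 78) (nat_lit 228) (nat_lit 0) (XT.lf (nat_lit 0) (nat_lit 34982504952) (nat_lit 304) (nat_lit 4938977596) (nat_lit 76) (nat_lit 6935884170) (nat_lit 77) (nat_lit 5) (nat_lit 81) (nat_lit 5) (nat_lit 78) (nat_lit 5) (nat_lit 412) (nat_lit 339) (nat_lit 149)) (XT.nd (nat_lit 78) (nat_lit 76) (nat_lit 0) (XT.lf (nat_lit 0) (nat_lit 20132567038) (nat_lit 152) (nat_lit 25882751478) (nat_lit 228) (nat_lit 1799344495) (nat_lit 75) (nat_lit 5) (nat_lit 77) (nat_lit 5) (nat_lit 78) (nat_lit 5) (nat_lit 413) (nat_lit 339) (nat_lit 148)) (XT.lf (nat_lit 0) (nat_lit 8458260721) (nat_lit 228) (nat_lit 2829917756) (nat_lit 76) (nat_lit 37508609993) (nat_lit 74) (nat_lit 5) (nat_lit 77) (nat_lit 5) (nat_lit 75) (nat_lit 5) (nat_lit 414) (nat_lit 339) (nat_lit 147))))) (XT.nd (nat_lit 234) (nat_lit 456) (nat_lit 0) (XT.nd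 (nat_lit 78) (nat_lit 152) (nat_lit 0) (XT.lf (nat_lit 0) (nat_lit 19245716803) (nat_lit 304) (nat_lit 26642052936) (nat_lit 76) (nat_lit 3912325512) (nat_lit 71) (nat_lit 5) (nat_lit 75) (nat_lit 5) (nat_lit 72) (nat_lit 5) (nat_lit 415) (nat_lit 339) (nat_lit 146)) (XT.nd (nat_lit 78) (nat_lit 152) (nat_lit 0) (XT.lf (nat_lit 0) (nat_lit 30494383268) (nat_lit 304) (nat_lit 966189455) (nat_lit 76) (nat_lit 19368801546) (nat_lit 71) (nat_lit 5) (nat_lit 75) (nat_lit 5) (nat_lit 72) (nat_lit 5) (nat_lit 416) (nat_lit 339) (nat_lit 145)) (XT.lf (nat_lit 0) (nat_lit 25981951220) (nat_lit 152) (nat_lit 16345364372) (nat_lit 228) (nat_lit 9554812505) (nat_lit 69) (nat_lit 5) (nat_lit 71) (nat_lit 5) (nat_lit 72) (nat_lit 5) (nat_lit 417) (nat_lit 339) (nat_lit 144)))) (XT.nd (nat_lit 156) (nat_lit 152) (nat_lit 0) (XT.nd (nat_lit 78) (nat_lit 0) (nat_lit 0) (XT.lf (nat_lit 0) (nat_lit 787543458) (nat_lit 228)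 (nat_lit 745489690) (nat_lit 304) (nat_lit 51432550820) (nat_lit 65) (nat_lit 5) (nat_lit 68) (nat_lit 5) (nat_lit 69) (nat_lit 5) (nat_lit 418) (nat_lit 339) (nat_lit 143)) (XT.lf (nat_lit 0) (nat_lit 13169969000) (nat_lit 304) (nat_lit 25516382292) (nat_lit 76) (nat_lit 15380099812) (nat_lit 65) (nat_lit 5) (nat_lit 69) (nat_lit 5) (nat_lit 66) (nat_lit 5) (nat_lit 419) (nat_lit 339) (nat_lit 142))) (XT.nd (nat_lit 78) (nat_lit 0) (nat_lit 0) (XT.lf (nat_lit 0) (nat_lit 1971329884) (nat_lit 152) (nat_lit 23208177327) (nat_lit 228) (nat_lit 30020132758) (nat_lit 63) (nat_lit 5) (nat_lit 65) (nat_lit 5) (nat_lit 66) (nat_lit 5) (nat_lit 420) (nat_lit 339) (nat_lit 141)) (XT.lf (nat_lit 0) (nat_lit 30801899665) (nat_lit 152) (nat_lit 7002297047) (nat_lit 228) (nat_lit 18554982366) (nat_lit 63) (nat_lit 5) (nat_lit 65) (nat_lit 5) (nat_lit 66) (nat_lit 5) (nat_lit 421) (nat_lit 339) (nat_lit 140)))))) (XT.nd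 (nat_lit 546) (nat_lit 380) (nat_lit 0) (XT.nd (nat_lit 234) (nat_lit 380) (nat_lit 0) (XT.nd (nat_lit 78) (nat_lit 228) (nat_lit 0) (XT.lf (nat_lit 0) (nat_lit 2902622032) (nat_lit 152) (nat_lit 48023312830) (nat_lit 228) (nat_lit 6624020773) (nat_lit 61) (nat_lit 5) (nat_lit 63) (nat_lit 5) (nat_lit 64) (nat_lit 5) (nat_lit 422) (nat_lit 339) (nat_lit 139)) (XT.nd (nat_lit 78) (nat_lit 152) (nat_lit 0) (XT.lf (nat_lit 0) (nat_lit 5881560466) (nat_lit 228) (nat_lit 26159597594) (nat_lit 76) (nat_lit 26723847303) (nat_lit 60) (nat_lit 5) (nat_lit 63) (nat_lit 5) (nat_lit 61) (nat_lit 5) (nat_lit 423) (nat_lit 339) (nat_lit 138)) (XT.lf (nat_lit 0) (nat_lit 3174505911) (nat_lit 152) (nat_lit 15482531292) (nat_lit 228) (nat_lit 41356666393) (nat_lit 58) (nat_lit 5) (nat_lit 60) (nat_lit 5) (nat_lit 61) (nat_lit 5) (nat_lit 424) (nat_lit 339) (nat_lit 137)))) (XT.nd (nat_lit 156) (nat_lit 228) (nat_lit 0)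 (XT.nd (nat_lit 78) (nat_lit 152) (nat_lit 0) (XT.lf (nat_lit 0) (nat_lit 32095036906) (nat_lit 228) (nat_lit 27389435048) (nat_lit 76) (nat_lit 1807013517) (nat_lit 58) (nat_lit 5) (nat_lit 61) (nat_lit 5) (nat_lit 59) (nat_lit 5) (nat_lit 425) (nat_lit 339) (nat_lit 136)) (XT.lf (nat_lit 0) (nat_lit 2841469530) (nat_lit 152) (nat_lit 43272753531) (nat_lit 228) (nat_lit 16488036793) (nat_lit 56) (nat_lit 5) (nat_lit 58) (nat_lit 5) (nat_lit 59) (nat_lit 5) (nat_lit 426) (nat_lit 339) (nat_lit 135))) (XT.nd (nat_lit 78) (nat_lit 228) (nat_lit 0) (XT.lf (nat_lit 0) (nat_lit 34536296134) (nat_lit 152) (nat_lit 26291740057) (nat_lit 228) (nat_lit 3116100166) (nat_lit 56) (nat_lit 5) (nat_lit 58) (nat_lit 5) (nat_lit 59) (nat_lit 5) (nat_lit 427) (nat_lit 339) (nat_lit 134)) (XT.lf (nat_lit 0) (nat_lit 1783681401) (nat_lit 152) (nat_lit 8680023368) (nat_lit 228) (nat_lit 54859051550) (nat_lit 53) (nat_lit 5)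 (nat_lit 55) (nat_lit 5) (nat_lit 56) (nat_lit 5) (nat_lit 428) (nat_lit 339) (nat_lit 133))))) (XT.nd (nat_lit 234) (nat_lit 228) (nat_lit 0) (XT.nd (nat_lit 78) (nat_lit 152) (nat_lit 0) (XT.lf (nat_lit 0) (nat_lit 24776643867) (nat_lit 228) (nat_lit 32349168105) (nat_lit 76) (nat_lit 9604346611) (nat_lit 53) (nat_lit 5) (nat_lit 56) (nat_lit 5) (nat_lit 54) (nat_lit 5) (nat_lit 429) (nat_lit 339) (nat_lit 132)) (XT.nd (nat_lit 78) (nat_lit 152) (nat_lit 0) (XT.lf (nat_lit 0) (nat_lit 39602516881) (nat_lit 228) (nat_lit 313771138) (nat_lit 76) (nat_lit 28260988907) (nat_lit 53) (nat_lit 5) (nat_lit 56) (nat_lit 5) (nat_lit 54) (nat_lit 5) (nat_lit 430) (nat_lit 339) (nat_lit 131)) (XT.lf (nat_lit 0) (nat_lit 33328912907) (nat_lit 152) (nat_lit 21862305755) (nat_lit 228) (nat_lit 14467048952) (nat_lit 51) (nat_lit 5) (nat_lit 53) (nat_lit 5) (nat_lit 54) (nat_lit 5) (nat_lit 431) (nat_lit 339) (nat_lit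 130)))) (XT.nd (nat_lit 156) (nat_lit 0) (nat_lit 0) (XT.nd (nat_lit 78) (nat_lit 152) (nat_lit 0) (XT.lf (nat_lit 0) (nat_lit 63526411) (nat_lit 228) (nat_lit 3201076932) (nat_lit 76) (nat_lit 67919040213) (nat_lit 50) (nat_lit 5) (nat_lit 53) (nat_lit 5) (nat_lit 51) (nat_lit 5) (nat_lit 432) (nat_lit 339) (nat_lit 129)) (XT.lf (nat_lit 0) (nat_lit 15195839511) (nat_lit 228) (nat_lit 41512400409) (nat_lit 76) (nat_lit 16028546238) (nat_lit 48) (nat_lit 5) (nat_lit 51) (nat_lit 5) (nat_lit 49) (nat_lit 5) (nat_lit 433) (nat_lit 339) (nat_lit 128))) (XT.nd (nat_lit 39546) (nat_lit 0) (nat_lit 15504) (XT.lf (nat_lit 0) (nat_lit 30844847251) (nat_lit 228) (nat_lit 7624002639) (nat_lit 76) (nat_lit 35865791721) (nat_lit 48) (nat_lit 5) (nat_lit 51) (nat_lit 5) (nat_lit 49) (nat_lit 5) (nat_lit 434) (nat_lit 339) (nat_lit 127)) (XT.lf (nat_lit 0) (nat_lit 1748743202) (nat_lit 0) (nat_lit 1748743202) (nat_lit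 1140) (nat_lit 3270241672) (nat_lit 252) (nat_lit 5) (nat_lit 252) (nat_lit 3) (nat_lit 267) (nat_lit 3) (nat_lit 340) (nat_lit 340) (nat_lit 220))))))) (XT.nd (nat_lit 1014) (nat_lit 3952) (nat_lit 0) (XT.nd (nat_lit 468) (nat_lit 912) (nat_lit 0) (XT.nd (nat_lit 234) (nat_lit 0) (nat_lit 76) (XT.nd (nat_lit 78) (nat_lit 0) (nat_lit 0) (XT.lf (nat_lit 0) (nat_lit 7486150817) (nat_lit 1140) (nat_lit 3587597656) (nat_lit 1216) (nat_lit 2652957634) (nat_lit 252) (nat_lit 5) (nat_lit 267) (nat_lit 3) (nat_lit 268) (nat_lit 5) (nat_lit 341) (nat_lit 340) (nat_lit 219)) (XT.nd (nat_lit 78) (nat_lit 0) (nat_lit 76) (XT.lf (nat_lit 76) (nat_lit 3074117532) (nat_lit 0) (nat_lit 4968133766) (nat_lit 1216) (nat_lit 5879944231) (nat_lit 253) (nat_lit 5) (nat_lit 252) (nat_lit 5) (nat_lit 268) (nat_lit 5) (nat_lit 342) (nat_lit 340) (nat_lit 218)) (XT.lf (nat_lit 0) (nat_lit 8650719844) (nat_lit 1140) (nat_lit 4134219438)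 (nat_lit 1216) (nat_lit 1337547159) (nat_lit 253) (nat_lit 5) (nat_lit 268) (nat_lit 5) (nat_lit 269) (nat_lit 5) (nat_lit 343) (nat_lit 340) (nat_lit 217)))) (XT.nd (nat_lit 78) (nat_lit 0) (nat_lit 0) (XT.lf (nat_lit 76) (nat_lit 2778383183) (nat_lit 0) (nat_lit 6561756002) (nat_lit 1216) (nat_lit 4986773143) (nat_lit 254) (nat_lit 5) (nat_lit 253) (nat_lit 5) (nat_lit 269) (nat_lit 5) (nat_lit 344) (nat_lit 340) (nat_lit 216)) (XT.nd (nat_lit 78) (nat_lit 0) (nat_lit 76) (XT.lf (nat_lit 76) (nat_lit 9975488291) (nat_lit 0) (nat_lit 103611297) (nat_lit 1216) (nat_lit 4457512587) (nat_lit 254) (nat_lit 5) (nat_lit 253) (nat_lit 5) (nat_lit 269) (nat_lit 5) (nat_lit 345) (nat_lit 340) (nat_lit 215)) (XT.lf (nat_lit 76) (nat_lit 2616176204) (nat_lit 0) (nat_lit 8299682462) (nat_lit 1216) (nat_lit 3834482192) (nat_lit 255) (nat_lit 5) (nat_lit 254) (nat_lit 5) (nat_lit 270) (nat_lit 5) (nat_lit 346) (nat_lit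 340) (nat_lit 214))))) (XT.nd (nat_lit 234) (nat_lit 1064) (nat_lit 0) (XT.nd (nat_lit 78) (nat_lit 0) (nat_lit 76) (XT.lf (nat_lit 76) (nat_lit 10093492083) (nat_lit 0) (nat_lit 1719126657) (nat_lit 1216) (nat_lit 3156822257) (nat_lit 255) (nat_lit 5) (nat_lit 254) (nat_lit 5) (nat_lit 270) (nat_lit 5) (nat_lit 347) (nat_lit 340) (nat_lit 213)) (XT.nd (nat_lit 78) (nat_lit 0) (nat_lit 0) (XT.lf (nat_lit 76) (nat_lit 2594072404) (nat_lit 0) (nat_lit 10203993656) (nat_lit 1216) (nat_lit 2395200896) (nat_lit 256) (nat_lit 5) (nat_lit 255) (nat_lit 5) (nat_lit 271) (nat_lit 5) (nat_lit 348) (nat_lit 340) (nat_lit 212)) (XT.lf (nat_lit 76) (nat_lit 10362932624) (nat_lit 0) (nat_lit 3504723406) (nat_lit 1216) (nat_lit 1554520452) (nat_lit 256) (nat_lit 5) (nat_lit 255) (nat_lit 5) (nat_lit 271) (nat_lit 5) (nat_lit 349) (nat_lit 340) (nat_lit 211)))) (XT.nd (nat_lit 156) (nat_lit 0) (nat_lit 76) (XT.nd (nat_lit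 78) (nat_lit 1216) (nat_lit 0) (XT.lf (nat_lit 76) (nat_lit 2719328601) (nat_lit 0) (nat_lit 12297641792) (nat_lit 1216) (nat_lit 639559787) (nat_lit 257) (nat_lit 5) (nat_lit 256) (nat_lit 5) (nat_lit 272) (nat_lit 5) (nat_lit 350) (nat_lit 340) (nat_lit 210)) (XT.lf (nat_lit 0) (nat_lit 372226325) (nat_lit 1216) (nat_lit 5107678369) (nat_lit 1292) (nat_lit 10415669510) (nat_lit 240) (nat_lit 5) (nat_lit 256) (nat_lit 5) (nat_lit 257) (nat_lit 5) (nat_lit 351) (nat_lit 340) (nat_lit 209))) (XT.nd (nat_lit 78) (nat_lit 0) (nat_lit 0) (XT.lf (nat_lit 0) (nat_lit 1434873042) (nat_lit 1216) (nat_lit 13155211649) (nat_lit 1292) (nat_lit 1550519521) (nat_lit 241) (nat_lit 5) (nat_lit 257) (nat_lit 5) (nat_lit 258) (nat_lit 5) (nat_lit 352) (nat_lit 340) (nat_lit 208)) (XT.lf (nat_lit 0) (nat_lit 2625317468) (nat_lit 1216) (nat_lit 5028423199) (nat_lit 1292) (nat_lit 8736372224) (nat_lit 241) (nat_lit 5) (nat_lit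 257) (nat_lit 5) (nat_lit 258) (nat_lit 5) (nat_lit 353) (nat_lit 340) (nat_lit 207)))))) (XT.nd (nat_lit 546) (nat_lit 2356) (nat_lit 0) (XT.nd (nat_lit 234) (nat_lit 1672) (nat_lit 0) (XT.nd (nat_lit 78) (nat_lit 0) (nat_lit 76) (XT.lf (nat_lit 76) (nat_lit 3400588500) (nat_lit 0) (nat_lit 473452565) (nat_lit 1292) (nat_lit 12772393954) (nat_lit 242) (nat_lit 5) (nat_lit 241) (nat_lit 5) (nat_lit 258) (nat_lit 5) (nat_lit 354) (nat_lit 340) (nat_lit 206)) (XT.nd (nat_lit 78) (nat_lit 0) (nat_lit 0) (XT.lf (nat_lit 0) (nat_lit 5268163393) (nat_lit 1216) (nat_lit 4798600850) (nat_lit 1292) (nat_lit 6840449468) (nat_lit 242) (nat_lit 5) (nat_lit 258) (nat_lit 5) (nat_lit 259) (nat_lit 5) (nat_lit 355) (nat_lit 340) (nat_lit 205)) (XT.lf (nat_lit 76) (nat_lit 3966838087) (nat_lit 0) (nat_lit 2770494723) (nat_lit 1292) (nat_lit 10437491119) (nat_lit 243) (nat_lit 5) (nat_lit 242) (nat_lit 5) (nat_lit 259)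 (nat_lit 5) (nat_lit 356) (nat_lit 340) (nat_lit 204)))) (XT.nd (nat_lit 156) (nat_lit 608) (nat_lit 0) (XT.nd (nat_lit 78) (nat_lit 1216) (nat_lit 0) (XT.lf (nat_lit 0) (nat_lit 8335744785) (nat_lit 1216) (nat_lit 4409657350) (nat_lit 76) (nat_lit 4702510019) (nat_lit 243) (nat_lit 5) (nat_lit 259) (nat_lit 5) (nat_lit 244) (nat_lit 5) (nat_lit 357) (nat_lit 340) (nat_lit 203)) (XT.lf (nat_lit 0) (nat_lit 4709153754) (nat_lit 1216) (nat_lit 5336549046) (nat_lit 1292) (nat_lit 7681587003) (nat_lit 227) (nat_lit 5) (nat_lit 243) (nat_lit 5) (nat_lit 244) (nat_lit 5) (nat_lit 358) (nat_lit 340) (nat_lit 202))) (XT.nd (nat_lit 78) (nat_lit 608) (nat_lit 0) (XT.lf (nat_lit 0) (nat_lit 11865081828) (nat_lit 1292) (nat_lit 3852421283) (nat_lit 76) (nat_lit 2295806456) (nat_lit 227) (nat_lit 5) (nat_lit 244) (nat_lit 5) (nat_lit 228) (nat_lit 5) (nat_lit 359) (nat_lit 340) (nat_lit 201)) (XT.lf (nat_lit 0) (nat_lit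 5637539889) (nat_lit 608) (nat_lit 8199885979) (nat_lit 684) (nat_lit 4467536872) (nat_lit 219) (nat_lit 5) (nat_lit 227) (nat_lit 5) (nat_lit 228) (nat_lit 5) (nat_lit 360) (nat_lit 340) (nat_lit 200))))) (XT.nd (nat_lit 234) (nat_lit 1672) (nat_lit 0) (XT.nd (nat_lit 78) (nat_lit 684) (nat_lit 0) (XT.lf (nat_lit 0) (nat_lit 15483351548) (nat_lit 608) (nat_lit 416022254) (nat_lit 684) (nat_lit 2705082895) (nat_lit 219) (nat_lit 5) (nat_lit 227) (nat_lit 5) (nat_lit 228) (nat_lit 5) (nat_lit 361) (nat_lit 340) (nat_lit 199)) (XT.nd (nat_lit 78) (nat_lit 76) (nat_lit 0) (XT.lf (nat_lit 0) (nat_lit 6762648567) (nat_lit 608) (nat_lit 11390391602) (nat_lit 684) (nat_lit 756003582) (nat_lit 211) (nat_lit 5) (nat_lit 219) (nat_lit 5) (nat_lit 220) (nat_lit 5) (nat_lit 362) (nat_lit 340) (nat_lit 198)) (XT.lf (nat_lit 0) (nat_lit 1254939397) (nat_lit 684) (nat_lit 2239327182) (nat_lit 76) (nat_lit 15727310354)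 (nat_lit 210) (nat_lit 5) (nat_lit 219) (nat_lit 5) (nat_lit 211) (nat_lit 5) (nat_lit 363) (nat_lit 340) (nat_lit 197)))) (XT.nd (nat_lit 156) (nat_lit 1064) (nat_lit 0) (XT.nd (nat_lit 78) (nat_lit 0) (nat_lit 0) (XT.lf (nat_lit 0) (nat_lit 3426494944) (nat_lit 684) (nat_lit 11478624449) (nat_lit 76) (nat_lit 4634681516) (nat_lit 202) (nat_lit 5) (nat_lit 211) (nat_lit 5) (nat_lit 203) (nat_lit 5) (nat_lit 364) (nat_lit 340) (nat_lit 196)) (XT.lf (nat_lit 0) (nat_lit 5712890612) (nat_lit 684) (nat_lit 1192981817) (nat_lit 76) (nat_lit 12960211993) (nat_lit 202) (nat_lit 5) (nat_lit 211) (nat_lit 5) (nat_lit 203) (nat_lit 5) (nat_lit 365) (nat_lit 340) (nat_lit 195))) (XT.nd (nat_lit 78) (nat_lit 532) (nat_lit 0) (XT.lf (nat_lit 0) (nat_lit 8166185306) (nat_lit 608) (nat_lit 10632807300) (nat_lit 76) (nat_lit 1400218137) (nat_lit 195) (nat_lit 5) (nat_lit 203) (nat_lit 5) (nat_lit 196) (nat_lit 5) (nat_lit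 366) (nat_lit 340) (nat_lit 194)) (XT.lf (nat_lit 0) (nat_lit 55865866) (nat_lit 532) (nat_lit 10710920800) (nat_lit 608) (nat_lit 9773336365) (nat_lit 188) (nat_lit 5) (nat_lit 195) (nat_lit 5) (nat_lit 196) (nat_lit 5) (nat_lit 367) (nat_lit 340) (nat_lit 193))))))))
noncomputable def xc196 : XT := (XT.nd (nat_lit 2028) (nat_lit 3648) (nat_lit 0) (XT.nd (nat_lit 1014) (nat_lit 2432) (nat_lit 0) (XT.nd (nat_lit 468) (nat_lit 1748) (nat_lit 0) (XT.nd (nat_lit 234) (nat_lit 1064) (nat_lit 0) (XT.nd (nat_lit 78) (nat_lit 456) (nat_lit 0) (XT.lf (nat_lit 0) (nat_lit 11275451886) (nat_lit 532) (nat_lit 2270095026) (nat_lit 608) (nat_lit 7342714865) (nat_lit 188) (nat_lit 5) (nat_lit 195) (nat_lit 5) (nat_lit 196) (nat_lit 5) (nat_lit 368) (nat_lit 340) (nat_lit 192)) (XT.nd (nat_lit 78) (nat_lit 0) (nat_lit 0) (XT.lf (nat_lit 0) (nat_lit 1545493727) (nat_lit 456) (nat_lit 14931759895) (nat_lit 532) (nat_lit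 4767506771) (nat_lit 182) (nat_lit 5) (nat_lit 188) (nat_lit 5) (nat_lit 189) (nat_lit 5) (nat_lit 369) (nat_lit 340) (nat_lit 191)) (XT.lf (nat_lit 0) (nat_lit 13205057326) (nat_lit 456) (nat_lit 6404288340) (nat_lit 532) (nat_lit 1999238401) (nat_lit 182) (nat_lit 5) (nat_lit 188) (nat_lit 5) (nat_lit 189) (nat_lit 5) (nat_lit 370) (nat_lit 340) (nat_lit 190)))) (XT.nd (nat_lit 78) (nat_lit 456) (nat_lit 0) (XT.lf (nat_lit 0) (nat_lit 883467578) (nat_lit 608) (nat_lit 18726238776) (nat_lit 76) (nat_lit 2371932822) (nat_lit 174) (nat_lit 5) (nat_lit 182) (nat_lit 5) (nat_lit 175) (nat_lit 5) (nat_lit 371) (nat_lit 340) (nat_lit 189)) (XT.nd (nat_lit 78) (nat_lit 456) (nat_lit 0) (XT.lf (nat_lit 0) (nat_lit 3954936708) (nat_lit 608) (nat_lit 7018678685) (nat_lit 76) (nat_lit 11387405629) (nat_lit 174) (nat_lit 5) (nat_lit 182) (nat_lit 5) (nat_lit 175) (nat_lit 5) (nat_lit 372) (nat_lit 340) (nat_lit 188))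 (XT.lf (nat_lit 0) (nat_lit 5132836773) (nat_lit 456) (nat_lit 2028603160) (nat_lit 532) (nat_lit 15589060467) (nat_lit 168) (nat_lit 5) (nat_lit 174) (nat_lit 5) (nat_lit 175) (nat_lit 5) (nat_lit 373) (nat_lit 340) (nat_lit 187))))) (XT.nd (nat_lit 234) (nat_lit 1292) (nat_lit 0) (XT.nd (nat_lit 78) (nat_lit 456) (nat_lit 0) (XT.lf (nat_lit 0) (nat_lit 10598436500) (nat_lit 532) (nat_lit 5434071745) (nat_lit 76) (nat_lit 7115129659) (nat_lit 168) (nat_lit 5) (nat_lit 175) (nat_lit 5) (nat_lit 169) (nat_lit 5) (nat_lit 374) (nat_lit 340) (nat_lit 186)) (XT.nd (nat_lit 78) (nat_lit 0) (nat_lit 0) (XT.lf (nat_lit 0) (nat_lit 7228678393) (nat_lit 456) (nat_lit 6993278286) (nat_lit 532) (nat_lit 9332233062) (nat_lit 162) (nat_lit 5) (nat_lit 168) (nat_lit 5) (nat_lit 169) (nat_lit 5) (nat_lit 375) (nat_lit 340) (nat_lit 185)) (XT.lf (nat_lit 0) (nat_lit 18025813062) (nat_lit 532) (nat_lit 3618827231) (nat_lit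 76) (nat_lit 2326151460) (nat_lit 162) (nat_lit 5) (nat_lit 169) (nat_lit 5) (nat_lit 163) (nat_lit 5) (nat_lit 376) (nat_lit 340) (nat_lit 184)))) (XT.nd (nat_lit 156) (nat_lit 836) (nat_lit 0) (XT.nd (nat_lit 78) (nat_lit 76) (nat_lit 0) (XT.lf (nat_lit 0) (nat_lit 9579542066) (nat_lit 380) (nat_lit 12519684536) (nat_lit 456) (nat_lit 2296004446) (nat_lit 157) (nat_lit 5) (nat_lit 162) (nat_lit 5) (nat_lit 163) (nat_lit 5) (nat_lit 377) (nat_lit 340) (nat_lit 183)) (XT.lf (nat_lit 0) (nat_lit 1464966301) (nat_lit 456) (nat_lit 1604936286) (nat_lit 76) (nat_lit 21761149582) (nat_lit 156) (nat_lit 5) (nat_lit 162) (nat_lit 5) (nat_lit 157) (nat_lit 5) (nat_lit 378) (nat_lit 340) (nat_lit 182))) (XT.nd (nat_lit 78) (nat_lit 380) (nat_lit 0) (XT.lf (nat_lit 0) (nat_lit 5469751257) (nat_lit 532) (nat_lit 13130706622) (nat_lit 76) (nat_lit 6673496344) (nat_lit 150) (nat_lit 5) (nat_lit 157) (nat_lit 5) (nat_lit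 151) (nat_lit 5) (nat_lit 379) (nat_lit 340) (nat_lit 181)) (XT.lf (nat_lit 0) (nat_lit 580767032) (nat_lit 380) (nat_lit 9060672253) (nat_lit 456) (nat_lit 16087303459) (nat_lit 145) (nat_lit 5) (nat_lit 150) (nat_lit 5) (nat_lit 151) (nat_lit 5) (nat_lit 380) (nat_lit 340) (nat_lit 180)))))) (XT.nd (nat_lit 468) (nat_lit 1292) (nat_lit 0) (XT.nd (nat_lit 234) (nat_lit 760) (nat_lit 0) (XT.nd (nat_lit 78) (nat_lit 380) (nat_lit 0) (XT.lf (nat_lit 0) (nat_lit 14074036083) (nat_lit 456) (nat_lit 11236326628) (nat_lit 76) (nat_lit 882741593) (nat_lit 145) (nat_lit 5) (nat_lit 151) (nat_lit 5) (nat_lit 146) (nat_lit 5) (nat_lit 381) (nat_lit 340) (nat_lit 179)) (XT.nd (nat_lit 78) (nat_lit 0) (nat_lit 0) (XT.lf (nat_lit 0) (nat_lit 3055586207) (nat_lit 380) (nat_lit 15697761048) (nat_lit 456) (nat_lit 7914639427) (nat_lit 140) (nat_lit 5) (nat_lit 145) (nat_lit 5) (nat_lit 146) (nat_lit 5) (nat_lit 382) (nat_lit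 340) (nat_lit 178)) (XT.lf (nat_lit 0) (nat_lit 17999657165) (nat_lit 380) (nat_lit 5681589193) (nat_lit 456) (nat_lit 3472624921) (nat_lit 140) (nat_lit 5) (nat_lit 145) (nat_lit 5) (nat_lit 146) (nat_lit 5) (nat_lit 383) (nat_lit 340) (nat_lit 177)))) (XT.nd (nat_lit 78) (nat_lit 380) (nat_lit 0) (XT.lf (nat_lit 0) (nat_lit 1177258100) (nat_lit 380) (nat_lit 21863559891) (nat_lit 76) (nat_lit 4610314589) (nat_lit 135) (nat_lit 5) (nat_lit 140) (nat_lit 5) (nat_lit 136) (nat_lit 5) (nat_lit 384) (nat_lit 340) (nat_lit 176)) (XT.nd (nat_lit 78) (nat_lit 380) (nat_lit 0) (XT.lf (nat_lit 0) (nat_lit 6041362672) (nat_lit 380) (nat_lit 6893730169) (nat_lit 76) (nat_lit 15222853601) (nat_lit 135) (nat_lit 5) (nat_lit 140) (nat_lit 5) (nat_lit 136) (nat_lit 5) (nat_lit 385) (nat_lit 340) (nat_lit 175)) (XT.lf (nat_lit 0) (nat_lit 8688024113) (nat_lit 380) (nat_lit 2441942196) (nat_lit 456) (nat_lit 17547642913)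 (nat_lit 130) (nat_lit 5) (nat_lit 135) (nat_lit 5) (nat_lit 136) (nat_lit 5) (nat_lit 386) (nat_lit 340) (nat_lit 174))))) (XT.nd (nat_lit 234) (nat_lit 988) (nat_lit 0) (XT.nd (nat_lit 78) (nat_lit 304) (nat_lit 0) (XT.lf (nat_lit 0) (nat_lit 16517073827) (nat_lit 456) (nat_lit 4420105748) (nat_lit 76) (nat_lit 8271308669) (nat_lit 130) (nat_lit 5) (nat_lit 136) (nat_lit 5) (nat_lit 131) (nat_lit 5) (nat_lit 387) (nat_lit 340) (nat_lit 173)) (XT.nd (nat_lit 78) (nat_lit 0) (nat_lit 0) (XT.lf (nat_lit 0) (nat_lit 11816286214) (nat_lit 304) (nat_lit 10382537618) (nat_lit 380) (nat_lit 7552480605) (nat_lit 126) (nat_lit 5) (nat_lit 130) (nat_lit 5) (nat_lit 131) (nat_lit 5) (nat_lit 388) (nat_lit 340) (nat_lit 172)) (XT.lf (nat_lit 0) (nat_lit 28096124553) (nat_lit 380) (nat_lit 1690459947) (nat_lit 76) (nat_lit 522469299) (nat_lit 126) (nat_lit 5) (nat_lit 131) (nat_lit 5) (nat_lit 127) (nat_lit 5) (nat_lit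 389) (nat_lit 340) (nat_lit 171)))) (XT.nd (nat_lit 156) (nat_lit 304) (nat_lit 0) (XT.nd (nat_lit 78) (nat_lit 304) (nat_lit 0) (XT.lf (nat_lit 0) (nat_lit 3469743412) (nat_lit 380) (nat_lit 15680835511) (nat_lit 76) (nat_lit 11724598245) (nat_lit 121) (nat_lit 5) (nat_lit 126) (nat_lit 5) (nat_lit 122) (nat_lit 5) (nat_lit 390) (nat_lit 340) (nat_lit 170)) (XT.lf (nat_lit 0) (nat_lit 1156591336) (nat_lit 304) (nat_lit 8145669617) (nat_lit 380) (nat_lit 22154652199) (nat_lit 117) (nat_lit 5) (nat_lit 121) (nat_lit 5) (nat_lit 122) (nat_lit 5) (nat_lit 391) (nat_lit 340) (nat_lit 169))) (XT.nd (nat_lit 78) (nat_lit 304) (nat_lit 0) (XT.lf (nat_lit 0) (nat_lit 15495862134) (nat_lit 380) (nat_lit 13269513467) (nat_lit 76) (nat_lit 3285143820) (nat_lit 117) (nat_lit 5) (nat_lit 122) (nat_lit 5) (nat_lit 118) (nat_lit 5) (nat_lit 392) (nat_lit 340) (nat_lit 168)) (XT.lf (nat_lit 0) (nat_lit 4268534045) (nat_lit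 304) (nat_lit 17724085571) (nat_lit 380) (nat_lit 10665795219) (nat_lit 113) (nat_lit 5) (nat_lit 117) (nat_lit 5) (nat_lit 118) (nat_lit 5) (nat_lit 393) (nat_lit 340) (nat_lit 167))))))) (XT.nd (nat_lit 1014) (nat_lit 1596) (nat_lit 0) (XT.nd (nat_lit 468) (nat_lit 1140) (nat_lit 0) (XT.nd (nat_lit 234) (nat_lit 532) (nat_lit 0) (XT.nd (nat_lit 78) (nat_lit 380) (nat_lit 0) (XT.lf (nat_lit 0) (nat_lit 22598467686) (nat_lit 304) (nat_lit 6215540498) (nat_lit 380) (nat_lit 4466648445) (nat_lit 113) (nat_lit 5) (nat_lit 117) (nat_lit 5) (nat_lit 118) (nat_lit 5) (nat_lit 394) (nat_lit 340) (nat_lit 166)) (XT.nd (nat_lit 78) (nat_lit 0) (nat_lit 0) (XT.lf (nat_lit 0) (nat_lit 2005788097) (nat_lit 380) (nat_lit 26291990248) (nat_lit 76) (nat_lit 5619492820) (nat_lit 108) (nat_lit 5) (nat_lit 113) (nat_lit 5) (nat_lit 109) (nat_lit 5) (nat_lit 395) (nat_lit 340) (nat_lit 165)) (XT.lf (nat_lit 0) (nat_lit 8748958073)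 (nat_lit 380) (nat_lit 7981845757) (nat_lit 76) (nat_lit 17835864763) (nat_lit 108) (nat_lit 5) (nat_lit 113) (nat_lit 5) (nat_lit 109) (nat_lit 5) (nat_lit 396) (nat_lit 340) (nat_lit 164)))) (XT.nd (nat_lit 78) (nat_lit 228) (nat_lit 0) (XT.lf (nat_lit 0) (nat_lit 11087934916) (nat_lit 304) (nat_lit 4709051244) (nat_lit 380) (nat_lit 19435486108) (nat_lit 104) (nat_lit 5) (nat_lit 108) (nat_lit 5) (nat_lit 109) (nat_lit 5) (nat_lit 397) (nat_lit 340) (nat_lit 163)) (XT.nd (nat_lit 78) (nat_lit 228) (nat_lit 0) (XT.lf (nat_lit 0) (nat_lit 23207634415) (nat_lit 380) (nat_lit 5103037212) (nat_lit 76) (nat_lit 7603044223) (nat_lit 104) (nat_lit 5) (nat_lit 109) (nat_lit 5) (nat_lit 105) (nat_lit 5) (nat_lit 398) (nat_lit 340) (nat_lit 162)) (XT.lf (nat_lit 0) (nat_lit 14744911736) (nat_lit 228) (nat_lit 16280187035) (nat_lit 304) (nat_lit 5584764212) (nat_lit 101) (nat_lit 5) (nat_lit 104) (nat_lit 5) (nat_lit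 105) (nat_lit 5) (nat_lit 399) (nat_lit 340) (nat_lit 161))))) (XT.nd (nat_lit 234) (nat_lit 532) (nat_lit 0) (XT.nd (nat_lit 78) (nat_lit 532) (nat_lit 0) (XT.lf (nat_lit 0) (nat_lit 1764233744) (nat_lit 304) (nat_lit 2055694403) (nat_lit 76) (nat_lit 33505016933) (nat_lit 100) (nat_lit 5) (nat_lit 104) (nat_lit 5) (nat_lit 101) (nat_lit 5) (nat_lit 400) (nat_lit 340) (nat_lit 160)) (XT.nd (nat_lit 78) (nat_lit 228) (nat_lit 0) (XT.lf (nat_lit 0) (nat_lit 9485953343) (nat_lit 380) (nat_lit 19492765138) (nat_lit 76) (nat_lit 9073168363) (nat_lit 96) (nat_lit 5) (nat_lit 101) (nat_lit 5) (nat_lit 97) (nat_lit 5) (nat_lit 401) (nat_lit 340) (nat_lit 159)) (XT.lf (nat_lit 0) (nat_lit 1010416664) (nat_lit 228) (nat_lit 16493705438) (nat_lit 304) (nat_lit 21294571849) (nat_lit 93) (nat_lit 5) (nat_lit 96) (nat_lit 5) (nat_lit 97) (nat_lit 5) (nat_lit 402) (nat_lit 340) (nat_lit 158)))) (XT.nd (nat_lit 156) (nat_lit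 304) (nat_lit 0) (XT.nd (nat_lit 78) (nat_lit 228) (nat_lit 0) (XT.lf (nat_lit 0) (nat_lit 22522551661) (nat_lit 228) (nat_lit 3433475457) (nat_lit 304) (nat_lit 13606083402) (nat_lit 93) (nat_lit 5) (nat_lit 96) (nat_lit 5) (nat_lit 97) (nat_lit 5) (nat_lit 403) (nat_lit 340) (nat_lit 157)) (XT.lf (nat_lit 0) (nat_lit 4313849418) (nat_lit 228) (nat_lit 30481851110) (nat_lit 304) (nat_lit 5548703681) (nat_lit 90) (nat_lit 5) (nat_lit 93) (nat_lit 5) (nat_lit 94) (nat_lit 5) (nat_lit 404) (nat_lit 340) (nat_lit 156))) (XT.nd (nat_lit 78) (nat_lit 228) (nat_lit 0) (XT.lf (nat_lit 0) (nat_lit 2900945474) (nat_lit 304) (nat_lit 14555649492) (nat_lit 76) (nat_lit 23686652943) (nat_lit 89) (nat_lit 5) (nat_lit 93) (nat_lit 5) (nat_lit 90) (nat_lit 5) (nat_lit 405) (nat_lit 340) (nat_lit 155)) (XT.lf (nat_lit 0) (nat_lit 7652393957) (nat_lit 228) (nat_lit 3910283119) (nat_lit 304) (nat_lit 30399629099) (nat_lit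 86) (nat_lit 5) (nat_lit 89) (nat_lit 5) (nat_lit 90) (nat_lit 5) (nat_lit 406) (nat_lit 340) (nat_lit 154)))))) (XT.nd (nat_lit 546) (nat_lit 912) (nat_lit 0) (XT.nd (nat_lit 234) (nat_lit 456) (nat_lit 0) (XT.nd (nat_lit 78) (nat_lit 228) (nat_lit 0) (XT.lf (nat_lit 0) (nat_lit 20725818498) (nat_lit 304) (nat_lit 12079986815) (nat_lit 76) (nat_lit 9992884990) (nat_lit 86) (nat_lit 5) (nat_lit 90) (nat_lit 5) (nat_lit 87) (nat_lit 5) (nat_lit 407) (nat_lit 340) (nat_lit 153)) (XT.nd (nat_lit 78) (nat_lit 0) (nat_lit 0) (XT.lf (nat_lit 0) (nat_lit 10987154348) (nat_lit 228) (nat_lit 19317715398) (nat_lit 304) (nat_lit 13351066565) (nat_lit 83) (nat_lit 5) (nat_lit 86) (nat_lit 5) (nat_lit 87) (nat_lit 5) (nat_lit 408) (nat_lit 340) (nat_lit 152)) (XT.lf (nat_lit 0) (nat_lit 34988624954) (nat_lit 228) (nat_lit 5301381918) (nat_lit 304) (nat_lit 4245332203) (nat_lit 83) (nat_lit 5) (nat_lit 86) (nat_lit 5)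 (nat_lit 87) (nat_lit 5) (nat_lit 409) (nat_lit 340) (nat_lit 151)))) (XT.nd (nat_lit 156) (nat_lit 228) (nat_lit 0) (XT.nd (nat_lit 78) (nat_lit 0) (nat_lit 0) (XT.lf (nat_lit 0) (nat_lit 5259214620) (nat_lit 228) (nat_lit 31027882654) (nat_lit 76) (nat_lit 9145772542) (nat_lit 80) (nat_lit 5) (nat_lit 83) (nat_lit 5) (nat_lit 81) (nat_lit 5) (nat_lit 410) (nat_lit 340) (nat_lit 150)) (XT.lf (nat_lit 0) (nat_lit 15110234971) (nat_lit 228) (nat_lit 7184220672) (nat_lit 76) (nat_lit 24057210657) (nat_lit 80) (nat_lit 5) (nat_lit 83) (nat_lit 5) (nat_lit 81) (nat_lit 5) (nat_lit 411) (nat_lit 340) (nat_lit 149))) (XT.nd (nat_lit 78) (nat_lit 0) (nat_lit 0) (XT.lf (nat_lit 0) (nat_lit 17715346591) (nat_lit 228) (nat_lit 7708640370) (nat_lit 304) (nat_lit 21869024399) (nat_lit 77) (nat_lit 5) (nat_lit 80) (nat_lit 5) (nat_lit 81) (nat_lit 5) (nat_lit 412) (nat_lit 340) (nat_lit 148)) (XT.lf (nat_lit 0) (nat_lit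 36187662767) (nat_lit 304) (nat_lit 4827399946) (nat_lit 76) (nat_lit 7243319414) (nat_lit 77) (nat_lit 5) (nat_lit 81) (nat_lit 5) (nat_lit 78) (nat_lit 5) (nat_lit 413) (nat_lit 340) (nat_lit 147))))) (XT.nd (nat_lit 234) (nat_lit 456) (nat_lit 0) (XT.nd (nat_lit 78) (nat_lit 304) (nat_lit 0) (XT.lf (nat_lit 0) (nat_lit 20993744488) (nat_lit 152) (nat_lit 26555654172) (nat_lit 228) (nat_lit 1695061534) (nat_lit 75) (nat_lit 5) (nat_lit 77) (nat_lit 5) (nat_lit 78) (nat_lit 5) (nat_lit 414) (nat_lit 340) (nat_lit 146)) (XT.nd (nat_lit 78) (nat_lit 228) (nat_lit 0) (XT.lf (nat_lit 0) (nat_lit 8862663890) (nat_lit 228) (nat_lit 2662075655) (nat_lit 76) (nat_lit 38731400784) (nat_lit 74) (nat_lit 5) (nat_lit 77) (nat_lit 5) (nat_lit 75) (nat_lit 5) (nat_lit 415) (nat_lit 340) (nat_lit 145)) (XT.lf (nat_lit 0) (nat_lit 19972737839) (nat_lit 304) (nat_lit 27187537877) (nat_lit 76) (nat_lit 4129301710) (nat_lit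 71) (nat_lit 5) (nat_lit 75) (nat_lit 5) (nat_lit 72) (nat_lit 5) (nat_lit 416) (nat_lit 340) (nat_lit 144)))) (XT.nd (nat_lit 156) (nat_lit 304) (nat_lit 0) (XT.nd (nat_lit 78) (nat_lit 152) (nat_lit 0) (XT.lf (nat_lit 0) (nat_lit 31554505573) (nat_lit 304) (nat_lit 748790044) (nat_lit 76) (nat_lit 20046570867) (nat_lit 71) (nat_lit 5) (nat_lit 75) (nat_lit 5) (nat_lit 72) (nat_lit 5) (nat_lit 417) (nat_lit 340) (nat_lit 143)) (XT.lf (nat_lit 0) (nat_lit 27005379310) (nat_lit 152) (nat_lit 16735159970) (nat_lit 228) (nat_lit 9693721127) (nat_lit 69) (nat_lit 5) (nat_lit 71) (nat_lit 5) (nat_lit 72) (nat_lit 5) (nat_lit 418) (nat_lit 340) (nat_lit 142))) (XT.nd (nat_lit 78) (nat_lit 0) (nat_lit 0) (XT.lf (nat_lit 0) (nat_lit 1055630321) (nat_lit 228) (nat_lit 666377607) (nat_lit 304) (nat_lit 52828226328) (nat_lit 65) (nat_lit 5) (nat_lit 68) (nat_lit 5) (nat_lit 69) (nat_lit 5) (nat_lit 419) (nat_lit 340)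 (nat_lit 141)) (XT.lf (nat_lit 0) (nat_lit 13704834324) (nat_lit 304) (nat_lit 26041288971) (nat_lit 76) (nat_lit 15938101443) (nat_lit 65) (nat_lit 5) (nat_lit 69) (nat_lit 5) (nat_lit 66) (nat_lit 5) (nat_lit 420) (nat_lit 340) (nat_lit 140))))))))
noncomputable def xc197 : XT := (XT.nd (nat_lit 41652) (nat_lit 0) (nat_lit 7752) (XT.nd (nat_lit 1014) (nat_lit 152) (nat_lit 0) (XT.nd (nat_lit 468) (nat_lit 608) (nat_lit 0) (XT.nd (nat_lit 234) (nat_lit 228) (nat_lit 0) (XT.nd (nat_lit 78) (nat_lit 152) (nat_lit 0) (XT.lf (nat_lit 0) (nat_lit 2268695896) (nat_lit 152) (nat_lit 23804181899) (nat_lit 228) (nat_lit 30778585686) (nat_lit 63) (nat_lit 5) (nat_lit 65) (nat_lit 5) (nat_lit 66) (nat_lit 5) (nat_lit 421) (nat_lit 340) (nat_lit 139)) (XT.nd (nat_lit 78) (nat_lit 152) (nat_lit 0) (XT.lf (nat_lit 0) (nat_lit 31957244145) (nat_lit 152) (nat_lit 7115044843) (nat_lit 228) (nat_lit 18973621104) (nat_lit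 63) (nat_lit 5) (nat_lit 65) (nat_lit 5) (nat_lit 66) (nat_lit 5) (nat_lit 422) (nat_lit 340) (nat_lit 138)) (XT.lf (nat_lit 0) (nat_lit 3221799027) (nat_lit 152) (nat_lit 49365117656) (nat_lit 228) (nat_lit 6685516880) (nat_lit 61) (nat_lit 5) (nat_lit 63) (nat_lit 5) (nat_lit 64) (nat_lit 5) (nat_lit 423) (nat_lit 340) (nat_lit 137)))) (XT.nd (nat_lit 78) (nat_lit 152) (nat_lit 0) (XT.lf (nat_lit 0) (nat_lit 6188635214) (nat_lit 228) (nat_lit 26716424368) (nat_lit 76) (nat_lit 27618953891) (nat_lit 60) (nat_lit 5) (nat_lit 63) (nat_lit 5) (nat_lit 61) (nat_lit 5) (nat_lit 424) (nat_lit 340) (nat_lit 136)) (XT.nd (nat_lit 78) (nat_lit 0) (nat_lit 0) (XT.lf (nat_lit 0) (nat_lit 3495467329) (nat_lit 152) (nat_lit 15850274045) (nat_lit 228) (nat_lit 42464481000) (nat_lit 58) (nat_lit 5) (nat_lit 60) (nat_lit 5) (nat_lit 61) (nat_lit 5) (nat_lit 425) (nat_lit 340) (nat_lit 135)) (XT.lf (nat_lit 0) (nat_lit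 33184026765) (nat_lit 228) (nat_lit 27989090224) (nat_lit 76) (nat_lit 1953307003) (nat_lit 58) (nat_lit 5) (nat_lit 61) (nat_lit 5) (nat_lit 59) (nat_lit 5) (nat_lit 426) (nat_lit 340) (nat_lit 134))))) (XT.nd (nat_lit 234) (nat_lit 228) (nat_lit 0) (XT.nd (nat_lit 78) (nat_lit 228) (nat_lit 0) (XT.lf (nat_lit 0) (nat_lit 3146564747) (nat_lit 152) (nat_lit 44475663157) (nat_lit 228) (nat_lit 16854341157) (nat_lit 56) (nat_lit 5) (nat_lit 58) (nat_lit 5) (nat_lit 59) (nat_lit 5) (nat_lit 427) (nat_lit 340) (nat_lit 133)) (XT.nd (nat_lit 78) (nat_lit 228) (nat_lit 0) (XT.lf (nat_lit 0) (nat_lit 35785832718) (nat_lit 152) (nat_lit 26987994219) (nat_lit 228) (nat_lit 3084984396) (nat_lit 56) (nat_lit 5) (nat_lit 58) (nat_lit 5) (nat_lit 59) (nat_lit 5) (nat_lit 428) (nat_lit 340) (nat_lit 132)) (XT.lf (nat_lit 0) (nat_lit 2050974281) (nat_lit 152) (nat_lit 8847305770) (nat_lit 228) (nat_lit 56380519593) (nat_lit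 53) (nat_lit 5) (nat_lit 55) (nat_lit 5) (nat_lit 56) (nat_lit 5) (nat_lit 429) (nat_lit 340) (nat_lit 131)))) (XT.nd (nat_lit 156) (nat_lit 228) (nat_lit 0) (XT.nd (nat_lit 78) (nat_lit 0) (nat_lit 0) (XT.lf (nat_lit 0) (nat_lit 25637961871) (nat_lit 228) (nat_lit 33109423058) (nat_lit 76) (nat_lit 9981118976) (nat_lit 53) (nat_lit 5) (nat_lit 56) (nat_lit 5) (nat_lit 54) (nat_lit 5) (nat_lit 430) (nat_lit 340) (nat_lit 130)) (XT.lf (nat_lit 0) (nat_lit 40905173638) (nat_lit 228) (nat_lit 119087097) (nat_lit 76) (nat_lit 29194878736) (nat_lit 53) (nat_lit 5) (nat_lit 56) (nat_lit 5) (nat_lit 54) (nat_lit 5) (nat_lit 431) (nat_lit 340) (nat_lit 129))) (XT.nd (nat_lit 78) (nat_lit 76) (nat_lit 0) (XT.lf (nat_lit 0) (nat_lit 34530876516) (nat_lit 152) (nat_lit 22429265311) (nat_lit 228) (nat_lit 14784460426) (nat_lit 51) (nat_lit 5) (nat_lit 53) (nat_lit 5) (nat_lit 54) (nat_lit 5) (nat_lit 432) (nat_lit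 340) (nat_lit 128)) (XT.lf (nat_lit 0) (nat_lit 176427066) (nat_lit 228) (nat_lit 3098673530) (nat_lit 76) (nat_lit 70040705651) (nat_lit 50) (nat_lit 5) (nat_lit 53) (nat_lit 5) (nat_lit 51) (nat_lit 5) (nat_lit 433) (nat_lit 340) (nat_lit 127)))))) (XT.nd (nat_lit 40092) (nat_lit 0) (nat_lit 14592) (XT.nd (nat_lit 39780) (nat_lit 0) (nat_lit 15504) (XT.nd (nat_lit 39624) (nat_lit 0) (nat_lit 15504) (XT.lf (nat_lit 0) (nat_lit 15762200237) (nat_lit 228) (nat_lit 42558811109) (nat_lit 76) (nat_lit 16594547549) (nat_lit 48) (nat_lit 5) (nat_lit 51) (nat_lit 5) (nat_lit 49) (nat_lit 5) (nat_lit 434) (nat_lit 340) (nat_lit 126)) (XT.nd (nat_lit 78) (nat_lit 0) (nat_lit 0) (XT.lf (nat_lit 0) (nat_lit 1979596068) (nat_lit 0) (nat_lit 1979596068) (nat_lit 1140) (nat_lit 3000671929) (nat_lit 252) (nat_lit 5) (nat_lit 252) (nat_lit 3) (nat_lit 267) (nat_lit 3) (nat_lit 341) (nat_lit 341) (nat_lit 218)) (XT.lf (nat_lit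 0) (nat_lit 8400184549) (nat_lit 1140) (nat_lit 3324349426) (nat_lit 1216) (nat_lit 2392916211) (nat_lit 252) (nat_lit 5) (nat_lit 267) (nat_lit 3) (nat_lit 268) (nat_lit 5) (nat_lit 342) (nat_lit 341) (nat_lit 217)))) (XT.nd (nat_lit 156) (nat_lit 0) (nat_lit 76) (XT.nd (nat_lit 78) (nat_lit 0) (nat_lit 76) (XT.lf (nat_lit 76) (nat_lit 3533581177) (nat_lit 0) (nat_lit 5422835959) (nat_lit 1216) (nat_lit 5362894564) (nat_lit 253) (nat_lit 5) (nat_lit 252) (nat_lit 5) (nat_lit 268) (nat_lit 5) (nat_lit 343) (nat_lit 341) (nat_lit 216)) (XT.lf (nat_lit 0) (nat_lit 9560688164) (nat_lit 1140) (nat_lit 3878898461) (nat_lit 1216) (nat_lit 1086708828) (nat_lit 253) (nat_lit 5) (nat_lit 268) (nat_lit 5) (nat_lit 269) (nat_lit 5) (nat_lit 344) (nat_lit 341) (nat_lit 215))) (XT.nd (nat_lit 78) (nat_lit 0) (nat_lit 0) (XT.lf (nat_lit 76) (nat_lit 3237363145) (nat_lit 0) (nat_lit 7018092660) (nat_lit 1216) (nat_lit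 4481868597) (nat_lit 254) (nat_lit 5) (nat_lit 253) (nat_lit 5) (nat_lit 269) (nat_lit 5) (nat_lit 345) (nat_lit 341) (nat_lit 214)) (XT.lf (nat_lit 76) (nat_lit 10639440771) (nat_lit 0) (nat_lit 358645828) (nat_lit 1216) (nat_lit 3955793557) (nat_lit 254) (nat_lit 5) (nat_lit 253) (nat_lit 5) (nat_lit 269) (nat_lit 5) (nat_lit 346) (nat_lit 341) (nat_lit 213))))) (XT.nd (nat_lit 234) (nat_lit 1064) (nat_lit 0) (XT.nd (nat_lit 78) (nat_lit 0) (nat_lit 0) (XT.lf (nat_lit 76) (nat_lit 3076817651) (nat_lit 0) (nat_lit 8766493552) (nat_lit 1216) (nat_lit 3331218284) (nat_lit 255) (nat_lit 5) (nat_lit 254) (nat_lit 5) (nat_lit 270) (nat_lit 5) (nat_lit 347) (nat_lit 341) (nat_lit 212)) (XT.nd (nat_lit 78) (nat_lit 0) (nat_lit 76) (XT.lf (nat_lit 76) (nat_lit 10767322243) (nat_lit 0) (nat_lit 1982176783) (nat_lit 1216) (nat_lit 2651237241) (nat_lit 255) (nat_lit 5) (nat_lit 254) (nat_lit 5) (nat_lit 270) (nat_lit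 5) (nat_lit 348) (nat_lit 341) (nat_lit 211)) (XT.lf (nat_lit 76) (nat_lit 3058908948) (nat_lit 0) (nat_lit 10690381336) (nat_lit 1216) (nat_lit 1882452419) (nat_lit 256) (nat_lit 5) (nat_lit 255) (nat_lit 5) (nat_lit 271) (nat_lit 5) (nat_lit 349) (nat_lit 341) (nat_lit 210)))) (XT.nd (nat_lit 156) (nat_lit 1140) (nat_lit 0) (XT.nd (nat_lit 78) (nat_lit 0) (nat_lit 76) (XT.lf (nat_lit 76) (nat_lit 11049562711) (nat_lit 0) (nat_lit 3784882458) (nat_lit 1216) (nat_lit 1033578878) (nat_lit 256) (nat_lit 5) (nat_lit 255) (nat_lit 5) (nat_lit 271) (nat_lit 5) (nat_lit 350) (nat_lit 341) (nat_lit 209)) (XT.lf (nat_lit 76) (nat_lit 3191285550) (nat_lit 0) (nat_lit 12813031046) (nat_lit 1216) (nat_lit 105518021) (nat_lit 257) (nat_lit 5) (nat_lit 256) (nat_lit 5) (nat_lit 272) (nat_lit 5) (nat_lit 351) (nat_lit 341) (nat_lit 208))) (XT.nd (nat_lit 78) (nat_lit 0) (nat_lit 76) (XT.lf (nat_lit 0) (nat_lit 910027171)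 (nat_lit 1216) (nat_lit 4871150868) (nat_lit 1292) (nat_lit 10575194453) (nat_lit 240) (nat_lit 5) (nat_lit 256) (nat_lit 5) (nat_lit 257) (nat_lit 5) (nat_lit 352) (nat_lit 341) (nat_lit 207)) (XT.lf (nat_lit 0) (nat_lit 1991683609) (nat_lit 1216) (nat_lit 13146978411) (nat_lit 1292) (nat_lit 1470485333) (nat_lit 241) (nat_lit 5) (nat_lit 257) (nat_lit 5) (nat_lit 258) (nat_lit 5) (nat_lit 353) (nat_lit 341) (nat_lit 206))))))) (XT.nd (nat_lit 1014) (nat_lit 3952) (nat_lit 0) (XT.nd (nat_lit 468) (nat_lit 1900) (nat_lit 0) (XT.nd (nat_lit 234) (nat_lit 1064) (nat_lit 0) (XT.nd (nat_lit 78) (nat_lit 0) (nat_lit 0) (XT.lf (nat_lit 0) (nat_lit 3202877357) (nat_lit 1216) (nat_lit 4788120956) (nat_lit 1292) (nat_lit 8875599532) (nat_lit 241) (nat_lit 5) (nat_lit 257) (nat_lit 5) (nat_lit 258) (nat_lit 5) (nat_lit 354) (nat_lit 341) (nat_lit 205)) (XT.nd (nat_lit 78) (nat_lit 0) (nat_lit 76) (XT.lf (nat_lit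 76) (nat_lit 3889926242) (nat_lit 0) (nat_lit 588331411) (nat_lit 1292) (nat_lit 12652683543) (nat_lit 242) (nat_lit 5) (nat_lit 241) (nat_lit 5) (nat_lit 258) (nat_lit 5) (nat_lit 355) (nat_lit 341) (nat_lit 204)) (XT.lf (nat_lit 0) (nat_lit 5899050629) (nat_lit 1216) (nat_lit 4551127116) (nat_lit 1292) (nat_lit 6949827290) (nat_lit 242) (nat_lit 5) (nat_lit 258) (nat_lit 5) (nat_lit 259) (nat_lit 5) (nat_lit 356) (nat_lit 341) (nat_lit 203)))) (XT.nd (nat_lit 78) (nat_lit 1140) (nat_lit 0) (XT.lf (nat_lit 76) (nat_lit 4473437423) (nat_lit 0) (nat_lit 2928811391) (nat_lit 1292) (nat_lit 10273703120) (nat_lit 243) (nat_lit 5) (nat_lit 242) (nat_lit 5) (nat_lit 259) (nat_lit 5) (nat_lit 357) (nat_lit 341) (nat_lit 202)) (XT.nd (nat_lit 78) (nat_lit 1216) (nat_lit 0) (XT.lf (nat_lit 0) (nat_lit 9034431822) (nat_lit 1216) (nat_lit 4151234651) (nat_lit 76) (nat_lit 4771998554) (nat_lit 243) (nat_lit 5) (nat_lit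 259) (nat_lit 5) (nat_lit 244) (nat_lit 5) (nat_lit 358) (nat_lit 341) (nat_lit 201)) (XT.lf (nat_lit 0) (nat_lit 5237310272) (nat_lit 1216) (nat_lit 5549030803) (nat_lit 1292) (nat_lit 7459369939) (nat_lit 227) (nat_lit 5) (nat_lit 243) (nat_lit 5) (nat_lit 244) (nat_lit 5) (nat_lit 359) (nat_lit 341) (nat_lit 200))))) (XT.nd (nat_lit 234) (nat_lit 1292) (nat_lit 0) (XT.nd (nat_lit 78) (nat_lit 608) (nat_lit 0) (XT.lf (nat_lit 0) (nat_lit 12647018391) (nat_lit 1292) (nat_lit 3578884264) (nat_lit 76) (nat_lit 2314813601) (nat_lit 227) (nat_lit 5) (nat_lit 244) (nat_lit 5) (nat_lit 228) (nat_lit 5) (nat_lit 360) (nat_lit 341) (nat_lit 199)) (XT.nd (nat_lit 78) (nat_lit 0) (nat_lit 0) (XT.lf (nat_lit 0) (nat_lit 6191960943) (nat_lit 608) (nat_lit 8477868195) (nat_lit 684) (nat_lit 4171557200) (nat_lit 219) (nat_lit 5) (nat_lit 227) (nat_lit 5) (nat_lit 228) (nat_lit 5) (nat_lit 361) (nat_lit 341) (nat_lit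 198)) (XT.lf (nat_lit 0) (nat_lit 16321924772) (nat_lit 608) (nat_lit 459556938) (nat_lit 684) (nat_lit 2368754044) (nat_lit 219) (nat_lit 5) (nat_lit 227) (nat_lit 5) (nat_lit 228) (nat_lit 5) (nat_lit 362) (nat_lit 341) (nat_lit 197)))) (XT.nd (nat_lit 156) (nat_lit 608) (nat_lit 0) (XT.nd (nat_lit 78) (nat_lit 76) (nat_lit 0) (XT.lf (nat_lit 0) (nat_lit 7348462426) (nat_lit 608) (nat_lit 11745887019) (nat_lit 684) (nat_lit 369869083) (nat_lit 211) (nat_lit 5) (nat_lit 219) (nat_lit 5) (nat_lit 220) (nat_lit 5) (nat_lit 363) (nat_lit 341) (nat_lit 196)) (XT.lf (nat_lit 0) (nat_lit 1681749871) (nat_lit 684) (nat_lit 1926797133) (nat_lit 76) (nat_lit 16177818568) (nat_lit 210) (nat_lit 5) (nat_lit 219) (nat_lit 5) (nat_lit 211) (nat_lit 5) (nat_lit 364) (nat_lit 341) (nat_lit 195))) (XT.nd (nat_lit 78) (nat_lit 0) (nat_lit 0) (XT.lf (nat_lit 0) (nat_lit 3910679049) (nat_lit 684) (nat_lit 11435321834) (nat_lit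 76) (nat_lit 4768373930) (nat_lit 202) (nat_lit 5) (nat_lit 211) (nat_lit 5) (nat_lit 203) (nat_lit 5) (nat_lit 365) (nat_lit 341) (nat_lit 194)) (XT.lf (nat_lit 0) (nat_lit 6254558162) (nat_lit 684) (nat_lit 852401030) (nat_lit 76) (nat_lit 13343826090) (nat_lit 202) (nat_lit 5) (nat_lit 211) (nat_lit 5) (nat_lit 203) (nat_lit 5) (nat_lit 366) (nat_lit 341) (nat_lit 193)))))) (XT.nd (nat_lit 546) (nat_lit 1824) (nat_lit 0) (XT.nd (nat_lit 234) (nat_lit 1064) (nat_lit 0) (XT.nd (nat_lit 78) (nat_lit 532) (nat_lit 0) (XT.lf (nat_lit 0) (nat_lit 8774341549) (nat_lit 608) (nat_lit 10568142927) (nat_lit 76) (nat_lit 1451639266) (nat_lit 195) (nat_lit 5) (nat_lit 203) (nat_lit 5) (nat_lit 196) (nat_lit 5) (nat_lit 367) (nat_lit 341) (nat_lit 192)) (XT.nd (nat_lit 78) (nat_lit 0) (nat_lit 0) (XT.lf (nat_lit 0) (nat_lit 437429173) (nat_lit 532) (nat_lit 11008605698) (nat_lit 608) (nat_lit 9699441208) (nat_lit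 188) (nat_lit 5) (nat_lit 195) (nat_lit 5) (nat_lit 196) (nat_lit 5) (nat_lit 368) (nat_lit 341) (nat_lit 191)) (XT.lf (nat_lit 0) (nat_lit 11982538095) (nat_lit 532) (nat_lit 2315243774) (nat_lit 608) (nat_lit 7206593157) (nat_lit 188) (nat_lit 5) (nat_lit 195) (nat_lit 5) (nat_lit 196) (nat_lit 5) (nat_lit 369) (nat_lit 341) (nat_lit 190)))) (XT.nd (nat_lit 156) (nat_lit 608) (nat_lit 0) (XT.nd (nat_lit 78) (nat_lit 0) (nat_lit 0) (XT.lf (nat_lit 0) (nat_lit 1967278120) (nat_lit 456) (nat_lit 15343910804) (nat_lit 532) (nat_lit 4560571821) (nat_lit 182) (nat_lit 5) (nat_lit 188) (nat_lit 5) (nat_lit 189) (nat_lit 5) (nat_lit 370) (nat_lit 341) (nat_lit 189)) (XT.lf (nat_lit 0) (nat_lit 13965694076) (nat_lit 456) (nat_lit 6561657876) (nat_lit 532) (nat_lit 1719448414) (nat_lit 182) (nat_lit 5) (nat_lit 188) (nat_lit 5) (nat_lit 189) (nat_lit 5) (nat_lit 371) (nat_lit 341) (nat_lit 188))) (XT.nd (nat_lit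 78) (nat_lit 0) (nat_lit 0) (XT.lf (nat_lit 0) (nat_lit 1237330213) (nat_lit 608) (nat_lit 18910846415) (nat_lit 76) (nat_lit 2482950098) (nat_lit 174) (nat_lit 5) (nat_lit 182) (nat_lit 5) (nat_lit 175) (nat_lit 5) (nat_lit 372) (nat_lit 341) (nat_lit 187)) (XT.lf (nat_lit 0) (nat_lit 4391408700) (nat_lit 608) (nat_lit 6863045333) (nat_lit 76) (nat_lit 11767726139) (nat_lit 174) (nat_lit 5) (nat_lit 182) (nat_lit 5) (nat_lit 175) (nat_lit 5) (nat_lit 373) (nat_lit 341) (nat_lit 186))))) (XT.nd (nat_lit 234) (nat_lit 912) (nat_lit 0) (XT.nd (nat_lit 78) (nat_lit 456) (nat_lit 0) (XT.lf (nat_lit 0) (nat_lit 5649425454) (nat_lit 456) (nat_lit 2038910128) (nat_lit 532) (nat_lit 15735185475) (nat_lit 168) (nat_lit 5) (nat_lit 174) (nat_lit 5) (nat_lit 175) (nat_lit 5) (nat_lit 374) (nat_lit 341) (nat_lit 185)) (XT.nd (nat_lit 78) (nat_lit 456) (nat_lit 0) (XT.lf (nat_lit 0) (nat_lit 11219824915) (nat_lit 532)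 (nat_lit 5236305544) (nat_lit 76) (nat_lit 7376704609) (nat_lit 168) (nat_lit 5) (nat_lit 175) (nat_lit 5) (nat_lit 169) (nat_lit 5) (nat_lit 375) (nat_lit 341) (nat_lit 184)) (XT.lf (nat_lit 0) (nat_lit 7802789957) (nat_lit 456) (nat_lit 7143856937) (nat_lit 532) (nat_lit 9305102434) (nat_lit 162) (nat_lit 5) (nat_lit 168) (nat_lit 5) (nat_lit 169) (nat_lit 5) (nat_lit 376) (nat_lit 341) (nat_lit 183)))) (XT.nd (nat_lit 156) (nat_lit 532) (nat_lit 0) (XT.nd (nat_lit 78) (nat_lit 380) (nat_lit 0) (XT.lf (nat_lit 0) (nat_lit 18856491115) (nat_lit 532) (nat_lit 3372296842) (nat_lit 76) (nat_lit 2452308925) (nat_lit 162) (nat_lit 5) (nat_lit 169) (nat_lit 5) (nat_lit 163) (nat_lit 5) (nat_lit 377) (nat_lit 341) (nat_lit 182)) (XT.lf (nat_lit 0) (nat_lit 10218542208) (nat_lit 380) (nat_lit 12828500985) (nat_lit 456) (nat_lit 2071381618) (nat_lit 157) (nat_lit 5) (nat_lit 162) (nat_lit 5) (nat_lit 163) (nat_lit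 5) (nat_lit 378) (nat_lit 341) (nat_lit 181))) (XT.nd (nat_lit 78) (nat_lit 456) (nat_lit 0) (XT.lf (nat_lit 0) (nat_lit 1788309136) (nat_lit 456) (nat_lit 1306039988) (nat_lit 76) (nat_lit 22473141592) (nat_lit 156) (nat_lit 5) (nat_lit 162) (nat_lit 5) (nat_lit 157) (nat_lit 5) (nat_lit 379) (nat_lit 341) (nat_lit 180)) (XT.lf (nat_lit 0) (nat_lit 5909067316) (nat_lit 532) (nat_lit 13173305147) (nat_lit 76) (nat_lit 6941435717) (nat_lit 150) (nat_lit 5) (nat_lit 157) (nat_lit 5) (nat_lit 151) (nat_lit 5) (nat_lit 380) (nat_lit 341) (nat_lit 179))))))))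
noncomputable def xc198 : XT := (XT.nd (nat_lit 2106) (nat_lit 2736) (nat_lit 0) (XT.nd (nat_lit 1014) (nat_lit 2356) (nat_lit 0) (XT.nd (nat_lit 468) (nat_lit 1368) (nat_lit 0) (XT.nd (nat_lit 234) (nat_lit 380) (nat_lit 0) (XT.nd (nat_lit 78) (nat_lit 380) (nat_lit 0) (XT.lf (nat_lit 0) (nat_lit 946068377) (nat_lit 380) (nat_lit 9255165409) (nat_lit 456) (nat_lit 16291149882) (nat_lit 145) (nat_lit 5) (nat_lit 150) (nat_lit 5) (nat_lit 151) (nat_lit 5) (nat_lit 381) (nat_lit 341) (nat_lit 178)) (XT.nd (nat_lit 78) (nat_lit 380) (nat_lit 0) (XT.lf (nat_lit 0) (nat_lit 14759650016) (nat_lit 456) (nat_lit 11228410236) (nat_lit 76) (nat_lit 982833630) (nat_lit 145) (nat_lit 5) (nat_lit 151) (nat_lit 5) (nat_lit 146) (nat_lit 5) (nat_lit 382) (nat_lit 341) (nat_lit 177)) (XT.lf (nat_lit 0) (nat_lit 3488877571) (nat_lit 380) (nat_lit 16086075213) (nat_lit 456) (nat_lit 7885204544) (nat_lit 140) (nat_lit 5)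 (nat_lit 145) (nat_lit 5) (nat_lit 146) (nat_lit 5) (nat_lit 383) (nat_lit 341) (nat_lit 176)))) (XT.nd (nat_lit 78) (nat_lit 380) (nat_lit 0) (XT.lf (nat_lit 0) (nat_lit 18871320451) (nat_lit 380) (nat_lit 5771824571) (nat_lit 456) (nat_lit 3317702634) (nat_lit 140) (nat_lit 5) (nat_lit 145) (nat_lit 5) (nat_lit 146) (nat_lit 5) (nat_lit 384) (nat_lit 341) (nat_lit 175)) (XT.nd (nat_lit 78) (nat_lit 0) (nat_lit 0) (XT.lf (nat_lit 0) (nat_lit 1463231793) (nat_lit 380) (nat_lit 22179164484) (nat_lit 76) (nat_lit 4830660185) (nat_lit 135) (nat_lit 5) (nat_lit 140) (nat_lit 5) (nat_lit 136) (nat_lit 5) (nat_lit 385) (nat_lit 341) (nat_lit 174)) (XT.lf (nat_lit 0) (nat_lit 6465958844) (nat_lit 380) (nat_lit 6770151585) (nat_lit 76) (nat_lit 15759185964) (nat_lit 135) (nat_lit 5) (nat_lit 140) (nat_lit 5) (nat_lit 136) (nat_lit 5) (nat_lit 386) (nat_lit 341) (nat_lit 173))))) (XT.nd (nat_lit 234) (nat_lit 684)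 (nat_lit 0) (XT.nd (nat_lit 78) (nat_lit 304) (nat_lit 0) (XT.lf (nat_lit 0) (nat_lit 9275816203) (nat_lit 380) (nat_lit 2427461148) (nat_lit 456) (nat_lit 17827392560) (nat_lit 130) (nat_lit 5) (nat_lit 135) (nat_lit 5) (nat_lit 136) (nat_lit 5) (nat_lit 387) (nat_lit 341) (nat_lit 172)) (XT.nd (nat_lit 78) (nat_lit 304) (nat_lit 0) (XT.lf (nat_lit 0) (nat_lit 17245843766) (nat_lit 456) (nat_lit 4228849162) (nat_lit 76) (nat_lit 8602969487) (nat_lit 130) (nat_lit 5) (nat_lit 136) (nat_lit 5) (nat_lit 131) (nat_lit 5) (nat_lit 388) (nat_lit 341) (nat_lit 171)) (XT.lf (nat_lit 0) (nat_lit 12491459464) (nat_lit 304) (nat_lit 10602875511) (nat_lit 380) (nat_lit 7542541868) (nat_lit 126) (nat_lit 5) (nat_lit 130) (nat_lit 5) (nat_lit 131) (nat_lit 5) (nat_lit 389) (nat_lit 341) (nat_lit 170)))) (XT.nd (nat_lit 156) (nat_lit 304) (nat_lit 0) (XT.nd (nat_lit 78) (nat_lit 380) (nat_lit 0) (XT.lf (nat_lit 0) (nat_lit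 29162719458) (nat_lit 380) (nat_lit 1423916160) (nat_lit 76) (nat_lit 624900466) (nat_lit 126) (nat_lit 5) (nat_lit 131) (nat_lit 5) (nat_lit 127) (nat_lit 5) (nat_lit 390) (nat_lit 341) (nat_lit 169)) (XT.lf (nat_lit 0) (nat_lit 3796305392) (nat_lit 380) (nat_lit 15832612258) (nat_lit 76) (nat_lit 12165767225) (nat_lit 121) (nat_lit 5) (nat_lit 126) (nat_lit 5) (nat_lit 122) (nat_lit 5) (nat_lit 391) (nat_lit 341) (nat_lit 168))) (XT.nd (nat_lit 78) (nat_lit 0) (nat_lit 0) (XT.lf (nat_lit 0) (nat_lit 1506813392) (nat_lit 304) (nat_lit 8293538381) (nat_lit 380) (nat_lit 22593626708) (nat_lit 117) (nat_lit 5) (nat_lit 121) (nat_lit 5) (nat_lit 122) (nat_lit 5) (nat_lit 392) (nat_lit 341) (nat_lit 167)) (XT.lf (nat_lit 0) (nat_lit 16174282290) (nat_lit 380) (nat_lit 13355716587) (nat_lit 76) (nat_lit 3475560500) (nat_lit 117) (nat_lit 5) (nat_lit 122) (nat_lit 5) (nat_lit 118) (nat_lit 5) (nat_lit 393) (nat_lit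 341) (nat_lit 166)))))) (XT.nd (nat_lit 546) (nat_lit 1140) (nat_lit 0) (XT.nd (nat_lit 234) (nat_lit 532) (nat_lit 0) (XT.nd (nat_lit 78) (nat_lit 380) (nat_lit 0) (XT.lf (nat_lit 0) (nat_lit 4705414680) (nat_lit 304) (nat_lit 18157276691) (nat_lit 380) (nat_lit 10769099836) (nat_lit 113) (nat_lit 5) (nat_lit 117) (nat_lit 5) (nat_lit 118) (nat_lit 5) (nat_lit 394) (nat_lit 341) (nat_lit 165)) (XT.nd (nat_lit 78) (nat_lit 380) (nat_lit 0) (XT.lf (nat_lit 0) (nat_lit 23576251439) (nat_lit 304) (nat_lit 6306345113) (nat_lit 380) (nat_lit 4390289412) (nat_lit 113) (nat_lit 5) (nat_lit 117) (nat_lit 5) (nat_lit 118) (nat_lit 5) (nat_lit 395) (nat_lit 341) (nat_lit 164)) (XT.lf (nat_lit 0) (nat_lit 2270042414) (nat_lit 380) (nat_lit 26774517435) (nat_lit 76) (nat_lit 5884045462) (nat_lit 108) (nat_lit 5) (nat_lit 113) (nat_lit 5) (nat_lit 109) (nat_lit 5) (nat_lit 396) (nat_lit 341) (nat_lit 163)))) (XT.nd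 (nat_lit 156) (nat_lit 228) (nat_lit 0) (XT.nd (nat_lit 78) (nat_lit 304) (nat_lit 0) (XT.lf (nat_lit 0) (nat_lit 9209563391) (nat_lit 380) (nat_lit 7923988003) (nat_lit 76) (nat_lit 18464113384) (nat_lit 108) (nat_lit 5) (nat_lit 113) (nat_lit 5) (nat_lit 109) (nat_lit 5) (nat_lit 397) (nat_lit 341) (nat_lit 162)) (XT.lf (nat_lit 0) (nat_lit 11714971256) (nat_lit 304) (nat_lit 4751120033) (nat_lit 380) (nat_lit 19817441245) (nat_lit 104) (nat_lit 5) (nat_lit 108) (nat_lit 5) (nat_lit 109) (nat_lit 5) (nat_lit 398) (nat_lit 341) (nat_lit 161))) (XT.nd (nat_lit 78) (nat_lit 228) (nat_lit 0) (XT.lf (nat_lit 0) (nat_lit 24094299507) (nat_lit 380) (nat_lit 4965488914) (nat_lit 76) (nat_lit 7925569478) (nat_lit 104) (nat_lit 5) (nat_lit 109) (nat_lit 5) (nat_lit 105) (nat_lit 5) (nat_lit 399) (nat_lit 341) (nat_lit 160)) (XT.lf (nat_lit 0) (nat_lit 15475049097) (nat_lit 228) (nat_lit 16668458430) (nat_lit 304)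 (nat_lit 5558966968) (nat_lit 101) (nat_lit 5) (nat_lit 104) (nat_lit 5) (nat_lit 105) (nat_lit 5) (nat_lit 400) (nat_lit 341) (nat_lit 159))))) (XT.nd (nat_lit 234) (nat_lit 532) (nat_lit 0) (XT.nd (nat_lit 78) (nat_lit 532) (nat_lit 0) (XT.lf (nat_lit 0) (nat_lit 2001206782) (nat_lit 304) (nat_lit 1834243019) (nat_lit 76) (nat_lit 34603670686) (nat_lit 100) (nat_lit 5) (nat_lit 104) (nat_lit 5) (nat_lit 101) (nat_lit 5) (nat_lit 401) (nat_lit 341) (nat_lit 158)) (XT.nd (nat_lit 78) (nat_lit 228) (nat_lit 0) (XT.lf (nat_lit 0) (nat_lit 9952863592) (nat_lit 380) (nat_lit 19792661436) (nat_lit 76) (nat_lit 9442398410) (nat_lit 96) (nat_lit 5) (nat_lit 101) (nat_lit 5) (nat_lit 97) (nat_lit 5) (nat_lit 402) (nat_lit 341) (nat_lit 157)) (XT.lf (nat_lit 0) (nat_lit 1322822813) (nat_lit 228) (nat_lit 16886155625) (nat_lit 304) (nat_lit 21748235746) (nat_lit 93) (nat_lit 5) (nat_lit 96) (nat_lit 5) (nat_lit 97)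 (nat_lit 5) (nat_lit 403) (nat_lit 341) (nat_lit 156)))) (XT.nd (nat_lit 156) (nat_lit 304) (nat_lit 0) (XT.nd (nat_lit 78) (nat_lit 228) (nat_lit 0) (XT.lf (nat_lit 0) (nat_lit 23472105541) (nat_lit 228) (nat_lit 3437100133) (nat_lit 304) (nat_lit 13834486042) (nat_lit 93) (nat_lit 5) (nat_lit 96) (nat_lit 5) (nat_lit 97) (nat_lit 5) (nat_lit 404) (nat_lit 341) (nat_lit 155)) (XT.lf (nat_lit 0) (nat_lit 4718741562) (nat_lit 228) (nat_lit 31293820789) (nat_lit 304) (nat_lit 5536938447) (nat_lit 90) (nat_lit 5) (nat_lit 93) (nat_lit 5) (nat_lit 94) (nat_lit 5) (nat_lit 405) (nat_lit 341) (nat_lit 154))) (XT.nd (nat_lit 78) (nat_lit 228) (nat_lit 0) (XT.lf (nat_lit 0) (nat_lit 3157632583) (nat_lit 304) (nat_lit 14721446182) (nat_lit 76) (nat_lit 24493333635) (nat_lit 89) (nat_lit 5) (nat_lit 93) (nat_lit 5) (nat_lit 90) (nat_lit 5) (nat_lit 406) (nat_lit 341) (nat_lit 153)) (XT.lf (nat_lit 0) (nat_lit 8150182955)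 (nat_lit 228) (nat_lit 3926669929) (nat_lit 304) (nat_lit 31139261685) (nat_lit 86) (nat_lit 5) (nat_lit 89) (nat_lit 5) (nat_lit 90) (nat_lit 5) (nat_lit 407) (nat_lit 341) (nat_lit 152))))))) (XT.nd (nat_lit 1014) (nat_lit 1140) (nat_lit 0) (XT.nd (nat_lit 468) (nat_lit 912) (nat_lit 0) (XT.nd (nat_lit 234) (nat_lit 456) (nat_lit 0) (XT.nd (nat_lit 78) (nat_lit 228) (nat_lit 0) (XT.lf (nat_lit 0) (nat_lit 21510957729) (nat_lit 304) (nat_lit 12178009867) (nat_lit 76) (nat_lit 10388741771) (nat_lit 86) (nat_lit 5) (nat_lit 90) (nat_lit 5) (nat_lit 87) (nat_lit 5) (nat_lit 408) (nat_lit 341) (nat_lit 151)) (XT.nd (nat_lit 78) (nat_lit 0) (nat_lit 0) (XT.lf (nat_lit 0) (nat_lit 11578553605) (nat_lit 228) (nat_lit 19796585150) (nat_lit 304) (nat_lit 13585602440) (nat_lit 83) (nat_lit 5) (nat_lit 86) (nat_lit 5) (nat_lit 87) (nat_lit 5) (nat_lit 409) (nat_lit 341) (nat_lit 150)) (XT.lf (nat_lit 0) (nat_lit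 36292443533) (nat_lit 228) (nat_lit 5362693560) (nat_lit 304) (nat_lit 4211530885) (nat_lit 83) (nat_lit 5) (nat_lit 86) (nat_lit 5) (nat_lit 87) (nat_lit 5) (nat_lit 410) (nat_lit 341) (nat_lit 149)))) (XT.nd (nat_lit 78) (nat_lit 228) (nat_lit 0) (XT.lf (nat_lit 0) (nat_lit 5573805781) (nat_lit 228) (nat_lit 31700139324) (nat_lit 76) (nat_lit 9517170197) (nat_lit 80) (nat_lit 5) (nat_lit 83) (nat_lit 5) (nat_lit 81) (nat_lit 5) (nat_lit 411) (nat_lit 341) (nat_lit 148)) (XT.nd (nat_lit 78) (nat_lit 228) (nat_lit 0) (XT.lf (nat_lit 0) (nat_lit 15715789324) (nat_lit 228) (nat_lit 7148698933) (nat_lit 76) (nat_lit 24873125500) (nat_lit 80) (nat_lit 5) (nat_lit 83) (nat_lit 5) (nat_lit 81) (nat_lit 5) (nat_lit 412) (nat_lit 341) (nat_lit 147)) (XT.lf (nat_lit 0) (nat_lit 18495394089) (nat_lit 228) (nat_lit 7841514968) (nat_lit 304) (nat_lit 22370352479) (nat_lit 77) (nat_lit 5) (nat_lit 80) (nat_lit 5) (nat_lit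 81) (nat_lit 5) (nat_lit 413) (nat_lit 341) (nat_lit 146))))) (XT.nd (nat_lit 234) (nat_lit 684) (nat_lit 0) (XT.nd (nat_lit 78) (nat_lit 228) (nat_lit 0) (XT.lf (nat_lit 0) (nat_lit 37420038495) (nat_lit 304) (nat_lit 4727385506) (nat_lit 76) (nat_lit 7554274117) (nat_lit 77) (nat_lit 5) (nat_lit 81) (nat_lit 5) (nat_lit 78) (nat_lit 5) (nat_lit 414) (nat_lit 341) (nat_lit 145)) (XT.nd (nat_lit 78) (nat_lit 76) (nat_lit 0) (XT.lf (nat_lit 0) (nat_lit 21865992903) (nat_lit 152) (nat_lit 27254689854) (nat_lit 228) (nat_lit 1596735045) (nat_lit 75) (nat_lit 5) (nat_lit 77) (nat_lit 5) (nat_lit 78) (nat_lit 5) (nat_lit 415) (nat_lit 341) (nat_lit 144)) (XT.lf (nat_lit 0) (nat_lit 9270550922) (nat_lit 228) (nat_lit 2503706581) (nat_lit 76) (nat_lit 39985276535) (nat_lit 74) (nat_lit 5) (nat_lit 77) (nat_lit 5) (nat_lit 75) (nat_lit 5) (nat_lit 416) (nat_lit 341) (nat_lit 143)))) (XT.nd (nat_lit 156) (nat_lit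 456) (nat_lit 0) (XT.nd (nat_lit 78) (nat_lit 0) (nat_lit 0) (XT.lf (nat_lit 0) (nat_lit 20712979010) (nat_lit 304) (nat_lit 27763955184) (nat_lit 76) (nat_lit 4347069377) (nat_lit 71) (nat_lit 5) (nat_lit 75) (nat_lit 5) (nat_lit 72) (nat_lit 5) (nat_lit 417) (nat_lit 341) (nat_lit 142)) (XT.lf (nat_lit 0) (nat_lit 32638091261) (nat_lit 304) (nat_lit 539012164) (nat_lit 76) (nat_lit 20739121989) (nat_lit 71) (nat_lit 5) (nat_lit 75) (nat_lit 5) (nat_lit 72) (nat_lit 5) (nat_lit 418) (nat_lit 341) (nat_lit 141))) (XT.nd (nat_lit 78) (nat_lit 304) (nat_lit 0) (XT.lf (nat_lit 0) (nat_lit 28045505393) (nat_lit 152) (nat_lit 17142422297) (nat_lit 228) (nat_lit 9845277644) (nat_lit 69) (nat_lit 5) (nat_lit 71) (nat_lit 5) (nat_lit 72) (nat_lit 5) (nat_lit 419) (nat_lit 341) (nat_lit 140)) (XT.lf (nat_lit 0) (nat_lit 1317726753) (nat_lit 228) (nat_lit 590717343) (nat_lit 304) (nat_lit 54274227782) (nat_lit 65)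 (nat_lit 5) (nat_lit 68) (nat_lit 5) (nat_lit 69) (nat_lit 5) (nat_lit 420) (nat_lit 341) (nat_lit 139)))))) (XT.nd (nat_lit 546) (nat_lit 608) (nat_lit 0) (XT.nd (nat_lit 234) (nat_lit 380) (nat_lit 0) (XT.nd (nat_lit 78) (nat_lit 152) (nat_lit 0) (XT.lf (nat_lit 0) (nat_lit 14247722452) (nat_lit 304) (nat_lit 26595753401) (nat_lit 76) (nat_lit 16507297967) (nat_lit 65) (nat_lit 5) (nat_lit 69) (nat_lit 5) (nat_lit 66) (nat_lit 5) (nat_lit 421) (nat_lit 341) (nat_lit 138)) (XT.nd (nat_lit 78) (nat_lit 0) (nat_lit 0) (XT.lf (nat_lit 0) (nat_lit 2561307734) (nat_lit 152) (nat_lit 24423820837) (nat_lit 228) (nat_lit 31567952253) (nat_lit 63) (nat_lit 5) (nat_lit 65) (nat_lit 5) (nat_lit 66) (nat_lit 5) (nat_lit 422) (nat_lit 341) (nat_lit 137)) (XT.lf (nat_lit 0) (nat_lit 33133972112) (nat_lit 152) (nat_lit 7236761704) (nat_lit 228) (nat_lit 19412741384) (nat_lit 63) (nat_lit 5) (nat_lit 65) (nat_lit 5) (nat_lit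 66) (nat_lit 5) (nat_lit 423) (nat_lit 341) (nat_lit 136)))) (XT.nd (nat_lit 156) (nat_lit 152) (nat_lit 0) (XT.nd (nat_lit 78) (nat_lit 76) (nat_lit 0) (XT.lf (nat_lit 0) (nat_lit 3537227938) (nat_lit 152) (nat_lit 50752853580) (nat_lit 228) (nat_lit 6756735118) (nat_lit 61) (nat_lit 5) (nat_lit 63) (nat_lit 5) (nat_lit 64) (nat_lit 5) (nat_lit 424) (nat_lit 341) (nat_lit 135)) (XT.lf (nat_lit 0) (nat_lit 6497423627) (nat_lit 228) (nat_lit 27303041847) (nat_lit 76) (nat_lit 28535552642) (nat_lit 60) (nat_lit 5) (nat_lit 63) (nat_lit 5) (nat_lit 61) (nat_lit 5) (nat_lit 425) (nat_lit 341) (nat_lit 134))) (XT.nd (nat_lit 78) (nat_lit 0) (nat_lit 0) (XT.lf (nat_lit 0) (nat_lit 3813099980) (nat_lit 152) (nat_lit 16234601962) (nat_lit 228) (nat_lit 43613158210) (nat_lit 58) (nat_lit 5) (nat_lit 60) (nat_lit 5) (nat_lit 61) (nat_lit 5) (nat_lit 426) (nat_lit 341) (nat_lit 133)) (XT.lf (nat_lit 0) (nat_lit 34298445439)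 (nat_lit 228) (nat_lit 28619480364) (nat_lit 76) (nat_lit 2098703348) (nat_lit 58) (nat_lit 5) (nat_lit 61) (nat_lit 5) (nat_lit 59) (nat_lit 5) (nat_lit 427) (nat_lit 341) (nat_lit 132))))) (XT.nd (nat_lit 234) (nat_lit 228) (nat_lit 0) (XT.nd (nat_lit 78) (nat_lit 228) (nat_lit 0) (XT.lf (nat_lit 0) (nat_lit 3448192467) (nat_lit 152) (nat_lit 45720129130) (nat_lit 228) (nat_lit 17239001707) (nat_lit 56) (nat_lit 5) (nat_lit 58) (nat_lit 5) (nat_lit 59) (nat_lit 5) (nat_lit 428) (nat_lit 341) (nat_lit 131)) (XT.nd (nat_lit 78) (nat_lit 228) (nat_lit 0) (XT.lf (nat_lit 0) (nat_lit 37060602629) (nat_lit 152) (nat_lit 27710445772) (nat_lit 228) (nat_lit 3060087631) (nat_lit 56) (nat_lit 5) (nat_lit 58) (nat_lit 5) (nat_lit 59) (nat_lit 5) (nat_lit 429) (nat_lit 341) (nat_lit 130)) (XT.lf (nat_lit 0) (nat_lit 2314013960) (nat_lit 152) (nat_lit 9024952015) (nat_lit 228) (nat_lit 57954767207) (nat_lit 53) (nat_lit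 5) (nat_lit 55) (nat_lit 5) (nat_lit 56) (nat_lit 5) (nat_lit 430) (nat_lit 341) (nat_lit 129)))) (XT.nd (nat_lit 156) (nat_lit 76) (nat_lit 0) (XT.nd (nat_lit 78) (nat_lit 152) (nat_lit 0) (XT.lf (nat_lit 0) (nat_lit 26518344659) (nat_lit 228) (nat_lit 33904553153) (nat_lit 76) (nat_lit 10364106101) (nat_lit 53) (nat_lit 5) (nat_lit 56) (nat_lit 5) (nat_lit 54) (nat_lit 5) (nat_lit 431) (nat_lit 341) (nat_lit 128)) (XT.lf (nat_lit 0) (nat_lit 71109044) (nat_lit 152) (nat_lit 42169907164) (nat_lit 228) (nat_lit 30081419554) (nat_lit 51) (nat_lit 5) (nat_lit 53) (nat_lit 5) (nat_lit 54) (nat_lit 5) (nat_lit 432) (nat_lit 341) (nat_lit 127))) (XT.nd (nat_lit 78) (nat_lit 76) (nat_lit 0) (XT.lf (nat_lit 0) (nat_lit 35757297884) (nat_lit 152) (nat_lit 23018337429) (nat_lit 228) (nat_lit 15118087561) (nat_lit 51) (nat_lit 5) (nat_lit 53) (nat_lit 5) (nat_lit 54) (nat_lit 5) (nat_lit 433) (nat_lit 341) (nat_lit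 126)) (XT.lf (nat_lit 0) (nat_lit 286343181) (nat_lit 228) (nat_lit 3004589048) (nat_lit 76) (nat_lit 72221193698) (nat_lit 50) (nat_lit 5) (nat_lit 53) (nat_lit 5) (nat_lit 51) (nat_lit 5) (nat_lit 434) (nat_lit 341) (nat_lit 125))))))))
noncomputable def xc199 : XT := (XT.nd (nat_lit 2106) (nat_lit 6232) (nat_lit 0) (XT.nd (nat_lit 1014) (nat_lit 3420) (nat_lit 0) (XT.nd (nat_lit 468) (nat_lit 912) (nat_lit 0) (XT.nd (nat_lit 234) (nat_lit 0) (nat_lit 76) (XT.nd (nat_lit 78) (nat_lit 0) (nat_lit 0) (XT.lf (nat_lit 0) (nat_lit 2207134173) (nat_lit 0) (nat_lit 2207134173) (nat_lit 1140) (nat_lit 2744121256) (nat_lit 252) (nat_lit 5) (nat_lit 252) (nat_lit 3) (nat_lit 267) (nat_lit 3) (nat_lit 342) (nat_lit 342) (nat_lit 216)) (XT.nd (nat_lit 78) (nat_lit 0) (nat_lit 0) (XT.lf (nat_lit 0) (nat_lit 9302062088) (nat_lit 1140) (nat_lit 3074493558) (nat_lit 1216) (nat_lit 2144569706) (nat_lit 252) (nat_lit 5)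 (nat_lit 267) (nat_lit 3) (nat_lit 268) (nat_lit 5) (nat_lit 343) (nat_lit 342) (nat_lit 215)) (XT.lf (nat_lit 76) (nat_lit 3985747646) (nat_lit 0) (nat_lit 5873633187) (nat_lit 1216) (nat_lit 4870140159) (nat_lit 253) (nat_lit 5) (nat_lit 252) (nat_lit 5) (nat_lit 268) (nat_lit 5) (nat_lit 344) (nat_lit 342) (nat_lit 214)))) (XT.nd (nat_lit 78) (nat_lit 0) (nat_lit 0) (XT.lf (nat_lit 0) (nat_lit 10460617230) (nat_lit 1140) (nat_lit 3637693957) (nat_lit 1216) (nat_lit 845047914) (nat_lit 253) (nat_lit 5) (nat_lit 268) (nat_lit 5) (nat_lit 269) (nat_lit 5) (nat_lit 345) (nat_lit 342) (nat_lit 213)) (XT.nd (nat_lit 78) (nat_lit 0) (nat_lit 0) (XT.lf (nat_lit 76) (nat_lit 3688549895) (nat_lit 0) (nat_lit 7473223976) (nat_lit 1216) (nat_lit 3999388336) (nat_lit 254) (nat_lit 5) (nat_lit 253) (nat_lit 5) (nat_lit 269) (nat_lit 5) (nat_lit 346) (nat_lit 342) (nat_lit 212)) (XT.lf (nat_lit 76) (nat_lit 11302377253)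 (nat_lit 0) (nat_lit 606869801) (nat_lit 1216) (nat_lit 3475500064) (nat_lit 254) (nat_lit 5) (nat_lit 253) (nat_lit 5) (nat_lit 269) (nat_lit 5) (nat_lit 347) (nat_lit 342) (nat_lit 211))))) (XT.nd (nat_lit 234) (nat_lit 1064) (nat_lit 0) (XT.nd (nat_lit 78) (nat_lit 0) (nat_lit 0) (XT.lf (nat_lit 76) (nat_lit 3529341013) (nat_lit 0) (nat_lit 9234805180) (nat_lit 1216) (nat_lit 2848349314) (nat_lit 255) (nat_lit 5) (nat_lit 254) (nat_lit 5) (nat_lit 270) (nat_lit 5) (nat_lit 348) (nat_lit 342) (nat_lit 210)) (XT.nd (nat_lit 78) (nat_lit 0) (nat_lit 76) (XT.lf (nat_lit 76) (nat_lit 11440068933) (nat_lit 0) (nat_lit 2240978807) (nat_lit 1216) (nat_lit 2164943758) (nat_lit 255) (nat_lit 5) (nat_lit 254) (nat_lit 5) (nat_lit 270) (nat_lit 5) (nat_lit 349) (nat_lit 342) (nat_lit 209)) (XT.lf (nat_lit 76) (nat_lit 3515474380) (nat_lit 0) (nat_lit 11181012534) (nat_lit 1216) (nat_lit 1387880178) (nat_lit 256)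 (nat_lit 5) (nat_lit 255) (nat_lit 5) (nat_lit 271) (nat_lit 5) (nat_lit 350) (nat_lit 342) (nat_lit 208)))) (XT.nd (nat_lit 156) (nat_lit 0) (nat_lit 0) (XT.nd (nat_lit 78) (nat_lit 1140) (nat_lit 0) (XT.lf (nat_lit 76) (nat_lit 11735222567) (nat_lit 0) (nat_lit 4063399571) (nat_lit 1216) (nat_lit 529590309) (nat_lit 256) (nat_lit 5) (nat_lit 255) (nat_lit 5) (nat_lit 271) (nat_lit 5) (nat_lit 351) (nat_lit 342) (nat_lit 207)) (XT.lf (nat_lit 0) (nat_lit 404732445) (nat_lit 1216) (nat_lit 12926655125) (nat_lit 1292) (nat_lit 3246172516) (nat_lit 240) (nat_lit 5) (nat_lit 256) (nat_lit 5) (nat_lit 257) (nat_lit 5) (nat_lit 352) (nat_lit 342) (nat_lit 206))) (XT.nd (nat_lit 78) (nat_lit 0) (nat_lit 76) (XT.lf (nat_lit 0) (nat_lit 1433731093) (nat_lit 1216) (nat_lit 4649901237) (nat_lit 1292) (nat_lit 10748284821) (nat_lit 240) (nat_lit 5) (nat_lit 256) (nat_lit 5) (nat_lit 257) (nat_lit 5) (nat_lit 353)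 (nat_lit 342) (nat_lit 205)) (XT.lf (nat_lit 0) (nat_lit 2535706316) (nat_lit 1216) (nat_lit 13161625687) (nat_lit 1292) (nat_lit 1395314593) (nat_lit 241) (nat_lit 5) (nat_lit 257) (nat_lit 5) (nat_lit 258) (nat_lit 5) (nat_lit 354) (nat_lit 342) (nat_lit 204)))))) (XT.nd (nat_lit 546) (nat_lit 2432) (nat_lit 0) (XT.nd (nat_lit 234) (nat_lit 1064) (nat_lit 0) (XT.nd (nat_lit 78) (nat_lit 0) (nat_lit 0) (XT.lf (nat_lit 0) (nat_lit 3769130861) (nat_lit 1216) (nat_lit 4563063539) (nat_lit 1292) (nat_lit 9026056547) (nat_lit 241) (nat_lit 5) (nat_lit 257) (nat_lit 5) (nat_lit 258) (nat_lit 5) (nat_lit 355) (nat_lit 342) (nat_lit 203)) (XT.nd (nat_lit 78) (nat_lit 0) (nat_lit 76) (XT.lf (nat_lit 76) (nat_lit 4371710359) (nat_lit 0) (nat_lit 700877450) (nat_lit 1292) (nat_lit 12558249318) (nat_lit 242) (nat_lit 5) (nat_lit 241) (nat_lit 5) (nat_lit 258) (nat_lit 5) (nat_lit 356) (nat_lit 342) (nat_lit 202))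 (XT.lf (nat_lit 0) (nat_lit 6521721398) (nat_lit 1216) (nat_lit 4318698955) (nat_lit 1292) (nat_lit 7067987805) (nat_lit 242) (nat_lit 5) (nat_lit 258) (nat_lit 5) (nat_lit 259) (nat_lit 5) (nat_lit 357) (nat_lit 342) (nat_lit 201)))) (XT.nd (nat_lit 156) (nat_lit 1140) (nat_lit 0) (XT.nd (nat_lit 78) (nat_lit 0) (nat_lit 76) (XT.lf (nat_lit 76) (nat_lit 4972985246) (nat_lit 0) (nat_lit 3087560667) (nat_lit 1292) (nat_lit 10132378222) (nat_lit 243) (nat_lit 5) (nat_lit 242) (nat_lit 5) (nat_lit 259) (nat_lit 5) (nat_lit 358) (nat_lit 342) (nat_lit 200)) (XT.lf (nat_lit 0) (nat_lit 9728327151) (nat_lit 1216) (nat_lit 3907487763) (nat_lit 76) (nat_lit 4847681118) (nat_lit 243) (nat_lit 5) (nat_lit 259) (nat_lit 5) (nat_lit 244) (nat_lit 5) (nat_lit 359) (nat_lit 342) (nat_lit 199))) (XT.nd (nat_lit 78) (nat_lit 0) (nat_lit 0) (XT.lf (nat_lit 0) (nat_lit 5759102881) (nat_lit 1216) (nat_lit 5764879883) (nat_lit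 1292) (nat_lit 7256471168) (nat_lit 227) (nat_lit 5) (nat_lit 243) (nat_lit 5) (nat_lit 244) (nat_lit 5) (nat_lit 360) (nat_lit 342) (nat_lit 198)) (XT.lf (nat_lit 0) (nat_lit 13427959821) (nat_lit 1292) (nat_lit 3319477620) (nat_lit 76) (nat_lit 2337253533) (nat_lit 227) (nat_lit 5) (nat_lit 244) (nat_lit 5) (nat_lit 228) (nat_lit 5) (nat_lit 361) (nat_lit 342) (nat_lit 197))))) (XT.nd (nat_lit 234) (nat_lit 1140) (nat_lit 0) (XT.nd (nat_lit 78) (nat_lit 684) (nat_lit 0) (XT.lf (nat_lit 0) (nat_lit 6740897127) (nat_lit 608) (nat_lit 8762353771) (nat_lit 684) (nat_lit 3891382230) (nat_lit 219) (nat_lit 5) (nat_lit 227) (nat_lit 5) (nat_lit 228) (nat_lit 5) (nat_lit 362) (nat_lit 342) (nat_lit 196)) (XT.nd (nat_lit 78) (nat_lit 684) (nat_lit 0) (XT.lf (nat_lit 0) (nat_lit 17164181890) (nat_lit 608) (nat_lit 502615035) (nat_lit 684) (nat_lit 2046300465) (nat_lit 219) (nat_lit 5) (nat_lit 227) (nat_lit 5)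 (nat_lit 228) (nat_lit 5) (nat_lit 363) (nat_lit 342) (nat_lit 195)) (XT.lf (nat_lit 0) (nat_lit 4296314) (nat_lit 684) (nat_lit 12106916361) (nat_lit 76) (nat_lit 7925529000) (nat_lit 210) (nat_lit 5) (nat_lit 219) (nat_lit 5) (nat_lit 211) (nat_lit 5) (nat_lit 364) (nat_lit 342) (nat_lit 194)))) (XT.nd (nat_lit 156) (nat_lit 532) (nat_lit 0) (XT.nd (nat_lit 78) (nat_lit 608) (nat_lit 0) (XT.lf (nat_lit 0) (nat_lit 2099025152) (nat_lit 684) (nat_lit 1626688081) (nat_lit 76) (nat_lit 16643065374) (nat_lit 210) (nat_lit 5) (nat_lit 219) (nat_lit 5) (nat_lit 211) (nat_lit 5) (nat_lit 365) (nat_lit 342) (nat_lit 193)) (XT.lf (nat_lit 0) (nat_lit 4387495372) (nat_lit 684) (nat_lit 11412973488) (nat_lit 76) (nat_lit 4906384115) (nat_lit 202) (nat_lit 5) (nat_lit 211) (nat_lit 5) (nat_lit 203) (nat_lit 5) (nat_lit 366) (nat_lit 342) (nat_lit 192))) (XT.nd (nat_lit 78) (nat_lit 532) (nat_lit 0) (XT.lf (nat_lit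 0) (nat_lit 6791220103) (nat_lit 684) (nat_lit 523208011) (nat_lit 76) (nat_lit 13739246666) (nat_lit 202) (nat_lit 5) (nat_lit 211) (nat_lit 5) (nat_lit 203) (nat_lit 5) (nat_lit 367) (nat_lit 342) (nat_lit 191)) (XT.lf (nat_lit 0) (nat_lit 9379894996) (nat_lit 608) (nat_lit 10523561621) (nat_lit 76) (nat_lit 1504062593) (nat_lit 195) (nat_lit 5) (nat_lit 203) (nat_lit 5) (nat_lit 196) (nat_lit 5) (nat_lit 368) (nat_lit 342) (nat_lit 190))))))) (XT.nd (nat_lit 1014) (nat_lit 2812) (nat_lit 0) (XT.nd (nat_lit 468) (nat_lit 1824) (nat_lit 0) (XT.nd (nat_lit 234) (nat_lit 608) (nat_lit 0) (XT.nd (nat_lit 78) (nat_lit 456) (nat_lit 0) (XT.lf (nat_lit 0) (nat_lit 808632293) (nat_lit 532) (nat_lit 11316578333) (nat_lit 608) (nat_lit 9644401965) (nat_lit 188) (nat_lit 5) (nat_lit 195) (nat_lit 5) (nat_lit 196) (nat_lit 5) (nat_lit 369) (nat_lit 342) (nat_lit 189)) (XT.nd (nat_lit 78) (nat_lit 456) (nat_lit 0)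 (XT.lf (nat_lit 0) (nat_lit 12689664960) (nat_lit 532) (nat_lit 2363064645) (nat_lit 608) (nat_lit 7086846798) (nat_lit 188) (nat_lit 5) (nat_lit 195) (nat_lit 5) (nat_lit 196) (nat_lit 5) (nat_lit 370) (nat_lit 342) (nat_lit 188)) (XT.lf (nat_lit 0) (nat_lit 2380165425) (nat_lit 456) (nat_lit 15770481415) (nat_lit 532) (nat_lit 4367517966) (nat_lit 182) (nat_lit 5) (nat_lit 188) (nat_lit 5) (nat_lit 189) (nat_lit 5) (nat_lit 371) (nat_lit 342) (nat_lit 187)))) (XT.nd (nat_lit 78) (nat_lit 608) (nat_lit 0) (XT.lf (nat_lit 0) (nat_lit 14728226997) (nat_lit 456) (nat_lit 6725743813) (nat_lit 532) (nat_lit 1450768750) (nat_lit 182) (nat_lit 5) (nat_lit 188) (nat_lit 5) (nat_lit 189) (nat_lit 5) (nat_lit 372) (nat_lit 342) (nat_lit 186)) (XT.nd (nat_lit 78) (nat_lit 0) (nat_lit 0) (XT.lf (nat_lit 0) (nat_lit 1583017003) (nat_lit 608) (nat_lit 19122643932) (nat_lit 76) (nat_lit 2595009805) (nat_lit 174) (nat_lit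 5) (nat_lit 182) (nat_lit 5) (nat_lit 175) (nat_lit 5) (nat_lit 373) (nat_lit 342) (nat_lit 185)) (XT.lf (nat_lit 0) (nat_lit 4822730460) (nat_lit 608) (nat_lit 6723763998) (nat_lit 76) (nat_lit 12157234821) (nat_lit 174) (nat_lit 5) (nat_lit 182) (nat_lit 5) (nat_lit 175) (nat_lit 5) (nat_lit 374) (nat_lit 342) (nat_lit 184))))) (XT.nd (nat_lit 234) (nat_lit 912) (nat_lit 0) (XT.nd (nat_lit 78) (nat_lit 456) (nat_lit 0) (XT.lf (nat_lit 0) (nat_lit 6160696867) (nat_lit 456) (nat_lit 2052428147) (nat_lit 532) (nat_lit 15904152335) (nat_lit 168) (nat_lit 5) (nat_lit 174) (nat_lit 5) (nat_lit 175) (nat_lit 5) (nat_lit 375) (nat_lit 342) (nat_lit 183)) (XT.nd (nat_lit 78) (nat_lit 456) (nat_lit 0) (XT.lf (nat_lit 0) (nat_lit 11842436554) (nat_lit 532) (nat_lit 5053317084) (nat_lit 76) (nat_lit 7643364462) (nat_lit 168) (nat_lit 5) (nat_lit 175) (nat_lit 5) (nat_lit 169) (nat_lit 5) (nat_lit 376) (nat_lit 342)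 (nat_lit 182)) (XT.lf (nat_lit 0) (nat_lit 8373617188) (nat_lit 456) (nat_lit 7302352401) (nat_lit 532) (nat_lit 9294786547) (nat_lit 162) (nat_lit 5) (nat_lit 168) (nat_lit 5) (nat_lit 169) (nat_lit 5) (nat_lit 377) (nat_lit 342) (nat_lit 181)))) (XT.nd (nat_lit 156) (nat_lit 532) (nat_lit 0) (XT.nd (nat_lit 78) (nat_lit 380) (nat_lit 0) (XT.lf (nat_lit 0) (nat_lit 19695447854) (nat_lit 532) (nat_lit 3138754460) (nat_lit 76) (nat_lit 2579015076) (nat_lit 162) (nat_lit 5) (nat_lit 169) (nat_lit 5) (nat_lit 163) (nat_lit 5) (nat_lit 378) (nat_lit 342) (nat_lit 180)) (XT.lf (nat_lit 0) (nat_lit 10856528279) (nat_lit 380) (nat_lit 13150415034) (nat_lit 456) (nat_lit 1856868375) (nat_lit 157) (nat_lit 5) (nat_lit 162) (nat_lit 5) (nat_lit 163) (nat_lit 5) (nat_lit 379) (nat_lit 342) (nat_lit 179))) (XT.nd (nat_lit 78) (nat_lit 456) (nat_lit 0) (XT.lf (nat_lit 0) (nat_lit 2105313906) (nat_lit 456) (nat_lit 1018098569)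 (nat_lit 76) (nat_lit 23203097478) (nat_lit 156) (nat_lit 5) (nat_lit 162) (nat_lit 5) (nat_lit 157) (nat_lit 5) (nat_lit 380) (nat_lit 342) (nat_lit 178)) (XT.lf (nat_lit 0) (nat_lit 6345763901) (nat_lit 532) (nat_lit 13237348987) (nat_lit 76) (nat_lit 7213525035) (nat_lit 150) (nat_lit 5) (nat_lit 157) (nat_lit 5) (nat_lit 151) (nat_lit 5) (nat_lit 381) (nat_lit 342) (nat_lit 177)))))) (XT.nd (nat_lit 546) (nat_lit 1292) (nat_lit 0) (XT.nd (nat_lit 234) (nat_lit 760) (nat_lit 0) (XT.nd (nat_lit 78) (nat_lit 380) (nat_lit 0) (XT.lf (nat_lit 0) (nat_lit 1302359122) (nat_lit 380) (nat_lit 9459932247) (nat_lit 456) (nat_lit 16517114390) (nat_lit 145) (nat_lit 5) (nat_lit 150) (nat_lit 5) (nat_lit 151) (nat_lit 5) (nat_lit 382) (nat_lit 342) (nat_lit 176)) (XT.nd (nat_lit 78) (nat_lit 380) (nat_lit 0) (XT.lf (nat_lit 0) (nat_lit 15450712541) (nat_lit 456) (nat_lit 11240061118) (nat_lit 76) (nat_lit 1081702926)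 (nat_lit 145) (nat_lit 5) (nat_lit 151) (nat_lit 5) (nat_lit 146) (nat_lit 5) (nat_lit 383) (nat_lit 342) (nat_lit 175)) (XT.lf (nat_lit 0) (nat_lit 3915557074) (nat_lit 380) (nat_lit 16490781452) (nat_lit 456) (nat_lit 7870206277) (nat_lit 140) (nat_lit 5) (nat_lit 145) (nat_lit 5) (nat_lit 146) (nat_lit 5) (nat_lit 384) (nat_lit 342) (nat_lit 174)))) (XT.nd (nat_lit 156) (nat_lit 380) (nat_lit 0) (XT.nd (nat_lit 78) (nat_lit 380) (nat_lit 0) (XT.lf (nat_lit 0) (nat_lit 19750094216) (nat_lit 380) (nat_lit 5869371524) (nat_lit 456) (nat_lit 3173006137) (nat_lit 140) (nat_lit 5) (nat_lit 145) (nat_lit 5) (nat_lit 146) (nat_lit 5) (nat_lit 385) (nat_lit 342) (nat_lit 173)) (XT.lf (nat_lit 0) (nat_lit 1743396020) (nat_lit 380) (nat_lit 22523771953) (nat_lit 76) (nat_lit 5052906937) (nat_lit 135) (nat_lit 5) (nat_lit 140) (nat_lit 5) (nat_lit 136) (nat_lit 5) (nat_lit 386) (nat_lit 342) (nat_lit 172))) (XT.nd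 (nat_lit 78) (nat_lit 380) (nat_lit 0) (XT.lf (nat_lit 0) (nat_lit 6889323311) (nat_lit 380) (nat_lit 6661831409) (nat_lit 76) (nat_lit 16307036249) (nat_lit 135) (nat_lit 5) (nat_lit 140) (nat_lit 5) (nat_lit 136) (nat_lit 5) (nat_lit 387) (nat_lit 342) (nat_lit 171)) (XT.lf (nat_lit 0) (nat_lit 9862462229) (nat_lit 380) (nat_lit 2417582263) (nat_lit 456) (nat_lit 18129695117) (nat_lit 130) (nat_lit 5) (nat_lit 135) (nat_lit 5) (nat_lit 136) (nat_lit 5) (nat_lit 388) (nat_lit 342) (nat_lit 170))))) (XT.nd (nat_lit 234) (nat_lit 988) (nat_lit 0) (XT.nd (nat_lit 78) (nat_lit 304) (nat_lit 0) (XT.lf (nat_lit 0) (nat_lit 17983086855) (nat_lit 456) (nat_lit 4050445753) (nat_lit 76) (nat_lit 8939785650) (nat_lit 130) (nat_lit 5) (nat_lit 136) (nat_lit 5) (nat_lit 131) (nat_lit 5) (nat_lit 389) (nat_lit 342) (nat_lit 169)) (XT.nd (nat_lit 78) (nat_lit 0) (nat_lit 0) (XT.lf (nat_lit 0) (nat_lit 13168479299) (nat_lit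 304) (nat_lit 10835055248) (nat_lit 380) (nat_lit 7545881792) (nat_lit 126) (nat_lit 5) (nat_lit 130) (nat_lit 5) (nat_lit 131) (nat_lit 5) (nat_lit 390) (nat_lit 342) (nat_lit 168)) (XT.lf (nat_lit 0) (nat_lit 30248470274) (nat_lit 380) (nat_lit 1167587941) (nat_lit 76) (nat_lit 725424356) (nat_lit 126) (nat_lit 5) (nat_lit 131) (nat_lit 5) (nat_lit 127) (nat_lit 5) (nat_lit 391) (nat_lit 342) (nat_lit 167)))) (XT.nd (nat_lit 156) (nat_lit 304) (nat_lit 0) (XT.nd (nat_lit 78) (nat_lit 304) (nat_lit 0) (XT.lf (nat_lit 0) (nat_lit 4119893562) (nat_lit 380) (nat_lit 16007234024) (nat_lit 76) (nat_lit 12615037568) (nat_lit 121) (nat_lit 5) (nat_lit 126) (nat_lit 5) (nat_lit 122) (nat_lit 5) (nat_lit 392) (nat_lit 342) (nat_lit 166)) (XT.lf (nat_lit 0) (nat_lit 1849429722) (nat_lit 304) (nat_lit 8451382779) (nat_lit 380) (nat_lit 23058724549) (nat_lit 117) (nat_lit 5) (nat_lit 121) (nat_lit 5) (nat_lit 122)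 (nat_lit 5) (nat_lit 393) (nat_lit 342) (nat_lit 165))) (XT.nd (nat_lit 78) (nat_lit 304) (nat_lit 0) (XT.lf (nat_lit 0) (nat_lit 16860796735) (nat_lit 380) (nat_lit 13462409121) (nat_lit 76) (nat_lit 3666416405) (nat_lit 117) (nat_lit 5) (nat_lit 122) (nat_lit 5) (nat_lit 118) (nat_lit 5) (nat_lit 394) (nat_lit 342) (nat_lit 164)) (XT.lf (nat_lit 0) (nat_lit 5137673938) (nat_lit 304) (nat_lit 18609119653) (nat_lit 380) (nat_lit 10887941291) (nat_lit 113) (nat_lit 5) (nat_lit 117) (nat_lit 5) (nat_lit 118) (nat_lit 5) (nat_lit 395) (nat_lit 342) (nat_lit 163))))))))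
noncomputable def xc200 : XT := (XT.nd (nat_lit 2028) (nat_lit 1064) (nat_lit 0) (XT.nd (nat_lit 1014) (nat_lit 1596) (nat_lit 0) (XT.nd (nat_lit 468) (nat_lit 1140) (nat_lit 0) (XT.nd (nat_lit 234) (nat_lit 532) (nat_lit 0) (XT.nd (nat_lit 78) (nat_lit 380) (nat_lit 0) (XT.lf (nat_lit 0) (nat_lit 24566157251) (nat_lit 304) (nat_lit 6405365234) (nat_lit 380) (nat_lit 4323715046) (nat_lit 113) (nat_lit 5) (nat_lit 117) (nat_lit 5) (nat_lit 118) (nat_lit 5) (nat_lit 396) (nat_lit 342) (nat_lit 162)) (XT.nd (nat_lit 78) (nat_lit 0) (nat_lit 0) (XT.lf (nat_lit 0) (nat_lit 2530509294) (nat_lit 380) (nat_lit 27289099436) (nat_lit 76) (nat_lit 6151025736) (nat_lit 108) (nat_lit 5) (nat_lit 113) (nat_lit 5) (nat_lit 109) (nat_lit 5) (nat_lit 397) (nat_lit 342) (nat_lit 161)) (XT.lf (nat_lit 0) (nat_lit 9672613019) (nat_lit 380) (nat_lit 7881461505) (nat_lit 76) (nat_lit 19105860970) (nat_lit 108) (nat_lit 5) (nat_lit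 113) (nat_lit 5) (nat_lit 109) (nat_lit 5) (nat_lit 398) (nat_lit 342) (nat_lit 160)))) (XT.nd (nat_lit 78) (nat_lit 228) (nat_lit 0) (XT.lf (nat_lit 0) (nat_lit 12343919020) (nat_lit 304) (nat_lit 4800145529) (nat_lit 380) (nat_lit 20222399541) (nat_lit 104) (nat_lit 5) (nat_lit 108) (nat_lit 5) (nat_lit 109) (nat_lit 5) (nat_lit 399) (nat_lit 342) (nat_lit 159)) (XT.nd (nat_lit 78) (nat_lit 228) (nat_lit 0) (XT.lf (nat_lit 0) (nat_lit 24996632744) (nat_lit 380) (nat_lit 4840498058) (nat_lit 76) (nat_lit 8252349596) (nat_lit 104) (nat_lit 5) (nat_lit 109) (nat_lit 5) (nat_lit 105) (nat_lit 5) (nat_lit 400) (nat_lit 342) (nat_lit 158)) (XT.lf (nat_lit 0) (nat_lit 16210570255) (nat_lit 228) (nat_lit 17074126080) (nat_lit 304) (nat_lit 5543494324) (nat_lit 101) (nat_lit 5) (nat_lit 104) (nat_lit 5) (nat_lit 105) (nat_lit 5) (nat_lit 401) (nat_lit 342) (nat_lit 157))))) (XT.nd (nat_lit 234) (nat_lit 532) (nat_lit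 0) (XT.nd (nat_lit 78) (nat_lit 532) (nat_lit 0) (XT.lf (nat_lit 0) (nat_lit 2234724017) (nat_lit 304) (nat_lit 1622400466) (nat_lit 76) (nat_lit 35729916583) (nat_lit 100) (nat_lit 5) (nat_lit 104) (nat_lit 5) (nat_lit 101) (nat_lit 5) (nat_lit 402) (nat_lit 342) (nat_lit 156)) (XT.nd (nat_lit 78) (nat_lit 228) (nat_lit 0) (XT.lf (nat_lit 0) (nat_lit 10423314565) (nat_lit 380) (nat_lit 20117908282) (nat_lit 76) (nat_lit 9817135154) (nat_lit 96) (nat_lit 5) (nat_lit 101) (nat_lit 5) (nat_lit 97) (nat_lit 5) (nat_lit 403) (nat_lit 342) (nat_lit 155)) (XT.lf (nat_lit 0) (nat_lit 1628407818) (nat_lit 228) (nat_lit 17296255257) (nat_lit 304) (nat_lit 22226139263) (nat_lit 93) (nat_lit 5) (nat_lit 96) (nat_lit 5) (nat_lit 97) (nat_lit 5) (nat_lit 404) (nat_lit 342) (nat_lit 154)))) (XT.nd (nat_lit 156) (nat_lit 304) (nat_lit 0) (XT.nd (nat_lit 78) (nat_lit 228) (nat_lit 0) (XT.lf (nat_lit 0) (nat_lit 24434424358)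 (nat_lit 228) (nat_lit 3446538344) (nat_lit 304) (nat_lit 14080060860) (nat_lit 93) (nat_lit 5) (nat_lit 96) (nat_lit 5) (nat_lit 97) (nat_lit 5) (nat_lit 405) (nat_lit 342) (nat_lit 153)) (XT.lf (nat_lit 0) (nat_lit 5119966983) (nat_lit 228) (nat_lit 32136032666) (nat_lit 304) (nat_lit 5535051176) (nat_lit 90) (nat_lit 5) (nat_lit 93) (nat_lit 5) (nat_lit 94) (nat_lit 5) (nat_lit 406) (nat_lit 342) (nat_lit 152))) (XT.nd (nat_lit 78) (nat_lit 228) (nat_lit 0) (XT.lf (nat_lit 0) (nat_lit 3412281199) (nat_lit 304) (nat_lit 14907765979) (nat_lit 76) (nat_lit 25318699300) (nat_lit 89) (nat_lit 5) (nat_lit 93) (nat_lit 5) (nat_lit 90) (nat_lit 5) (nat_lit 407) (nat_lit 342) (nat_lit 151)) (XT.lf (nat_lit 0) (nat_lit 8647508860) (nat_lit 228) (nat_lit 3949341660) (nat_lit 304) (nat_lit 31910977205) (nat_lit 86) (nat_lit 5) (nat_lit 89) (nat_lit 5) (nat_lit 90) (nat_lit 5) (nat_lit 408) (nat_lit 342) (nat_lit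 150)))))) (XT.nd (nat_lit 468) (nat_lit 912) (nat_lit 0) (XT.nd (nat_lit 234) (nat_lit 456) (nat_lit 0) (XT.nd (nat_lit 78) (nat_lit 228) (nat_lit 0) (XT.lf (nat_lit 0) (nat_lit 22310273336) (nat_lit 304) (nat_lit 12294149906) (nat_lit 76) (nat_lit 10790959431) (nat_lit 86) (nat_lit 5) (nat_lit 90) (nat_lit 5) (nat_lit 87) (nat_lit 5) (nat_lit 409) (nat_lit 342) (nat_lit 149)) (XT.nd (nat_lit 78) (nat_lit 0) (nat_lit 0) (XT.lf (nat_lit 0) (nat_lit 12172667330) (nat_lit 228) (nat_lit 20295599389) (nat_lit 304) (nat_lit 13836703247) (nat_lit 83) (nat_lit 5) (nat_lit 86) (nat_lit 5) (nat_lit 87) (nat_lit 5) (nat_lit 410) (nat_lit 342) (nat_lit 148)) (XT.lf (nat_lit 0) (nat_lit 37620786856) (nat_lit 228) (nat_lit 5431454643) (nat_lit 304) (nat_lit 4185966844) (nat_lit 83) (nat_lit 5) (nat_lit 86) (nat_lit 5) (nat_lit 87) (nat_lit 5) (nat_lit 411) (nat_lit 342) (nat_lit 147)))) (XT.nd (nat_lit 78) (nat_lit 228)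 (nat_lit 0) (XT.lf (nat_lit 0) (nat_lit 5888832870) (nat_lit 228) (nat_lit 32407407234) (nat_lit 76) (nat_lit 9894140181) (nat_lit 80) (nat_lit 5) (nat_lit 83) (nat_lit 5) (nat_lit 81) (nat_lit 5) (nat_lit 412) (nat_lit 342) (nat_lit 146)) (XT.nd (nat_lit 78) (nat_lit 228) (nat_lit 0) (XT.lf (nat_lit 0) (nat_lit 16330770689) (nat_lit 228) (nat_lit 7126522746) (nat_lit 76) (nat_lit 25708110408) (nat_lit 80) (nat_lit 5) (nat_lit 83) (nat_lit 5) (nat_lit 81) (nat_lit 5) (nat_lit 413) (nat_lit 342) (nat_lit 145)) (XT.lf (nat_lit 0) (nat_lit 19284573095) (nat_lit 228) (nat_lit 7984023484) (nat_lit 304) (nat_lit 22895603264) (nat_lit 77) (nat_lit 5) (nat_lit 80) (nat_lit 5) (nat_lit 81) (nat_lit 5) (nat_lit 414) (nat_lit 342) (nat_lit 144))))) (XT.nd (nat_lit 234) (nat_lit 684) (nat_lit 0) (XT.nd (nat_lit 78) (nat_lit 228) (nat_lit 0) (XT.lf (nat_lit 0) (nat_lit 38680961683) (nat_lit 304) (nat_lit 4638425247)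 (nat_lit 76) (nat_lit 7869181275) (nat_lit 77) (nat_lit 5) (nat_lit 81) (nat_lit 5) (nat_lit 78) (nat_lit 5) (nat_lit 415) (nat_lit 342) (nat_lit 143)) (XT.nd (nat_lit 78) (nat_lit 76) (nat_lit 0) (XT.lf (nat_lit 0) (nat_lit 22750491949) (nat_lit 152) (nat_lit 27980301194) (nat_lit 228) (nat_lit 1504022209) (nat_lit 75) (nat_lit 5) (nat_lit 77) (nat_lit 5) (nat_lit 78) (nat_lit 5) (nat_lit 416) (nat_lit 342) (nat_lit 142)) (XT.lf (nat_lit 0) (nat_lit 9682522775) (nat_lit 228) (nat_lit 2354261888) (nat_lit 76) (nat_lit 41271491187) (nat_lit 74) (nat_lit 5) (nat_lit 77) (nat_lit 5) (nat_lit 75) (nat_lit 5) (nat_lit 417) (nat_lit 342) (nat_lit 141)))) (XT.nd (nat_lit 156) (nat_lit 456) (nat_lit 0) (XT.nd (nat_lit 78) (nat_lit 0) (nat_lit 0) (XT.lf (nat_lit 0) (nat_lit 21467330050) (nat_lit 304) (nat_lit 28371396576) (nat_lit 76) (nat_lit 4565980484) (nat_lit 71) (nat_lit 5) (nat_lit 75) (nat_lit 5) (nat_lit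 72) (nat_lit 5) (nat_lit 418) (nat_lit 342) (nat_lit 140)) (XT.lf (nat_lit 0) (nat_lit 33746322999) (nat_lit 304) (nat_lit 336272564) (nat_lit 76) (nat_lit 21447217032) (nat_lit 71) (nat_lit 5) (nat_lit 75) (nat_lit 5) (nat_lit 72) (nat_lit 5) (nat_lit 419) (nat_lit 342) (nat_lit 139))) (XT.nd (nat_lit 78) (nat_lit 304) (nat_lit 0) (XT.lf (nat_lit 0) (nat_lit 29103634343) (nat_lit 152) (nat_lit 17567343970) (nat_lit 228) (nat_lit 10009374670) (nat_lit 69) (nat_lit 5) (nat_lit 71) (nat_lit 5) (nat_lit 72) (nat_lit 5) (nat_lit 420) (nat_lit 342) (nat_lit 138)) (XT.lf (nat_lit 0) (nat_lit 1574458595) (nat_lit 228) (nat_lit 518278065) (nat_lit 304) (nat_lit 55771579571) (nat_lit 65) (nat_lit 5) (nat_lit 68) (nat_lit 5) (nat_lit 69) (nat_lit 5) (nat_lit 421) (nat_lit 342) (nat_lit 137))))))) (XT.nd (nat_lit 40716) (nat_lit 0) (nat_lit 14364) (XT.nd (nat_lit 468) (nat_lit 532) (nat_lit 0) (XT.nd (nat_lit 234)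 (nat_lit 380) (nat_lit 0) (XT.nd (nat_lit 78) (nat_lit 152) (nat_lit 0) (XT.lf (nat_lit 0) (nat_lit 14799334632) (nat_lit 304) (nat_lit 27179869534) (nat_lit 76) (nat_lit 17088343544) (nat_lit 65) (nat_lit 5) (nat_lit 69) (nat_lit 5) (nat_lit 66) (nat_lit 5) (nat_lit 422) (nat_lit 342) (nat_lit 136)) (XT.nd (nat_lit 78) (nat_lit 0) (nat_lit 0) (XT.lf (nat_lit 0) (nat_lit 2849807784) (nat_lit 152) (nat_lit 25067472856) (nat_lit 228) (nat_lit 32388691449) (nat_lit 63) (nat_lit 5) (nat_lit 65) (nat_lit 5) (nat_lit 66) (nat_lit 5) (nat_lit 423) (nat_lit 342) (nat_lit 135)) (XT.lf (nat_lit 0) (nat_lit 34333487215) (nat_lit 152) (nat_lit 7367396006) (nat_lit 228) (nat_lit 19872502877) (nat_lit 63) (nat_lit 5) (nat_lit 65) (nat_lit 5) (nat_lit 66) (nat_lit 5) (nat_lit 424) (nat_lit 342) (nat_lit 134)))) (XT.nd (nat_lit 78) (nat_lit 228) (nat_lit 0) (XT.lf (nat_lit 0) (nat_lit 3849561141) (nat_lit 152) (nat_lit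 52187572653) (nat_lit 228) (nat_lit 6837514966) (nat_lit 61) (nat_lit 5) (nat_lit 63) (nat_lit 5) (nat_lit 64) (nat_lit 5) (nat_lit 425) (nat_lit 342) (nat_lit 133)) (XT.nd (nat_lit 78) (nat_lit 152) (nat_lit 0) (XT.lf (nat_lit 0) (nat_lit 6808407563) (nat_lit 228) (nat_lit 27919592570) (nat_lit 76) (nat_lit 29474596065) (nat_lit 60) (nat_lit 5) (nat_lit 63) (nat_lit 5) (nat_lit 61) (nat_lit 5) (nat_lit 426) (nat_lit 342) (nat_lit 132)) (XT.lf (nat_lit 0) (nat_lit 4128047821) (nat_lit 152) (nat_lit 16635693838) (nat_lit 228) (nat_lit 44803486014) (nat_lit 58) (nat_lit 5) (nat_lit 60) (nat_lit 5) (nat_lit 61) (nat_lit 5) (nat_lit 427) (nat_lit 342) (nat_lit 131))))) (XT.nd (nat_lit 234) (nat_lit 380) (nat_lit 0) (XT.nd (nat_lit 78) (nat_lit 152) (nat_lit 0) (XT.lf (nat_lit 0) (nat_lit 35439471449) (nat_lit 228) (nat_lit 29280795884) (nat_lit 76) (nat_lit 2243479072) (nat_lit 58) (nat_lit 5) (nat_lit 61)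 (nat_lit 5) (nat_lit 59) (nat_lit 5) (nat_lit 428) (nat_lit 342) (nat_lit 130)) (XT.nd (nat_lit 78) (nat_lit 0) (nat_lit 0) (XT.lf (nat_lit 0) (nat_lit 3746973123) (nat_lit 152) (nat_lit 47007084195) (nat_lit 228) (nat_lit 17642146228) (nat_lit 56) (nat_lit 5) (nat_lit 58) (nat_lit 5) (nat_lit 59) (nat_lit 5) (nat_lit 429) (nat_lit 342) (nat_lit 129)) (XT.lf (nat_lit 0) (nat_lit 38362066225) (nat_lit 152) (nat_lit 28459575836) (nat_lit 228) (nat_lit 3041185862) (nat_lit 56) (nat_lit 5) (nat_lit 58) (nat_lit 5) (nat_lit 59) (nat_lit 5) (nat_lit 430) (nat_lit 342) (nat_lit 128)))) (XT.nd (nat_lit 156) (nat_lit 152) (nat_lit 0) (XT.nd (nat_lit 78) (nat_lit 0) (nat_lit 0) (XT.lf (nat_lit 0) (nat_lit 2573377306) (nat_lit 152) (nat_lit 9212966173) (nat_lit 228) (nat_lit 59582968170) (nat_lit 53) (nat_lit 5) (nat_lit 55) (nat_lit 5) (nat_lit 56) (nat_lit 5) (nat_lit 431) (nat_lit 342) (nat_lit 127)) (XT.lf (nat_lit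 0) (nat_lit 27418753075) (nat_lit 228) (nat_lit 34734911921) (nat_lit 76) (nat_lit 10753786523) (nat_lit 53) (nat_lit 5) (nat_lit 56) (nat_lit 5) (nat_lit 54) (nat_lit 5) (nat_lit 432) (nat_lit 342) (nat_lit 126))) (XT.nd (nat_lit 78) (nat_lit 0) (nat_lit 0) (XT.lf (nat_lit 0) (nat_lit 258188987) (nat_lit 152) (nat_lit 43353639484) (nat_lit 228) (nat_lit 30877156628) (nat_lit 51) (nat_lit 5) (nat_lit 53) (nat_lit 5) (nat_lit 54) (nat_lit 5) (nat_lit 433) (nat_lit 342) (nat_lit 125)) (XT.lf (nat_lit 0) (nat_lit 37009576696) (nat_lit 152) (nat_lit 23629892509) (nat_lit 228) (nat_lit 15468032603) (nat_lit 51) (nat_lit 5) (nat_lit 53) (nat_lit 5) (nat_lit 54) (nat_lit 5) (nat_lit 434) (nat_lit 342) (nat_lit 124)))))) (XT.nd (nat_lit 546) (nat_lit 912) (nat_lit 0) (XT.nd (nat_lit 234) (nat_lit 0) (nat_lit 76) (XT.nd (nat_lit 78) (nat_lit 0) (nat_lit 0) (XT.lf (nat_lit 0) (nat_lit 2431845909) (nat_lit 0) (nat_lit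 2431845909) (nat_lit 1140) (nat_lit 2499768647) (nat_lit 252) (nat_lit 5) (nat_lit 252) (nat_lit 3) (nat_lit 267) (nat_lit 3) (nat_lit 343) (nat_lit 343) (nat_lit 214)) (XT.nd (nat_lit 78) (nat_lit 0) (nat_lit 0) (XT.lf (nat_lit 0) (nat_lit 10193690641) (nat_lit 1140) (nat_lit 2837209700) (nat_lit 1216) (nat_lit 1907149807) (nat_lit 252) (nat_lit 5) (nat_lit 267) (nat_lit 3) (nat_lit 268) (nat_lit 5) (nat_lit 344) (nat_lit 343) (nat_lit 213)) (XT.lf (nat_lit 76) (nat_lit 4431608165) (nat_lit 0) (nat_lit 6321415517) (nat_lit 1216) (nat_lit 4400124803) (nat_lit 253) (nat_lit 5) (nat_lit 252) (nat_lit 5) (nat_lit 268) (nat_lit 5) (nat_lit 345) (nat_lit 343) (nat_lit 212)))) (XT.nd (nat_lit 156) (nat_lit 0) (nat_lit 0) (XT.nd (nat_lit 78) (nat_lit 0) (nat_lit 0) (XT.lf (nat_lit 0) (nat_lit 11352349236) (nat_lit 1140) (nat_lit 3409779381) (nat_lit 1216) (nat_lit 611880944) (nat_lit 253) (nat_lit 5) (nat_lit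 268) (nat_lit 5) (nat_lit 269) (nat_lit 5) (nat_lit 346) (nat_lit 343) (nat_lit 211)) (XT.lf (nat_lit 76) (nat_lit 4132947419) (nat_lit 0) (nat_lit 7927968849) (nat_lit 1216) (nat_lit 3537848336) (nat_lit 254) (nat_lit 5) (nat_lit 253) (nat_lit 5) (nat_lit 269) (nat_lit 5) (nat_lit 347) (nat_lit 343) (nat_lit 210))) (XT.nd (nat_lit 78) (nat_lit 0) (nat_lit 76) (XT.lf (nat_lit 76) (nat_lit 11965468985) (nat_lit 0) (nat_lit 848909054) (nat_lit 1216) (nat_lit 3015180940) (nat_lit 254) (nat_lit 5) (nat_lit 253) (nat_lit 5) (nat_lit 269) (nat_lit 5) (nat_lit 348) (nat_lit 343) (nat_lit 209)) (XT.lf (nat_lit 76) (nat_lit 3974762042) (nat_lit 0) (nat_lit 9705380132) (nat_lit 1216) (nat_lit 2384449697) (nat_lit 255) (nat_lit 5) (nat_lit 254) (nat_lit 5) (nat_lit 270) (nat_lit 5) (nat_lit 349) (nat_lit 343) (nat_lit 208))))) (XT.nd (nat_lit 234) (nat_lit 1064) (nat_lit 0) (XT.nd (nat_lit 78) (nat_lit 0) (nat_lit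 76) (XT.lf (nat_lit 76) (nat_lit 12112922262) (nat_lit 0) (nat_lit 2496102148) (nat_lit 1216) (nat_lit 1696542462) (nat_lit 255) (nat_lit 5) (nat_lit 254) (nat_lit 5) (nat_lit 270) (nat_lit 5) (nat_lit 350) (nat_lit 343) (nat_lit 207)) (XT.nd (nat_lit 78) (nat_lit 0) (nat_lit 0) (XT.lf (nat_lit 76) (nat_lit 3964795868) (nat_lit 0) (nat_lit 11676608579) (nat_lit 1216) (nat_lit 910103054) (nat_lit 256) (nat_lit 5) (nat_lit 255) (nat_lit 5) (nat_lit 271) (nat_lit 5) (nat_lit 351) (nat_lit 343) (nat_lit 206)) (XT.lf (nat_lit 76) (nat_lit 12421121241) (nat_lit 0) (nat_lit 4340802207) (nat_lit 1216) (nat_lit 41193038) (nat_lit 256) (nat_lit 5) (nat_lit 255) (nat_lit 5) (nat_lit 271) (nat_lit 5) (nat_lit 352) (nat_lit 343) (nat_lit 205)))) (XT.nd (nat_lit 156) (nat_lit 0) (nat_lit 76) (XT.nd (nat_lit 78) (nat_lit 0) (nat_lit 0) (XT.lf (nat_lit 0) (nat_lit 898819182) (nat_lit 1216) (nat_lit 12957771131) (nat_lit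 1292) (nat_lit 3203591221) (nat_lit 240) (nat_lit 5) (nat_lit 256) (nat_lit 5) (nat_lit 257) (nat_lit 5) (nat_lit 353) (nat_lit 343) (nat_lit 204)) (XT.lf (nat_lit 0) (nat_lit 1944650563) (nat_lit 1216) (nat_lit 4443103471) (nat_lit 1292) (nat_lit 10934843588) (nat_lit 240) (nat_lit 5) (nat_lit 256) (nat_lit 5) (nat_lit 257) (nat_lit 5) (nat_lit 354) (nat_lit 343) (nat_lit 203))) (XT.nd (nat_lit 78) (nat_lit 0) (nat_lit 0) (XT.lf (nat_lit 0) (nat_lit 3068250499) (nat_lit 1216) (nat_lit 13198512277) (nat_lit 1292) (nat_lit 1324736196) (nat_lit 241) (nat_lit 5) (nat_lit 257) (nat_lit 5) (nat_lit 258) (nat_lit 5) (nat_lit 355) (nat_lit 343) (nat_lit 202)) (XT.lf (nat_lit 0) (nat_lit 4325382450) (nat_lit 1216) (nat_lit 4352419348) (nat_lit 1292) (nat_lit 9187675297) (nat_lit 241) (nat_lit 5) (nat_lit 257) (nat_lit 5) (nat_lit 258) (nat_lit 5) (nat_lit 356) (nat_lit 343) (nat_lit 201))))))))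
noncomputable def xc201 : XT := (XT.nd (nat_lit 2106) (nat_lit 4484) (nat_lit 0) (XT.nd (nat_lit 1014) (nat_lit 3800) (nat_lit 0) (XT.nd (nat_lit 468) (nat_lit 2432) (nat_lit 0) (XT.nd (nat_lit 234) (nat_lit 1064) (nat_lit 0) (XT.nd (nat_lit 78) (nat_lit 0) (nat_lit 76) (XT.lf (nat_lit 76) (nat_lit 4846990550) (nat_lit 0) (nat_lit 811352447) (nat_lit 1292) (nat_lit 12488192450) (nat_lit 242) (nat_lit 5) (nat_lit 241) (nat_lit 5) (nat_lit 258) (nat_lit 5) (nat_lit 357) (nat_lit 343) (nat_lit 200)) (XT.nd (nat_lit 78) (nat_lit 0) (nat_lit 0) (XT.lf (nat_lit 0) (nat_lit 7137487329) (nat_lit 1216) (nat_lit 4100477875) (nat_lit 1292) (nat_lit 7194878695) (nat_lit 242) (nat_lit 5) (nat_lit 258) (nat_lit 5) (nat_lit 259) (nat_lit 5) (nat_lit 358) (nat_lit 343) (nat_lit 199)) (XT.lf (nat_lit 76) (nat_lit 5466547224) (nat_lit 0) (nat_lit 3247003336) (nat_lit 1292) (nat_lit 10012618783) (nat_lit 243) (nat_lit 5)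 (nat_lit 242) (nat_lit 5) (nat_lit 259) (nat_lit 5) (nat_lit 359) (nat_lit 343) (nat_lit 198)))) (XT.nd (nat_lit 78) (nat_lit 1216) (nat_lit 0) (XT.lf (nat_lit 0) (nat_lit 10418765309) (nat_lit 1216) (nat_lit 3677569471) (nat_lit 76) (nat_lit 4929507638) (nat_lit 243) (nat_lit 5) (nat_lit 259) (nat_lit 5) (nat_lit 244) (nat_lit 5) (nat_lit 360) (nat_lit 343) (nat_lit 197)) (XT.nd (nat_lit 78) (nat_lit 0) (nat_lit 0) (XT.lf (nat_lit 0) (nat_lit 6275615530) (nat_lit 1216) (nat_lit 5984369928) (nat_lit 1292) (nat_lit 7071978603) (nat_lit 227) (nat_lit 5) (nat_lit 243) (nat_lit 5) (nat_lit 244) (nat_lit 5) (nat_lit 361) (nat_lit 343) (nat_lit 196)) (XT.lf (nat_lit 0) (nat_lit 14209279978) (nat_lit 1292) (nat_lit 3073343058) (nat_lit 76) (nat_lit 2363064913) (nat_lit 227) (nat_lit 5) (nat_lit 244) (nat_lit 5) (nat_lit 228) (nat_lit 5) (nat_lit 362) (nat_lit 343) (nat_lit 195))))) (XT.nd (nat_lit 234) (nat_lit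 1140) (nat_lit 0) (XT.nd (nat_lit 78) (nat_lit 684) (nat_lit 0) (XT.lf (nat_lit 0) (nat_lit 7285453531) (nat_lit 608) (nat_lit 9053643209) (nat_lit 684) (nat_lit 3626069132) (nat_lit 219) (nat_lit 5) (nat_lit 227) (nat_lit 5) (nat_lit 228) (nat_lit 5) (nat_lit 363) (nat_lit 343) (nat_lit 194)) (XT.nd (nat_lit 78) (nat_lit 684) (nat_lit 0) (XT.lf (nat_lit 0) (nat_lit 18011466075) (nat_lit 608) (nat_lit 545284578) (nat_lit 684) (nat_lit 1736762718) (nat_lit 219) (nat_lit 5) (nat_lit 227) (nat_lit 5) (nat_lit 228) (nat_lit 5) (nat_lit 364) (nat_lit 343) (nat_lit 193)) (XT.lf (nat_lit 0) (nat_lit 360563829) (nat_lit 684) (nat_lit 12122635535) (nat_lit 76) (nat_lit 8143792199) (nat_lit 210) (nat_lit 5) (nat_lit 219) (nat_lit 5) (nat_lit 211) (nat_lit 5) (nat_lit 365) (nat_lit 343) (nat_lit 192)))) (XT.nd (nat_lit 156) (nat_lit 532) (nat_lit 0) (XT.nd (nat_lit 78) (nat_lit 608) (nat_lit 0) (XT.lf (nat_lit 0)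 (nat_lit 2507761563) (nat_lit 684) (nat_lit 1338121426) (nat_lit 76) (nat_lit 17123422702) (nat_lit 210) (nat_lit 5) (nat_lit 219) (nat_lit 5) (nat_lit 211) (nat_lit 5) (nat_lit 366) (nat_lit 343) (nat_lit 191)) (XT.lf (nat_lit 0) (nat_lit 4857979647) (nat_lit 684) (nat_lit 11410930605) (nat_lit 76) (nat_lit 5048823982) (nat_lit 202) (nat_lit 5) (nat_lit 211) (nat_lit 5) (nat_lit 203) (nat_lit 5) (nat_lit 367) (nat_lit 343) (nat_lit 190))) (XT.nd (nat_lit 78) (nat_lit 532) (nat_lit 0) (XT.lf (nat_lit 0) (nat_lit 7323946428) (nat_lit 684) (nat_lit 204504167) (nat_lit 76) (nat_lit 14146810807) (nat_lit 202) (nat_lit 5) (nat_lit 211) (nat_lit 5) (nat_lit 203) (nat_lit 5) (nat_lit 368) (nat_lit 343) (nat_lit 189)) (XT.lf (nat_lit 0) (nat_lit 9983964294) (nat_lit 608) (nat_lit 10498401665) (nat_lit 76) (nat_lit 1557549207) (nat_lit 195) (nat_lit 5) (nat_lit 203) (nat_lit 5) (nat_lit 196) (nat_lit 5) (nat_lit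 369) (nat_lit 343) (nat_lit 188)))))) (XT.nd (nat_lit 546) (nat_lit 1748) (nat_lit 0) (XT.nd (nat_lit 234) (nat_lit 1064) (nat_lit 0) (XT.nd (nat_lit 78) (nat_lit 456) (nat_lit 0) (XT.lf (nat_lit 0) (nat_lit 1170416235) (nat_lit 532) (nat_lit 11635069428) (nat_lit 608) (nat_lit 9607574651) (nat_lit 188) (nat_lit 5) (nat_lit 195) (nat_lit 5) (nat_lit 196) (nat_lit 5) (nat_lit 370) (nat_lit 343) (nat_lit 187)) (XT.nd (nat_lit 78) (nat_lit 456) (nat_lit 0) (XT.lf (nat_lit 0) (nat_lit 13398049058) (nat_lit 532) (nat_lit 2413562162) (nat_lit 608) (nat_lit 6982792616) (nat_lit 188) (nat_lit 5) (nat_lit 195) (nat_lit 5) (nat_lit 196) (nat_lit 5) (nat_lit 371) (nat_lit 343) (nat_lit 186)) (XT.lf (nat_lit 0) (nat_lit 2785125823) (nat_lit 456) (nat_lit 16211786343) (nat_lit 532) (nat_lit 4187608441) (nat_lit 182) (nat_lit 5) (nat_lit 188) (nat_lit 5) (nat_lit 189) (nat_lit 5) (nat_lit 372) (nat_lit 343) (nat_lit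 185)))) (XT.nd (nat_lit 156) (nat_lit 456) (nat_lit 0) (XT.nd (nat_lit 78) (nat_lit 608) (nat_lit 0) (XT.lf (nat_lit 0) (nat_lit 15493914036) (nat_lit 456) (nat_lit 6896633104) (nat_lit 532) (nat_lit 1192413110) (nat_lit 182) (nat_lit 5) (nat_lit 188) (nat_lit 5) (nat_lit 189) (nat_lit 5) (nat_lit 373) (nat_lit 343) (nat_lit 184)) (XT.lf (nat_lit 0) (nat_lit 1921361396) (nat_lit 608) (nat_lit 19361204128) (nat_lit 76) (nat_lit 2708274563) (nat_lit 174) (nat_lit 5) (nat_lit 182) (nat_lit 5) (nat_lit 175) (nat_lit 5) (nat_lit 374) (nat_lit 343) (nat_lit 183))) (XT.nd (nat_lit 78) (nat_lit 456) (nat_lit 0) (XT.lf (nat_lit 0) (nat_lit 5249794784) (nat_lit 608) (nat_lit 6600118547) (nat_lit 76) (nat_lit 12556334840) (nat_lit 174) (nat_lit 5) (nat_lit 182) (nat_lit 5) (nat_lit 175) (nat_lit 5) (nat_lit 375) (nat_lit 343) (nat_lit 182)) (XT.lf (nat_lit 0) (nat_lit 6667686355) (nat_lit 456) (nat_lit 2069086970)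 (nat_lit 532) (nat_lit 16095586733) (nat_lit 168) (nat_lit 5) (nat_lit 174) (nat_lit 5) (nat_lit 175) (nat_lit 5) (nat_lit 376) (nat_lit 343) (nat_lit 181))))) (XT.nd (nat_lit 234) (nat_lit 1292) (nat_lit 0) (XT.nd (nat_lit 78) (nat_lit 456) (nat_lit 0) (XT.lf (nat_lit 0) (nat_lit 12467308002) (nat_lit 532) (nat_lit 4884360818) (nat_lit 76) (nat_lit 7915420335) (nat_lit 168) (nat_lit 5) (nat_lit 175) (nat_lit 5) (nat_lit 169) (nat_lit 5) (nat_lit 377) (nat_lit 343) (nat_lit 180)) (XT.nd (nat_lit 78) (nat_lit 0) (nat_lit 0) (XT.lf (nat_lit 0) (nat_lit 8942238779) (nat_lit 456) (nat_lit 7468807038) (nat_lit 532) (nat_lit 9300777885) (nat_lit 162) (nat_lit 5) (nat_lit 168) (nat_lit 5) (nat_lit 169) (nat_lit 5) (nat_lit 378) (nat_lit 343) (nat_lit 179)) (XT.lf (nat_lit 0) (nat_lit 20543886938) (nat_lit 532) (nat_lit 2917419603) (nat_lit 76) (nat_lit 2706472138) (nat_lit 162) (nat_lit 5) (nat_lit 169) (nat_lit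 5) (nat_lit 163) (nat_lit 5) (nat_lit 379) (nat_lit 343) (nat_lit 178)))) (XT.nd (nat_lit 156) (nat_lit 836) (nat_lit 0) (XT.nd (nat_lit 78) (nat_lit 76) (nat_lit 0) (XT.lf (nat_lit 0) (nat_lit 11494628505) (nat_lit 380) (nat_lit 13485599574) (nat_lit 456) (nat_lit 1651800847) (nat_lit 157) (nat_lit 5) (nat_lit 162) (nat_lit 5) (nat_lit 163) (nat_lit 5) (nat_lit 380) (nat_lit 343) (nat_lit 177)) (XT.lf (nat_lit 0) (nat_lit 2416711137) (nat_lit 456) (nat_lit 740297084) (nat_lit 76) (nat_lit 23951751095) (nat_lit 156) (nat_lit 5) (nat_lit 162) (nat_lit 5) (nat_lit 157) (nat_lit 5) (nat_lit 381) (nat_lit 343) (nat_lit 176))) (XT.nd (nat_lit 78) (nat_lit 380) (nat_lit 0) (XT.lf (nat_lit 0) (nat_lit 6780669353) (nat_lit 532) (nat_lit 13322323811) (nat_lit 76) (nat_lit 7490111997) (nat_lit 150) (nat_lit 5) (nat_lit 157) (nat_lit 5) (nat_lit 151) (nat_lit 5) (nat_lit 382) (nat_lit 343) (nat_lit 175)) (XT.lf (nat_lit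 0) (nat_lit 1650515289) (nat_lit 380) (nat_lit 9675026166) (nat_lit 456) (nat_lit 16764941906) (nat_lit 145) (nat_lit 5) (nat_lit 150) (nat_lit 5) (nat_lit 151) (nat_lit 5) (nat_lit 383) (nat_lit 343) (nat_lit 174))))))) (XT.nd (nat_lit 1014) (nat_lit 2052) (nat_lit 0) (XT.nd (nat_lit 468) (nat_lit 1292) (nat_lit 0) (XT.nd (nat_lit 234) (nat_lit 760) (nat_lit 0) (XT.nd (nat_lit 78) (nat_lit 380) (nat_lit 0) (XT.lf (nat_lit 0) (nat_lit 16148255054) (nat_lit 456) (nat_lit 11270729419) (nat_lit 76) (nat_lit 1179555358) (nat_lit 145) (nat_lit 5) (nat_lit 151) (nat_lit 5) (nat_lit 146) (nat_lit 5) (nat_lit 384) (nat_lit 343) (nat_lit 173)) (XT.nd (nat_lit 78) (nat_lit 0) (nat_lit 0) (XT.lf (nat_lit 0) (nat_lit 4336552088) (nat_lit 380) (nat_lit 16912099280) (nat_lit 456) (nat_lit 7869198314) (nat_lit 140) (nat_lit 5) (nat_lit 145) (nat_lit 5) (nat_lit 146) (nat_lit 5) (nat_lit 385) (nat_lit 343) (nat_lit 172))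 (XT.lf (nat_lit 0) (nat_lit 20637284714) (nat_lit 380) (nat_lit 5974185082) (nat_lit 456) (nat_lit 3037988407) (nat_lit 140) (nat_lit 5) (nat_lit 145) (nat_lit 5) (nat_lit 146) (nat_lit 5) (nat_lit 386) (nat_lit 343) (nat_lit 171)))) (XT.nd (nat_lit 78) (nat_lit 380) (nat_lit 0) (XT.lf (nat_lit 0) (nat_lit 2018402466) (nat_lit 380) (nat_lit 22897131012) (nat_lit 76) (nat_lit 5277382209) (nat_lit 135) (nat_lit 5) (nat_lit 140) (nat_lit 5) (nat_lit 136) (nat_lit 5) (nat_lit 387) (nat_lit 343) (nat_lit 170)) (XT.nd (nat_lit 78) (nat_lit 380) (nat_lit 0) (XT.lf (nat_lit 0) (nat_lit 7312221035) (nat_lit 380) (nat_lit 6568138681) (nat_lit 76) (nat_lit 16867012446) (nat_lit 135) (nat_lit 5) (nat_lit 140) (nat_lit 5) (nat_lit 136) (nat_lit 5) (nat_lit 388) (nat_lit 343) (nat_lit 169)) (XT.lf (nat_lit 0) (nat_lit 10449005848) (nat_lit 380) (nat_lit 2412154487) (nat_lit 456) (nat_lit 18454414304) (nat_lit 130) (nat_lit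 5) (nat_lit 135) (nat_lit 5) (nat_lit 136) (nat_lit 5) (nat_lit 389) (nat_lit 343) (nat_lit 168))))) (XT.nd (nat_lit 234) (nat_lit 988) (nat_lit 0) (XT.nd (nat_lit 78) (nat_lit 304) (nat_lit 0) (XT.lf (nat_lit 0) (nat_lit 18729825928) (nat_lit 456) (nat_lit 3884213925) (nat_lit 76) (nat_lit 9282187042) (nat_lit 130) (nat_lit 5) (nat_lit 136) (nat_lit 5) (nat_lit 131) (nat_lit 5) (nat_lit 390) (nat_lit 343) (nat_lit 167)) (XT.nd (nat_lit 78) (nat_lit 0) (nat_lit 0) (XT.lf (nat_lit 0) (nat_lit 13848457847) (nat_lit 304) (nat_lit 11079131763) (nat_lit 380) (nat_lit 7562119371) (nat_lit 126) (nat_lit 5) (nat_lit 130) (nat_lit 5) (nat_lit 131) (nat_lit 5) (nat_lit 391) (nat_lit 343) (nat_lit 166)) (XT.lf (nat_lit 0) (nat_lit 31354688858) (nat_lit 380) (nat_lit 920736323) (nat_lit 76) (nat_lit 824269636) (nat_lit 126) (nat_lit 5) (nat_lit 131) (nat_lit 5) (nat_lit 127) (nat_lit 5) (nat_lit 392) (nat_lit 343)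 (nat_lit 165)))) (XT.nd (nat_lit 156) (nat_lit 304) (nat_lit 0) (XT.nd (nat_lit 78) (nat_lit 304) (nat_lit 0) (XT.lf (nat_lit 0) (nat_lit 4441151796) (nat_lit 380) (nat_lit 16204336141) (nat_lit 76) (nat_lit 13072947009) (nat_lit 121) (nat_lit 5) (nat_lit 126) (nat_lit 5) (nat_lit 122) (nat_lit 5) (nat_lit 393) (nat_lit 343) (nat_lit 164)) (XT.lf (nat_lit 0) (nat_lit 2185251882) (nat_lit 304) (nat_lit 8619184086) (nat_lit 380) (nat_lit 23549985805) (nat_lit 117) (nat_lit 5) (nat_lit 121) (nat_lit 5) (nat_lit 122) (nat_lit 5) (nat_lit 394) (nat_lit 343) (nat_lit 163))) (XT.nd (nat_lit 78) (nat_lit 304) (nat_lit 0) (XT.lf (nat_lit 0) (nat_lit 17556351974) (nat_lit 380) (nat_lit 13589178025) (nat_lit 76) (nat_lit 3858027418) (nat_lit 117) (nat_lit 5) (nat_lit 122) (nat_lit 5) (nat_lit 118) (nat_lit 5) (nat_lit 395) (nat_lit 343) (nat_lit 162)) (XT.lf (nat_lit 0) (nat_lit 5566190826) (nat_lit 304) (nat_lit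 19079849328) (nat_lit 380) (nat_lit 11022071716) (nat_lit 113) (nat_lit 5) (nat_lit 117) (nat_lit 5) (nat_lit 118) (nat_lit 5) (nat_lit 396) (nat_lit 343) (nat_lit 161)))))) (XT.nd (nat_lit 546) (nat_lit 1064) (nat_lit 0) (XT.nd (nat_lit 234) (nat_lit 608) (nat_lit 0) (XT.nd (nat_lit 78) (nat_lit 380) (nat_lit 0) (XT.lf (nat_lit 0) (nat_lit 25569536793) (nat_lit 304) (nat_lit 6512532099) (nat_lit 380) (nat_lit 4266525708) (nat_lit 113) (nat_lit 5) (nat_lit 117) (nat_lit 5) (nat_lit 118) (nat_lit 5) (nat_lit 397) (nat_lit 343) (nat_lit 160)) (XT.nd (nat_lit 78) (nat_lit 0) (nat_lit 0) (XT.lf (nat_lit 0) (nat_lit 2787747608) (nat_lit 380) (nat_lit 27835688790) (nat_lit 76) (nat_lit 6420822706) (nat_lit 108) (nat_lit 5) (nat_lit 113) (nat_lit 5) (nat_lit 109) (nat_lit 5) (nat_lit 398) (nat_lit 343) (nat_lit 159)) (XT.lf (nat_lit 0) (nat_lit 10138833192) (nat_lit 380) (nat_lit 7853746487) (nat_lit 76) (nat_lit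 19761819516) (nat_lit 108) (nat_lit 5) (nat_lit 113) (nat_lit 5) (nat_lit 109) (nat_lit 5) (nat_lit 399) (nat_lit 343) (nat_lit 158)))) (XT.nd (nat_lit 156) (nat_lit 304) (nat_lit 0) (XT.nd (nat_lit 78) (nat_lit 0) (nat_lit 0) (XT.lf (nat_lit 0) (nat_lit 12975805661) (nat_lit 304) (nat_lit 4856009538) (nat_lit 380) (nat_lit 20650388389) (nat_lit 104) (nat_lit 5) (nat_lit 108) (nat_lit 5) (nat_lit 109) (nat_lit 5) (nat_lit 400) (nat_lit 343) (nat_lit 157)) (XT.lf (nat_lit 0) (nat_lit 25915731699) (nat_lit 380) (nat_lit 4727483644) (nat_lit 76) (nat_lit 8583823405) (nat_lit 104) (nat_lit 5) (nat_lit 109) (nat_lit 5) (nat_lit 105) (nat_lit 5) (nat_lit 401) (nat_lit 343) (nat_lit 156))) (XT.nd (nat_lit 78) (nat_lit 76) (nat_lit 0) (XT.lf (nat_lit 0) (nat_lit 16952585058) (nat_lit 228) (nat_lit 17497381909) (nat_lit 304) (nat_lit 5538018916) (nat_lit 101) (nat_lit 5) (nat_lit 104) (nat_lit 5) (nat_lit 105) (nat_lit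 5) (nat_lit 402) (nat_lit 343) (nat_lit 155)) (XT.lf (nat_lit 0) (nat_lit 2465288249) (nat_lit 304) (nat_lit 1419522058) (nat_lit 76) (nat_lit 36884890502) (nat_lit 100) (nat_lit 5) (nat_lit 104) (nat_lit 5) (nat_lit 101) (nat_lit 5) (nat_lit 403) (nat_lit 343) (nat_lit 154))))) (XT.nd (nat_lit 234) (nat_lit 532) (nat_lit 0) (XT.nd (nat_lit 78) (nat_lit 228) (nat_lit 0) (XT.lf (nat_lit 0) (nat_lit 10898013310) (nat_lit 380) (nat_lit 20468327426) (nat_lit 76) (nat_lit 10197863546) (nat_lit 96) (nat_lit 5) (nat_lit 101) (nat_lit 5) (nat_lit 97) (nat_lit 5) (nat_lit 404) (nat_lit 343) (nat_lit 153)) (XT.nd (nat_lit 78) (nat_lit 0) (nat_lit 0) (XT.lf (nat_lit 0) (nat_lit 1927896607) (nat_lit 228) (nat_lit 17724196514) (nat_lit 304) (nat_lit 22728399399) (nat_lit 93) (nat_lit 5) (nat_lit 96) (nat_lit 5) (nat_lit 97) (nat_lit 5) (nat_lit 405) (nat_lit 343) (nat_lit 152)) (XT.lf (nat_lit 0) (nat_lit 25410793550)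 (nat_lit 228) (nat_lit 3461637018) (nat_lit 304) (nat_lit 14342730606) (nat_lit 93) (nat_lit 5) (nat_lit 96) (nat_lit 5) (nat_lit 97) (nat_lit 5) (nat_lit 406) (nat_lit 343) (nat_lit 151)))) (XT.nd (nat_lit 156) (nat_lit 228) (nat_lit 0) (XT.nd (nat_lit 78) (nat_lit 76) (nat_lit 0) (XT.lf (nat_lit 0) (nat_lit 5518323438) (nat_lit 228) (nat_lit 33009056292) (nat_lit 304) (nat_lit 5542750912) (nat_lit 90) (nat_lit 5) (nat_lit 93) (nat_lit 5) (nat_lit 94) (nat_lit 5) (nat_lit 407) (nat_lit 343) (nat_lit 150)) (XT.lf (nat_lit 0) (nat_lit 3665389232) (nat_lit 304) (nat_lit 15114331989) (nat_lit 76) (nat_lit 26163627095) (nat_lit 89) (nat_lit 5) (nat_lit 93) (nat_lit 5) (nat_lit 90) (nat_lit 5) (nat_lit 408) (nat_lit 343) (nat_lit 149))) (XT.nd (nat_lit 78) (nat_lit 0) (nat_lit 0) (XT.lf (nat_lit 0) (nat_lit 9145241615) (nat_lit 228) (nat_lit 3978154301) (nat_lit 304) (nat_lit 32715170193) (nat_lit 86) (nat_lit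 5) (nat_lit 89) (nat_lit 5) (nat_lit 90) (nat_lit 5) (nat_lit 409) (nat_lit 343) (nat_lit 148)) (XT.lf (nat_lit 0) (nat_lit 23124728935) (nat_lit 304) (nat_lit 12428079260) (nat_lit 76) (nat_lit 11200045370) (nat_lit 86) (nat_lit 5) (nat_lit 90) (nat_lit 5) (nat_lit 87) (nat_lit 5) (nat_lit 410) (nat_lit 343) (nat_lit 147))))))))
noncomputable def xc202 : XT := (XT.nd (nat_lit 41964) (nat_lit 0) (nat_lit 9804) (XT.nd (nat_lit 1014) (nat_lit 912) (nat_lit 0) (XT.nd (nat_lit 468) (nat_lit 912) (nat_lit 0) (XT.nd (nat_lit 234) (nat_lit 228) (nat_lit 0) (XT.nd (nat_lit 78) (nat_lit 228) (nat_lit 0) (XT.lf (nat_lit 0) (nat_lit 12770439599) (nat_lit 228) (nat_lit 20815030745) (nat_lit 304) (nat_lit 14104318939) (nat_lit 83) (nat_lit 5) (nat_lit 86) (nat_lit 5) (nat_lit 87) (nat_lit 5) (nat_lit 411) (nat_lit 343) (nat_lit 146)) (XT.nd (nat_lit 78) (nat_lit 228) (nat_lit 0) (XT.lf (nat_lit 0) (nat_lit 38975228180)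 (nat_lit 228) (nat_lit 5507566607) (nat_lit 304) (nat_lit 4168356136) (nat_lit 83) (nat_lit 5) (nat_lit 86) (nat_lit 5) (nat_lit 87) (nat_lit 5) (nat_lit 412) (nat_lit 343) (nat_lit 145)) (XT.lf (nat_lit 0) (nat_lit 6204825705) (nat_lit 228) (nat_lit 33149884640) (nat_lit 76) (nat_lit 10277169379) (nat_lit 80) (nat_lit 5) (nat_lit 83) (nat_lit 5) (nat_lit 81) (nat_lit 5) (nat_lit 413) (nat_lit 343) (nat_lit 144)))) (XT.nd (nat_lit 78) (nat_lit 228) (nat_lit 0) (XT.lf (nat_lit 0) (nat_lit 16955963566) (nat_lit 228) (nat_lit 7117265213) (nat_lit 76) (nat_lit 26563047889) (nat_lit 80) (nat_lit 5) (nat_lit 83) (nat_lit 5) (nat_lit 81) (nat_lit 5) (nat_lit 414) (nat_lit 343) (nat_lit 143)) (XT.nd (nat_lit 78) (nat_lit 0) (nat_lit 0) (XT.lf (nat_lit 0) (nat_lit 20083976707) (nat_lit 228) (nat_lit 8136130734) (nat_lit 304) (nat_lit 23444984520) (nat_lit 77) (nat_lit 5) (nat_lit 80) (nat_lit 5) (nat_lit 81) (nat_lit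 5) (nat_lit 415) (nat_lit 343) (nat_lit 142)) (XT.lf (nat_lit 0) (nat_lit 39971772315) (nat_lit 304) (nat_lit 4560044000) (nat_lit 76) (nat_lit 8188468076) (nat_lit 77) (nat_lit 5) (nat_lit 81) (nat_lit 5) (nat_lit 78) (nat_lit 5) (nat_lit 416) (nat_lit 343) (nat_lit 141))))) (XT.nd (nat_lit 234) (nat_lit 456) (nat_lit 0) (XT.nd (nat_lit 78) (nat_lit 304) (nat_lit 0) (XT.lf (nat_lit 0) (nat_lit 23648408025) (nat_lit 152) (nat_lit 28732963736) (nat_lit 228) (nat_lit 1416599857) (nat_lit 75) (nat_lit 5) (nat_lit 77) (nat_lit 5) (nat_lit 78) (nat_lit 5) (nat_lit 417) (nat_lit 343) (nat_lit 140)) (XT.nd (nat_lit 78) (nat_lit 228) (nat_lit 0) (XT.lf (nat_lit 0) (nat_lit 10099169940) (nat_lit 228) (nat_lit 2213224280) (nat_lit 76) (nat_lit 42591317849) (nat_lit 74) (nat_lit 5) (nat_lit 77) (nat_lit 5) (nat_lit 75) (nat_lit 5) (nat_lit 418) (nat_lit 343) (nat_lit 139)) (XT.lf (nat_lit 0) (nat_lit 22236679078)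 (nat_lit 304) (nat_lit 29010004527) (nat_lit 76) (nat_lit 4786378718) (nat_lit 71) (nat_lit 5) (nat_lit 75) (nat_lit 5) (nat_lit 72) (nat_lit 5) (nat_lit 419) (nat_lit 343) (nat_lit 138)))) (XT.nd (nat_lit 156) (nat_lit 304) (nat_lit 0) (XT.nd (nat_lit 78) (nat_lit 152) (nat_lit 0) (XT.lf (nat_lit 0) (nat_lit 34880391452) (nat_lit 304) (nat_lit 140017104) (nat_lit 76) (nat_lit 22171622688) (nat_lit 71) (nat_lit 5) (nat_lit 75) (nat_lit 5) (nat_lit 72) (nat_lit 5) (nat_lit 420) (nat_lit 343) (nat_lit 137)) (XT.lf (nat_lit 0) (nat_lit 30181064034) (nat_lit 152) (nat_lit 18010142406) (nat_lit 228) (nat_lit 10185929542) (nat_lit 69) (nat_lit 5) (nat_lit 71) (nat_lit 5) (nat_lit 72) (nat_lit 5) (nat_lit 421) (nat_lit 343) (nat_lit 136))) (XT.nd (nat_lit 78) (nat_lit 0) (nat_lit 0) (XT.lf (nat_lit 0) (nat_lit 1826424223) (nat_lit 228) (nat_lit 448841206) (nat_lit 304) (nat_lit 57321364676) (nat_lit 65) (nat_lit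 5) (nat_lit 68) (nat_lit 5) (nat_lit 69) (nat_lit 5) (nat_lit 422) (nat_lit 343) (nat_lit 135)) (XT.lf (nat_lit 0) (nat_lit 15360366709) (nat_lit 304) (nat_lit 27793779646) (nat_lit 76) (nat_lit 17681893689) (nat_lit 65) (nat_lit 5) (nat_lit 69) (nat_lit 5) (nat_lit 66) (nat_lit 5) (nat_lit 423) (nat_lit 343) (nat_lit 134)))))) (XT.nd (nat_lit 546) (nat_lit 228) (nat_lit 0) (XT.nd (nat_lit 234) (nat_lit 380) (nat_lit 0) (XT.nd (nat_lit 78) (nat_lit 152) (nat_lit 0) (XT.lf (nat_lit 0) (nat_lit 3134812639) (nat_lit 152) (nat_lit 25735546993) (nat_lit 228) (nat_lit 33241302922) (nat_lit 63) (nat_lit 5) (nat_lit 65) (nat_lit 5) (nat_lit 66) (nat_lit 5) (nat_lit 424) (nat_lit 343) (nat_lit 133)) (XT.nd (nat_lit 78) (nat_lit 152) (nat_lit 0) (XT.lf (nat_lit 0) (nat_lit 35557191464) (nat_lit 152) (nat_lit 7506912985) (nat_lit 228) (nat_lit 20353096147) (nat_lit 63) (nat_lit 5) (nat_lit 65) (nat_lit 5) (nat_lit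 66) (nat_lit 5) (nat_lit 425) (nat_lit 343) (nat_lit 132)) (XT.lf (nat_lit 0) (nat_lit 4159426676) (nat_lit 152) (nat_lit 53670377197) (nat_lit 228) (nat_lit 6927717043) (nat_lit 61) (nat_lit 5) (nat_lit 63) (nat_lit 5) (nat_lit 64) (nat_lit 5) (nat_lit 426) (nat_lit 343) (nat_lit 131)))) (XT.nd (nat_lit 156) (nat_lit 152) (nat_lit 0) (XT.nd (nat_lit 78) (nat_lit 152) (nat_lit 0) (XT.lf (nat_lit 0) (nat_lit 7122058628) (nat_lit 228) (nat_lit 28566266469) (nat_lit 76) (nat_lit 30437047580) (nat_lit 60) (nat_lit 5) (nat_lit 63) (nat_lit 5) (nat_lit 61) (nat_lit 5) (nat_lit 427) (nat_lit 343) (nat_lit 130)) (XT.lf (nat_lit 0) (nat_lit 4440931429) (nat_lit 152) (nat_lit 17053752133) (nat_lit 228) (nat_lit 46036301176) (nat_lit 58) (nat_lit 5) (nat_lit 60) (nat_lit 5) (nat_lit 61) (nat_lit 5) (nat_lit 428) (nat_lit 343) (nat_lit 129))) (XT.nd (nat_lit 78) (nat_lit 152) (nat_lit 0) (XT.lf (nat_lit 0) (nat_lit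 36608294811) (nat_lit 228) (nat_lit 29973274910) (nat_lit 76) (nat_lit 2387901574) (nat_lit 58) (nat_lit 5) (nat_lit 61) (nat_lit 5) (nat_lit 59) (nat_lit 5) (nat_lit 429) (nat_lit 343) (nat_lit 128)) (XT.lf (nat_lit 0) (nat_lit 4043504178) (nat_lit 152) (nat_lit 48337507099) (nat_lit 228) (nat_lit 18063930616) (nat_lit 56) (nat_lit 5) (nat_lit 58) (nat_lit 5) (nat_lit 59) (nat_lit 5) (nat_lit 430) (nat_lit 343) (nat_lit 127))))) (XT.nd (nat_lit 40092) (nat_lit 0) (nat_lit 15124) (XT.nd (nat_lit 78) (nat_lit 228) (nat_lit 0) (XT.lf (nat_lit 0) (nat_lit 39691687301) (nat_lit 152) (nat_lit 29235897459) (nat_lit 228) (nat_lit 3028071924) (nat_lit 56) (nat_lit 5) (nat_lit 58) (nat_lit 5) (nat_lit 59) (nat_lit 5) (nat_lit 431) (nat_lit 343) (nat_lit 126)) (XT.nd (nat_lit 78) (nat_lit 0) (nat_lit 0) (XT.lf (nat_lit 0) (nat_lit 2829618051) (nat_lit 152) (nat_lit 9411370049) (nat_lit 228) (nat_lit 61266354988)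 (nat_lit 53) (nat_lit 5) (nat_lit 55) (nat_lit 5) (nat_lit 56) (nat_lit 5) (nat_lit 432) (nat_lit 343) (nat_lit 125)) (XT.lf (nat_lit 0) (nat_lit 28340154460) (nat_lit 228) (nat_lit 35600903263) (nat_lit 76) (nat_lit 11150636370) (nat_lit 53) (nat_lit 5) (nat_lit 56) (nat_lit 5) (nat_lit 54) (nat_lit 5) (nat_lit 433) (nat_lit 343) (nat_lit 124)))) (XT.nd (nat_lit 156) (nat_lit 0) (nat_lit 0) (XT.nd (nat_lit 78) (nat_lit 0) (nat_lit 0) (XT.lf (nat_lit 0) (nat_lit 2654200581) (nat_lit 0) (nat_lit 2654200581) (nat_lit 1140) (nat_lit 2266838013) (nat_lit 252) (nat_lit 5) (nat_lit 252) (nat_lit 3) (nat_lit 267) (nat_lit 3) (nat_lit 344) (nat_lit 344) (nat_lit 212)) (XT.lf (nat_lit 0) (nat_lit 11076904217) (nat_lit 1140) (nat_lit 2611723046) (nat_lit 1216) (nat_lit 1679929396) (nat_lit 252) (nat_lit 5) (nat_lit 267) (nat_lit 3) (nat_lit 268) (nat_lit 5) (nat_lit 345) (nat_lit 344) (nat_lit 211))) (XT.nd (nat_lit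 78) (nat_lit 0) (nat_lit 76) (XT.lf (nat_lit 76) (nat_lit 4872114228) (nat_lit 0) (nat_lit 6767041896) (nat_lit 1216) (nat_lit 3951376770) (nat_lit 253) (nat_lit 5) (nat_lit 252) (nat_lit 5) (nat_lit 268) (nat_lit 5) (nat_lit 346) (nat_lit 344) (nat_lit 210)) (XT.lf (nat_lit 0) (nat_lit 12237658605) (nat_lit 1140) (nat_lit 3194375153) (nat_lit 1216) (nat_lit 386558978) (nat_lit 253) (nat_lit 5) (nat_lit 268) (nat_lit 5) (nat_lit 269) (nat_lit 5) (nat_lit 347) (nat_lit 344) (nat_lit 209))))))) (XT.nd (nat_lit 1014) (nat_lit 4332) (nat_lit 0) (XT.nd (nat_lit 468) (nat_lit 0) (nat_lit 76) (XT.nd (nat_lit 234) (nat_lit 1064) (nat_lit 0) (XT.nd (nat_lit 78) (nat_lit 0) (nat_lit 0) (XT.lf (nat_lit 76) (nat_lit 4571518769) (nat_lit 0) (nat_lit 8383121661) (nat_lit 1216) (nat_lit 3095843858) (nat_lit 254) (nat_lit 5) (nat_lit 253) (nat_lit 5) (nat_lit 269) (nat_lit 5) (nat_lit 348) (nat_lit 344) (nat_lit 208))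 (XT.nd (nat_lit 78) (nat_lit 0) (nat_lit 76) (XT.lf (nat_lit 76) (nat_lit 12629853372) (nat_lit 0) (nat_lit 1085360545) (nat_lit 1216) (nat_lit 2573461680) (nat_lit 254) (nat_lit 5) (nat_lit 253) (nat_lit 5) (nat_lit 269) (nat_lit 5) (nat_lit 349) (nat_lit 344) (nat_lit 207)) (XT.lf (nat_lit 76) (nat_lit 4414054671) (nat_lit 0) (nat_lit 10178962872) (nat_lit 1216) (nat_lit 1938168033) (nat_lit 255) (nat_lit 5) (nat_lit 254) (nat_lit 5) (nat_lit 270) (nat_lit 5) (nat_lit 350) (nat_lit 344) (nat_lit 206)))) (XT.nd (nat_lit 78) (nat_lit 1140) (nat_lit 0) (XT.lf (nat_lit 76) (nat_lit 12787037860) (nat_lit 0) (nat_lit 2748093306) (nat_lit 1216) (nat_lit 1244705576) (nat_lit 255) (nat_lit 5) (nat_lit 254) (nat_lit 5) (nat_lit 270) (nat_lit 5) (nat_lit 351) (nat_lit 344) (nat_lit 205)) (XT.nd (nat_lit 78) (nat_lit 1216) (nat_lit 0) (XT.lf (nat_lit 76) (nat_lit 4407858188) (nat_lit 0) (nat_lit 12177878340) (nat_lit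 1216) (nat_lit 447809077) (nat_lit 256) (nat_lit 5) (nat_lit 255) (nat_lit 5) (nat_lit 271) (nat_lit 5) (nat_lit 352) (nat_lit 344) (nat_lit 204)) (XT.lf (nat_lit 0) (nat_lit 424460533) (nat_lit 1216) (nat_lit 4188853797) (nat_lit 1292) (nat_lit 12679686226) (nat_lit 239) (nat_lit 5) (nat_lit 255) (nat_lit 5) (nat_lit 256) (nat_lit 5) (nat_lit 353) (nat_lit 344) (nat_lit 203))))) (XT.nd (nat_lit 234) (nat_lit 0) (nat_lit 76) (XT.nd (nat_lit 78) (nat_lit 0) (nat_lit 0) (XT.lf (nat_lit 0) (nat_lit 1380062921) (nat_lit 1216) (nat_lit 13010295718) (nat_lit 1292) (nat_lit 3167767134) (nat_lit 240) (nat_lit 5) (nat_lit 256) (nat_lit 5) (nat_lit 257) (nat_lit 5) (nat_lit 354) (nat_lit 344) (nat_lit 202)) (XT.nd (nat_lit 78) (nat_lit 0) (nat_lit 76) (XT.lf (nat_lit 0) (nat_lit 2444037811) (nat_lit 1216) (nat_lit 4249980510) (nat_lit 1292) (nat_lit 11134799747) (nat_lit 240) (nat_lit 5) (nat_lit 256) (nat_lit 5)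 (nat_lit 257) (nat_lit 5) (nat_lit 355) (nat_lit 344) (nat_lit 201)) (XT.lf (nat_lit 0) (nat_lit 3590567590) (nat_lit 1216) (nat_lit 13257053958) (nat_lit 1292) (nat_lit 1258494838) (nat_lit 241) (nat_lit 5) (nat_lit 257) (nat_lit 5) (nat_lit 258) (nat_lit 5) (nat_lit 356) (nat_lit 344) (nat_lit 200)))) (XT.nd (nat_lit 156) (nat_lit 0) (nat_lit 76) (XT.nd (nat_lit 78) (nat_lit 0) (nat_lit 0) (XT.lf (nat_lit 0) (nat_lit 4872881376) (nat_lit 1216) (nat_lit 4155405825) (nat_lit 1292) (nat_lit 9360409008) (nat_lit 241) (nat_lit 5) (nat_lit 257) (nat_lit 5) (nat_lit 258) (nat_lit 5) (nat_lit 357) (nat_lit 344) (nat_lit 199)) (XT.lf (nat_lit 76) (nat_lit 5316774742) (nat_lit 0) (nat_lit 920006973) (nat_lit 1292) (nat_lit 12441682274) (nat_lit 242) (nat_lit 5) (nat_lit 241) (nat_lit 5) (nat_lit 258) (nat_lit 5) (nat_lit 358) (nat_lit 344) (nat_lit 198))) (XT.nd (nat_lit 78) (nat_lit 0) (nat_lit 0) (XT.lf (nat_lit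 0) (nat_lit 7747609959) (nat_lit 1216) (nat_lit 3895674275) (nat_lit 1292) (nat_lit 7330464197) (nat_lit 242) (nat_lit 5) (nat_lit 258) (nat_lit 5) (nat_lit 259) (nat_lit 5) (nat_lit 359) (nat_lit 344) (nat_lit 197)) (XT.lf (nat_lit 76) (nat_lit 5955147675) (nat_lit 0) (nat_lit 3407393782) (nat_lit 1292) (nat_lit 9913590441) (nat_lit 243) (nat_lit 5) (nat_lit 242) (nat_lit 5) (nat_lit 259) (nat_lit 5) (nat_lit 360) (nat_lit 344) (nat_lit 196)))))) (XT.nd (nat_lit 546) (nat_lit 2128) (nat_lit 0) (XT.nd (nat_lit 234) (nat_lit 1292) (nat_lit 0) (XT.nd (nat_lit 78) (nat_lit 1216) (nat_lit 0) (XT.lf (nat_lit 0) (nat_lit 11107036011) (nat_lit 1216) (nat_lit 3460681055) (nat_lit 76) (nat_lit 5017440079) (nat_lit 243) (nat_lit 5) (nat_lit 259) (nat_lit 5) (nat_lit 244) (nat_lit 5) (nat_lit 361) (nat_lit 344) (nat_lit 195)) (XT.nd (nat_lit 78) (nat_lit 0) (nat_lit 0) (XT.lf (nat_lit 0) (nat_lit 6787891501) (nat_lit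 1216) (nat_lit 6207772877) (nat_lit 1292) (nat_lit 6905038423) (nat_lit 227) (nat_lit 5) (nat_lit 243) (nat_lit 5) (nat_lit 244) (nat_lit 5) (nat_lit 362) (nat_lit 344) (nat_lit 194)) (XT.lf (nat_lit 0) (nat_lit 14992313362) (nat_lit 1292) (nat_lit 2839670137) (nat_lit 76) (nat_lit 2392193992) (nat_lit 227) (nat_lit 5) (nat_lit 244) (nat_lit 5) (nat_lit 228) (nat_lit 5) (nat_lit 363) (nat_lit 344) (nat_lit 193)))) (XT.nd (nat_lit 156) (nat_lit 684) (nat_lit 0) (XT.nd (nat_lit 78) (nat_lit 0) (nat_lit 0) (XT.lf (nat_lit 0) (nat_lit 7826695515) (nat_lit 608) (nat_lit 9352039972) (nat_lit 684) (nat_lit 3374728137) (nat_lit 219) (nat_lit 5) (nat_lit 227) (nat_lit 5) (nat_lit 228) (nat_lit 5) (nat_lit 364) (nat_lit 344) (nat_lit 192)) (XT.lf (nat_lit 0) (nat_lit 18865090035) (nat_lit 608) (nat_lit 587650365) (nat_lit 684) (nat_lit 1439231552) (nat_lit 219) (nat_lit 5) (nat_lit 227) (nat_lit 5) (nat_lit 228)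 (nat_lit 5) (nat_lit 365) (nat_lit 344) (nat_lit 191))) (XT.nd (nat_lit 78) (nat_lit 0) (nat_lit 0) (XT.lf (nat_lit 0) (nat_lit 707075556) (nat_lit 684) (nat_lit 12158773536) (nat_lit 76) (nat_lit 8369722826) (nat_lit 210) (nat_lit 5) (nat_lit 219) (nat_lit 5) (nat_lit 211) (nat_lit 5) (nat_lit 366) (nat_lit 344) (nat_lit 190)) (XT.lf (nat_lit 0) (nat_lit 2908911703) (nat_lit 684) (nat_lit 1060264034) (nat_lit 76) (nat_lit 17619277676) (nat_lit 210) (nat_lit 5) (nat_lit 219) (nat_lit 5) (nat_lit 211) (nat_lit 5) (nat_lit 367) (nat_lit 344) (nat_lit 189))))) (XT.nd (nat_lit 234) (nat_lit 988) (nat_lit 0) (XT.nd (nat_lit 78) (nat_lit 532) (nat_lit 0) (XT.lf (nat_lit 0) (nat_lit 5323126534) (nat_lit 684) (nat_lit 11428598247) (nat_lit 76) (nat_lit 5195809809) (nat_lit 202) (nat_lit 5) (nat_lit 211) (nat_lit 5) (nat_lit 203) (nat_lit 5) (nat_lit 368) (nat_lit 344) (nat_lit 188)) (XT.nd (nat_lit 78) (nat_lit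 0) (nat_lit 0) (XT.lf (nat_lit 0) (nat_lit 106645904) (nat_lit 532) (nat_lit 7748148428) (nat_lit 608) (nat_lit 14461245933) (nat_lit 195) (nat_lit 5) (nat_lit 202) (nat_lit 5) (nat_lit 203) (nat_lit 5) (nat_lit 369) (nat_lit 344) (nat_lit 187)) (XT.lf (nat_lit 0) (nat_lit 10587632953) (nat_lit 608) (nat_lit 10492054059) (nat_lit 76) (nat_lit 1612160250) (nat_lit 195) (nat_lit 5) (nat_lit 203) (nat_lit 5) (nat_lit 196) (nat_lit 5) (nat_lit 370) (nat_lit 344) (nat_lit 186)))) (XT.nd (nat_lit 156) (nat_lit 456) (nat_lit 0) (XT.nd (nat_lit 78) (nat_lit 0) (nat_lit 0) (XT.lf (nat_lit 0) (nat_lit 1523678381) (nat_lit 532) (nat_lit 11964321101) (nat_lit 608) (nat_lit 9588365400) (nat_lit 188) (nat_lit 5) (nat_lit 195) (nat_lit 5) (nat_lit 196) (nat_lit 5) (nat_lit 371) (nat_lit 344) (nat_lit 185)) (XT.lf (nat_lit 0) (nat_lit 14108873694) (nat_lit 532) (nat_lit 2466745327) (nat_lit 608) (nat_lit 6893794364) (nat_lit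 188) (nat_lit 5) (nat_lit 195) (nat_lit 5) (nat_lit 196) (nat_lit 5) (nat_lit 372) (nat_lit 344) (nat_lit 184))) (XT.nd (nat_lit 78) (nat_lit 0) (nat_lit 0) (XT.lf (nat_lit 0) (nat_lit 3183087587) (nat_lit 456) (nat_lit 16668156416) (nat_lit 532) (nat_lit 4020150576) (nat_lit 182) (nat_lit 5) (nat_lit 188) (nat_lit 5) (nat_lit 189) (nat_lit 5) (nat_lit 373) (nat_lit 344) (nat_lit 183)) (XT.lf (nat_lit 0) (nat_lit 16263981932) (nat_lit 456) (nat_lit 7074421886) (nat_lit 532) (nat_lit 943635873) (nat_lit 182) (nat_lit 5) (nat_lit 188) (nat_lit 5) (nat_lit 189) (nat_lit 5) (nat_lit 374) (nat_lit 344) (nat_lit 182))))))))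
noncomputable def xc203 : XT := (XT.nd (nat_lit 2106) (nat_lit 3344) (nat_lit 0) (XT.nd (nat_lit 1014) (nat_lit 2736) (nat_lit 0) (XT.nd (nat_lit 468) (nat_lit 1672) (nat_lit 0) (XT.nd (nat_lit 234) (nat_lit 456) (nat_lit 0) (XT.nd (nat_lit 78) (nat_lit 456) (nat_lit 0) (XT.lf (nat_lit 0) (nat_lit 2253159917) (nat_lit 608) (nat_lit 19626158339) (nat_lit 76) (nat_lit 2822904328) (nat_lit 174) (nat_lit 5) (nat_lit 182) (nat_lit 5) (nat_lit 175) (nat_lit 5) (nat_lit 375) (nat_lit 344) (nat_lit 181)) (XT.nd (nat_lit 78) (nat_lit 456) (nat_lit 0) (XT.lf (nat_lit 0) (nat_lit 5673461132) (nat_lit 608) (nat_lit 6491440635) (nat_lit 76) (nat_lit 12965434136) (nat_lit 174) (nat_lit 5) (nat_lit 182) (nat_lit 5) (nat_lit 175) (nat_lit 5) (nat_lit 376) (nat_lit 344) (nat_lit 180)) (XT.lf (nat_lit 0) (nat_lit 7171391734) (nat_lit 456) (nat_lit 2088823806) (nat_lit 532) (nat_lit 16309163947) (nat_lit 168) (nat_lit 5)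 (nat_lit 174) (nat_lit 5) (nat_lit 175) (nat_lit 5) (nat_lit 377) (nat_lit 344) (nat_lit 179)))) (XT.nd (nat_lit 78) (nat_lit 456) (nat_lit 0) (XT.lf (nat_lit 0) (nat_lit 13095449546) (nat_lit 532) (nat_lit 4728737076) (nat_lit 76) (nat_lit 8193183575) (nat_lit 168) (nat_lit 5) (nat_lit 175) (nat_lit 5) (nat_lit 169) (nat_lit 5) (nat_lit 378) (nat_lit 344) (nat_lit 178)) (XT.nd (nat_lit 78) (nat_lit 0) (nat_lit 0) (XT.lf (nat_lit 0) (nat_lit 9509698209) (nat_lit 456) (nat_lit 7643275685) (nat_lit 532) (nat_lit 9322611800) (nat_lit 162) (nat_lit 5) (nat_lit 168) (nat_lit 5) (nat_lit 169) (nat_lit 5) (nat_lit 379) (nat_lit 344) (nat_lit 177)) (XT.lf (nat_lit 0) (nat_lit 21402993298) (nat_lit 532) (nat_lit 2707555547) (nat_lit 76) (nat_lit 2834877736) (nat_lit 162) (nat_lit 5) (nat_lit 169) (nat_lit 5) (nat_lit 163) (nat_lit 5) (nat_lit 380) (nat_lit 344) (nat_lit 176))))) (XT.nd (nat_lit 234) (nat_lit 760)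 (nat_lit 0) (XT.nd (nat_lit 78) (nat_lit 532) (nat_lit 0) (XT.lf (nat_lit 0) (nat_lit 12133938449) (nat_lit 380) (nat_lit 13834245316) (nat_lit 456) (nat_lit 1455550763) (nat_lit 157) (nat_lit 5) (nat_lit 162) (nat_lit 5) (nat_lit 163) (nat_lit 5) (nat_lit 381) (nat_lit 344) (nat_lit 175)) (XT.nd (nat_lit 78) (nat_lit 456) (nat_lit 0) (XT.lf (nat_lit 0) (nat_lit 2723200418) (nat_lit 456) (nat_lit 471861787) (nat_lit 76) (nat_lit 24719847122) (nat_lit 156) (nat_lit 5) (nat_lit 162) (nat_lit 5) (nat_lit 157) (nat_lit 5) (nat_lit 382) (nat_lit 344) (nat_lit 174)) (XT.lf (nat_lit 0) (nat_lit 7214584800) (nat_lit 532) (nat_lit 13427766318) (nat_lit 76) (nat_lit 7771541920) (nat_lit 150) (nat_lit 5) (nat_lit 157) (nat_lit 5) (nat_lit 151) (nat_lit 5) (nat_lit 383) (nat_lit 344) (nat_lit 173)))) (XT.nd (nat_lit 156) (nat_lit 380) (nat_lit 0) (XT.nd (nat_lit 78) (nat_lit 0) (nat_lit 0) (XT.lf (nat_lit 0) (nat_lit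 1991373376) (nat_lit 380) (nat_lit 9900516796) (nat_lit 456) (nat_lit 17034422433) (nat_lit 145) (nat_lit 5) (nat_lit 150) (nat_lit 5) (nat_lit 151) (nat_lit 5) (nat_lit 384) (nat_lit 344) (nat_lit 172)) (XT.lf (nat_lit 0) (nat_lit 16853290071) (nat_lit 456) (nat_lit 11319914047) (nat_lit 76) (nat_lit 1276589058) (nat_lit 145) (nat_lit 5) (nat_lit 151) (nat_lit 5) (nat_lit 146) (nat_lit 5) (nat_lit 385) (nat_lit 344) (nat_lit 171))) (XT.nd (nat_lit 78) (nat_lit 0) (nat_lit 0) (XT.lf (nat_lit 0) (nat_lit 4752753187) (nat_lit 380) (nat_lit 17350270426) (nat_lit 456) (nat_lit 7881771434) (nat_lit 140) (nat_lit 5) (nat_lit 145) (nat_lit 5) (nat_lit 146) (nat_lit 5) (nat_lit 386) (nat_lit 344) (nat_lit 170)) (XT.lf (nat_lit 0) (nat_lit 21534174649) (nat_lit 380) (nat_lit 6086234098) (nat_lit 456) (nat_lit 2912135022) (nat_lit 140) (nat_lit 5) (nat_lit 145) (nat_lit 5) (nat_lit 146) (nat_lit 5) (nat_lit 387)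 (nat_lit 344) (nat_lit 169)))))) (XT.nd (nat_lit 546) (nat_lit 1292) (nat_lit 0) (XT.nd (nat_lit 234) (nat_lit 684) (nat_lit 0) (XT.nd (nat_lit 78) (nat_lit 380) (nat_lit 0) (XT.lf (nat_lit 0) (nat_lit 2288874952) (nat_lit 380) (nat_lit 23299047204) (nat_lit 76) (nat_lit 5504407666) (nat_lit 135) (nat_lit 5) (nat_lit 140) (nat_lit 5) (nat_lit 136) (nat_lit 5) (nat_lit 388) (nat_lit 344) (nat_lit 168)) (XT.nd (nat_lit 78) (nat_lit 380) (nat_lit 0) (XT.lf (nat_lit 0) (nat_lit 7735393891) (nat_lit 380) (nat_lit 6488486008) (nat_lit 76) (nat_lit 17439725723) (nat_lit 135) (nat_lit 5) (nat_lit 140) (nat_lit 5) (nat_lit 136) (nat_lit 5) (nat_lit 389) (nat_lit 344) (nat_lit 167)) (XT.lf (nat_lit 0) (nat_lit 11036460142) (nat_lit 380) (nat_lit 2411038827) (nat_lit 456) (nat_lit 18801456418) (nat_lit 130) (nat_lit 5) (nat_lit 135) (nat_lit 5) (nat_lit 136) (nat_lit 5) (nat_lit 390) (nat_lit 344) (nat_lit 166))))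 (XT.nd (nat_lit 156) (nat_lit 380) (nat_lit 0) (XT.nd (nat_lit 78) (nat_lit 304) (nat_lit 0) (XT.lf (nat_lit 0) (nat_lit 19487070378) (nat_lit 456) (nat_lit 3729512894) (nat_lit 76) (nat_lit 9630600643) (nat_lit 130) (nat_lit 5) (nat_lit 136) (nat_lit 5) (nat_lit 131) (nat_lit 5) (nat_lit 391) (nat_lit 344) (nat_lit 165)) (XT.lf (nat_lit 0) (nat_lit 14532479939) (nat_lit 304) (nat_lit 11335178879) (nat_lit 380) (nat_lit 7590906909) (nat_lit 126) (nat_lit 5) (nat_lit 130) (nat_lit 5) (nat_lit 131) (nat_lit 5) (nat_lit 392) (nat_lit 344) (nat_lit 164))) (XT.nd (nat_lit 78) (nat_lit 380) (nat_lit 0) (XT.lf (nat_lit 0) (nat_lit 32482684105) (nat_lit 380) (nat_lit 682660179) (nat_lit 76) (nat_lit 921655420) (nat_lit 126) (nat_lit 5) (nat_lit 131) (nat_lit 5) (nat_lit 127) (nat_lit 5) (nat_lit 393) (nat_lit 344) (nat_lit 163)) (XT.lf (nat_lit 0) (nat_lit 4760701202) (nat_lit 380) (nat_lit 16423603275) (nat_lit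 76) (nat_lit 13540032501) (nat_lit 121) (nat_lit 5) (nat_lit 126) (nat_lit 5) (nat_lit 122) (nat_lit 5) (nat_lit 394) (nat_lit 344) (nat_lit 162))))) (XT.nd (nat_lit 234) (nat_lit 684) (nat_lit 0) (XT.nd (nat_lit 78) (nat_lit 304) (nat_lit 0) (XT.lf (nat_lit 0) (nat_lit 2515056085) (nat_lit 304) (nat_lit 8796941268) (nat_lit 380) (nat_lit 24067494447) (nat_lit 117) (nat_lit 5) (nat_lit 121) (nat_lit 5) (nat_lit 122) (nat_lit 5) (nat_lit 395) (nat_lit 344) (nat_lit 161)) (XT.nd (nat_lit 78) (nat_lit 304) (nat_lit 0) (XT.lf (nat_lit 0) (nat_lit 18261882516) (nat_lit 380) (nat_lit 13735656864) (nat_lit 76) (nat_lit 4050701525) (nat_lit 117) (nat_lit 5) (nat_lit 122) (nat_lit 5) (nat_lit 118) (nat_lit 5) (nat_lit 396) (nat_lit 344) (nat_lit 160)) (XT.lf (nat_lit 0) (nat_lit 5991812303) (nat_lit 304) (nat_lit 19569726272) (nat_lit 380) (nat_lit 11171276790) (nat_lit 113) (nat_lit 5) (nat_lit 117) (nat_lit 5)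 (nat_lit 118) (nat_lit 5) (nat_lit 397) (nat_lit 344) (nat_lit 159)))) (XT.nd (nat_lit 156) (nat_lit 304) (nat_lit 0) (XT.nd (nat_lit 78) (nat_lit 380) (nat_lit 0) (XT.lf (nat_lit 0) (nat_lit 26587725569) (nat_lit 304) (nat_lit 6627792979) (nat_lit 380) (nat_lit 4218349559) (nat_lit 113) (nat_lit 5) (nat_lit 117) (nat_lit 5) (nat_lit 118) (nat_lit 5) (nat_lit 398) (nat_lit 344) (nat_lit 158)) (XT.lf (nat_lit 0) (nat_lit 3042294388) (nat_lit 380) (nat_lit 28414294538) (nat_lit 76) (nat_lit 6693818957) (nat_lit 108) (nat_lit 5) (nat_lit 113) (nat_lit 5) (nat_lit 109) (nat_lit 5) (nat_lit 399) (nat_lit 344) (nat_lit 157))) (XT.nd (nat_lit 78) (nat_lit 304) (nat_lit 0) (XT.lf (nat_lit 0) (nat_lit 10608934451) (nat_lit 380) (nat_lit 7840363818) (nat_lit 76) (nat_lit 20432704751) (nat_lit 108) (nat_lit 5) (nat_lit 113) (nat_lit 5) (nat_lit 109) (nat_lit 5) (nat_lit 400) (nat_lit 344) (nat_lit 156)) (XT.lf (nat_lit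 0) (nat_lit 13611633766) (nat_lit 304) (nat_lit 4918609084) (nat_lit 380) (nat_lit 21101474045) (nat_lit 104) (nat_lit 5) (nat_lit 108) (nat_lit 5) (nat_lit 109) (nat_lit 5) (nat_lit 401) (nat_lit 344) (nat_lit 155))))))) (XT.nd (nat_lit 1014) (nat_lit 1520) (nat_lit 0) (XT.nd (nat_lit 468) (nat_lit 988) (nat_lit 0) (XT.nd (nat_lit 234) (nat_lit 532) (nat_lit 0) (XT.nd (nat_lit 78) (nat_lit 304) (nat_lit 0) (XT.lf (nat_lit 0) (nat_lit 26852690853) (nat_lit 380) (nat_lit 4625902219) (nat_lit 76) (nat_lit 8920425035) (nat_lit 104) (nat_lit 5) (nat_lit 109) (nat_lit 5) (nat_lit 105) (nat_lit 5) (nat_lit 402) (nat_lit 344) (nat_lit 154)) (XT.nd (nat_lit 78) (nat_lit 76) (nat_lit 0) (XT.lf (nat_lit 0) (nat_lit 17702182211) (nat_lit 228) (nat_lit 17938442536) (nat_lit 304) (nat_lit 5542240135) (nat_lit 101) (nat_lit 5) (nat_lit 104) (nat_lit 5) (nat_lit 105) (nat_lit 5) (nat_lit 403) (nat_lit 344) (nat_lit 153))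 (XT.lf (nat_lit 0) (nat_lit 2693382546) (nat_lit 304) (nat_lit 1224997321) (nat_lit 76) (nat_lit 38069744713) (nat_lit 100) (nat_lit 5) (nat_lit 104) (nat_lit 5) (nat_lit 101) (nat_lit 5) (nat_lit 404) (nat_lit 344) (nat_lit 152)))) (XT.nd (nat_lit 78) (nat_lit 228) (nat_lit 0) (XT.lf (nat_lit 0) (nat_lit 11377653594) (nat_lit 380) (nat_lit 20843789159) (nat_lit 76) (nat_lit 10585064735) (nat_lit 96) (nat_lit 5) (nat_lit 101) (nat_lit 5) (nat_lit 97) (nat_lit 5) (nat_lit 405) (nat_lit 344) (nat_lit 151)) (XT.nd (nat_lit 78) (nat_lit 0) (nat_lit 0) (XT.lf (nat_lit 0) (nat_lit 2221982496) (nat_lit 228) (nat_lit 18170196704) (nat_lit 304) (nat_lit 23255171692) (nat_lit 93) (nat_lit 5) (nat_lit 96) (nat_lit 5) (nat_lit 97) (nat_lit 5) (nat_lit 406) (nat_lit 344) (nat_lit 150)) (XT.lf (nat_lit 0) (nat_lit 26402485308) (nat_lit 228) (nat_lit 3482257288) (nat_lit 304) (nat_lit 14622449720) (nat_lit 93) (nat_lit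 5) (nat_lit 96) (nat_lit 5) (nat_lit 97) (nat_lit 5) (nat_lit 407) (nat_lit 344) (nat_lit 149))))) (XT.nd (nat_lit 234) (nat_lit 456) (nat_lit 0) (XT.nd (nat_lit 78) (nat_lit 304) (nat_lit 0) (XT.lf (nat_lit 0) (nat_lit 5914580508) (nat_lit 228) (nat_lit 33913497691) (nat_lit 304) (nat_lit 5559771682) (nat_lit 90) (nat_lit 5) (nat_lit 93) (nat_lit 5) (nat_lit 94) (nat_lit 5) (nat_lit 408) (nat_lit 344) (nat_lit 148)) (XT.nd (nat_lit 78) (nat_lit 228) (nat_lit 0) (XT.lf (nat_lit 0) (nat_lit 3917437437) (nat_lit 304) (nat_lit 15340910247) (nat_lit 76) (nat_lit 27029002320) (nat_lit 89) (nat_lit 5) (nat_lit 93) (nat_lit 5) (nat_lit 90) (nat_lit 5) (nat_lit 409) (nat_lit 344) (nat_lit 147)) (XT.lf (nat_lit 0) (nat_lit 9644226529) (nat_lit 228) (nat_lit 4012978609) (nat_lit 304) (nat_lit 33552279622) (nat_lit 86) (nat_lit 5) (nat_lit 89) (nat_lit 5) (nat_lit 90) (nat_lit 5) (nat_lit 410) (nat_lit 344) (nat_lit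 146)))) (XT.nd (nat_lit 156) (nat_lit 228) (nat_lit 0) (XT.nd (nat_lit 78) (nat_lit 228) (nat_lit 0) (XT.lf (nat_lit 0) (nat_lit 23955286147) (nat_lit 304) (nat_lit 12579510437) (nat_lit 76) (nat_lit 11616504037) (nat_lit 86) (nat_lit 5) (nat_lit 90) (nat_lit 5) (nat_lit 87) (nat_lit 5) (nat_lit 411) (nat_lit 344) (nat_lit 145)) (XT.lf (nat_lit 0) (nat_lit 13372793290) (nat_lit 228) (nat_lit 21355179070) (nat_lit 304) (nat_lit 14388429368) (nat_lit 83) (nat_lit 5) (nat_lit 86) (nat_lit 5) (nat_lit 87) (nat_lit 5) (nat_lit 412) (nat_lit 344) (nat_lit 144))) (XT.nd (nat_lit 78) (nat_lit 228) (nat_lit 0) (XT.lf (nat_lit 0) (nat_lit 40357339882) (nat_lit 228) (nat_lit 5590946423) (nat_lit 304) (nat_lit 4158436782) (nat_lit 83) (nat_lit 5) (nat_lit 86) (nat_lit 5) (nat_lit 87) (nat_lit 5) (nat_lit 413) (nat_lit 344) (nat_lit 143)) (XT.lf (nat_lit 0) (nat_lit 6522300338) (nat_lit 228) (nat_lit 33927824659) (nat_lit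 76) (nat_lit 10666740935) (nat_lit 80) (nat_lit 5) (nat_lit 83) (nat_lit 5) (nat_lit 81) (nat_lit 5) (nat_lit 414) (nat_lit 344) (nat_lit 142)))))) (XT.nd (nat_lit 546) (nat_lit 684) (nat_lit 0) (XT.nd (nat_lit 234) (nat_lit 608) (nat_lit 0) (XT.nd (nat_lit 78) (nat_lit 228) (nat_lit 0) (XT.lf (nat_lit 0) (nat_lit 17592147193) (nat_lit 228) (nat_lit 7120534122) (nat_lit 76) (nat_lit 27438829106) (nat_lit 80) (nat_lit 5) (nat_lit 83) (nat_lit 5) (nat_lit 81) (nat_lit 5) (nat_lit 415) (nat_lit 344) (nat_lit 141)) (XT.nd (nat_lit 78) (nat_lit 0) (nat_lit 0) (XT.lf (nat_lit 0) (nat_lit 20894683791) (nat_lit 228) (nat_lit 8297819091) (nat_lit 304) (nat_lit 24018739522) (nat_lit 77) (nat_lit 5) (nat_lit 80) (nat_lit 5) (nat_lit 81) (nat_lit 5) (nat_lit 416) (nat_lit 344) (nat_lit 140)) (XT.lf (nat_lit 0) (nat_lit 41293822820) (nat_lit 304) (nat_lit 4491798657) (nat_lit 76) (nat_lit 8512556808) (nat_lit 77) (nat_lit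 5) (nat_lit 81) (nat_lit 5) (nat_lit 78) (nat_lit 5) (nat_lit 417) (nat_lit 344) (nat_lit 139)))) (XT.nd (nat_lit 156) (nat_lit 380) (nat_lit 0) (XT.nd (nat_lit 78) (nat_lit 76) (nat_lit 0) (XT.lf (nat_lit 0) (nat_lit 24560896667) (nat_lit 152) (nat_lit 29513185758) (nat_lit 228) (nat_lit 1334163346) (nat_lit 75) (nat_lit 5) (nat_lit 77) (nat_lit 5) (nat_lit 78) (nat_lit 5) (nat_lit 418) (nat_lit 344) (nat_lit 138)) (XT.lf (nat_lit 0) (nat_lit 10521073761) (nat_lit 228) (nat_lit 2080106009) (nat_lit 76) (nat_lit 43946050434) (nat_lit 74) (nat_lit 5) (nat_lit 77) (nat_lit 5) (nat_lit 75) (nat_lit 5) (nat_lit 419) (nat_lit 344) (nat_lit 137))) (XT.nd (nat_lit 78) (nat_lit 152) (nat_lit 0) (XT.lf (nat_lit 0) (nat_lit 23021914173) (nat_lit 304) (nat_lit 29679971034) (nat_lit 76) (nat_lit 5008600317) (nat_lit 71) (nat_lit 5) (nat_lit 75) (nat_lit 5) (nat_lit 72) (nat_lit 5) (nat_lit 420) (nat_lit 344) (nat_lit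 136)) (XT.lf (nat_lit 0) (nat_lit 51281742) (nat_lit 152) (nat_lit 35990708310) (nat_lit 228) (nat_lit 22862322615) (nat_lit 69) (nat_lit 5) (nat_lit 71) (nat_lit 5) (nat_lit 72) (nat_lit 5) (nat_lit 421) (nat_lit 344) (nat_lit 135))))) (XT.nd (nat_lit 234) (nat_lit 380) (nat_lit 0) (XT.nd (nat_lit 78) (nat_lit 304) (nat_lit 0) (XT.lf (nat_lit 0) (nat_lit 31279087774) (nat_lit 152) (nat_lit 18471059475) (nat_lit 228) (nat_lit 10374883461) (nat_lit 69) (nat_lit 5) (nat_lit 71) (nat_lit 5) (nat_lit 72) (nat_lit 5) (nat_lit 422) (nat_lit 344) (nat_lit 134)) (XT.nd (nat_lit 78) (nat_lit 0) (nat_lit 0) (XT.lf (nat_lit 0) (nat_lit 2074196372) (nat_lit 228) (nat_lit 382199740) (nat_lit 304) (nat_lit 58924724833) (nat_lit 65) (nat_lit 5) (nat_lit 68) (nat_lit 5) (nat_lit 69) (nat_lit 5) (nat_lit 423) (nat_lit 344) (nat_lit 133)) (XT.lf (nat_lit 0) (nat_lit 15931510481) (nat_lit 304) (nat_lit 28437673181) (nat_lit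 76) (nat_lit 18288606356) (nat_lit 65) (nat_lit 5) (nat_lit 69) (nat_lit 5) (nat_lit 66) (nat_lit 5) (nat_lit 424) (nat_lit 344) (nat_lit 132)))) (XT.nd (nat_lit 156) (nat_lit 228) (nat_lit 0) (XT.nd (nat_lit 78) (nat_lit 0) (nat_lit 0) (XT.lf (nat_lit 0) (nat_lit 3416914913) (nat_lit 152) (nat_lit 26428482431) (nat_lit 228) (nat_lit 34126326654) (nat_lit 63) (nat_lit 5) (nat_lit 65) (nat_lit 5) (nat_lit 66) (nat_lit 5) (nat_lit 425) (nat_lit 344) (nat_lit 131)) (XT.lf (nat_lit 0) (nat_lit 36806487688) (nat_lit 152) (nat_lit 7655294188) (nat_lit 228) (nat_lit 20854742084) (nat_lit 63) (nat_lit 5) (nat_lit 65) (nat_lit 5) (nat_lit 66) (nat_lit 5) (nat_lit 426) (nat_lit 344) (nat_lit 130))) (XT.nd (nat_lit 78) (nat_lit 76) (nat_lit 0) (XT.lf (nat_lit 0) (nat_lit 4467430045) (nat_lit 152) (nat_lit 55202420235) (nat_lit 228) (nat_lit 7027222254) (nat_lit 61) (nat_lit 5) (nat_lit 63) (nat_lit 5) (nat_lit 64)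 (nat_lit 5) (nat_lit 427) (nat_lit 344) (nat_lit 129)) (XT.lf (nat_lit 0) (nat_lit 7438839284) (nat_lit 228) (nat_lit 29243299823) (nat_lit 76) (nat_lit 31423882859) (nat_lit 60) (nat_lit 5) (nat_lit 63) (nat_lit 5) (nat_lit 61) (nat_lit 5) (nat_lit 428) (nat_lit 344) (nat_lit 128))))))))
noncomputable def xc204 : XT := (XT.nd (nat_lit 42042) (nat_lit 0) (nat_lit 5548) (XT.nd (nat_lit 40950) (nat_lit 0) (nat_lit 12616) (XT.nd (nat_lit 40404) (nat_lit 0) (nat_lit 15124) (XT.nd (nat_lit 234) (nat_lit 228) (nat_lit 0) (XT.nd (nat_lit 78) (nat_lit 152) (nat_lit 0) (XT.lf (nat_lit 0) (nat_lit 4752349751) (nat_lit 152) (nat_lit 17489002628) (nat_lit 228) (nat_lit 47312489262) (nat_lit 58) (nat_lit 5) (nat_lit 60) (nat_lit 5) (nat_lit 61) (nat_lit 5) (nat_lit 429) (nat_lit 344) (nat_lit 127)) (XT.nd (nat_lit 78) (nat_lit 152) (nat_lit 0) (XT.lf (nat_lit 0) (nat_lit 37806118751) (nat_lit 228) (nat_lit 30697202302)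 (nat_lit 76) (nat_lit 2532229855) (nat_lit 58) (nat_lit 5) (nat_lit 61) (nat_lit 5) (nat_lit 59) (nat_lit 5) (nat_lit 430) (nat_lit 344) (nat_lit 126)) (XT.lf (nat_lit 0) (nat_lit 4338361817) (nat_lit 152) (nat_lit 49712422942) (nat_lit 228) (nat_lit 18504538327) (nat_lit 56) (nat_lit 5) (nat_lit 58) (nat_lit 5) (nat_lit 59) (nat_lit 5) (nat_lit 431) (nat_lit 344) (nat_lit 125)))) (XT.nd (nat_lit 78) (nat_lit 228) (nat_lit 0) (XT.lf (nat_lit 0) (nat_lit 41050935505) (nat_lit 152) (nat_lit 30039955577) (nat_lit 228) (nat_lit 3020554658) (nat_lit 56) (nat_lit 5) (nat_lit 58) (nat_lit 5) (nat_lit 59) (nat_lit 5) (nat_lit 432) (nat_lit 344) (nat_lit 124)) (XT.nd (nat_lit 40014) (nat_lit 0) (nat_lit 15124) (XT.lf (nat_lit 0) (nat_lit 3083268423) (nat_lit 152) (nat_lit 9620202705) (nat_lit 228) (nat_lit 63006219304) (nat_lit 53) (nat_lit 5) (nat_lit 55) (nat_lit 5) (nat_lit 56) (nat_lit 5) (nat_lit 433) (nat_lit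 344) (nat_lit 123)) (XT.lf (nat_lit 0) (nat_lit 2874649762) (nat_lit 0) (nat_lit 2874649762) (nat_lit 1140) (nat_lit 2044595539) (nat_lit 252) (nat_lit 5) (nat_lit 252) (nat_lit 3) (nat_lit 267) (nat_lit 3) (nat_lit 345) (nat_lit 345) (nat_lit 210))))) (XT.nd (nat_lit 234) (nat_lit 0) (nat_lit 76) (XT.nd (nat_lit 78) (nat_lit 0) (nat_lit 0) (XT.lf (nat_lit 0) (nat_lit 11953468915) (nat_lit 1140) (nat_lit 2397301672) (nat_lit 1216) (nat_lit 1462220100) (nat_lit 252) (nat_lit 5) (nat_lit 267) (nat_lit 3) (nat_lit 268) (nat_lit 5) (nat_lit 346) (nat_lit 345) (nat_lit 209)) (XT.nd (nat_lit 78) (nat_lit 0) (nat_lit 76) (XT.lf (nat_lit 76) (nat_lit 5308180396) (nat_lit 0) (nat_lit 7211342543) (nat_lit 1216) (nat_lit 3522503823) (nat_lit 253) (nat_lit 5) (nat_lit 252) (nat_lit 5) (nat_lit 268) (nat_lit 5) (nat_lit 347) (nat_lit 345) (nat_lit 208)) (XT.lf (nat_lit 0) (nat_lit 13118257013) (nat_lit 1140) (nat_lit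 2990745941) (nat_lit 1216) (nat_lit 168465491) (nat_lit 253) (nat_lit 5) (nat_lit 268) (nat_lit 5) (nat_lit 269) (nat_lit 5) (nat_lit 348) (nat_lit 345) (nat_lit 207)))) (XT.nd (nat_lit 156) (nat_lit 0) (nat_lit 76) (XT.nd (nat_lit 78) (nat_lit 0) (nat_lit 0) (XT.lf (nat_lit 76) (nat_lit 5005188912) (nat_lit 0) (nat_lit 8839454359) (nat_lit 1216) (nat_lit 2672044720) (nat_lit 254) (nat_lit 5) (nat_lit 253) (nat_lit 5) (nat_lit 269) (nat_lit 5) (nat_lit 349) (nat_lit 345) (nat_lit 206)) (XT.lf (nat_lit 76) (nat_lit 13296636915) (nat_lit 0) (nat_lit 1316794224) (nat_lit 1216) (nat_lit 2149039847) (nat_lit 254) (nat_lit 5) (nat_lit 253) (nat_lit 5) (nat_lit 269) (nat_lit 5) (nat_lit 350) (nat_lit 345) (nat_lit 205))) (XT.nd (nat_lit 78) (nat_lit 0) (nat_lit 0) (XT.lf (nat_lit 76) (nat_lit 4848153913) (nat_lit 0) (nat_lit 10656281364) (nat_lit 1216) (nat_lit 1508222628) (nat_lit 255) (nat_lit 5) (nat_lit 254)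 (nat_lit 5) (nat_lit 270) (nat_lit 5) (nat_lit 351) (nat_lit 345) (nat_lit 204)) (XT.lf (nat_lit 76) (nat_lit 13463539871) (nat_lit 0) (nat_lit 2997477470) (nat_lit 1216) (nat_lit 808172524) (nat_lit 255) (nat_lit 5) (nat_lit 254) (nat_lit 5) (nat_lit 270) (nat_lit 5) (nat_lit 352) (nat_lit 345) (nat_lit 203)))))) (XT.nd (nat_lit 546) (nat_lit 1520) (nat_lit 0) (XT.nd (nat_lit 234) (nat_lit 0) (nat_lit 76) (XT.nd (nat_lit 78) (nat_lit 0) (nat_lit 0) (XT.lf (nat_lit 0) (nat_lit 243987) (nat_lit 1216) (nat_lit 12685273361) (nat_lit 1292) (nat_lit 4845360201) (nat_lit 239) (nat_lit 5) (nat_lit 255) (nat_lit 5) (nat_lit 256) (nat_lit 5) (nat_lit 353) (nat_lit 345) (nat_lit 202)) (XT.nd (nat_lit 78) (nat_lit 0) (nat_lit 76) (XT.lf (nat_lit 0) (nat_lit 876501940) (nat_lit 1216) (nat_lit 4008935987) (nat_lit 1292) (nat_lit 12912947367) (nat_lit 239) (nat_lit 5) (nat_lit 255) (nat_lit 5) (nat_lit 256) (nat_lit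 5) (nat_lit 354) (nat_lit 345) (nat_lit 201)) (XT.lf (nat_lit 0) (nat_lit 1849666489) (nat_lit 1216) (nat_lit 13083695789) (nat_lit 1292) (nat_lit 3138441751) (nat_lit 240) (nat_lit 5) (nat_lit 256) (nat_lit 5) (nat_lit 257) (nat_lit 5) (nat_lit 355) (nat_lit 345) (nat_lit 200)))) (XT.nd (nat_lit 156) (nat_lit 0) (nat_lit 76) (XT.nd (nat_lit 78) (nat_lit 0) (nat_lit 76) (XT.lf (nat_lit 0) (nat_lit 2933088732) (nat_lit 1216) (nat_lit 4069801478) (nat_lit 1292) (nat_lit 11348107432) (nat_lit 240) (nat_lit 5) (nat_lit 256) (nat_lit 5) (nat_lit 257) (nat_lit 5) (nat_lit 356) (nat_lit 345) (nat_lit 199)) (XT.lf (nat_lit 0) (nat_lit 4103854960) (nat_lit 1216) (nat_lit 13336720816) (nat_lit 1292) (nat_lit 1196350123) (nat_lit 241) (nat_lit 5) (nat_lit 257) (nat_lit 5) (nat_lit 258) (nat_lit 5) (nat_lit 357) (nat_lit 345) (nat_lit 198))) (XT.nd (nat_lit 78) (nat_lit 0) (nat_lit 0) (XT.lf (nat_lit 0) (nat_lit 5412825432)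 (nat_lit 1216) (nat_lit 3971286678) (nat_lit 1292) (nat_lit 9544231414) (nat_lit 241) (nat_lit 5) (nat_lit 257) (nat_lit 5) (nat_lit 258) (nat_lit 5) (nat_lit 358) (nat_lit 345) (nat_lit 197)) (XT.lf (nat_lit 76) (nat_lit 5782032038) (nat_lit 0) (nat_lit 1027081169) (nat_lit 1292) (nat_lit 12417952867) (nat_lit 242) (nat_lit 5) (nat_lit 241) (nat_lit 5) (nat_lit 258) (nat_lit 5) (nat_lit 359) (nat_lit 345) (nat_lit 196))))) (XT.nd (nat_lit 234) (nat_lit 1748) (nat_lit 0) (XT.nd (nat_lit 78) (nat_lit 0) (nat_lit 0) (XT.lf (nat_lit 0) (nat_lit 8353304363) (nat_lit 1216) (nat_lit 3703544658) (nat_lit 1292) (nat_lit 7474724566) (nat_lit 242) (nat_lit 5) (nat_lit 258) (nat_lit 5) (nat_lit 259) (nat_lit 5) (nat_lit 360) (nat_lit 345) (nat_lit 195)) (XT.nd (nat_lit 78) (nat_lit 0) (nat_lit 76) (XT.lf (nat_lit 76) (nat_lit 6439772540) (nat_lit 0) (nat_lit 3568980612) (nat_lit 1292) (nat_lit 9834518839) (nat_lit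 243) (nat_lit 5) (nat_lit 242) (nat_lit 5) (nat_lit 259) (nat_lit 5) (nat_lit 361) (nat_lit 345) (nat_lit 194)) (XT.lf (nat_lit 0) (nat_lit 11794387673) (nat_lit 1216) (nat_lit 3256069495) (nat_lit 76) (nat_lit 5111452027) (nat_lit 243) (nat_lit 5) (nat_lit 259) (nat_lit 5) (nat_lit 244) (nat_lit 5) (nat_lit 362) (nat_lit 345) (nat_lit 193)))) (XT.nd (nat_lit 156) (nat_lit 608) (nat_lit 0) (XT.nd (nat_lit 78) (nat_lit 0) (nat_lit 0) (XT.lf (nat_lit 0) (nat_lit 7296936395) (nat_lit 1216) (nat_lit 6435359492) (nat_lit 1292) (nat_lit 6754851903) (nat_lit 227) (nat_lit 5) (nat_lit 243) (nat_lit 5) (nat_lit 244) (nat_lit 5) (nat_lit 363) (nat_lit 345) (nat_lit 192)) (XT.lf (nat_lit 0) (nat_lit 15778358552) (nat_lit 1292) (nat_lit 2617693484) (nat_lit 76) (nat_lit 2424594303) (nat_lit 227) (nat_lit 5) (nat_lit 244) (nat_lit 5) (nat_lit 228) (nat_lit 5) (nat_lit 364) (nat_lit 345) (nat_lit 191))) (XT.nd (nat_lit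 78) (nat_lit 0) (nat_lit 0) (XT.lf (nat_lit 0) (nat_lit 8365651698) (nat_lit 608) (nat_lit 9657850928) (nat_lit 684) (nat_lit 3136519450) (nat_lit 219) (nat_lit 5) (nat_lit 227) (nat_lit 5) (nat_lit 228) (nat_lit 5) (nat_lit 365) (nat_lit 345) (nat_lit 190)) (XT.lf (nat_lit 0) (nat_lit 19726339162) (nat_lit 608) (nat_lit 629794203) (nat_lit 684) (nat_lit 1152844875) (nat_lit 219) (nat_lit 5) (nat_lit 227) (nat_lit 5) (nat_lit 228) (nat_lit 5) (nat_lit 366) (nat_lit 345) (nat_lit 189))))))) (XT.nd (nat_lit 1014) (nat_lit 3192) (nat_lit 0) (XT.nd (nat_lit 468) (nat_lit 1520) (nat_lit 0) (XT.nd (nat_lit 234) (nat_lit 1064) (nat_lit 0) (XT.nd (nat_lit 78) (nat_lit 608) (nat_lit 0) (XT.lf (nat_lit 0) (nat_lit 1044712379) (nat_lit 684) (nat_lit 12214797874) (nat_lit 76) (nat_lit 8603486640) (nat_lit 210) (nat_lit 5) (nat_lit 219) (nat_lit 5) (nat_lit 211) (nat_lit 5) (nat_lit 367) (nat_lit 345) (nat_lit 188))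 (XT.nd (nat_lit 78) (nat_lit 608) (nat_lit 0) (XT.lf (nat_lit 0) (nat_lit 3303387361) (nat_lit 684) (nat_lit 792325482) (nat_lit 76) (nat_lit 18131032831) (nat_lit 210) (nat_lit 5) (nat_lit 219) (nat_lit 5) (nat_lit 211) (nat_lit 5) (nat_lit 368) (nat_lit 345) (nat_lit 187)) (XT.lf (nat_lit 0) (nat_lit 5783892530) (nat_lit 684) (nat_lit 11465432746) (nat_lit 76) (nat_lit 5347462318) (nat_lit 202) (nat_lit 5) (nat_lit 211) (nat_lit 5) (nat_lit 203) (nat_lit 5) (nat_lit 369) (nat_lit 345) (nat_lit 186)))) (XT.nd (nat_lit 78) (nat_lit 532) (nat_lit 0) (XT.lf (nat_lit 0) (nat_lit 412868500) (nat_lit 532) (nat_lit 7972785614) (nat_lit 608) (nat_lit 14590874116) (nat_lit 195) (nat_lit 5) (nat_lit 202) (nat_lit 5) (nat_lit 203) (nat_lit 5) (nat_lit 370) (nat_lit 345) (nat_lit 185)) (XT.nd (nat_lit 78) (nat_lit 532) (nat_lit 0) (XT.lf (nat_lit 0) (nat_lit 11191952233) (nat_lit 608) (nat_lit 10503959940) (nat_lit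 76) (nat_lit 1667957018) (nat_lit 195) (nat_lit 5) (nat_lit 203) (nat_lit 5) (nat_lit 196) (nat_lit 5) (nat_lit 371) (nat_lit 345) (nat_lit 184)) (XT.lf (nat_lit 0) (nat_lit 1869275300) (nat_lit 532) (nat_lit 12304586948) (nat_lit 608) (nat_lit 9586227983) (nat_lit 188) (nat_lit 5) (nat_lit 195) (nat_lit 5) (nat_lit 196) (nat_lit 5) (nat_lit 372) (nat_lit 345) (nat_lit 183))))) (XT.nd (nat_lit 234) (nat_lit 1064) (nat_lit 0) (XT.nd (nat_lit 78) (nat_lit 456) (nat_lit 0) (XT.lf (nat_lit 0) (nat_lit 14823291912) (nat_lit 532) (nat_lit 2522627507) (nat_lit 608) (nat_lit 6819260255) (nat_lit 188) (nat_lit 5) (nat_lit 195) (nat_lit 5) (nat_lit 196) (nat_lit 5) (nat_lit 373) (nat_lit 345) (nat_lit 182)) (XT.nd (nat_lit 78) (nat_lit 0) (nat_lit 0) (XT.lf (nat_lit 0) (nat_lit 3574939899) (nat_lit 456) (nat_lit 17139938767) (nat_lit 532) (nat_lit 3864493316) (nat_lit 182) (nat_lit 5) (nat_lit 188) (nat_lit 5) (nat_lit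 189) (nat_lit 5) (nat_lit 374) (nat_lit 345) (nat_lit 181)) (XT.lf (nat_lit 0) (nat_lit 17039629238) (nat_lit 456) (nat_lit 7259215376) (nat_lit 532) (nat_lit 703729632) (nat_lit 182) (nat_lit 5) (nat_lit 188) (nat_lit 5) (nat_lit 189) (nat_lit 5) (nat_lit 375) (nat_lit 345) (nat_lit 180)))) (XT.nd (nat_lit 156) (nat_lit 456) (nat_lit 0) (XT.nd (nat_lit 78) (nat_lit 0) (nat_lit 0) (XT.lf (nat_lit 0) (nat_lit 2579174622) (nat_lit 608) (nat_lit 19917194090) (nat_lit 76) (nat_lit 2939056750) (nat_lit 174) (nat_lit 5) (nat_lit 182) (nat_lit 5) (nat_lit 175) (nat_lit 5) (nat_lit 376) (nat_lit 345) (nat_lit 179)) (XT.lf (nat_lit 0) (nat_lit 6094558080) (nat_lit 608) (nat_lit 6397107156) (nat_lit 76) (nat_lit 13384945987) (nat_lit 174) (nat_lit 5) (nat_lit 182) (nat_lit 5) (nat_lit 175) (nat_lit 5) (nat_lit 377) (nat_lit 345) (nat_lit 178))) (XT.nd (nat_lit 78) (nat_lit 0) (nat_lit 0) (XT.lf (nat_lit 0) (nat_lit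 7672776099) (nat_lit 456) (nat_lit 2111582994) (nat_lit 532) (nat_lit 16544606848) (nat_lit 168) (nat_lit 5) (nat_lit 174) (nat_lit 5) (nat_lit 175) (nat_lit 5) (nat_lit 378) (nat_lit 345) (nat_lit 177)) (XT.lf (nat_lit 0) (nat_lit 13727847676) (nat_lit 532) (nat_lit 4585789531) (nat_lit 76) (nat_lit 8476966292) (nat_lit 168) (nat_lit 5) (nat_lit 175) (nat_lit 5) (nat_lit 169) (nat_lit 5) (nat_lit 379) (nat_lit 345) (nat_lit 176)))))) (XT.nd (nat_lit 546) (nat_lit 1444) (nat_lit 0) (XT.nd (nat_lit 234) (nat_lit 912) (nat_lit 0) (XT.nd (nat_lit 78) (nat_lit 380) (nat_lit 0) (XT.lf (nat_lit 0) (nat_lit 10077006561) (nat_lit 456) (nat_lit 7825825380) (nat_lit 532) (nat_lit 9359864457) (nat_lit 162) (nat_lit 5) (nat_lit 168) (nat_lit 5) (nat_lit 169) (nat_lit 5) (nat_lit 380) (nat_lit 345) (nat_lit 175)) (XT.nd (nat_lit 78) (nat_lit 380) (nat_lit 0) (XT.lf (nat_lit 0) (nat_lit 22273935725) (nat_lit 532) (nat_lit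 2508466780) (nat_lit 76) (nat_lit 2964425372) (nat_lit 162) (nat_lit 5) (nat_lit 169) (nat_lit 5) (nat_lit 163) (nat_lit 5) (nat_lit 381) (nat_lit 345) (nat_lit 174)) (XT.lf (nat_lit 0) (nat_lit 12775523846) (nat_lit 380) (nat_lit 14196560595) (nat_lit 456) (nat_lit 1267523338) (nat_lit 157) (nat_lit 5) (nat_lit 162) (nat_lit 5) (nat_lit 163) (nat_lit 5) (nat_lit 382) (nat_lit 345) (nat_lit 173)))) (XT.nd (nat_lit 156) (nat_lit 380) (nat_lit 0) (XT.nd (nat_lit 78) (nat_lit 456) (nat_lit 0) (XT.lf (nat_lit 0) (nat_lit 3025452513) (nat_lit 456) (nat_lit 212057598) (nat_lit 76) (nat_lit 25508142030) (nat_lit 156) (nat_lit 5) (nat_lit 162) (nat_lit 5) (nat_lit 157) (nat_lit 5) (nat_lit 383) (nat_lit 345) (nat_lit 172)) (XT.lf (nat_lit 0) (nat_lit 7648286333) (nat_lit 532) (nat_lit 13553261944) (nat_lit 76) (nat_lit 8058158404) (nat_lit 150) (nat_lit 5) (nat_lit 157) (nat_lit 5) (nat_lit 151) (nat_lit 5) (nat_lit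 384) (nat_lit 345) (nat_lit 171))) (XT.nd (nat_lit 78) (nat_lit 0) (nat_lit 0) (XT.lf (nat_lit 0) (nat_lit 2325732946) (nat_lit 380) (nat_lit 10136489643) (nat_lit 456) (nat_lit 17325389377) (nat_lit 145) (nat_lit 5) (nat_lit 150) (nat_lit 5) (nat_lit 151) (nat_lit 5) (nat_lit 385) (nat_lit 345) (nat_lit 170)) (XT.lf (nat_lit 0) (nat_lit 17566813522) (nat_lit 456) (nat_lit 11387160395) (nat_lit 76) (nat_lit 1372994978) (nat_lit 145) (nat_lit 5) (nat_lit 151) (nat_lit 5) (nat_lit 146) (nat_lit 5) (nat_lit 386) (nat_lit 345) (nat_lit 169))))) (XT.nd (nat_lit 234) (nat_lit 684) (nat_lit 0) (XT.nd (nat_lit 78) (nat_lit 380) (nat_lit 0) (XT.lf (nat_lit 0) (nat_lit 5165016747) (nat_lit 380) (nat_lit 17805558601) (nat_lit 456) (nat_lit 7907551725) (nat_lit 140) (nat_lit 5) (nat_lit 145) (nat_lit 5) (nat_lit 146) (nat_lit 5) (nat_lit 387) (nat_lit 345) (nat_lit 168)) (XT.nd (nat_lit 78) (nat_lit 380) (nat_lit 0)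 (XT.lf (nat_lit 0) (nat_lit 22442026069) (nat_lit 380) (nat_lit 6205500792) (nat_lit 456) (nat_lit 2794962322) (nat_lit 140) (nat_lit 5) (nat_lit 145) (nat_lit 5) (nat_lit 146) (nat_lit 5) (nat_lit 388) (nat_lit 345) (nat_lit 167)) (XT.lf (nat_lit 0) (nat_lit 2555411322) (nat_lit 380) (nat_lit 23729380918) (nat_lit 76) (nat_lit 5734299996) (nat_lit 135) (nat_lit 5) (nat_lit 140) (nat_lit 5) (nat_lit 136) (nat_lit 5) (nat_lit 389) (nat_lit 345) (nat_lit 166)))) (XT.nd (nat_lit 156) (nat_lit 304) (nat_lit 0) (XT.nd (nat_lit 78) (nat_lit 380) (nat_lit 0) (XT.lf (nat_lit 0) (nat_lit 8159562622) (nat_lit 380) (nat_lit 6422327286) (nat_lit 76) (nat_lit 18025791379) (nat_lit 135) (nat_lit 5) (nat_lit 140) (nat_lit 5) (nat_lit 136) (nat_lit 5) (nat_lit 390) (nat_lit 345) (nat_lit 165)) (XT.lf (nat_lit 0) (nat_lit 11625810257) (nat_lit 380) (nat_lit 2414107767) (nat_lit 456) (nat_lit 19170768924) (nat_lit 130) (nat_lit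 5) (nat_lit 135) (nat_lit 5) (nat_lit 136) (nat_lit 5) (nat_lit 391) (nat_lit 345) (nat_lit 164))) (XT.nd (nat_lit 78) (nat_lit 304) (nat_lit 0) (XT.lf (nat_lit 0) (nat_lit 20255818291) (nat_lit 456) (nat_lit 3585740396) (nat_lit 76) (nat_lit 9985451351) (nat_lit 130) (nat_lit 5) (nat_lit 136) (nat_lit 5) (nat_lit 131) (nat_lit 5) (nat_lit 392) (nat_lit 345) (nat_lit 163)) (XT.lf (nat_lit 0) (nat_lit 15221605772) (nat_lit 304) (nat_lit 11603288880) (nat_lit 380) (nat_lit 7631928447) (nat_lit 126) (nat_lit 5) (nat_lit 130) (nat_lit 5) (nat_lit 131) (nat_lit 5) (nat_lit 393) (nat_lit 345) (nat_lit 162))))))))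
noncomputable def xc205 : XT := (XT.nd (nat_lit 2106) (nat_lit 1368) (nat_lit 0) (XT.nd (nat_lit 1014) (nat_lit 1672) (nat_lit 0) (XT.nd (nat_lit 468) (nat_lit 1292) (nat_lit 0) (XT.nd (nat_lit 234) (nat_lit 304) (nat_lit 0) (XT.nd (nat_lit 78) (nat_lit 684) (nat_lit 0) (XT.lf (nat_lit 0) (nat_lit 33633764291) (nat_lit 380) (nat_lit 452693916) (nat_lit 76) (nat_lit 1017791929) (nat_lit 126) (nat_lit 5) (nat_lit 131) (nat_lit 5) (nat_lit 127) (nat_lit 5) (nat_lit 394) (nat_lit 345) (nat_lit 161)) (XT.nd (nat_lit 78) (nat_lit 304) (nat_lit 0) (XT.lf (nat_lit 0) (nat_lit 5079141856) (nat_lit 380) (nat_lit 16664767448) (nat_lit 76) (nat_lit 14016831160) (nat_lit 121) (nat_lit 5) (nat_lit 126) (nat_lit 5) (nat_lit 122) (nat_lit 5) (nat_lit 395) (nat_lit 345) (nat_lit 160)) (XT.lf (nat_lit 0) (nat_lit 2839585575) (nat_lit 304) (nat_lit 8984670470) (nat_lit 380) (nat_lit 24611377201) (nat_lit 117) (nat_lit 5)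 (nat_lit 121) (nat_lit 5) (nat_lit 122) (nat_lit 5) (nat_lit 396) (nat_lit 345) (nat_lit 159)))) (XT.nd (nat_lit 78) (nat_lit 304) (nat_lit 0) (XT.lf (nat_lit 0) (nat_lit 18978312827) (nat_lit 380) (nat_lit 13901523816) (nat_lit 76) (nat_lit 4244739570) (nat_lit 117) (nat_lit 5) (nat_lit 122) (nat_lit 5) (nat_lit 118) (nat_lit 5) (nat_lit 397) (nat_lit 345) (nat_lit 158)) (XT.nd (nat_lit 78) (nat_lit 0) (nat_lit 0) (XT.lf (nat_lit 0) (nat_lit 6415355674) (nat_lit 304) (nat_lit 20079036425) (nat_lit 380) (nat_lit 11335374394) (nat_lit 113) (nat_lit 5) (nat_lit 117) (nat_lit 5) (nat_lit 118) (nat_lit 5) (nat_lit 398) (nat_lit 345) (nat_lit 157)) (XT.lf (nat_lit 0) (nat_lit 27622045688) (nat_lit 304) (nat_lit 6751110618) (nat_lit 380) (nat_lit 4178841114) (nat_lit 113) (nat_lit 5) (nat_lit 117) (nat_lit 5) (nat_lit 118) (nat_lit 5) (nat_lit 399) (nat_lit 345) (nat_lit 156))))) (XT.nd (nat_lit 234) (nat_lit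 608) (nat_lit 0) (XT.nd (nat_lit 78) (nat_lit 304) (nat_lit 0) (XT.lf (nat_lit 0) (nat_lit 3294666388) (nat_lit 380) (nat_lit 29024980595) (nat_lit 76) (nat_lit 6970391439) (nat_lit 108) (nat_lit 5) (nat_lit 113) (nat_lit 5) (nat_lit 109) (nat_lit 5) (nat_lit 400) (nat_lit 345) (nat_lit 155)) (XT.nd (nat_lit 78) (nat_lit 304) (nat_lit 0) (XT.lf (nat_lit 0) (nat_lit 11083613327) (nat_lit 380) (nat_lit 7840873005) (nat_lit 76) (nat_lit 21119237266) (nat_lit 108) (nat_lit 5) (nat_lit 113) (nat_lit 5) (nat_lit 109) (nat_lit 5) (nat_lit 401) (nat_lit 345) (nat_lit 154)) (XT.lf (nat_lit 0) (nat_lit 14252383510) (nat_lit 304) (nat_lit 4987855791) (nat_lit 380) (nat_lit 21575760613) (nat_lit 104) (nat_lit 5) (nat_lit 108) (nat_lit 5) (nat_lit 109) (nat_lit 5) (nat_lit 402) (nat_lit 345) (nat_lit 153)))) (XT.nd (nat_lit 156) (nat_lit 380) (nat_lit 0) (XT.nd (nat_lit 78) (nat_lit 228) (nat_lit 0) (XT.lf (nat_lit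 0) (nat_lit 27808603563) (nat_lit 380) (nat_lit 4535245848) (nat_lit 76) (nat_lit 9262584800) (nat_lit 104) (nat_lit 5) (nat_lit 109) (nat_lit 5) (nat_lit 105) (nat_lit 5) (nat_lit 403) (nat_lit 345) (nat_lit 152)) (XT.lf (nat_lit 0) (nat_lit 18460431768) (nat_lit 228) (nat_lit 18397548937) (nat_lit 304) (nat_lit 5555882823) (nat_lit 101) (nat_lit 5) (nat_lit 104) (nat_lit 5) (nat_lit 105) (nat_lit 5) (nat_lit 404) (nat_lit 345) (nat_lit 151))) (XT.nd (nat_lit 78) (nat_lit 304) (nat_lit 0) (XT.lf (nat_lit 0) (nat_lit 2919471655) (nat_lit 304) (nat_lit 1038247949) (nat_lit 76) (nat_lit 39285649380) (nat_lit 100) (nat_lit 5) (nat_lit 104) (nat_lit 5) (nat_lit 101) (nat_lit 5) (nat_lit 405) (nat_lit 345) (nat_lit 150)) (XT.lf (nat_lit 0) (nat_lit 11862917489) (nat_lit 380) (nat_lit 21244210677) (nat_lit 76) (nat_lit 10979216999) (nat_lit 96) (nat_lit 5) (nat_lit 101) (nat_lit 5) (nat_lit 97) (nat_lit 5) (nat_lit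 406) (nat_lit 345) (nat_lit 149)))))) (XT.nd (nat_lit 546) (nat_lit 684) (nat_lit 0) (XT.nd (nat_lit 234) (nat_lit 532) (nat_lit 0) (XT.nd (nat_lit 78) (nat_lit 228) (nat_lit 0) (XT.lf (nat_lit 0) (nat_lit 2511329303) (nat_lit 228) (nat_lit 18634497906) (nat_lit 304) (nat_lit 23806649363) (nat_lit 93) (nat_lit 5) (nat_lit 96) (nat_lit 5) (nat_lit 97) (nat_lit 5) (nat_lit 407) (nat_lit 345) (nat_lit 148)) (XT.nd (nat_lit 78) (nat_lit 228) (nat_lit 0) (XT.lf (nat_lit 0) (nat_lit 27410761161) (nat_lit 228) (nat_lit 3508273843) (nat_lit 304) (nat_lit 14919203328) (nat_lit 93) (nat_lit 5) (nat_lit 96) (nat_lit 5) (nat_lit 97) (nat_lit 5) (nat_lit 408) (nat_lit 345) (nat_lit 147)) (XT.lf (nat_lit 0) (nat_lit 6309481744) (nat_lit 228) (nat_lit 34849999342) (nat_lit 304) (nat_lit 5585871310) (nat_lit 90) (nat_lit 5) (nat_lit 93) (nat_lit 5) (nat_lit 94) (nat_lit 5) (nat_lit 409) (nat_lit 345) (nat_lit 146)))) (XT.nd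 (nat_lit 156) (nat_lit 228) (nat_lit 0) (XT.nd (nat_lit 78) (nat_lit 228) (nat_lit 0) (XT.lf (nat_lit 0) (nat_lit 4168890740) (nat_lit 304) (nat_lit 15587308069) (nat_lit 76) (nat_lit 27915719700) (nat_lit 89) (nat_lit 5) (nat_lit 93) (nat_lit 5) (nat_lit 90) (nat_lit 5) (nat_lit 410) (nat_lit 345) (nat_lit 145)) (XT.lf (nat_lit 0) (nat_lit 10145286443) (nat_lit 228) (nat_lit 4053699458) (nat_lit 304) (nat_lit 34422788367) (nat_lit 86) (nat_lit 5) (nat_lit 89) (nat_lit 5) (nat_lit 90) (nat_lit 5) (nat_lit 411) (nat_lit 345) (nat_lit 144))) (XT.nd (nat_lit 78) (nat_lit 228) (nat_lit 0) (XT.lf (nat_lit 0) (nat_lit 24802906316) (nat_lit 304) (nat_lit 12748194458) (nat_lit 76) (nat_lit 12040837886) (nat_lit 86) (nat_lit 5) (nat_lit 90) (nat_lit 5) (nat_lit 87) (nat_lit 5) (nat_lit 412) (nat_lit 345) (nat_lit 143)) (XT.lf (nat_lit 0) (nat_lit 13980632290) (nat_lit 228) (nat_lit 21916371159) (nat_lit 304) (nat_lit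 14689043377) (nat_lit 83) (nat_lit 5) (nat_lit 86) (nat_lit 5) (nat_lit 87) (nat_lit 5) (nat_lit 413) (nat_lit 345) (nat_lit 142))))) (XT.nd (nat_lit 234) (nat_lit 456) (nat_lit 0) (XT.nd (nat_lit 78) (nat_lit 228) (nat_lit 0) (XT.lf (nat_lit 0) (nat_lit 41768696196) (nat_lit 228) (nat_lit 5681525997) (nat_lit 304) (nat_lit 4155967679) (nat_lit 83) (nat_lit 5) (nat_lit 86) (nat_lit 5) (nat_lit 87) (nat_lit 5) (nat_lit 414) (nat_lit 345) (nat_lit 141)) (XT.nd (nat_lit 78) (nat_lit 0) (nat_lit 0) (XT.lf (nat_lit 0) (nat_lit 6841760338) (nat_lit 228) (nat_lit 34741534110) (nat_lit 76) (nat_lit 11063335183) (nat_lit 80) (nat_lit 5) (nat_lit 83) (nat_lit 5) (nat_lit 81) (nat_lit 5) (nat_lit 415) (nat_lit 345) (nat_lit 140)) (XT.lf (nat_lit 0) (nat_lit 18240097035) (nat_lit 228) (nat_lit 7135970253) (nat_lit 76) (nat_lit 28336355164) (nat_lit 80) (nat_lit 5) (nat_lit 83) (nat_lit 5) (nat_lit 81) (nat_lit 5) (nat_lit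 416) (nat_lit 345) (nat_lit 139)))) (XT.nd (nat_lit 156) (nat_lit 228) (nat_lit 0) (XT.nd (nat_lit 78) (nat_lit 0) (nat_lit 0) (XT.lf (nat_lit 0) (nat_lit 21717761257) (nat_lit 228) (nat_lit 8469087942) (nat_lit 304) (nat_lit 24617146429) (nat_lit 77) (nat_lit 5) (nat_lit 80) (nat_lit 5) (nat_lit 81) (nat_lit 5) (nat_lit 417) (nat_lit 345) (nat_lit 138)) (XT.lf (nat_lit 0) (nat_lit 42648480029) (nat_lit 304) (nat_lit 4433276472) (nat_lit 76) (nat_lit 8841865729) (nat_lit 77) (nat_lit 5) (nat_lit 81) (nat_lit 5) (nat_lit 78) (nat_lit 5) (nat_lit 418) (nat_lit 345) (nat_lit 137))) (XT.nd (nat_lit 78) (nat_lit 76) (nat_lit 0) (XT.lf (nat_lit 0) (nat_lit 25489104848) (nat_lit 152) (nat_lit 30321508194) (nat_lit 228) (nat_lit 1256425491) (nat_lit 75) (nat_lit 5) (nat_lit 77) (nat_lit 5) (nat_lit 78) (nat_lit 5) (nat_lit 419) (nat_lit 345) (nat_lit 136)) (XT.lf (nat_lit 0) (nat_lit 10948807702) (nat_lit 228)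 (nat_lit 1954447166) (nat_lit 76) (nat_lit 45337005281) (nat_lit 74) (nat_lit 5) (nat_lit 77) (nat_lit 5) (nat_lit 75) (nat_lit 5) (nat_lit 420) (nat_lit 345) (nat_lit 135))))))) (XT.nd (nat_lit 41028) (nat_lit 0) (nat_lit 13908) (XT.nd (nat_lit 468) (nat_lit 532) (nat_lit 0) (XT.nd (nat_lit 234) (nat_lit 456) (nat_lit 0) (XT.nd (nat_lit 78) (nat_lit 152) (nat_lit 0) (XT.lf (nat_lit 0) (nat_lit 23823924903) (nat_lit 304) (nat_lit 30381536507) (nat_lit 76) (nat_lit 5232974867) (nat_lit 71) (nat_lit 5) (nat_lit 75) (nat_lit 5) (nat_lit 72) (nat_lit 5) (nat_lit 421) (nat_lit 345) (nat_lit 134)) (XT.nd (nat_lit 78) (nat_lit 0) (nat_lit 0) (XT.lf (nat_lit 0) (nat_lit 239802542) (nat_lit 152) (nat_lit 36993354605) (nat_lit 228) (nat_lit 23434965140) (nat_lit 69) (nat_lit 5) (nat_lit 71) (nat_lit 5) (nat_lit 72) (nat_lit 5) (nat_lit 422) (nat_lit 345) (nat_lit 133)) (XT.lf (nat_lit 0) (nat_lit 32398996668) (nat_lit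 152) (nat_lit 18950361207) (nat_lit 228) (nat_lit 10576200689) (nat_lit 69) (nat_lit 5) (nat_lit 71) (nat_lit 5) (nat_lit 72) (nat_lit 5) (nat_lit 423) (nat_lit 345) (nat_lit 132)))) (XT.nd (nat_lit 78) (nat_lit 152) (nat_lit 0) (XT.lf (nat_lit 0) (nat_lit 2318323877) (nat_lit 228) (nat_lit 318157482) (nat_lit 304) (nat_lit 60582860788) (nat_lit 65) (nat_lit 5) (nat_lit 68) (nat_lit 5) (nat_lit 69) (nat_lit 5) (nat_lit 424) (nat_lit 345) (nat_lit 131)) (XT.nd (nat_lit 78) (nat_lit 152) (nat_lit 0) (XT.lf (nat_lit 0) (nat_lit 16513455015) (nat_lit 304) (nat_lit 29111785698) (nat_lit 76) (nat_lit 18909143005) (nat_lit 65) (nat_lit 5) (nat_lit 69) (nat_lit 5) (nat_lit 66) (nat_lit 5) (nat_lit 425) (nat_lit 345) (nat_lit 130)) (XT.lf (nat_lit 0) (nat_lit 3696684963) (nat_lit 152) (nat_lit 27146748373) (nat_lit 228) (nat_lit 35044342718) (nat_lit 63) (nat_lit 5) (nat_lit 65) (nat_lit 5) (nat_lit 66) (nat_lit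 5) (nat_lit 426) (nat_lit 345) (nat_lit 129))))) (XT.nd (nat_lit 234) (nat_lit 304) (nat_lit 0) (XT.nd (nat_lit 78) (nat_lit 228) (nat_lit 0) (XT.lf (nat_lit 0) (nat_lit 38082781933) (nat_lit 152) (nat_lit 7812536964) (nat_lit 228) (nat_lit 21377691400) (nat_lit 63) (nat_lit 5) (nat_lit 65) (nat_lit 5) (nat_lit 66) (nat_lit 5) (nat_lit 427) (nat_lit 345) (nat_lit 128)) (XT.nd (nat_lit 78) (nat_lit 76) (nat_lit 0) (XT.lf (nat_lit 0) (nat_lit 4774155904) (nat_lit 152) (nat_lit 56784906003) (nat_lit 228) (nat_lit 7135930994) (nat_lit 61) (nat_lit 5) (nat_lit 63) (nat_lit 5) (nat_lit 64) (nat_lit 5) (nat_lit 428) (nat_lit 345) (nat_lit 127)) (XT.lf (nat_lit 0) (nat_lit 7759203914) (nat_lit 228) (nat_lit 29950974310) (nat_lit 76) (nat_lit 32436091145) (nat_lit 60) (nat_lit 5) (nat_lit 63) (nat_lit 5) (nat_lit 61) (nat_lit 5) (nat_lit 429) (nat_lit 345) (nat_lit 126)))) (XT.nd (nat_lit 156) (nat_lit 152) (nat_lit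 0) (XT.nd (nat_lit 78) (nat_lit 0) (nat_lit 0) (XT.lf (nat_lit 0) (nat_lit 5062881766) (nat_lit 152) (nat_lit 17941694132) (nat_lit 228) (nat_lit 48632984734) (nat_lit 58) (nat_lit 5) (nat_lit 60) (nat_lit 5) (nat_lit 61) (nat_lit 5) (nat_lit 430) (nat_lit 345) (nat_lit 125)) (XT.lf (nat_lit 0) (nat_lit 39034161391) (nat_lit 228) (nat_lit 31452908781) (nat_lit 76) (nat_lit 2676715211) (nat_lit 58) (nat_lit 5) (nat_lit 61) (nat_lit 5) (nat_lit 59) (nat_lit 5) (nat_lit 431) (nat_lit 345) (nat_lit 124))) (XT.nd (nat_lit 78) (nat_lit 0) (nat_lit 0) (XT.lf (nat_lit 0) (nat_lit 4632102561) (nat_lit 152) (nat_lit 51132903585) (nat_lit 228) (nat_lit 18964179891) (nat_lit 56) (nat_lit 5) (nat_lit 58) (nat_lit 5) (nat_lit 59) (nat_lit 5) (nat_lit 432) (nat_lit 345) (nat_lit 123)) (XT.lf (nat_lit 0) (nat_lit 42441288705) (nat_lit 152) (nat_lit 30872327016) (nat_lit 228) (nat_lit 3018458107) (nat_lit 56) (nat_lit 5)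 (nat_lit 58) (nat_lit 5) (nat_lit 59) (nat_lit 5) (nat_lit 433) (nat_lit 345) (nat_lit 122)))))) (XT.nd (nat_lit 546) (nat_lit 988) (nat_lit 0) (XT.nd (nat_lit 234) (nat_lit 0) (nat_lit 0) (XT.nd (nat_lit 78) (nat_lit 0) (nat_lit 0) (XT.lf (nat_lit 0) (nat_lit 3093628593) (nat_lit 0) (nat_lit 3093628593) (nat_lit 1140) (nat_lit 1832347192) (nat_lit 252) (nat_lit 5) (nat_lit 252) (nat_lit 3) (nat_lit 267) (nat_lit 3) (nat_lit 346) (nat_lit 346) (nat_lit 208)) (XT.nd (nat_lit 78) (nat_lit 0) (nat_lit 0) (XT.lf (nat_lit 0) (nat_lit 12825087942) (nat_lit 1140) (nat_lit 2193254028) (nat_lit 1216) (nat_lit 1253369974) (nat_lit 252) (nat_lit 5) (nat_lit 267) (nat_lit 3) (nat_lit 268) (nat_lit 5) (nat_lit 347) (nat_lit 346) (nat_lit 207)) (XT.lf (nat_lit 76) (nat_lit 5740686946) (nat_lit 0) (nat_lit 7655121211) (nat_lit 1216) (nat_lit 3112188505) (nat_lit 253) (nat_lit 5) (nat_lit 252) (nat_lit 5) (nat_lit 268)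 (nat_lit 5) (nat_lit 348) (nat_lit 346) (nat_lit 206)))) (XT.nd (nat_lit 156) (nat_lit 0) (nat_lit 76) (XT.nd (nat_lit 78) (nat_lit 0) (nat_lit 76) (XT.lf (nat_lit 76) (nat_lit 13952378462) (nat_lit 0) (nat_lit 43841139) (nat_lit 1216) (nat_lit 2754778396) (nat_lit 253) (nat_lit 5) (nat_lit 252) (nat_lit 5) (nat_lit 268) (nat_lit 5) (nat_lit 349) (nat_lit 346) (nat_lit 205)) (XT.lf (nat_lit 76) (nat_lit 5434847436) (nat_lit 0) (nat_lit 9297718439) (nat_lit 1216) (nat_lit 2265190835) (nat_lit 254) (nat_lit 5) (nat_lit 253) (nat_lit 5) (nat_lit 269) (nat_lit 5) (nat_lit 350) (nat_lit 346) (nat_lit 204))) (XT.nd (nat_lit 78) (nat_lit 0) (nat_lit 76) (XT.lf (nat_lit 76) (nat_lit 13966898019) (nat_lit 0) (nat_lit 1543754798) (nat_lit 1216) (nat_lit 1740680725) (nat_lit 254) (nat_lit 5) (nat_lit 253) (nat_lit 5) (nat_lit 269) (nat_lit 5) (nat_lit 351) (nat_lit 346) (nat_lit 203)) (XT.lf (nat_lit 76) (nat_lit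 5277958604) (nat_lit 0) (nat_lit 11138048800) (nat_lit 1216) (nat_lit 1093397249) (nat_lit 255) (nat_lit 5) (nat_lit 254) (nat_lit 5) (nat_lit 270) (nat_lit 5) (nat_lit 352) (nat_lit 346) (nat_lit 202))))) (XT.nd (nat_lit 234) (nat_lit 0) (nat_lit 76) (XT.nd (nat_lit 78) (nat_lit 1140) (nat_lit 0) (XT.lf (nat_lit 76) (nat_lit 14143523808) (nat_lit 0) (nat_lit 3244760042) (nat_lit 1216) (nat_lit 385745799) (nat_lit 255) (nat_lit 5) (nat_lit 254) (nat_lit 5) (nat_lit 270) (nat_lit 5) (nat_lit 353) (nat_lit 346) (nat_lit 201)) (XT.nd (nat_lit 78) (nat_lit 0) (nat_lit 0) (XT.lf (nat_lit 0) (nat_lit 426763531) (nat_lit 1216) (nat_lit 12769148626) (nat_lit 1292) (nat_lit 4847876884) (nat_lit 239) (nat_lit 5) (nat_lit 255) (nat_lit 5) (nat_lit 256) (nat_lit 5) (nat_lit 354) (nat_lit 346) (nat_lit 200)) (XT.lf (nat_lit 0) (nat_lit 1316886536) (nat_lit 1216) (nat_lit 3841162382) (nat_lit 1292) (nat_lit 13161652174)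 (nat_lit 239) (nat_lit 5) (nat_lit 255) (nat_lit 5) (nat_lit 256) (nat_lit 5) (nat_lit 355) (nat_lit 346) (nat_lit 199)))) (XT.nd (nat_lit 156) (nat_lit 0) (nat_lit 76) (XT.nd (nat_lit 78) (nat_lit 0) (nat_lit 0) (XT.lf (nat_lit 0) (nat_lit 2308777636) (nat_lit 1216) (nat_lit 13177489723) (nat_lit 1292) (nat_lit 3115375287) (nat_lit 240) (nat_lit 5) (nat_lit 256) (nat_lit 5) (nat_lit 257) (nat_lit 5) (nat_lit 356) (nat_lit 346) (nat_lit 198)) (XT.lf (nat_lit 0) (nat_lit 3412946591) (nat_lit 1216) (nat_lit 3901879076) (nat_lit 1292) (nat_lit 11574745105) (nat_lit 240) (nat_lit 5) (nat_lit 256) (nat_lit 5) (nat_lit 257) (nat_lit 5) (nat_lit 357) (nat_lit 346) (nat_lit 197))) (XT.nd (nat_lit 78) (nat_lit 0) (nat_lit 0) (XT.lf (nat_lit 0) (nat_lit 4609259554) (nat_lit 1216) (nat_lit 13437034750) (nat_lit 1292) (nat_lit 1138075709) (nat_lit 241) (nat_lit 5) (nat_lit 257) (nat_lit 5) (nat_lit 258) (nat_lit 5)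 (nat_lit 358) (nat_lit 346) (nat_lit 196)) (XT.lf (nat_lit 0) (nat_lit 5946364511) (nat_lit 1216) (nat_lit 3799369268) (nat_lit 1292) (nat_lit 9739136107) (nat_lit 241) (nat_lit 5) (nat_lit 257) (nat_lit 5) (nat_lit 258) (nat_lit 5) (nat_lit 359) (nat_lit 346) (nat_lit 195))))))))
noncomputable def xc206 : XT := (XT.nd (nat_lit 2106) (nat_lit 4484) (nat_lit 0) (XT.nd (nat_lit 1014) (nat_lit 3800) (nat_lit 0) (XT.nd (nat_lit 468) (nat_lit 2432) (nat_lit 0) (XT.nd (nat_lit 234) (nat_lit 1064) (nat_lit 0) (XT.nd (nat_lit 78) (nat_lit 0) (nat_lit 76) (XT.lf (nat_lit 76) (nat_lit 6243695519) (nat_lit 0) (nat_lit 1132805460) (nat_lit 1292) (nat_lit 12416299846) (nat_lit 242) (nat_lit 5) (nat_lit 241) (nat_lit 5) (nat_lit 258) (nat_lit 5) (nat_lit 360) (nat_lit 346) (nat_lit 194)) (XT.nd (nat_lit 78) (nat_lit 0) (nat_lit 0) (XT.lf (nat_lit 0) (nat_lit 8955742597) (nat_lit 1216) (nat_lit 3523389008) (nat_lit 1292)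 (nat_lit 7627655570) (nat_lit 242) (nat_lit 5) (nat_lit 258) (nat_lit 5) (nat_lit 259) (nat_lit 5) (nat_lit 361) (nat_lit 346) (nat_lit 193)) (XT.lf (nat_lit 76) (nat_lit 6921372197) (nat_lit 0) (nat_lit 3732007252) (nat_lit 1292) (nat_lit 9774686542) (nat_lit 243) (nat_lit 5) (nat_lit 242) (nat_lit 5) (nat_lit 259) (nat_lit 5) (nat_lit 362) (nat_lit 346) (nat_lit 192)))) (XT.nd (nat_lit 78) (nat_lit 1216) (nat_lit 0) (XT.lf (nat_lit 0) (nat_lit 12482030766) (nat_lit 1216) (nat_lit 3063024846) (nat_lit 76) (nat_lit 5211528312) (nat_lit 243) (nat_lit 5) (nat_lit 259) (nat_lit 5) (nat_lit 244) (nat_lit 5) (nat_lit 363) (nat_lit 346) (nat_lit 191)) (XT.nd (nat_lit 78) (nat_lit 0) (nat_lit 0) (XT.lf (nat_lit 0) (nat_lit 7803720958) (nat_lit 1216) (nat_lit 6667399849) (nat_lit 1292) (nat_lit 6620672430) (nat_lit 227) (nat_lit 5) (nat_lit 243) (nat_lit 5) (nat_lit 244) (nat_lit 5) (nat_lit 364) (nat_lit 346)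 (nat_lit 190)) (XT.lf (nat_lit 0) (nat_lit 16568681491) (nat_lit 1292) (nat_lit 2406690160) (nat_lit 76) (nat_lit 2460226365) (nat_lit 227) (nat_lit 5) (nat_lit 244) (nat_lit 5) (nat_lit 228) (nat_lit 5) (nat_lit 365) (nat_lit 346) (nat_lit 189))))) (XT.nd (nat_lit 234) (nat_lit 1140) (nat_lit 0) (XT.nd (nat_lit 78) (nat_lit 684) (nat_lit 0) (XT.lf (nat_lit 0) (nat_lit 8903316808) (nat_lit 608) (nat_lit 9971386774) (nat_lit 684) (nat_lit 2910650351) (nat_lit 219) (nat_lit 5) (nat_lit 227) (nat_lit 5) (nat_lit 228) (nat_lit 5) (nat_lit 366) (nat_lit 346) (nat_lit 188)) (XT.nd (nat_lit 78) (nat_lit 684) (nat_lit 0) (XT.lf (nat_lit 0) (nat_lit 20596474539) (nat_lit 608) (nat_lit 671795134) (nat_lit 684) (nat_lit 876784899) (nat_lit 219) (nat_lit 5) (nat_lit 227) (nat_lit 5) (nat_lit 228) (nat_lit 5) (nat_lit 367) (nat_lit 346) (nat_lit 187)) (XT.lf (nat_lit 0) (nat_lit 1374314243) (nat_lit 684) (nat_lit 12290225816)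 (nat_lit 76) (nat_lit 8845258059) (nat_lit 210) (nat_lit 5) (nat_lit 219) (nat_lit 5) (nat_lit 211) (nat_lit 5) (nat_lit 368) (nat_lit 346) (nat_lit 186)))) (XT.nd (nat_lit 156) (nat_lit 532) (nat_lit 0) (XT.nd (nat_lit 78) (nat_lit 608) (nat_lit 0) (XT.lf (nat_lit 0) (nat_lit 3692062276) (nat_lit 684) (nat_lit 533555446) (nat_lit 76) (nat_lit 18659106359) (nat_lit 210) (nat_lit 5) (nat_lit 219) (nat_lit 5) (nat_lit 211) (nat_lit 5) (nat_lit 369) (nat_lit 346) (nat_lit 185)) (XT.lf (nat_lit 0) (nat_lit 6241198731) (nat_lit 684) (nat_lit 11520939278) (nat_lit 76) (nat_lit 5503906750) (nat_lit 202) (nat_lit 5) (nat_lit 211) (nat_lit 5) (nat_lit 203) (nat_lit 5) (nat_lit 370) (nat_lit 346) (nat_lit 184))) (XT.nd (nat_lit 78) (nat_lit 0) (nat_lit 0) (XT.lf (nat_lit 0) (nat_lit 710883001) (nat_lit 532) (nat_lit 8204610084) (nat_lit 608) (nat_lit 14741853997) (nat_lit 195) (nat_lit 5) (nat_lit 202) (nat_lit 5)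 (nat_lit 203) (nat_lit 5) (nat_lit 371) (nat_lit 346) (nat_lit 183)) (XT.lf (nat_lit 0) (nat_lit 11797943895) (nat_lit 608) (nat_lit 10533608156) (nat_lit 76) (nat_lit 1725001064) (nat_lit 195) (nat_lit 5) (nat_lit 203) (nat_lit 5) (nat_lit 196) (nat_lit 5) (nat_lit 372) (nat_lit 346) (nat_lit 182)))))) (XT.nd (nat_lit 546) (nat_lit 1748) (nat_lit 0) (XT.nd (nat_lit 234) (nat_lit 1064) (nat_lit 0) (XT.nd (nat_lit 78) (nat_lit 456) (nat_lit 0) (XT.lf (nat_lit 0) (nat_lit 2208025411) (nat_lit 532) (nat_lit 12656132149) (nat_lit 608) (nat_lit 9600661482) (nat_lit 188) (nat_lit 5) (nat_lit 195) (nat_lit 5) (nat_lit 196) (nat_lit 5) (nat_lit 373) (nat_lit 346) (nat_lit 181)) (XT.nd (nat_lit 78) (nat_lit 456) (nat_lit 0) (XT.lf (nat_lit 0) (nat_lit 15542429360) (nat_lit 532) (nat_lit 2581226325) (nat_lit 608) (nat_lit 6758640644) (nat_lit 188) (nat_lit 5) (nat_lit 195) (nat_lit 5) (nat_lit 196) (nat_lit 5) (nat_lit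 374) (nat_lit 346) (nat_lit 180)) (XT.lf (nat_lit 0) (nat_lit 3961535522) (nat_lit 456) (nat_lit 17627496963) (nat_lit 532) (nat_lit 3720024895) (nat_lit 182) (nat_lit 5) (nat_lit 188) (nat_lit 5) (nat_lit 189) (nat_lit 5) (nat_lit 375) (nat_lit 346) (nat_lit 179)))) (XT.nd (nat_lit 156) (nat_lit 456) (nat_lit 0) (XT.nd (nat_lit 78) (nat_lit 608) (nat_lit 0) (XT.lf (nat_lit 0) (nat_lit 17822029209) (nat_lit 456) (nat_lit 7451127792) (nat_lit 532) (nat_lit 472022860) (nat_lit 182) (nat_lit 5) (nat_lit 188) (nat_lit 5) (nat_lit 189) (nat_lit 5) (nat_lit 376) (nat_lit 346) (nat_lit 178)) (XT.lf (nat_lit 0) (nat_lit 2900135408) (nat_lit 608) (nat_lit 20234052924) (nat_lit 76) (nat_lit 3056887509) (nat_lit 174) (nat_lit 5) (nat_lit 182) (nat_lit 5) (nat_lit 175) (nat_lit 5) (nat_lit 377) (nat_lit 346) (nat_lit 177))) (XT.nd (nat_lit 78) (nat_lit 456) (nat_lit 0) (XT.lf (nat_lit 0) (nat_lit 6513885645) (nat_lit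 608) (nat_lit 6316537858) (nat_lit 76) (nat_lit 13815289567) (nat_lit 174) (nat_lit 5) (nat_lit 182) (nat_lit 5) (nat_lit 175) (nat_lit 5) (nat_lit 378) (nat_lit 346) (nat_lit 176)) (XT.lf (nat_lit 0) (nat_lit 8172770497) (nat_lit 456) (nat_lit 2137315699) (nat_lit 532) (nat_lit 16801684031) (nat_lit 168) (nat_lit 5) (nat_lit 174) (nat_lit 5) (nat_lit 175) (nat_lit 5) (nat_lit 379) (nat_lit 346) (nat_lit 175))))) (XT.nd (nat_lit 234) (nat_lit 1292) (nat_lit 0) (XT.nd (nat_lit 78) (nat_lit 456) (nat_lit 0) (XT.lf (nat_lit 0) (nat_lit 14365467481) (nat_lit 532) (nat_lit 4454902798) (nat_lit 76) (nat_lit 8767081868) (nat_lit 168) (nat_lit 5) (nat_lit 175) (nat_lit 5) (nat_lit 169) (nat_lit 5) (nat_lit 380) (nat_lit 346) (nat_lit 174)) (XT.nd (nat_lit 78) (nat_lit 0) (nat_lit 0) (XT.lf (nat_lit 0) (nat_lit 10645145212) (nat_lit 456) (nat_lit 8016535125) (nat_lit 532) (nat_lit 9412150921) (nat_lit 162) (nat_lit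 5) (nat_lit 168) (nat_lit 5) (nat_lit 169) (nat_lit 5) (nat_lit 381) (nat_lit 346) (nat_lit 173)) (XT.lf (nat_lit 0) (nat_lit 23157869347) (nat_lit 532) (nat_lit 2319496602) (nat_lit 76) (nat_lit 3095304880) (nat_lit 162) (nat_lit 5) (nat_lit 169) (nat_lit 5) (nat_lit 163) (nat_lit 5) (nat_lit 382) (nat_lit 346) (nat_lit 172)))) (XT.nd (nat_lit 156) (nat_lit 380) (nat_lit 0) (XT.nd (nat_lit 78) (nat_lit 532) (nat_lit 0) (XT.lf (nat_lit 0) (nat_lit 13420423309) (nat_lit 380) (nat_lit 14572771221) (nat_lit 456) (nat_lit 1087155271) (nat_lit 157) (nat_lit 5) (nat_lit 162) (nat_lit 5) (nat_lit 163) (nat_lit 5) (nat_lit 383) (nat_lit 346) (nat_lit 171)) (XT.lf (nat_lit 0) (nat_lit 40606672) (nat_lit 456) (nat_lit 3283895013) (nat_lit 532) (nat_lit 26277188708) (nat_lit 150) (nat_lit 5) (nat_lit 156) (nat_lit 5) (nat_lit 157) (nat_lit 5) (nat_lit 384) (nat_lit 346) (nat_lit 170))) (XT.nd (nat_lit 78) (nat_lit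 380) (nat_lit 0) (XT.lf (nat_lit 0) (nat_lit 8082527071) (nat_lit 532) (nat_lit 13698442739) (nat_lit 76) (nat_lit 8350303972) (nat_lit 150) (nat_lit 5) (nat_lit 157) (nat_lit 5) (nat_lit 151) (nat_lit 5) (nat_lit 385) (nat_lit 346) (nat_lit 169)) (XT.lf (nat_lit 0) (nat_lit 2654359086) (nat_lit 380) (nat_lit 10383045773) (nat_lit 456) (nat_lit 17637718004) (nat_lit 145) (nat_lit 5) (nat_lit 150) (nat_lit 5) (nat_lit 151) (nat_lit 5) (nat_lit 386) (nat_lit 346) (nat_lit 168))))))) (XT.nd (nat_lit 1014) (nat_lit 2052) (nat_lit 0) (XT.nd (nat_lit 468) (nat_lit 1292) (nat_lit 0) (XT.nd (nat_lit 234) (nat_lit 760) (nat_lit 0) (XT.nd (nat_lit 78) (nat_lit 380) (nat_lit 0) (XT.lf (nat_lit 0) (nat_lit 18289806946) (nat_lit 456) (nat_lit 11472058199) (nat_lit 76) (nat_lit 1468957423) (nat_lit 145) (nat_lit 5) (nat_lit 151) (nat_lit 5) (nat_lit 146) (nat_lit 5) (nat_lit 387) (nat_lit 346) (nat_lit 167)) (XT.nd (nat_lit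 78) (nat_lit 0) (nat_lit 0) (XT.lf (nat_lit 0) (nat_lit 5574167424) (nat_lit 380) (nat_lit 18278249312) (nat_lit 456) (nat_lit 7946198908) (nat_lit 140) (nat_lit 5) (nat_lit 145) (nat_lit 5) (nat_lit 146) (nat_lit 5) (nat_lit 388) (nat_lit 346) (nat_lit 166)) (XT.lf (nat_lit 0) (nat_lit 23362083136) (nat_lit 380) (nat_lit 6331980334) (nat_lit 456) (nat_lit 2686015688) (nat_lit 140) (nat_lit 5) (nat_lit 145) (nat_lit 5) (nat_lit 146) (nat_lit 5) (nat_lit 389) (nat_lit 346) (nat_lit 165)))) (XT.nd (nat_lit 78) (nat_lit 380) (nat_lit 0) (XT.lf (nat_lit 0) (nat_lit 2818585229) (nat_lit 380) (nat_lit 24188045547) (nat_lit 76) (nat_lit 5967371602) (nat_lit 135) (nat_lit 5) (nat_lit 140) (nat_lit 5) (nat_lit 136) (nat_lit 5) (nat_lit 390) (nat_lit 346) (nat_lit 164)) (XT.nd (nat_lit 78) (nat_lit 380) (nat_lit 0) (XT.lf (nat_lit 0) (nat_lit 8585428692) (nat_lit 380) (nat_lit 6369155552) (nat_lit 76) (nat_lit 18625829786)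 (nat_lit 135) (nat_lit 5) (nat_lit 140) (nat_lit 5) (nat_lit 136) (nat_lit 5) (nat_lit 391) (nat_lit 346) (nat_lit 163)) (XT.lf (nat_lit 0) (nat_lit 12218015905) (nat_lit 380) (nat_lit 2421244710) (nat_lit 456) (nat_lit 19562339172) (nat_lit 130) (nat_lit 5) (nat_lit 135) (nat_lit 5) (nat_lit 136) (nat_lit 5) (nat_lit 392) (nat_lit 346) (nat_lit 162))))) (XT.nd (nat_lit 234) (nat_lit 988) (nat_lit 0) (XT.nd (nat_lit 78) (nat_lit 304) (nat_lit 0) (XT.lf (nat_lit 0) (nat_lit 21037058493) (nat_lit 456) (nat_lit 3452330533) (nat_lit 76) (nat_lit 10347162775) (nat_lit 130) (nat_lit 5) (nat_lit 136) (nat_lit 5) (nat_lit 131) (nat_lit 5) (nat_lit 393) (nat_lit 346) (nat_lit 161)) (XT.nd (nat_lit 78) (nat_lit 0) (nat_lit 0) (XT.lf (nat_lit 0) (nat_lit 15916873451) (nat_lit 304) (nat_lit 11883572140) (nat_lit 380) (nat_lit 7684898302) (nat_lit 126) (nat_lit 5) (nat_lit 130) (nat_lit 5) (nat_lit 131) (nat_lit 5)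 (nat_lit 394) (nat_lit 346) (nat_lit 160)) (XT.lf (nat_lit 0) (nat_lit 34809239339) (nat_lit 380) (nat_lit 230205294) (nat_lit 76) (nat_lit 1112881108) (nat_lit 126) (nat_lit 5) (nat_lit 131) (nat_lit 5) (nat_lit 127) (nat_lit 5) (nat_lit 395) (nat_lit 346) (nat_lit 159)))) (XT.nd (nat_lit 156) (nat_lit 304) (nat_lit 0) (XT.nd (nat_lit 78) (nat_lit 304) (nat_lit 0) (XT.lf (nat_lit 0) (nat_lit 5397054445) (nat_lit 380) (nat_lit 16927606197) (nat_lit 76) (nat_lit 14503881182) (nat_lit 121) (nat_lit 5) (nat_lit 126) (nat_lit 5) (nat_lit 122) (nat_lit 5) (nat_lit 396) (nat_lit 346) (nat_lit 158)) (XT.lf (nat_lit 0) (nat_lit 3159552866) (nat_lit 304) (nat_lit 9182404536) (nat_lit 380) (nat_lit 25181802521) (nat_lit 117) (nat_lit 5) (nat_lit 121) (nat_lit 5) (nat_lit 122) (nat_lit 5) (nat_lit 397) (nat_lit 346) (nat_lit 157))) (XT.nd (nat_lit 78) (nat_lit 304) (nat_lit 0) (XT.lf (nat_lit 0) (nat_lit 19706559220)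 (nat_lit 380) (nat_lit 14086499821) (nat_lit 76) (nat_lit 4440435984) (nat_lit 117) (nat_lit 5) (nat_lit 122) (nat_lit 5) (nat_lit 118) (nat_lit 5) (nat_lit 398) (nat_lit 346) (nat_lit 156)) (XT.lf (nat_lit 0) (nat_lit 6837610860) (nat_lit 304) (nat_lit 20608090868) (nat_lit 380) (nat_lit 11514213362) (nat_lit 113) (nat_lit 5) (nat_lit 117) (nat_lit 5) (nat_lit 118) (nat_lit 5) (nat_lit 399) (nat_lit 346) (nat_lit 155)))))) (XT.nd (nat_lit 546) (nat_lit 1064) (nat_lit 0) (XT.nd (nat_lit 234) (nat_lit 608) (nat_lit 0) (XT.nd (nat_lit 78) (nat_lit 380) (nat_lit 0) (XT.lf (nat_lit 0) (nat_lit 28673808530) (nat_lit 304) (nat_lit 6882462723) (nat_lit 380) (nat_lit 4147679878) (nat_lit 113) (nat_lit 5) (nat_lit 117) (nat_lit 5) (nat_lit 118) (nat_lit 5) (nat_lit 400) (nat_lit 346) (nat_lit 154)) (XT.nd (nat_lit 78) (nat_lit 0) (nat_lit 0) (XT.lf (nat_lit 0) (nat_lit 3545361567) (nat_lit 380) (nat_lit 29667864257)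 (nat_lit 76) (nat_lit 7250912281) (nat_lit 108) (nat_lit 5) (nat_lit 113) (nat_lit 5) (nat_lit 109) (nat_lit 5) (nat_lit 401) (nat_lit 346) (nat_lit 153)) (XT.lf (nat_lit 0) (nat_lit 11563553948) (nat_lit 380) (nat_lit 7854870306) (nat_lit 76) (nat_lit 21822143606) (nat_lit 108) (nat_lit 5) (nat_lit 113) (nat_lit 5) (nat_lit 109) (nat_lit 5) (nat_lit 402) (nat_lit 346) (nat_lit 152)))) (XT.nd (nat_lit 156) (nat_lit 304) (nat_lit 0) (XT.nd (nat_lit 78) (nat_lit 0) (nat_lit 0) (XT.lf (nat_lit 0) (nat_lit 14899014994) (nat_lit 304) (nat_lit 5063675304) (nat_lit 380) (nat_lit 22073389116) (nat_lit 104) (nat_lit 5) (nat_lit 108) (nat_lit 5) (nat_lit 109) (nat_lit 5) (nat_lit 403) (nat_lit 346) (nat_lit 151)) (XT.lf (nat_lit 0) (nat_lit 28784563983) (nat_lit 380) (nat_lit 4455040203) (nat_lit 76) (nat_lit 9610730055) (nat_lit 104) (nat_lit 5) (nat_lit 109) (nat_lit 5) (nat_lit 105) (nat_lit 5) (nat_lit 404) (nat_lit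 346) (nat_lit 150))) (XT.nd (nat_lit 78) (nat_lit 76) (nat_lit 0) (XT.lf (nat_lit 0) (nat_lit 19228387516) (nat_lit 228) (nat_lit 18874966145) (nat_lit 304) (nat_lit 5578696064) (nat_lit 101) (nat_lit 5) (nat_lit 104) (nat_lit 5) (nat_lit 105) (nat_lit 5) (nat_lit 405) (nat_lit 346) (nat_lit 149)) (XT.lf (nat_lit 0) (nat_lit 3144003333) (nat_lit 304) (nat_lit 858725870) (nat_lit 76) (nat_lit 40533794057) (nat_lit 100) (nat_lit 5) (nat_lit 104) (nat_lit 5) (nat_lit 101) (nat_lit 5) (nat_lit 406) (nat_lit 346) (nat_lit 148))))) (XT.nd (nat_lit 234) (nat_lit 532) (nat_lit 0) (XT.nd (nat_lit 78) (nat_lit 228) (nat_lit 0) (XT.lf (nat_lit 0) (nat_lit 12354476883) (nat_lit 380) (nat_lit 21669554570) (nat_lit 76) (nat_lit 11380796660) (nat_lit 96) (nat_lit 5) (nat_lit 101) (nat_lit 5) (nat_lit 97) (nat_lit 5) (nat_lit 407) (nat_lit 346) (nat_lit 147)) (XT.nd (nat_lit 78) (nat_lit 0) (nat_lit 0) (XT.lf (nat_lit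 0) (nat_lit 2796573351) (nat_lit 228) (nat_lit 19117366664) (nat_lit 304) (nat_lit 24383062549) (nat_lit 93) (nat_lit 5) (nat_lit 96) (nat_lit 5) (nat_lit 97) (nat_lit 5) (nat_lit 408) (nat_lit 346) (nat_lit 146)) (XT.lf (nat_lit 0) (nat_lit 28436874450) (nat_lit 228) (nat_lit 3539574311) (nat_lit 304) (nat_lit 15233006326) (nat_lit 93) (nat_lit 5) (nat_lit 96) (nat_lit 5) (nat_lit 97) (nat_lit 5) (nat_lit 409) (nat_lit 346) (nat_lit 145)))) (XT.nd (nat_lit 156) (nat_lit 228) (nat_lit 0) (XT.nd (nat_lit 78) (nat_lit 76) (nat_lit 0) (XT.lf (nat_lit 0) (nat_lit 6703746703) (nat_lit 228) (nat_lit 35819240221) (nat_lit 304) (nat_lit 5620830310) (nat_lit 90) (nat_lit 5) (nat_lit 93) (nat_lit 5) (nat_lit 94) (nat_lit 5) (nat_lit 410) (nat_lit 346) (nat_lit 144)) (XT.lf (nat_lit 0) (nat_lit 4420199502) (nat_lit 304) (nat_lit 15853372513) (nat_lit 76) (nat_lit 28824684656) (nat_lit 89) (nat_lit 5) (nat_lit 93)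 (nat_lit 5) (nat_lit 90) (nat_lit 5) (nat_lit 411) (nat_lit 346) (nat_lit 143))) (XT.nd (nat_lit 78) (nat_lit 0) (nat_lit 0) (XT.lf (nat_lit 0) (nat_lit 10649223807) (nat_lit 228) (nat_lit 4100215231) (nat_lit 304) (nat_lit 35327222754) (nat_lit 86) (nat_lit 5) (nat_lit 89) (nat_lit 5) (nat_lit 90) (nat_lit 5) (nat_lit 412) (nat_lit 346) (nat_lit 142)) (XT.lf (nat_lit 0) (nat_lit 25668552167) (nat_lit 304) (nat_lit 12933919308) (nat_lit 76) (nat_lit 12473548297) (nat_lit 86) (nat_lit 5) (nat_lit 90) (nat_lit 5) (nat_lit 87) (nat_lit 5) (nat_lit 413) (nat_lit 346) (nat_lit 141))))))))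
noncomputable def xc207 : XT := (XT.nd (nat_lit 42276) (nat_lit 0) (nat_lit 8360) (XT.nd (nat_lit 1014) (nat_lit 532) (nat_lit 0) (XT.nd (nat_lit 468) (nat_lit 912) (nat_lit 0) (XT.nd (nat_lit 234) (nat_lit 228) (nat_lit 0) (XT.nd (nat_lit 78) (nat_lit 228) (nat_lit 0) (XT.lf (nat_lit 0) (nat_lit 14594843605) (nat_lit 228) (nat_lit 22498960528) (nat_lit 304) (nat_lit 15006197974) (nat_lit 83) (nat_lit 5) (nat_lit 86) (nat_lit 5) (nat_lit 87) (nat_lit 5) (nat_lit 414) (nat_lit 346) (nat_lit 140)) (XT.nd (nat_lit 78) (nat_lit 228) (nat_lit 0) (XT.lf (nat_lit 0) (nat_lit 43210875865) (nat_lit 228) (nat_lit 5779251616) (nat_lit 304) (nat_lit 4160727579) (nat_lit 83) (nat_lit 5) (nat_lit 86) (nat_lit 5) (nat_lit 87) (nat_lit 5) (nat_lit 415) (nat_lit 346) (nat_lit 139)) (XT.lf (nat_lit 0) (nat_lit 7163698028) (nat_lit 228) (nat_lit 35591372471) (nat_lit 76) (nat_lit 11467430563) (nat_lit 80) (nat_lit 5) (nat_lit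 83) (nat_lit 5) (nat_lit 81) (nat_lit 5) (nat_lit 416) (nat_lit 346) (nat_lit 138)))) (XT.nd (nat_lit 78) (nat_lit 228) (nat_lit 0) (XT.lf (nat_lit 0) (nat_lit 18900586238) (nat_lit 228) (nat_lit 7163245805) (nat_lit 76) (nat_lit 29256538367) (nat_lit 80) (nat_lit 5) (nat_lit 83) (nat_lit 5) (nat_lit 81) (nat_lit 5) (nat_lit 417) (nat_lit 346) (nat_lit 137)) (XT.nd (nat_lit 78) (nat_lit 0) (nat_lit 0) (XT.lf (nat_lit 0) (nat_lit 22554266243) (nat_lit 228) (nat_lit 8649953188) (nat_lit 304) (nat_lit 25240517757) (nat_lit 77) (nat_lit 5) (nat_lit 80) (nat_lit 5) (nat_lit 81) (nat_lit 5) (nat_lit 418) (nat_lit 346) (nat_lit 136)) (XT.lf (nat_lit 0) (nat_lit 44037127120) (nat_lit 304) (nat_lit 4384093462) (nat_lit 76) (nat_lit 9176809907) (nat_lit 77) (nat_lit 5) (nat_lit 81) (nat_lit 5) (nat_lit 78) (nat_lit 5) (nat_lit 419) (nat_lit 346) (nat_lit 135))))) (XT.nd (nat_lit 234) (nat_lit 456) (nat_lit 0) (XT.nd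 (nat_lit 78) (nat_lit 304) (nat_lit 0) (XT.lf (nat_lit 0) (nat_lit 26434173206) (nat_lit 152) (nat_lit 31158504617) (nat_lit 228) (nat_lit 1183115565) (nat_lit 75) (nat_lit 5) (nat_lit 77) (nat_lit 5) (nat_lit 78) (nat_lit 5) (nat_lit 420) (nat_lit 346) (nat_lit 134)) (XT.nd (nat_lit 78) (nat_lit 228) (nat_lit 0) (XT.lf (nat_lit 0) (nat_lit 11382938563) (nat_lit 228) (nat_lit 1835814087) (nat_lit 76) (nat_lit 46765522767) (nat_lit 74) (nat_lit 5) (nat_lit 77) (nat_lit 5) (nat_lit 75) (nat_lit 5) (nat_lit 421) (nat_lit 346) (nat_lit 133)) (XT.lf (nat_lit 0) (nat_lit 24643603821) (nat_lit 304) (nat_lit 31114988768) (nat_lit 76) (nat_lit 5459826061) (nat_lit 71) (nat_lit 5) (nat_lit 75) (nat_lit 5) (nat_lit 72) (nat_lit 5) (nat_lit 422) (nat_lit 346) (nat_lit 132)))) (XT.nd (nat_lit 156) (nat_lit 304) (nat_lit 0) (XT.nd (nat_lit 78) (nat_lit 0) (nat_lit 0) (XT.lf (nat_lit 0) (nat_lit 423245415) (nat_lit 152)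 (nat_lit 38030504707) (nat_lit 228) (nat_lit 24031286642) (nat_lit 69) (nat_lit 5) (nat_lit 71) (nat_lit 5) (nat_lit 72) (nat_lit 5) (nat_lit 423) (nat_lit 346) (nat_lit 131)) (XT.lf (nat_lit 0) (nat_lit 33542081904) (nat_lit 152) (nat_lit 19448337542) (nat_lit 228) (nat_lit 10789867825) (nat_lit 69) (nat_lit 5) (nat_lit 71) (nat_lit 5) (nat_lit 72) (nat_lit 5) (nat_lit 424) (nat_lit 346) (nat_lit 130))) (XT.nd (nat_lit 78) (nat_lit 0) (nat_lit 0) (XT.lf (nat_lit 0) (nat_lit 2559333310) (nat_lit 228) (nat_lit 256528439) (nat_lit 304) (nat_lit 62297032643) (nat_lit 65) (nat_lit 5) (nat_lit 68) (nat_lit 5) (nat_lit 69) (nat_lit 5) (nat_lit 425) (nat_lit 346) (nat_lit 129)) (XT.lf (nat_lit 0) (nat_lit 17106887904) (nat_lit 304) (nat_lit 29816397938) (nat_lit 76) (nat_lit 19544169636) (nat_lit 65) (nat_lit 5) (nat_lit 69) (nat_lit 5) (nat_lit 66) (nat_lit 5) (nat_lit 426) (nat_lit 346) (nat_lit 128)))))) (XT.nd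 (nat_lit 40716) (nat_lit 0) (nat_lit 13680) (XT.nd (nat_lit 234) (nat_lit 228) (nat_lit 0) (XT.nd (nat_lit 78) (nat_lit 152) (nat_lit 0) (XT.lf (nat_lit 0) (nat_lit 3974672517) (nat_lit 152) (nat_lit 27890843981) (nat_lit 228) (nat_lit 35995971109) (nat_lit 63) (nat_lit 5) (nat_lit 65) (nat_lit 5) (nat_lit 66) (nat_lit 5) (nat_lit 427) (nat_lit 346) (nat_lit 127)) (XT.nd (nat_lit 78) (nat_lit 152) (nat_lit 0) (XT.lf (nat_lit 0) (nat_lit 39387485784) (nat_lit 152) (nat_lit 7978654001) (nat_lit 228) (nat_lit 21922224190) (nat_lit 63) (nat_lit 5) (nat_lit 65) (nat_lit 5) (nat_lit 66) (nat_lit 5) (nat_lit 428) (nat_lit 346) (nat_lit 126)) (XT.lf (nat_lit 0) (nat_lit 5080169683) (nat_lit 152) (nat_lit 58419090530) (nat_lit 228) (nat_lit 7253762409) (nat_lit 61) (nat_lit 5) (nat_lit 63) (nat_lit 5) (nat_lit 64) (nat_lit 5) (nat_lit 429) (nat_lit 346) (nat_lit 125)))) (XT.nd (nat_lit 156) (nat_lit 0) (nat_lit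 0) (XT.nd (nat_lit 78) (nat_lit 152) (nat_lit 0) (XT.lf (nat_lit 0) (nat_lit 8083599836) (nat_lit 228) (nat_lit 30689616172) (nat_lit 76) (nat_lit 33474676566) (nat_lit 60) (nat_lit 5) (nat_lit 63) (nat_lit 5) (nat_lit 61) (nat_lit 5) (nat_lit 430) (nat_lit 346) (nat_lit 124)) (XT.lf (nat_lit 0) (nat_lit 5373088063) (nat_lit 152) (nat_lit 18412098246) (nat_lit 228) (nat_lit 49998771141) (nat_lit 58) (nat_lit 5) (nat_lit 60) (nat_lit 5) (nat_lit 61) (nat_lit 5) (nat_lit 431) (nat_lit 346) (nat_lit 123))) (XT.nd (nat_lit 40248) (nat_lit 0) (nat_lit 14744) (XT.lf (nat_lit 0) (nat_lit 40293657415) (nat_lit 228) (nat_lit 32240770160) (nat_lit 76) (nat_lit 2821601887) (nat_lit 58) (nat_lit 5) (nat_lit 61) (nat_lit 5) (nat_lit 59) (nat_lit 5) (nat_lit 432) (nat_lit 346) (nat_lit 122)) (XT.lf (nat_lit 0) (nat_lit 3311557008) (nat_lit 0) (nat_lit 3311557008) (nat_lit 1140) (nat_lit 1629436362) (nat_lit 252) (nat_lit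 5) (nat_lit 252) (nat_lit 3) (nat_lit 267) (nat_lit 3) (nat_lit 347) (nat_lit 347) (nat_lit 206))))) (XT.nd (nat_lit 234) (nat_lit 1064) (nat_lit 0) (XT.nd (nat_lit 78) (nat_lit 0) (nat_lit 0) (XT.lf (nat_lit 0) (nat_lit 13693406383) (nat_lit 1140) (nat_lit 1998926572) (nat_lit 1216) (nat_lit 1052761319) (nat_lit 252) (nat_lit 5) (nat_lit 267) (nat_lit 3) (nat_lit 268) (nat_lit 5) (nat_lit 348) (nat_lit 347) (nat_lit 205)) (XT.nd (nat_lit 78) (nat_lit 0) (nat_lit 0) (XT.lf (nat_lit 76) (nat_lit 6170482386) (nat_lit 0) (nat_lit 8099157345) (nat_lit 1216) (nat_lit 2719183690) (nat_lit 253) (nat_lit 5) (nat_lit 252) (nat_lit 5) (nat_lit 268) (nat_lit 5) (nat_lit 349) (nat_lit 347) (nat_lit 204)) (XT.lf (nat_lit 76) (nat_lit 14621022467) (nat_lit 0) (nat_lit 253294720) (nat_lit 1216) (nat_lit 2365217408) (nat_lit 253) (nat_lit 5) (nat_lit 252) (nat_lit 5) (nat_lit 268) (nat_lit 5) (nat_lit 350) (nat_lit 347)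 (nat_lit 203)))) (XT.nd (nat_lit 156) (nat_lit 1140) (nat_lit 0) (XT.nd (nat_lit 78) (nat_lit 0) (nat_lit 0) (XT.lf (nat_lit 76) (nat_lit 5861351108) (nat_lit 0) (nat_lit 9758646834) (nat_lit 1216) (nat_lit 1874087999) (nat_lit 254) (nat_lit 5) (nat_lit 253) (nat_lit 5) (nat_lit 269) (nat_lit 5) (nat_lit 351) (nat_lit 347) (nat_lit 202)) (XT.lf (nat_lit 76) (nat_lit 14641689667) (nat_lit 0) (nat_lit 1766763404) (nat_lit 1216) (nat_lit 1347213224) (nat_lit 254) (nat_lit 5) (nat_lit 253) (nat_lit 5) (nat_lit 269) (nat_lit 5) (nat_lit 352) (nat_lit 347) (nat_lit 201))) (XT.nd (nat_lit 78) (nat_lit 1216) (nat_lit 0) (XT.lf (nat_lit 76) (nat_lit 5704334004) (nat_lit 0) (nat_lit 11624965262) (nat_lit 1216) (nat_lit 692537127) (nat_lit 255) (nat_lit 5) (nat_lit 254) (nat_lit 5) (nat_lit 270) (nat_lit 5) (nat_lit 353) (nat_lit 347) (nat_lit 200)) (XT.lf (nat_lit 0) (nat_lit 23250207) (nat_lit 1216) (nat_lit 3466943094)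 (nat_lit 1292) (nat_lit 14804574282) (nat_lit 238) (nat_lit 5) (nat_lit 254) (nat_lit 5) (nat_lit 255) (nat_lit 5) (nat_lit 354) (nat_lit 347) (nat_lit 199))))))) (XT.nd (nat_lit 1014) (nat_lit 3876) (nat_lit 0) (XT.nd (nat_lit 468) (nat_lit 1520) (nat_lit 0) (XT.nd (nat_lit 234) (nat_lit 0) (nat_lit 76) (XT.nd (nat_lit 78) (nat_lit 0) (nat_lit 0) (XT.lf (nat_lit 0) (nat_lit 841595115) (nat_lit 1216) (nat_lit 12872570964) (nat_lit 1292) (nat_lit 4858668905) (nat_lit 239) (nat_lit 5) (nat_lit 255) (nat_lit 5) (nat_lit 256) (nat_lit 5) (nat_lit 355) (nat_lit 347) (nat_lit 198)) (XT.nd (nat_lit 78) (nat_lit 0) (nat_lit 76) (XT.lf (nat_lit 0) (nat_lit 1746712237) (nat_lit 1216) (nat_lit 3684890339) (nat_lit 1292) (nat_lit 13425779132) (nat_lit 239) (nat_lit 5) (nat_lit 255) (nat_lit 5) (nat_lit 256) (nat_lit 5) (nat_lit 356) (nat_lit 347) (nat_lit 197)) (XT.lf (nat_lit 0) (nat_lit 2758492612) (nat_lit 1216)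 (nat_lit 13291245050) (nat_lit 1292) (nat_lit 3098345721) (nat_lit 240) (nat_lit 5) (nat_lit 256) (nat_lit 5) (nat_lit 257) (nat_lit 5) (nat_lit 357) (nat_lit 347) (nat_lit 196)))) (XT.nd (nat_lit 78) (nat_lit 0) (nat_lit 76) (XT.lf (nat_lit 0) (nat_lit 3884705520) (nat_lit 1216) (nat_lit 3745567133) (nat_lit 1292) (nat_lit 11814714812) (nat_lit 240) (nat_lit 5) (nat_lit 256) (nat_lit 5) (nat_lit 257) (nat_lit 5) (nat_lit 358) (nat_lit 347) (nat_lit 195)) (XT.nd (nat_lit 78) (nat_lit 0) (nat_lit 0) (XT.lf (nat_lit 0) (nat_lit 5107881337) (nat_lit 1216) (nat_lit 13557567142) (nat_lit 1292) (nat_lit 1083458515) (nat_lit 241) (nat_lit 5) (nat_lit 257) (nat_lit 5) (nat_lit 258) (nat_lit 5) (nat_lit 359) (nat_lit 347) (nat_lit 194)) (XT.lf (nat_lit 0) (nat_lit 6474603986) (nat_lit 1216) (nat_lit 3639002142) (nat_lit 1292) (nat_lit 9945135952) (nat_lit 241) (nat_lit 5) (nat_lit 257) (nat_lit 5) (nat_lit 258)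 (nat_lit 5) (nat_lit 360) (nat_lit 347) (nat_lit 193))))) (XT.nd (nat_lit 234) (nat_lit 1672) (nat_lit 0) (XT.nd (nat_lit 78) (nat_lit 0) (nat_lit 76) (XT.lf (nat_lit 76) (nat_lit 6702664900) (nat_lit 0) (nat_lit 1237401232) (nat_lit 1292) (nat_lit 12436077364) (nat_lit 242) (nat_lit 5) (nat_lit 241) (nat_lit 5) (nat_lit 258) (nat_lit 5) (nat_lit 361) (nat_lit 347) (nat_lit 192)) (XT.nd (nat_lit 78) (nat_lit 0) (nat_lit 0) (XT.lf (nat_lit 0) (nat_lit 9556056975) (nat_lit 1216) (nat_lit 3354548318) (nat_lit 1292) (nat_lit 7789268032) (nat_lit 242) (nat_lit 5) (nat_lit 258) (nat_lit 5) (nat_lit 259) (nat_lit 5) (nat_lit 362) (nat_lit 347) (nat_lit 191)) (XT.lf (nat_lit 76) (nat_lit 7400864132) (nat_lit 0) (nat_lit 3896712518) (nat_lit 1292) (nat_lit 9733430143) (nat_lit 243) (nat_lit 5) (nat_lit 242) (nat_lit 5) (nat_lit 259) (nat_lit 5) (nat_lit 363) (nat_lit 347) (nat_lit 190)))) (XT.nd (nat_lit 156) (nat_lit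 608) (nat_lit 0) (XT.nd (nat_lit 78) (nat_lit 1216) (nat_lit 0) (XT.lf (nat_lit 0) (nat_lit 13171141009) (nat_lit 1216) (nat_lit 2880877762) (nat_lit 76) (nat_lit 5317664644) (nat_lit 243) (nat_lit 5) (nat_lit 259) (nat_lit 5) (nat_lit 244) (nat_lit 5) (nat_lit 364) (nat_lit 347) (nat_lit 189)) (XT.lf (nat_lit 0) (nat_lit 8309183772) (nat_lit 1216) (nat_lit 6904163830) (nat_lit 1292) (nat_lit 6501802709) (nat_lit 227) (nat_lit 5) (nat_lit 243) (nat_lit 5) (nat_lit 244) (nat_lit 5) (nat_lit 365) (nat_lit 347) (nat_lit 188))) (XT.nd (nat_lit 78) (nat_lit 608) (nat_lit 0) (XT.lf (nat_lit 0) (nat_lit 17364518619) (nat_lit 1292) (nat_lit 2205977179) (nat_lit 76) (nat_lit 2499057411) (nat_lit 227) (nat_lit 5) (nat_lit 244) (nat_lit 5) (nat_lit 228) (nat_lit 5) (nat_lit 366) (nat_lit 347) (nat_lit 187)) (XT.lf (nat_lit 0) (nat_lit 9440654373) (nat_lit 608) (nat_lit 10292962459) (nat_lit 684) (nat_lit 2696372460)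 (nat_lit 219) (nat_lit 5) (nat_lit 227) (nat_lit 5) (nat_lit 228) (nat_lit 5) (nat_lit 367) (nat_lit 347) (nat_lit 186)))))) (XT.nd (nat_lit 546) (nat_lit 1520) (nat_lit 0) (XT.nd (nat_lit 234) (nat_lit 1672) (nat_lit 0) (XT.nd (nat_lit 78) (nat_lit 684) (nat_lit 0) (XT.lf (nat_lit 0) (nat_lit 21476735825) (nat_lit 608) (nat_lit 713729650) (nat_lit 684) (nat_lit 610275435) (nat_lit 219) (nat_lit 5) (nat_lit 227) (nat_lit 5) (nat_lit 228) (nat_lit 5) (nat_lit 368) (nat_lit 347) (nat_lit 185)) (XT.nd (nat_lit 78) (nat_lit 0) (nat_lit 0) (XT.lf (nat_lit 0) (nat_lit 1696682790) (nat_lit 684) (nat_lit 12384622105) (nat_lit 76) (nat_lit 9095220211) (nat_lit 210) (nat_lit 5) (nat_lit 219) (nat_lit 5) (nat_lit 211) (nat_lit 5) (nat_lit 369) (nat_lit 347) (nat_lit 184)) (XT.lf (nat_lit 0) (nat_lit 4075774746) (nat_lit 684) (nat_lit 283241249) (nat_lit 76) (nat_lit 19203932376) (nat_lit 210) (nat_lit 5) (nat_lit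 219) (nat_lit 5) (nat_lit 211) (nat_lit 5) (nat_lit 370) (nat_lit 347) (nat_lit 183)))) (XT.nd (nat_lit 156) (nat_lit 532) (nat_lit 0) (XT.nd (nat_lit 78) (nat_lit 532) (nat_lit 0) (XT.lf (nat_lit 0) (nat_lit 6695933443) (nat_lit 684) (nat_lit 11594669586) (nat_lit 76) (nat_lit 5665272951) (nat_lit 202) (nat_lit 5) (nat_lit 211) (nat_lit 5) (nat_lit 203) (nat_lit 5) (nat_lit 371) (nat_lit 347) (nat_lit 182)) (XT.lf (nat_lit 0) (nat_lit 1001441696) (nat_lit 532) (nat_lit 8443811732) (nat_lit 608) (nat_lit 14913823688) (nat_lit 195) (nat_lit 5) (nat_lit 202) (nat_lit 5) (nat_lit 203) (nat_lit 5) (nat_lit 372) (nat_lit 347) (nat_lit 181))) (XT.nd (nat_lit 78) (nat_lit 532) (nat_lit 0) (XT.lf (nat_lit 0) (nat_lit 12406602822) (nat_lit 608) (nat_lit 10580532997) (nat_lit 76) (nat_lit 1783354296) (nat_lit 195) (nat_lit 5) (nat_lit 203) (nat_lit 5) (nat_lit 196) (nat_lit 5) (nat_lit 373) (nat_lit 347) (nat_lit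 180)) (XT.lf (nat_lit 0) (nat_lit 2540711504) (nat_lit 532) (nat_lit 13019233581) (nat_lit 608) (nat_lit 9631208105) (nat_lit 188) (nat_lit 5) (nat_lit 195) (nat_lit 5) (nat_lit 196) (nat_lit 5) (nat_lit 374) (nat_lit 347) (nat_lit 179))))) (XT.nd (nat_lit 234) (nat_lit 1064) (nat_lit 0) (XT.nd (nat_lit 78) (nat_lit 456) (nat_lit 0) (XT.lf (nat_lit 0) (nat_lit 16267387028) (nat_lit 532) (nat_lit 2642563569) (nat_lit 608) (nat_lit 6711425863) (nat_lit 188) (nat_lit 5) (nat_lit 195) (nat_lit 5) (nat_lit 196) (nat_lit 5) (nat_lit 375) (nat_lit 347) (nat_lit 178)) (XT.nd (nat_lit 78) (nat_lit 0) (nat_lit 0) (XT.lf (nat_lit 0) (nat_lit 4343693329) (nat_lit 456) (nat_lit 18131211148) (nat_lit 532) (nat_lit 3586170631) (nat_lit 182) (nat_lit 5) (nat_lit 188) (nat_lit 5) (nat_lit 189) (nat_lit 5) (nat_lit 376) (nat_lit 347) (nat_lit 177)) (XT.lf (nat_lit 0) (nat_lit 18612332552) (nat_lit 456) (nat_lit 7650282282)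 (nat_lit 532) (nat_lit 247877711) (nat_lit 182) (nat_lit 5) (nat_lit 188) (nat_lit 5) (nat_lit 189) (nat_lit 5) (nat_lit 377) (nat_lit 347) (nat_lit 176)))) (XT.nd (nat_lit 156) (nat_lit 456) (nat_lit 0) (XT.nd (nat_lit 78) (nat_lit 0) (nat_lit 0) (XT.lf (nat_lit 0) (nat_lit 3216742211) (nat_lit 608) (nat_lit 20576528383) (nat_lit 76) (nat_lit 3176550639) (nat_lit 174) (nat_lit 5) (nat_lit 182) (nat_lit 5) (nat_lit 175) (nat_lit 5) (nat_lit 378) (nat_lit 347) (nat_lit 175)) (XT.lf (nat_lit 0) (nat_lit 6932217497) (nat_lit 608) (nat_lit 6249193091) (nat_lit 76) (nat_lit 14256890491) (nat_lit 174) (nat_lit 5) (nat_lit 182) (nat_lit 5) (nat_lit 175) (nat_lit 5) (nat_lit 379) (nat_lit 347) (nat_lit 174))) (XT.nd (nat_lit 78) (nat_lit 0) (nat_lit 0) (XT.lf (nat_lit 0) (nat_lit 8672276466) (nat_lit 456) (nat_lit 2165979626) (nat_lit 532) (nat_lit 17080208092) (nat_lit 168) (nat_lit 5) (nat_lit 174) (nat_lit 5)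 (nat_lit 175) (nat_lit 5) (nat_lit 380) (nat_lit 347) (nat_lit 173)) (XT.lf (nat_lit 0) (nat_lit 15009254934) (nat_lit 532) (nat_lit 4335500190) (nat_lit 76) (nat_lit 9063845468) (nat_lit 168) (nat_lit 5) (nat_lit 175) (nat_lit 5) (nat_lit 169) (nat_lit 5) (nat_lit 381) (nat_lit 347) (nat_lit 172))))))))
noncomputable def xc208 : XT := (XT.nd (nat_lit 2028) (nat_lit 3192) (nat_lit 0) (XT.nd (nat_lit 1014) (nat_lit 2280) (nat_lit 0) (XT.nd (nat_lit 468) (nat_lit 1140) (nat_lit 0) (XT.nd (nat_lit 234) (nat_lit 912) (nat_lit 0) (XT.nd (nat_lit 78) (nat_lit 380) (nat_lit 0) (XT.lf (nat_lit 0) (nat_lit 11215068381) (nat_lit 456) (nat_lit 8215495674) (nat_lit 532) (nat_lit 9479123357) (nat_lit 162) (nat_lit 5) (nat_lit 168) (nat_lit 5) (nat_lit 169) (nat_lit 5) (nat_lit 382) (nat_lit 347) (nat_lit 171)) (XT.nd (nat_lit 78) (nat_lit 380) (nat_lit 0) (XT.lf (nat_lit 0) (nat_lit 24055938023) (nat_lit 532) (nat_lit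 2140024868) (nat_lit 76) (nat_lit 3227702858) (nat_lit 162) (nat_lit 5) (nat_lit 169) (nat_lit 5) (nat_lit 163) (nat_lit 5) (nat_lit 383) (nat_lit 347) (nat_lit 170)) (XT.lf (nat_lit 0) (nat_lit 14069650909) (nat_lit 380) (nat_lit 14963120357) (nat_lit 456) (nat_lit 913912857) (nat_lit 157) (nat_lit 5) (nat_lit 162) (nat_lit 5) (nat_lit 163) (nat_lit 5) (nat_lit 384) (nat_lit 347) (nat_lit 169)))) (XT.nd (nat_lit 78) (nat_lit 380) (nat_lit 0) (XT.lf (nat_lit 0) (nat_lit 290079157) (nat_lit 456) (nat_lit 3332505172) (nat_lit 532) (nat_lit 26861128352) (nat_lit 150) (nat_lit 5) (nat_lit 156) (nat_lit 5) (nat_lit 157) (nat_lit 5) (nat_lit 385) (nat_lit 347) (nat_lit 168)) (XT.nd (nat_lit 78) (nat_lit 380) (nat_lit 0) (XT.lf (nat_lit 0) (nat_lit 8518039124) (nat_lit 532) (nat_lit 13862985367) (nat_lit 76) (nat_lit 8648320695) (nat_lit 150) (nat_lit 5) (nat_lit 157) (nat_lit 5) (nat_lit 151) (nat_lit 5) (nat_lit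 386) (nat_lit 347) (nat_lit 167)) (XT.lf (nat_lit 0) (nat_lit 2977984722) (nat_lit 380) (nat_lit 10640301536) (nat_lit 456) (nat_lit 17971323995) (nat_lit 145) (nat_lit 5) (nat_lit 150) (nat_lit 5) (nat_lit 151) (nat_lit 5) (nat_lit 387) (nat_lit 347) (nat_lit 166))))) (XT.nd (nat_lit 234) (nat_lit 760) (nat_lit 0) (XT.nd (nat_lit 78) (nat_lit 380) (nat_lit 0) (XT.lf (nat_lit 0) (nat_lit 19023239600) (nat_lit 456) (nat_lit 11574239544) (nat_lit 76) (nat_lit 1564654571) (nat_lit 145) (nat_lit 5) (nat_lit 151) (nat_lit 5) (nat_lit 146) (nat_lit 5) (nat_lit 388) (nat_lit 347) (nat_lit 165)) (XT.nd (nat_lit 78) (nat_lit 0) (nat_lit 0) (XT.lf (nat_lit 0) (nat_lit 5981000492) (nat_lit 380) (nat_lit 18768649720) (nat_lit 456) (nat_lit 7997404774) (nat_lit 140) (nat_lit 5) (nat_lit 145) (nat_lit 5) (nat_lit 146) (nat_lit 5) (nat_lit 389) (nat_lit 347) (nat_lit 164)) (XT.lf (nat_lit 0) (nat_lit 24295574800) (nat_lit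 380) (nat_lit 6465680452) (nat_lit 456) (nat_lit 2584867906) (nat_lit 140) (nat_lit 5) (nat_lit 145) (nat_lit 5) (nat_lit 146) (nat_lit 5) (nat_lit 390) (nat_lit 347) (nat_lit 163)))) (XT.nd (nat_lit 156) (nat_lit 380) (nat_lit 0) (XT.nd (nat_lit 78) (nat_lit 0) (nat_lit 0) (XT.lf (nat_lit 0) (nat_lit 3078947826) (nat_lit 380) (nat_lit 24675005794) (nat_lit 76) (nat_lit 6203931261) (nat_lit 135) (nat_lit 5) (nat_lit 140) (nat_lit 5) (nat_lit 136) (nat_lit 5) (nat_lit 391) (nat_lit 347) (nat_lit 162)) (XT.lf (nat_lit 0) (nat_lit 9013676058) (nat_lit 380) (nat_lit 6328500977) (nat_lit 76) (nat_lit 19240467311) (nat_lit 135) (nat_lit 5) (nat_lit 140) (nat_lit 5) (nat_lit 136) (nat_lit 5) (nat_lit 392) (nat_lit 347) (nat_lit 161))) (XT.nd (nat_lit 78) (nat_lit 0) (nat_lit 0) (XT.lf (nat_lit 0) (nat_lit 12814013769) (nat_lit 380) (nat_lit 2432343461) (nat_lit 456) (nat_lit 19976193210) (nat_lit 130) (nat_lit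 5) (nat_lit 135) (nat_lit 5) (nat_lit 136) (nat_lit 5) (nat_lit 393) (nat_lit 347) (nat_lit 160)) (XT.lf (nat_lit 0) (nat_lit 21831772522) (nat_lit 456) (nat_lit 3328751730) (nat_lit 76) (nat_lit 10716157998) (nat_lit 130) (nat_lit 5) (nat_lit 136) (nat_lit 5) (nat_lit 131) (nat_lit 5) (nat_lit 394) (nat_lit 347) (nat_lit 159)))))) (XT.nd (nat_lit 468) (nat_lit 988) (nat_lit 0) (XT.nd (nat_lit 234) (nat_lit 608) (nat_lit 0) (XT.nd (nat_lit 78) (nat_lit 380) (nat_lit 0) (XT.lf (nat_lit 0) (nat_lit 16619301425) (nat_lit 304) (nat_lit 12176156779) (nat_lit 380) (nat_lit 7749559683) (nat_lit 126) (nat_lit 5) (nat_lit 130) (nat_lit 5) (nat_lit 131) (nat_lit 5) (nat_lit 395) (nat_lit 347) (nat_lit 158)) (XT.nd (nat_lit 78) (nat_lit 380) (nat_lit 0) (XT.lf (nat_lit 0) (nat_lit 36010423032) (nat_lit 380) (nat_lit 14593365) (nat_lit 76) (nat_lit 1207117217) (nat_lit 126) (nat_lit 5) (nat_lit 131) (nat_lit 5) (nat_lit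 127) (nat_lit 5) (nat_lit 396) (nat_lit 347) (nat_lit 157)) (XT.lf (nat_lit 0) (nat_lit 5715001834) (nat_lit 380) (nat_lit 17211940864) (nat_lit 76) (nat_lit 15001722745) (nat_lit 121) (nat_lit 5) (nat_lit 126) (nat_lit 5) (nat_lit 122) (nat_lit 5) (nat_lit 397) (nat_lit 347) (nat_lit 156)))) (XT.nd (nat_lit 78) (nat_lit 304) (nat_lit 0) (XT.lf (nat_lit 0) (nat_lit 3475641858) (nat_lit 304) (nat_lit 9390192584) (nat_lit 380) (nat_lit 25778979666) (nat_lit 117) (nat_lit 5) (nat_lit 121) (nat_lit 5) (nat_lit 122) (nat_lit 5) (nat_lit 398) (nat_lit 347) (nat_lit 155)) (XT.nd (nat_lit 78) (nat_lit 304) (nat_lit 0) (XT.lf (nat_lit 0) (nat_lit 20447531667) (nat_lit 380) (nat_lit 14290346857) (nat_lit 76) (nat_lit 4638079478) (nat_lit 117) (nat_lit 5) (nat_lit 122) (nat_lit 5) (nat_lit 118) (nat_lit 5) (nat_lit 399) (nat_lit 347) (nat_lit 154)) (XT.lf (nat_lit 0) (nat_lit 7259342556) (nat_lit 304) (nat_lit 21157225619)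 (nat_lit 380) (nat_lit 11707672317) (nat_lit 113) (nat_lit 5) (nat_lit 117) (nat_lit 5) (nat_lit 118) (nat_lit 5) (nat_lit 400) (nat_lit 347) (nat_lit 153))))) (XT.nd (nat_lit 234) (nat_lit 608) (nat_lit 0) (XT.nd (nat_lit 78) (nat_lit 380) (nat_lit 0) (XT.lf (nat_lit 0) (nat_lit 29744317320) (nat_lit 304) (nat_lit 7021841484) (nat_lit 380) (nat_lit 4124569065) (nat_lit 113) (nat_lit 5) (nat_lit 117) (nat_lit 5) (nat_lit 118) (nat_lit 5) (nat_lit 401) (nat_lit 347) (nat_lit 152)) (XT.nd (nat_lit 78) (nat_lit 0) (nat_lit 0) (XT.lf (nat_lit 0) (nat_lit 3794860492) (nat_lit 380) (nat_lit 30343114855) (nat_lit 76) (nat_lit 7535749574) (nat_lit 108) (nat_lit 5) (nat_lit 113) (nat_lit 5) (nat_lit 109) (nat_lit 5) (nat_lit 402) (nat_lit 347) (nat_lit 151)) (XT.lf (nat_lit 0) (nat_lit 12049429575) (nat_lit 380) (nat_lit 7881986969) (nat_lit 76) (nat_lit 22542157355) (nat_lit 108) (nat_lit 5) (nat_lit 113) (nat_lit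 5) (nat_lit 109) (nat_lit 5) (nat_lit 403) (nat_lit 347) (nat_lit 150)))) (XT.nd (nat_lit 156) (nat_lit 304) (nat_lit 0) (XT.nd (nat_lit 78) (nat_lit 0) (nat_lit 0) (XT.lf (nat_lit 0) (nat_lit 15552470483) (nat_lit 304) (nat_lit 5146006751) (nat_lit 380) (nat_lit 22594536670) (nat_lit 104) (nat_lit 5) (nat_lit 108) (nat_lit 5) (nat_lit 109) (nat_lit 5) (nat_lit 404) (nat_lit 347) (nat_lit 149)) (XT.lf (nat_lit 0) (nat_lit 29781668924) (nat_lit 380) (nat_lit 4384842771) (nat_lit 76) (nat_lit 9965286014) (nat_lit 104) (nat_lit 5) (nat_lit 109) (nat_lit 5) (nat_lit 105) (nat_lit 5) (nat_lit 405) (nat_lit 347) (nat_lit 148))) (XT.nd (nat_lit 78) (nat_lit 76) (nat_lit 0) (XT.lf (nat_lit 0) (nat_lit 20007089263) (nat_lit 228) (nat_lit 19370983004) (nat_lit 304) (nat_lit 5610452040) (nat_lit 101) (nat_lit 5) (nat_lit 104) (nat_lit 5) (nat_lit 105) (nat_lit 5) (nat_lit 406) (nat_lit 347) (nat_lit 147)) (XT.lf (nat_lit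 0) (nat_lit 3367409613) (nat_lit 304) (nat_lit 685911420) (nat_lit 76) (nat_lit 41815389173) (nat_lit 100) (nat_lit 5) (nat_lit 104) (nat_lit 5) (nat_lit 101) (nat_lit 5) (nat_lit 407) (nat_lit 347) (nat_lit 146))))))) (XT.nd (nat_lit 1014) (nat_lit 1444) (nat_lit 0) (XT.nd (nat_lit 468) (nat_lit 684) (nat_lit 0) (XT.nd (nat_lit 234) (nat_lit 532) (nat_lit 0) (XT.nd (nat_lit 78) (nat_lit 228) (nat_lit 0) (XT.lf (nat_lit 0) (nat_lit 12852994939) (nat_lit 380) (nat_lit 22119827438) (nat_lit 76) (nat_lit 11790278954) (nat_lit 96) (nat_lit 5) (nat_lit 101) (nat_lit 5) (nat_lit 97) (nat_lit 5) (nat_lit 408) (nat_lit 347) (nat_lit 145)) (XT.nd (nat_lit 78) (nat_lit 0) (nat_lit 0) (XT.lf (nat_lit 0) (nat_lit 3078325361) (nat_lit 228) (nat_lit 19619093735) (nat_lit 304) (nat_lit 24984677627) (nat_lit 93) (nat_lit 5) (nat_lit 96) (nat_lit 5) (nat_lit 97) (nat_lit 5) (nat_lit 409) (nat_lit 347) (nat_lit 144)) (XT.lf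 (nat_lit 0) (nat_lit 29482072733) (nat_lit 228) (nat_lit 3576058697) (nat_lit 304) (nat_lit 15563902537) (nat_lit 93) (nat_lit 5) (nat_lit 96) (nat_lit 5) (nat_lit 97) (nat_lit 5) (nat_lit 410) (nat_lit 347) (nat_lit 143)))) (XT.nd (nat_lit 78) (nat_lit 304) (nat_lit 0) (XT.lf (nat_lit 0) (nat_lit 7098072892) (nat_lit 228) (nat_lit 36821935912) (nat_lit 304) (nat_lit 5664450847) (nat_lit 90) (nat_lit 5) (nat_lit 93) (nat_lit 5) (nat_lit 94) (nat_lit 5) (nat_lit 411) (nat_lit 347) (nat_lit 142)) (XT.nd (nat_lit 78) (nat_lit 228) (nat_lit 0) (XT.lf (nat_lit 0) (nat_lit 4671800717) (nat_lit 304) (nat_lit 16138988960) (nat_lit 76) (nat_lit 29756814549) (nat_lit 89) (nat_lit 5) (nat_lit 93) (nat_lit 5) (nat_lit 90) (nat_lit 5) (nat_lit 412) (nat_lit 347) (nat_lit 141)) (XT.lf (nat_lit 0) (nat_lit 11156822654) (nat_lit 228) (nat_lit 4152437250) (nat_lit 304) (nat_lit 36266152205) (nat_lit 86) (nat_lit 5) (nat_lit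 89) (nat_lit 5) (nat_lit 90) (nat_lit 5) (nat_lit 413) (nat_lit 347) (nat_lit 140))))) (XT.nd (nat_lit 234) (nat_lit 456) (nat_lit 0) (XT.nd (nat_lit 78) (nat_lit 228) (nat_lit 0) (XT.lf (nat_lit 0) (nat_lit 26553189429) (nat_lit 304) (nat_lit 13136508492) (nat_lit 76) (nat_lit 12915136473) (nat_lit 86) (nat_lit 5) (nat_lit 90) (nat_lit 5) (nat_lit 87) (nat_lit 5) (nat_lit 414) (nat_lit 347) (nat_lit 139)) (XT.nd (nat_lit 78) (nat_lit 0) (nat_lit 0) (XT.lf (nat_lit 0) (nat_lit 15216299383) (nat_lit 228) (nat_lit 23103327245) (nat_lit 304) (nat_lit 15339957573) (nat_lit 83) (nat_lit 5) (nat_lit 86) (nat_lit 5) (nat_lit 87) (nat_lit 5) (nat_lit 415) (nat_lit 347) (nat_lit 138)) (XT.lf (nat_lit 0) (nat_lit 44685464733) (nat_lit 228) (nat_lit 5884083438) (nat_lit 304) (nat_lit 4172514124) (nat_lit 83) (nat_lit 5) (nat_lit 86) (nat_lit 5) (nat_lit 87) (nat_lit 5) (nat_lit 416) (nat_lit 347) (nat_lit 137))))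 (XT.nd (nat_lit 156) (nat_lit 228) (nat_lit 0) (XT.nd (nat_lit 78) (nat_lit 0) (nat_lit 0) (XT.lf (nat_lit 0) (nat_lit 7488595660) (nat_lit 228) (nat_lit 36477750969) (nat_lit 76) (nat_lit 11879504498) (nat_lit 80) (nat_lit 5) (nat_lit 83) (nat_lit 5) (nat_lit 81) (nat_lit 5) (nat_lit 417) (nat_lit 347) (nat_lit 136)) (XT.lf (nat_lit 0) (nat_lit 19574387021) (nat_lit 228) (nat_lit 7202062911) (nat_lit 76) (nat_lit 30200303468) (nat_lit 80) (nat_lit 5) (nat_lit 83) (nat_lit 5) (nat_lit 81) (nat_lit 5) (nat_lit 418) (nat_lit 347) (nat_lit 135))) (XT.nd (nat_lit 78) (nat_lit 0) (nat_lit 0) (XT.lf (nat_lit 0) (nat_lit 23405248221) (nat_lit 228) (nat_lit 8840446795) (nat_lit 304) (nat_lit 25889199908) (nat_lit 77) (nat_lit 5) (nat_lit 80) (nat_lit 5) (nat_lit 81) (nat_lit 5) (nat_lit 419) (nat_lit 347) (nat_lit 134)) (XT.lf (nat_lit 0) (nat_lit 45461165517) (nat_lit 304) (nat_lit 4343892914) (nat_lit 76) (nat_lit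 9517802022) (nat_lit 77) (nat_lit 5) (nat_lit 81) (nat_lit 5) (nat_lit 78) (nat_lit 5) (nat_lit 420) (nat_lit 347) (nat_lit 133)))))) (XT.nd (nat_lit 546) (nat_lit 532) (nat_lit 0) (XT.nd (nat_lit 234) (nat_lit 456) (nat_lit 0) (XT.nd (nat_lit 78) (nat_lit 304) (nat_lit 0) (XT.lf (nat_lit 0) (nat_lit 27397238191) (nat_lit 152) (nat_lit 32024781272) (nat_lit 228) (nat_lit 1113978349) (nat_lit 75) (nat_lit 5) (nat_lit 77) (nat_lit 5) (nat_lit 78) (nat_lit 5) (nat_lit 421) (nat_lit 347) (nat_lit 132)) (XT.nd (nat_lit 78) (nat_lit 228) (nat_lit 0) (XT.lf (nat_lit 0) (nat_lit 11824027653) (nat_lit 228) (nat_lit 1723797838) (nat_lit 76) (nat_lit 48232968917) (nat_lit 74) (nat_lit 5) (nat_lit 77) (nat_lit 5) (nat_lit 75) (nat_lit 5) (nat_lit 422) (nat_lit 347) (nat_lit 131)) (XT.lf (nat_lit 0) (nat_lit 25481847905) (nat_lit 304) (nat_lit 31880662171) (nat_lit 76) (nat_lit 5689472429) (nat_lit 71) (nat_lit 5) (nat_lit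 75) (nat_lit 5) (nat_lit 72) (nat_lit 5) (nat_lit 423) (nat_lit 347) (nat_lit 130)))) (XT.nd (nat_lit 156) (nat_lit 304) (nat_lit 0) (XT.nd (nat_lit 78) (nat_lit 0) (nat_lit 0) (XT.lf (nat_lit 0) (nat_lit 602074172) (nat_lit 152) (nat_lit 39102939750) (nat_lit 228) (nat_lit 24651624383) (nat_lit 69) (nat_lit 5) (nat_lit 71) (nat_lit 5) (nat_lit 72) (nat_lit 5) (nat_lit 424) (nat_lit 347) (nat_lit 129)) (XT.lf (nat_lit 0) (nat_lit 34709636977) (nat_lit 152) (nat_lit 19965302135) (nat_lit 228) (nat_lit 11015893123) (nat_lit 69) (nat_lit 5) (nat_lit 71) (nat_lit 5) (nat_lit 72) (nat_lit 5) (nat_lit 425) (nat_lit 347) (nat_lit 128))) (XT.nd (nat_lit 78) (nat_lit 0) (nat_lit 0) (XT.lf (nat_lit 0) (nat_lit 2797730538) (nat_lit 228) (nat_lit 197136190) (nat_lit 304) (nat_lit 64068560297) (nat_lit 65) (nat_lit 5) (nat_lit 68) (nat_lit 5) (nat_lit 69) (nat_lit 5) (nat_lit 426) (nat_lit 347) (nat_lit 127)) (XT.lf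 (nat_lit 0) (nat_lit 17712496500) (nat_lit 304) (nat_lit 30551834988) (nat_lit 76) (nat_lit 20194357804) (nat_lit 65) (nat_lit 5) (nat_lit 69) (nat_lit 5) (nat_lit 66) (nat_lit 5) (nat_lit 427) (nat_lit 347) (nat_lit 126))))) (XT.nd (nat_lit 234) (nat_lit 228) (nat_lit 0) (XT.nd (nat_lit 78) (nat_lit 152) (nat_lit 0) (XT.lf (nat_lit 0) (nat_lit 4251408219) (nat_lit 152) (nat_lit 28661298357) (nat_lit 228) (nat_lit 36981871649) (nat_lit 63) (nat_lit 5) (nat_lit 65) (nat_lit 5) (nat_lit 66) (nat_lit 5) (nat_lit 428) (nat_lit 347) (nat_lit 125)) (XT.nd (nat_lit 78) (nat_lit 152) (nat_lit 0) (XT.lf (nat_lit 0) (nat_lit 40722018636) (nat_lit 152) (nat_lit 8153672900) (nat_lit 228) (nat_lit 22488649563) (nat_lit 63) (nat_lit 5) (nat_lit 65) (nat_lit 5) (nat_lit 66) (nat_lit 5) (nat_lit 429) (nat_lit 347) (nat_lit 124)) (XT.lf (nat_lit 0) (nat_lit 5386019116) (nat_lit 152) (nat_lit 60106282293) (nat_lit 228) (nat_lit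 7380653709) (nat_lit 61) (nat_lit 5) (nat_lit 63) (nat_lit 5) (nat_lit 64) (nat_lit 5) (nat_lit 430) (nat_lit 347) (nat_lit 123)))) (XT.nd (nat_lit 40404) (nat_lit 0) (nat_lit 14744) (XT.nd (nat_lit 78) (nat_lit 152) (nat_lit 0) (XT.lf (nat_lit 0) (nat_lit 8412468284) (nat_lit 228) (nat_lit 31459595479) (nat_lit 76) (nat_lit 34540659428) (nat_lit 60) (nat_lit 5) (nat_lit 63) (nat_lit 5) (nat_lit 61) (nat_lit 5) (nat_lit 431) (nat_lit 347) (nat_lit 122)) (XT.lf (nat_lit 0) (nat_lit 5683512342) (nat_lit 152) (nat_lit 18900509162) (nat_lit 228) (nat_lit 51410881381) (nat_lit 58) (nat_lit 5) (nat_lit 60) (nat_lit 5) (nat_lit 61) (nat_lit 5) (nat_lit 432) (nat_lit 347) (nat_lit 121))) (XT.nd (nat_lit 78) (nat_lit 0) (nat_lit 0) (XT.lf (nat_lit 0) (nat_lit 3528840901) (nat_lit 0) (nat_lit 3528840901) (nat_lit 1140) (nat_lit 1435241645) (nat_lit 252) (nat_lit 5) (nat_lit 252) (nat_lit 3) (nat_lit 267) (nat_lit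 3) (nat_lit 348) (nat_lit 348) (nat_lit 204)) (XT.lf (nat_lit 0) (nat_lit 14560015722) (nat_lit 1140) (nat_lit 1813701536) (nat_lit 1216) (nat_lit 859808618) (nat_lit 252) (nat_lit 5) (nat_lit 267) (nat_lit 3) (nat_lit 268) (nat_lit 5) (nat_lit 349) (nat_lit 348) (nat_lit 203))))))))
noncomputable def xc209 : XT := (XT.nd (nat_lit 2106) (nat_lit 6080) (nat_lit 0) (XT.nd (nat_lit 1014) (nat_lit 3800) (nat_lit 0) (XT.nd (nat_lit 468) (nat_lit 0) (nat_lit 76) (XT.nd (nat_lit 234) (nat_lit 1064) (nat_lit 0) (XT.nd (nat_lit 78) (nat_lit 0) (nat_lit 0) (XT.lf (nat_lit 76) (nat_lit 6598385839) (nat_lit 0) (nat_lit 8544208131) (nat_lit 1216) (nat_lit 2342308384) (nat_lit 253) (nat_lit 5) (nat_lit 252) (nat_lit 5) (nat_lit 268) (nat_lit 5) (nat_lit 350) (nat_lit 348) (nat_lit 202)) (XT.nd (nat_lit 78) (nat_lit 0) (nat_lit 76) (XT.lf (nat_lit 76) (nat_lit 15295370599) (nat_lit 0) (nat_lit 457083916) (nat_lit 1216)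 (nat_lit 1991076050) (nat_lit 253) (nat_lit 5) (nat_lit 252) (nat_lit 5) (nat_lit 268) (nat_lit 5) (nat_lit 351) (nat_lit 348) (nat_lit 201)) (XT.lf (nat_lit 76) (nat_lit 6285526308) (nat_lit 0) (nat_lit 10222955717) (nat_lit 1216) (nat_lit 1497603918) (nat_lit 254) (nat_lit 5) (nat_lit 253) (nat_lit 5) (nat_lit 269) (nat_lit 5) (nat_lit 352) (nat_lit 348) (nat_lit 200)))) (XT.nd (nat_lit 78) (nat_lit 1140) (nat_lit 0) (XT.lf (nat_lit 76) (nat_lit 15322041977) (nat_lit 0) (nat_lit 1986319197) (nat_lit 1216) (nat_lit 967526008) (nat_lit 254) (nat_lit 5) (nat_lit 253) (nat_lit 5) (nat_lit 269) (nat_lit 5) (nat_lit 353) (nat_lit 348) (nat_lit 199)) (XT.nd (nat_lit 78) (nat_lit 1216) (nat_lit 0) (XT.lf (nat_lit 76) (nat_lit 6128114266) (nat_lit 0) (nat_lit 12117719307) (nat_lit 1216) (nat_lit 304545177) (nat_lit 255) (nat_lit 5) (nat_lit 254) (nat_lit 5) (nat_lit 270) (nat_lit 5) (nat_lit 354) (nat_lit 348)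 (nat_lit 198)) (XT.lf (nat_lit 0) (nat_lit 413065701) (nat_lit 1216) (nat_lit 3317714835) (nat_lit 1292) (nat_lit 15100955692) (nat_lit 238) (nat_lit 5) (nat_lit 254) (nat_lit 5) (nat_lit 255) (nat_lit 5) (nat_lit 355) (nat_lit 348) (nat_lit 197))))) (XT.nd (nat_lit 234) (nat_lit 0) (nat_lit 76) (XT.nd (nat_lit 78) (nat_lit 0) (nat_lit 0) (XT.lf (nat_lit 0) (nat_lit 1245793556) (nat_lit 1216) (nat_lit 12995149147) (nat_lit 1292) (nat_lit 4877513820) (nat_lit 239) (nat_lit 5) (nat_lit 255) (nat_lit 5) (nat_lit 256) (nat_lit 5) (nat_lit 356) (nat_lit 348) (nat_lit 196)) (XT.nd (nat_lit 78) (nat_lit 0) (nat_lit 76) (XT.lf (nat_lit 0) (nat_lit 2167026795) (nat_lit 1216) (nat_lit 3539515743) (nat_lit 1292) (nat_lit 13705333911) (nat_lit 239) (nat_lit 5) (nat_lit 255) (nat_lit 5) (nat_lit 256) (nat_lit 5) (nat_lit 357) (nat_lit 348) (nat_lit 195)) (XT.lf (nat_lit 0) (nat_lit 3199859557) (nat_lit 1216) (nat_lit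 13424576269) (nat_lit 1292) (nat_lit 3087147893) (nat_lit 240) (nat_lit 5) (nat_lit 256) (nat_lit 5) (nat_lit 257) (nat_lit 5) (nat_lit 358) (nat_lit 348) (nat_lit 194)))) (XT.nd (nat_lit 156) (nat_lit 0) (nat_lit 76) (XT.nd (nat_lit 78) (nat_lit 0) (nat_lit 76) (XT.lf (nat_lit 0) (nat_lit 4349413837) (nat_lit 1216) (nat_lit 3600258291) (nat_lit 1292) (nat_lit 12068041500) (nat_lit 240) (nat_lit 5) (nat_lit 256) (nat_lit 5) (nat_lit 257) (nat_lit 5) (nat_lit 359) (nat_lit 348) (nat_lit 193)) (XT.lf (nat_lit 0) (nat_lit 5600776554) (nat_lit 1216) (nat_lit 13697936677) (nat_lit 1292) (nat_lit 1032297961) (nat_lit 241) (nat_lit 5) (nat_lit 257) (nat_lit 5) (nat_lit 258) (nat_lit 5) (nat_lit 360) (nat_lit 348) (nat_lit 192))) (XT.nd (nat_lit 78) (nat_lit 0) (nat_lit 0) (XT.lf (nat_lit 0) (nat_lit 6998607908) (nat_lit 1216) (nat_lit 3489572711) (nat_lit 1292) (nat_lit 10162262546) (nat_lit 241) (nat_lit 5) (nat_lit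 257) (nat_lit 5) (nat_lit 258) (nat_lit 5) (nat_lit 361) (nat_lit 348) (nat_lit 191)) (XT.lf (nat_lit 76) (nat_lit 7159809053) (nat_lit 0) (nat_lit 1341081482) (nat_lit 1292) (nat_lit 12476695289) (nat_lit 242) (nat_lit 5) (nat_lit 241) (nat_lit 5) (nat_lit 258) (nat_lit 5) (nat_lit 362) (nat_lit 348) (nat_lit 190)))))) (XT.nd (nat_lit 546) (nat_lit 2356) (nat_lit 0) (XT.nd (nat_lit 234) (nat_lit 1748) (nat_lit 0) (XT.nd (nat_lit 78) (nat_lit 0) (nat_lit 0) (XT.lf (nat_lit 0) (nat_lit 10155343171) (nat_lit 1216) (nat_lit 3196402262) (nat_lit 1292) (nat_lit 7959587410) (nat_lit 242) (nat_lit 5) (nat_lit 258) (nat_lit 5) (nat_lit 259) (nat_lit 5) (nat_lit 363) (nat_lit 348) (nat_lit 189)) (XT.nd (nat_lit 78) (nat_lit 0) (nat_lit 76) (XT.lf (nat_lit 76) (nat_lit 7879135478) (nat_lit 0) (nat_lit 4063331160) (nat_lit 1292) (nat_lit 9710137548) (nat_lit 243) (nat_lit 5) (nat_lit 242) (nat_lit 5) (nat_lit 259)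 (nat_lit 5) (nat_lit 364) (nat_lit 348) (nat_lit 188)) (XT.lf (nat_lit 0) (nat_lit 13862862401) (nat_lit 1216) (nat_lit 2708997157) (nat_lit 76) (nat_lit 5429867299) (nat_lit 243) (nat_lit 5) (nat_lit 259) (nat_lit 5) (nat_lit 244) (nat_lit 5) (nat_lit 365) (nat_lit 348) (nat_lit 187)))) (XT.nd (nat_lit 156) (nat_lit 608) (nat_lit 0) (XT.nd (nat_lit 78) (nat_lit 0) (nat_lit 0) (XT.lf (nat_lit 0) (nat_lit 8814233801) (nat_lit 1216) (nat_lit 7145921590) (nat_lit 1292) (nat_lit 6397592114) (nat_lit 227) (nat_lit 5) (nat_lit 243) (nat_lit 5) (nat_lit 244) (nat_lit 5) (nat_lit 366) (nat_lit 348) (nat_lit 186)) (XT.lf (nat_lit 0) (nat_lit 18167079857) (nat_lit 1292) (nat_lit 2014909171) (nat_lit 76) (nat_lit 2541061140) (nat_lit 227) (nat_lit 5) (nat_lit 244) (nat_lit 5) (nat_lit 228) (nat_lit 5) (nat_lit 367) (nat_lit 348) (nat_lit 185))) (XT.nd (nat_lit 78) (nat_lit 0) (nat_lit 0) (XT.lf (nat_lit 0) (nat_lit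 9978599295) (nat_lit 608) (nat_lit 10622897607) (nat_lit 684) (nat_lit 2492979158) (nat_lit 219) (nat_lit 5) (nat_lit 227) (nat_lit 5) (nat_lit 228) (nat_lit 5) (nat_lit 368) (nat_lit 348) (nat_lit 184)) (XT.lf (nat_lit 0) (nat_lit 22368344007) (nat_lit 608) (nat_lit 755671903) (nat_lit 684) (nat_lit 352579352) (nat_lit 219) (nat_lit 5) (nat_lit 227) (nat_lit 5) (nat_lit 228) (nat_lit 5) (nat_lit 369) (nat_lit 348) (nat_lit 183))))) (XT.nd (nat_lit 234) (nat_lit 1064) (nat_lit 0) (XT.nd (nat_lit 78) (nat_lit 608) (nat_lit 0) (XT.lf (nat_lit 0) (nat_lit 2012583858) (nat_lit 684) (nat_lit 12497596826) (nat_lit 76) (nat_lit 9353564998) (nat_lit 210) (nat_lit 5) (nat_lit 219) (nat_lit 5) (nat_lit 211) (nat_lit 5) (nat_lit 370) (nat_lit 348) (nat_lit 182)) (XT.nd (nat_lit 78) (nat_lit 608) (nat_lit 0) (XT.lf (nat_lit 0) (nat_lit 4455330109) (nat_lit 684) (nat_lit 40705534) (nat_lit 76) (nat_lit 19765961202)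 (nat_lit 210) (nat_lit 5) (nat_lit 219) (nat_lit 5) (nat_lit 211) (nat_lit 5) (nat_lit 371) (nat_lit 348) (nat_lit 181)) (XT.lf (nat_lit 0) (nat_lit 7148954674) (nat_lit 684) (nat_lit 11686219853) (nat_lit 76) (nat_lit 5831695461) (nat_lit 202) (nat_lit 5) (nat_lit 211) (nat_lit 5) (nat_lit 203) (nat_lit 5) (nat_lit 372) (nat_lit 348) (nat_lit 180)))) (XT.nd (nat_lit 156) (nat_lit 532) (nat_lit 0) (XT.nd (nat_lit 78) (nat_lit 0) (nat_lit 0) (XT.lf (nat_lit 0) (nat_lit 1285262122) (nat_lit 532) (nat_lit 8690587620) (nat_lit 608) (nat_lit 15106467987) (nat_lit 195) (nat_lit 5) (nat_lit 202) (nat_lit 5) (nat_lit 203) (nat_lit 5) (nat_lit 373) (nat_lit 348) (nat_lit 179)) (XT.lf (nat_lit 0) (nat_lit 13018899512) (nat_lit 608) (nat_lit 10644312072) (nat_lit 76) (nat_lit 1843079074) (nat_lit 195) (nat_lit 5) (nat_lit 203) (nat_lit 5) (nat_lit 196) (nat_lit 5) (nat_lit 374) (nat_lit 348) (nat_lit 178))) (XT.nd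 (nat_lit 78) (nat_lit 0) (nat_lit 0) (XT.lf (nat_lit 0) (nat_lit 2868083128) (nat_lit 532) (nat_lit 13394179962) (nat_lit 608) (nat_lit 9677451143) (nat_lit 188) (nat_lit 5) (nat_lit 195) (nat_lit 5) (nat_lit 196) (nat_lit 5) (nat_lit 375) (nat_lit 348) (nat_lit 177)) (XT.lf (nat_lit 0) (nat_lit 16999243861) (nat_lit 532) (nat_lit 2706665110) (nat_lit 608) (nat_lit 6677144168) (nat_lit 188) (nat_lit 5) (nat_lit 195) (nat_lit 5) (nat_lit 196) (nat_lit 5) (nat_lit 376) (nat_lit 348) (nat_lit 176))))))) (XT.nd (nat_lit 1014) (nat_lit 2812) (nat_lit 0) (XT.nd (nat_lit 468) (nat_lit 1748) (nat_lit 0) (XT.nd (nat_lit 234) (nat_lit 456) (nat_lit 0) (XT.nd (nat_lit 78) (nat_lit 608) (nat_lit 0) (XT.lf (nat_lit 0) (nat_lit 4722200698) (nat_lit 456) (nat_lit 18651478217) (nat_lit 532) (nat_lit 3462390861) (nat_lit 182) (nat_lit 5) (nat_lit 188) (nat_lit 5) (nat_lit 189) (nat_lit 5) (nat_lit 377) (nat_lit 348) (nat_lit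 175)) (XT.nd (nat_lit 78) (nat_lit 608) (nat_lit 0) (XT.lf (nat_lit 0) (nat_lit 19411670072) (nat_lit 456) (nat_lit 7856810880) (nat_lit 532) (nat_lit 30687936) (nat_lit 182) (nat_lit 5) (nat_lit 188) (nat_lit 5) (nat_lit 189) (nat_lit 5) (nat_lit 378) (nat_lit 348) (nat_lit 174)) (XT.lf (nat_lit 0) (nat_lit 3529667082) (nat_lit 608) (nat_lit 20944464136) (nat_lit 76) (nat_lit 3298198845) (nat_lit 174) (nat_lit 5) (nat_lit 182) (nat_lit 5) (nat_lit 175) (nat_lit 5) (nat_lit 379) (nat_lit 348) (nat_lit 173)))) (XT.nd (nat_lit 78) (nat_lit 456) (nat_lit 0) (XT.lf (nat_lit 0) (nat_lit 7350303055) (nat_lit 608) (nat_lit 6194571701) (nat_lit 76) (nat_lit 14710181368) (nat_lit 174) (nat_lit 5) (nat_lit 182) (nat_lit 5) (nat_lit 175) (nat_lit 5) (nat_lit 380) (nat_lit 348) (nat_lit 172)) (XT.nd (nat_lit 78) (nat_lit 0) (nat_lit 0) (XT.lf (nat_lit 0) (nat_lit 9172168442) (nat_lit 456) (nat_lit 2197538765) (nat_lit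 532) (nat_lit 17380034016) (nat_lit 168) (nat_lit 5) (nat_lit 174) (nat_lit 5) (nat_lit 175) (nat_lit 5) (nat_lit 381) (nat_lit 348) (nat_lit 171)) (XT.lf (nat_lit 0) (nat_lit 15660139075) (nat_lit 532) (nat_lit 4227041591) (nat_lit 76) (nat_lit 9367574522) (nat_lit 168) (nat_lit 5) (nat_lit 175) (nat_lit 5) (nat_lit 169) (nat_lit 5) (nat_lit 382) (nat_lit 348) (nat_lit 170))))) (XT.nd (nat_lit 234) (nat_lit 912) (nat_lit 0) (XT.nd (nat_lit 78) (nat_lit 380) (nat_lit 0) (XT.lf (nat_lit 0) (nat_lit 11787705570) (nat_lit 456) (nat_lit 8422809348) (nat_lit 532) (nat_lit 9560469353) (nat_lit 162) (nat_lit 5) (nat_lit 168) (nat_lit 5) (nat_lit 169) (nat_lit 5) (nat_lit 383) (nat_lit 348) (nat_lit 169)) (XT.nd (nat_lit 78) (nat_lit 380) (nat_lit 0) (XT.lf (nat_lit 0) (nat_lit 24969276636) (nat_lit 532) (nat_lit 1969465851) (nat_lit 76) (nat_lit 3361803085) (nat_lit 162) (nat_lit 5) (nat_lit 169) (nat_lit 5) (nat_lit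 163) (nat_lit 5) (nat_lit 384) (nat_lit 348) (nat_lit 168)) (XT.lf (nat_lit 0) (nat_lit 14724198633) (nat_lit 380) (nat_lit 15367868430) (nat_lit 456) (nat_lit 747290209) (nat_lit 157) (nat_lit 5) (nat_lit 162) (nat_lit 5) (nat_lit 163) (nat_lit 5) (nat_lit 385) (nat_lit 348) (nat_lit 167)))) (XT.nd (nat_lit 156) (nat_lit 380) (nat_lit 0) (XT.nd (nat_lit 78) (nat_lit 0) (nat_lit 0) (XT.lf (nat_lit 0) (nat_lit 532785006) (nat_lit 456) (nat_lit 3385438485) (nat_lit 532) (nat_lit 27474318205) (nat_lit 150) (nat_lit 5) (nat_lit 156) (nat_lit 5) (nat_lit 157) (nat_lit 5) (nat_lit 386) (nat_lit 348) (nat_lit 166)) (XT.lf (nat_lit 0) (nat_lit 8955535469) (nat_lit 532) (nat_lit 14046609253) (nat_lit 76) (nat_lit 8952550789) (nat_lit 150) (nat_lit 5) (nat_lit 157) (nat_lit 5) (nat_lit 151) (nat_lit 5) (nat_lit 387) (nat_lit 348) (nat_lit 165))) (XT.nd (nat_lit 78) (nat_lit 0) (nat_lit 0) (XT.lf (nat_lit 0) (nat_lit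 3297312824) (nat_lit 380) (nat_lit 10908388318) (nat_lit 456) (nat_lit 18326162132) (nat_lit 145) (nat_lit 5) (nat_lit 150) (nat_lit 5) (nat_lit 151) (nat_lit 5) (nat_lit 388) (nat_lit 348) (nat_lit 164)) (XT.lf (nat_lit 0) (nat_lit 19768070492) (nat_lit 456) (nat_lit 11693376994) (nat_lit 76) (nat_lit 1660258951) (nat_lit 145) (nat_lit 5) (nat_lit 151) (nat_lit 5) (nat_lit 146) (nat_lit 5) (nat_lit 389) (nat_lit 348) (nat_lit 163)))))) (XT.nd (nat_lit 546) (nat_lit 1368) (nat_lit 0) (XT.nd (nat_lit 234) (nat_lit 684) (nat_lit 0) (XT.nd (nat_lit 78) (nat_lit 380) (nat_lit 0) (XT.lf (nat_lit 0) (nat_lit 6386284069) (nat_lit 380) (nat_lit 19277088540) (nat_lit 456) (nat_lit 8060891720) (nat_lit 140) (nat_lit 5) (nat_lit 145) (nat_lit 5) (nat_lit 146) (nat_lit 5) (nat_lit 390) (nat_lit 348) (nat_lit 162)) (XT.nd (nat_lit 78) (nat_lit 380) (nat_lit 0) (XT.lf (nat_lit 0) (nat_lit 25243717347) (nat_lit 380) (nat_lit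 6606621087) (nat_lit 456) (nat_lit 2491117635) (nat_lit 140) (nat_lit 5) (nat_lit 145) (nat_lit 5) (nat_lit 146) (nat_lit 5) (nat_lit 391) (nat_lit 348) (nat_lit 161)) (XT.lf (nat_lit 0) (nat_lit 3337029372) (nat_lit 380) (nat_lit 25190276122) (nat_lit 76) (nat_lit 6444284763) (nat_lit 135) (nat_lit 5) (nat_lit 140) (nat_lit 5) (nat_lit 136) (nat_lit 5) (nat_lit 392) (nat_lit 348) (nat_lit 160)))) (XT.nd (nat_lit 156) (nat_lit 304) (nat_lit 0) (XT.nd (nat_lit 78) (nat_lit 380) (nat_lit 0) (XT.lf (nat_lit 0) (nat_lit 9444972855) (nat_lit 380) (nat_lit 6299928971) (nat_lit 76) (nat_lit 19870337219) (nat_lit 135) (nat_lit 5) (nat_lit 140) (nat_lit 5) (nat_lit 136) (nat_lit 5) (nat_lit 393) (nat_lit 348) (nat_lit 159)) (XT.lf (nat_lit 0) (nat_lit 13414719776) (nat_lit 380) (nat_lit 2447307742) (nat_lit 456) (nat_lit 20412394704) (nat_lit 130) (nat_lit 5) (nat_lit 135) (nat_lit 5) (nat_lit 136) (nat_lit 5) (nat_lit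 394) (nat_lit 348) (nat_lit 158))) (XT.nd (nat_lit 78) (nat_lit 304) (nat_lit 0) (XT.lf (nat_lit 0) (nat_lit 22640936533) (nat_lit 456) (nat_lit 3214504829) (nat_lit 76) (nat_lit 11092860327) (nat_lit 130) (nat_lit 5) (nat_lit 136) (nat_lit 5) (nat_lit 131) (nat_lit 5) (nat_lit 395) (nat_lit 348) (nat_lit 157)) (XT.lf (nat_lit 0) (nat_lit 17329890809) (nat_lit 304) (nat_lit 12481188372) (nat_lit 380) (nat_lit 7825683415) (nat_lit 126) (nat_lit 5) (nat_lit 130) (nat_lit 5) (nat_lit 131) (nat_lit 5) (nat_lit 396) (nat_lit 348) (nat_lit 156))))) (XT.nd (nat_lit 234) (nat_lit 684) (nat_lit 0) (XT.nd (nat_lit 78) (nat_lit 380) (nat_lit 0) (XT.lf (nat_lit 0) (nat_lit 198588653) (nat_lit 304) (nat_lit 37041955462) (nat_lit 380) (nat_lit 1104007692) (nat_lit 122) (nat_lit 5) (nat_lit 126) (nat_lit 5) (nat_lit 127) (nat_lit 5) (nat_lit 397) (nat_lit 348) (nat_lit 155)) (XT.nd (nat_lit 78) (nat_lit 304) (nat_lit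 0) (XT.lf (nat_lit 0) (nat_lit 6033530554) (nat_lit 380) (nat_lit 17517635012) (nat_lit 76) (nat_lit 15510898875) (nat_lit 121) (nat_lit 5) (nat_lit 126) (nat_lit 5) (nat_lit 122) (nat_lit 5) (nat_lit 398) (nat_lit 348) (nat_lit 154)) (XT.lf (nat_lit 0) (nat_lit 3788509857) (nat_lit 304) (nat_lit 9608099618) (nat_lit 380) (nat_lit 26403157868) (nat_lit 117) (nat_lit 5) (nat_lit 121) (nat_lit 5) (nat_lit 122) (nat_lit 5) (nat_lit 399) (nat_lit 348) (nat_lit 153)))) (XT.nd (nat_lit 156) (nat_lit 380) (nat_lit 0) (XT.nd (nat_lit 78) (nat_lit 304) (nat_lit 0) (XT.lf (nat_lit 0) (nat_lit 21202135551) (nat_lit 380) (nat_lit 14512866332) (nat_lit 76) (nat_lit 4837953708) (nat_lit 117) (nat_lit 5) (nat_lit 122) (nat_lit 5) (nat_lit 118) (nat_lit 5) (nat_lit 400) (nat_lit 348) (nat_lit 152)) (XT.lf (nat_lit 0) (nat_lit 7681292284) (nat_lit 304) (nat_lit 21726801493) (nat_lit 380) (nat_lit 11915658594) (nat_lit 113)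 (nat_lit 5) (nat_lit 117) (nat_lit 5) (nat_lit 118) (nat_lit 5) (nat_lit 401) (nat_lit 348) (nat_lit 151))) (XT.nd (nat_lit 78) (nat_lit 380) (nat_lit 0) (XT.lf (nat_lit 0) (nat_lit 30834869608) (nat_lit 304) (nat_lit 7169253142) (nat_lit 380) (nat_lit 4109234396) (nat_lit 113) (nat_lit 5) (nat_lit 117) (nat_lit 5) (nat_lit 118) (nat_lit 5) (nat_lit 402) (nat_lit 348) (nat_lit 150)) (XT.lf (nat_lit 0) (nat_lit 4043627674) (nat_lit 380) (nat_lit 31050952529) (nat_lit 76) (nat_lit 7825268120) (nat_lit 108) (nat_lit 5) (nat_lit 113) (nat_lit 5) (nat_lit 109) (nat_lit 5) (nat_lit 403) (nat_lit 348) (nat_lit 149))))))))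
noncomputable def xc210 : XT := (XT.nd (nat_lit 2106) (nat_lit 228) (nat_lit 0) (XT.nd (nat_lit 1014) (nat_lit 1520) (nat_lit 0) (XT.nd (nat_lit 468) (nat_lit 988) (nat_lit 0) (XT.nd (nat_lit 234) (nat_lit 608) (nat_lit 0) (XT.nd (nat_lit 78) (nat_lit 304) (nat_lit 0) (XT.lf (nat_lit 0) (nat_lit 12541904080) (nat_lit 380) (nat_lit 7921887576) (nat_lit 76) (nat_lit 23280020192) (nat_lit 108) (nat_lit 5) (nat_lit 113) (nat_lit 5) (nat_lit 109) (nat_lit 5) (nat_lit 404) (nat_lit 348) (nat_lit 148)) (XT.nd (nat_lit 78) (nat_lit 0) (nat_lit 0) (XT.lf (nat_lit 0) (nat_lit 16213676551) (nat_lit 304) (nat_lit 5234802250) (nat_lit 380) (nat_lit 23139415734) (nat_lit 104) (nat_lit 5) (nat_lit 108) (nat_lit 5) (nat_lit 109) (nat_lit 5) (nat_lit 405) (nat_lit 348) (nat_lit 147)) (XT.lf (nat_lit 0) (nat_lit 30801019662) (nat_lit 380) (nat_lit 4324241162) (nat_lit 76) (nat_lit 10326676545) (nat_lit 104) (nat_lit 5) (nat_lit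 109) (nat_lit 5) (nat_lit 105) (nat_lit 5) (nat_lit 406) (nat_lit 348) (nat_lit 146)))) (XT.nd (nat_lit 78) (nat_lit 380) (nat_lit 0) (XT.lf (nat_lit 0) (nat_lit 20797565040) (nat_lit 228) (nat_lit 19885911981) (nat_lit 304) (nat_lit 5650944972) (nat_lit 101) (nat_lit 5) (nat_lit 104) (nat_lit 5) (nat_lit 105) (nat_lit 5) (nat_lit 407) (nat_lit 348) (nat_lit 145)) (XT.nd (nat_lit 78) (nat_lit 304) (nat_lit 0) (XT.lf (nat_lit 0) (nat_lit 3590108006) (nat_lit 304) (nat_lit 519311624) (nat_lit 76) (nat_lit 43131667509) (nat_lit 100) (nat_lit 5) (nat_lit 104) (nat_lit 5) (nat_lit 101) (nat_lit 5) (nat_lit 408) (nat_lit 348) (nat_lit 144)) (XT.lf (nat_lit 0) (nat_lit 13359127487) (nat_lit 380) (nat_lit 22595078620) (nat_lit 76) (nat_lit 12208138887) (nat_lit 96) (nat_lit 5) (nat_lit 101) (nat_lit 5) (nat_lit 97) (nat_lit 5) (nat_lit 409) (nat_lit 348) (nat_lit 143))))) (XT.nd (nat_lit 234) (nat_lit 532) (nat_lit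 0) (XT.nd (nat_lit 78) (nat_lit 228) (nat_lit 0) (XT.lf (nat_lit 0) (nat_lit 3357172257) (nat_lit 228) (nat_lit 20139993884) (nat_lit 304) (nat_lit 25611796618) (nat_lit 93) (nat_lit 5) (nat_lit 96) (nat_lit 5) (nat_lit 97) (nat_lit 5) (nat_lit 410) (nat_lit 348) (nat_lit 142)) (XT.nd (nat_lit 78) (nat_lit 228) (nat_lit 0) (XT.lf (nat_lit 0) (nat_lit 30547600094) (nat_lit 228) (nat_lit 3617638843) (nat_lit 304) (nat_lit 15911963945) (nat_lit 93) (nat_lit 5) (nat_lit 96) (nat_lit 5) (nat_lit 97) (nat_lit 5) (nat_lit 411) (nat_lit 348) (nat_lit 141)) (XT.lf (nat_lit 0) (nat_lit 7493137605) (nat_lit 228) (nat_lit 37858838766) (nat_lit 304) (nat_lit 5716555762) (nat_lit 90) (nat_lit 5) (nat_lit 93) (nat_lit 5) (nat_lit 94) (nat_lit 5) (nat_lit 412) (nat_lit 348) (nat_lit 140)))) (XT.nd (nat_lit 156) (nat_lit 228) (nat_lit 0) (XT.nd (nat_lit 78) (nat_lit 228) (nat_lit 0) (XT.lf (nat_lit 0) (nat_lit 4924119155)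 (nat_lit 304) (nat_lit 16444079801) (nat_lit 76) (nat_lit 30713039914) (nat_lit 89) (nat_lit 5) (nat_lit 93) (nat_lit 5) (nat_lit 90) (nat_lit 5) (nat_lit 413) (nat_lit 348) (nat_lit 139)) (XT.lf (nat_lit 0) (nat_lit 11668850487) (nat_lit 228) (nat_lit 4210289245) (nat_lit 304) (nat_lit 37240188961) (nat_lit 86) (nat_lit 5) (nat_lit 89) (nat_lit 5) (nat_lit 90) (nat_lit 5) (nat_lit 414) (nat_lit 348) (nat_lit 138))) (XT.nd (nat_lit 78) (nat_lit 228) (nat_lit 0) (XT.lf (nat_lit 0) (nat_lit 27457788408) (nat_lit 304) (nat_lit 13355819701) (nat_lit 76) (nat_lit 13366104308) (nat_lit 86) (nat_lit 5) (nat_lit 90) (nat_lit 5) (nat_lit 87) (nat_lit 5) (nat_lit 415) (nat_lit 348) (nat_lit 137)) (XT.lf (nat_lit 0) (nat_lit 15845858842) (nat_lit 228) (nat_lit 23729877814) (nat_lit 304) (nat_lit 15690413308) (nat_lit 83) (nat_lit 5) (nat_lit 86) (nat_lit 5) (nat_lit 87) (nat_lit 5) (nat_lit 416) (nat_lit 348) (nat_lit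 136)))))) (XT.nd (nat_lit 546) (nat_lit 836) (nat_lit 0) (XT.nd (nat_lit 234) (nat_lit 456) (nat_lit 0) (XT.nd (nat_lit 78) (nat_lit 228) (nat_lit 0) (XT.lf (nat_lit 0) (nat_lit 46194058264) (nat_lit 228) (nat_lit 5995995020) (nat_lit 304) (nat_lit 4191142954) (nat_lit 83) (nat_lit 5) (nat_lit 86) (nat_lit 5) (nat_lit 87) (nat_lit 5) (nat_lit 417) (nat_lit 348) (nat_lit 135)) (XT.nd (nat_lit 78) (nat_lit 0) (nat_lit 0) (XT.lf (nat_lit 0) (nat_lit 7816926535) (nat_lit 228) (nat_lit 37401131782) (nat_lit 76) (nat_lit 12300034244) (nat_lit 80) (nat_lit 5) (nat_lit 83) (nat_lit 5) (nat_lit 81) (nat_lit 5) (nat_lit 418) (nat_lit 348) (nat_lit 134)) (XT.lf (nat_lit 0) (nat_lit 20262272034) (nat_lit 228) (nat_lit 7252152259) (nat_lit 76) (nat_lit 31168588893) (nat_lit 80) (nat_lit 5) (nat_lit 83) (nat_lit 5) (nat_lit 81) (nat_lit 5) (nat_lit 419) (nat_lit 348) (nat_lit 133)))) (XT.nd (nat_lit 156) (nat_lit 228)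 (nat_lit 0) (XT.nd (nat_lit 78) (nat_lit 0) (nat_lit 0) (XT.lf (nat_lit 0) (nat_lit 24271751025) (nat_lit 228) (nat_lit 9040616380) (nat_lit 304) (nat_lit 26563572783) (nat_lit 77) (nat_lit 5) (nat_lit 80) (nat_lit 5) (nat_lit 81) (nat_lit 5) (nat_lit 420) (nat_lit 348) (nat_lit 132)) (XT.lf (nat_lit 0) (nat_lit 46922016773) (nat_lit 304) (nat_lit 4312343973) (nat_lit 76) (nat_lit 9865253151) (nat_lit 77) (nat_lit 5) (nat_lit 81) (nat_lit 5) (nat_lit 78) (nat_lit 5) (nat_lit 421) (nat_lit 348) (nat_lit 131))) (XT.nd (nat_lit 78) (nat_lit 76) (nat_lit 0) (XT.lf (nat_lit 0) (nat_lit 28379434147) (nat_lit 152) (nat_lit 32920977172) (nat_lit 228) (nat_lit 1048773246) (nat_lit 75) (nat_lit 5) (nat_lit 77) (nat_lit 5) (nat_lit 78) (nat_lit 5) (nat_lit 422) (nat_lit 348) (nat_lit 130)) (XT.lf (nat_lit 0) (nat_lit 12272631915) (nat_lit 228) (nat_lit 1618012790) (nat_lit 76) (nat_lit 49740737009) (nat_lit 74) (nat_lit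 5) (nat_lit 77) (nat_lit 5) (nat_lit 75) (nat_lit 5) (nat_lit 423) (nat_lit 348) (nat_lit 129))))) (XT.nd (nat_lit 234) (nat_lit 456) (nat_lit 0) (XT.nd (nat_lit 78) (nat_lit 152) (nat_lit 0) (XT.lf (nat_lit 0) (nat_lit 26339559983) (nat_lit 304) (nat_lit 32678936820) (nat_lit 76) (nat_lit 5922228037) (nat_lit 71) (nat_lit 5) (nat_lit 75) (nat_lit 5) (nat_lit 72) (nat_lit 5) (nat_lit 424) (nat_lit 348) (nat_lit 128)) (XT.nd (nat_lit 78) (nat_lit 0) (nat_lit 0) (XT.lf (nat_lit 0) (nat_lit 776731170) (nat_lit 152) (nat_lit 40211478882) (nat_lit 228) (nat_lit 25296347156) (nat_lit 69) (nat_lit 5) (nat_lit 71) (nat_lit 5) (nat_lit 72) (nat_lit 5) (nat_lit 425) (nat_lit 348) (nat_lit 127)) (XT.lf (nat_lit 0) (nat_lit 35902959847) (nat_lit 152) (nat_lit 20501592209) (nat_lit 228) (nat_lit 11254305879) (nat_lit 69) (nat_lit 5) (nat_lit 71) (nat_lit 5) (nat_lit 72) (nat_lit 5) (nat_lit 426) (nat_lit 348) (nat_lit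 126)))) (XT.nd (nat_lit 156) (nat_lit 152) (nat_lit 0) (XT.nd (nat_lit 78) (nat_lit 0) (nat_lit 0) (XT.lf (nat_lit 0) (nat_lit 3034002192) (nat_lit 228) (nat_lit 139813305) (nat_lit 304) (nat_lit 65898823983) (nat_lit 65) (nat_lit 5) (nat_lit 68) (nat_lit 5) (nat_lit 69) (nat_lit 5) (nat_lit 427) (nat_lit 348) (nat_lit 125)) (XT.lf (nat_lit 0) (nat_lit 18330969104) (nat_lit 304) (nat_lit 31318465551) (nat_lit 76) (nat_lit 20860385615) (nat_lit 65) (nat_lit 5) (nat_lit 69) (nat_lit 5) (nat_lit 66) (nat_lit 5) (nat_lit 428) (nat_lit 348) (nat_lit 124))) (XT.nd (nat_lit 78) (nat_lit 0) (nat_lit 0) (XT.lf (nat_lit 0) (nat_lit 4527405104) (nat_lit 152) (nat_lit 29458670587) (nat_lit 228) (nat_lit 38002743960) (nat_lit 63) (nat_lit 5) (nat_lit 65) (nat_lit 5) (nat_lit 66) (nat_lit 5) (nat_lit 429) (nat_lit 348) (nat_lit 123)) (XT.lf (nat_lit 0) (nat_lit 42087809912) (nat_lit 152) (nat_lit 8337635786) (nat_lit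 228) (nat_lit 23077305323) (nat_lit 63) (nat_lit 5) (nat_lit 65) (nat_lit 5) (nat_lit 66) (nat_lit 5) (nat_lit 430) (nat_lit 348) (nat_lit 122))))))) (XT.nd (nat_lit 41340) (nat_lit 0) (nat_lit 10792) (XT.nd (nat_lit 40794) (nat_lit 0) (nat_lit 13528) (XT.nd (nat_lit 40560) (nat_lit 0) (nat_lit 14592) (XT.nd (nat_lit 78) (nat_lit 76) (nat_lit 0) (XT.lf (nat_lit 0) (nat_lit 5692235698) (nat_lit 152) (nat_lit 61847842942) (nat_lit 228) (nat_lit 7516559539) (nat_lit 61) (nat_lit 5) (nat_lit 63) (nat_lit 5) (nat_lit 64) (nat_lit 5) (nat_lit 431) (nat_lit 348) (nat_lit 121)) (XT.nd (nat_lit 40404) (nat_lit 0) (nat_lit 14592) (XT.lf (nat_lit 0) (nat_lit 8746245342) (nat_lit 228) (nat_lit 32261325489) (nat_lit 76) (nat_lit 35635077499) (nat_lit 60) (nat_lit 5) (nat_lit 63) (nat_lit 5) (nat_lit 61) (nat_lit 5) (nat_lit 432) (nat_lit 348) (nat_lit 120)) (XT.lf (nat_lit 0) (nat_lit 3745873233) (nat_lit 0) (nat_lit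 3745873233) (nat_lit 1140) (nat_lit 1249174748) (nat_lit 252) (nat_lit 5) (nat_lit 252) (nat_lit 3) (nat_lit 267) (nat_lit 3) (nat_lit 349) (nat_lit 349) (nat_lit 202)))) (XT.nd (nat_lit 78) (nat_lit 0) (nat_lit 0) (XT.lf (nat_lit 0) (nat_lit 15426458146) (nat_lit 1140) (nat_lit 1636994821) (nat_lit 1216) (nat_lit 673956594) (nat_lit 252) (nat_lit 5) (nat_lit 267) (nat_lit 3) (nat_lit 268) (nat_lit 5) (nat_lit 350) (nat_lit 349) (nat_lit 201)) (XT.nd (nat_lit 78) (nat_lit 0) (nat_lit 0) (XT.lf (nat_lit 76) (nat_lit 7025189315) (nat_lit 0) (nat_lit 8991010447) (nat_lit 1216) (nat_lit 1980443772) (nat_lit 253) (nat_lit 5) (nat_lit 252) (nat_lit 5) (nat_lit 268) (nat_lit 5) (nat_lit 351) (nat_lit 349) (nat_lit 200)) (XT.lf (nat_lit 76) (nat_lit 15976418029) (nat_lit 0) (nat_lit 655724660) (nat_lit 1216) (nat_lit 1631260891) (nat_lit 253) (nat_lit 5) (nat_lit 252) (nat_lit 5) (nat_lit 268) (nat_lit 5) (nat_lit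 352) (nat_lit 349) (nat_lit 199))))) (XT.nd (nat_lit 234) (nat_lit 0) (nat_lit 0) (XT.nd (nat_lit 78) (nat_lit 1140) (nat_lit 0) (XT.lf (nat_lit 76) (nat_lit 6708171340) (nat_lit 0) (nat_lit 10691346224) (nat_lit 1216) (nat_lit 1134664451) (nat_lit 254) (nat_lit 5) (nat_lit 253) (nat_lit 5) (nat_lit 269) (nat_lit 5) (nat_lit 353) (nat_lit 349) (nat_lit 198)) (XT.nd (nat_lit 78) (nat_lit 1140) (nat_lit 0) (XT.lf (nat_lit 76) (nat_lit 16008964636) (nat_lit 0) (nat_lit 2202900847) (nat_lit 1216) (nat_lit 600563842) (nat_lit 254) (nat_lit 5) (nat_lit 253) (nat_lit 5) (nat_lit 269) (nat_lit 5) (nat_lit 354) (nat_lit 349) (nat_lit 197)) (XT.lf (nat_lit 0) (nat_lit 70223977) (nat_lit 1216) (nat_lit 12546056391) (nat_lit 1292) (nat_lit 6479171676) (nat_lit 238) (nat_lit 5) (nat_lit 254) (nat_lit 5) (nat_lit 255) (nat_lit 5) (nat_lit 355) (nat_lit 349) (nat_lit 196)))) (XT.nd (nat_lit 156) (nat_lit 0) (nat_lit 76)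 (XT.nd (nat_lit 78) (nat_lit 0) (nat_lit 76) (XT.lf (nat_lit 0) (nat_lit 792238695) (nat_lit 1216) (nat_lit 3178546543) (nat_lit 1292) (nat_lit 15414710332) (nat_lit 238) (nat_lit 5) (nat_lit 254) (nat_lit 5) (nat_lit 255) (nat_lit 5) (nat_lit 356) (nat_lit 349) (nat_lit 195)) (XT.lf (nat_lit 0) (nat_lit 1640364635) (nat_lit 1216) (nat_lit 13136536334) (nat_lit 1292) (nat_lit 4904209531) (nat_lit 239) (nat_lit 5) (nat_lit 255) (nat_lit 5) (nat_lit 256) (nat_lit 5) (nat_lit 357) (nat_lit 349) (nat_lit 194))) (XT.nd (nat_lit 78) (nat_lit 0) (nat_lit 76) (XT.lf (nat_lit 0) (nat_lit 2578831068) (nat_lit 1216) (nat_lit 3404470839) (nat_lit 1292) (nat_lit 14000348585) (nat_lit 239) (nat_lit 5) (nat_lit 255) (nat_lit 5) (nat_lit 256) (nat_lit 5) (nat_lit 358) (nat_lit 349) (nat_lit 193)) (XT.lf (nat_lit 0) (nat_lit 3633881704) (nat_lit 1216) (nat_lit 13577142824) (nat_lit 1292) (nat_lit 3081592663) (nat_lit 240)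 (nat_lit 5) (nat_lit 256) (nat_lit 5) (nat_lit 257) (nat_lit 5) (nat_lit 359) (nat_lit 349) (nat_lit 192)))))) (XT.nd (nat_lit 546) (nat_lit 2888) (nat_lit 0) (XT.nd (nat_lit 234) (nat_lit 0) (nat_lit 76) (XT.nd (nat_lit 78) (nat_lit 0) (nat_lit 76) (XT.lf (nat_lit 0) (nat_lit 4808077185) (nat_lit 1216) (nat_lit 3465381832) (nat_lit 1292) (nat_lit 12334772389) (nat_lit 240) (nat_lit 5) (nat_lit 256) (nat_lit 5) (nat_lit 257) (nat_lit 5) (nat_lit 360) (nat_lit 349) (nat_lit 191)) (XT.nd (nat_lit 78) (nat_lit 0) (nat_lit 0) (XT.lf (nat_lit 0) (nat_lit 6088960824) (nat_lit 1216) (nat_lit 13857807306) (nat_lit 1292) (nat_lit 984405265) (nat_lit 241) (nat_lit 5) (nat_lit 257) (nat_lit 5) (nat_lit 258) (nat_lit 5) (nat_lit 361) (nat_lit 349) (nat_lit 190)) (XT.lf (nat_lit 0) (nat_lit 7519402042) (nat_lit 1216) (nat_lit 3350505066) (nat_lit 1292) (nat_lit 10390565728) (nat_lit 241) (nat_lit 5) (nat_lit 257) (nat_lit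 5) (nat_lit 258) (nat_lit 5) (nat_lit 362) (nat_lit 349) (nat_lit 189)))) (XT.nd (nat_lit 156) (nat_lit 0) (nat_lit 76) (XT.nd (nat_lit 78) (nat_lit 0) (nat_lit 76) (XT.lf (nat_lit 76) (nat_lit 7615968398) (nat_lit 0) (nat_lit 1444051426) (nat_lit 1292) (nat_lit 12537616569) (nat_lit 242) (nat_lit 5) (nat_lit 241) (nat_lit 5) (nat_lit 258) (nat_lit 5) (nat_lit 363) (nat_lit 349) (nat_lit 188)) (XT.lf (nat_lit 0) (nat_lit 10754663176) (nat_lit 1216) (nat_lit 3048366998) (nat_lit 1292) (nat_lit 8138653416) (nat_lit 242) (nat_lit 5) (nat_lit 258) (nat_lit 5) (nat_lit 259) (nat_lit 5) (nat_lit 364) (nat_lit 349) (nat_lit 187))) (XT.nd (nat_lit 78) (nat_lit 0) (nat_lit 76) (XT.lf (nat_lit 76) (nat_lit 8357045429) (nat_lit 0) (nat_lit 4232094387) (nat_lit 1292) (nat_lit 9704245426) (nat_lit 243) (nat_lit 5) (nat_lit 242) (nat_lit 5) (nat_lit 259) (nat_lit 5) (nat_lit 365) (nat_lit 349) (nat_lit 186)) (XT.lf (nat_lit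 0) (nat_lit 14558310118) (nat_lit 1216) (nat_lit 2546788009) (nat_lit 76) (nat_lit 5548152812) (nat_lit 243) (nat_lit 5) (nat_lit 259) (nat_lit 5) (nat_lit 244) (nat_lit 5) (nat_lit 366) (nat_lit 349) (nat_lit 185))))) (XT.nd (nat_lit 234) (nat_lit 1292) (nat_lit 0) (XT.nd (nat_lit 78) (nat_lit 608) (nat_lit 0) (XT.lf (nat_lit 0) (nat_lit 9319752828) (nat_lit 1216) (nat_lit 7392944015) (nat_lit 1292) (nat_lit 6307434218) (nat_lit 227) (nat_lit 5) (nat_lit 243) (nat_lit 5) (nat_lit 244) (nat_lit 5) (nat_lit 367) (nat_lit 349) (nat_lit 184)) (XT.nd (nat_lit 78) (nat_lit 608) (nat_lit 0) (XT.lf (nat_lit 0) (nat_lit 18977551466) (nat_lit 1292) (nat_lit 1832876172) (nat_lit 76) (nat_lit 2586217478) (nat_lit 227) (nat_lit 5) (nat_lit 244) (nat_lit 5) (nat_lit 228) (nat_lit 5) (nat_lit 368) (nat_lit 349) (nat_lit 183)) (XT.lf (nat_lit 0) (nat_lit 10518060291) (nat_lit 608) (nat_lit 10961516927) (nat_lit 684) (nat_lit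 2299803148) (nat_lit 219) (nat_lit 5) (nat_lit 227) (nat_lit 5) (nat_lit 228) (nat_lit 5) (nat_lit 369) (nat_lit 349) (nat_lit 182)))) (XT.nd (nat_lit 156) (nat_lit 608) (nat_lit 0) (XT.nd (nat_lit 78) (nat_lit 684) (nat_lit 0) (XT.lf (nat_lit 0) (nat_lit 23272504053) (nat_lit 608) (nat_lit 797693896) (nat_lit 684) (nat_lit 102996165) (nat_lit 219) (nat_lit 5) (nat_lit 227) (nat_lit 5) (nat_lit 228) (nat_lit 5) (nat_lit 370) (nat_lit 349) (nat_lit 181)) (XT.lf (nat_lit 0) (nat_lit 2322749841) (nat_lit 684) (nat_lit 12628803418) (nat_lit 76) (nat_lit 9620493167) (nat_lit 210) (nat_lit 5) (nat_lit 219) (nat_lit 5) (nat_lit 211) (nat_lit 5) (nat_lit 371) (nat_lit 349) (nat_lit 180))) (XT.nd (nat_lit 78) (nat_lit 0) (nat_lit 0) (XT.lf (nat_lit 0) (nat_lit 198570765) (nat_lit 608) (nat_lit 4634841105) (nat_lit 684) (nat_lit 20148997686) (nat_lit 202) (nat_lit 5) (nat_lit 210) (nat_lit 5) (nat_lit 211) (nat_lit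 5) (nat_lit 372) (nat_lit 349) (nat_lit 179)) (XT.lf (nat_lit 0) (nat_lit 7601092489) (nat_lit 684) (nat_lit 11795228713) (nat_lit 76) (nat_lit 6003313608) (nat_lit 202) (nat_lit 5) (nat_lit 211) (nat_lit 5) (nat_lit 203) (nat_lit 5) (nat_lit 373) (nat_lit 349) (nat_lit 178))))))))
noncomputable def xc211 : XT := (XT.nd (nat_lit 2106) (nat_lit 3648) (nat_lit 0) (XT.nd (nat_lit 1014) (nat_lit 3040) (nat_lit 0) (XT.nd (nat_lit 468) (nat_lit 1824) (nat_lit 0) (XT.nd (nat_lit 234) (nat_lit 532) (nat_lit 0) (XT.nd (nat_lit 78) (nat_lit 532) (nat_lit 0) (XT.lf (nat_lit 0) (nat_lit 1563029312) (nat_lit 532) (nat_lit 8945142120) (nat_lit 608) (nat_lit 15319516479) (nat_lit 195) (nat_lit 5) (nat_lit 202) (nat_lit 5) (nat_lit 203) (nat_lit 5) (nat_lit 374) (nat_lit 349) (nat_lit 177)) (XT.nd (nat_lit 78) (nat_lit 532) (nat_lit 0) (XT.lf (nat_lit 0) (nat_lit 13635782461) (nat_lit 608) (nat_lit 10724564315) (nat_lit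 76) (nat_lit 1904238305) (nat_lit 195) (nat_lit 5) (nat_lit 203) (nat_lit 5) (nat_lit 196) (nat_lit 5) (nat_lit 375) (nat_lit 349) (nat_lit 176)) (XT.lf (nat_lit 0) (nat_lit 3190858847) (nat_lit 532) (nat_lit 13781271996) (nat_lit 608) (nat_lit 9739013056) (nat_lit 188) (nat_lit 5) (nat_lit 195) (nat_lit 5) (nat_lit 196) (nat_lit 5) (nat_lit 376) (nat_lit 349) (nat_lit 175)))) (XT.nd (nat_lit 78) (nat_lit 532) (nat_lit 0) (XT.lf (nat_lit 0) (nat_lit 17739059259) (nat_lit 532) (nat_lit 2773560826) (nat_lit 608) (nat_lit 6655359830) (nat_lit 188) (nat_lit 5) (nat_lit 195) (nat_lit 5) (nat_lit 196) (nat_lit 5) (nat_lit 377) (nat_lit 349) (nat_lit 174)) (XT.nd (nat_lit 78) (nat_lit 76) (nat_lit 0) (XT.lf (nat_lit 0) (nat_lit 5097815791) (nat_lit 456) (nat_lit 19188712010) (nat_lit 532) (nat_lit 3348178989) (nat_lit 182) (nat_lit 5) (nat_lit 188) (nat_lit 5) (nat_lit 189) (nat_lit 5) (nat_lit 378) (nat_lit 349)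 (nat_lit 173)) (XT.lf (nat_lit 0) (nat_lit 176608223) (nat_lit 532) (nat_lit 7892462855) (nat_lit 76) (nat_lit 20042763575) (nat_lit 181) (nat_lit 5) (nat_lit 188) (nat_lit 5) (nat_lit 182) (nat_lit 5) (nat_lit 379) (nat_lit 349) (nat_lit 172))))) (XT.nd (nat_lit 234) (nat_lit 836) (nat_lit 0) (XT.nd (nat_lit 78) (nat_lit 456) (nat_lit 0) (XT.lf (nat_lit 0) (nat_lit 3839556155) (nat_lit 608) (nat_lit 21337752250) (nat_lit 76) (nat_lit 3421983802) (nat_lit 174) (nat_lit 5) (nat_lit 182) (nat_lit 5) (nat_lit 175) (nat_lit 5) (nat_lit 380) (nat_lit 349) (nat_lit 171)) (XT.nd (nat_lit 78) (nat_lit 456) (nat_lit 0) (XT.lf (nat_lit 0) (nat_lit 7768869488) (nat_lit 608) (nat_lit 6152209037) (nat_lit 76) (nat_lit 15175602336) (nat_lit 174) (nat_lit 5) (nat_lit 182) (nat_lit 5) (nat_lit 175) (nat_lit 5) (nat_lit 381) (nat_lit 349) (nat_lit 170)) (XT.lf (nat_lit 0) (nat_lit 9673296057) (nat_lit 456) (nat_lit 2231963138)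 (nat_lit 532) (nat_lit 17701057698) (nat_lit 168) (nat_lit 5) (nat_lit 174) (nat_lit 5) (nat_lit 175) (nat_lit 5) (nat_lit 382) (nat_lit 349) (nat_lit 169)))) (XT.nd (nat_lit 156) (nat_lit 380) (nat_lit 0) (XT.nd (nat_lit 78) (nat_lit 456) (nat_lit 0) (XT.lf (nat_lit 0) (nat_lit 16319034107) (nat_lit 532) (nat_lit 4129021465) (nat_lit 76) (nat_lit 9678589211) (nat_lit 168) (nat_lit 5) (nat_lit 175) (nat_lit 5) (nat_lit 169) (nat_lit 5) (nat_lit 383) (nat_lit 349) (nat_lit 168)) (XT.lf (nat_lit 0) (nat_lit 12363963882) (nat_lit 456) (nat_lit 8638589870) (nat_lit 532) (nat_lit 9655910350) (nat_lit 162) (nat_lit 5) (nat_lit 168) (nat_lit 5) (nat_lit 169) (nat_lit 5) (nat_lit 384) (nat_lit 349) (nat_lit 167))) (XT.nd (nat_lit 78) (nat_lit 380) (nat_lit 0) (XT.lf (nat_lit 0) (nat_lit 25899013312) (nat_lit 532) (nat_lit 1807266234) (nat_lit 76) (nat_lit 3497786918) (nat_lit 162) (nat_lit 5) (nat_lit 169) (nat_lit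 5) (nat_lit 163) (nat_lit 5) (nat_lit 385) (nat_lit 349) (nat_lit 166)) (XT.lf (nat_lit 0) (nat_lit 15385038737) (nat_lit 380) (nat_lit 15787293080) (nat_lit 456) (nat_lit 586807573) (nat_lit 157) (nat_lit 5) (nat_lit 162) (nat_lit 5) (nat_lit 163) (nat_lit 5) (nat_lit 386) (nat_lit 349) (nat_lit 165)))))) (XT.nd (nat_lit 546) (nat_lit 1368) (nat_lit 0) (XT.nd (nat_lit 234) (nat_lit 760) (nat_lit 0) (XT.nd (nat_lit 78) (nat_lit 380) (nat_lit 0) (XT.lf (nat_lit 0) (nat_lit 769339273) (nat_lit 456) (nat_lit 3442660191) (nat_lit 532) (nat_lit 28116962307) (nat_lit 150) (nat_lit 5) (nat_lit 156) (nat_lit 5) (nat_lit 157) (nat_lit 5) (nat_lit 387) (nat_lit 349) (nat_lit 164)) (XT.nd (nat_lit 78) (nat_lit 380) (nat_lit 0) (XT.lf (nat_lit 0) (nat_lit 9395711732) (nat_lit 532) (nat_lit 14249074855) (nat_lit 76) (nat_lit 9263337203) (nat_lit 150) (nat_lit 5) (nat_lit 157) (nat_lit 5) (nat_lit 151) (nat_lit 5) (nat_lit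 388) (nat_lit 349) (nat_lit 163)) (XT.lf (nat_lit 0) (nat_lit 3613018486) (nat_lit 380) (nat_lit 11187452331) (nat_lit 456) (nat_lit 18702225078) (nat_lit 145) (nat_lit 5) (nat_lit 150) (nat_lit 5) (nat_lit 151) (nat_lit 5) (nat_lit 389) (nat_lit 349) (nat_lit 162)))) (XT.nd (nat_lit 156) (nat_lit 380) (nat_lit 0) (XT.nd (nat_lit 78) (nat_lit 380) (nat_lit 0) (XT.lf (nat_lit 0) (nat_lit 20525250324) (nat_lit 456) (nat_lit 11829181851) (nat_lit 76) (nat_lit 1755937907) (nat_lit 145) (nat_lit 5) (nat_lit 151) (nat_lit 5) (nat_lit 146) (nat_lit 5) (nat_lit 390) (nat_lit 349) (nat_lit 161)) (XT.lf (nat_lit 0) (nat_lit 6790761235) (nat_lit 380) (nat_lit 19803915975) (nat_lit 456) (nat_lit 8136411377) (nat_lit 140) (nat_lit 5) (nat_lit 145) (nat_lit 5) (nat_lit 146) (nat_lit 5) (nat_lit 391) (nat_lit 349) (nat_lit 160))) (XT.nd (nat_lit 78) (nat_lit 380) (nat_lit 0) (XT.lf (nat_lit 0) (nat_lit 26207716872) (nat_lit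 380) (nat_lit 6754834068) (nat_lit 456) (nat_lit 2404387965) (nat_lit 140) (nat_lit 5) (nat_lit 145) (nat_lit 5) (nat_lit 146) (nat_lit 5) (nat_lit 392) (nat_lit 349) (nat_lit 159)) (XT.lf (nat_lit 0) (nat_lit 3593340754) (nat_lit 380) (nat_lit 25733919323) (nat_lit 76) (nat_lit 6688735527) (nat_lit 135) (nat_lit 5) (nat_lit 140) (nat_lit 5) (nat_lit 136) (nat_lit 5) (nat_lit 393) (nat_lit 349) (nat_lit 158))))) (XT.nd (nat_lit 234) (nat_lit 988) (nat_lit 0) (XT.nd (nat_lit 78) (nat_lit 380) (nat_lit 0) (XT.lf (nat_lit 0) (nat_lit 9879973013) (nat_lit 380) (nat_lit 6283038410) (nat_lit 76) (nat_lit 20516080560) (nat_lit 135) (nat_lit 5) (nat_lit 140) (nat_lit 5) (nat_lit 136) (nat_lit 5) (nat_lit 394) (nat_lit 349) (nat_lit 157)) (XT.nd (nat_lit 78) (nat_lit 0) (nat_lit 0) (XT.lf (nat_lit 0) (nat_lit 14021031285) (nat_lit 380) (nat_lit 2466050734) (nat_lit 456) (nat_lit 20871043948) (nat_lit 130) (nat_lit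 5) (nat_lit 135) (nat_lit 5) (nat_lit 136) (nat_lit 5) (nat_lit 395) (nat_lit 349) (nat_lit 156)) (XT.lf (nat_lit 0) (nat_lit 23465523131) (nat_lit 456) (nat_lit 3109121279) (nat_lit 76) (nat_lit 11477694010) (nat_lit 130) (nat_lit 5) (nat_lit 136) (nat_lit 5) (nat_lit 131) (nat_lit 5) (nat_lit 396) (nat_lit 349) (nat_lit 155)))) (XT.nd (nat_lit 156) (nat_lit 380) (nat_lit 0) (XT.nd (nat_lit 78) (nat_lit 304) (nat_lit 0) (XT.lf (nat_lit 0) (nat_lit 18049627613) (nat_lit 304) (nat_lit 12798829688) (nat_lit 380) (nat_lit 7913066739) (nat_lit 126) (nat_lit 5) (nat_lit 130) (nat_lit 5) (nat_lit 131) (nat_lit 5) (nat_lit 397) (nat_lit 349) (nat_lit 154)) (XT.lf (nat_lit 0) (nat_lit 406185457) (nat_lit 304) (nat_lit 38092922664) (nat_lit 380) (nat_lit 991491205) (nat_lit 122) (nat_lit 5) (nat_lit 126) (nat_lit 5) (nat_lit 127) (nat_lit 5) (nat_lit 398) (nat_lit 349) (nat_lit 153))) (XT.nd (nat_lit 78) (nat_lit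 304) (nat_lit 0) (XT.lf (nat_lit 0) (nat_lit 6353172219) (nat_lit 380) (nat_lit 17844592966) (nat_lit 76) (nat_lit 16031956304) (nat_lit 121) (nat_lit 5) (nat_lit 126) (nat_lit 5) (nat_lit 122) (nat_lit 5) (nat_lit 399) (nat_lit 349) (nat_lit 152)) (XT.lf (nat_lit 0) (nat_lit 4098789474) (nat_lit 304) (nat_lit 9836206172) (nat_lit 380) (nat_lit 27054625602) (nat_lit 117) (nat_lit 5) (nat_lit 121) (nat_lit 5) (nat_lit 122) (nat_lit 5) (nat_lit 400) (nat_lit 349) (nat_lit 151))))))) (XT.nd (nat_lit 1014) (nat_lit 1596) (nat_lit 0) (XT.nd (nat_lit 468) (nat_lit 1064) (nat_lit 0) (XT.nd (nat_lit 234) (nat_lit 684) (nat_lit 0) (XT.nd (nat_lit 78) (nat_lit 304) (nat_lit 0) (XT.lf (nat_lit 0) (nat_lit 21971273360) (nat_lit 380) (nat_lit 14753897595) (nat_lit 76) (nat_lit 5040337908) (nat_lit 117) (nat_lit 5) (nat_lit 122) (nat_lit 5) (nat_lit 118) (nat_lit 5) (nat_lit 401) (nat_lit 349) (nat_lit 150)) (XT.nd (nat_lit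 78) (nat_lit 0) (nat_lit 0) (XT.lf (nat_lit 0) (nat_lit 8104180342) (nat_lit 304) (nat_lit 22317203998) (nat_lit 380) (nat_lit 12138107245) (nat_lit 113) (nat_lit 5) (nat_lit 117) (nat_lit 5) (nat_lit 118) (nat_lit 5) (nat_lit 402) (nat_lit 349) (nat_lit 149)) (XT.lf (nat_lit 0) (nat_lit 31946759666) (nat_lit 304) (nat_lit 7324717590) (nat_lit 380) (nat_lit 4101422975) (nat_lit 113) (nat_lit 5) (nat_lit 117) (nat_lit 5) (nat_lit 118) (nat_lit 5) (nat_lit 403) (nat_lit 349) (nat_lit 148)))) (XT.nd (nat_lit 78) (nat_lit 304) (nat_lit 0) (XT.lf (nat_lit 0) (nat_lit 4292112833) (nat_lit 380) (nat_lit 31791647121) (nat_lit 76) (nat_lit 8119830160) (nat_lit 108) (nat_lit 5) (nat_lit 113) (nat_lit 5) (nat_lit 109) (nat_lit 5) (nat_lit 404) (nat_lit 349) (nat_lit 147)) (XT.nd (nat_lit 78) (nat_lit 304) (nat_lit 0) (XT.lf (nat_lit 0) (nat_lit 13041633367) (nat_lit 380) (nat_lit 7974268492) (nat_lit 76) (nat_lit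 24036482930) (nat_lit 108) (nat_lit 5) (nat_lit 113) (nat_lit 5) (nat_lit 109) (nat_lit 5) (nat_lit 405) (nat_lit 349) (nat_lit 146)) (XT.lf (nat_lit 0) (nat_lit 16883546130) (nat_lit 304) (nat_lit 5330026445) (nat_lit 380) (nat_lit 23708273448) (nat_lit 104) (nat_lit 5) (nat_lit 108) (nat_lit 5) (nat_lit 109) (nat_lit 5) (nat_lit 406) (nat_lit 349) (nat_lit 145))))) (XT.nd (nat_lit 234) (nat_lit 760) (nat_lit 0) (XT.nd (nat_lit 78) (nat_lit 304) (nat_lit 0) (XT.lf (nat_lit 0) (nat_lit 31843723709) (nat_lit 380) (nat_lit 4272851523) (nat_lit 76) (nat_lit 10695324943) (nat_lit 104) (nat_lit 5) (nat_lit 109) (nat_lit 5) (nat_lit 105) (nat_lit 5) (nat_lit 407) (nat_lit 349) (nat_lit 144)) (XT.nd (nat_lit 78) (nat_lit 76) (nat_lit 0) (XT.lf (nat_lit 0) (nat_lit 21600833210) (nat_lit 228) (nat_lit 20420089007) (nat_lit 304) (nat_lit 5699990119) (nat_lit 101) (nat_lit 5) (nat_lit 104) (nat_lit 5) (nat_lit 105)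 (nat_lit 5) (nat_lit 408) (nat_lit 349) (nat_lit 143)) (XT.lf (nat_lit 0) (nat_lit 3812502646) (nat_lit 304) (nat_lit 358458568) (nat_lit 76) (nat_lit 44483885665) (nat_lit 100) (nat_lit 5) (nat_lit 104) (nat_lit 5) (nat_lit 101) (nat_lit 5) (nat_lit 409) (nat_lit 349) (nat_lit 142)))) (XT.nd (nat_lit 156) (nat_lit 228) (nat_lit 0) (XT.nd (nat_lit 78) (nat_lit 228) (nat_lit 0) (XT.lf (nat_lit 0) (nat_lit 13873524366) (nat_lit 380) (nat_lit 23095399033) (nat_lit 76) (nat_lit 12634852055) (nat_lit 96) (nat_lit 5) (nat_lit 101) (nat_lit 5) (nat_lit 97) (nat_lit 5) (nat_lit 410) (nat_lit 349) (nat_lit 141)) (XT.lf (nat_lit 0) (nat_lit 3633678861) (nat_lit 228) (nat_lit 20680405725) (nat_lit 304) (nat_lit 26264756664) (nat_lit 93) (nat_lit 5) (nat_lit 96) (nat_lit 5) (nat_lit 97) (nat_lit 5) (nat_lit 411) (nat_lit 349) (nat_lit 140))) (XT.nd (nat_lit 78) (nat_lit 228) (nat_lit 0) (XT.lf (nat_lit 0) (nat_lit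 31634699395) (nat_lit 228) (nat_lit 3664237935) (nat_lit 304) (nat_lit 16277289997) (nat_lit 93) (nat_lit 5) (nat_lit 96) (nat_lit 5) (nat_lit 97) (nat_lit 5) (nat_lit 412) (nat_lit 349) (nat_lit 139)) (XT.lf (nat_lit 0) (nat_lit 7889599681) (nat_lit 228) (nat_lit 38930738133) (nat_lit 304) (nat_lit 5776987669) (nat_lit 90) (nat_lit 5) (nat_lit 93) (nat_lit 5) (nat_lit 94) (nat_lit 5) (nat_lit 413) (nat_lit 349) (nat_lit 138)))))) (XT.nd (nat_lit 546) (nat_lit 836) (nat_lit 0) (XT.nd (nat_lit 234) (nat_lit 456) (nat_lit 0) (XT.nd (nat_lit 78) (nat_lit 228) (nat_lit 0) (XT.lf (nat_lit 0) (nat_lit 5177568451) (nat_lit 304) (nat_lit 16768603224) (nat_lit 76) (nat_lit 31694305679) (nat_lit 89) (nat_lit 5) (nat_lit 93) (nat_lit 5) (nat_lit 90) (nat_lit 5) (nat_lit 414) (nat_lit 349) (nat_lit 137)) (XT.nd (nat_lit 78) (nat_lit 0) (nat_lit 0) (XT.lf (nat_lit 0) (nat_lit 12186060080) (nat_lit 228) (nat_lit 4273706866)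 (nat_lit 304) (nat_lit 38249987891) (nat_lit 86) (nat_lit 5) (nat_lit 89) (nat_lit 5) (nat_lit 90) (nat_lit 5) (nat_lit 415) (nat_lit 349) (nat_lit 136)) (XT.lf (nat_lit 0) (nat_lit 28383325525) (nat_lit 304) (nat_lit 13591743565) (nat_lit 76) (nat_lit 13826955229) (nat_lit 86) (nat_lit 5) (nat_lit 90) (nat_lit 5) (nat_lit 87) (nat_lit 5) (nat_lit 416) (nat_lit 349) (nat_lit 135)))) (XT.nd (nat_lit 156) (nat_lit 228) (nat_lit 0) (XT.nd (nat_lit 78) (nat_lit 0) (nat_lit 0) (XT.lf (nat_lit 0) (nat_lit 16484370131) (nat_lit 228) (nat_lit 24379045099) (nat_lit 304) (nat_lit 16057682411) (nat_lit 83) (nat_lit 5) (nat_lit 86) (nat_lit 5) (nat_lit 87) (nat_lit 5) (nat_lit 417) (nat_lit 349) (nat_lit 134)) (XT.lf (nat_lit 0) (nat_lit 47738264016) (nat_lit 228) (nat_lit 6114972880) (nat_lit 304) (nat_lit 4216446858) (nat_lit 83) (nat_lit 5) (nat_lit 86) (nat_lit 5) (nat_lit 87) (nat_lit 5) (nat_lit 418) (nat_lit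 349) (nat_lit 133))) (XT.nd (nat_lit 78) (nat_lit 0) (nat_lit 0) (XT.lf (nat_lit 0) (nat_lit 8149156082) (nat_lit 228) (nat_lit 38362027348) (nat_lit 76) (nat_lit 12729497719) (nat_lit 80) (nat_lit 5) (nat_lit 83) (nat_lit 5) (nat_lit 81) (nat_lit 5) (nat_lit 419) (nat_lit 349) (nat_lit 132)) (XT.lf (nat_lit 0) (nat_lit 20965015681) (nat_lit 228) (nat_lit 7313271789) (nat_lit 76) (nat_lit 32162347965) (nat_lit 80) (nat_lit 5) (nat_lit 83) (nat_lit 5) (nat_lit 81) (nat_lit 5) (nat_lit 420) (nat_lit 349) (nat_lit 131))))) (XT.nd (nat_lit 234) (nat_lit 456) (nat_lit 0) (XT.nd (nat_lit 78) (nat_lit 152) (nat_lit 0) (XT.lf (nat_lit 0) (nat_lit 25154814819) (nat_lit 228) (nat_lit 9250524833) (nat_lit 304) (nat_lit 27264049462) (nat_lit 77) (nat_lit 5) (nat_lit 80) (nat_lit 5) (nat_lit 81) (nat_lit 5) (nat_lit 421) (nat_lit 349) (nat_lit 130)) (XT.nd (nat_lit 78) (nat_lit 152) (nat_lit 0) (XT.lf (nat_lit 0) (nat_lit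 48421124435) (nat_lit 304) (nat_lit 4289140318) (nat_lit 76) (nat_lit 10219573521) (nat_lit 77) (nat_lit 5) (nat_lit 81) (nat_lit 5) (nat_lit 78) (nat_lit 5) (nat_lit 422) (nat_lit 349) (nat_lit 129)) (XT.lf (nat_lit 0) (nat_lit 29381895322) (nat_lit 152) (nat_lit 33847764242) (nat_lit 228) (nat_lit 987273437) (nat_lit 75) (nat_lit 5) (nat_lit 77) (nat_lit 5) (nat_lit 78) (nat_lit 5) (nat_lit 423) (nat_lit 349) (nat_lit 128)))) (XT.nd (nat_lit 156) (nat_lit 152) (nat_lit 0) (XT.nd (nat_lit 78) (nat_lit 228) (nat_lit 0) (XT.lf (nat_lit 0) (nat_lit 12729305011) (nat_lit 228) (nat_lit 1518095276) (nat_lit 76) (nat_lit 51290249179) (nat_lit 74) (nat_lit 5) (nat_lit 77) (nat_lit 5) (nat_lit 75) (nat_lit 5) (nat_lit 424) (nat_lit 349) (nat_lit 127)) (XT.lf (nat_lit 0) (nat_lit 27217650110) (nat_lit 304) (nat_lit 33510237891) (nat_lit 76) (nat_lit 6158403160) (nat_lit 71) (nat_lit 5) (nat_lit 75) (nat_lit 5) (nat_lit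 72) (nat_lit 5) (nat_lit 425) (nat_lit 349) (nat_lit 126))) (XT.nd (nat_lit 78) (nat_lit 0) (nat_lit 0) (XT.lf (nat_lit 0) (nat_lit 947638698) (nat_lit 152) (nat_lit 41356979568) (nat_lit 228) (nat_lit 25965855010) (nat_lit 69) (nat_lit 5) (nat_lit 71) (nat_lit 5) (nat_lit 72) (nat_lit 5) (nat_lit 426) (nat_lit 349) (nat_lit 125)) (XT.lf (nat_lit 0) (nat_lit 37123355043) (nat_lit 152) (nat_lit 21057568440) (nat_lit 228) (nat_lit 11505155871) (nat_lit 69) (nat_lit 5) (nat_lit 71) (nat_lit 5) (nat_lit 72) (nat_lit 5) (nat_lit 427) (nat_lit 349) (nat_lit 124))))))))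
noncomputable def xc212 : XT := (XT.nd (nat_lit 42588) (nat_lit 0) (nat_lit 4484) (XT.nd (nat_lit 41496) (nat_lit 0) (nat_lit 11172) (XT.nd (nat_lit 40950) (nat_lit 0) (nat_lit 13300) (XT.nd (nat_lit 234) (nat_lit 0) (nat_lit 0) (XT.nd (nat_lit 78) (nat_lit 152) (nat_lit 0) (XT.lf (nat_lit 0) (nat_lit 3268617072) (nat_lit 228) (nat_lit 84400795) (nat_lit 304) (nat_lit 67789264880) (nat_lit 65) (nat_lit 5) (nat_lit 68) (nat_lit 5) (nat_lit 69) (nat_lit 5) (nat_lit 428) (nat_lit 349) (nat_lit 123)) (XT.nd (nat_lit 78) (nat_lit 152) (nat_lit 0) (XT.lf (nat_lit 0) (nat_lit 18962996121) (nat_lit 304) (nat_lit 32116701309) (nat_lit 76) (nat_lit 21542938702) (nat_lit 65) (nat_lit 5) (nat_lit 69) (nat_lit 5) (nat_lit 66) (nat_lit 5) (nat_lit 429) (nat_lit 349) (nat_lit 122)) (XT.lf (nat_lit 0) (nat_lit 4803159993) (nat_lit 152) (nat_lit 30283549830) (nat_lit 228) (nat_lit 39059327516) (nat_lit 63) (nat_lit 5) (nat_lit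 65) (nat_lit 5) (nat_lit 66) (nat_lit 5) (nat_lit 430) (nat_lit 349) (nat_lit 121)))) (XT.nd (nat_lit 40560) (nat_lit 0) (nat_lit 14364) (XT.lf (nat_lit 0) (nat_lit 43486301234) (nat_lit 152) (nat_lit 8530598961) (nat_lit 228) (nat_lit 23688557723) (nat_lit 63) (nat_lit 5) (nat_lit 65) (nat_lit 5) (nat_lit 66) (nat_lit 5) (nat_lit 431) (nat_lit 349) (nat_lit 120)) (XT.nd (nat_lit 78) (nat_lit 0) (nat_lit 0) (XT.lf (nat_lit 0) (nat_lit 3963035090) (nat_lit 0) (nat_lit 3963035090) (nat_lit 1140) (nat_lit 1070678507) (nat_lit 252) (nat_lit 5) (nat_lit 252) (nat_lit 3) (nat_lit 267) (nat_lit 3) (nat_lit 350) (nat_lit 350) (nat_lit 200)) (XT.lf (nat_lit 0) (nat_lit 16294230637) (nat_lit 1140) (nat_lit 1468254009) (nat_lit 1216) (nat_lit 494678373) (nat_lit 252) (nat_lit 5) (nat_lit 267) (nat_lit 3) (nat_lit 268) (nat_lit 5) (nat_lit 351) (nat_lit 350) (nat_lit 199))))) (XT.nd (nat_lit 234) (nat_lit 1064) (nat_lit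 0) (XT.nd (nat_lit 78) (nat_lit 0) (nat_lit 0) (XT.lf (nat_lit 76) (nat_lit 7451659861) (nat_lit 0) (nat_lit 9440282727) (nat_lit 1216) (nat_lit 1632529473) (nat_lit 253) (nat_lit 5) (nat_lit 252) (nat_lit 5) (nat_lit 268) (nat_lit 5) (nat_lit 352) (nat_lit 350) (nat_lit 198)) (XT.nd (nat_lit 78) (nat_lit 0) (nat_lit 76) (XT.lf (nat_lit 76) (nat_lit 16665142478) (nat_lit 0) (nat_lit 849708988) (nat_lit 1216) (nat_lit 1284735017) (nat_lit 253) (nat_lit 5) (nat_lit 252) (nat_lit 5) (nat_lit 268) (nat_lit 5) (nat_lit 353) (nat_lit 350) (nat_lit 197)) (XT.lf (nat_lit 76) (nat_lit 7130058615) (nat_lit 0) (nat_lit 11164506101) (nat_lit 1216) (nat_lit 784250067) (nat_lit 254) (nat_lit 5) (nat_lit 253) (nat_lit 5) (nat_lit 269) (nat_lit 5) (nat_lit 354) (nat_lit 350) (nat_lit 196)))) (XT.nd (nat_lit 156) (nat_lit 0) (nat_lit 0) (XT.nd (nat_lit 78) (nat_lit 1140) (nat_lit 0) (XT.lf (nat_lit 76) (nat_lit 16703449240)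 (nat_lit 0) (nat_lit 2416967960) (nat_lit 1216) (nat_lit 245324138) (nat_lit 254) (nat_lit 5) (nat_lit 253) (nat_lit 5) (nat_lit 269) (nat_lit 5) (nat_lit 355) (nat_lit 350) (nat_lit 195)) (XT.lf (nat_lit 0) (nat_lit 428428778) (nat_lit 1216) (nat_lit 12690690765) (nat_lit 1292) (nat_lit 6538329321) (nat_lit 238) (nat_lit 5) (nat_lit 254) (nat_lit 5) (nat_lit 255) (nat_lit 5) (nat_lit 356) (nat_lit 350) (nat_lit 194))) (XT.nd (nat_lit 78) (nat_lit 0) (nat_lit 76) (XT.lf (nat_lit 0) (nat_lit 1161732148) (nat_lit 1216) (nat_lit 3048905543) (nat_lit 1292) (nat_lit 15745872510) (nat_lit 238) (nat_lit 5) (nat_lit 254) (nat_lit 5) (nat_lit 255) (nat_lit 5) (nat_lit 357) (nat_lit 350) (nat_lit 193)) (XT.lf (nat_lit 0) (nat_lit 2026268263) (nat_lit 1216) (nat_lit 13296428175) (nat_lit 1292) (nat_lit 4938573347) (nat_lit 239) (nat_lit 5) (nat_lit 255) (nat_lit 5) (nat_lit 256) (nat_lit 5) (nat_lit 358) (nat_lit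 350) (nat_lit 192)))))) (XT.nd (nat_lit 546) (nat_lit 2204) (nat_lit 0) (XT.nd (nat_lit 234) (nat_lit 0) (nat_lit 152) (XT.nd (nat_lit 78) (nat_lit 0) (nat_lit 76) (XT.lf (nat_lit 0) (nat_lit 2983082105) (nat_lit 1216) (nat_lit 3279222198) (nat_lit 1292) (nat_lit 14310880917) (nat_lit 239) (nat_lit 5) (nat_lit 255) (nat_lit 5) (nat_lit 256) (nat_lit 5) (nat_lit 359) (nat_lit 350) (nat_lit 191)) (XT.nd (nat_lit 78) (nat_lit 0) (nat_lit 0) (XT.lf (nat_lit 0) (nat_lit 4061520420) (nat_lit 1216) (nat_lit 13748647198) (nat_lit 1292) (nat_lit 3081506117) (nat_lit 240) (nat_lit 5) (nat_lit 256) (nat_lit 5) (nat_lit 257) (nat_lit 5) (nat_lit 360) (nat_lit 350) (nat_lit 190)) (XT.lf (nat_lit 0) (nat_lit 5261661505) (nat_lit 1216) (nat_lit 3340401626) (nat_lit 1292) (nat_lit 12614976409) (nat_lit 240) (nat_lit 5) (nat_lit 256) (nat_lit 5) (nat_lit 257) (nat_lit 5) (nat_lit 361) (nat_lit 350) (nat_lit 189)))) (XT.nd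 (nat_lit 156) (nat_lit 0) (nat_lit 0) (XT.nd (nat_lit 78) (nat_lit 0) (nat_lit 0) (XT.lf (nat_lit 0) (nat_lit 6573412073) (nat_lit 1216) (nat_lit 14036886354) (nat_lit 1292) (nat_lit 939602768) (nat_lit 241) (nat_lit 5) (nat_lit 257) (nat_lit 5) (nat_lit 258) (nat_lit 5) (nat_lit 362) (nat_lit 350) (nat_lit 188)) (XT.lf (nat_lit 0) (nat_lit 8037976748) (nat_lit 1216) (nat_lit 3221257916) (nat_lit 1292) (nat_lit 10630113131) (nat_lit 241) (nat_lit 5) (nat_lit 257) (nat_lit 5) (nat_lit 258) (nat_lit 5) (nat_lit 363) (nat_lit 350) (nat_lit 187))) (XT.nd (nat_lit 78) (nat_lit 0) (nat_lit 76) (XT.lf (nat_lit 76) (nat_lit 8071957181) (nat_lit 0) (nat_lit 1546509079) (nat_lit 1292) (nat_lit 12618354756) (nat_lit 242) (nat_lit 5) (nat_lit 241) (nat_lit 5) (nat_lit 258) (nat_lit 5) (nat_lit 364) (nat_lit 350) (nat_lit 186)) (XT.lf (nat_lit 0) (nat_lit 11355048108) (nat_lit 1216) (nat_lit 2909893104) (nat_lit 1292)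 (nat_lit 8326519667) (nat_lit 242) (nat_lit 5) (nat_lit 258) (nat_lit 5) (nat_lit 259) (nat_lit 5) (nat_lit 365) (nat_lit 350) (nat_lit 185))))) (XT.nd (nat_lit 234) (nat_lit 1292) (nat_lit 0) (XT.nd (nat_lit 78) (nat_lit 1140) (nat_lit 0) (XT.lf (nat_lit 76) (nat_lit 8835427531) (nat_lit 0) (nat_lit 4403230366) (nat_lit 1292) (nat_lit 9715236821) (nat_lit 243) (nat_lit 5) (nat_lit 242) (nat_lit 5) (nat_lit 259) (nat_lit 5) (nat_lit 366) (nat_lit 350) (nat_lit 184)) (XT.nd (nat_lit 78) (nat_lit 1216) (nat_lit 0) (XT.lf (nat_lit 0) (nat_lit 15258573273) (nat_lit 1216) (nat_lit 2393689281) (nat_lit 76) (nat_lit 5672547717) (nat_lit 243) (nat_lit 5) (nat_lit 259) (nat_lit 5) (nat_lit 244) (nat_lit 5) (nat_lit 367) (nat_lit 350) (nat_lit 183)) (XT.lf (nat_lit 0) (nat_lit 9826597758) (nat_lit 1216) (nat_lit 7645503170) (nat_lit 1292) (nat_lit 6230764456) (nat_lit 227) (nat_lit 5) (nat_lit 243) (nat_lit 5) (nat_lit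 244) (nat_lit 5) (nat_lit 368) (nat_lit 350) (nat_lit 182)))) (XT.nd (nat_lit 156) (nat_lit 684) (nat_lit 0) (XT.nd (nat_lit 78) (nat_lit 608) (nat_lit 0) (XT.lf (nat_lit 0) (nat_lit 19797098778) (nat_lit 1292) (nat_lit 1659301542) (nat_lit 76) (nat_lit 2634512367) (nat_lit 227) (nat_lit 5) (nat_lit 244) (nat_lit 5) (nat_lit 228) (nat_lit 5) (nat_lit 369) (nat_lit 350) (nat_lit 181)) (XT.lf (nat_lit 0) (nat_lit 11059922221) (nat_lit 608) (nat_lit 11309150625) (nat_lit 684) (nat_lit 2116214168) (nat_lit 219) (nat_lit 5) (nat_lit 227) (nat_lit 5) (nat_lit 228) (nat_lit 5) (nat_lit 370) (nat_lit 350) (nat_lit 180))) (XT.nd (nat_lit 78) (nat_lit 608) (nat_lit 0) (XT.lf (nat_lit 0) (nat_lit 136425108) (nat_lit 684) (nat_lit 702062940) (nat_lit 76) (nat_lit 24052604713) (nat_lit 218) (nat_lit 5) (nat_lit 227) (nat_lit 5) (nat_lit 219) (nat_lit 5) (nat_lit 371) (nat_lit 350) (nat_lit 179)) (XT.lf (nat_lit 0) (nat_lit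 2627881923) (nat_lit 684) (nat_lit 12777936807) (nat_lit 76) (nat_lit 9896214399) (nat_lit 210) (nat_lit 5) (nat_lit 219) (nat_lit 5) (nat_lit 211) (nat_lit 5) (nat_lit 372) (nat_lit 350) (nat_lit 178))))))) (XT.nd (nat_lit 1014) (nat_lit 3040) (nat_lit 0) (XT.nd (nat_lit 468) (nat_lit 1976) (nat_lit 0) (XT.nd (nat_lit 234) (nat_lit 532) (nat_lit 0) (XT.nd (nat_lit 78) (nat_lit 532) (nat_lit 0) (XT.lf (nat_lit 0) (nat_lit 432006339) (nat_lit 608) (nat_lit 4777186381) (nat_lit 684) (nat_lit 20515657805) (nat_lit 202) (nat_lit 5) (nat_lit 210) (nat_lit 5) (nat_lit 211) (nat_lit 5) (nat_lit 373) (nat_lit 350) (nat_lit 177)) (XT.nd (nat_lit 78) (nat_lit 532) (nat_lit 0) (XT.lf (nat_lit 0) (nat_lit 8053151256) (nat_lit 684) (nat_lit 11921375389) (nat_lit 76) (nat_lit 6180271611) (nat_lit 202) (nat_lit 5) (nat_lit 211) (nat_lit 5) (nat_lit 203) (nat_lit 5) (nat_lit 374) (nat_lit 350) (nat_lit 176)) (XT.lf (nat_lit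 0) (nat_lit 1835397925) (nat_lit 532) (nat_lit 9207687044) (nat_lit 608) (nat_lit 15552741763) (nat_lit 195) (nat_lit 5) (nat_lit 202) (nat_lit 5) (nat_lit 203) (nat_lit 5) (nat_lit 375) (nat_lit 350) (nat_lit 175)))) (XT.nd (nat_lit 78) (nat_lit 532) (nat_lit 0) (XT.lf (nat_lit 0) (nat_lit 14258180436) (nat_lit 608) (nat_lit 10820948131) (nat_lit 76) (nat_lit 1966895530) (nat_lit 195) (nat_lit 5) (nat_lit 203) (nat_lit 5) (nat_lit 196) (nat_lit 5) (nat_lit 376) (nat_lit 350) (nat_lit 174)) (XT.nd (nat_lit 78) (nat_lit 0) (nat_lit 0) (XT.lf (nat_lit 0) (nat_lit 3509728382) (nat_lit 532) (nat_lit 14180822547) (nat_lit 608) (nat_lit 9815553678) (nat_lit 188) (nat_lit 5) (nat_lit 195) (nat_lit 5) (nat_lit 196) (nat_lit 5) (nat_lit 377) (nat_lit 350) (nat_lit 173)) (XT.lf (nat_lit 0) (nat_lit 18487875474) (nat_lit 532) (nat_lit 2843284535) (nat_lit 608) (nat_lit 6645671335) (nat_lit 188) (nat_lit 5) (nat_lit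 195) (nat_lit 5) (nat_lit 196) (nat_lit 5) (nat_lit 378) (nat_lit 350) (nat_lit 172))))) (XT.nd (nat_lit 234) (nat_lit 912) (nat_lit 0) (XT.nd (nat_lit 78) (nat_lit 608) (nat_lit 0) (XT.lf (nat_lit 0) (nat_lit 5471269702) (nat_lit 456) (nat_lit 19743343534) (nat_lit 532) (nat_lit 3243059652) (nat_lit 182) (nat_lit 5) (nat_lit 188) (nat_lit 5) (nat_lit 189) (nat_lit 5) (nat_lit 379) (nat_lit 350) (nat_lit 171)) (XT.nd (nat_lit 78) (nat_lit 532) (nat_lit 0) (XT.lf (nat_lit 0) (nat_lit 377589382) (nat_lit 532) (nat_lit 7911160499) (nat_lit 76) (nat_lit 20660484098) (nat_lit 181) (nat_lit 5) (nat_lit 188) (nat_lit 5) (nat_lit 182) (nat_lit 5) (nat_lit 380) (nat_lit 350) (nat_lit 170)) (XT.lf (nat_lit 0) (nat_lit 4147031521) (nat_lit 608) (nat_lit 21756331600) (nat_lit 76) (nat_lit 3548056449) (nat_lit 174) (nat_lit 5) (nat_lit 182) (nat_lit 5) (nat_lit 175) (nat_lit 5) (nat_lit 381) (nat_lit 350) (nat_lit 169))))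 (XT.nd (nat_lit 156) (nat_lit 456) (nat_lit 0) (XT.nd (nat_lit 78) (nat_lit 456) (nat_lit 0) (XT.lf (nat_lit 0) (nat_lit 8188623612) (nat_lit 608) (nat_lit 6121675096) (nat_lit 76) (nat_lit 15653601602) (nat_lit 174) (nat_lit 5) (nat_lit 182) (nat_lit 5) (nat_lit 175) (nat_lit 5) (nat_lit 382) (nat_lit 350) (nat_lit 168)) (XT.lf (nat_lit 0) (nat_lit 10176486325) (nat_lit 456) (nat_lit 2269228573) (nat_lit 532) (nat_lit 18043214569) (nat_lit 168) (nat_lit 5) (nat_lit 174) (nat_lit 5) (nat_lit 175) (nat_lit 5) (nat_lit 383) (nat_lit 350) (nat_lit 167))) (XT.nd (nat_lit 78) (nat_lit 456) (nat_lit 0) (XT.lf (nat_lit 0) (nat_lit 16986841401) (nat_lit 532) (nat_lit 4040966975) (nat_lit 76) (nat_lit 9997212939) (nat_lit 168) (nat_lit 5) (nat_lit 175) (nat_lit 5) (nat_lit 169) (nat_lit 5) (nat_lit 384) (nat_lit 350) (nat_lit 166)) (XT.lf (nat_lit 0) (nat_lit 12944730235) (nat_lit 456) (nat_lit 8862962236) (nat_lit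 532) (nat_lit 9765200175) (nat_lit 162) (nat_lit 5) (nat_lit 168) (nat_lit 5) (nat_lit 169) (nat_lit 5) (nat_lit 385) (nat_lit 350) (nat_lit 165)))))) (XT.nd (nat_lit 546) (nat_lit 1368) (nat_lit 0) (XT.nd (nat_lit 234) (nat_lit 760) (nat_lit 0) (XT.nd (nat_lit 78) (nat_lit 912) (nat_lit 0) (XT.lf (nat_lit 0) (nat_lit 26846271559) (nat_lit 532) (nat_lit 1652903212) (nat_lit 76) (nat_lit 3635833675) (nat_lit 162) (nat_lit 5) (nat_lit 169) (nat_lit 5) (nat_lit 163) (nat_lit 5) (nat_lit 386) (nat_lit 350) (nat_lit 164)) (XT.nd (nat_lit 78) (nat_lit 532) (nat_lit 0) (XT.lf (nat_lit 0) (nat_lit 16053125996) (nat_lit 380) (nat_lit 16221689134) (nat_lit 456) (nat_lit 432009744) (nat_lit 157) (nat_lit 5) (nat_lit 162) (nat_lit 5) (nat_lit 163) (nat_lit 5) (nat_lit 387) (nat_lit 350) (nat_lit 163)) (XT.lf (nat_lit 0) (nat_lit 1000328507) (nat_lit 456) (nat_lit 3504143929) (nat_lit 532) (nat_lit 28789309480) (nat_lit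 150) (nat_lit 5) (nat_lit 156) (nat_lit 5) (nat_lit 157) (nat_lit 5) (nat_lit 388) (nat_lit 350) (nat_lit 162)))) (XT.nd (nat_lit 156) (nat_lit 380) (nat_lit 0) (XT.nd (nat_lit 78) (nat_lit 380) (nat_lit 0) (XT.lf (nat_lit 0) (nat_lit 9839247897) (nat_lit 532) (nat_lit 14470182057) (nat_lit 76) (nat_lit 9581024189) (nat_lit 150) (nat_lit 5) (nat_lit 157) (nat_lit 5) (nat_lit 151) (nat_lit 5) (nat_lit 389) (nat_lit 350) (nat_lit 161)) (XT.lf (nat_lit 0) (nat_lit 3925750897) (nat_lit 380) (nat_lit 11477654431) (nat_lit 456) (nat_lit 19099542261) (nat_lit 145) (nat_lit 5) (nat_lit 150) (nat_lit 5) (nat_lit 151) (nat_lit 5) (nat_lit 390) (nat_lit 350) (nat_lit 160))) (XT.nd (nat_lit 78) (nat_lit 380) (nat_lit 0) (XT.lf (nat_lit 0) (nat_lit 21295723374) (nat_lit 456) (nat_lit 11981402530) (nat_lit 76) (nat_lit 1851854037) (nat_lit 145) (nat_lit 5) (nat_lit 151) (nat_lit 5) (nat_lit 146) (nat_lit 5) (nat_lit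 391) (nat_lit 350) (nat_lit 159)) (XT.lf (nat_lit 0) (nat_lit 7195152037) (nat_lit 380) (nat_lit 20349503695) (nat_lit 456) (nat_lit 8223743331) (nat_lit 140) (nat_lit 5) (nat_lit 145) (nat_lit 5) (nat_lit 146) (nat_lit 5) (nat_lit 392) (nat_lit 350) (nat_lit 158))))) (XT.nd (nat_lit 234) (nat_lit 988) (nat_lit 0) (XT.nd (nat_lit 78) (nat_lit 380) (nat_lit 0) (XT.lf (nat_lit 0) (nat_lit 27188771645) (nat_lit 380) (nat_lit 6910362819) (nat_lit 456) (nat_lit 2324325053) (nat_lit 140) (nat_lit 5) (nat_lit 145) (nat_lit 5) (nat_lit 146) (nat_lit 5) (nat_lit 393) (nat_lit 350) (nat_lit 157)) (XT.nd (nat_lit 78) (nat_lit 0) (nat_lit 0) (XT.lf (nat_lit 0) (nat_lit 3848374930) (nat_lit 380) (nat_lit 26306045223) (nat_lit 76) (nat_lit 6937585190) (nat_lit 135) (nat_lit 5) (nat_lit 140) (nat_lit 5) (nat_lit 136) (nat_lit 5) (nat_lit 394) (nat_lit 350) (nat_lit 156)) (XT.lf (nat_lit 0) (nat_lit 10319317789) (nat_lit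 380) (nat_lit 6277459971) (nat_lit 76) (nat_lit 21178347051) (nat_lit 135) (nat_lit 5) (nat_lit 140) (nat_lit 5) (nat_lit 136) (nat_lit 5) (nat_lit 395) (nat_lit 350) (nat_lit 155)))) (XT.nd (nat_lit 156) (nat_lit 608) (nat_lit 0) (XT.nd (nat_lit 78) (nat_lit 0) (nat_lit 0) (XT.lf (nat_lit 0) (nat_lit 14633829172) (nat_lit 380) (nat_lit 2488494656) (nat_lit 456) (nat_lit 21352276976) (nat_lit 130) (nat_lit 5) (nat_lit 135) (nat_lit 5) (nat_lit 136) (nat_lit 5) (nat_lit 396) (nat_lit 350) (nat_lit 154)) (XT.lf (nat_lit 0) (nat_lit 24306503154) (nat_lit 456) (nat_lit 3012161442) (nat_lit 76) (nat_lit 11871084943) (nat_lit 130) (nat_lit 5) (nat_lit 136) (nat_lit 5) (nat_lit 131) (nat_lit 5) (nat_lit 397) (nat_lit 350) (nat_lit 153))) (XT.nd (nat_lit 78) (nat_lit 304) (nat_lit 0) (XT.lf (nat_lit 0) (nat_lit 18779484883) (nat_lit 304) (nat_lit 13129260471) (nat_lit 380) (nat_lit 8011532189) (nat_lit 126) (nat_lit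 5) (nat_lit 130) (nat_lit 5) (nat_lit 131) (nat_lit 5) (nat_lit 398) (nat_lit 350) (nat_lit 152)) (XT.lf (nat_lit 0) (nat_lit 608435254) (nat_lit 304) (nat_lit 39178879858) (nat_lit 380) (nat_lit 883959367) (nat_lit 122) (nat_lit 5) (nat_lit 126) (nat_lit 5) (nat_lit 127) (nat_lit 5) (nat_lit 399) (nat_lit 350) (nat_lit 151))))))))
noncomputable def xc213 : XT := (XT.nd (nat_lit 2106) (nat_lit 608) (nat_lit 0) (XT.nd (nat_lit 1014) (nat_lit 1672) (nat_lit 0) (XT.nd (nat_lit 468) (nat_lit 1140) (nat_lit 0) (XT.nd (nat_lit 234) (nat_lit 684) (nat_lit 0) (XT.nd (nat_lit 78) (nat_lit 304) (nat_lit 0) (XT.lf (nat_lit 0) (nat_lit 6674444874) (nat_lit 380) (nat_lit 18192758451) (nat_lit 76) (nat_lit 16565446300) (nat_lit 121) (nat_lit 5) (nat_lit 126) (nat_lit 5) (nat_lit 122) (nat_lit 5) (nat_lit 400) (nat_lit 350) (nat_lit 150)) (XT.nd (nat_lit 78) (nat_lit 0) (nat_lit 0) (XT.lf (nat_lit 0) (nat_lit 4407090440)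 (nat_lit 304) (nat_lit 10074607999) (nat_lit 380) (nat_lit 27733709932) (nat_lit 117) (nat_lit 5) (nat_lit 121) (nat_lit 5) (nat_lit 122) (nat_lit 5) (nat_lit 401) (nat_lit 350) (nat_lit 149)) (XT.lf (nat_lit 0) (nat_lit 22755846326) (nat_lit 380) (nat_lit 15013316551) (nat_lit 76) (nat_lit 5245507503) (nat_lit 117) (nat_lit 5) (nat_lit 122) (nat_lit 5) (nat_lit 118) (nat_lit 5) (nat_lit 402) (nat_lit 350) (nat_lit 148)))) (XT.nd (nat_lit 78) (nat_lit 380) (nat_lit 0) (XT.lf (nat_lit 0) (nat_lit 8528707665) (nat_lit 304) (nat_lit 22928843277) (nat_lit 380) (nat_lit 12374980118) (nat_lit 113) (nat_lit 5) (nat_lit 117) (nat_lit 5) (nat_lit 118) (nat_lit 5) (nat_lit 403) (nat_lit 350) (nat_lit 147)) (XT.nd (nat_lit 78) (nat_lit 380) (nat_lit 0) (XT.lf (nat_lit 0) (nat_lit 33081280818) (nat_lit 304) (nat_lit 7488268010) (nat_lit 380) (nat_lit 4100902224) (nat_lit 113) (nat_lit 5) (nat_lit 117) (nat_lit 5) (nat_lit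 118) (nat_lit 5) (nat_lit 404) (nat_lit 350) (nat_lit 146)) (XT.lf (nat_lit 0) (nat_lit 4540752105) (nat_lit 380) (nat_lit 32565517203) (nat_lit 76) (nat_lit 8419796067) (nat_lit 108) (nat_lit 5) (nat_lit 113) (nat_lit 5) (nat_lit 109) (nat_lit 5) (nat_lit 405) (nat_lit 350) (nat_lit 145))))) (XT.nd (nat_lit 234) (nat_lit 836) (nat_lit 0) (XT.nd (nat_lit 78) (nat_lit 304) (nat_lit 0) (XT.lf (nat_lit 0) (nat_lit 13549266724) (nat_lit 380) (nat_lit 8038856419) (nat_lit 76) (nat_lit 24812306546) (nat_lit 108) (nat_lit 5) (nat_lit 113) (nat_lit 5) (nat_lit 109) (nat_lit 5) (nat_lit 406) (nat_lit 350) (nat_lit 144)) (XT.nd (nat_lit 78) (nat_lit 0) (nat_lit 0) (XT.lf (nat_lit 0) (nat_lit 17562980484) (nat_lit 304) (nat_lit 5431656079) (nat_lit 380) (nat_lit 24301391047) (nat_lit 104) (nat_lit 5) (nat_lit 108) (nat_lit 5) (nat_lit 109) (nat_lit 5) (nat_lit 407) (nat_lit 350) (nat_lit 143)) (XT.lf (nat_lit 0) (nat_lit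 32910896535) (nat_lit 380) (nat_lit 4230317043) (nat_lit 76) (nat_lit 11071654671) (nat_lit 104) (nat_lit 5) (nat_lit 109) (nat_lit 5) (nat_lit 105) (nat_lit 5) (nat_lit 408) (nat_lit 350) (nat_lit 142)))) (XT.nd (nat_lit 156) (nat_lit 532) (nat_lit 0) (XT.nd (nat_lit 78) (nat_lit 76) (nat_lit 0) (XT.lf (nat_lit 0) (nat_lit 22417904506) (nat_lit 228) (nat_lit 20973873379) (nat_lit 304) (nat_lit 5757422849) (nat_lit 101) (nat_lit 5) (nat_lit 104) (nat_lit 5) (nat_lit 105) (nat_lit 5) (nat_lit 409) (nat_lit 350) (nat_lit 141)) (XT.lf (nat_lit 0) (nat_lit 4034985369) (nat_lit 304) (nat_lit 202907862) (nat_lit 76) (nat_lit 45873325537) (nat_lit 100) (nat_lit 5) (nat_lit 104) (nat_lit 5) (nat_lit 101) (nat_lit 5) (nat_lit 410) (nat_lit 350) (nat_lit 140))) (XT.nd (nat_lit 78) (nat_lit 228) (nat_lit 0) (XT.lf (nat_lit 0) (nat_lit 14396830724) (nat_lit 380) (nat_lit 23620920118) (nat_lit 76) (nat_lit 13070895451)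 (nat_lit 96) (nat_lit 5) (nat_lit 101) (nat_lit 5) (nat_lit 97) (nat_lit 5) (nat_lit 411) (nat_lit 350) (nat_lit 139)) (XT.lf (nat_lit 0) (nat_lit 3908389516) (nat_lit 228) (nat_lit 21240691611) (nat_lit 304) (nat_lit 26943929590) (nat_lit 93) (nat_lit 5) (nat_lit 96) (nat_lit 5) (nat_lit 97) (nat_lit 5) (nat_lit 412) (nat_lit 350) (nat_lit 138)))))) (XT.nd (nat_lit 546) (nat_lit 912) (nat_lit 0) (XT.nd (nat_lit 234) (nat_lit 456) (nat_lit 0) (XT.nd (nat_lit 78) (nat_lit 304) (nat_lit 0) (XT.lf (nat_lit 0) (nat_lit 32744614443) (nat_lit 228) (nat_lit 3715790039) (nat_lit 304) (nat_lit 16660006975) (nat_lit 93) (nat_lit 5) (nat_lit 96) (nat_lit 5) (nat_lit 97) (nat_lit 5) (nat_lit 413) (nat_lit 350) (nat_lit 137)) (XT.nd (nat_lit 78) (nat_lit 76) (nat_lit 0) (XT.lf (nat_lit 0) (nat_lit 8288101177) (nat_lit 228) (nat_lit 40038460639) (nat_lit 304) (nat_lit 5845608105) (nat_lit 90) (nat_lit 5) (nat_lit 93)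 (nat_lit 5) (nat_lit 94) (nat_lit 5) (nat_lit 414) (nat_lit 350) (nat_lit 136)) (XT.lf (nat_lit 0) (nat_lit 5432552136) (nat_lit 304) (nat_lit 17112552102) (nat_lit 76) (nat_lit 32701572372) (nat_lit 89) (nat_lit 5) (nat_lit 93) (nat_lit 5) (nat_lit 90) (nat_lit 5) (nat_lit 415) (nat_lit 350) (nat_lit 135)))) (XT.nd (nat_lit 156) (nat_lit 228) (nat_lit 0) (XT.nd (nat_lit 78) (nat_lit 0) (nat_lit 0) (XT.lf (nat_lit 0) (nat_lit 12709191207) (nat_lit 228) (nat_lit 4342637219) (nat_lit 304) (nat_lit 39296246374) (nat_lit 86) (nat_lit 5) (nat_lit 89) (nat_lit 5) (nat_lit 90) (nat_lit 5) (nat_lit 416) (nat_lit 350) (nat_lit 134)) (XT.lf (nat_lit 0) (nat_lit 29330784821) (nat_lit 304) (nat_lit 13844202510) (nat_lit 76) (nat_lit 14298195022) (nat_lit 86) (nat_lit 5) (nat_lit 90) (nat_lit 5) (nat_lit 87) (nat_lit 5) (nat_lit 417) (nat_lit 350) (nat_lit 133))) (XT.nd (nat_lit 78) (nat_lit 0) (nat_lit 0) (XT.lf (nat_lit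 0) (nat_lit 17132672112) (nat_lit 228) (nat_lit 25051288306) (nat_lit 304) (nat_lit 16441907656) (nat_lit 83) (nat_lit 5) (nat_lit 86) (nat_lit 5) (nat_lit 87) (nat_lit 5) (nat_lit 418) (nat_lit 350) (nat_lit 132)) (XT.lf (nat_lit 0) (nat_lit 49319704051) (nat_lit 228) (nat_lit 6241016100) (nat_lit 304) (nat_lit 4248274995) (nat_lit 83) (nat_lit 5) (nat_lit 86) (nat_lit 5) (nat_lit 87) (nat_lit 5) (nat_lit 419) (nat_lit 350) (nat_lit 131))))) (XT.nd (nat_lit 234) (nat_lit 456) (nat_lit 0) (XT.nd (nat_lit 78) (nat_lit 228) (nat_lit 0) (XT.lf (nat_lit 0) (nat_lit 8485742886) (nat_lit 228) (nat_lit 39360999782) (nat_lit 76) (nat_lit 13168374307) (nat_lit 80) (nat_lit 5) (nat_lit 83) (nat_lit 5) (nat_lit 81) (nat_lit 5) (nat_lit 420) (nat_lit 350) (nat_lit 130)) (XT.nd (nat_lit 78) (nat_lit 228) (nat_lit 0) (XT.lf (nat_lit 0) (nat_lit 21683395397) (nat_lit 228) (nat_lit 7385205491) (nat_lit 76) (nat_lit 33182550109)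 (nat_lit 80) (nat_lit 5) (nat_lit 83) (nat_lit 5) (nat_lit 81) (nat_lit 5) (nat_lit 421) (nat_lit 350) (nat_lit 129)) (XT.lf (nat_lit 0) (nat_lit 26055477985) (nat_lit 228) (nat_lit 9470249987) (nat_lit 304) (nat_lit 27991075947) (nat_lit 77) (nat_lit 5) (nat_lit 80) (nat_lit 5) (nat_lit 81) (nat_lit 5) (nat_lit 422) (nat_lit 350) (nat_lit 128)))) (XT.nd (nat_lit 156) (nat_lit 304) (nat_lit 0) (XT.nd (nat_lit 78) (nat_lit 152) (nat_lit 0) (XT.lf (nat_lit 0) (nat_lit 49959955886) (nat_lit 304) (nat_lit 4273998924) (nat_lit 76) (nat_lit 10581173240) (nat_lit 77) (nat_lit 5) (nat_lit 81) (nat_lit 5) (nat_lit 78) (nat_lit 5) (nat_lit 423) (nat_lit 350) (nat_lit 127)) (XT.lf (nat_lit 0) (nat_lit 30405757828) (nat_lit 152) (nat_lit 34805847517) (nat_lit 228) (nat_lit 929265091) (nat_lit 75) (nat_lit 5) (nat_lit 77) (nat_lit 5) (nat_lit 78) (nat_lit 5) (nat_lit 424) (nat_lit 350) (nat_lit 126))) (XT.nd (nat_lit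 78) (nat_lit 228) (nat_lit 0) (XT.lf (nat_lit 0) (nat_lit 13194598375) (nat_lit 228) (nat_lit 1423702327) (nat_lit 76) (nat_lit 52882958030) (nat_lit 74) (nat_lit 5) (nat_lit 77) (nat_lit 5) (nat_lit 75) (nat_lit 5) (nat_lit 425) (nat_lit 350) (nat_lit 125)) (XT.lf (nat_lit 0) (nat_lit 28117036930) (nat_lit 304) (nat_lit 34375035051) (nat_lit 76) (nat_lit 6398304921) (nat_lit 71) (nat_lit 5) (nat_lit 75) (nat_lit 5) (nat_lit 72) (nat_lit 5) (nat_lit 426) (nat_lit 350) (nat_lit 124))))))) (XT.nd (nat_lit 41574) (nat_lit 0) (nat_lit 11780) (XT.nd (nat_lit 41028) (nat_lit 0) (nat_lit 13224) (XT.nd (nat_lit 234) (nat_lit 152) (nat_lit 0) (XT.nd (nat_lit 78) (nat_lit 304) (nat_lit 0) (XT.lf (nat_lit 0) (nat_lit 1115200286) (nat_lit 152) (nat_lit 42540337950) (nat_lit 228) (nat_lit 26660579025) (nat_lit 69) (nat_lit 5) (nat_lit 71) (nat_lit 5) (nat_lit 72) (nat_lit 5) (nat_lit 427) (nat_lit 350) (nat_lit 123))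 (XT.nd (nat_lit 78) (nat_lit 304) (nat_lit 0) (XT.lf (nat_lit 0) (nat_lit 38372135721) (nat_lit 152) (nat_lit 21633614907) (nat_lit 228) (nat_lit 11768512842) (nat_lit 69) (nat_lit 5) (nat_lit 71) (nat_lit 5) (nat_lit 72) (nat_lit 5) (nat_lit 428) (nat_lit 350) (nat_lit 122)) (XT.lf (nat_lit 0) (nat_lit 3502027468) (nat_lit 228) (nat_lit 30747589) (nat_lit 304) (nat_lit 69741385825) (nat_lit 65) (nat_lit 5) (nat_lit 68) (nat_lit 5) (nat_lit 69) (nat_lit 5) (nat_lit 429) (nat_lit 350) (nat_lit 121)))) (XT.nd (nat_lit 78) (nat_lit 152) (nat_lit 0) (XT.lf (nat_lit 0) (nat_lit 19609271190) (nat_lit 304) (nat_lit 32946996384) (nat_lit 76) (nat_lit 22242711187) (nat_lit 65) (nat_lit 5) (nat_lit 69) (nat_lit 5) (nat_lit 66) (nat_lit 5) (nat_lit 430) (nat_lit 350) (nat_lit 120)) (XT.nd (nat_lit 40638) (nat_lit 0) (nat_lit 14364) (XT.lf (nat_lit 0) (nat_lit 5079154817) (nat_lit 152) (nat_lit 31136555453) (nat_lit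 228) (nat_lit 40152401749) (nat_lit 63) (nat_lit 5) (nat_lit 65) (nat_lit 5) (nat_lit 66) (nat_lit 5) (nat_lit 431) (nat_lit 350) (nat_lit 119)) (XT.lf (nat_lit 0) (nat_lit 4180696676) (nat_lit 0) (nat_lit 4180696676) (nat_lit 1140) (nat_lit 899225026) (nat_lit 252) (nat_lit 5) (nat_lit 252) (nat_lit 3) (nat_lit 267) (nat_lit 3) (nat_lit 351) (nat_lit 351) (nat_lit 198))))) (XT.nd (nat_lit 234) (nat_lit 1140) (nat_lit 0) (XT.nd (nat_lit 78) (nat_lit 0) (nat_lit 0) (XT.lf (nat_lit 0) (nat_lit 17164788866) (nat_lit 1140) (nat_lit 1306956491) (nat_lit 1216) (nat_lit 321473744) (nat_lit 252) (nat_lit 5) (nat_lit 267) (nat_lit 3) (nat_lit 268) (nat_lit 5) (nat_lit 352) (nat_lit 351) (nat_lit 197)) (XT.nd (nat_lit 78) (nat_lit 0) (nat_lit 0) (XT.lf (nat_lit 76) (nat_lit 7878541606) (nat_lit 0) (nat_lit 9892726732) (nat_lit 1216) (nat_lit 1297560017) (nat_lit 253) (nat_lit 5) (nat_lit 252) (nat_lit 5) (nat_lit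 268) (nat_lit 5) (nat_lit 353) (nat_lit 351) (nat_lit 196)) (XT.lf (nat_lit 76) (nat_lit 17362506413) (nat_lit 0) (nat_lit 1039506591) (nat_lit 1216) (nat_lit 950514601) (nat_lit 253) (nat_lit 5) (nat_lit 252) (nat_lit 5) (nat_lit 268) (nat_lit 5) (nat_lit 354) (nat_lit 351) (nat_lit 195)))) (XT.nd (nat_lit 156) (nat_lit 0) (nat_lit 76) (XT.nd (nat_lit 78) (nat_lit 1216) (nat_lit 0) (XT.lf (nat_lit 76) (nat_lit 7551936748) (nat_lit 0) (nat_lit 11643111271) (nat_lit 1216) (nat_lit 445392502) (nat_lit 254) (nat_lit 5) (nat_lit 253) (nat_lit 5) (nat_lit 269) (nat_lit 5) (nat_lit 355) (nat_lit 351) (nat_lit 194)) (XT.lf (nat_lit 0) (nat_lit 97211597) (nat_lit 1216) (nat_lit 2530769179) (nat_lit 1292) (nat_lit 17308278284) (nat_lit 237) (nat_lit 5) (nat_lit 253) (nat_lit 5) (nat_lit 254) (nat_lit 5) (nat_lit 356) (nat_lit 351) (nat_lit 193))) (XT.nd (nat_lit 78) (nat_lit 0) (nat_lit 0) (XT.lf (nat_lit 0) (nat_lit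 776938235) (nat_lit 1216) (nat_lit 12852967414) (nat_lit 1292) (nat_lit 6607023733) (nat_lit 238) (nat_lit 5) (nat_lit 254) (nat_lit 5) (nat_lit 255) (nat_lit 5) (nat_lit 357) (nat_lit 351) (nat_lit 192)) (XT.lf (nat_lit 0) (nat_lit 1522464301) (nat_lit 1216) (nat_lit 2928291085) (nat_lit 1292) (nat_lit 16094505513) (nat_lit 238) (nat_lit 5) (nat_lit 254) (nat_lit 5) (nat_lit 255) (nat_lit 5) (nat_lit 358) (nat_lit 351) (nat_lit 191)))))) (XT.nd (nat_lit 546) (nat_lit 1596) (nat_lit 0) (XT.nd (nat_lit 234) (nat_lit 0) (nat_lit 76) (XT.nd (nat_lit 78) (nat_lit 0) (nat_lit 0) (XT.lf (nat_lit 0) (nat_lit 2404421461) (nat_lit 1216) (nat_lit 13474561053) (nat_lit 1292) (nat_lit 4980441105) (nat_lit 239) (nat_lit 5) (nat_lit 255) (nat_lit 5) (nat_lit 256) (nat_lit 5) (nat_lit 359) (nat_lit 351) (nat_lit 190)) (XT.nd (nat_lit 78) (nat_lit 0) (nat_lit 76) (XT.lf (nat_lit 0) (nat_lit 3380696074) (nat_lit 1216) (nat_lit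 3163268799) (nat_lit 1292) (nat_lit 14637013711) (nat_lit 239) (nat_lit 5) (nat_lit 255) (nat_lit 5) (nat_lit 256) (nat_lit 5) (nat_lit 360) (nat_lit 351) (nat_lit 189)) (XT.lf (nat_lit 0) (nat_lit 4483698076) (nat_lit 1216) (nat_lit 13938833157) (nat_lit 1292) (nat_lit 3086728823) (nat_lit 240) (nat_lit 5) (nat_lit 256) (nat_lit 5) (nat_lit 257) (nat_lit 5) (nat_lit 361) (nat_lit 351) (nat_lit 188)))) (XT.nd (nat_lit 156) (nat_lit 0) (nat_lit 76) (XT.nd (nat_lit 78) (nat_lit 0) (nat_lit 76) (XT.lf (nat_lit 0) (nat_lit 5711095858) (nat_lit 1216) (nat_lit 3224814202) (nat_lit 1292) (nat_lit 12908743684) (nat_lit 240) (nat_lit 5) (nat_lit 256) (nat_lit 5) (nat_lit 257) (nat_lit 5) (nat_lit 362) (nat_lit 351) (nat_lit 187)) (XT.lf (nat_lit 0) (nat_lit 7055073313) (nat_lit 1216) (nat_lit 14234922748) (nat_lit 1292) (nat_lit 897723309) (nat_lit 241) (nat_lit 5) (nat_lit 257) (nat_lit 5) (nat_lit 258) (nat_lit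 5) (nat_lit 363) (nat_lit 351) (nat_lit 186))) (XT.nd (nat_lit 78) (nat_lit 0) (nat_lit 0) (XT.lf (nat_lit 0) (nat_lit 8555289718) (nat_lit 1216) (nat_lit 3101322647) (nat_lit 1292) (nat_lit 10880989786) (nat_lit 241) (nat_lit 5) (nat_lit 257) (nat_lit 5) (nat_lit 258) (nat_lit 5) (nat_lit 364) (nat_lit 351) (nat_lit 185)) (XT.lf (nat_lit 76) (nat_lit 8528565637) (nat_lit 0) (nat_lit 1648645807) (nat_lit 1292) (nat_lit 12718471702) (nat_lit 242) (nat_lit 5) (nat_lit 241) (nat_lit 5) (nat_lit 258) (nat_lit 5) (nat_lit 365) (nat_lit 351) (nat_lit 184))))) (XT.nd (nat_lit 234) (nat_lit 1824) (nat_lit 0) (XT.nd (nat_lit 78) (nat_lit 0) (nat_lit 0) (XT.lf (nat_lit 0) (nat_lit 11957500887) (nat_lit 1216) (nat_lit 2780463622) (nat_lit 1292) (nat_lit 8523253375) (nat_lit 242) (nat_lit 5) (nat_lit 258) (nat_lit 5) (nat_lit 259) (nat_lit 5) (nat_lit 366) (nat_lit 351) (nat_lit 183)) (XT.nd (nat_lit 78) (nat_lit 0)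 (nat_lit 76) (XT.lf (nat_lit 76) (nat_lit 9315091864) (nat_lit 0) (nat_lit 4576964705) (nat_lit 1292) (nat_lit 9742638909) (nat_lit 243) (nat_lit 5) (nat_lit 242) (nat_lit 5) (nat_lit 259) (nat_lit 5) (nat_lit 367) (nat_lit 351) (nat_lit 182)) (XT.lf (nat_lit 0) (nat_lit 15964717549) (nat_lit 1216) (nat_lit 2249171966) (nat_lit 76) (nat_lit 5803088292) (nat_lit 243) (nat_lit 5) (nat_lit 259) (nat_lit 5) (nat_lit 244) (nat_lit 5) (nat_lit 368) (nat_lit 351) (nat_lit 181)))) (XT.nd (nat_lit 156) (nat_lit 684) (nat_lit 0) (XT.nd (nat_lit 78) (nat_lit 0) (nat_lit 0) (XT.lf (nat_lit 0) (nat_lit 10335602822) (nat_lit 1216) (nat_lit 7903872728) (nat_lit 1292) (nat_lit 6167057935) (nat_lit 227) (nat_lit 5) (nat_lit 243) (nat_lit 5) (nat_lit 244) (nat_lit 5) (nat_lit 369) (nat_lit 351) (nat_lit 180)) (XT.lf (nat_lit 0) (nat_lit 20626868814) (nat_lit 1292) (nat_lit 1493640005) (nat_lit 76) (nat_lit 2685937563) (nat_lit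 227) (nat_lit 5) (nat_lit 244) (nat_lit 5) (nat_lit 228) (nat_lit 5) (nat_lit 370) (nat_lit 351) (nat_lit 179))) (XT.nd (nat_lit 78) (nat_lit 76) (nat_lit 0) (XT.lf (nat_lit 0) (nat_lit 11605048309) (nat_lit 608) (nat_lit 11666134816) (nat_lit 684) (nat_lit 1941616820) (nat_lit 219) (nat_lit 5) (nat_lit 227) (nat_lit 5) (nat_lit 228) (nat_lit 5) (nat_lit 371) (nat_lit 351) (nat_lit 178)) (XT.lf (nat_lit 0) (nat_lit 367156600) (nat_lit 684) (nat_lit 511391339) (nat_lit 76) (nat_lit 24752370480) (nat_lit 218) (nat_lit 5) (nat_lit 227) (nat_lit 5) (nat_lit 219) (nat_lit 5) (nat_lit 372) (nat_lit 351) (nat_lit 177))))))))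
noncomputable def xc214 : XT := (XT.nd (nat_lit 2106) (nat_lit 3952) (nat_lit 0) (XT.nd (nat_lit 1014) (nat_lit 3192) (nat_lit 0) (XT.nd (nat_lit 468) (nat_lit 1520) (nat_lit 0) (XT.nd (nat_lit 234) (nat_lit 1064) (nat_lit 0) (XT.nd (nat_lit 78) (nat_lit 608) (nat_lit 0) (XT.lf (nat_lit 0) (nat_lit 2928652198) (nat_lit 684) (nat_lit 12944731681) (nat_lit 76) (nat_lit 10180947410) (nat_lit 210) (nat_lit 5) (nat_lit 219) (nat_lit 5) (nat_lit 211) (nat_lit 5) (nat_lit 373) (nat_lit 351) (nat_lit 176)) (XT.nd (nat_lit 78) (nat_lit 0) (nat_lit 0) (XT.lf (nat_lit 0) (nat_lit 659386787) (nat_lit 608) (nat_lit 4923612579) (nat_lit 684) (nat_lit 20906968983) (nat_lit 202) (nat_lit 5) (nat_lit 210) (nat_lit 5) (nat_lit 211) (nat_lit 5) (nat_lit 374) (nat_lit 351) (nat_lit 175)) (XT.lf (nat_lit 0) (nat_lit 8505911778) (nat_lit 684) (nat_lit 12064377961) (nat_lit 76) (nat_lit 6362718684) (nat_lit 202) (nat_lit 5) (nat_lit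 211) (nat_lit 5) (nat_lit 203) (nat_lit 5) (nat_lit 375) (nat_lit 351) (nat_lit 174)))) (XT.nd (nat_lit 78) (nat_lit 532) (nat_lit 0) (XT.lf (nat_lit 0) (nat_lit 2102994251) (nat_lit 532) (nat_lit 9478441796) (nat_lit 608) (nat_lit 15805957807) (nat_lit 195) (nat_lit 5) (nat_lit 202) (nat_lit 5) (nat_lit 203) (nat_lit 5) (nat_lit 376) (nat_lit 351) (nat_lit 173)) (XT.nd (nat_lit 78) (nat_lit 532) (nat_lit 0) (XT.lf (nat_lit 0) (nat_lit 14887004651) (nat_lit 608) (nat_lit 10933159651) (nat_lit 76) (nat_lit 2031115023) (nat_lit 195) (nat_lit 5) (nat_lit 203) (nat_lit 5) (nat_lit 196) (nat_lit 5) (nat_lit 377) (nat_lit 351) (nat_lit 172)) (XT.lf (nat_lit 0) (nat_lit 3825354638) (nat_lit 532) (nat_lit 14593156820) (nat_lit 608) (nat_lit 9906768550) (nat_lit 188) (nat_lit 5) (nat_lit 195) (nat_lit 5) (nat_lit 196) (nat_lit 5) (nat_lit 378) (nat_lit 351) (nat_lit 171))))) (XT.nd (nat_lit 234) (nat_lit 988) (nat_lit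 0) (XT.nd (nat_lit 78) (nat_lit 532) (nat_lit 0) (XT.lf (nat_lit 0) (nat_lit 19246719898) (nat_lit 532) (nat_lit 2915873941) (nat_lit 608) (nat_lit 6647709690) (nat_lit 188) (nat_lit 5) (nat_lit 195) (nat_lit 5) (nat_lit 196) (nat_lit 5) (nat_lit 379) (nat_lit 351) (nat_lit 170)) (XT.nd (nat_lit 78) (nat_lit 76) (nat_lit 0) (XT.lf (nat_lit 0) (nat_lit 5843268513) (nat_lit 456) (nat_lit 20315821203) (nat_lit 532) (nat_lit 3146586989) (nat_lit 182) (nat_lit 5) (nat_lit 188) (nat_lit 5) (nat_lit 189) (nat_lit 5) (nat_lit 380) (nat_lit 351) (nat_lit 169)) (XT.lf (nat_lit 0) (nat_lit 573366975) (nat_lit 532) (nat_lit 7942937540) (nat_lit 76) (nat_lit 21295792650) (nat_lit 181) (nat_lit 5) (nat_lit 188) (nat_lit 5) (nat_lit 182) (nat_lit 5) (nat_lit 381) (nat_lit 351) (nat_lit 168)))) (XT.nd (nat_lit 156) (nat_lit 456) (nat_lit 0) (XT.nd (nat_lit 78) (nat_lit 0) (nat_lit 0) (XT.lf (nat_lit 0) (nat_lit 4452692990)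 (nat_lit 608) (nat_lit 22200186390) (nat_lit 76) (nat_lit 3676567265) (nat_lit 174) (nat_lit 5) (nat_lit 182) (nat_lit 5) (nat_lit 175) (nat_lit 5) (nat_lit 382) (nat_lit 351) (nat_lit 167)) (XT.lf (nat_lit 0) (nat_lit 8610253702) (nat_lit 608) (nat_lit 6102572769) (nat_lit 76) (nat_lit 16144635983) (nat_lit 174) (nat_lit 5) (nat_lit 182) (nat_lit 5) (nat_lit 175) (nat_lit 5) (nat_lit 383) (nat_lit 351) (nat_lit 166))) (XT.nd (nat_lit 78) (nat_lit 0) (nat_lit 0) (XT.lf (nat_lit 0) (nat_lit 10682545724) (nat_lit 456) (nat_lit 2309316497) (nat_lit 532) (nat_lit 18406478335) (nat_lit 168) (nat_lit 5) (nat_lit 174) (nat_lit 5) (nat_lit 175) (nat_lit 5) (nat_lit 384) (nat_lit 351) (nat_lit 165)) (XT.lf (nat_lit 0) (nat_lit 17664451423) (nat_lit 532) (nat_lit 3962436221) (nat_lit 76) (nat_lit 10323772791) (nat_lit 168) (nat_lit 5) (nat_lit 175) (nat_lit 5) (nat_lit 169) (nat_lit 5) (nat_lit 385) (nat_lit 351)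 (nat_lit 164)))))) (XT.nd (nat_lit 546) (nat_lit 1444) (nat_lit 0) (XT.nd (nat_lit 234) (nat_lit 912) (nat_lit 0) (XT.nd (nat_lit 78) (nat_lit 380) (nat_lit 0) (XT.lf (nat_lit 0) (nat_lit 13530873477) (nat_lit 456) (nat_lit 9096062592) (nat_lit 532) (nat_lit 9888123674) (nat_lit 162) (nat_lit 5) (nat_lit 168) (nat_lit 5) (nat_lit 169) (nat_lit 5) (nat_lit 386) (nat_lit 351) (nat_lit 163)) (XT.nd (nat_lit 78) (nat_lit 380) (nat_lit 0) (XT.lf (nat_lit 0) (nat_lit 27812172334) (nat_lit 532) (nat_lit 1505882703) (nat_lit 76) (nat_lit 3776121005) (nat_lit 162) (nat_lit 5) (nat_lit 169) (nat_lit 5) (nat_lit 163) (nat_lit 5) (nat_lit 387) (nat_lit 351) (nat_lit 162)) (XT.lf (nat_lit 0) (nat_lit 16729399856) (nat_lit 380) (nat_lit 16671368616) (nat_lit 456) (nat_lit 282464563) (nat_lit 157) (nat_lit 5) (nat_lit 162) (nat_lit 5) (nat_lit 163) (nat_lit 5) (nat_lit 388) (nat_lit 351) (nat_lit 161)))) (XT.nd (nat_lit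 156) (nat_lit 380) (nat_lit 0) (XT.nd (nat_lit 78) (nat_lit 0) (nat_lit 0) (XT.lf (nat_lit 0) (nat_lit 1226312587) (nat_lit 456) (nat_lit 3569871444) (nat_lit 532) (nat_lit 29491652449) (nat_lit 150) (nat_lit 5) (nat_lit 156) (nat_lit 5) (nat_lit 157) (nat_lit 5) (nat_lit 389) (nat_lit 351) (nat_lit 160)) (XT.lf (nat_lit 0) (nat_lit 10286809925) (nat_lit 532) (nat_lit 14709768672) (nat_lit 76) (nat_lit 9905957856) (nat_lit 150) (nat_lit 5) (nat_lit 157) (nat_lit 5) (nat_lit 151) (nat_lit 5) (nat_lit 390) (nat_lit 351) (nat_lit 159))) (XT.nd (nat_lit 78) (nat_lit 0) (nat_lit 0) (XT.lf (nat_lit 0) (nat_lit 4236135223) (nat_lit 380) (nat_lit 11779169973) (nat_lit 456) (nat_lit 19518178855) (nat_lit 145) (nat_lit 5) (nat_lit 150) (nat_lit 5) (nat_lit 151) (nat_lit 5) (nat_lit 391) (nat_lit 351) (nat_lit 158)) (XT.lf (nat_lit 0) (nat_lit 22080429310) (nat_lit 456) (nat_lit 12149823043) (nat_lit 76) (nat_lit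 1948165614) (nat_lit 145) (nat_lit 5) (nat_lit 151) (nat_lit 5) (nat_lit 146) (nat_lit 5) (nat_lit 392) (nat_lit 351) (nat_lit 157))))) (XT.nd (nat_lit 234) (nat_lit 684) (nat_lit 0) (XT.nd (nat_lit 78) (nat_lit 380) (nat_lit 0) (XT.lf (nat_lit 0) (nat_lit 7600155401) (nat_lit 380) (nat_lit 20914244853) (nat_lit 456) (nat_lit 8322693931) (nat_lit 140) (nat_lit 5) (nat_lit 145) (nat_lit 5) (nat_lit 146) (nat_lit 5) (nat_lit 393) (nat_lit 351) (nat_lit 156)) (XT.nd (nat_lit 78) (nat_lit 380) (nat_lit 0) (XT.lf (nat_lit 0) (nat_lit 28188074409) (nat_lit 380) (nat_lit 7073262099) (nat_lit 456) (nat_lit 2250596844) (nat_lit 140) (nat_lit 5) (nat_lit 145) (nat_lit 5) (nat_lit 146) (nat_lit 5) (nat_lit 394) (nat_lit 351) (nat_lit 155)) (XT.lf (nat_lit 0) (nat_lit 4102608300) (nat_lit 380) (nat_lit 26906809501) (nat_lit 76) (nat_lit 7191134177) (nat_lit 135) (nat_lit 5) (nat_lit 140) (nat_lit 5) (nat_lit 136) (nat_lit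 5) (nat_lit 395) (nat_lit 351) (nat_lit 154)))) (XT.nd (nat_lit 156) (nat_lit 304) (nat_lit 0) (XT.nd (nat_lit 78) (nat_lit 380) (nat_lit 0) (XT.lf (nat_lit 0) (nat_lit 10763637247) (nat_lit 380) (nat_lit 6282854567) (nat_lit 76) (nat_lit 21857795940) (nat_lit 135) (nat_lit 5) (nat_lit 140) (nat_lit 5) (nat_lit 136) (nat_lit 5) (nat_lit 396) (nat_lit 351) (nat_lit 153)) (XT.lf (nat_lit 0) (nat_lit 15253979827) (nat_lit 380) (nat_lit 2514570364) (nat_lit 456) (nat_lit 21856264749) (nat_lit 130) (nat_lit 5) (nat_lit 135) (nat_lit 5) (nat_lit 136) (nat_lit 5) (nat_lit 397) (nat_lit 351) (nat_lit 152))) (XT.nd (nat_lit 78) (nat_lit 304) (nat_lit 0) (XT.lf (nat_lit 0) (nat_lit 25164847395) (nat_lit 456) (nat_lit 2923212989) (nat_lit 76) (nat_lit 12273461353) (nat_lit 130) (nat_lit 5) (nat_lit 136) (nat_lit 5) (nat_lit 131) (nat_lit 5) (nat_lit 398) (nat_lit 351) (nat_lit 151)) (XT.lf (nat_lit 0) (nat_lit 19520424752)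 (nat_lit 304) (nat_lit 13472677253) (nat_lit 380) (nat_lit 8120926556) (nat_lit 126) (nat_lit 5) (nat_lit 130) (nat_lit 5) (nat_lit 131) (nat_lit 5) (nat_lit 399) (nat_lit 351) (nat_lit 150))))))) (XT.nd (nat_lit 1014) (nat_lit 1672) (nat_lit 0) (XT.nd (nat_lit 468) (nat_lit 1292) (nat_lit 0) (XT.nd (nat_lit 234) (nat_lit 304) (nat_lit 0) (XT.nd (nat_lit 78) (nat_lit 380) (nat_lit 0) (XT.lf (nat_lit 0) (nat_lit 805842081) (nat_lit 304) (nat_lit 40300678071) (nat_lit 380) (nat_lit 781081811) (nat_lit 122) (nat_lit 5) (nat_lit 126) (nat_lit 5) (nat_lit 127) (nat_lit 5) (nat_lit 400) (nat_lit 351) (nat_lit 149)) (XT.nd (nat_lit 78) (nat_lit 304) (nat_lit 0) (XT.lf (nat_lit 0) (nat_lit 6997854287) (nat_lit 380) (nat_lit 18562113356) (nat_lit 76) (nat_lit 17111925484) (nat_lit 121) (nat_lit 5) (nat_lit 126) (nat_lit 5) (nat_lit 122) (nat_lit 5) (nat_lit 401) (nat_lit 351) (nat_lit 148)) (XT.lf (nat_lit 0) (nat_lit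 4714001316) (nat_lit 304) (nat_lit 10323415796) (nat_lit 380) (nat_lit 28440775959) (nat_lit 117) (nat_lit 5) (nat_lit 121) (nat_lit 5) (nat_lit 122) (nat_lit 5) (nat_lit 402) (nat_lit 351) (nat_lit 147)))) (XT.nd (nat_lit 78) (nat_lit 304) (nat_lit 0) (XT.lf (nat_lit 0) (nat_lit 23556756013) (nat_lit 380) (nat_lit 15291034389) (nat_lit 76) (nat_lit 5453734692) (nat_lit 117) (nat_lit 5) (nat_lit 122) (nat_lit 5) (nat_lit 118) (nat_lit 5) (nat_lit 403) (nat_lit 351) (nat_lit 146)) (XT.nd (nat_lit 78) (nat_lit 0) (nat_lit 0) (XT.lf (nat_lit 0) (nat_lit 8955557596) (nat_lit 304) (nat_lit 23562154102) (nat_lit 380) (nat_lit 12626265017) (nat_lit 113) (nat_lit 5) (nat_lit 117) (nat_lit 5) (nat_lit 118) (nat_lit 5) (nat_lit 404) (nat_lit 351) (nat_lit 145)) (XT.lf (nat_lit 0) (nat_lit 34239727690) (nat_lit 304) (nat_lit 7659950542) (nat_lit 380) (nat_lit 4107458897) (nat_lit 113) (nat_lit 5) (nat_lit 117) (nat_lit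 5) (nat_lit 118) (nat_lit 5) (nat_lit 405) (nat_lit 351) (nat_lit 144))))) (XT.nd (nat_lit 234) (nat_lit 608) (nat_lit 0) (XT.nd (nat_lit 78) (nat_lit 304) (nat_lit 0) (XT.lf (nat_lit 0) (nat_lit 4789969189) (nat_lit 380) (nat_lit 33372929197) (nat_lit 76) (nat_lit 8725525025) (nat_lit 108) (nat_lit 5) (nat_lit 113) (nat_lit 5) (nat_lit 109) (nat_lit 5) (nat_lit 406) (nat_lit 351) (nat_lit 143)) (XT.nd (nat_lit 78) (nat_lit 304) (nat_lit 0) (XT.lf (nat_lit 0) (nat_lit 14065448144) (nat_lit 380) (nat_lit 8115407041) (nat_lit 76) (nat_lit 25608263195) (nat_lit 108) (nat_lit 5) (nat_lit 113) (nat_lit 5) (nat_lit 109) (nat_lit 5) (nat_lit 407) (nat_lit 351) (nat_lit 142)) (XT.lf (nat_lit 0) (nat_lit 18252871095) (nat_lit 304) (nat_lit 5539679605) (nat_lit 380) (nat_lit 24919083354) (nat_lit 104) (nat_lit 5) (nat_lit 108) (nat_lit 5) (nat_lit 109) (nat_lit 5) (nat_lit 408) (nat_lit 351) (nat_lit 141)))) (XT.nd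 (nat_lit 156) (nat_lit 380) (nat_lit 0) (XT.nd (nat_lit 78) (nat_lit 228) (nat_lit 0) (XT.lf (nat_lit 0) (nat_lit 34003663260) (nat_lit 380) (nat_lit 4196306558) (nat_lit 76) (nat_lit 11456090088) (nat_lit 104) (nat_lit 5) (nat_lit 109) (nat_lit 5) (nat_lit 105) (nat_lit 5) (nat_lit 409) (nat_lit 351) (nat_lit 140)) (XT.lf (nat_lit 0) (nat_lit 23249783991) (nat_lit 228) (nat_lit 21547647693) (nat_lit 304) (nat_lit 5823097770) (nat_lit 101) (nat_lit 5) (nat_lit 104) (nat_lit 5) (nat_lit 105) (nat_lit 5) (nat_lit 410) (nat_lit 351) (nat_lit 139))) (XT.nd (nat_lit 78) (nat_lit 304) (nat_lit 0) (XT.lf (nat_lit 0) (nat_lit 4257936752) (nat_lit 304) (nat_lit 52237191) (nat_lit 76) (nat_lit 47301295783) (nat_lit 100) (nat_lit 5) (nat_lit 104) (nat_lit 5) (nat_lit 101) (nat_lit 5) (nat_lit 411) (nat_lit 351) (nat_lit 138)) (XT.lf (nat_lit 0) (nat_lit 14929688259) (nat_lit 380) (nat_lit 24171812888) (nat_lit 76)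 (nat_lit 13516748239) (nat_lit 96) (nat_lit 5) (nat_lit 101) (nat_lit 5) (nat_lit 97) (nat_lit 5) (nat_lit 412) (nat_lit 351) (nat_lit 137)))))) (XT.nd (nat_lit 546) (nat_lit 684) (nat_lit 0) (XT.nd (nat_lit 234) (nat_lit 532) (nat_lit 0) (XT.nd (nat_lit 78) (nat_lit 228) (nat_lit 0) (XT.lf (nat_lit 0) (nat_lit 4181829616) (nat_lit 228) (nat_lit 21821237569) (nat_lit 304) (nat_lit 27649721534) (nat_lit 93) (nat_lit 5) (nat_lit 96) (nat_lit 5) (nat_lit 97) (nat_lit 5) (nat_lit 413) (nat_lit 351) (nat_lit 136)) (XT.nd (nat_lit 78) (nat_lit 228) (nat_lit 0) (XT.lf (nat_lit 0) (nat_lit 33878592114) (nat_lit 228) (nat_lit 3772239672) (nat_lit 304) (nat_lit 17060267433) (nat_lit 93) (nat_lit 5) (nat_lit 96) (nat_lit 5) (nat_lit 97) (nat_lit 5) (nat_lit 414) (nat_lit 351) (nat_lit 135)) (XT.lf (nat_lit 0) (nat_lit 8689268960) (nat_lit 228) (nat_lit 41182870525) (nat_lit 304) (nat_lit 5922296742) (nat_lit 90) (nat_lit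 5) (nat_lit 93) (nat_lit 5) (nat_lit 94) (nat_lit 5) (nat_lit 415) (nat_lit 351) (nat_lit 134)))) (XT.nd (nat_lit 156) (nat_lit 228) (nat_lit 0) (XT.nd (nat_lit 78) (nat_lit 228) (nat_lit 0) (XT.lf (nat_lit 0) (nat_lit 5689464633) (nat_lit 304) (nat_lit 17475952966) (nat_lit 76) (nat_lit 33735817321) (nat_lit 89) (nat_lit 5) (nat_lit 93) (nat_lit 5) (nat_lit 90) (nat_lit 5) (nat_lit 416) (nat_lit 351) (nat_lit 133)) (XT.lf (nat_lit 0) (nat_lit 13238972293) (nat_lit 228) (nat_lit 4417038446) (nat_lit 304) (nat_lit 40379704268) (nat_lit 86) (nat_lit 5) (nat_lit 89) (nat_lit 5) (nat_lit 90) (nat_lit 5) (nat_lit 417) (nat_lit 351) (nat_lit 132))) (XT.nd (nat_lit 78) (nat_lit 228) (nat_lit 0) (XT.lf (nat_lit 0) (nat_lit 30301159426) (nat_lit 304) (nat_lit 14113149698) (nat_lit 76) (nat_lit 14780332630) (nat_lit 86) (nat_lit 5) (nat_lit 90) (nat_lit 5) (nat_lit 87) (nat_lit 5) (nat_lit 418) (nat_lit 351) (nat_lit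 131)) (XT.lf (nat_lit 0) (nat_lit 17791596076) (nat_lit 228) (nat_lit 25747093007) (nat_lit 304) (nat_lit 16843256858) (nat_lit 83) (nat_lit 5) (nat_lit 86) (nat_lit 5) (nat_lit 87) (nat_lit 5) (nat_lit 419) (nat_lit 351) (nat_lit 130))))) (XT.nd (nat_lit 234) (nat_lit 456) (nat_lit 0) (XT.nd (nat_lit 78) (nat_lit 228) (nat_lit 0) (XT.lf (nat_lit 0) (nat_lit 50940017308) (nat_lit 228) (nat_lit 6374135954) (nat_lit 304) (nat_lit 4286492149) (nat_lit 83) (nat_lit 5) (nat_lit 86) (nat_lit 5) (nat_lit 87) (nat_lit 5) (nat_lit 420) (nat_lit 351) (nat_lit 129)) (XT.nd (nat_lit 78) (nat_lit 0) (nat_lit 0) (XT.lf (nat_lit 0) (nat_lit 8827139683) (nat_lit 228) (nat_lit 40398660405) (nat_lit 76) (nat_lit 13617145638) (nat_lit 80) (nat_lit 5) (nat_lit 83) (nat_lit 5) (nat_lit 81) (nat_lit 5) (nat_lit 421) (nat_lit 351) (nat_lit 128)) (XT.lf (nat_lit 0) (nat_lit 22418192899) (nat_lit 228) (nat_lit 7467762267) (nat_lit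 76) (nat_lit 34230182051) (nat_lit 80) (nat_lit 5) (nat_lit 83) (nat_lit 5) (nat_lit 81) (nat_lit 5) (nat_lit 422) (nat_lit 351) (nat_lit 127)))) (XT.nd (nat_lit 156) (nat_lit 228) (nat_lit 0) (XT.nd (nat_lit 78) (nat_lit 0) (nat_lit 0) (XT.lf (nat_lit 0) (nat_lit 26974778975) (nat_lit 228) (nat_lit 9699884312) (nat_lit 304) (nat_lit 28745130971) (nat_lit 77) (nat_lit 5) (nat_lit 80) (nat_lit 5) (nat_lit 81) (nat_lit 5) (nat_lit 423) (nat_lit 351) (nat_lit 126)) (XT.lf (nat_lit 0) (nat_lit 51540004179) (nat_lit 304) (nat_lit 4266658893) (nat_lit 76) (nat_lit 10950463007) (nat_lit 77) (nat_lit 5) (nat_lit 81) (nat_lit 5) (nat_lit 78) (nat_lit 5) (nat_lit 424) (nat_lit 351) (nat_lit 125))) (XT.nd (nat_lit 78) (nat_lit 76) (nat_lit 0) (XT.lf (nat_lit 0) (nat_lit 31452161543) (nat_lit 152) (nat_lit 35795965396) (nat_lit 228) (nat_lit 874546616) (nat_lit 75) (nat_lit 5) (nat_lit 77) (nat_lit 5) (nat_lit 78)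 (nat_lit 5) (nat_lit 425) (nat_lit 351) (nat_lit 124)) (XT.lf (nat_lit 0) (nat_lit 13669062222) (nat_lit 228) (nat_lit 1334510478) (nat_lit 76) (nat_lit 54520348247) (nat_lit 74) (nat_lit 5) (nat_lit 77) (nat_lit 5) (nat_lit 75) (nat_lit 5) (nat_lit 426) (nat_lit 351) (nat_lit 123))))))))
noncomputable def xc215 : XT := (XT.nd (nat_lit 42744) (nat_lit 0) (nat_lit 4636) (XT.nd (nat_lit 41652) (nat_lit 0) (nat_lit 11628) (XT.nd (nat_lit 41106) (nat_lit 0) (nat_lit 13072) (XT.nd (nat_lit 234) (nat_lit 304) (nat_lit 0) (XT.nd (nat_lit 78) (nat_lit 152) (nat_lit 0) (XT.lf (nat_lit 0) (nat_lit 29038649006) (nat_lit 304) (nat_lit 35273841974) (nat_lit 76) (nat_lit 6642237919) (nat_lit 71) (nat_lit 5) (nat_lit 75) (nat_lit 5) (nat_lit 72) (nat_lit 5) (nat_lit 427) (nat_lit 351) (nat_lit 122)) (XT.nd (nat_lit 78) (nat_lit 0) (nat_lit 0) (XT.lf (nat_lit 0) (nat_lit 1279801952) (nat_lit 152) (nat_lit 43762489267)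 (nat_lit 228) (nat_lit 27380981148) (nat_lit 69) (nat_lit 5) (nat_lit 71) (nat_lit 5) (nat_lit 72) (nat_lit 5) (nat_lit 428) (nat_lit 351) (nat_lit 121)) (XT.lf (nat_lit 0) (nat_lit 39650625673) (nat_lit 152) (nat_lit 22230139061) (nat_lit 228) (nat_lit 12044466046) (nat_lit 69) (nat_lit 5) (nat_lit 71) (nat_lit 5) (nat_lit 72) (nat_lit 5) (nat_lit 429) (nat_lit 351) (nat_lit 120)))) (XT.nd (nat_lit 78) (nat_lit 0) (nat_lit 0) (XT.lf (nat_lit 0) (nat_lit 3713585126) (nat_lit 304) (nat_lit 71735666806) (nat_lit 76) (nat_lit 20874506) (nat_lit 65) (nat_lit 5) (nat_lit 69) (nat_lit 5) (nat_lit 66) (nat_lit 5) (nat_lit 430) (nat_lit 351) (nat_lit 119)) (XT.nd (nat_lit 40716) (nat_lit 0) (nat_lit 14212) (XT.lf (nat_lit 0) (nat_lit 20270492286) (nat_lit 304) (nat_lit 33809846878) (nat_lit 76) (nat_lit 22960406627) (nat_lit 65) (nat_lit 5) (nat_lit 69) (nat_lit 5) (nat_lit 66) (nat_lit 5) (nat_lit 431) (nat_lit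 351) (nat_lit 118)) (XT.lf (nat_lit 0) (nat_lit 4399218277) (nat_lit 0) (nat_lit 4399218277) (nat_lit 1140) (nat_lit 734313911) (nat_lit 252) (nat_lit 5) (nat_lit 252) (nat_lit 3) (nat_lit 267) (nat_lit 3) (nat_lit 352) (nat_lit 352) (nat_lit 196))))) (XT.nd (nat_lit 234) (nat_lit 1140) (nat_lit 0) (XT.nd (nat_lit 78) (nat_lit 0) (nat_lit 0) (XT.lf (nat_lit 0) (nat_lit 18039550903) (nat_lit 1140) (nat_lit 1152607700) (nat_lit 1216) (nat_lit 153867527) (nat_lit 252) (nat_lit 5) (nat_lit 267) (nat_lit 3) (nat_lit 268) (nat_lit 5) (nat_lit 353) (nat_lit 352) (nat_lit 195)) (XT.nd (nat_lit 78) (nat_lit 0) (nat_lit 0) (XT.lf (nat_lit 76) (nat_lit 8306557719) (nat_lit 0) (nat_lit 10349029246) (nat_lit 1216) (nat_lit 974581509) (nat_lit 253) (nat_lit 5) (nat_lit 252) (nat_lit 5) (nat_lit 268) (nat_lit 5) (nat_lit 354) (nat_lit 352) (nat_lit 194)) (XT.lf (nat_lit 76) (nat_lit 18069459143) (nat_lit 0) (nat_lit 1225566267)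 (nat_lit 1216) (nat_lit 627665662) (nat_lit 253) (nat_lit 5) (nat_lit 252) (nat_lit 5) (nat_lit 268) (nat_lit 5) (nat_lit 355) (nat_lit 352) (nat_lit 193)))) (XT.nd (nat_lit 156) (nat_lit 0) (nat_lit 76) (XT.nd (nat_lit 78) (nat_lit 1216) (nat_lit 0) (XT.lf (nat_lit 76) (nat_lit 7974532531) (nat_lit 0) (nat_lit 12127827351) (nat_lit 1216) (nat_lit 117171596) (nat_lit 254) (nat_lit 5) (nat_lit 253) (nat_lit 5) (nat_lit 269) (nat_lit 5) (nat_lit 356) (nat_lit 352) (nat_lit 192)) (XT.lf (nat_lit 0) (nat_lit 425290249) (nat_lit 1216) (nat_lit 2409724839) (nat_lit 1292) (nat_lit 17689408672) (nat_lit 237) (nat_lit 5) (nat_lit 253) (nat_lit 5) (nat_lit 254) (nat_lit 5) (nat_lit 357) (nat_lit 352) (nat_lit 191))) (XT.nd (nat_lit 78) (nat_lit 0) (nat_lit 0) (XT.lf (nat_lit 0) (nat_lit 1116634915) (nat_lit 1216) (nat_lit 13032651946) (nat_lit 1292) (nat_lit 6685095443) (nat_lit 238) (nat_lit 5) (nat_lit 254) (nat_lit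 5) (nat_lit 255) (nat_lit 5) (nat_lit 358) (nat_lit 352) (nat_lit 190)) (XT.lf (nat_lit 0) (nat_lit 1875311563) (nat_lit 1216) (nat_lit 2816232545) (nat_lit 1292) (nat_lit 16460700871) (nat_lit 238) (nat_lit 5) (nat_lit 254) (nat_lit 5) (nat_lit 255) (nat_lit 5) (nat_lit 359) (nat_lit 352) (nat_lit 189)))))) (XT.nd (nat_lit 546) (nat_lit 1596) (nat_lit 0) (XT.nd (nat_lit 234) (nat_lit 0) (nat_lit 76) (XT.nd (nat_lit 78) (nat_lit 0) (nat_lit 0) (XT.lf (nat_lit 0) (nat_lit 2775701198) (nat_lit 1216) (nat_lit 13670710443) (nat_lit 1292) (nat_lit 5029666345) (nat_lit 239) (nat_lit 5) (nat_lit 255) (nat_lit 5) (nat_lit 256) (nat_lit 5) (nat_lit 360) (nat_lit 352) (nat_lit 188)) (XT.nd (nat_lit 78) (nat_lit 0) (nat_lit 76) (XT.lf (nat_lit 0) (nat_lit 3772551027) (nat_lit 1216) (nat_lit 3056140221) (nat_lit 1292) (nat_lit 14978854225) (nat_lit 239) (nat_lit 5) (nat_lit 255) (nat_lit 5) (nat_lit 256) (nat_lit 5)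 (nat_lit 361) (nat_lit 352) (nat_lit 187)) (XT.lf (nat_lit 0) (nat_lit 4901300774) (nat_lit 1216) (nat_lit 14147484101) (nat_lit 1292) (nat_lit 3097115137) (nat_lit 240) (nat_lit 5) (nat_lit 256) (nat_lit 5) (nat_lit 257) (nat_lit 5) (nat_lit 362) (nat_lit 352) (nat_lit 186)))) (XT.nd (nat_lit 156) (nat_lit 0) (nat_lit 76) (XT.nd (nat_lit 78) (nat_lit 0) (nat_lit 76) (XT.lf (nat_lit 0) (nat_lit 6157275098) (nat_lit 1216) (nat_lit 3118146928) (nat_lit 1292) (nat_lit 13216185072) (nat_lit 240) (nat_lit 5) (nat_lit 256) (nat_lit 5) (nat_lit 257) (nat_lit 5) (nat_lit 363) (nat_lit 352) (nat_lit 185)) (XT.lf (nat_lit 0) (nat_lit 7534855287) (nat_lit 1216) (nat_lit 14451705376) (nat_lit 1292) (nat_lit 858609630) (nat_lit 241) (nat_lit 5) (nat_lit 257) (nat_lit 5) (nat_lit 258) (nat_lit 5) (nat_lit 364) (nat_lit 352) (nat_lit 184))) (XT.nd (nat_lit 78) (nat_lit 0) (nat_lit 0) (XT.lf (nat_lit 0) (nat_lit 9072268579)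 (nat_lit 1216) (nat_lit 2990221497) (nat_lit 1292) (nat_lit 11143297753) (nat_lit 241) (nat_lit 5) (nat_lit 257) (nat_lit 5) (nat_lit 258) (nat_lit 5) (nat_lit 365) (nat_lit 352) (nat_lit 183)) (XT.lf (nat_lit 76) (nat_lit 8986562055) (nat_lit 0) (nat_lit 1750646849) (nat_lit 1292) (nat_lit 12837575388) (nat_lit 242) (nat_lit 5) (nat_lit 241) (nat_lit 5) (nat_lit 258) (nat_lit 5) (nat_lit 366) (nat_lit 352) (nat_lit 182))))) (XT.nd (nat_lit 234) (nat_lit 1824) (nat_lit 0) (XT.nd (nat_lit 78) (nat_lit 0) (nat_lit 0) (XT.lf (nat_lit 0) (nat_lit 12562998782) (nat_lit 1216) (nat_lit 2659592231) (nat_lit 1292) (nat_lit 8728935063) (nat_lit 242) (nat_lit 5) (nat_lit 258) (nat_lit 5) (nat_lit 259) (nat_lit 5) (nat_lit 367) (nat_lit 352) (nat_lit 181)) (XT.nd (nat_lit 78) (nat_lit 0) (nat_lit 76) (XT.lf (nat_lit 76) (nat_lit 9796827123) (nat_lit 0) (nat_lit 4753520916) (nat_lit 1292) (nat_lit 9786020898) (nat_lit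 243) (nat_lit 5) (nat_lit 242) (nat_lit 5) (nat_lit 259) (nat_lit 5) (nat_lit 368) (nat_lit 352) (nat_lit 180)) (XT.lf (nat_lit 0) (nat_lit 16677787720) (nat_lit 1216) (nat_lit 2112737244) (nat_lit 76) (nat_lit 5939820345) (nat_lit 243) (nat_lit 5) (nat_lit 259) (nat_lit 5) (nat_lit 244) (nat_lit 5) (nat_lit 369) (nat_lit 352) (nat_lit 179)))) (XT.nd (nat_lit 156) (nat_lit 684) (nat_lit 0) (XT.nd (nat_lit 78) (nat_lit 0) (nat_lit 0) (XT.lf (nat_lit 0) (nat_lit 10847581672) (nat_lit 1216) (nat_lit 8168328397) (nat_lit 1292) (nat_lit 6115827375) (nat_lit 227) (nat_lit 5) (nat_lit 243) (nat_lit 5) (nat_lit 244) (nat_lit 5) (nat_lit 370) (nat_lit 352) (nat_lit 178)) (XT.lf (nat_lit 0) (nat_lit 21467992790) (nat_lit 1292) (nat_lit 1335375793) (nat_lit 76) (nat_lit 2740490451) (nat_lit 227) (nat_lit 5) (nat_lit 244) (nat_lit 5) (nat_lit 228) (nat_lit 5) (nat_lit 371) (nat_lit 352) (nat_lit 177))) (XT.nd (nat_lit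 78) (nat_lit 76) (nat_lit 0) (XT.lf (nat_lit 0) (nat_lit 12154282255) (nat_lit 608) (nat_lit 12032811924) (nat_lit 684) (nat_lit 1775448534) (nat_lit 219) (nat_lit 5) (nat_lit 227) (nat_lit 5) (nat_lit 228) (nat_lit 5) (nat_lit 372) (nat_lit 352) (nat_lit 176)) (XT.lf (nat_lit 0) (nat_lit 591800047) (nat_lit 684) (nat_lit 327153957) (nat_lit 76) (nat_lit 25474381340) (nat_lit 218) (nat_lit 5) (nat_lit 227) (nat_lit 5) (nat_lit 219) (nat_lit 5) (nat_lit 373) (nat_lit 352) (nat_lit 175))))))) (XT.nd (nat_lit 1014) (nat_lit 3192) (nat_lit 0) (XT.nd (nat_lit 468) (nat_lit 1520) (nat_lit 0) (XT.nd (nat_lit 234) (nat_lit 1064) (nat_lit 0) (XT.nd (nat_lit 78) (nat_lit 608) (nat_lit 0) (XT.lf (nat_lit 0) (nat_lit 3225705672) (nat_lit 684) (nat_lit 13128960868) (nat_lit 76) (nat_lit 10474920069) (nat_lit 210) (nat_lit 5) (nat_lit 219) (nat_lit 5) (nat_lit 211) (nat_lit 5) (nat_lit 374) (nat_lit 352) (nat_lit 174))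 (XT.nd (nat_lit 78) (nat_lit 0) (nat_lit 0) (XT.lf (nat_lit 0) (nat_lit 881280048) (nat_lit 608) (nat_lit 5074253002) (nat_lit 684) (nat_lit 21322887115) (nat_lit 202) (nat_lit 5) (nat_lit 210) (nat_lit 5) (nat_lit 211) (nat_lit 5) (nat_lit 375) (nat_lit 352) (nat_lit 173)) (XT.lf (nat_lit 0) (nat_lit 8960133324) (nat_lit 684) (nat_lit 12223991749) (nat_lit 76) (nat_lit 6550809147) (nat_lit 202) (nat_lit 5) (nat_lit 211) (nat_lit 5) (nat_lit 203) (nat_lit 5) (nat_lit 376) (nat_lit 352) (nat_lit 172)))) (XT.nd (nat_lit 78) (nat_lit 532) (nat_lit 0) (XT.lf (nat_lit 0) (nat_lit 2366418124) (nat_lit 532) (nat_lit 9757633527) (nat_lit 608) (nat_lit 16079018426) (nat_lit 195) (nat_lit 5) (nat_lit 202) (nat_lit 5) (nat_lit 203) (nat_lit 5) (nat_lit 377) (nat_lit 352) (nat_lit 171)) (XT.nd (nat_lit 78) (nat_lit 532) (nat_lit 0) (XT.lf (nat_lit 0) (nat_lit 15523150847) (nat_lit 608) (nat_lit 11060931117) (nat_lit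 76) (nat_lit 2096961875) (nat_lit 195) (nat_lit 5) (nat_lit 203) (nat_lit 5) (nat_lit 196) (nat_lit 5) (nat_lit 378) (nat_lit 352) (nat_lit 170)) (XT.lf (nat_lit 0) (nat_lit 4138375627) (nat_lit 532) (nat_lit 15018612563) (nat_lit 608) (nat_lit 10012387349) (nat_lit 188) (nat_lit 5) (nat_lit 195) (nat_lit 5) (nat_lit 196) (nat_lit 5) (nat_lit 379) (nat_lit 352) (nat_lit 169))))) (XT.nd (nat_lit 234) (nat_lit 988) (nat_lit 0) (XT.nd (nat_lit 78) (nat_lit 532) (nat_lit 0) (XT.lf (nat_lit 0) (nat_lit 20016607271) (nat_lit 532) (nat_lit 2991370586) (nat_lit 608) (nat_lit 6661136848) (nat_lit 188) (nat_lit 5) (nat_lit 195) (nat_lit 5) (nat_lit 196) (nat_lit 5) (nat_lit 380) (nat_lit 352) (nat_lit 168)) (XT.nd (nat_lit 78) (nat_lit 76) (nat_lit 0) (XT.lf (nat_lit 0) (nat_lit 6214495232) (nat_lit 456) (nat_lit 20906611102) (nat_lit 532) (nat_lit 3058343019) (nat_lit 182) (nat_lit 5) (nat_lit 188) (nat_lit 5) (nat_lit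 189) (nat_lit 5) (nat_lit 381) (nat_lit 352) (nat_lit 167)) (XT.lf (nat_lit 0) (nat_lit 764429717) (nat_lit 532) (nat_lit 7987467750) (nat_lit 76) (nat_lit 21949271038) (nat_lit 181) (nat_lit 5) (nat_lit 188) (nat_lit 5) (nat_lit 182) (nat_lit 5) (nat_lit 382) (nat_lit 352) (nat_lit 166)))) (XT.nd (nat_lit 156) (nat_lit 456) (nat_lit 0) (XT.nd (nat_lit 78) (nat_lit 0) (nat_lit 0) (XT.lf (nat_lit 0) (nat_lit 4757119782) (nat_lit 608) (nat_lit 22669344817) (nat_lit 76) (nat_lit 3807666548) (nat_lit 174) (nat_lit 5) (nat_lit 182) (nat_lit 5) (nat_lit 175) (nat_lit 5) (nat_lit 383) (nat_lit 352) (nat_lit 165)) (XT.lf (nat_lit 0) (nat_lit 9034431218) (nat_lit 608) (nat_lit 6094536200) (nat_lit 76) (nat_lit 16649171436) (nat_lit 174) (nat_lit 5) (nat_lit 182) (nat_lit 5) (nat_lit 175) (nat_lit 5) (nat_lit 384) (nat_lit 352) (nat_lit 164))) (XT.nd (nat_lit 78) (nat_lit 0) (nat_lit 0) (XT.lf (nat_lit 0) (nat_lit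 11192262184) (nat_lit 456) (nat_lit 2352213738) (nat_lit 532) (nat_lit 18790859819) (nat_lit 168) (nat_lit 5) (nat_lit 174) (nat_lit 5) (nat_lit 175) (nat_lit 5) (nat_lit 385) (nat_lit 352) (nat_lit 163)) (XT.lf (nat_lit 0) (nat_lit 18352745584) (nat_lit 532) (nat_lit 3893016571) (nat_lit 76) (nat_lit 10658599996) (nat_lit 168) (nat_lit 5) (nat_lit 175) (nat_lit 5) (nat_lit 169) (nat_lit 5) (nat_lit 386) (nat_lit 352) (nat_lit 162)))))) (XT.nd (nat_lit 546) (nat_lit 1444) (nat_lit 0) (XT.nd (nat_lit 234) (nat_lit 912) (nat_lit 0) (XT.nd (nat_lit 78) (nat_lit 380) (nat_lit 0) (XT.lf (nat_lit 0) (nat_lit 14123246410) (nat_lit 456) (nat_lit 9338038154) (nat_lit 532) (nat_lit 10024495439) (nat_lit 162) (nat_lit 5) (nat_lit 168) (nat_lit 5) (nat_lit 169) (nat_lit 5) (nat_lit 387) (nat_lit 352) (nat_lit 161)) (XT.nd (nat_lit 78) (nat_lit 380) (nat_lit 0) (XT.lf (nat_lit 0) (nat_lit 28797836051) (nat_lit 532)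 (nat_lit 1365737660) (nat_lit 76) (nat_lit 3918825239) (nat_lit 162) (nat_lit 5) (nat_lit 169) (nat_lit 5) (nat_lit 163) (nat_lit 5) (nat_lit 388) (nat_lit 352) (nat_lit 160)) (XT.lf (nat_lit 0) (nat_lit 17414786499) (nat_lit 380) (nat_lit 17136660779) (nat_lit 456) (nat_lit 137761505) (nat_lit 157) (nat_lit 5) (nat_lit 162) (nat_lit 5) (nat_lit 163) (nat_lit 5) (nat_lit 389) (nat_lit 352) (nat_lit 159)))) (XT.nd (nat_lit 156) (nat_lit 380) (nat_lit 0) (XT.nd (nat_lit 78) (nat_lit 0) (nat_lit 0) (XT.lf (nat_lit 0) (nat_lit 1447826468) (nat_lit 456) (nat_lit 3639832322) (nat_lit 532) (nat_lit 30224327072) (nat_lit 150) (nat_lit 5) (nat_lit 156) (nat_lit 5) (nat_lit 157) (nat_lit 5) (nat_lit 390) (nat_lit 352) (nat_lit 158)) (XT.lf (nat_lit 0) (nat_lit 10739051315) (nat_lit 532) (nat_lit 14967709064) (nat_lit 76) (nat_lit 10238486710) (nat_lit 150) (nat_lit 5) (nat_lit 157) (nat_lit 5) (nat_lit 151) (nat_lit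 5) (nat_lit 391) (nat_lit 352) (nat_lit 157))) (XT.nd (nat_lit 78) (nat_lit 0) (nat_lit 0) (XT.lf (nat_lit 0) (nat_lit 4544774373) (nat_lit 380) (nat_lit 12092188684) (nat_lit 456) (nat_lit 19958234849) (nat_lit 145) (nat_lit 5) (nat_lit 150) (nat_lit 5) (nat_lit 151) (nat_lit 5) (nat_lit 392) (nat_lit 352) (nat_lit 156)) (XT.lf (nat_lit 0) (nat_lit 22880304943) (nat_lit 456) (nat_lit 12334261590) (nat_lit 76) (nat_lit 2045026980) (nat_lit 145) (nat_lit 5) (nat_lit 151) (nat_lit 5) (nat_lit 146) (nat_lit 5) (nat_lit 393) (nat_lit 352) (nat_lit 155))))) (XT.nd (nat_lit 234) (nat_lit 684) (nat_lit 0) (XT.nd (nat_lit 78) (nat_lit 380) (nat_lit 0) (XT.lf (nat_lit 0) (nat_lit 8006450951) (nat_lit 380) (nat_lit 21498554136) (nat_lit 456) (nat_lit 8433095175) (nat_lit 140) (nat_lit 5) (nat_lit 145) (nat_lit 5) (nat_lit 146) (nat_lit 5) (nat_lit 394) (nat_lit 352) (nat_lit 154)) (XT.nd (nat_lit 78) (nat_lit 380)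 (nat_lit 0) (XT.lf (nat_lit 0) (nat_lit 29206814591) (nat_lit 380) (nat_lit 7243597765) (nat_lit 456) (nat_lit 2182891862) (nat_lit 140) (nat_lit 5) (nat_lit 145) (nat_lit 5) (nat_lit 146) (nat_lit 5) (nat_lit 395) (nat_lit 352) (nat_lit 153)) (XT.lf (nat_lit 0) (nat_lit 4356502010) (nat_lit 380) (nat_lit 27536412617) (nat_lit 76) (nat_lit 7449682258) (nat_lit 135) (nat_lit 5) (nat_lit 140) (nat_lit 5) (nat_lit 136) (nat_lit 5) (nat_lit 396) (nat_lit 352) (nat_lit 152)))) (XT.nd (nat_lit 156) (nat_lit 304) (nat_lit 0) (XT.nd (nat_lit 78) (nat_lit 380) (nat_lit 0) (XT.lf (nat_lit 0) (nat_lit 11213551666) (nat_lit 380) (nat_lit 6298911886) (nat_lit 76) (nat_lit 22555096862) (nat_lit 135) (nat_lit 5) (nat_lit 140) (nat_lit 5) (nat_lit 136) (nat_lit 5) (nat_lit 397) (nat_lit 352) (nat_lit 151)) (XT.lf (nat_lit 0) (nat_lit 15882337066) (nat_lit 380) (nat_lit 2544216985) (nat_lit 456) (nat_lit 22383212437) (nat_lit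 130) (nat_lit 5) (nat_lit 135) (nat_lit 5) (nat_lit 136) (nat_lit 5) (nat_lit 398) (nat_lit 352) (nat_lit 150))) (XT.nd (nat_lit 78) (nat_lit 304) (nat_lit 0) (XT.lf (nat_lit 0) (nat_lit 26041528274) (nat_lit 456) (nat_lit 2841889400) (nat_lit 76) (nat_lit 12685254468) (nat_lit 130) (nat_lit 5) (nat_lit 136) (nat_lit 5) (nat_lit 131) (nat_lit 5) (nat_lit 399) (nat_lit 352) (nat_lit 149)) (XT.lf (nat_lit 0) (nat_lit 20273400415) (nat_lit 304) (nat_lit 13829293209) (nat_lit 380) (nat_lit 8241119911) (nat_lit 126) (nat_lit 5) (nat_lit 130) (nat_lit 5) (nat_lit 131) (nat_lit 5) (nat_lit 400) (nat_lit 352) (nat_lit 148))))))))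
noncomputable def xc216 : XT := (XT.nd (nat_lit 2028) (nat_lit 456) (nat_lit 0) (XT.nd (nat_lit 1014) (nat_lit 1596) (nat_lit 0) (XT.nd (nat_lit 468) (nat_lit 1292) (nat_lit 0) (XT.nd (nat_lit 234) (nat_lit 304) (nat_lit 0) (XT.nd (nat_lit 78) (nat_lit 380) (nat_lit 0) (XT.lf (nat_lit 0) (nat_lit 998886953) (nat_lit 304) (nat_lit 41459205263) (nat_lit 380) (nat_lit 682545808) (nat_lit 122) (nat_lit 5) (nat_lit 126) (nat_lit 5) (nat_lit 127) (nat_lit 5) (nat_lit 401) (nat_lit 352) (nat_lit 147)) (XT.nd (nat_lit 78) (nat_lit 304) (nat_lit 0) (XT.lf (nat_lit 0) (nat_lit 7323895172) (nat_lit 380) (nat_lit 18952676589) (nat_lit 76) (nat_lit 17671956634) (nat_lit 121) (nat_lit 5) (nat_lit 126) (nat_lit 5) (nat_lit 122) (nat_lit 5) (nat_lit 402) (nat_lit 352) (nat_lit 146)) (XT.lf (nat_lit 0) (nat_lit 5020091130) (nat_lit 304) (nat_lit 10582754952) (nat_lit 380) (nat_lit 29176226337) (nat_lit 117) (nat_lit 5)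 (nat_lit 121) (nat_lit 5) (nat_lit 122) (nat_lit 5) (nat_lit 403) (nat_lit 352) (nat_lit 145)))) (XT.nd (nat_lit 78) (nat_lit 304) (nat_lit 0) (XT.lf (nat_lit 0) (nat_lit 24374905858) (nat_lit 380) (nat_lit 15586996396) (nat_lit 76) (nat_lit 5665289013) (nat_lit 117) (nat_lit 5) (nat_lit 122) (nat_lit 5) (nat_lit 118) (nat_lit 5) (nat_lit 404) (nat_lit 352) (nat_lit 144)) (XT.nd (nat_lit 78) (nat_lit 0) (nat_lit 0) (XT.lf (nat_lit 0) (nat_lit 9385397573) (nat_lit 304) (nat_lit 24217595901) (nat_lit 380) (nat_lit 12891974916) (nat_lit 113) (nat_lit 5) (nat_lit 117) (nat_lit 5) (nat_lit 118) (nat_lit 5) (nat_lit 405) (nat_lit 352) (nat_lit 143)) (XT.lf (nat_lit 0) (nat_lit 35423398405) (nat_lit 304) (nat_lit 7839823987) (nat_lit 380) (nat_lit 4120898148) (nat_lit 113) (nat_lit 5) (nat_lit 117) (nat_lit 5) (nat_lit 118) (nat_lit 5) (nat_lit 406) (nat_lit 352) (nat_lit 142))))) (XT.nd (nat_lit 234) (nat_lit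 608) (nat_lit 0) (XT.nd (nat_lit 78) (nat_lit 304) (nat_lit 0) (XT.lf (nat_lit 0) (nat_lit 5040176438) (nat_lit 380) (nat_lit 34214296617) (nat_lit 76) (nat_lit 9037375681) (nat_lit 108) (nat_lit 5) (nat_lit 113) (nat_lit 5) (nat_lit 109) (nat_lit 5) (nat_lit 407) (nat_lit 352) (nat_lit 141)) (XT.nd (nat_lit 78) (nat_lit 304) (nat_lit 0) (XT.lf (nat_lit 0) (nat_lit 14590817582) (nat_lit 380) (nat_lit 8203703761) (nat_lit 76) (nat_lit 26425137212) (nat_lit 108) (nat_lit 5) (nat_lit 113) (nat_lit 5) (nat_lit 109) (nat_lit 5) (nat_lit 408) (nat_lit 352) (nat_lit 140)) (XT.lf (nat_lit 0) (nat_lit 18954101490) (nat_lit 304) (nat_lit 5654096822) (nat_lit 380) (nat_lit 25561698343) (nat_lit 104) (nat_lit 5) (nat_lit 108) (nat_lit 5) (nat_lit 109) (nat_lit 5) (nat_lit 409) (nat_lit 352) (nat_lit 139)))) (XT.nd (nat_lit 156) (nat_lit 380) (nat_lit 0) (XT.nd (nat_lit 78) (nat_lit 228) (nat_lit 0) (XT.lf (nat_lit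 0) (nat_lit 35123160310) (nat_lit 380) (nat_lit 4170513223) (nat_lit 76) (nat_lit 11849057149) (nat_lit 104) (nat_lit 5) (nat_lit 109) (nat_lit 5) (nat_lit 105) (nat_lit 5) (nat_lit 410) (nat_lit 352) (nat_lit 138)) (XT.lf (nat_lit 0) (nat_lit 24097472958) (nat_lit 228) (nat_lit 22141817827) (nat_lit 304) (nat_lit 5896887918) (nat_lit 101) (nat_lit 5) (nat_lit 104) (nat_lit 5) (nat_lit 105) (nat_lit 5) (nat_lit 411) (nat_lit 352) (nat_lit 137))) (XT.nd (nat_lit 78) (nat_lit 0) (nat_lit 0) (XT.lf (nat_lit 0) (nat_lit 95824943) (nat_lit 304) (nat_lit 4386823280) (nat_lit 380) (nat_lit 48674229483) (nat_lit 96) (nat_lit 5) (nat_lit 100) (nat_lit 5) (nat_lit 101) (nat_lit 5) (nat_lit 412) (nat_lit 352) (nat_lit 136)) (XT.lf (nat_lit 0) (nat_lit 15472736427) (nat_lit 380) (nat_lit 24748287065) (nat_lit 76) (nat_lit 13972892524) (nat_lit 96) (nat_lit 5) (nat_lit 101) (nat_lit 5) (nat_lit 97) (nat_lit 5) (nat_lit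 413) (nat_lit 352) (nat_lit 135)))))) (XT.nd (nat_lit 468) (nat_lit 836) (nat_lit 0) (XT.nd (nat_lit 234) (nat_lit 304) (nat_lit 0) (XT.nd (nat_lit 78) (nat_lit 228) (nat_lit 0) (XT.lf (nat_lit 0) (nat_lit 4454507065) (nat_lit 228) (nat_lit 22422453271) (nat_lit 304) (nat_lit 28382572645) (nat_lit 93) (nat_lit 5) (nat_lit 96) (nat_lit 5) (nat_lit 97) (nat_lit 5) (nat_lit 414) (nat_lit 352) (nat_lit 134)) (XT.nd (nat_lit 78) (nat_lit 228) (nat_lit 0) (XT.lf (nat_lit 0) (nat_lit 35037884402) (nat_lit 228) (nat_lit 3833541400) (nat_lit 304) (nat_lit 17478249694) (nat_lit 93) (nat_lit 5) (nat_lit 96) (nat_lit 5) (nat_lit 97) (nat_lit 5) (nat_lit 415) (nat_lit 352) (nat_lit 133)) (XT.lf (nat_lit 0) (nat_lit 9093716233) (nat_lit 228) (nat_lit 42364870042) (nat_lit 304) (nat_lit 6006950652) (nat_lit 90) (nat_lit 5) (nat_lit 93) (nat_lit 5) (nat_lit 94) (nat_lit 5) (nat_lit 416) (nat_lit 352) (nat_lit 132)))) (XT.nd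 (nat_lit 78) (nat_lit 228) (nat_lit 0) (XT.lf (nat_lit 0) (nat_lit 5948692199) (nat_lit 304) (nat_lit 17858865075) (nat_lit 76) (nat_lit 34798035848) (nat_lit 89) (nat_lit 5) (nat_lit 93) (nat_lit 5) (nat_lit 90) (nat_lit 5) (nat_lit 417) (nat_lit 352) (nat_lit 131)) (XT.nd (nat_lit 78) (nat_lit 0) (nat_lit 0) (XT.lf (nat_lit 0) (nat_lit 13776121996) (nat_lit 228) (nat_lit 4496879330) (nat_lit 304) (nat_lit 41501143943) (nat_lit 86) (nat_lit 5) (nat_lit 89) (nat_lit 5) (nat_lit 90) (nat_lit 5) (nat_lit 418) (nat_lit 352) (nat_lit 130)) (XT.lf (nat_lit 0) (nat_lit 31295453008) (nat_lit 304) (nat_lit 14398568049) (nat_lit 76) (nat_lit 15273880942) (nat_lit 86) (nat_lit 5) (nat_lit 90) (nat_lit 5) (nat_lit 87) (nat_lit 5) (nat_lit 419) (nat_lit 352) (nat_lit 129))))) (XT.nd (nat_lit 234) (nat_lit 380) (nat_lit 0) (XT.nd (nat_lit 78) (nat_lit 228) (nat_lit 0) (XT.lf (nat_lit 0) (nat_lit 18461967391) (nat_lit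 228) (nat_lit 26466971206) (nat_lit 304) (nat_lit 17261922432) (nat_lit 83) (nat_lit 5) (nat_lit 86) (nat_lit 5) (nat_lit 87) (nat_lit 5) (nat_lit 420) (nat_lit 352) (nat_lit 128)) (XT.nd (nat_lit 78) (nat_lit 228) (nat_lit 0) (XT.lf (nat_lit 0) (nat_lit 52600861937) (nat_lit 228) (nat_lit 6514355575) (nat_lit 304) (nat_lit 4330978048) (nat_lit 83) (nat_lit 5) (nat_lit 86) (nat_lit 5) (nat_lit 87) (nat_lit 5) (nat_lit 421) (nat_lit 352) (nat_lit 127)) (XT.lf (nat_lit 0) (nat_lit 9173794301) (nat_lit 228) (nat_lit 41475669354) (nat_lit 76) (nat_lit 14076296356) (nat_lit 80) (nat_lit 5) (nat_lit 83) (nat_lit 5) (nat_lit 81) (nat_lit 5) (nat_lit 422) (nat_lit 352) (nat_lit 126)))) (XT.nd (nat_lit 156) (nat_lit 152) (nat_lit 0) (XT.nd (nat_lit 78) (nat_lit 228) (nat_lit 0) (XT.lf (nat_lit 0) (nat_lit 23170195412) (nat_lit 228) (nat_lit 7560774879) (nat_lit 76) (nat_lit 35306249016) (nat_lit 80) (nat_lit 5)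 (nat_lit 83) (nat_lit 5) (nat_lit 81) (nat_lit 5) (nat_lit 423) (nat_lit 352) (nat_lit 125)) (XT.lf (nat_lit 0) (nat_lit 27913758087) (nat_lit 228) (nat_lit 9939534649) (nat_lit 304) (nat_lit 29526725871) (nat_lit 77) (nat_lit 5) (nat_lit 80) (nat_lit 5) (nat_lit 81) (nat_lit 5) (nat_lit 424) (nat_lit 352) (nat_lit 124))) (XT.nd (nat_lit 78) (nat_lit 152) (nat_lit 0) (XT.lf (nat_lit 0) (nat_lit 53162789860) (nat_lit 304) (nat_lit 4266880358) (nat_lit 76) (nat_lit 11327854803) (nat_lit 77) (nat_lit 5) (nat_lit 81) (nat_lit 5) (nat_lit 78) (nat_lit 5) (nat_lit 425) (nat_lit 352) (nat_lit 123)) (XT.lf (nat_lit 0) (nat_lit 32522251962) (nat_lit 152) (nat_lit 36818889935) (nat_lit 228) (nat_lit 822927961) (nat_lit 75) (nat_lit 5) (nat_lit 77) (nat_lit 5) (nat_lit 78) (nat_lit 5) (nat_lit 426) (nat_lit 352) (nat_lit 122))))))) (XT.nd (nat_lit 41808) (nat_lit 0) (nat_lit 10716) (XT.nd (nat_lit 41262) (nat_lit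 0) (nat_lit 12768) (XT.nd (nat_lit 234) (nat_lit 0) (nat_lit 0) (XT.nd (nat_lit 78) (nat_lit 380) (nat_lit 0) (XT.lf (nat_lit 0) (nat_lit 14153246537) (nat_lit 228) (nat_lit 1250214640) (nat_lit 76) (nat_lit 56203938217) (nat_lit 74) (nat_lit 5) (nat_lit 77) (nat_lit 5) (nat_lit 75) (nat_lit 5) (nat_lit 427) (nat_lit 352) (nat_lit 121)) (XT.nd (nat_lit 78) (nat_lit 152) (nat_lit 0) (XT.lf (nat_lit 0) (nat_lit 29983426130) (nat_lit 304) (nat_lit 36207215939) (nat_lit 76) (nat_lit 6890504821) (nat_lit 71) (nat_lit 5) (nat_lit 75) (nat_lit 5) (nat_lit 72) (nat_lit 5) (nat_lit 428) (nat_lit 352) (nat_lit 120)) (XT.lf (nat_lit 0) (nat_lit 1441813370) (nat_lit 152) (nat_lit 45024408320) (nat_lit 228) (nat_lit 28127554095) (nat_lit 69) (nat_lit 5) (nat_lit 71) (nat_lit 5) (nat_lit 72) (nat_lit 5) (nat_lit 429) (nat_lit 352) (nat_lit 119)))) (XT.nd (nat_lit 40872) (nat_lit 0) (nat_lit 13908) (XT.lf (nat_lit 0)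 (nat_lit 40960161297) (nat_lit 152) (nat_lit 22847571752) (nat_lit 228) (nat_lit 12333123826) (nat_lit 69) (nat_lit 5) (nat_lit 71) (nat_lit 5) (nat_lit 72) (nat_lit 5) (nat_lit 430) (nat_lit 352) (nat_lit 118)) (XT.nd (nat_lit 78) (nat_lit 0) (nat_lit 0) (XT.lf (nat_lit 0) (nat_lit 4618951166) (nat_lit 0) (nat_lit 4618951166) (nat_lit 1140) (nat_lit 575470611) (nat_lit 252) (nat_lit 5) (nat_lit 252) (nat_lit 3) (nat_lit 267) (nat_lit 3) (nat_lit 353) (nat_lit 353) (nat_lit 194)) (XT.lf (nat_lit 0) (nat_lit 18911222016) (nat_lit 0) (nat_lit 8762973) (nat_lit 1140) (nat_lit 996060697) (nat_lit 252) (nat_lit 5) (nat_lit 252) (nat_lit 3) (nat_lit 267) (nat_lit 3) (nat_lit 354) (nat_lit 353) (nat_lit 193))))) (XT.nd (nat_lit 234) (nat_lit 0) (nat_lit 0) (XT.nd (nat_lit 78) (nat_lit 1140) (nat_lit 0) (XT.lf (nat_lit 76) (nat_lit 8736412254) (nat_lit 0) (nat_lit 10809863694) (nat_lit 1216) (nat_lit 662688492)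 (nat_lit 253) (nat_lit 5) (nat_lit 252) (nat_lit 5) (nat_lit 268) (nat_lit 5) (nat_lit 355) (nat_lit 353) (nat_lit 192)) (XT.nd (nat_lit 78) (nat_lit 1140) (nat_lit 0) (XT.lf (nat_lit 76) (nat_lit 18786938844) (nat_lit 0) (nat_lit 1408317304) (nat_lit 1216) (nat_lit 315301009) (nat_lit 253) (nat_lit 5) (nat_lit 252) (nat_lit 5) (nat_lit 268) (nat_lit 5) (nat_lit 356) (nat_lit 353) (nat_lit 191)) (XT.lf (nat_lit 0) (nat_lit 197359845) (nat_lit 1216) (nat_lit 12419958301) (nat_lit 1292) (nat_lit 8199200029) (nat_lit 237) (nat_lit 5) (nat_lit 253) (nat_lit 5) (nat_lit 254) (nat_lit 5) (nat_lit 357) (nat_lit 353) (nat_lit 190)))) (XT.nd (nat_lit 156) (nat_lit 0) (nat_lit 76) (XT.nd (nat_lit 78) (nat_lit 0) (nat_lit 76) (XT.lf (nat_lit 0) (nat_lit 744545613) (nat_lit 1216) (nat_lit 2296355905) (nat_lit 1292) (nat_lit 18089901507) (nat_lit 237) (nat_lit 5) (nat_lit 253) (nat_lit 5) (nat_lit 254) (nat_lit 5) (nat_lit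 358) (nat_lit 353) (nat_lit 189)) (XT.lf (nat_lit 0) (nat_lit 1448360499) (nat_lit 1216) (nat_lit 13229546774) (nat_lit 1292) (nat_lit 6772405774) (nat_lit 238) (nat_lit 5) (nat_lit 254) (nat_lit 5) (nat_lit 255) (nat_lit 5) (nat_lit 359) (nat_lit 353) (nat_lit 188))) (XT.nd (nat_lit 78) (nat_lit 0) (nat_lit 76) (XT.lf (nat_lit 0) (nat_lit 2221111237) (nat_lit 1216) (nat_lit 2712287744) (nat_lit 1292) (nat_lit 16844577691) (nat_lit 238) (nat_lit 5) (nat_lit 254) (nat_lit 5) (nat_lit 255) (nat_lit 5) (nat_lit 360) (nat_lit 353) (nat_lit 187)) (XT.lf (nat_lit 0) (nat_lit 3140947060) (nat_lit 1216) (nat_lit 13884689385) (nat_lit 1292) (nat_lit 5086119542) (nat_lit 239) (nat_lit 5) (nat_lit 255) (nat_lit 5) (nat_lit 256) (nat_lit 5) (nat_lit 361) (nat_lit 353) (nat_lit 186)))))) (XT.nd (nat_lit 546) (nat_lit 2204) (nat_lit 0) (XT.nd (nat_lit 234) (nat_lit 0) (nat_lit 152) (XT.nd (nat_lit 78) (nat_lit 0) (nat_lit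 76) (XT.lf (nat_lit 0) (nat_lit 4159489525) (nat_lit 1216) (nat_lit 2957394941) (nat_lit 1292) (nat_lit 15336533646) (nat_lit 239) (nat_lit 5) (nat_lit 255) (nat_lit 5) (nat_lit 256) (nat_lit 5) (nat_lit 362) (nat_lit 353) (nat_lit 185)) (XT.nd (nat_lit 78) (nat_lit 0) (nat_lit 0) (XT.lf (nat_lit 0) (nat_lit 5315180928) (nat_lit 1216) (nat_lit 14374421536) (nat_lit 1292) (nat_lit 3112532549) (nat_lit 240) (nat_lit 5) (nat_lit 256) (nat_lit 5) (nat_lit 257) (nat_lit 5) (nat_lit 363) (nat_lit 353) (nat_lit 184)) (XT.lf (nat_lit 0) (nat_lit 6601062410) (nat_lit 1216) (nat_lit 3019956300) (nat_lit 1292) (nat_lit 13537431748) (nat_lit 240) (nat_lit 5) (nat_lit 256) (nat_lit 5) (nat_lit 257) (nat_lit 5) (nat_lit 364) (nat_lit 353) (nat_lit 183)))) (XT.nd (nat_lit 156) (nat_lit 0) (nat_lit 0) (XT.nd (nat_lit 78) (nat_lit 0) (nat_lit 0) (XT.lf (nat_lit 0) (nat_lit 8013638975) (nat_lit 1216) (nat_lit 14687061557)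 (nat_lit 1292) (nat_lit 822113816) (nat_lit 241) (nat_lit 5) (nat_lit 257) (nat_lit 5) (nat_lit 258) (nat_lit 5) (nat_lit 365) (nat_lit 353) (nat_lit 182)) (XT.lf (nat_lit 0) (nat_lit 9589813364) (nat_lit 1216) (nat_lit 2887505831) (nat_lit 1292) (nat_lit 11417155809) (nat_lit 241) (nat_lit 5) (nat_lit 257) (nat_lit 5) (nat_lit 258) (nat_lit 5) (nat_lit 366) (nat_lit 353) (nat_lit 181))) (XT.nd (nat_lit 78) (nat_lit 0) (nat_lit 76) (XT.lf (nat_lit 76) (nat_lit 9446694735) (nat_lit 0) (nat_lit 1852691816) (nat_lit 1292) (nat_lit 12975317916) (nat_lit 242) (nat_lit 5) (nat_lit 241) (nat_lit 5) (nat_lit 258) (nat_lit 5) (nat_lit 367) (nat_lit 353) (nat_lit 180)) (XT.lf (nat_lit 0) (nat_lit 13172495842) (nat_lit 1216) (nat_lit 2546821510) (nat_lit 1292) (nat_lit 8943658319) (nat_lit 242) (nat_lit 5) (nat_lit 258) (nat_lit 5) (nat_lit 259) (nat_lit 5) (nat_lit 368) (nat_lit 353) (nat_lit 179))))) (XT.nd (nat_lit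 234) (nat_lit 1292) (nat_lit 0) (XT.nd (nat_lit 78) (nat_lit 1140) (nat_lit 0) (XT.lf (nat_lit 76) (nat_lit 10281402596) (nat_lit 0) (nat_lit 4933120859) (nat_lit 1292) (nat_lit 9844992062) (nat_lit 243) (nat_lit 5) (nat_lit 242) (nat_lit 5) (nat_lit 259) (nat_lit 5) (nat_lit 369) (nat_lit 353) (nat_lit 178)) (XT.nd (nat_lit 78) (nat_lit 1216) (nat_lit 0) (XT.lf (nat_lit 0) (nat_lit 17398810054) (nat_lit 1216) (nat_lit 1983914741) (nat_lit 76) (nat_lit 6082799010) (nat_lit 243) (nat_lit 5) (nat_lit 259) (nat_lit 5) (nat_lit 244) (nat_lit 5) (nat_lit 370) (nat_lit 353) (nat_lit 177)) (XT.lf (nat_lit 0) (nat_lit 11363329383) (nat_lit 1216) (nat_lit 8439148339) (nat_lit 1292) (nat_lit 6076621172) (nat_lit 227) (nat_lit 5) (nat_lit 243) (nat_lit 5) (nat_lit 244) (nat_lit 5) (nat_lit 371) (nat_lit 353) (nat_lit 176)))) (XT.nd (nat_lit 156) (nat_lit 684) (nat_lit 0) (XT.nd (nat_lit 78) (nat_lit 608) (nat_lit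 0) (XT.lf (nat_lit 0) (nat_lit 22321588527) (nat_lit 1292) (nat_lit 1184020899) (nat_lit 76) (nat_lit 2798173881) (nat_lit 227) (nat_lit 5) (nat_lit 244) (nat_lit 5) (nat_lit 228) (nat_lit 5) (nat_lit 372) (nat_lit 353) (nat_lit 175)) (XT.lf (nat_lit 0) (nat_lit 12708450261) (nat_lit 608) (nat_lit 12409531096) (nat_lit 684) (nat_lit 1617177641) (nat_lit 219) (nat_lit 5) (nat_lit 227) (nat_lit 5) (nat_lit 228) (nat_lit 5) (nat_lit 373) (nat_lit 353) (nat_lit 174))) (XT.nd (nat_lit 78) (nat_lit 608) (nat_lit 0) (XT.lf (nat_lit 0) (nat_lit 810919632) (nat_lit 684) (nat_lit 148846112) (nat_lit 76) (nat_lit 26219232768) (nat_lit 218) (nat_lit 5) (nat_lit 227) (nat_lit 5) (nat_lit 219) (nat_lit 5) (nat_lit 374) (nat_lit 353) (nat_lit 173)) (XT.lf (nat_lit 0) (nat_lit 3519662165) (nat_lit 684) (nat_lit 13330433838) (nat_lit 76) (nat_lit 10778369514) (nat_lit 210) (nat_lit 5) (nat_lit 219) (nat_lit 5) (nat_lit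 211) (nat_lit 5) (nat_lit 375) (nat_lit 353) (nat_lit 172))))))))
noncomputable def xc217 : XT := (XT.nd (nat_lit 2106) (nat_lit 3876) (nat_lit 0) (XT.nd (nat_lit 1014) (nat_lit 3040) (nat_lit 0) (XT.nd (nat_lit 468) (nat_lit 1976) (nat_lit 0) (XT.nd (nat_lit 234) (nat_lit 532) (nat_lit 0) (XT.nd (nat_lit 78) (nat_lit 532) (nat_lit 0) (XT.lf (nat_lit 0) (nat_lit 1098228071) (nat_lit 608) (nat_lit 5229244326) (nat_lit 684) (nat_lit 21763411755) (nat_lit 202) (nat_lit 5) (nat_lit 210) (nat_lit 5) (nat_lit 211) (nat_lit 5) (nat_lit 376) (nat_lit 353) (nat_lit 171)) (XT.nd (nat_lit 78) (nat_lit 532) (nat_lit 0) (XT.lf (nat_lit 0) (nat_lit 9416555565) (nat_lit 684) (nat_lit 12400007806) (nat_lit 76) (nat_lit 6744702545) (nat_lit 202) (nat_lit 5) (nat_lit 211) (nat_lit 5) (nat_lit 203) (nat_lit 5) (nat_lit 377) (nat_lit 353) (nat_lit 170)) (XT.lf (nat_lit 0) (nat_lit 2626244719) (nat_lit 532) (nat_lit 10045497302)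 (nat_lit 608) (nat_lit 16371815866) (nat_lit 195) (nat_lit 5) (nat_lit 202) (nat_lit 5) (nat_lit 203) (nat_lit 5) (nat_lit 378) (nat_lit 353) (nat_lit 169)))) (XT.nd (nat_lit 78) (nat_lit 532) (nat_lit 0) (XT.lf (nat_lit 0) (nat_lit 16167501284) (nat_lit 608) (nat_lit 11204029366) (nat_lit 76) (nat_lit 2164502083) (nat_lit 195) (nat_lit 5) (nat_lit 203) (nat_lit 5) (nat_lit 196) (nat_lit 5) (nat_lit 379) (nat_lit 353) (nat_lit 168)) (XT.nd (nat_lit 78) (nat_lit 0) (nat_lit 0) (XT.lf (nat_lit 0) (nat_lit 4449406290) (nat_lit 532) (nat_lit 15457540286) (nat_lit 608) (nat_lit 10132172433) (nat_lit 188) (nat_lit 5) (nat_lit 195) (nat_lit 5) (nat_lit 196) (nat_lit 5) (nat_lit 380) (nat_lit 353) (nat_lit 167)) (XT.lf (nat_lit 0) (nat_lit 20798541794) (nat_lit 532) (nat_lit 3069819806) (nat_lit 608) (nat_lit 6685644218) (nat_lit 188) (nat_lit 5) (nat_lit 195) (nat_lit 5) (nat_lit 196) (nat_lit 5) (nat_lit 381)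 (nat_lit 353) (nat_lit 166))))) (XT.nd (nat_lit 234) (nat_lit 912) (nat_lit 0) (XT.nd (nat_lit 78) (nat_lit 608) (nat_lit 0) (XT.lf (nat_lit 0) (nat_lit 6585611647) (nat_lit 456) (nat_lit 21516197278) (nat_lit 532) (nat_lit 2977936104) (nat_lit 182) (nat_lit 5) (nat_lit 188) (nat_lit 5) (nat_lit 189) (nat_lit 5) (nat_lit 382) (nat_lit 353) (nat_lit 165)) (XT.nd (nat_lit 78) (nat_lit 532) (nat_lit 0) (XT.lf (nat_lit 0) (nat_lit 951243967) (nat_lit 532) (nat_lit 8044456363) (nat_lit 76) (nat_lit 22621515414) (nat_lit 181) (nat_lit 5) (nat_lit 188) (nat_lit 5) (nat_lit 182) (nat_lit 5) (nat_lit 383) (nat_lit 353) (nat_lit 164)) (XT.lf (nat_lit 0) (nat_lit 5060872118) (nat_lit 608) (nat_lit 23163877829) (nat_lit 76) (nat_lit 3941504674) (nat_lit 174) (nat_lit 5) (nat_lit 182) (nat_lit 5) (nat_lit 175) (nat_lit 5) (nat_lit 384) (nat_lit 353) (nat_lit 163)))) (XT.nd (nat_lit 156) (nat_lit 456) (nat_lit 0) (XT.nd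 (nat_lit 78) (nat_lit 456) (nat_lit 0) (XT.lf (nat_lit 0) (nat_lit 9461812449) (nat_lit 608) (nat_lit 6097229245) (nat_lit 76) (nat_lit 17167683599) (nat_lit 174) (nat_lit 5) (nat_lit 182) (nat_lit 5) (nat_lit 175) (nat_lit 5) (nat_lit 385) (nat_lit 353) (nat_lit 162)) (XT.lf (nat_lit 0) (nat_lit 11706406983) (nat_lit 456) (nat_lit 2397912345) (nat_lit 532) (nat_lit 19196405892) (nat_lit 168) (nat_lit 5) (nat_lit 174) (nat_lit 5) (nat_lit 175) (nat_lit 5) (nat_lit 386) (nat_lit 353) (nat_lit 161))) (XT.nd (nat_lit 78) (nat_lit 456) (nat_lit 0) (XT.lf (nat_lit 0) (nat_lit 19052598022) (nat_lit 532) (nat_lit 3832323106) (nat_lit 76) (nat_lit 11002030368) (nat_lit 168) (nat_lit 5) (nat_lit 175) (nat_lit 5) (nat_lit 169) (nat_lit 5) (nat_lit 387) (nat_lit 353) (nat_lit 160)) (XT.lf (nat_lit 0) (nat_lit 14722687726) (nat_lit 456) (nat_lit 9589047131) (nat_lit 532) (nat_lit 10174158623) (nat_lit 162) (nat_lit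 5) (nat_lit 168) (nat_lit 5) (nat_lit 169) (nat_lit 5) (nat_lit 388) (nat_lit 353) (nat_lit 159)))))) (XT.nd (nat_lit 546) (nat_lit 1368) (nat_lit 0) (XT.nd (nat_lit 234) (nat_lit 760) (nat_lit 0) (XT.nd (nat_lit 78) (nat_lit 912) (nat_lit 0) (XT.lf (nat_lit 0) (nat_lit 29804384524) (nat_lit 532) (nat_lit 1232026479) (nat_lit 76) (nat_lit 4064121738) (nat_lit 162) (nat_lit 5) (nat_lit 169) (nat_lit 5) (nat_lit 163) (nat_lit 5) (nat_lit 389) (nat_lit 353) (nat_lit 158)) (XT.nd (nat_lit 78) (nat_lit 456) (nat_lit 0) (XT.lf (nat_lit 0) (nat_lit 2441075) (nat_lit 456) (nat_lit 17615446451) (nat_lit 76) (nat_lit 18107735098) (nat_lit 156) (nat_lit 5) (nat_lit 162) (nat_lit 5) (nat_lit 157) (nat_lit 5) (nat_lit 390) (nat_lit 353) (nat_lit 157)) (XT.lf (nat_lit 0) (nat_lit 1665381823) (nat_lit 456) (nat_lit 3714023743) (nat_lit 532) (nat_lit 30987711657) (nat_lit 150) (nat_lit 5) (nat_lit 156) (nat_lit 5) (nat_lit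 157) (nat_lit 5) (nat_lit 391) (nat_lit 353) (nat_lit 156)))) (XT.nd (nat_lit 156) (nat_lit 380) (nat_lit 0) (XT.nd (nat_lit 78) (nat_lit 380) (nat_lit 0) (XT.lf (nat_lit 0) (nat_lit 11196614590) (nat_lit 532) (nat_lit 15243912860) (nat_lit 76) (nat_lit 10578962189) (nat_lit 150) (nat_lit 5) (nat_lit 157) (nat_lit 5) (nat_lit 151) (nat_lit 5) (nat_lit 392) (nat_lit 353) (nat_lit 155)) (XT.lf (nat_lit 0) (nat_lit 4852250693) (nat_lit 380) (nat_lit 12416914579) (nat_lit 456) (nat_lit 20419844208) (nat_lit 145) (nat_lit 5) (nat_lit 150) (nat_lit 5) (nat_lit 151) (nat_lit 5) (nat_lit 393) (nat_lit 353) (nat_lit 154))) (XT.nd (nat_lit 78) (nat_lit 380) (nat_lit 0) (XT.lf (nat_lit 0) (nat_lit 23696285921) (nat_lit 456) (nat_lit 12534569252) (nat_lit 76) (nat_lit 2142588928) (nat_lit 145) (nat_lit 5) (nat_lit 151) (nat_lit 5) (nat_lit 146) (nat_lit 5) (nat_lit 394) (nat_lit 353) (nat_lit 153)) (XT.lf (nat_lit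 0) (nat_lit 8414700741) (nat_lit 380) (nat_lit 22102867851) (nat_lit 456) (nat_lit 8554803674) (nat_lit 140) (nat_lit 5) (nat_lit 145) (nat_lit 5) (nat_lit 146) (nat_lit 5) (nat_lit 395) (nat_lit 353) (nat_lit 152))))) (XT.nd (nat_lit 234) (nat_lit 988) (nat_lit 0) (XT.nd (nat_lit 78) (nat_lit 380) (nat_lit 0) (XT.lf (nat_lit 0) (nat_lit 30246180447) (nat_lit 380) (nat_lit 7421446563) (nat_lit 456) (nat_lit 2120918077) (nat_lit 140) (nat_lit 5) (nat_lit 145) (nat_lit 5) (nat_lit 146) (nat_lit 5) (nat_lit 396) (nat_lit 353) (nat_lit 151)) (XT.nd (nat_lit 78) (nat_lit 0) (nat_lit 0) (XT.lf (nat_lit 0) (nat_lit 4610503188) (nat_lit 380) (nat_lit 28195098861) (nat_lit 76) (nat_lit 7713529079) (nat_lit 135) (nat_lit 5) (nat_lit 140) (nat_lit 5) (nat_lit 136) (nat_lit 5) (nat_lit 397) (nat_lit 353) (nat_lit 150)) (XT.lf (nat_lit 0) (nat_lit 11669672894) (nat_lit 380) (nat_lit 6325349014) (nat_lit 76) (nat_lit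 23270930694) (nat_lit 135) (nat_lit 5) (nat_lit 140) (nat_lit 5) (nat_lit 136) (nat_lit 5) (nat_lit 398) (nat_lit 353) (nat_lit 149)))) (XT.nd (nat_lit 156) (nat_lit 608) (nat_lit 0) (XT.nd (nat_lit 78) (nat_lit 0) (nat_lit 0) (XT.lf (nat_lit 0) (nat_lit 16519743972) (nat_lit 380) (nat_lit 2577381566) (nat_lit 456) (nat_lit 22933358773) (nat_lit 130) (nat_lit 5) (nat_lit 135) (nat_lit 5) (nat_lit 136) (nat_lit 5) (nat_lit 399) (nat_lit 353) (nat_lit 148)) (XT.lf (nat_lit 0) (nat_lit 26937521466) (nat_lit 456) (nat_lit 2767828540) (nat_lit 76) (nat_lit 13106899174) (nat_lit 130) (nat_lit 5) (nat_lit 136) (nat_lit 5) (nat_lit 131) (nat_lit 5) (nat_lit 400) (nat_lit 353) (nat_lit 147))) (XT.nd (nat_lit 78) (nat_lit 304) (nat_lit 0) (XT.lf (nat_lit 0) (nat_lit 21039358032) (nat_lit 304) (nat_lit 14199338033) (nat_lit 380) (nat_lit 8372004708) (nat_lit 126) (nat_lit 5) (nat_lit 130) (nat_lit 5) (nat_lit 131)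 (nat_lit 5) (nat_lit 401) (nat_lit 353) (nat_lit 146)) (XT.lf (nat_lit 0) (nat_lit 1188029364) (nat_lit 304) (nat_lit 42655386784) (nat_lit 380) (nat_lit 588055212) (nat_lit 122) (nat_lit 5) (nat_lit 126) (nat_lit 5) (nat_lit 127) (nat_lit 5) (nat_lit 402) (nat_lit 353) (nat_lit 145))))))) (XT.nd (nat_lit 1014) (nat_lit 1672) (nat_lit 0) (XT.nd (nat_lit 468) (nat_lit 1140) (nat_lit 0) (XT.nd (nat_lit 234) (nat_lit 684) (nat_lit 0) (XT.nd (nat_lit 78) (nat_lit 304) (nat_lit 0) (XT.lf (nat_lit 0) (nat_lit 7653052367) (nat_lit 380) (nat_lit 19364503029) (nat_lit 76) (nat_lit 18246109475) (nat_lit 121) (nat_lit 5) (nat_lit 126) (nat_lit 5) (nat_lit 122) (nat_lit 5) (nat_lit 403) (nat_lit 353) (nat_lit 144)) (XT.nd (nat_lit 78) (nat_lit 0) (nat_lit 0) (XT.lf (nat_lit 0) (nat_lit 5325910919) (nat_lit 304) (nat_lit 10852765343) (nat_lit 380) (nat_lit 29940500873) (nat_lit 117) (nat_lit 5) (nat_lit 121) (nat_lit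 5) (nat_lit 122) (nat_lit 5) (nat_lit 404) (nat_lit 353) (nat_lit 143)) (XT.lf (nat_lit 0) (nat_lit 25211202675) (nat_lit 380) (nat_lit 15901180871) (nat_lit 76) (nat_lit 5880437879) (nat_lit 117) (nat_lit 5) (nat_lit 122) (nat_lit 5) (nat_lit 118) (nat_lit 5) (nat_lit 405) (nat_lit 353) (nat_lit 142)))) (XT.nd (nat_lit 78) (nat_lit 380) (nat_lit 0) (XT.lf (nat_lit 0) (nat_lit 9818880747) (nat_lit 304) (nat_lit 24895652835) (nat_lit 380) (nat_lit 13172147254) (nat_lit 113) (nat_lit 5) (nat_lit 117) (nat_lit 5) (nat_lit 118) (nat_lit 5) (nat_lit 406) (nat_lit 353) (nat_lit 141)) (XT.nd (nat_lit 78) (nat_lit 380) (nat_lit 0) (XT.lf (nat_lit 0) (nat_lit 36633596712) (nat_lit 304) (nat_lit 8027959538) (nat_lit 380) (nat_lit 4141042656) (nat_lit 113) (nat_lit 5) (nat_lit 117) (nat_lit 5) (nat_lit 118) (nat_lit 5) (nat_lit 407) (nat_lit 353) (nat_lit 140)) (XT.lf (nat_lit 0) (nat_lit 5291775899) (nat_lit 380)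 (nat_lit 35090079407) (nat_lit 76) (nat_lit 9355706778) (nat_lit 108) (nat_lit 5) (nat_lit 113) (nat_lit 5) (nat_lit 109) (nat_lit 5) (nat_lit 408) (nat_lit 353) (nat_lit 139))))) (XT.nd (nat_lit 234) (nat_lit 836) (nat_lit 0) (XT.nd (nat_lit 78) (nat_lit 304) (nat_lit 0) (XT.lf (nat_lit 0) (nat_lit 15126012176) (nat_lit 380) (nat_lit 8303556516) (nat_lit 76) (nat_lit 27263726112) (nat_lit 108) (nat_lit 5) (nat_lit 113) (nat_lit 5) (nat_lit 109) (nat_lit 5) (nat_lit 409) (nat_lit 353) (nat_lit 138)) (XT.nd (nat_lit 78) (nat_lit 0) (nat_lit 0) (XT.lf (nat_lit 0) (nat_lit 19667548987) (nat_lit 304) (nat_lit 5774918548) (nat_lit 380) (nat_lit 26229616772) (nat_lit 104) (nat_lit 5) (nat_lit 108) (nat_lit 5) (nat_lit 109) (nat_lit 5) (nat_lit 410) (nat_lit 353) (nat_lit 137)) (XT.lf (nat_lit 0) (nat_lit 36270537042) (nat_lit 380) (nat_lit 4152653287) (nat_lit 76) (nat_lit 12250984098) (nat_lit 104) (nat_lit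 5) (nat_lit 109) (nat_lit 5) (nat_lit 105) (nat_lit 5) (nat_lit 411) (nat_lit 353) (nat_lit 136)))) (XT.nd (nat_lit 156) (nat_lit 228) (nat_lit 0) (XT.nd (nat_lit 78) (nat_lit 380) (nat_lit 0) (XT.lf (nat_lit 0) (nat_lit 24961970761) (nat_lit 228) (nat_lit 22756812963) (nat_lit 304) (nat_lit 5978684004) (nat_lit 101) (nat_lit 5) (nat_lit 104) (nat_lit 5) (nat_lit 105) (nat_lit 5) (nat_lit 412) (nat_lit 353) (nat_lit 135)) (XT.lf (nat_lit 0) (nat_lit 240748954) (nat_lit 304) (nat_lit 4468282630) (nat_lit 380) (nat_lit 50039769970) (nat_lit 96) (nat_lit 5) (nat_lit 100) (nat_lit 5) (nat_lit 101) (nat_lit 5) (nat_lit 413) (nat_lit 353) (nat_lit 134))) (XT.nd (nat_lit 78) (nat_lit 228) (nat_lit 0) (XT.lf (nat_lit 0) (nat_lit 16026613608) (nat_lit 380) (nat_lit 25350590319) (nat_lit 76) (nat_lit 14439814088) (nat_lit 96) (nat_lit 5) (nat_lit 101) (nat_lit 5) (nat_lit 97) (nat_lit 5) (nat_lit 414) (nat_lit 353)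 (nat_lit 133)) (XT.lf (nat_lit 0) (nat_lit 4726913660) (nat_lit 228) (nat_lit 23044772052) (nat_lit 304) (nat_lit 29142956852) (nat_lit 93) (nat_lit 5) (nat_lit 96) (nat_lit 5) (nat_lit 97) (nat_lit 5) (nat_lit 415) (nat_lit 353) (nat_lit 132)))))) (XT.nd (nat_lit 546) (nat_lit 912) (nat_lit 0) (XT.nd (nat_lit 234) (nat_lit 456) (nat_lit 0) (XT.nd (nat_lit 78) (nat_lit 304) (nat_lit 0) (XT.lf (nat_lit 0) (nat_lit 36223750432) (nat_lit 228) (nat_lit 3899659470) (nat_lit 304) (nat_lit 17914157405) (nat_lit 93) (nat_lit 5) (nat_lit 96) (nat_lit 5) (nat_lit 97) (nat_lit 5) (nat_lit 416) (nat_lit 353) (nat_lit 131)) (XT.nd (nat_lit 78) (nat_lit 76) (nat_lit 0) (XT.lf (nat_lit 0) (nat_lit 9502043983) (nat_lit 228) (nat_lit 43585399894) (nat_lit 304) (nat_lit 6099483620) (nat_lit 90) (nat_lit 5) (nat_lit 93) (nat_lit 5) (nat_lit 94) (nat_lit 5) (nat_lit 417) (nat_lit 353) (nat_lit 130)) (XT.lf (nat_lit 0) (nat_lit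 6210613825) (nat_lit 304) (nat_lit 18261379561) (nat_lit 76) (nat_lit 35889242460) (nat_lit 89) (nat_lit 5) (nat_lit 93) (nat_lit 5) (nat_lit 90) (nat_lit 5) (nat_lit 418) (nat_lit 353) (nat_lit 129)))) (XT.nd (nat_lit 156) (nat_lit 228) (nat_lit 0) (XT.nd (nat_lit 78) (nat_lit 0) (nat_lit 0) (XT.lf (nat_lit 0) (nat_lit 14321350735) (nat_lit 228) (nat_lit 4582138928) (nat_lit 304) (nat_lit 42661390389) (nat_lit 86) (nat_lit 5) (nat_lit 89) (nat_lit 5) (nat_lit 90) (nat_lit 5) (nat_lit 419) (nat_lit 353) (nat_lit 128)) (XT.lf (nat_lit 0) (nat_lit 32314681194) (nat_lit 304) (nat_lit 14700469345) (nat_lit 76) (nat_lit 15779357558) (nat_lit 86) (nat_lit 5) (nat_lit 90) (nat_lit 5) (nat_lit 87) (nat_lit 5) (nat_lit 420) (nat_lit 353) (nat_lit 127))) (XT.nd (nat_lit 78) (nat_lit 0) (nat_lit 0) (XT.lf (nat_lit 0) (nat_lit 19144607102) (nat_lit 228) (nat_lit 27211461451) (nat_lit 304) (nat_lit 17698121012) (nat_lit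 83) (nat_lit 5) (nat_lit 86) (nat_lit 5) (nat_lit 87) (nat_lit 5) (nat_lit 421) (nat_lit 353) (nat_lit 126)) (XT.lf (nat_lit 0) (nat_lit 54303917591) (nat_lit 228) (nat_lit 6661709648) (nat_lit 304) (nat_lit 4381626717) (nat_lit 83) (nat_lit 5) (nat_lit 86) (nat_lit 5) (nat_lit 87) (nat_lit 5) (nat_lit 422) (nat_lit 353) (nat_lit 125))))) (XT.nd (nat_lit 234) (nat_lit 456) (nat_lit 0) (XT.nd (nat_lit 78) (nat_lit 228) (nat_lit 0) (XT.lf (nat_lit 0) (nat_lit 9526150582) (nat_lit 228) (nat_lit 42592735303) (nat_lit 76) (nat_lit 14546314861) (nat_lit 80) (nat_lit 5) (nat_lit 83) (nat_lit 5) (nat_lit 81) (nat_lit 5) (nat_lit 423) (nat_lit 353) (nat_lit 124)) (XT.nd (nat_lit 78) (nat_lit 228) (nat_lit 0) (XT.lf (nat_lit 0) (nat_lit 23940196859) (nat_lit 228) (nat_lit 7664098968) (nat_lit 76) (nat_lit 36411775918) (nat_lit 80) (nat_lit 5) (nat_lit 83) (nat_lit 5) (nat_lit 81) (nat_lit 5) (nat_lit 424) (nat_lit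 353) (nat_lit 123)) (XT.lf (nat_lit 0) (nat_lit 28873459211) (nat_lit 228) (nat_lit 10189321978) (nat_lit 304) (nat_lit 30336404516) (nat_lit 77) (nat_lit 5) (nat_lit 80) (nat_lit 5) (nat_lit 81) (nat_lit 5) (nat_lit 425) (nat_lit 353) (nat_lit 122)))) (XT.nd (nat_lit 156) (nat_lit 304) (nat_lit 0) (XT.nd (nat_lit 78) (nat_lit 152) (nat_lit 0) (XT.lf (nat_lit 0) (nat_lit 54829862787) (nat_lit 304) (nat_lit 4274443465) (nat_lit 76) (nat_lit 11713762560) (nat_lit 77) (nat_lit 5) (nat_lit 81) (nat_lit 5) (nat_lit 78) (nat_lit 5) (nat_lit 426) (nat_lit 353) (nat_lit 121)) (XT.lf (nat_lit 0) (nat_lit 33617182008) (nat_lit 152) (nat_lit 37875427202) (nat_lit 228) (nat_lit 774229944) (nat_lit 75) (nat_lit 5) (nat_lit 77) (nat_lit 5) (nat_lit 78) (nat_lit 5) (nat_lit 427) (nat_lit 353) (nat_lit 120))) (XT.nd (nat_lit 78) (nat_lit 228) (nat_lit 0) (XT.lf (nat_lit 0) (nat_lit 14647702024) (nat_lit 228) (nat_lit 1170527044)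 (nat_lit 76) (nat_lit 57935281666) (nat_lit 74) (nat_lit 5) (nat_lit 77) (nat_lit 5) (nat_lit 75) (nat_lit 5) (nat_lit 428) (nat_lit 353) (nat_lit 119)) (XT.lf (nat_lit 0) (nat_lit 30952320612) (nat_lit 304) (nat_lit 37175757524) (nat_lit 76) (nat_lit 7143406944) (nat_lit 71) (nat_lit 5) (nat_lit 75) (nat_lit 5) (nat_lit 72) (nat_lit 5) (nat_lit 429) (nat_lit 353) (nat_lit 118))))))))
noncomputable def xc218 : XT := (XT.nd (nat_lit 42978) (nat_lit 0) (nat_lit 3648) (XT.nd (nat_lit 41886) (nat_lit 0) (nat_lit 9576) (XT.nd (nat_lit 41340) (nat_lit 0) (nat_lit 12768) (XT.nd (nat_lit 41106) (nat_lit 0) (nat_lit 12768) (XT.nd (nat_lit 40950) (nat_lit 0) (nat_lit 13908) (XT.lf (nat_lit 0) (nat_lit 1601588989) (nat_lit 152) (nat_lit 46327110007) (nat_lit 228) (nat_lit 28900821300) (nat_lit 69) (nat_lit 5) (nat_lit 71) (nat_lit 5) (nat_lit 72) (nat_lit 5) (nat_lit 430) (nat_lit 353) (nat_lit 117)) (XT.nd (nat_lit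 78) (nat_lit 0) (nat_lit 0) (XT.lf (nat_lit 0) (nat_lit 4840238468) (nat_lit 0) (nat_lit 4840238468) (nat_lit 1140) (nat_lit 422244846) (nat_lit 252) (nat_lit 5) (nat_lit 252) (nat_lit 3) (nat_lit 267) (nat_lit 3) (nat_lit 354) (nat_lit 354) (nat_lit 192)) (XT.lf (nat_lit 0) (nat_lit 19639177642) (nat_lit 0) (nat_lit 169644827) (nat_lit 1140) (nat_lit 694894201) (nat_lit 252) (nat_lit 5) (nat_lit 252) (nat_lit 3) (nat_lit 267) (nat_lit 3) (nat_lit 355) (nat_lit 354) (nat_lit 191)))) (XT.nd (nat_lit 78) (nat_lit 1140) (nat_lit 0) (XT.lf (nat_lit 76) (nat_lit 9168791929) (nat_lit 0) (nat_lit 11275891691) (nat_lit 1216) (nat_lit 361020969) (nat_lit 253) (nat_lit 5) (nat_lit 252) (nat_lit 5) (nat_lit 268) (nat_lit 5) (nat_lit 356) (nat_lit 354) (nat_lit 190)) (XT.nd (nat_lit 78) (nat_lit 1140) (nat_lit 0) (XT.lf (nat_lit 76) (nat_lit 19515874491) (nat_lit 0) (nat_lit 1588170790) (nat_lit 1216) (nat_lit 12577341)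 (nat_lit 253) (nat_lit 5) (nat_lit 252) (nat_lit 5) (nat_lit 268) (nat_lit 5) (nat_lit 357) (nat_lit 354) (nat_lit 189)) (XT.lf (nat_lit 0) (nat_lit 500850211) (nat_lit 1216) (nat_lit 12612303963) (nat_lit 1292) (nat_lit 8318778529) (nat_lit 237) (nat_lit 5) (nat_lit 253) (nat_lit 5) (nat_lit 254) (nat_lit 5) (nat_lit 358) (nat_lit 354) (nat_lit 188))))) (XT.nd (nat_lit 234) (nat_lit 0) (nat_lit 152) (XT.nd (nat_lit 78) (nat_lit 0) (nat_lit 76) (XT.lf (nat_lit 0) (nat_lit 1055784477) (nat_lit 1216) (nat_lit 2190243585) (nat_lit 1292) (nat_lit 18509882532) (nat_lit 237) (nat_lit 5) (nat_lit 253) (nat_lit 5) (nat_lit 254) (nat_lit 5) (nat_lit 359) (nat_lit 354) (nat_lit 187)) (XT.nd (nat_lit 78) (nat_lit 0) (nat_lit 0) (XT.lf (nat_lit 0) (nat_lit 1772918427) (nat_lit 1216) (nat_lit 13443489704) (nat_lit 1292) (nat_lit 6868836000) (nat_lit 238) (nat_lit 5) (nat_lit 254) (nat_lit 5) (nat_lit 255) (nat_lit 5)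 (nat_lit 360) (nat_lit 354) (nat_lit 186)) (XT.lf (nat_lit 0) (nat_lit 2560664101) (nat_lit 1216) (nat_lit 2616041355) (nat_lit 1292) (nat_lit 17246282063) (nat_lit 238) (nat_lit 5) (nat_lit 254) (nat_lit 5) (nat_lit 255) (nat_lit 5) (nat_lit 361) (nat_lit 354) (nat_lit 185)))) (XT.nd (nat_lit 156) (nat_lit 0) (nat_lit 76) (XT.nd (nat_lit 78) (nat_lit 0) (nat_lit 0) (XT.lf (nat_lit 0) (nat_lit 3500963789) (nat_lit 1216) (nat_lit 14116347070) (nat_lit 1292) (nat_lit 5149687394) (nat_lit 239) (nat_lit 5) (nat_lit 255) (nat_lit 5) (nat_lit 256) (nat_lit 5) (nat_lit 362) (nat_lit 354) (nat_lit 184)) (XT.lf (nat_lit 0) (nat_lit 4542321120) (nat_lit 1216) (nat_lit 2866618734) (nat_lit 1292) (nat_lit 15710206612) (nat_lit 239) (nat_lit 5) (nat_lit 255) (nat_lit 5) (nat_lit 256) (nat_lit 5) (nat_lit 363) (nat_lit 354) (nat_lit 183))) (XT.nd (nat_lit 78) (nat_lit 0) (nat_lit 0) (XT.lf (nat_lit 0) (nat_lit 5726159714)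 (nat_lit 1216) (nat_lit 14619503661) (nat_lit 1292) (nat_lit 3132861074) (nat_lit 240) (nat_lit 5) (nat_lit 256) (nat_lit 5) (nat_lit 257) (nat_lit 5) (nat_lit 364) (nat_lit 354) (nat_lit 182)) (XT.lf (nat_lit 0) (nat_lit 7043291718) (nat_lit 1216) (nat_lit 2929826328) (nat_lit 1292) (nat_lit 13872634845) (nat_lit 240) (nat_lit 5) (nat_lit 256) (nat_lit 5) (nat_lit 257) (nat_lit 5) (nat_lit 365) (nat_lit 354) (nat_lit 181)))))) (XT.nd (nat_lit 546) (nat_lit 2432) (nat_lit 0) (XT.nd (nat_lit 234) (nat_lit 1064) (nat_lit 0) (XT.nd (nat_lit 78) (nat_lit 0) (nat_lit 0) (XT.lf (nat_lit 0) (nat_lit 8492277976) (nat_lit 1216) (nat_lit 14940855627) (nat_lit 1292) (nat_lit 788096767) (nat_lit 241) (nat_lit 5) (nat_lit 257) (nat_lit 5) (nat_lit 258) (nat_lit 5) (nat_lit 366) (nat_lit 354) (nat_lit 180)) (XT.nd (nat_lit 78) (nat_lit 0) (nat_lit 0) (XT.lf (nat_lit 0) (nat_lit 10108798864) (nat_lit 1216) (nat_lit 2792754523)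 (nat_lit 1292) (nat_lit 11702699160) (nat_lit 241) (nat_lit 5) (nat_lit 257) (nat_lit 5) (nat_lit 258) (nat_lit 5) (nat_lit 367) (nat_lit 354) (nat_lit 179)) (XT.lf (nat_lit 76) (nat_lit 9909693859) (nat_lit 0) (nat_lit 1954955162) (nat_lit 1292) (nat_lit 13131393616) (nat_lit 242) (nat_lit 5) (nat_lit 241) (nat_lit 5) (nat_lit 258) (nat_lit 5) (nat_lit 368) (nat_lit 354) (nat_lit 178)))) (XT.nd (nat_lit 156) (nat_lit 1140) (nat_lit 0) (XT.nd (nat_lit 78) (nat_lit 0) (nat_lit 0) (XT.lf (nat_lit 0) (nat_lit 13786925214) (nat_lit 1216) (nat_lit 2441721313) (nat_lit 1292) (nat_lit 9167529577) (nat_lit 242) (nat_lit 5) (nat_lit 258) (nat_lit 5) (nat_lit 259) (nat_lit 5) (nat_lit 369) (nat_lit 354) (nat_lit 177)) (XT.lf (nat_lit 76) (nat_lit 10769570057) (nat_lit 0) (nat_lit 5115985175) (nat_lit 1292) (nat_lit 9919199904) (nat_lit 243) (nat_lit 5) (nat_lit 242) (nat_lit 5) (nat_lit 259) (nat_lit 5) (nat_lit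 370) (nat_lit 354) (nat_lit 176))) (XT.nd (nat_lit 78) (nat_lit 1216) (nat_lit 0) (XT.lf (nat_lit 0) (nat_lit 18128794623) (nat_lit 1216) (nat_lit 1862260894) (nat_lit 76) (nat_lit 6232088575) (nat_lit 243) (nat_lit 5) (nat_lit 259) (nat_lit 5) (nat_lit 244) (nat_lit 5) (nat_lit 371) (nat_lit 354) (nat_lit 175)) (XT.lf (nat_lit 0) (nat_lit 11883624364) (nat_lit 1216) (nat_lit 8716613569) (nat_lit 1292) (nat_lit 6049021584) (nat_lit 227) (nat_lit 5) (nat_lit 243) (nat_lit 5) (nat_lit 244) (nat_lit 5) (nat_lit 372) (nat_lit 354) (nat_lit 174))))) (XT.nd (nat_lit 234) (nat_lit 1140) (nat_lit 0) (XT.nd (nat_lit 78) (nat_lit 1292) (nat_lit 0) (XT.lf (nat_lit 0) (nat_lit 23188762768) (nat_lit 1292) (nat_lit 1039113429) (nat_lit 76) (nat_lit 2858996010) (nat_lit 227) (nat_lit 5) (nat_lit 244) (nat_lit 5) (nat_lit 228) (nat_lit 5) (nat_lit 373) (nat_lit 354) (nat_lit 173)) (XT.nd (nat_lit 78) (nat_lit 684) (nat_lit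 0) (XT.lf (nat_lit 0) (nat_lit 13268362963) (nat_lit 608) (nat_lit 12796648600) (nat_lit 684) (nat_lit 1466301558) (nat_lit 219) (nat_lit 5) (nat_lit 227) (nat_lit 5) (nat_lit 228) (nat_lit 5) (nat_lit 374) (nat_lit 354) (nat_lit 172)) (XT.lf (nat_lit 0) (nat_lit 24489853) (nat_lit 608) (nat_lit 1000799155) (nat_lit 684) (nat_lit 26963287788) (nat_lit 210) (nat_lit 5) (nat_lit 218) (nat_lit 5) (nat_lit 219) (nat_lit 5) (nat_lit 375) (nat_lit 354) (nat_lit 171)))) (XT.nd (nat_lit 156) (nat_lit 532) (nat_lit 0) (XT.nd (nat_lit 78) (nat_lit 608) (nat_lit 0) (XT.lf (nat_lit 0) (nat_lit 3811118108) (nat_lit 684) (nat_lit 13548995307) (nat_lit 76) (nat_lit 11091542302) (nat_lit 210) (nat_lit 5) (nat_lit 219) (nat_lit 5) (nat_lit 211) (nat_lit 5) (nat_lit 376) (nat_lit 354) (nat_lit 170)) (XT.lf (nat_lit 0) (nat_lit 1310748503) (nat_lit 608) (nat_lit 5388726740) (nat_lit 684) (nat_lit 22228584846) (nat_lit 202)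 (nat_lit 5) (nat_lit 210) (nat_lit 5) (nat_lit 211) (nat_lit 5) (nat_lit 377) (nat_lit 354) (nat_lit 169))) (XT.nd (nat_lit 78) (nat_lit 532) (nat_lit 0) (XT.lf (nat_lit 0) (nat_lit 9875900419) (nat_lit 684) (nat_lit 12592251517) (nat_lit 76) (nat_lit 6944563767) (nat_lit 202) (nat_lit 5) (nat_lit 211) (nat_lit 5) (nat_lit 203) (nat_lit 5) (nat_lit 378) (nat_lit 354) (nat_lit 168)) (XT.lf (nat_lit 0) (nat_lit 2883026266) (nat_lit 532) (nat_lit 10342276274) (nat_lit 608) (nat_lit 16684279502) (nat_lit 195) (nat_lit 5) (nat_lit 202) (nat_lit 5) (nat_lit 203) (nat_lit 5) (nat_lit 379) (nat_lit 354) (nat_lit 167))))))) (XT.nd (nat_lit 1014) (nat_lit 2508) (nat_lit 0) (XT.nd (nat_lit 468) (nat_lit 1824) (nat_lit 0) (XT.nd (nat_lit 234) (nat_lit 1064) (nat_lit 0) (XT.nd (nat_lit 78) (nat_lit 532) (nat_lit 0) (XT.lf (nat_lit 0) (nat_lit 16820926653) (nat_lit 608) (nat_lit 11362254418) (nat_lit 76) (nat_lit 2233802639)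 (nat_lit 195) (nat_lit 5) (nat_lit 203) (nat_lit 5) (nat_lit 196) (nat_lit 5) (nat_lit 380) (nat_lit 354) (nat_lit 166)) (XT.nd (nat_lit 78) (nat_lit 0) (nat_lit 0) (XT.lf (nat_lit 0) (nat_lit 4759040231) (nat_lit 532) (nat_lit 15910303488) (nat_lit 608) (nat_lit 10265917475) (nat_lit 188) (nat_lit 5) (nat_lit 195) (nat_lit 5) (nat_lit 196) (nat_lit 5) (nat_lit 381) (nat_lit 354) (nat_lit 165)) (XT.lf (nat_lit 0) (nat_lit 21593519167) (nat_lit 532) (nat_lit 3151270704) (nat_lit 608) (nat_lit 6720951282) (nat_lit 188) (nat_lit 5) (nat_lit 195) (nat_lit 5) (nat_lit 196) (nat_lit 5) (nat_lit 382) (nat_lit 354) (nat_lit 164)))) (XT.nd (nat_lit 78) (nat_lit 608) (nat_lit 0) (XT.lf (nat_lit 0) (nat_lit 6957260076) (nat_lit 456) (nat_lit 22145082050) (nat_lit 532) (nat_lit 2904999509) (nat_lit 182) (nat_lit 5) (nat_lit 188) (nat_lit 5) (nat_lit 189) (nat_lit 5) (nat_lit 383) (nat_lit 354) (nat_lit 163)) (XT.nd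 (nat_lit 78) (nat_lit 532) (nat_lit 0) (XT.lf (nat_lit 0) (nat_lit 1134255184) (nat_lit 532) (nat_lit 8113638654) (nat_lit 76) (nat_lit 23313136882) (nat_lit 181) (nat_lit 5) (nat_lit 188) (nat_lit 5) (nat_lit 182) (nat_lit 5) (nat_lit 384) (nat_lit 354) (nat_lit 162)) (XT.lf (nat_lit 0) (nat_lit 5364492742) (nat_lit 608) (nat_lit 23683898008) (nat_lit 76) (nat_lit 4078232358) (nat_lit 174) (nat_lit 5) (nat_lit 182) (nat_lit 5) (nat_lit 175) (nat_lit 5) (nat_lit 385) (nat_lit 354) (nat_lit 161))))) (XT.nd (nat_lit 234) (nat_lit 1368) (nat_lit 0) (XT.nd (nat_lit 78) (nat_lit 456) (nat_lit 0) (XT.lf (nat_lit 0) (nat_lit 9893040084) (nat_lit 608) (nat_lit 6110344028) (nat_lit 76) (nat_lit 17700658323) (nat_lit 174) (nat_lit 5) (nat_lit 182) (nat_lit 5) (nat_lit 175) (nat_lit 5) (nat_lit 386) (nat_lit 354) (nat_lit 160)) (XT.nd (nat_lit 78) (nat_lit 0) (nat_lit 0) (XT.lf (nat_lit 0) (nat_lit 12225736559) (nat_lit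 456) (nat_lit 2446409425) (nat_lit 532) (nat_lit 19623198510) (nat_lit 168) (nat_lit 5) (nat_lit 174) (nat_lit 5) (nat_lit 175) (nat_lit 5) (nat_lit 387) (nat_lit 354) (nat_lit 159)) (XT.lf (nat_lit 0) (nat_lit 19764877321) (nat_lit 532) (nat_lit 3779997141) (nat_lit 76) (nat_lit 11354404761) (nat_lit 168) (nat_lit 5) (nat_lit 175) (nat_lit 5) (nat_lit 169) (nat_lit 5) (nat_lit 388) (nat_lit 354) (nat_lit 158)))) (XT.nd (nat_lit 156) (nat_lit 912) (nat_lit 0) (XT.nd (nat_lit 78) (nat_lit 0) (nat_lit 0) (XT.lf (nat_lit 0) (nat_lit 15330023862) (nat_lit 456) (nat_lit 9849258684) (nat_lit 532) (nat_lit 10336983834) (nat_lit 162) (nat_lit 5) (nat_lit 168) (nat_lit 5) (nat_lit 169) (nat_lit 5) (nat_lit 389) (nat_lit 354) (nat_lit 157)) (XT.lf (nat_lit 0) (nat_lit 30832942859) (nat_lit 532) (nat_lit 1104331499) (nat_lit 76) (nat_lit 4212185216) (nat_lit 162) (nat_lit 5) (nat_lit 169) (nat_lit 5) (nat_lit 163)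 (nat_lit 5) (nat_lit 390) (nat_lit 354) (nat_lit 156))) (XT.nd (nat_lit 78) (nat_lit 456) (nat_lit 0) (XT.lf (nat_lit 0) (nat_lit 135954364) (nat_lit 456) (nat_lit 17978159513) (nat_lit 76) (nat_lit 18679221113) (nat_lit 156) (nat_lit 5) (nat_lit 162) (nat_lit 5) (nat_lit 157) (nat_lit 5) (nat_lit 391) (nat_lit 354) (nat_lit 155)) (XT.lf (nat_lit 0) (nat_lit 1879468606) (nat_lit 456) (nat_lit 3792450253) (nat_lit 532) (nat_lit 31782226383) (nat_lit 150) (nat_lit 5) (nat_lit 156) (nat_lit 5) (nat_lit 157) (nat_lit 5) (nat_lit 392) (nat_lit 354) (nat_lit 154)))))) (XT.nd (nat_lit 546) (nat_lit 1368) (nat_lit 0) (XT.nd (nat_lit 234) (nat_lit 760) (nat_lit 0) (XT.nd (nat_lit 78) (nat_lit 380) (nat_lit 0) (XT.lf (nat_lit 0) (nat_lit 11660132723) (nat_lit 532) (nat_lit 15538323775) (nat_lit 76) (nat_lit 10927739177) (nat_lit 150) (nat_lit 5) (nat_lit 157) (nat_lit 5) (nat_lit 151) (nat_lit 5) (nat_lit 393) (nat_lit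 354) (nat_lit 153)) (XT.nd (nat_lit 78) (nat_lit 0) (nat_lit 0) (XT.lf (nat_lit 0) (nat_lit 5159127563) (nat_lit 380) (nat_lit 12753565889) (nat_lit 456) (nat_lit 20903174113) (nat_lit 145) (nat_lit 5) (nat_lit 150) (nat_lit 5) (nat_lit 151) (nat_lit 5) (nat_lit 394) (nat_lit 354) (nat_lit 152)) (XT.lf (nat_lit 0) (nat_lit 24529308375) (nat_lit 456) (nat_lit 12750628778) (nat_lit 76) (nat_lit 2240999067) (nat_lit 145) (nat_lit 5) (nat_lit 151) (nat_lit 5) (nat_lit 146) (nat_lit 5) (nat_lit 395) (nat_lit 354) (nat_lit 151)))) (XT.nd (nat_lit 156) (nat_lit 380) (nat_lit 0) (XT.nd (nat_lit 78) (nat_lit 0) (nat_lit 0) (XT.lf (nat_lit 0) (nat_lit 8825550908) (nat_lit 380) (nat_lit 22727644046) (nat_lit 456) (nat_lit 8687699686) (nat_lit 140) (nat_lit 5) (nat_lit 145) (nat_lit 5) (nat_lit 146) (nat_lit 5) (nat_lit 396) (nat_lit 354) (nat_lit 150)) (XT.lf (nat_lit 0) (nat_lit 31307361147) (nat_lit 380) (nat_lit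 7606895940) (nat_lit 456) (nat_lit 2064401836) (nat_lit 140) (nat_lit 5) (nat_lit 145) (nat_lit 5) (nat_lit 146) (nat_lit 5) (nat_lit 397) (nat_lit 354) (nat_lit 149))) (XT.nd (nat_lit 78) (nat_lit 0) (nat_lit 0) (XT.lf (nat_lit 0) (nat_lit 4865046126) (nat_lit 380) (nat_lit 28883155490) (nat_lit 76) (nat_lit 7982974685) (nat_lit 135) (nat_lit 5) (nat_lit 140) (nat_lit 5) (nat_lit 136) (nat_lit 5) (nat_lit 398) (nat_lit 354) (nat_lit 148)) (XT.lf (nat_lit 0) (nat_lit 12132605646) (nat_lit 380) (nat_lit 6361909157) (nat_lit 76) (nat_lit 24005990395) (nat_lit 135) (nat_lit 5) (nat_lit 140) (nat_lit 5) (nat_lit 136) (nat_lit 5) (nat_lit 399) (nat_lit 354) (nat_lit 147))))) (XT.nd (nat_lit 234) (nat_lit 684) (nat_lit 0) (XT.nd (nat_lit 78) (nat_lit 304) (nat_lit 0) (XT.lf (nat_lit 0) (nat_lit 17167034655) (nat_lit 380) (nat_lit 2614018755) (nat_lit 456) (nat_lit 23506975487) (nat_lit 130) (nat_lit 5) (nat_lit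 135) (nat_lit 5) (nat_lit 136) (nat_lit 5) (nat_lit 400) (nat_lit 354) (nat_lit 146)) (XT.nd (nat_lit 78) (nat_lit 304) (nat_lit 0) (XT.lf (nat_lit 0) (nat_lit 27853807487) (nat_lit 456) (nat_lit 2700691334) (nat_lit 76) (nat_lit 13538834656) (nat_lit 130) (nat_lit 5) (nat_lit 136) (nat_lit 5) (nat_lit 131) (nat_lit 5) (nat_lit 401) (nat_lit 354) (nat_lit 145)) (XT.lf (nat_lit 0) (nat_lit 21819238560) (nat_lit 304) (nat_lit 14583057854) (nat_lit 380) (nat_lit 8513494946) (nat_lit 126) (nat_lit 5) (nat_lit 130) (nat_lit 5) (nat_lit 131) (nat_lit 5) (nat_lit 402) (nat_lit 354) (nat_lit 144)))) (XT.nd (nat_lit 156) (nat_lit 304) (nat_lit 0) (XT.nd (nat_lit 78) (nat_lit 76) (nat_lit 0) (XT.lf (nat_lit 0) (nat_lit 1373708706) (nat_lit 304) (nat_lit 43890185877) (nat_lit 380) (nat_lit 497329474) (nat_lit 122) (nat_lit 5) (nat_lit 126) (nat_lit 5) (nat_lit 127) (nat_lit 5) (nat_lit 403) (nat_lit 354) (nat_lit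 143)) (XT.lf (nat_lit 0) (nat_lit 7985801955) (nat_lit 380) (nat_lit 19797682575) (nat_lit 76) (nat_lit 18834961457) (nat_lit 121) (nat_lit 5) (nat_lit 126) (nat_lit 5) (nat_lit 122) (nat_lit 5) (nat_lit 404) (nat_lit 354) (nat_lit 142))) (XT.nd (nat_lit 78) (nat_lit 0) (nat_lit 0) (XT.lf (nat_lit 0) (nat_lit 5631995208) (nat_lit 304) (nat_lit 11133601149) (nat_lit 380) (nat_lit 30734076202) (nat_lit 117) (nat_lit 5) (nat_lit 121) (nat_lit 5) (nat_lit 122) (nat_lit 5) (nat_lit 405) (nat_lit 354) (nat_lit 141)) (XT.lf (nat_lit 0) (nat_lit 26066558118) (nat_lit 380) (nat_lit 16233598127) (nat_lit 76) (nat_lit 6099447110) (nat_lit 117) (nat_lit 5) (nat_lit 122) (nat_lit 5) (nat_lit 118) (nat_lit 5) (nat_lit 406) (nat_lit 354) (nat_lit 140))))))))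
noncomputable def xc219 : XT := (XT.nd (nat_lit 43056) (nat_lit 0) (nat_lit 8436) (XT.nd (nat_lit 1014) (nat_lit 1368) (nat_lit 0) (XT.nd (nat_lit 468) (nat_lit 1140) (nat_lit 0) (XT.nd (nat_lit 234) (nat_lit 304) (nat_lit 0) (XT.nd (nat_lit 78) (nat_lit 380) (nat_lit 0) (XT.lf (nat_lit 0) (nat_lit 10256647514) (nat_lit 304) (nat_lit 25596833908) (nat_lit 380) (nat_lit 13466843287) (nat_lit 113) (nat_lit 5) (nat_lit 117) (nat_lit 5) (nat_lit 118) (nat_lit 5) (nat_lit 407) (nat_lit 354) (nat_lit 139)) (XT.nd (nat_lit 78) (nat_lit 380) (nat_lit 0) (XT.lf (nat_lit 0) (nat_lit 37871634075) (nat_lit 304) (nat_lit 8224440545) (nat_lit 380) (nat_lit 4167731815) (nat_lit 113) (nat_lit 5) (nat_lit 117) (nat_lit 5) (nat_lit 118) (nat_lit 5) (nat_lit 408) (nat_lit 354) (nat_lit 138)) (XT.lf (nat_lit 0) (nat_lit 5545160309) (nat_lit 380) (nat_lit 36000783384) (nat_lit 76) (nat_lit 9680877771) (nat_lit 108) (nat_lit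 5) (nat_lit 113) (nat_lit 5) (nat_lit 109) (nat_lit 5) (nat_lit 409) (nat_lit 354) (nat_lit 137)))) (XT.nd (nat_lit 78) (nat_lit 304) (nat_lit 0) (XT.lf (nat_lit 0) (nat_lit 15671667427) (nat_lit 380) (nat_lit 8414800682) (nat_lit 76) (nat_lit 28124841574) (nat_lit 108) (nat_lit 5) (nat_lit 113) (nat_lit 5) (nat_lit 109) (nat_lit 5) (nat_lit 410) (nat_lit 354) (nat_lit 136)) (XT.nd (nat_lit 78) (nat_lit 0) (nat_lit 0) (XT.lf (nat_lit 0) (nat_lit 20394086392) (nat_lit 304) (nat_lit 5902166314) (nat_lit 380) (nat_lit 26923251885) (nat_lit 104) (nat_lit 5) (nat_lit 108) (nat_lit 5) (nat_lit 109) (nat_lit 5) (nat_lit 411) (nat_lit 354) (nat_lit 135)) (XT.lf (nat_lit 0) (nat_lit 37446957350) (nat_lit 380) (nat_lit 4142464921) (nat_lit 76) (nat_lit 12662302135) (nat_lit 104) (nat_lit 5) (nat_lit 109) (nat_lit 5) (nat_lit 105) (nat_lit 5) (nat_lit 412) (nat_lit 354) (nat_lit 134))))) (XT.nd (nat_lit 234) (nat_lit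 532) (nat_lit 0) (XT.nd (nat_lit 78) (nat_lit 380) (nat_lit 0) (XT.lf (nat_lit 0) (nat_lit 25844276594) (nat_lit 228) (nat_lit 23393085643) (nat_lit 304) (nat_lit 6068393706) (nat_lit 101) (nat_lit 5) (nat_lit 104) (nat_lit 5) (nat_lit 105) (nat_lit 5) (nat_lit 413) (nat_lit 354) (nat_lit 133)) (XT.nd (nat_lit 78) (nat_lit 0) (nat_lit 0) (XT.lf (nat_lit 0) (nat_lit 381866476) (nat_lit 304) (nat_lit 4555064308) (nat_lit 380) (nat_lit 51451712058) (nat_lit 96) (nat_lit 5) (nat_lit 100) (nat_lit 5) (nat_lit 101) (nat_lit 5) (nat_lit 414) (nat_lit 354) (nat_lit 132)) (XT.lf (nat_lit 0) (nat_lit 16591958240) (nat_lit 380) (nat_lit 25979007588) (nat_lit 76) (nat_lit 14918003127) (nat_lit 96) (nat_lit 5) (nat_lit 101) (nat_lit 5) (nat_lit 97) (nat_lit 5) (nat_lit 415) (nat_lit 354) (nat_lit 131)))) (XT.nd (nat_lit 156) (nat_lit 304) (nat_lit 0) (XT.nd (nat_lit 78) (nat_lit 0) (nat_lit 0) (XT.lf (nat_lit 0) (nat_lit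 4999526408) (nat_lit 228) (nat_lit 23688650969) (nat_lit 304) (nat_lit 29931381694) (nat_lit 93) (nat_lit 5) (nat_lit 96) (nat_lit 5) (nat_lit 97) (nat_lit 5) (nat_lit 416) (nat_lit 354) (nat_lit 130)) (XT.lf (nat_lit 0) (nat_lit 37437458419) (nat_lit 228) (nat_lit 3970567463) (nat_lit 304) (nat_lit 18368219153) (nat_lit 93) (nat_lit 5) (nat_lit 96) (nat_lit 5) (nat_lit 97) (nat_lit 5) (nat_lit 417) (nat_lit 354) (nat_lit 129))) (XT.nd (nat_lit 78) (nat_lit 76) (nat_lit 0) (XT.lf (nat_lit 0) (nat_lit 9914842378) (nat_lit 228) (nat_lit 44845439741) (nat_lit 304) (nat_lit 6199825512) (nat_lit 90) (nat_lit 5) (nat_lit 93) (nat_lit 5) (nat_lit 94) (nat_lit 5) (nat_lit 418) (nat_lit 354) (nat_lit 128)) (XT.lf (nat_lit 0) (nat_lit 6475602105) (nat_lit 304) (nat_lit 18683618661) (nat_lit 76) (nat_lit 37010472035) (nat_lit 89) (nat_lit 5) (nat_lit 93) (nat_lit 5) (nat_lit 90) (nat_lit 5) (nat_lit 419) (nat_lit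 354) (nat_lit 127)))))) (XT.nd (nat_lit 546) (nat_lit 456) (nat_lit 0) (XT.nd (nat_lit 234) (nat_lit 456) (nat_lit 0) (XT.nd (nat_lit 78) (nat_lit 228) (nat_lit 0) (XT.lf (nat_lit 0) (nat_lit 14875362149) (nat_lit 228) (nat_lit 4672806244) (nat_lit 304) (nat_lit 43861311400) (nat_lit 86) (nat_lit 5) (nat_lit 89) (nat_lit 5) (nat_lit 90) (nat_lit 5) (nat_lit 420) (nat_lit 354) (nat_lit 126)) (XT.nd (nat_lit 78) (nat_lit 228) (nat_lit 0) (XT.lf (nat_lit 0) (nat_lit 33359872969) (nat_lit 304) (nat_lit 15018893412) (nat_lit 76) (nat_lit 16297285545) (nat_lit 86) (nat_lit 5) (nat_lit 90) (nat_lit 5) (nat_lit 87) (nat_lit 5) (nat_lit 421) (nat_lit 354) (nat_lit 125)) (XT.lf (nat_lit 0) (nat_lit 19840333466) (nat_lit 228) (nat_lit 27981128990) (nat_lit 304) (nat_lit 18152093116) (nat_lit 83) (nat_lit 5) (nat_lit 86) (nat_lit 5) (nat_lit 87) (nat_lit 5) (nat_lit 422) (nat_lit 354) (nat_lit 124)))) (XT.nd (nat_lit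 156) (nat_lit 228) (nat_lit 0) (XT.nd (nat_lit 78) (nat_lit 228) (nat_lit 0) (XT.lf (nat_lit 0) (nat_lit 56050887692) (nat_lit 228) (nat_lit 6816244138) (nat_lit 304) (nat_lit 4438345881) (nat_lit 83) (nat_lit 5) (nat_lit 86) (nat_lit 5) (nat_lit 87) (nat_lit 5) (nat_lit 423) (nat_lit 354) (nat_lit 123)) (XT.lf (nat_lit 0) (nat_lit 9884649259) (nat_lit 228) (nat_lit 43750615268) (nat_lit 76) (nat_lit 15027694046) (nat_lit 80) (nat_lit 5) (nat_lit 83) (nat_lit 5) (nat_lit 81) (nat_lit 5) (nat_lit 424) (nat_lit 354) (nat_lit 122))) (XT.nd (nat_lit 78) (nat_lit 228) (nat_lit 0) (XT.lf (nat_lit 0) (nat_lit 24728999036) (nat_lit 228) (nat_lit 7777612137) (nat_lit 76) (nat_lit 37547808555) (nat_lit 80) (nat_lit 5) (nat_lit 83) (nat_lit 5) (nat_lit 81) (nat_lit 5) (nat_lit 425) (nat_lit 354) (nat_lit 121)) (XT.lf (nat_lit 0) (nat_lit 29854931515) (nat_lit 228) (nat_lit 10449381211) (nat_lit 304) (nat_lit 31174743300)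 (nat_lit 77) (nat_lit 5) (nat_lit 80) (nat_lit 5) (nat_lit 81) (nat_lit 5) (nat_lit 426) (nat_lit 354) (nat_lit 120))))) (XT.nd (nat_lit 234) (nat_lit 228) (nat_lit 0) (XT.nd (nat_lit 78) (nat_lit 228) (nat_lit 0) (XT.lf (nat_lit 0) (nat_lit 56542803946) (nat_lit 304) (nat_lit 4289147404) (nat_lit 76) (nat_lit 12108602823) (nat_lit 77) (nat_lit 5) (nat_lit 81) (nat_lit 5) (nat_lit 78) (nat_lit 5) (nat_lit 427) (nat_lit 354) (nat_lit 119)) (XT.nd (nat_lit 78) (nat_lit 76) (nat_lit 0) (XT.lf (nat_lit 0) (nat_lit 34738113801) (nat_lit 152) (nat_lit 38966417674) (nat_lit 228) (nat_lit 728283635) (nat_lit 75) (nat_lit 5) (nat_lit 77) (nat_lit 5) (nat_lit 78) (nat_lit 5) (nat_lit 428) (nat_lit 354) (nat_lit 118)) (XT.lf (nat_lit 0) (nat_lit 15152981035) (nat_lit 228) (nat_lit 1095176237) (nat_lit 76) (nat_lit 59715969301) (nat_lit 74) (nat_lit 5) (nat_lit 77) (nat_lit 5) (nat_lit 75) (nat_lit 5) (nat_lit 429)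 (nat_lit 354) (nat_lit 117)))) (XT.nd (nat_lit 41106) (nat_lit 0) (nat_lit 13756) (XT.nd (nat_lit 41028) (nat_lit 0) (nat_lit 13756) (XT.lf (nat_lit 0) (nat_lit 31946298562) (nat_lit 304) (nat_lit 38180110377) (nat_lit 76) (nat_lit 7401244808) (nat_lit 71) (nat_lit 5) (nat_lit 75) (nat_lit 5) (nat_lit 72) (nat_lit 5) (nat_lit 430) (nat_lit 354) (nat_lit 116)) (XT.lf (nat_lit 0) (nat_lit 5063415993) (nat_lit 0) (nat_lit 5063415993) (nat_lit 1140) (nat_lit 274209124) (nat_lit 252) (nat_lit 5) (nat_lit 252) (nat_lit 3) (nat_lit 267) (nat_lit 3) (nat_lit 355) (nat_lit 355) (nat_lit 190))) (XT.nd (nat_lit 78) (nat_lit 0) (nat_lit 0) (XT.lf (nat_lit 0) (nat_lit 20379751750) (nat_lit 0) (nat_lit 326132951) (nat_lit 1140) (nat_lit 403696237) (nat_lit 252) (nat_lit 5) (nat_lit 252) (nat_lit 3) (nat_lit 267) (nat_lit 3) (nat_lit 356) (nat_lit 355) (nat_lit 189)) (XT.lf (nat_lit 76) (nat_lit 9604367806) (nat_lit 0)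 (nat_lit 11747764527) (nat_lit 1216) (nat_lit 68761600) (nat_lit 253) (nat_lit 5) (nat_lit 252) (nat_lit 5) (nat_lit 268) (nat_lit 5) (nat_lit 357) (nat_lit 355) (nat_lit 188))))))) (XT.nd (nat_lit 1014) (nat_lit 4104) (nat_lit 0) (XT.nd (nat_lit 468) (nat_lit 0) (nat_lit 228) (XT.nd (nat_lit 234) (nat_lit 0) (nat_lit 152) (XT.nd (nat_lit 78) (nat_lit 0) (nat_lit 76) (XT.lf (nat_lit 0) (nat_lit 275818149) (nat_lit 1216) (nat_lit 1486917479) (nat_lit 1292) (nat_lit 19978584363) (nat_lit 236) (nat_lit 5) (nat_lit 252) (nat_lit 5) (nat_lit 253) (nat_lit 5) (nat_lit 358) (nat_lit 355) (nat_lit 187)) (XT.nd (nat_lit 78) (nat_lit 0) (nat_lit 0) (XT.lf (nat_lit 0) (nat_lit 796363577) (nat_lit 1216) (nat_lit 12820767260) (nat_lit 1292) (nat_lit 8449200119) (nat_lit 237) (nat_lit 5) (nat_lit 253) (nat_lit 5) (nat_lit 254) (nat_lit 5) (nat_lit 359) (nat_lit 355) (nat_lit 186)) (XT.lf (nat_lit 0) (nat_lit 1359776322)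 (nat_lit 1216) (nat_lit 2090993783) (nat_lit 1292) (nat_lit 18949507390) (nat_lit 237) (nat_lit 5) (nat_lit 253) (nat_lit 5) (nat_lit 254) (nat_lit 5) (nat_lit 360) (nat_lit 355) (nat_lit 185)))) (XT.nd (nat_lit 78) (nat_lit 0) (nat_lit 0) (XT.lf (nat_lit 0) (nat_lit 2091076395) (nat_lit 1216) (nat_lit 13674352627) (nat_lit 1292) (nat_lit 6974286557) (nat_lit 238) (nat_lit 5) (nat_lit 254) (nat_lit 5) (nat_lit 255) (nat_lit 5) (nat_lit 361) (nat_lit 355) (nat_lit 184)) (XT.nd (nat_lit 78) (nat_lit 0) (nat_lit 76) (XT.lf (nat_lit 0) (nat_lit 2894736854) (nat_lit 1216) (nat_lit 2527103402) (nat_lit 1292) (nat_lit 17665986522) (nat_lit 238) (nat_lit 5) (nat_lit 254) (nat_lit 5) (nat_lit 255) (nat_lit 5) (nat_lit 362) (nat_lit 355) (nat_lit 183)) (XT.lf (nat_lit 0) (nat_lit 3856523683) (nat_lit 1216) (nat_lit 14365567526) (nat_lit 1292) (nat_lit 5220272149) (nat_lit 239) (nat_lit 5) (nat_lit 255) (nat_lit 5)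 (nat_lit 256) (nat_lit 5) (nat_lit 363) (nat_lit 355) (nat_lit 182))))) (XT.nd (nat_lit 234) (nat_lit 0) (nat_lit 152) (XT.nd (nat_lit 78) (nat_lit 0) (nat_lit 76) (XT.lf (nat_lit 0) (nat_lit 4921824716) (nat_lit 1216) (nat_lit 2783423163) (nat_lit 1292) (nat_lit 16100050803) (nat_lit 239) (nat_lit 5) (nat_lit 255) (nat_lit 5) (nat_lit 256) (nat_lit 5) (nat_lit 364) (nat_lit 355) (nat_lit 181)) (XT.nd (nat_lit 78) (nat_lit 0) (nat_lit 0) (XT.lf (nat_lit 0) (nat_lit 6135029393) (nat_lit 1216) (nat_lit 14882624052) (nat_lit 1292) (nat_lit 3157992677) (nat_lit 240) (nat_lit 5) (nat_lit 256) (nat_lit 5) (nat_lit 257) (nat_lit 5) (nat_lit 365) (nat_lit 355) (nat_lit 180)) (XT.lf (nat_lit 0) (nat_lit 7484769973) (nat_lit 1216) (nat_lit 2847367021) (nat_lit 1292) (nat_lit 14221965124) (nat_lit 240) (nat_lit 5) (nat_lit 256) (nat_lit 5) (nat_lit 257) (nat_lit 5) (nat_lit 366) (nat_lit 355) (nat_lit 179)))) (XT.nd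 (nat_lit 156) (nat_lit 0) (nat_lit 0) (XT.nd (nat_lit 78) (nat_lit 0) (nat_lit 0) (XT.lf (nat_lit 0) (nat_lit 8971600781) (nat_lit 1216) (nat_lit 15212987623) (nat_lit 1292) (nat_lit 756427706) (nat_lit 241) (nat_lit 5) (nat_lit 257) (nat_lit 5) (nat_lit 258) (nat_lit 5) (nat_lit 367) (nat_lit 355) (nat_lit 178)) (XT.lf (nat_lit 0) (nat_lit 10630076874) (nat_lit 1216) (nat_lit 2705572428) (nat_lit 1292) (nat_lit 12000079198) (nat_lit 241) (nat_lit 5) (nat_lit 257) (nat_lit 5) (nat_lit 258) (nat_lit 5) (nat_lit 368) (nat_lit 355) (nat_lit 177))) (XT.nd (nat_lit 78) (nat_lit 0) (nat_lit 76) (XT.lf (nat_lit 76) (nat_lit 10376273281) (nat_lit 0) (nat_lit 2057606637) (nat_lit 1292) (nat_lit 13305537292) (nat_lit 242) (nat_lit 5) (nat_lit 241) (nat_lit 5) (nat_lit 258) (nat_lit 5) (nat_lit 369) (nat_lit 355) (nat_lit 176)) (XT.lf (nat_lit 0) (nat_lit 14407201363) (nat_lit 1216) (nat_lit 2343887230) (nat_lit 1292)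 (nat_lit 9400667925) (nat_lit 242) (nat_lit 5) (nat_lit 258) (nat_lit 5) (nat_lit 259) (nat_lit 5) (nat_lit 370) (nat_lit 355) (nat_lit 175)))))) (XT.nd (nat_lit 546) (nat_lit 2128) (nat_lit 0) (XT.nd (nat_lit 234) (nat_lit 1292) (nat_lit 0) (XT.nd (nat_lit 78) (nat_lit 1140) (nat_lit 0) (XT.lf (nat_lit 76) (nat_lit 11262065571) (nat_lit 0) (nat_lit 5302333701) (nat_lit 1292) (nat_lit 10008328433) (nat_lit 243) (nat_lit 5) (nat_lit 242) (nat_lit 5) (nat_lit 259) (nat_lit 5) (nat_lit 371) (nat_lit 355) (nat_lit 174)) (XT.nd (nat_lit 78) (nat_lit 1216) (nat_lit 0) (XT.lf (nat_lit 0) (nat_lit 18868737515) (nat_lit 1216) (nat_lit 1747357405) (nat_lit 76) (nat_lit 6387762321) (nat_lit 243) (nat_lit 5) (nat_lit 259) (nat_lit 5) (nat_lit 244) (nat_lit 5) (nat_lit 372) (nat_lit 355) (nat_lit 173)) (XT.lf (nat_lit 0) (nat_lit 12409230182) (nat_lit 1216) (nat_lit 9001008367) (nat_lit 1292) (nat_lit 6032643026) (nat_lit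 227) (nat_lit 5) (nat_lit 243) (nat_lit 5) (nat_lit 244) (nat_lit 5) (nat_lit 373) (nat_lit 355) (nat_lit 172)))) (XT.nd (nat_lit 156) (nat_lit 684) (nat_lit 0) (XT.nd (nat_lit 78) (nat_lit 608) (nat_lit 0) (XT.lf (nat_lit 0) (nat_lit 24070613402) (nat_lit 1292) (nat_lit 900216046) (nat_lit 76) (nat_lit 2922970163) (nat_lit 227) (nat_lit 5) (nat_lit 244) (nat_lit 5) (nat_lit 228) (nat_lit 5) (nat_lit 374) (nat_lit 355) (nat_lit 171)) (XT.lf (nat_lit 0) (nat_lit 13834817277) (nat_lit 608) (nat_lit 13194528236) (nat_lit 684) (nat_lit 1322345076) (nat_lit 219) (nat_lit 5) (nat_lit 227) (nat_lit 5) (nat_lit 228) (nat_lit 5) (nat_lit 375) (nat_lit 355) (nat_lit 170))) (XT.nd (nat_lit 78) (nat_lit 0) (nat_lit 0) (XT.lf (nat_lit 0) (nat_lit 195695422) (nat_lit 608) (nat_lit 1040901641) (nat_lit 684) (nat_lit 27586135330) (nat_lit 210) (nat_lit 5) (nat_lit 218) (nat_lit 5) (nat_lit 219) (nat_lit 5) (nat_lit 376)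 (nat_lit 355) (nat_lit 169)) (XT.lf (nat_lit 0) (nat_lit 4100648256) (nat_lit 684) (nat_lit 13784523941) (nat_lit 76) (nat_lit 11414694549) (nat_lit 210) (nat_lit 5) (nat_lit 219) (nat_lit 5) (nat_lit 211) (nat_lit 5) (nat_lit 377) (nat_lit 355) (nat_lit 168))))) (XT.nd (nat_lit 234) (nat_lit 988) (nat_lit 0) (XT.nd (nat_lit 78) (nat_lit 532) (nat_lit 0) (XT.lf (nat_lit 0) (nat_lit 1519336290) (nat_lit 608) (nat_lit 5552844084) (nat_lit 684) (nat_lit 22718489557) (nat_lit 202) (nat_lit 5) (nat_lit 210) (nat_lit 5) (nat_lit 211) (nat_lit 5) (nat_lit 378) (nat_lit 355) (nat_lit 167)) (XT.nd (nat_lit 78) (nat_lit 532) (nat_lit 0) (XT.lf (nat_lit 0) (nat_lit 10338873809) (nat_lit 684) (nat_lit 12800581298) (nat_lit 76) (nat_lit 7150563180) (nat_lit 202) (nat_lit 5) (nat_lit 211) (nat_lit 5) (nat_lit 203) (nat_lit 5) (nat_lit 379) (nat_lit 355) (nat_lit 166)) (XT.lf (nat_lit 0) (nat_lit 3137293663) (nat_lit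 532) (nat_lit 10648221868) (nat_lit 608) (nat_lit 17016374631) (nat_lit 195) (nat_lit 5) (nat_lit 202) (nat_lit 5) (nat_lit 203) (nat_lit 5) (nat_lit 380) (nat_lit 355) (nat_lit 165)))) (XT.nd (nat_lit 156) (nat_lit 456) (nat_lit 0) (XT.nd (nat_lit 78) (nat_lit 532) (nat_lit 0) (XT.lf (nat_lit 0) (nat_lit 17484287916) (nat_lit 608) (nat_lit 11535438169) (nat_lit 76) (nat_lit 2304931615) (nat_lit 195) (nat_lit 5) (nat_lit 203) (nat_lit 5) (nat_lit 196) (nat_lit 5) (nat_lit 381) (nat_lit 355) (nat_lit 164)) (XT.lf (nat_lit 0) (nat_lit 5067851359) (nat_lit 532) (nat_lit 16377278907) (nat_lit 608) (nat_lit 10413446200) (nat_lit 188) (nat_lit 5) (nat_lit 195) (nat_lit 5) (nat_lit 196) (nat_lit 5) (nat_lit 382) (nat_lit 355) (nat_lit 163))) (XT.nd (nat_lit 78) (nat_lit 456) (nat_lit 0) (XT.lf (nat_lit 0) (nat_lit 22402528549) (nat_lit 532) (nat_lit 3235776121) (nat_lit 608) (nat_lit 6766804287) (nat_lit 188)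 (nat_lit 5) (nat_lit 195) (nat_lit 5) (nat_lit 196) (nat_lit 5) (nat_lit 383) (nat_lit 355) (nat_lit 162)) (XT.lf (nat_lit 0) (nat_lit 7330065050) (nat_lit 456) (nat_lit 22793786338) (nat_lit 532) (nat_lit 2839190046) (nat_lit 182) (nat_lit 5) (nat_lit 188) (nat_lit 5) (nat_lit 189) (nat_lit 5) (nat_lit 384) (nat_lit 355) (nat_lit 161))))))))
noncomputable def xc220 : XT := (XT.nd (nat_lit 2106) (nat_lit 2508) (nat_lit 0) (XT.nd (nat_lit 1014) (nat_lit 2432) (nat_lit 0) (XT.nd (nat_lit 468) (nat_lit 1672) (nat_lit 0) (XT.nd (nat_lit 234) (nat_lit 912) (nat_lit 0) (XT.nd (nat_lit 78) (nat_lit 532) (nat_lit 0) (XT.lf (nat_lit 0) (nat_lit 1313889303) (nat_lit 532) (nat_lit 8194778609) (nat_lit 76) (nat_lit 24024762118) (nat_lit 181) (nat_lit 5) (nat_lit 188) (nat_lit 5) (nat_lit 182) (nat_lit 5) (nat_lit 385) (nat_lit 355) (nat_lit 160)) (XT.nd (nat_lit 78) (nat_lit 0) (nat_lit 0) (XT.lf (nat_lit 0) (nat_lit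 5668508361) (nat_lit 608) (nat_lit 24229558546) (nat_lit 76) (nat_lit 4218000898) (nat_lit 174) (nat_lit 5) (nat_lit 182) (nat_lit 5) (nat_lit 175) (nat_lit 5) (nat_lit 386) (nat_lit 355) (nat_lit 159)) (XT.lf (nat_lit 0) (nat_lit 10328744721) (nat_lit 608) (nat_lit 6133599590) (nat_lit 76) (nat_lit 18248592218) (nat_lit 174) (nat_lit 5) (nat_lit 182) (nat_lit 5) (nat_lit 175) (nat_lit 5) (nat_lit 387) (nat_lit 355) (nat_lit 158)))) (XT.nd (nat_lit 78) (nat_lit 456) (nat_lit 0) (XT.lf (nat_lit 0) (nat_lit 12750994251) (nat_lit 456) (nat_lit 2497706985) (nat_lit 532) (nat_lit 20071353831) (nat_lit 168) (nat_lit 5) (nat_lit 174) (nat_lit 5) (nat_lit 175) (nat_lit 5) (nat_lit 388) (nat_lit 355) (nat_lit 157)) (XT.nd (nat_lit 78) (nat_lit 456) (nat_lit 0) (XT.lf (nat_lit 0) (nat_lit 20490448165) (nat_lit 532) (nat_lit 3735704854) (nat_lit 76) (nat_lit 11716069501) (nat_lit 168) (nat_lit 5) (nat_lit 175) (nat_lit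 5) (nat_lit 169) (nat_lit 5) (nat_lit 389) (nat_lit 355) (nat_lit 156)) (XT.lf (nat_lit 0) (nat_lit 15946070778) (nat_lit 456) (nat_lit 10118852891) (nat_lit 532) (nat_lit 10512868119) (nat_lit 162) (nat_lit 5) (nat_lit 168) (nat_lit 5) (nat_lit 169) (nat_lit 5) (nat_lit 390) (nat_lit 355) (nat_lit 155))))) (XT.nd (nat_lit 234) (nat_lit 760) (nat_lit 0) (XT.nd (nat_lit 78) (nat_lit 912) (nat_lit 0) (XT.lf (nat_lit 0) (nat_lit 31884641296) (nat_lit 532) (nat_lit 982257584) (nat_lit 76) (nat_lit 4363190065) (nat_lit 162) (nat_lit 5) (nat_lit 169) (nat_lit 5) (nat_lit 163) (nat_lit 5) (nat_lit 391) (nat_lit 355) (nat_lit 154)) (XT.nd (nat_lit 78) (nat_lit 456) (nat_lit 0) (XT.lf (nat_lit 0) (nat_lit 265813047) (nat_lit 456) (nat_lit 18361268714) (nat_lit 76) (nat_lit 19266229816) (nat_lit 156) (nat_lit 5) (nat_lit 162) (nat_lit 5) (nat_lit 157) (nat_lit 5) (nat_lit 392) (nat_lit 355) (nat_lit 153)) (XT.lf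 (nat_lit 0) (nat_lit 2090556527) (nat_lit 456) (nat_lit 3875123561) (nat_lit 532) (nat_lit 32608332798) (nat_lit 150) (nat_lit 5) (nat_lit 156) (nat_lit 5) (nat_lit 157) (nat_lit 5) (nat_lit 393) (nat_lit 355) (nat_lit 152)))) (XT.nd (nat_lit 156) (nat_lit 380) (nat_lit 0) (XT.nd (nat_lit 78) (nat_lit 380) (nat_lit 0) (XT.lf (nat_lit 0) (nat_lit 12130230508) (nat_lit 532) (nat_lit 15850918514) (nat_lit 76) (nat_lit 11285176520) (nat_lit 150) (nat_lit 5) (nat_lit 157) (nat_lit 5) (nat_lit 151) (nat_lit 5) (nat_lit 394) (nat_lit 355) (nat_lit 151)) (XT.lf (nat_lit 0) (nat_lit 5465950922) (nat_lit 380) (nat_lit 13102375026) (nat_lit 456) (nat_lit 21408424278) (nat_lit 145) (nat_lit 5) (nat_lit 150) (nat_lit 5) (nat_lit 151) (nat_lit 5) (nat_lit 395) (nat_lit 355) (nat_lit 150))) (XT.nd (nat_lit 78) (nat_lit 380) (nat_lit 0) (XT.lf (nat_lit 0) (nat_lit 25380310518) (nat_lit 456) (nat_lit 12982353455) (nat_lit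 76) (nat_lit 2340402167) (nat_lit 145) (nat_lit 5) (nat_lit 151) (nat_lit 5) (nat_lit 146) (nat_lit 5) (nat_lit 396) (nat_lit 355) (nat_lit 149)) (XT.lf (nat_lit 0) (nat_lit 9239633247) (nat_lit 380) (nat_lit 23373362669) (nat_lit 456) (nat_lit 8831686227) (nat_lit 140) (nat_lit 5) (nat_lit 145) (nat_lit 5) (nat_lit 146) (nat_lit 5) (nat_lit 397) (nat_lit 355) (nat_lit 148)))))) (XT.nd (nat_lit 546) (nat_lit 1064) (nat_lit 0) (XT.nd (nat_lit 234) (nat_lit 988) (nat_lit 0) (XT.nd (nat_lit 78) (nat_lit 380) (nat_lit 0) (XT.lf (nat_lit 0) (nat_lit 32391548789) (nat_lit 380) (nat_lit 7800043888) (nat_lit 456) (nat_lit 2013086852) (nat_lit 140) (nat_lit 5) (nat_lit 145) (nat_lit 5) (nat_lit 146) (nat_lit 5) (nat_lit 398) (nat_lit 355) (nat_lit 147)) (XT.nd (nat_lit 78) (nat_lit 0) (nat_lit 0) (XT.lf (nat_lit 0) (nat_lit 5120553399) (nat_lit 380) (nat_lit 29600911972) (nat_lit 76) (nat_lit 8258320023) (nat_lit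 135) (nat_lit 5) (nat_lit 140) (nat_lit 5) (nat_lit 136) (nat_lit 5) (nat_lit 399) (nat_lit 355) (nat_lit 146)) (XT.lf (nat_lit 0) (nat_lit 12602948756) (nat_lit 380) (nat_lit 6408360430) (nat_lit 76) (nat_lit 24760981852) (nat_lit 135) (nat_lit 5) (nat_lit 140) (nat_lit 5) (nat_lit 136) (nat_lit 5) (nat_lit 400) (nat_lit 355) (nat_lit 145)))) (XT.nd (nat_lit 156) (nat_lit 608) (nat_lit 0) (XT.nd (nat_lit 78) (nat_lit 0) (nat_lit 0) (XT.lf (nat_lit 0) (nat_lit 17825035952) (nat_lit 380) (nat_lit 2654090503) (nat_lit 456) (nat_lit 24104366815) (nat_lit 130) (nat_lit 5) (nat_lit 135) (nat_lit 5) (nat_lit 136) (nat_lit 5) (nat_lit 401) (nat_lit 355) (nat_lit 144)) (XT.lf (nat_lit 0) (nat_lit 28791373241) (nat_lit 456) (nat_lit 2640160502) (nat_lit 76) (nat_lit 13981505027) (nat_lit 130) (nat_lit 5) (nat_lit 136) (nat_lit 5) (nat_lit 131) (nat_lit 5) (nat_lit 402) (nat_lit 355) (nat_lit 143))) (XT.nd (nat_lit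 78) (nat_lit 304) (nat_lit 0) (XT.lf (nat_lit 0) (nat_lit 22613979529) (nat_lit 304) (nat_lit 14980715186) (nat_lit 380) (nat_lit 8665525393) (nat_lit 126) (nat_lit 5) (nat_lit 130) (nat_lit 5) (nat_lit 131) (nat_lit 5) (nat_lit 403) (nat_lit 355) (nat_lit 142)) (XT.lf (nat_lit 0) (nat_lit 1556345607) (nat_lit 304) (nat_lit 45164604235) (nat_lit 380) (nat_lit 410102694) (nat_lit 122) (nat_lit 5) (nat_lit 126) (nat_lit 5) (nat_lit 127) (nat_lit 5) (nat_lit 404) (nat_lit 355) (nat_lit 141))))) (XT.nd (nat_lit 234) (nat_lit 684) (nat_lit 0) (XT.nd (nat_lit 78) (nat_lit 304) (nat_lit 0) (XT.lf (nat_lit 0) (nat_lit 8322612338) (nat_lit 380) (nat_lit 20252339279) (nat_lit 76) (nat_lit 19439098527) (nat_lit 121) (nat_lit 5) (nat_lit 126) (nat_lit 5) (nat_lit 122) (nat_lit 5) (nat_lit 405) (nat_lit 355) (nat_lit 140)) (XT.nd (nat_lit 78) (nat_lit 0) (nat_lit 0) (XT.lf (nat_lit 0) (nat_lit 5938863408) (nat_lit 304)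 (nat_lit 11425430697) (nat_lit 380) (nat_lit 31557465537) (nat_lit 117) (nat_lit 5) (nat_lit 121) (nat_lit 5) (nat_lit 122) (nat_lit 5) (nat_lit 406) (nat_lit 355) (nat_lit 139)) (XT.lf (nat_lit 0) (nat_lit 26941890107) (nat_lit 380) (nat_lit 16584289575) (nat_lit 76) (nat_lit 6322581428) (nat_lit 117) (nat_lit 5) (nat_lit 122) (nat_lit 5) (nat_lit 118) (nat_lit 5) (nat_lit 407) (nat_lit 355) (nat_lit 138)))) (XT.nd (nat_lit 156) (nat_lit 380) (nat_lit 0) (XT.nd (nat_lit 78) (nat_lit 0) (nat_lit 0) (XT.lf (nat_lit 0) (nat_lit 10699326999) (nat_lit 304) (nat_lit 26321673120) (nat_lit 380) (nat_lit 13776147498) (nat_lit 113) (nat_lit 5) (nat_lit 117) (nat_lit 5) (nat_lit 118) (nat_lit 5) (nat_lit 408) (nat_lit 355) (nat_lit 137)) (XT.lf (nat_lit 0) (nat_lit 39138831698) (nat_lit 304) (nat_lit 8429362301) (nat_lit 380) (nat_lit 4200820966) (nat_lit 113) (nat_lit 5) (nat_lit 117) (nat_lit 5) (nat_lit 118) (nat_lit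 5) (nat_lit 409) (nat_lit 355) (nat_lit 136))) (XT.nd (nat_lit 78) (nat_lit 0) (nat_lit 0) (XT.lf (nat_lit 0) (nat_lit 5800714036) (nat_lit 380) (nat_lit 36946959769) (nat_lit 76) (nat_lit 10013249424) (nat_lit 108) (nat_lit 5) (nat_lit 113) (nat_lit 5) (nat_lit 109) (nat_lit 5) (nat_lit 410) (nat_lit 355) (nat_lit 135)) (XT.lf (nat_lit 0) (nat_lit 16228418341) (nat_lit 380) (nat_lit 8537296046) (nat_lit 76) (nat_lit 29009310433) (nat_lit 108) (nat_lit 5) (nat_lit 113) (nat_lit 5) (nat_lit 109) (nat_lit 5) (nat_lit 411) (nat_lit 355) (nat_lit 134))))))) (XT.nd (nat_lit 1014) (nat_lit 608) (nat_lit 0) (XT.nd (nat_lit 468) (nat_lit 760) (nat_lit 0) (XT.nd (nat_lit 234) (nat_lit 608) (nat_lit 0) (XT.nd (nat_lit 78) (nat_lit 228) (nat_lit 0) (XT.lf (nat_lit 0) (nat_lit 21134583634) (nat_lit 304) (nat_lit 6035872088) (nat_lit 380) (nat_lit 27643049177) (nat_lit 104) (nat_lit 5) (nat_lit 108) (nat_lit 5) (nat_lit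 109) (nat_lit 5) (nat_lit 412) (nat_lit 355) (nat_lit 133)) (XT.nd (nat_lit 78) (nat_lit 228) (nat_lit 0) (XT.lf (nat_lit 0) (nat_lit 38653601245) (nat_lit 380) (nat_lit 4139707137) (nat_lit 76) (nat_lit 13083446074) (nat_lit 104) (nat_lit 5) (nat_lit 109) (nat_lit 5) (nat_lit 105) (nat_lit 5) (nat_lit 413) (nat_lit 355) (nat_lit 132)) (XT.lf (nat_lit 0) (nat_lit 26745391214) (nat_lit 228) (nat_lit 24051111875) (nat_lit 304) (nat_lit 6165941023) (nat_lit 101) (nat_lit 5) (nat_lit 104) (nat_lit 5) (nat_lit 105) (nat_lit 5) (nat_lit 414) (nat_lit 355) (nat_lit 131)))) (XT.nd (nat_lit 78) (nat_lit 228) (nat_lit 0) (XT.lf (nat_lit 0) (nat_lit 519531400) (nat_lit 304) (nat_lit 4647162745) (nat_lit 380) (nat_lit 52911135783) (nat_lit 96) (nat_lit 5) (nat_lit 100) (nat_lit 5) (nat_lit 101) (nat_lit 5) (nat_lit 415) (nat_lit 355) (nat_lit 130)) (XT.nd (nat_lit 78) (nat_lit 228) (nat_lit 0) (XT.lf (nat_lit 0) (nat_lit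 17169409912) (nat_lit 380) (nat_lit 26633860481) (nat_lit 76) (nat_lit 15407954962) (nat_lit 96) (nat_lit 5) (nat_lit 101) (nat_lit 5) (nat_lit 97) (nat_lit 5) (nat_lit 416) (nat_lit 355) (nat_lit 129)) (XT.lf (nat_lit 0) (nat_lit 5272808777) (nat_lit 228) (nat_lit 24354570895) (nat_lit 304) (nat_lit 30748388218) (nat_lit 93) (nat_lit 5) (nat_lit 96) (nat_lit 5) (nat_lit 97) (nat_lit 5) (nat_lit 417) (nat_lit 355) (nat_lit 128))))) (XT.nd (nat_lit 234) (nat_lit 456) (nat_lit 0) (XT.nd (nat_lit 78) (nat_lit 304) (nat_lit 0) (XT.lf (nat_lit 0) (nat_lit 38680287586) (nat_lit 228) (nat_lit 4046247980) (nat_lit 304) (nat_lit 18840688129) (nat_lit 93) (nat_lit 5) (nat_lit 96) (nat_lit 5) (nat_lit 97) (nat_lit 5) (nat_lit 418) (nat_lit 355) (nat_lit 127)) (XT.nd (nat_lit 78) (nat_lit 76) (nat_lit 0) (XT.lf (nat_lit 0) (nat_lit 10332692094) (nat_lit 228) (nat_lit 46146008748) (nat_lit 304) (nat_lit 6307921685)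 (nat_lit 90) (nat_lit 5) (nat_lit 93) (nat_lit 5) (nat_lit 94) (nat_lit 5) (nat_lit 419) (nat_lit 355) (nat_lit 126)) (XT.lf (nat_lit 0) (nat_lit 6744024062) (nat_lit 304) (nat_lit 19125735019) (nat_lit 76) (nat_lit 38162781013) (nat_lit 89) (nat_lit 5) (nat_lit 93) (nat_lit 5) (nat_lit 90) (nat_lit 5) (nat_lit 420) (nat_lit 355) (nat_lit 125)))) (XT.nd (nat_lit 156) (nat_lit 228) (nat_lit 0) (XT.nd (nat_lit 78) (nat_lit 0) (nat_lit 0) (XT.lf (nat_lit 0) (nat_lit 15438854507) (nat_lit 228) (nat_lit 4768879909) (nat_lit 304) (nat_lit 45101817816) (nat_lit 86) (nat_lit 5) (nat_lit 89) (nat_lit 5) (nat_lit 90) (nat_lit 5) (nat_lit 421) (nat_lit 355) (nat_lit 124)) (XT.lf (nat_lit 0) (nat_lit 34432072060) (nat_lit 304) (nat_lit 15353907369) (nat_lit 76) (nat_lit 16828194176) (nat_lit 86) (nat_lit 5) (nat_lit 90) (nat_lit 5) (nat_lit 87) (nat_lit 5) (nat_lit 422) (nat_lit 355) (nat_lit 123))) (XT.nd (nat_lit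 78) (nat_lit 0) (nat_lit 0) (XT.lf (nat_lit 0) (nat_lit 20549963444) (nat_lit 228) (nat_lit 28776565966) (nat_lit 304) (nat_lit 18624102863) (nat_lit 83) (nat_lit 5) (nat_lit 86) (nat_lit 5) (nat_lit 87) (nat_lit 5) (nat_lit 423) (nat_lit 355) (nat_lit 122)) (XT.lf (nat_lit 0) (nat_lit 57843501676) (nat_lit 228) (nat_lit 6978016031) (nat_lit 304) (nat_lit 4501056406) (nat_lit 83) (nat_lit 5) (nat_lit 86) (nat_lit 5) (nat_lit 87) (nat_lit 5) (nat_lit 424) (nat_lit 355) (nat_lit 121)))))) (XT.nd (nat_lit 41652) (nat_lit 0) (nat_lit 12236) (XT.nd (nat_lit 234) (nat_lit 152) (nat_lit 0) (XT.nd (nat_lit 78) (nat_lit 228) (nat_lit 0) (XT.lf (nat_lit 0) (nat_lit 10249728807) (nat_lit 228) (nat_lit 44950114502) (nat_lit 76) (nat_lit 15520932012) (nat_lit 80) (nat_lit 5) (nat_lit 83) (nat_lit 5) (nat_lit 81) (nat_lit 5) (nat_lit 425) (nat_lit 355) (nat_lit 120)) (XT.nd (nat_lit 78) (nat_lit 228) (nat_lit 0) (XT.lf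 (nat_lit 0) (nat_lit 25537412764) (nat_lit 228) (nat_lit 7901213100) (nat_lit 76) (nat_lit 38715414796) (nat_lit 80) (nat_lit 5) (nat_lit 83) (nat_lit 5) (nat_lit 81) (nat_lit 5) (nat_lit 426) (nat_lit 355) (nat_lit 119)) (XT.lf (nat_lit 0) (nat_lit 30859231103) (nat_lit 228) (nat_lit 10719861020) (nat_lit 304) (nat_lit 32042351184) (nat_lit 77) (nat_lit 5) (nat_lit 80) (nat_lit 5) (nat_lit 81) (nat_lit 5) (nat_lit 427) (nat_lit 355) (nat_lit 118)))) (XT.nd (nat_lit 41262) (nat_lit 0) (nat_lit 13452) (XT.nd (nat_lit 78) (nat_lit 152) (nat_lit 0) (XT.lf (nat_lit 0) (nat_lit 58303227261) (nat_lit 304) (nat_lit 4310809511) (nat_lit 76) (nat_lit 12512795384) (nat_lit 77) (nat_lit 5) (nat_lit 81) (nat_lit 5) (nat_lit 78) (nat_lit 5) (nat_lit 428) (nat_lit 355) (nat_lit 117)) (XT.lf (nat_lit 0) (nat_lit 35886220390) (nat_lit 152) (nat_lit 40092736677) (nat_lit 228) (nat_lit 684929762) (nat_lit 75) (nat_lit 5)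 (nat_lit 77) (nat_lit 5) (nat_lit 78) (nat_lit 5) (nat_lit 429) (nat_lit 355) (nat_lit 116))) (XT.nd (nat_lit 78) (nat_lit 0) (nat_lit 0) (XT.lf (nat_lit 0) (nat_lit 5288813026) (nat_lit 0) (nat_lit 5288813026) (nat_lit 1140) (nat_lit 130957345) (nat_lit 252) (nat_lit 5) (nat_lit 252) (nat_lit 3) (nat_lit 267) (nat_lit 3) (nat_lit 356) (nat_lit 356) (nat_lit 188)) (XT.lf (nat_lit 0) (nat_lit 21133852173) (nat_lit 0) (nat_lit 478624810) (nat_lit 1140) (nat_lit 121674982) (nat_lit 252) (nat_lit 5) (nat_lit 252) (nat_lit 3) (nat_lit 267) (nat_lit 3) (nat_lit 357) (nat_lit 356) (nat_lit 187))))) (XT.nd (nat_lit 234) (nat_lit 0) (nat_lit 76) (XT.nd (nat_lit 78) (nat_lit 0) (nat_lit 0) (XT.lf (nat_lit 0) (nat_lit 210674115) (nat_lit 1216) (nat_lit 12013323075) (nat_lit 1292) (nat_lit 9830995396) (nat_lit 236) (nat_lit 5) (nat_lit 252) (nat_lit 5) (nat_lit 253) (nat_lit 5) (nat_lit 358) (nat_lit 356) (nat_lit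 186)) (XT.nd (nat_lit 78) (nat_lit 0) (nat_lit 76) (XT.lf (nat_lit 0) (nat_lit 556050483) (nat_lit 1216) (nat_lit 1379080316) (nat_lit 1292) (nat_lit 20450129190) (nat_lit 236) (nat_lit 5) (nat_lit 252) (nat_lit 5) (nat_lit 253) (nat_lit 5) (nat_lit 359) (nat_lit 356) (nat_lit 185)) (XT.lf (nat_lit 0) (nat_lit 1084641193) (nat_lit 1216) (nat_lit 13045237744) (nat_lit 1292) (nat_lit 8590373581) (nat_lit 237) (nat_lit 5) (nat_lit 253) (nat_lit 5) (nat_lit 254) (nat_lit 5) (nat_lit 360) (nat_lit 356) (nat_lit 184)))) (XT.nd (nat_lit 156) (nat_lit 0) (nat_lit 76) (XT.nd (nat_lit 78) (nat_lit 0) (nat_lit 76) (XT.lf (nat_lit 0) (nat_lit 1657255737) (nat_lit 1216) (nat_lit 1998235701) (nat_lit 1292) (nat_lit 19408961018) (nat_lit 237) (nat_lit 5) (nat_lit 253) (nat_lit 5) (nat_lit 254) (nat_lit 5) (nat_lit 361) (nat_lit 356) (nat_lit 183)) (XT.lf (nat_lit 0) (nat_lit 2403568716) (nat_lit 1216) (nat_lit 13922040299)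 (nat_lit 1292) (nat_lit 7088676316) (nat_lit 238) (nat_lit 5) (nat_lit 254) (nat_lit 5) (nat_lit 255) (nat_lit 5) (nat_lit 362) (nat_lit 356) (nat_lit 182))) (XT.nd (nat_lit 78) (nat_lit 0) (nat_lit 76) (XT.lf (nat_lit 0) (nat_lit 3224064425) (nat_lit 1216) (nat_lit 2445107857) (nat_lit 1292) (nat_lit 18103889576) (nat_lit 238) (nat_lit 5) (nat_lit 254) (nat_lit 5) (nat_lit 255) (nat_lit 5) (nat_lit 363) (nat_lit 356) (nat_lit 181)) (XT.lf (nat_lit 0) (nat_lit 4208368871) (nat_lit 1216) (nat_lit 14632268403) (nat_lit 1292) (nat_lit 5297790986) (nat_lit 239) (nat_lit 5) (nat_lit 255) (nat_lit 5) (nat_lit 256) (nat_lit 5) (nat_lit 364) (nat_lit 356) (nat_lit 180))))))))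
noncomputable def xc221 : XT := (XT.nd (nat_lit 2106) (nat_lit 5244) (nat_lit 0) (XT.nd (nat_lit 1014) (nat_lit 3648) (nat_lit 0) (XT.nd (nat_lit 468) (nat_lit 2204) (nat_lit 0) (XT.nd (nat_lit 234) (nat_lit 0) (nat_lit 152) (XT.nd (nat_lit 78) (nat_lit 0) (nat_lit 76) (XT.lf (nat_lit 0) (nat_lit 5298750795) (nat_lit 1216) (nat_lit 2707444161) (nat_lit 1292) (nat_lit 16506266573) (nat_lit 239) (nat_lit 5) (nat_lit 255) (nat_lit 5) (nat_lit 256) (nat_lit 5) (nat_lit 365) (nat_lit 356) (nat_lit 179)) (XT.nd (nat_lit 78) (nat_lit 0) (nat_lit 0) (XT.lf (nat_lit 0) (nat_lit 6542555521) (nat_lit 1216) (nat_lit 15163710447) (nat_lit 1292) (nat_lit 3187830743) (nat_lit 240) (nat_lit 5) (nat_lit 256) (nat_lit 5) (nat_lit 257) (nat_lit 5) (nat_lit 366) (nat_lit 356) (nat_lit 178)) (XT.lf (nat_lit 0) (nat_lit 7926279330) (nat_lit 1216) (nat_lit 2772212957) (nat_lit 1292) (nat_lit 14585612704) (nat_lit 240) (nat_lit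 5) (nat_lit 256) (nat_lit 5) (nat_lit 257) (nat_lit 5) (nat_lit 367) (nat_lit 356) (nat_lit 177)))) (XT.nd (nat_lit 78) (nat_lit 0) (nat_lit 0) (XT.lf (nat_lit 0) (nat_lit 9452412924) (nat_lit 1216) (nat_lit 15503392076) (nat_lit 1292) (nat_lit 726983705) (nat_lit 241) (nat_lit 5) (nat_lit 257) (nat_lit 5) (nat_lit 258) (nat_lit 5) (nat_lit 368) (nat_lit 356) (nat_lit 176)) (XT.nd (nat_lit 78) (nat_lit 0) (nat_lit 0) (XT.lf (nat_lit 0) (nat_lit 11154478326) (nat_lit 1216) (nat_lit 2625588945) (nat_lit 1292) (nat_lit 12309463291) (nat_lit 241) (nat_lit 5) (nat_lit 257) (nat_lit 5) (nat_lit 258) (nat_lit 5) (nat_lit 369) (nat_lit 356) (nat_lit 175)) (XT.lf (nat_lit 76) (nat_lit 10847132227) (nat_lit 0) (nat_lit 2160811714) (nat_lit 1292) (nat_lit 13497522591) (nat_lit 242) (nat_lit 5) (nat_lit 241) (nat_lit 5) (nat_lit 258) (nat_lit 5) (nat_lit 370) (nat_lit 356) (nat_lit 174))))) (XT.nd (nat_lit 234) (nat_lit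 2432) (nat_lit 0) (XT.nd (nat_lit 78) (nat_lit 0) (nat_lit 0) (XT.lf (nat_lit 0) (nat_lit 15034222185) (nat_lit 1216) (nat_lit 2252939145) (nat_lit 1292) (nat_lit 9643204938) (nat_lit 242) (nat_lit 5) (nat_lit 258) (nat_lit 5) (nat_lit 259) (nat_lit 5) (nat_lit 371) (nat_lit 356) (nat_lit 173)) (XT.nd (nat_lit 78) (nat_lit 0) (nat_lit 76) (XT.lf (nat_lit 76) (nat_lit 11759611213) (nat_lit 0) (nat_lit 5492385869) (nat_lit 1292) (nat_lit 10112096554) (nat_lit 243) (nat_lit 5) (nat_lit 242) (nat_lit 5) (nat_lit 259) (nat_lit 5) (nat_lit 372) (nat_lit 356) (nat_lit 172)) (XT.lf (nat_lit 0) (nat_lit 19619622954) (nat_lit 1216) (nat_lit 1638809784) (nat_lit 76) (nat_lit 6549902391) (nat_lit 243) (nat_lit 5) (nat_lit 259) (nat_lit 5) (nat_lit 244) (nat_lit 5) (nat_lit 373) (nat_lit 356) (nat_lit 171)))) (XT.nd (nat_lit 156) (nat_lit 1292) (nat_lit 0) (XT.nd (nat_lit 78) (nat_lit 0) (nat_lit 0) (XT.lf (nat_lit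 0) (nat_lit 12940897310) (nat_lit 1216) (nat_lit 9292620662) (nat_lit 1292) (nat_lit 6027130465) (nat_lit 227) (nat_lit 5) (nat_lit 243) (nat_lit 5) (nat_lit 244) (nat_lit 5) (nat_lit 374) (nat_lit 356) (nat_lit 170)) (XT.lf (nat_lit 0) (nat_lit 24968231617) (nat_lit 1292) (nat_lit 766914500) (nat_lit 76) (nat_lit 2990114704) (nat_lit 227) (nat_lit 5) (nat_lit 244) (nat_lit 5) (nat_lit 228) (nat_lit 5) (nat_lit 375) (nat_lit 356) (nat_lit 169))) (XT.nd (nat_lit 78) (nat_lit 684) (nat_lit 0) (XT.lf (nat_lit 0) (nat_lit 14408598175) (nat_lit 608) (nat_lit 13603541742) (nat_lit 684) (nat_lit 1184858741) (nat_lit 219) (nat_lit 5) (nat_lit 227) (nat_lit 5) (nat_lit 228) (nat_lit 5) (nat_lit 376) (nat_lit 356) (nat_lit 168)) (XT.lf (nat_lit 0) (nat_lit 362251432) (nat_lit 608) (nat_lit 1081628653) (nat_lit 684) (nat_lit 28238348391) (nat_lit 210) (nat_lit 5) (nat_lit 218) (nat_lit 5) (nat_lit 219) (nat_lit 5)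 (nat_lit 377) (nat_lit 356) (nat_lit 167)))))) (XT.nd (nat_lit 546) (nat_lit 1976) (nat_lit 0) (XT.nd (nat_lit 234) (nat_lit 1064) (nat_lit 0) (XT.nd (nat_lit 78) (nat_lit 608) (nat_lit 0) (XT.lf (nat_lit 0) (nat_lit 4388807307) (nat_lit 684) (nat_lit 14036931159) (nat_lit 76) (nat_lit 11748092099) (nat_lit 210) (nat_lit 5) (nat_lit 219) (nat_lit 5) (nat_lit 211) (nat_lit 5) (nat_lit 378) (nat_lit 356) (nat_lit 166)) (XT.nd (nat_lit 78) (nat_lit 0) (nat_lit 0) (XT.lf (nat_lit 0) (nat_lit 1724465187) (nat_lit 608) (nat_lit 5721743990) (nat_lit 684) (nat_lit 23233249227) (nat_lit 202) (nat_lit 5) (nat_lit 210) (nat_lit 5) (nat_lit 211) (nat_lit 5) (nat_lit 379) (nat_lit 356) (nat_lit 165)) (XT.lf (nat_lit 0) (nat_lit 10806167347) (nat_lit 684) (nat_lit 13024887395) (nat_lit 76) (nat_lit 7362876757) (nat_lit 202) (nat_lit 5) (nat_lit 211) (nat_lit 5) (nat_lit 203) (nat_lit 5) (nat_lit 380) (nat_lit 356) (nat_lit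 164)))) (XT.nd (nat_lit 156) (nat_lit 532) (nat_lit 0) (XT.nd (nat_lit 78) (nat_lit 0) (nat_lit 0) (XT.lf (nat_lit 0) (nat_lit 3389558018) (nat_lit 532) (nat_lit 10963593970) (nat_lit 608) (nat_lit 17368101373) (nat_lit 195) (nat_lit 5) (nat_lit 202) (nat_lit 5) (nat_lit 203) (nat_lit 5) (nat_lit 381) (nat_lit 356) (nat_lit 163)) (XT.lf (nat_lit 0) (nat_lit 18158438066) (nat_lit 608) (nat_lit 11723443174) (nat_lit 76) (nat_lit 2377958247) (nat_lit 195) (nat_lit 5) (nat_lit 203) (nat_lit 5) (nat_lit 196) (nat_lit 5) (nat_lit 382) (nat_lit 356) (nat_lit 162))) (XT.nd (nat_lit 78) (nat_lit 0) (nat_lit 0) (XT.lf (nat_lit 0) (nat_lit 5376395450) (nat_lit 532) (nat_lit 16858856784) (nat_lit 608) (nat_lit 10574611204) (nat_lit 188) (nat_lit 5) (nat_lit 195) (nat_lit 5) (nat_lit 196) (nat_lit 5) (nat_lit 383) (nat_lit 356) (nat_lit 161)) (XT.lf (nat_lit 0) (nat_lit 23226554454) (nat_lit 532) (nat_lit 3323392618)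 (nat_lit 608) (nat_lit 6822975035) (nat_lit 188) (nat_lit 5) (nat_lit 195) (nat_lit 5) (nat_lit 196) (nat_lit 5) (nat_lit 384) (nat_lit 356) (nat_lit 160))))) (XT.nd (nat_lit 234) (nat_lit 912) (nat_lit 0) (XT.nd (nat_lit 78) (nat_lit 608) (nat_lit 0) (XT.lf (nat_lit 0) (nat_lit 7704634899) (nat_lit 456) (nat_lit 23462850025) (nat_lit 532) (nat_lit 2780186798) (nat_lit 182) (nat_lit 5) (nat_lit 188) (nat_lit 5) (nat_lit 189) (nat_lit 5) (nat_lit 385) (nat_lit 356) (nat_lit 159)) (XT.nd (nat_lit 78) (nat_lit 532) (nat_lit 0) (XT.lf (nat_lit 0) (nat_lit 1490554039) (nat_lit 532) (nat_lit 8287667679) (nat_lit 76) (nat_lit 24757033995) (nat_lit 181) (nat_lit 5) (nat_lit 188) (nat_lit 5) (nat_lit 182) (nat_lit 5) (nat_lit 386) (nat_lit 356) (nat_lit 158)) (XT.lf (nat_lit 0) (nat_lit 5973431024) (nat_lit 608) (nat_lit 24801052333) (nat_lit 76) (nat_lit 4360962425) (nat_lit 174) (nat_lit 5) (nat_lit 182) (nat_lit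 5) (nat_lit 175) (nat_lit 5) (nat_lit 387) (nat_lit 356) (nat_lit 157)))) (XT.nd (nat_lit 156) (nat_lit 456) (nat_lit 0) (XT.nd (nat_lit 78) (nat_lit 456) (nat_lit 0) (XT.lf (nat_lit 0) (nat_lit 10769546297) (nat_lit 608) (nat_lit 6166740617) (nat_lit 76) (nat_lit 18811993189) (nat_lit 174) (nat_lit 5) (nat_lit 182) (nat_lit 5) (nat_lit 175) (nat_lit 5) (nat_lit 388) (nat_lit 356) (nat_lit 156)) (XT.lf (nat_lit 0) (nat_lit 13282911951) (nat_lit 456) (nat_lit 2551811800) (nat_lit 532) (nat_lit 20541021419) (nat_lit 168) (nat_lit 5) (nat_lit 174) (nat_lit 5) (nat_lit 175) (nat_lit 5) (nat_lit 389) (nat_lit 356) (nat_lit 155))) (XT.nd (nat_lit 78) (nat_lit 456) (nat_lit 0) (XT.lf (nat_lit 0) (nat_lit 21230172944) (nat_lit 532) (nat_lit 3699135975) (nat_lit 76) (nat_lit 12087376826) (nat_lit 168) (nat_lit 5) (nat_lit 175) (nat_lit 5) (nat_lit 169) (nat_lit 5) (nat_lit 390) (nat_lit 356) (nat_lit 154)) (XT.lf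 (nat_lit 0) (nat_lit 16571635671) (nat_lit 456) (nat_lit 10398020747) (nat_lit 532) (nat_lit 10701734009) (nat_lit 162) (nat_lit 5) (nat_lit 168) (nat_lit 5) (nat_lit 169) (nat_lit 5) (nat_lit 391) (nat_lit 356) (nat_lit 153))))))) (XT.nd (nat_lit 1014) (nat_lit 2508) (nat_lit 0) (XT.nd (nat_lit 468) (nat_lit 1444) (nat_lit 0) (XT.nd (nat_lit 234) (nat_lit 380) (nat_lit 0) (XT.nd (nat_lit 78) (nat_lit 912) (nat_lit 0) (XT.lf (nat_lit 0) (nat_lit 32960617005) (nat_lit 532) (nat_lit 865430789) (nat_lit 76) (nat_lit 4517310664) (nat_lit 162) (nat_lit 5) (nat_lit 169) (nat_lit 5) (nat_lit 163) (nat_lit 5) (nat_lit 392) (nat_lit 356) (nat_lit 152)) (XT.nd (nat_lit 78) (nat_lit 456) (nat_lit 0) (XT.lf (nat_lit 0) (nat_lit 392347200) (nat_lit 456) (nat_lit 18764839753) (nat_lit 76) (nat_lit 19869319990) (nat_lit 156) (nat_lit 5) (nat_lit 162) (nat_lit 5) (nat_lit 157) (nat_lit 5) (nat_lit 393) (nat_lit 356) (nat_lit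 151)) (XT.lf (nat_lit 0) (nat_lit 2299096451) (nat_lit 456) (nat_lit 3962062347) (nat_lit 532) (nat_lit 33466533411) (nat_lit 150) (nat_lit 5) (nat_lit 156) (nat_lit 5) (nat_lit 157) (nat_lit 5) (nat_lit 394) (nat_lit 356) (nat_lit 150)))) (XT.nd (nat_lit 78) (nat_lit 380) (nat_lit 0) (XT.lf (nat_lit 0) (nat_lit 12607525870) (nat_lit 532) (nat_lit 16181705780) (nat_lit 76) (nat_lit 11651637526) (nat_lit 150) (nat_lit 5) (nat_lit 157) (nat_lit 5) (nat_lit 151) (nat_lit 5) (nat_lit 395) (nat_lit 356) (nat_lit 149)) (XT.nd (nat_lit 78) (nat_lit 0) (nat_lit 0) (XT.lf (nat_lit 0) (nat_lit 5773250718) (nat_lit 380) (nat_lit 13463588572) (nat_lit 456) (nat_lit 21935826353) (nat_lit 145) (nat_lit 5) (nat_lit 150) (nat_lit 5) (nat_lit 151) (nat_lit 5) (nat_lit 396) (nat_lit 356) (nat_lit 148)) (XT.lf (nat_lit 0) (nat_lit 26250234201) (nat_lit 456) (nat_lit 13229686076) (nat_lit 76) (nat_lit 2440940490) (nat_lit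 145) (nat_lit 5) (nat_lit 151) (nat_lit 5) (nat_lit 146) (nat_lit 5) (nat_lit 397) (nat_lit 356) (nat_lit 147))))) (XT.nd (nat_lit 234) (nat_lit 684) (nat_lit 0) (XT.nd (nat_lit 78) (nat_lit 380) (nat_lit 0) (XT.lf (nat_lit 0) (nat_lit 9657566718) (nat_lit 380) (nat_lit 24040525753) (nat_lit 456) (nat_lit 8986688232) (nat_lit 140) (nat_lit 5) (nat_lit 145) (nat_lit 5) (nat_lit 146) (nat_lit 5) (nat_lit 398) (nat_lit 356) (nat_lit 146)) (XT.nd (nat_lit 78) (nat_lit 380) (nat_lit 0) (XT.lf (nat_lit 0) (nat_lit 33499940372) (nat_lit 380) (nat_lit 8000998800) (nat_lit 456) (nat_lit 1966733261) (nat_lit 140) (nat_lit 5) (nat_lit 145) (nat_lit 5) (nat_lit 146) (nat_lit 5) (nat_lit 399) (nat_lit 356) (nat_lit 145)) (XT.lf (nat_lit 0) (nat_lit 5377436934) (nat_lit 380) (nat_lit 30348739329) (nat_lit 76) (nat_lit 8539867435) (nat_lit 135) (nat_lit 5) (nat_lit 140) (nat_lit 5) (nat_lit 136) (nat_lit 5) (nat_lit 400)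 (nat_lit 356) (nat_lit 144)))) (XT.nd (nat_lit 156) (nat_lit 304) (nat_lit 0) (XT.nd (nat_lit 78) (nat_lit 380) (nat_lit 0) (XT.lf (nat_lit 0) (nat_lit 13081296377) (nat_lit 380) (nat_lit 6464494736) (nat_lit 76) (nat_lit 25536624716) (nat_lit 135) (nat_lit 5) (nat_lit 140) (nat_lit 5) (nat_lit 136) (nat_lit 5) (nat_lit 401) (nat_lit 356) (nat_lit 143)) (XT.lf (nat_lit 0) (nat_lit 18494569062) (nat_lit 380) (nat_lit 2697565782) (nat_lit 456) (nat_lit 24725869074) (nat_lit 130) (nat_lit 5) (nat_lit 135) (nat_lit 5) (nat_lit 136) (nat_lit 5) (nat_lit 402) (nat_lit 356) (nat_lit 142))) (XT.nd (nat_lit 78) (nat_lit 304) (nat_lit 0) (XT.lf (nat_lit 0) (nat_lit 29751213532) (nat_lit 456) (nat_lit 2585939385) (nat_lit 76) (nat_lit 14435359953) (nat_lit 130) (nat_lit 5) (nat_lit 136) (nat_lit 5) (nat_lit 131) (nat_lit 5) (nat_lit 403) (nat_lit 356) (nat_lit 141)) (XT.lf (nat_lit 0) (nat_lit 23424516749) (nat_lit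 304) (nat_lit 15392588895) (nat_lit 380) (nat_lit 8828050867) (nat_lit 126) (nat_lit 5) (nat_lit 130) (nat_lit 5) (nat_lit 131) (nat_lit 5) (nat_lit 404) (nat_lit 356) (nat_lit 140)))))) (XT.nd (nat_lit 546) (nat_lit 1140) (nat_lit 0) (XT.nd (nat_lit 234) (nat_lit 684) (nat_lit 0) (XT.nd (nat_lit 78) (nat_lit 380) (nat_lit 0) (XT.lf (nat_lit 0) (nat_lit 1736343204) (nat_lit 304) (nat_lit 46479682603) (nat_lit 380) (nat_lit 326122748) (nat_lit 122) (nat_lit 5) (nat_lit 126) (nat_lit 5) (nat_lit 127) (nat_lit 5) (nat_lit 405) (nat_lit 356) (nat_lit 139)) (XT.nd (nat_lit 78) (nat_lit 304) (nat_lit 0) (XT.lf (nat_lit 0) (nat_lit 8663945269) (nat_lit 380) (nat_lit 20728630570) (nat_lit 76) (nat_lit 20059115884) (nat_lit 121) (nat_lit 5) (nat_lit 126) (nat_lit 5) (nat_lit 122) (nat_lit 5) (nat_lit 406) (nat_lit 356) (nat_lit 138)) (XT.lf (nat_lit 0) (nat_lit 6247021150) (nat_lit 304) (nat_lit 11728436350) (nat_lit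 380) (nat_lit 32411218488) (nat_lit 117) (nat_lit 5) (nat_lit 121) (nat_lit 5) (nat_lit 122) (nat_lit 5) (nat_lit 407) (nat_lit 356) (nat_lit 137)))) (XT.nd (nat_lit 156) (nat_lit 380) (nat_lit 0) (XT.nd (nat_lit 78) (nat_lit 304) (nat_lit 0) (XT.lf (nat_lit 0) (nat_lit 27838124231) (nat_lit 380) (nat_lit 16953326891) (nat_lit 76) (nat_lit 6550104949) (nat_lit 117) (nat_lit 5) (nat_lit 122) (nat_lit 5) (nat_lit 118) (nat_lit 5) (nat_lit 408) (nat_lit 356) (nat_lit 136)) (XT.lf (nat_lit 0) (nat_lit 11147538461) (nat_lit 304) (nat_lit 27070729662) (nat_lit 380) (nat_lit 14100167065) (nat_lit 113) (nat_lit 5) (nat_lit 117) (nat_lit 5) (nat_lit 118) (nat_lit 5) (nat_lit 409) (nat_lit 356) (nat_lit 135))) (XT.nd (nat_lit 78) (nat_lit 380) (nat_lit 0) (XT.lf (nat_lit 0) (nat_lit 40436522525) (nat_lit 304) (nat_lit 8642831857) (nat_lit 380) (nat_lit 4240180684) (nat_lit 113) (nat_lit 5) (nat_lit 117) (nat_lit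 5) (nat_lit 118) (nat_lit 5) (nat_lit 410) (nat_lit 356) (nat_lit 134)) (XT.lf (nat_lit 0) (nat_lit 6058813992) (nat_lit 380) (nat_lit 37929204818) (nat_lit 76) (nat_lit 10353184393) (nat_lit 108) (nat_lit 5) (nat_lit 113) (nat_lit 5) (nat_lit 109) (nat_lit 5) (nat_lit 411) (nat_lit 356) (nat_lit 133))))) (XT.nd (nat_lit 234) (nat_lit 836) (nat_lit 0) (XT.nd (nat_lit 78) (nat_lit 304) (nat_lit 0) (XT.lf (nat_lit 0) (nat_lit 16796900537) (nat_lit 380) (nat_lit 8670925855) (nat_lit 76) (nat_lit 29917975655) (nat_lit 108) (nat_lit 5) (nat_lit 113) (nat_lit 5) (nat_lit 109) (nat_lit 5) (nat_lit 412) (nat_lit 356) (nat_lit 132)) (XT.nd (nat_lit 78) (nat_lit 0) (nat_lit 0) (XT.lf (nat_lit 0) (nat_lit 21889909342) (nat_lit 304) (nat_lit 6176078032) (nat_lit 380) (nat_lit 28389486224) (nat_lit 104) (nat_lit 5) (nat_lit 108) (nat_lit 5) (nat_lit 109) (nat_lit 5) (nat_lit 413) (nat_lit 356) (nat_lit 131)) (XT.lf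 (nat_lit 0) (nat_lit 39891666418) (nat_lit 380) (nat_lit 4144158761) (nat_lit 76) (nat_lit 13514854984) (nat_lit 104) (nat_lit 5) (nat_lit 109) (nat_lit 5) (nat_lit 105) (nat_lit 5) (nat_lit 414) (nat_lit 356) (nat_lit 130)))) (XT.nd (nat_lit 156) (nat_lit 228) (nat_lit 0) (XT.nd (nat_lit 78) (nat_lit 380) (nat_lit 0) (XT.lf (nat_lit 0) (nat_lit 27666318624) (nat_lit 228) (nat_lit 24731391259) (nat_lit 304) (nat_lit 6271265664) (nat_lit 101) (nat_lit 5) (nat_lit 104) (nat_lit 5) (nat_lit 105) (nat_lit 5) (nat_lit 415) (nat_lit 356) (nat_lit 129)) (XT.lf (nat_lit 0) (nat_lit 654081363) (nat_lit 304) (nat_lit 4744581687) (nat_lit 380) (nat_lit 54419171489) (nat_lit 96) (nat_lit 5) (nat_lit 100) (nat_lit 5) (nat_lit 101) (nat_lit 5) (nat_lit 416) (nat_lit 356) (nat_lit 128))) (XT.nd (nat_lit 78) (nat_lit 228) (nat_lit 0) (XT.lf (nat_lit 0) (nat_lit 17759610435) (nat_lit 380) (nat_lit 27315506765) (nat_lit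 76) (nat_lit 15910170745) (nat_lit 96) (nat_lit 5) (nat_lit 101) (nat_lit 5) (nat_lit 97) (nat_lit 5) (nat_lit 417) (nat_lit 356) (nat_lit 127)) (XT.lf (nat_lit 0) (nat_lit 5547211889) (nat_lit 228) (nat_lit 25043036655) (nat_lit 304) (nat_lit 31594550934) (nat_lit 93) (nat_lit 5) (nat_lit 96) (nat_lit 5) (nat_lit 97) (nat_lit 5) (nat_lit 418) (nat_lit 356) (nat_lit 126))))))))
noncomputable def xc222 : XT := (XT.nd (nat_lit 43290) (nat_lit 0) (nat_lit 4788) (XT.nd (nat_lit 42198) (nat_lit 0) (nat_lit 12084) (XT.nd (nat_lit 468) (nat_lit 456) (nat_lit 0) (XT.nd (nat_lit 234) (nat_lit 456) (nat_lit 0) (XT.nd (nat_lit 78) (nat_lit 304) (nat_lit 0) (XT.lf (nat_lit 0) (nat_lit 39953530047) (nat_lit 228) (nat_lit 4126692345) (nat_lit 304) (nat_lit 19331841850) (nat_lit 93) (nat_lit 5) (nat_lit 96) (nat_lit 5) (nat_lit 97) (nat_lit 5) (nat_lit 419) (nat_lit 356) (nat_lit 125)) (XT.nd (nat_lit 78) (nat_lit 76)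 (nat_lit 0) (XT.lf (nat_lit 0) (nat_lit 10756165594) (nat_lit 228) (nat_lit 47488166196) (nat_lit 304) (nat_lit 6423732441) (nat_lit 90) (nat_lit 5) (nat_lit 93) (nat_lit 5) (nat_lit 94) (nat_lit 5) (nat_lit 420) (nat_lit 356) (nat_lit 124)) (XT.lf (nat_lit 0) (nat_lit 7016241940) (nat_lit 304) (nat_lit 19587911065) (nat_lit 76) (nat_lit 39347248586) (nat_lit 89) (nat_lit 5) (nat_lit 93) (nat_lit 5) (nat_lit 90) (nat_lit 5) (nat_lit 421) (nat_lit 356) (nat_lit 123)))) (XT.nd (nat_lit 78) (nat_lit 228) (nat_lit 0) (XT.lf (nat_lit 0) (nat_lit 16012522069) (nat_lit 228) (nat_lit 4870367909) (nat_lit 304) (nat_lit 46383863842) (nat_lit 86) (nat_lit 5) (nat_lit 89) (nat_lit 5) (nat_lit 90) (nat_lit 5) (nat_lit 422) (nat_lit 356) (nat_lit 122)) (XT.nd (nat_lit 78) (nat_lit 228) (nat_lit 0) (XT.lf (nat_lit 0) (nat_lit 35532338306) (nat_lit 304) (nat_lit 15705604951) (nat_lit 76) (nat_lit 17372619665) (nat_lit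 86) (nat_lit 5) (nat_lit 90) (nat_lit 5) (nat_lit 87) (nat_lit 5) (nat_lit 423) (nat_lit 356) (nat_lit 121)) (XT.lf (nat_lit 0) (nat_lit 21274314147) (nat_lit 228) (nat_lit 29598391654) (nat_lit 304) (nat_lit 19114437744) (nat_lit 83) (nat_lit 5) (nat_lit 86) (nat_lit 5) (nat_lit 87) (nat_lit 5) (nat_lit 424) (nat_lit 356) (nat_lit 120))))) (XT.nd (nat_lit 234) (nat_lit 228) (nat_lit 0) (XT.nd (nat_lit 78) (nat_lit 228) (nat_lit 0) (XT.lf (nat_lit 0) (nat_lit 59683517212) (nat_lit 228) (nat_lit 7147093122) (nat_lit 304) (nat_lit 4569691784) (nat_lit 83) (nat_lit 5) (nat_lit 86) (nat_lit 5) (nat_lit 87) (nat_lit 5) (nat_lit 425) (nat_lit 356) (nat_lit 119)) (XT.nd (nat_lit 78) (nat_lit 0) (nat_lit 0) (XT.lf (nat_lit 0) (nat_lit 10621826260) (nat_lit 228) (nat_lit 46192086480) (nat_lit 76) (nat_lit 16026532773) (nat_lit 80) (nat_lit 5) (nat_lit 83) (nat_lit 5) (nat_lit 81) (nat_lit 5) (nat_lit 426) (nat_lit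 356) (nat_lit 118)) (XT.lf (nat_lit 0) (nat_lit 26366259020) (nat_lit 228) (nat_lit 8034820893) (nat_lit 76) (nat_lit 39915685785) (nat_lit 80) (nat_lit 5) (nat_lit 83) (nat_lit 5) (nat_lit 81) (nat_lit 5) (nat_lit 427) (nat_lit 356) (nat_lit 117)))) (XT.nd (nat_lit 41340) (nat_lit 0) (nat_lit 12008) (XT.nd (nat_lit 78) (nat_lit 0) (nat_lit 0) (XT.lf (nat_lit 0) (nat_lit 31887422630) (nat_lit 228) (nat_lit 11000923693) (nat_lit 304) (nat_lit 32939869796) (nat_lit 77) (nat_lit 5) (nat_lit 80) (nat_lit 5) (nat_lit 81) (nat_lit 5) (nat_lit 428) (nat_lit 356) (nat_lit 116)) (XT.lf (nat_lit 0) (nat_lit 60112781424) (nat_lit 304) (nat_lit 4339264425) (nat_lit 76) (nat_lit 12926763916) (nat_lit 77) (nat_lit 5) (nat_lit 81) (nat_lit 5) (nat_lit 78) (nat_lit 5) (nat_lit 429) (nat_lit 356) (nat_lit 115))) (XT.nd (nat_lit 78) (nat_lit 0) (nat_lit 0) (XT.lf (nat_lit 0) (nat_lit 7742437) (nat_lit 1292) (nat_lit 5508932461)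 (nat_lit 1292) (nat_lit 5508932461) (nat_lit 235) (nat_lit 3) (nat_lit 252) (nat_lit 3) (nat_lit 252) (nat_lit 5) (nat_lit 357) (nat_lit 357) (nat_lit 186)) (XT.lf (nat_lit 0) (nat_lit 148957965) (nat_lit 1292) (nat_lit 477037260) (nat_lit 1292) (nat_lit 21751921443) (nat_lit 235) (nat_lit 3) (nat_lit 252) (nat_lit 3) (nat_lit 252) (nat_lit 5) (nat_lit 358) (nat_lit 357) (nat_lit 185)))))) (XT.nd (nat_lit 546) (nat_lit 0) (nat_lit 228) (XT.nd (nat_lit 234) (nat_lit 0) (nat_lit 76) (XT.nd (nat_lit 78) (nat_lit 0) (nat_lit 0) (XT.lf (nat_lit 0) (nat_lit 481031027) (nat_lit 1216) (nat_lit 12225718216) (nat_lit 1292) (nat_lit 10001835255) (nat_lit 236) (nat_lit 5) (nat_lit 252) (nat_lit 5) (nat_lit 253) (nat_lit 5) (nat_lit 359) (nat_lit 357) (nat_lit 184)) (XT.nd (nat_lit 78) (nat_lit 0) (nat_lit 76) (XT.lf (nat_lit 0) (nat_lit 829078298) (nat_lit 1216) (nat_lit 1276758986) (nat_lit 1292) (nat_lit 20943157335)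 (nat_lit 236) (nat_lit 5) (nat_lit 252) (nat_lit 5) (nat_lit 253) (nat_lit 5) (nat_lit 360) (nat_lit 357) (nat_lit 183)) (XT.lf (nat_lit 0) (nat_lit 1366390259) (nat_lit 1216) (nat_lit 13285635754) (nat_lit 1292) (nat_lit 8742228872) (nat_lit 237) (nat_lit 5) (nat_lit 253) (nat_lit 5) (nat_lit 254) (nat_lit 5) (nat_lit 361) (nat_lit 357) (nat_lit 182)))) (XT.nd (nat_lit 156) (nat_lit 0) (nat_lit 76) (XT.nd (nat_lit 78) (nat_lit 0) (nat_lit 76) (XT.lf (nat_lit 0) (nat_lit 1948924701) (nat_lit 1216) (nat_lit 1911620517) (nat_lit 1292) (nat_lit 19888457115) (nat_lit 237) (nat_lit 5) (nat_lit 253) (nat_lit 5) (nat_lit 254) (nat_lit 5) (nat_lit 362) (nat_lit 357) (nat_lit 181)) (XT.lf (nat_lit 0) (nat_lit 2711098559) (nat_lit 1216) (nat_lit 14186489230) (nat_lit 1292) (nat_lit 7211941905) (nat_lit 238) (nat_lit 5) (nat_lit 254) (nat_lit 5) (nat_lit 255) (nat_lit 5) (nat_lit 363) (nat_lit 357) (nat_lit 180)))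 (XT.nd (nat_lit 78) (nat_lit 0) (nat_lit 76) (XT.lf (nat_lit 0) (nat_lit 3549352166) (nat_lit 1216) (nat_lit 2369711308) (nat_lit 1292) (nat_lit 18560215292) (nat_lit 238) (nat_lit 5) (nat_lit 254) (nat_lit 5) (nat_lit 255) (nat_lit 5) (nat_lit 364) (nat_lit 357) (nat_lit 179)) (XT.lf (nat_lit 0) (nat_lit 4557213469) (nat_lit 1216) (nat_lit 14916399856) (nat_lit 1292) (nat_lit 5382175439) (nat_lit 239) (nat_lit 5) (nat_lit 255) (nat_lit 5) (nat_lit 256) (nat_lit 5) (nat_lit 365) (nat_lit 357) (nat_lit 178))))) (XT.nd (nat_lit 234) (nat_lit 0) (nat_lit 152) (XT.nd (nat_lit 78) (nat_lit 0) (nat_lit 76) (XT.lf (nat_lit 0) (nat_lit 5673823543) (nat_lit 1216) (nat_lit 2638340691) (nat_lit 1292) (nat_lit 16929076632) (nat_lit 239) (nat_lit 5) (nat_lit 255) (nat_lit 5) (nat_lit 256) (nat_lit 5) (nat_lit 366) (nat_lit 357) (nat_lit 177)) (XT.nd (nat_lit 78) (nat_lit 0) (nat_lit 0) (XT.lf (nat_lit 0) (nat_lit 6949479039)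 (nat_lit 1216) (nat_lit 15462723630) (nat_lit 1292) (nat_lit 3222289574) (nat_lit 240) (nat_lit 5) (nat_lit 256) (nat_lit 5) (nat_lit 257) (nat_lit 5) (nat_lit 367) (nat_lit 357) (nat_lit 176)) (XT.lf (nat_lit 0) (nat_lit 8368579217) (nat_lit 1216) (nat_lit 2704021937) (nat_lit 1292) (nat_lit 14963786822) (nat_lit 240) (nat_lit 5) (nat_lit 256) (nat_lit 5) (nat_lit 257) (nat_lit 5) (nat_lit 368) (nat_lit 357) (nat_lit 175)))) (XT.nd (nat_lit 156) (nat_lit 0) (nat_lit 0) (XT.nd (nat_lit 78) (nat_lit 0) (nat_lit 0) (XT.lf (nat_lit 0) (nat_lit 9935499046) (nat_lit 1216) (nat_lit 15812036890) (nat_lit 1292) (nat_lit 699649252) (nat_lit 241) (nat_lit 5) (nat_lit 257) (nat_lit 5) (nat_lit 258) (nat_lit 5) (nat_lit 369) (nat_lit 357) (nat_lit 174)) (XT.lf (nat_lit 0) (nat_lit 11682815330) (nat_lit 1216) (nat_lit 2552456664) (nat_lit 1292) (nat_lit 12631034603) (nat_lit 241) (nat_lit 5) (nat_lit 257) (nat_lit 5)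 (nat_lit 258) (nat_lit 5) (nat_lit 370) (nat_lit 357) (nat_lit 173))) (XT.nd (nat_lit 78) (nat_lit 0) (nat_lit 76) (XT.lf (nat_lit 76) (nat_lit 11322956927) (nat_lit 0) (nat_lit 2264732001) (nat_lit 1292) (nat_lit 13707160476) (nat_lit 242) (nat_lit 5) (nat_lit 241) (nat_lit 5) (nat_lit 258) (nat_lit 5) (nat_lit 371) (nat_lit 357) (nat_lit 172)) (XT.lf (nat_lit 0) (nat_lit 15668871040) (nat_lit 1216) (nat_lit 2168519870) (nat_lit 1292) (nat_lit 9895284550) (nat_lit 242) (nat_lit 5) (nat_lit 258) (nat_lit 5) (nat_lit 259) (nat_lit 5) (nat_lit 372) (nat_lit 357) (nat_lit 171))))))) (XT.nd (nat_lit 1014) (nat_lit 3648) (nat_lit 0) (XT.nd (nat_lit 468) (nat_lit 1672) (nat_lit 0) (XT.nd (nat_lit 234) (nat_lit 1292) (nat_lit 0) (XT.nd (nat_lit 78) (nat_lit 1140) (nat_lit 0) (XT.lf (nat_lit 76) (nat_lit 12262916729) (nat_lit 0) (nat_lit 5686361099) (nat_lit 1292) (nat_lit 10230256575) (nat_lit 243) (nat_lit 5)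 (nat_lit 242) (nat_lit 5) (nat_lit 259) (nat_lit 5) (nat_lit 373) (nat_lit 357) (nat_lit 170)) (XT.nd (nat_lit 78) (nat_lit 1216) (nat_lit 0) (XT.lf (nat_lit 0) (nat_lit 20382425342) (nat_lit 1216) (nat_lit 1536245975) (nat_lit 76) (nat_lit 6718599671) (nat_lit 243) (nat_lit 5) (nat_lit 259) (nat_lit 5) (nat_lit 244) (nat_lit 5) (nat_lit 374) (nat_lit 357) (nat_lit 169)) (XT.lf (nat_lit 0) (nat_lit 13479364802) (nat_lit 1216) (nat_lit 9591742428) (nat_lit 1292) (nat_lit 6032157922) (nat_lit 227) (nat_lit 5) (nat_lit 243) (nat_lit 5) (nat_lit 244) (nat_lit 5) (nat_lit 375) (nat_lit 357) (nat_lit 168)))) (XT.nd (nat_lit 78) (nat_lit 1292) (nat_lit 0) (XT.lf (nat_lit 0) (nat_lit 25882703971) (nat_lit 1292) (nat_lit 638816245) (nat_lit 76) (nat_lit 3060452923) (nat_lit 227) (nat_lit 5) (nat_lit 244) (nat_lit 5) (nat_lit 228) (nat_lit 5) (nat_lit 376) (nat_lit 357) (nat_lit 167)) (XT.nd (nat_lit 78) (nat_lit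 684) (nat_lit 0) (XT.lf (nat_lit 0) (nat_lit 14990480382) (nat_lit 608) (nat_lit 14024069202) (nat_lit 684) (nat_lit 1053417335) (nat_lit 219) (nat_lit 5) (nat_lit 227) (nat_lit 5) (nat_lit 228) (nat_lit 5) (nat_lit 377) (nat_lit 357) (nat_lit 166)) (XT.lf (nat_lit 0) (nat_lit 524580138) (nat_lit 608) (nat_lit 1123032139) (nat_lit 684) (nat_lit 28920194857) (nat_lit 210) (nat_lit 5) (nat_lit 218) (nat_lit 5) (nat_lit 219) (nat_lit 5) (nat_lit 378) (nat_lit 357) (nat_lit 165))))) (XT.nd (nat_lit 234) (nat_lit 1064) (nat_lit 0) (XT.nd (nat_lit 78) (nat_lit 608) (nat_lit 0) (XT.lf (nat_lit 0) (nat_lit 4676131440) (nat_lit 684) (nat_lit 14306160029) (nat_lit 76) (nat_lit 12092010698) (nat_lit 210) (nat_lit 5) (nat_lit 219) (nat_lit 5) (nat_lit 211) (nat_lit 5) (nat_lit 379) (nat_lit 357) (nat_lit 164)) (XT.nd (nat_lit 78) (nat_lit 0) (nat_lit 0) (XT.lf (nat_lit 0) (nat_lit 1926589197) (nat_lit 608) (nat_lit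 5895578026) (nat_lit 684) (nat_lit 23773026402) (nat_lit 202) (nat_lit 5) (nat_lit 210) (nat_lit 5) (nat_lit 211) (nat_lit 5) (nat_lit 380) (nat_lit 357) (nat_lit 163)) (XT.lf (nat_lit 0) (nat_lit 11278459939) (nat_lit 684) (nat_lit 13265090758) (nat_lit 76) (nat_lit 7581686221) (nat_lit 202) (nat_lit 5) (nat_lit 211) (nat_lit 5) (nat_lit 203) (nat_lit 5) (nat_lit 381) (nat_lit 357) (nat_lit 162)))) (XT.nd (nat_lit 156) (nat_lit 532) (nat_lit 0) (XT.nd (nat_lit 78) (nat_lit 0) (nat_lit 0) (XT.lf (nat_lit 0) (nat_lit 3640312102) (nat_lit 532) (nat_lit 11288661131) (nat_lit 608) (nat_lit 17739493648) (nat_lit 195) (nat_lit 5) (nat_lit 202) (nat_lit 5) (nat_lit 203) (nat_lit 5) (nat_lit 382) (nat_lit 357) (nat_lit 161)) (XT.lf (nat_lit 0) (nat_lit 18844223834) (nat_lit 608) (nat_lit 11926161513) (nat_lit 76) (nat_lit 2452953027) (nat_lit 195) (nat_lit 5) (nat_lit 203) (nat_lit 5) (nat_lit 196) (nat_lit 5)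 (nat_lit 383) (nat_lit 357) (nat_lit 160))) (XT.nd (nat_lit 78) (nat_lit 0) (nat_lit 0) (XT.lf (nat_lit 0) (nat_lit 5685211633) (nat_lit 532) (nat_lit 17355441142) (nat_lit 608) (nat_lit 10749292860) (nat_lit 188) (nat_lit 5) (nat_lit 195) (nat_lit 5) (nat_lit 196) (nat_lit 5) (nat_lit 384) (nat_lit 357) (nat_lit 159)) (XT.lf (nat_lit 0) (nat_lit 24066578583) (nat_lit 532) (nat_lit 3414180469) (nat_lit 608) (nat_lit 6889259743) (nat_lit 188) (nat_lit 5) (nat_lit 195) (nat_lit 5) (nat_lit 196) (nat_lit 5) (nat_lit 385) (nat_lit 357) (nat_lit 158)))))) (XT.nd (nat_lit 546) (nat_lit 1672) (nat_lit 0) (XT.nd (nat_lit 234) (nat_lit 912) (nat_lit 0) (XT.nd (nat_lit 78) (nat_lit 608) (nat_lit 0) (XT.lf (nat_lit 0) (nat_lit 8081563272) (nat_lit 456) (nat_lit 24152832326) (nat_lit 532) (nat_lit 2727689914) (nat_lit 182) (nat_lit 5) (nat_lit 188) (nat_lit 5) (nat_lit 189) (nat_lit 5) (nat_lit 386) (nat_lit 357) (nat_lit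 157)) (XT.nd (nat_lit 78) (nat_lit 532) (nat_lit 0) (XT.lf (nat_lit 0) (nat_lit 1664640118) (nat_lit 532) (nat_lit 8392123622) (nat_lit 76) (nat_lit 25510612215) (nat_lit 181) (nat_lit 5) (nat_lit 188) (nat_lit 5) (nat_lit 182) (nat_lit 5) (nat_lit 387) (nat_lit 357) (nat_lit 156)) (XT.lf (nat_lit 0) (nat_lit 6279759425) (nat_lit 608) (nat_lit 25398611126) (nat_lit 76) (nat_lit 4507270136) (nat_lit 174) (nat_lit 5) (nat_lit 182) (nat_lit 5) (nat_lit 175) (nat_lit 5) (nat_lit 388) (nat_lit 357) (nat_lit 155)))) (XT.nd (nat_lit 156) (nat_lit 456) (nat_lit 0) (XT.nd (nat_lit 78) (nat_lit 456) (nat_lit 0) (XT.lf (nat_lit 0) (nat_lit 11216055473) (nat_lit 608) (nat_lit 6209536256) (nat_lit 76) (nat_lit 19391380983) (nat_lit 174) (nat_lit 5) (nat_lit 182) (nat_lit 5) (nat_lit 175) (nat_lit 5) (nat_lit 389) (nat_lit 357) (nat_lit 154)) (XT.lf (nat_lit 0) (nat_lit 13822211708) (nat_lit 456) (nat_lit 2608735280)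 (nat_lit 532) (nat_lit 21032383529) (nat_lit 168) (nat_lit 5) (nat_lit 174) (nat_lit 5) (nat_lit 175) (nat_lit 5) (nat_lit 390) (nat_lit 357) (nat_lit 153))) (XT.nd (nat_lit 78) (nat_lit 456) (nat_lit 0) (XT.lf (nat_lit 0) (nat_lit 21984913305) (nat_lit 532) (nat_lit 3670002575) (nat_lit 76) (nat_lit 12468685320) (nat_lit 168) (nat_lit 5) (nat_lit 175) (nat_lit 5) (nat_lit 169) (nat_lit 5) (nat_lit 391) (nat_lit 357) (nat_lit 152)) (XT.lf (nat_lit 0) (nat_lit 17207518617) (nat_lit 456) (nat_lit 10686964167) (nat_lit 532) (nat_lit 10903528651) (nat_lit 162) (nat_lit 5) (nat_lit 168) (nat_lit 5) (nat_lit 169) (nat_lit 5) (nat_lit 392) (nat_lit 357) (nat_lit 151))))) (XT.nd (nat_lit 234) (nat_lit 760) (nat_lit 0) (XT.nd (nat_lit 78) (nat_lit 912) (nat_lit 0) (XT.lf (nat_lit 0) (nat_lit 34062015843) (nat_lit 532) (nat_lit 753497094) (nat_lit 76) (nat_lit 4674721676) (nat_lit 162) (nat_lit 5) (nat_lit 169) (nat_lit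 5) (nat_lit 163) (nat_lit 5) (nat_lit 393) (nat_lit 357) (nat_lit 150)) (XT.nd (nat_lit 78) (nat_lit 456) (nat_lit 0) (XT.lf (nat_lit 0) (nat_lit 515871563) (nat_lit 456) (nat_lit 19188971652) (nat_lit 76) (nat_lit 20489061838) (nat_lit 156) (nat_lit 5) (nat_lit 162) (nat_lit 5) (nat_lit 157) (nat_lit 5) (nat_lit 394) (nat_lit 357) (nat_lit 149)) (XT.lf (nat_lit 0) (nat_lit 2505521723) (nat_lit 456) (nat_lit 4053292092) (nat_lit 532) (nat_lit 34357371368) (nat_lit 150) (nat_lit 5) (nat_lit 156) (nat_lit 5) (nat_lit 157) (nat_lit 5) (nat_lit 395) (nat_lit 357) (nat_lit 148)))) (XT.nd (nat_lit 156) (nat_lit 380) (nat_lit 0) (XT.nd (nat_lit 78) (nat_lit 380) (nat_lit 0) (XT.lf (nat_lit 0) (nat_lit 13092631133) (nat_lit 532) (nat_lit 16530725348) (nat_lit 76) (nat_lit 12027490460) (nat_lit 150) (nat_lit 5) (nat_lit 157) (nat_lit 5) (nat_lit 151) (nat_lit 5) (nat_lit 396) (nat_lit 357) (nat_lit 147)) (XT.lf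 (nat_lit 0) (nat_lit 6081542279) (nat_lit 380) (nat_lit 13837467287) (nat_lit 456) (nat_lit 22485643388) (nat_lit 145) (nat_lit 5) (nat_lit 150) (nat_lit 5) (nat_lit 151) (nat_lit 5) (nat_lit 397) (nat_lit 357) (nat_lit 146))) (XT.nd (nat_lit 78) (nat_lit 380) (nat_lit 0) (XT.lf (nat_lit 0) (nat_lit 27140026426) (nat_lit 456) (nat_lit 13492597977) (nat_lit 76) (nat_lit 2542754112) (nat_lit 145) (nat_lit 5) (nat_lit 151) (nat_lit 5) (nat_lit 146) (nat_lit 5) (nat_lit 398) (nat_lit 357) (nat_lit 145)) (XT.lf (nat_lit 0) (nat_lit 10079958884) (nat_lit 380) (nat_lit 24729657637) (nat_lit 456) (nat_lit 9152651795) (nat_lit 140) (nat_lit 5) (nat_lit 145) (nat_lit 5) (nat_lit 146) (nat_lit 5) (nat_lit 399) (nat_lit 357) (nat_lit 144))))))))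
noncomputable def xc223 : XT := (XT.nd (nat_lit 2106) (nat_lit 228) (nat_lit 0) (XT.nd (nat_lit 1014) (nat_lit 1900) (nat_lit 0) (XT.nd (nat_lit 468) (nat_lit 1368) (nat_lit 0) (XT.nd (nat_lit 234) (nat_lit 684) (nat_lit 0) (XT.nd (nat_lit 78) (nat_lit 380) (nat_lit 0) (XT.lf (nat_lit 0) (nat_lit 34633739714) (nat_lit 380) (nat_lit 8209879358) (nat_lit 456) (nat_lit 1925116732) (nat_lit 140) (nat_lit 5) (nat_lit 145) (nat_lit 5) (nat_lit 146) (nat_lit 5) (nat_lit 400) (nat_lit 357) (nat_lit 143)) (XT.nd (nat_lit 78) (nat_lit 0) (nat_lit 0) (XT.lf (nat_lit 0) (nat_lit 5636099030) (nat_lit 380) (nat_lit 31127049561) (nat_lit 76) (nat_lit 8827921136) (nat_lit 135) (nat_lit 5) (nat_lit 140) (nat_lit 5) (nat_lit 136) (nat_lit 5) (nat_lit 401) (nat_lit 357) (nat_lit 142)) (XT.lf (nat_lit 0) (nat_lit 13568239140) (nat_lit 380) (nat_lit 6530126715) (nat_lit 76) (nat_lit 26333653243) (nat_lit 135) (nat_lit 5) (nat_lit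 140) (nat_lit 5) (nat_lit 136) (nat_lit 5) (nat_lit 402) (nat_lit 357) (nat_lit 141)))) (XT.nd (nat_lit 78) (nat_lit 304) (nat_lit 0) (XT.lf (nat_lit 0) (nat_lit 19176451125) (nat_lit 380) (nat_lit 2744420331) (nat_lit 456) (nat_lit 25371850306) (nat_lit 130) (nat_lit 5) (nat_lit 135) (nat_lit 5) (nat_lit 136) (nat_lit 5) (nat_lit 403) (nat_lit 357) (nat_lit 140)) (XT.nd (nat_lit 78) (nat_lit 304) (nat_lit 0) (XT.lf (nat_lit 0) (nat_lit 30734332551) (nat_lit 456) (nat_lit 2537750829) (nat_lit 76) (nat_lit 14900855266) (nat_lit 130) (nat_lit 5) (nat_lit 136) (nat_lit 5) (nat_lit 131) (nat_lit 5) (nat_lit 404) (nat_lit 357) (nat_lit 139)) (XT.lf (nat_lit 0) (nat_lit 24251785983) (nat_lit 304) (nat_lit 15818974210) (nat_lit 380) (nat_lit 9001045576) (nat_lit 126) (nat_lit 5) (nat_lit 130) (nat_lit 5) (nat_lit 131) (nat_lit 5) (nat_lit 405) (nat_lit 357) (nat_lit 138))))) (XT.nd (nat_lit 234) (nat_lit 684)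 (nat_lit 0) (XT.nd (nat_lit 78) (nat_lit 380) (nat_lit 0) (XT.lf (nat_lit 0) (nat_lit 1914088349) (nat_lit 304) (nat_lit 47836501435) (nat_lit 380) (nat_lit 245150443) (nat_lit 122) (nat_lit 5) (nat_lit 126) (nat_lit 5) (nat_lit 127) (nat_lit 5) (nat_lit 406) (nat_lit 357) (nat_lit 137)) (XT.nd (nat_lit 78) (nat_lit 304) (nat_lit 0) (XT.lf (nat_lit 0) (nat_lit 9010256842) (nat_lit 380) (nat_lit 21226746544) (nat_lit 76) (nat_lit 20695618742) (nat_lit 121) (nat_lit 5) (nat_lit 126) (nat_lit 5) (nat_lit 122) (nat_lit 5) (nat_lit 407) (nat_lit 357) (nat_lit 136)) (XT.lf (nat_lit 0) (nat_lit 6556961561) (nat_lit 304) (nat_lit 12042814403) (nat_lit 380) (nat_lit 33295920944) (nat_lit 117) (nat_lit 5) (nat_lit 121) (nat_lit 5) (nat_lit 122) (nat_lit 5) (nat_lit 408) (nat_lit 357) (nat_lit 135)))) (XT.nd (nat_lit 156) (nat_lit 380) (nat_lit 0) (XT.nd (nat_lit 78) (nat_lit 304) (nat_lit 0) (XT.lf (nat_lit 0) (nat_lit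 28756195115) (nat_lit 380) (nat_lit 17340811257) (nat_lit 76) (nat_lit 6782281655) (nat_lit 117) (nat_lit 5) (nat_lit 122) (nat_lit 5) (nat_lit 118) (nat_lit 5) (nat_lit 409) (nat_lit 357) (nat_lit 134)) (XT.lf (nat_lit 0) (nat_lit 11601892649) (nat_lit 304) (nat_lit 27844588142) (nat_lit 380) (nat_lit 14439031386) (nat_lit 113) (nat_lit 5) (nat_lit 117) (nat_lit 5) (nat_lit 118) (nat_lit 5) (nat_lit 410) (nat_lit 357) (nat_lit 133))) (XT.nd (nat_lit 78) (nat_lit 380) (nat_lit 0) (XT.lf (nat_lit 0) (nat_lit 41766053186) (nat_lit 304) (nat_lit 8864967871) (nat_lit 380) (nat_lit 4285696114) (nat_lit 113) (nat_lit 5) (nat_lit 117) (nat_lit 5) (nat_lit 118) (nat_lit 5) (nat_lit 411) (nat_lit 357) (nat_lit 132)) (XT.lf (nat_lit 0) (nat_lit 6319830496) (nat_lit 380) (nat_lit 38948159534) (nat_lit 76) (nat_lit 10701047798) (nat_lit 108) (nat_lit 5) (nat_lit 113) (nat_lit 5) (nat_lit 109) (nat_lit 5) (nat_lit 412)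 (nat_lit 357) (nat_lit 131)))))) (XT.nd (nat_lit 546) (nat_lit 760) (nat_lit 0) (XT.nd (nat_lit 234) (nat_lit 836) (nat_lit 0) (XT.nd (nat_lit 78) (nat_lit 304) (nat_lit 0) (XT.lf (nat_lit 0) (nat_lit 17377751324) (nat_lit 380) (nat_lit 8815595933) (nat_lit 76) (nat_lit 30851697326) (nat_lit 108) (nat_lit 5) (nat_lit 113) (nat_lit 5) (nat_lit 109) (nat_lit 5) (nat_lit 413) (nat_lit 357) (nat_lit 130)) (XT.nd (nat_lit 78) (nat_lit 0) (nat_lit 0) (XT.lf (nat_lit 0) (nat_lit 22660932382) (nat_lit 304) (nat_lit 6322836272) (nat_lit 380) (nat_lit 29163072564) (nat_lit 104) (nat_lit 5) (nat_lit 108) (nat_lit 5) (nat_lit 109) (nat_lit 5) (nat_lit 414) (nat_lit 357) (nat_lit 129)) (XT.lf (nat_lit 0) (nat_lit 41162369785) (nat_lit 380) (nat_lit 4155617475) (nat_lit 76) (nat_lit 13956972825) (nat_lit 104) (nat_lit 5) (nat_lit 109) (nat_lit 5) (nat_lit 105) (nat_lit 5) (nat_lit 415) (nat_lit 357) (nat_lit 128))))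 (XT.nd (nat_lit 156) (nat_lit 228) (nat_lit 0) (XT.nd (nat_lit 78) (nat_lit 380) (nat_lit 0) (XT.lf (nat_lit 0) (nat_lit 28608067701) (nat_lit 228) (nat_lit 25434447173) (nat_lit 304) (nat_lit 6384322486) (nat_lit 101) (nat_lit 5) (nat_lit 104) (nat_lit 5) (nat_lit 105) (nat_lit 5) (nat_lit 416) (nat_lit 357) (nat_lit 127)) (XT.lf (nat_lit 0) (nat_lit 785838804) (nat_lit 304) (nat_lit 4847333937) (nat_lit 380) (nat_lit 55977000317) (nat_lit 96) (nat_lit 5) (nat_lit 100) (nat_lit 5) (nat_lit 101) (nat_lit 5) (nat_lit 417) (nat_lit 357) (nat_lit 126))) (XT.nd (nat_lit 78) (nat_lit 228) (nat_lit 0) (XT.lf (nat_lit 0) (nat_lit 18363204879) (nat_lit 380) (nat_lit 28024339929) (nat_lit 76) (nat_lit 16425158150) (nat_lit 96) (nat_lit 5) (nat_lit 101) (nat_lit 5) (nat_lit 97) (nat_lit 5) (nat_lit 418) (nat_lit 357) (nat_lit 125)) (XT.lf (nat_lit 0) (nat_lit 5823175657) (nat_lit 228) (nat_lit 25754577197) (nat_lit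 304) (nat_lit 32470477828) (nat_lit 93) (nat_lit 5) (nat_lit 96) (nat_lit 5) (nat_lit 97) (nat_lit 5) (nat_lit 419) (nat_lit 357) (nat_lit 124))))) (XT.nd (nat_lit 234) (nat_lit 456) (nat_lit 0) (XT.nd (nat_lit 78) (nat_lit 304) (nat_lit 0) (XT.lf (nat_lit 0) (nat_lit 41258492659) (nat_lit 228) (nat_lit 4211900341) (nat_lit 304) (nat_lit 19841981927) (nat_lit 93) (nat_lit 5) (nat_lit 96) (nat_lit 5) (nat_lit 97) (nat_lit 5) (nat_lit 420) (nat_lit 357) (nat_lit 123)) (XT.nd (nat_lit 78) (nat_lit 76) (nat_lit 0) (XT.lf (nat_lit 0) (nat_lit 11185828352) (nat_lit 228) (nat_lit 48873012129) (nat_lit 304) (nat_lit 6547232524) (nat_lit 90) (nat_lit 5) (nat_lit 93) (nat_lit 5) (nat_lit 94) (nat_lit 5) (nat_lit 421) (nat_lit 357) (nat_lit 122)) (XT.lf (nat_lit 0) (nat_lit 7292613972) (nat_lit 304) (nat_lit 20070358459) (nat_lit 76) (nat_lit 40564977894) (nat_lit 89) (nat_lit 5) (nat_lit 93) (nat_lit 5) (nat_lit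 90) (nat_lit 5) (nat_lit 422) (nat_lit 357) (nat_lit 121)))) (XT.nd (nat_lit 156) (nat_lit 228) (nat_lit 0) (XT.nd (nat_lit 78) (nat_lit 0) (nat_lit 0) (XT.lf (nat_lit 0) (nat_lit 16597056395) (nat_lit 228) (nat_lit 4977287319) (nat_lit 304) (nat_lit 47708447428) (nat_lit 86) (nat_lit 5) (nat_lit 89) (nat_lit 5) (nat_lit 90) (nat_lit 5) (nat_lit 423) (nat_lit 357) (nat_lit 120)) (XT.lf (nat_lit 0) (nat_lit 36661749009) (nat_lit 304) (nat_lit 16074105893) (nat_lit 76) (nat_lit 17931105883) (nat_lit 86) (nat_lit 5) (nat_lit 90) (nat_lit 5) (nat_lit 87) (nat_lit 5) (nat_lit 424) (nat_lit 357) (nat_lit 119))) (XT.nd (nat_lit 78) (nat_lit 0) (nat_lit 0) (XT.lf (nat_lit 0) (nat_lit 22014204236) (nat_lit 228) (nat_lit 30447252733) (nat_lit 304) (nat_lit 19623408435) (nat_lit 83) (nat_lit 5) (nat_lit 86) (nat_lit 5) (nat_lit 87) (nat_lit 5) (nat_lit 425) (nat_lit 357) (nat_lit 118)) (XT.lf (nat_lit 0) (nat_lit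 61572722403) (nat_lit 228) (nat_lit 7323553809) (nat_lit 304) (nat_lit 4644197642) (nat_lit 83) (nat_lit 5) (nat_lit 86) (nat_lit 5) (nat_lit 87) (nat_lit 5) (nat_lit 426) (nat_lit 357) (nat_lit 117))))))) (XT.nd (nat_lit 42354) (nat_lit 0) (nat_lit 9272) (XT.nd (nat_lit 41808) (nat_lit 0) (nat_lit 11932) (XT.nd (nat_lit 41574) (nat_lit 0) (nat_lit 11780) (XT.nd (nat_lit 78) (nat_lit 0) (nat_lit 0) (XT.lf (nat_lit 0) (nat_lit 11001378012) (nat_lit 228) (nat_lit 47477432958) (nat_lit 76) (nat_lit 16545006955) (nat_lit 80) (nat_lit 5) (nat_lit 83) (nat_lit 5) (nat_lit 81) (nat_lit 5) (nat_lit 427) (nat_lit 357) (nat_lit 116)) (XT.nd (nat_lit 41418) (nat_lit 0) (nat_lit 11780) (XT.lf (nat_lit 0) (nat_lit 27216370057) (nat_lit 228) (nat_lit 8178374145) (nat_lit 76) (nat_lit 41149737134) (nat_lit 80) (nat_lit 5) (nat_lit 83) (nat_lit 5) (nat_lit 81) (nat_lit 5) (nat_lit 428) (nat_lit 357) (nat_lit 115)) (XT.lf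 (nat_lit 0) (nat_lit 139934735) (nat_lit 1292) (nat_lit 5606206830) (nat_lit 1292) (nat_lit 5606206830) (nat_lit 235) (nat_lit 3) (nat_lit 252) (nat_lit 3) (nat_lit 252) (nat_lit 5) (nat_lit 358) (nat_lit 358) (nat_lit 184)))) (XT.nd (nat_lit 78) (nat_lit 0) (nat_lit 76) (XT.lf (nat_lit 0) (nat_lit 409659763) (nat_lit 1292) (nat_lit 359321962) (nat_lit 1292) (nat_lit 22272452671) (nat_lit 235) (nat_lit 3) (nat_lit 252) (nat_lit 3) (nat_lit 252) (nat_lit 5) (nat_lit 359) (nat_lit 358) (nat_lit 183)) (XT.nd (nat_lit 78) (nat_lit 0) (nat_lit 0) (XT.lf (nat_lit 0) (nat_lit 744341861) (nat_lit 1216) (nat_lit 12452981279) (nat_lit 1292) (nat_lit 10184923583) (nat_lit 236) (nat_lit 5) (nat_lit 252) (nat_lit 5) (nat_lit 253) (nat_lit 5) (nat_lit 360) (nat_lit 358) (nat_lit 182)) (XT.lf (nat_lit 0) (nat_lit 1095581621) (nat_lit 1216) (nat_lit 1179616625) (nat_lit 1292) (nat_lit 21457892123) (nat_lit 236) (nat_lit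 5) (nat_lit 252) (nat_lit 5) (nat_lit 253) (nat_lit 5) (nat_lit 361) (nat_lit 358) (nat_lit 181))))) (XT.nd (nat_lit 234) (nat_lit 0) (nat_lit 76) (XT.nd (nat_lit 78) (nat_lit 0) (nat_lit 0) (XT.lf (nat_lit 0) (nat_lit 1642286134) (nat_lit 1216) (nat_lit 13541911375) (nat_lit 1292) (nat_lit 8904716384) (nat_lit 237) (nat_lit 5) (nat_lit 253) (nat_lit 5) (nat_lit 254) (nat_lit 5) (nat_lit 362) (nat_lit 358) (nat_lit 180)) (XT.nd (nat_lit 78) (nat_lit 0) (nat_lit 76) (XT.lf (nat_lit 0) (nat_lit 2235454739) (nat_lit 1216) (nat_lit 1830820150) (nat_lit 1292) (nat_lit 20388237669) (nat_lit 237) (nat_lit 5) (nat_lit 253) (nat_lit 5) (nat_lit 254) (nat_lit 5) (nat_lit 363) (nat_lit 358) (nat_lit 179)) (XT.lf (nat_lit 0) (nat_lit 3014340067) (nat_lit 1216) (nat_lit 14467666640) (nat_lit 1292) (nat_lit 7344037083) (nat_lit 238) (nat_lit 5) (nat_lit 254) (nat_lit 5) (nat_lit 255) (nat_lit 5) (nat_lit 364) (nat_lit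 358) (nat_lit 178)))) (XT.nd (nat_lit 156) (nat_lit 0) (nat_lit 76) (XT.nd (nat_lit 78) (nat_lit 0) (nat_lit 76) (XT.lf (nat_lit 0) (nat_lit 3871277926) (nat_lit 1216) (nat_lit 2300591709) (nat_lit 1292) (nat_lit 19035212936) (nat_lit 238) (nat_lit 5) (nat_lit 254) (nat_lit 5) (nat_lit 255) (nat_lit 5) (nat_lit 365) (nat_lit 358) (nat_lit 177)) (XT.lf (nat_lit 0) (nat_lit 4903745625) (nat_lit 1216) (nat_lit 15217943507) (nat_lit 1292) (nat_lit 5473370860) (nat_lit 239) (nat_lit 5) (nat_lit 255) (nat_lit 5) (nat_lit 256) (nat_lit 5) (nat_lit 366) (nat_lit 358) (nat_lit 176))) (XT.nd (nat_lit 78) (nat_lit 0) (nat_lit 76) (XT.lf (nat_lit 0) (nat_lit 6047742863) (nat_lit 1216) (nat_lit 2575793489) (nat_lit 1292) (nat_lit 17368725782) (nat_lit 239) (nat_lit 5) (nat_lit 255) (nat_lit 5) (nat_lit 256) (nat_lit 5) (nat_lit 367) (nat_lit 358) (nat_lit 175)) (XT.lf (nat_lit 0) (nat_lit 7356518272) (nat_lit 1216)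 (nat_lit 15779656398) (nat_lit 1292) (nat_lit 3261293928) (nat_lit 240) (nat_lit 5) (nat_lit 256) (nat_lit 5) (nat_lit 257) (nat_lit 5) (nat_lit 368) (nat_lit 358) (nat_lit 174)))))) (XT.nd (nat_lit 546) (nat_lit 2888) (nat_lit 0) (XT.nd (nat_lit 234) (nat_lit 0) (nat_lit 76) (XT.nd (nat_lit 78) (nat_lit 0) (nat_lit 76) (XT.lf (nat_lit 0) (nat_lit 8812408304) (nat_lit 1216) (nat_lit 2642473722) (nat_lit 1292) (nat_lit 15356715638) (nat_lit 240) (nat_lit 5) (nat_lit 256) (nat_lit 5) (nat_lit 257) (nat_lit 5) (nat_lit 369) (nat_lit 358) (nat_lit 173)) (XT.nd (nat_lit 78) (nat_lit 0) (nat_lit 0) (XT.lf (nat_lit 0) (nat_lit 10421624847) (nat_lit 1216) (nat_lit 16138922318) (nat_lit 1292) (nat_lit 674315831) (nat_lit 241) (nat_lit 5) (nat_lit 257) (nat_lit 5) (nat_lit 258) (nat_lit 5) (nat_lit 370) (nat_lit 358) (nat_lit 172)) (XT.lf (nat_lit 0) (nat_lit 12215883119) (nat_lit 1216) (nat_lit 2485850094) (nat_lit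 1292) (nat_lit 12964991953) (nat_lit 241) (nat_lit 5) (nat_lit 257) (nat_lit 5) (nat_lit 258) (nat_lit 5) (nat_lit 371) (nat_lit 358) (nat_lit 171)))) (XT.nd (nat_lit 156) (nat_lit 0) (nat_lit 76) (XT.nd (nat_lit 78) (nat_lit 0) (nat_lit 76) (XT.lf (nat_lit 76) (nat_lit 11804422178) (nat_lit 0) (nat_lit 2369525630) (nat_lit 1292) (nat_lit 13934297815) (nat_lit 242) (nat_lit 5) (nat_lit 241) (nat_lit 5) (nat_lit 258) (nat_lit 5) (nat_lit 372) (nat_lit 358) (nat_lit 170)) (XT.lf (nat_lit 0) (nat_lit 16312018696) (nat_lit 1216) (nat_lit 2090293867) (nat_lit 1292) (nat_lit 10157062931) (nat_lit 242) (nat_lit 5) (nat_lit 258) (nat_lit 5) (nat_lit 259) (nat_lit 5) (nat_lit 373) (nat_lit 358) (nat_lit 169))) (XT.nd (nat_lit 78) (nat_lit 0) (nat_lit 76) (XT.lf (nat_lit 76) (nat_lit 12772681108) (nat_lit 0) (nat_lit 5884479177) (nat_lit 1292) (nat_lit 10362592798) (nat_lit 243) (nat_lit 5) (nat_lit 242) (nat_lit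 5) (nat_lit 259) (nat_lit 5) (nat_lit 374) (nat_lit 358) (nat_lit 168)) (XT.lf (nat_lit 0) (nat_lit 21158111223) (nat_lit 1216) (nat_lit 1439315066) (nat_lit 76) (nat_lit 6893953691) (nat_lit 243) (nat_lit 5) (nat_lit 259) (nat_lit 5) (nat_lit 244) (nat_lit 5) (nat_lit 375) (nat_lit 358) (nat_lit 167))))) (XT.nd (nat_lit 234) (nat_lit 1292) (nat_lit 0) (XT.nd (nat_lit 78) (nat_lit 608) (nat_lit 0) (XT.lf (nat_lit 0) (nat_lit 14025361894) (nat_lit 1216) (nat_lit 9898670068) (nat_lit 1292) (nat_lit 6047427064) (nat_lit 227) (nat_lit 5) (nat_lit 243) (nat_lit 5) (nat_lit 244) (nat_lit 5) (nat_lit 376) (nat_lit 358) (nat_lit 166)) (XT.nd (nat_lit 78) (nat_lit 608) (nat_lit 0) (XT.lf (nat_lit 0) (nat_lit 26815114400) (nat_lit 1292) (nat_lit 515549127) (nat_lit 76) (nat_lit 3134012932) (nat_lit 227) (nat_lit 5) (nat_lit 244) (nat_lit 5) (nat_lit 228) (nat_lit 5) (nat_lit 377) (nat_lit 358) (nat_lit 165)) (XT.lf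 (nat_lit 0) (nat_lit 15581230011) (nat_lit 608) (nat_lit 14456499457) (nat_lit 684) (nat_lit 927618433) (nat_lit 219) (nat_lit 5) (nat_lit 227) (nat_lit 5) (nat_lit 228) (nat_lit 5) (nat_lit 378) (nat_lit 358) (nat_lit 164)))) (XT.nd (nat_lit 156) (nat_lit 608) (nat_lit 0) (XT.nd (nat_lit 78) (nat_lit 0) (nat_lit 0) (XT.lf (nat_lit 0) (nat_lit 683084214) (nat_lit 608) (nat_lit 1165163697) (nat_lit 684) (nat_lit 29631985841) (nat_lit 210) (nat_lit 5) (nat_lit 218) (nat_lit 5) (nat_lit 219) (nat_lit 5) (nat_lit 379) (nat_lit 358) (nat_lit 163)) (XT.lf (nat_lit 0) (nat_lit 4963139782) (nat_lit 684) (nat_lit 14592184244) (nat_lit 76) (nat_lit 12446736176) (nat_lit 210) (nat_lit 5) (nat_lit 219) (nat_lit 5) (nat_lit 211) (nat_lit 5) (nat_lit 380) (nat_lit 358) (nat_lit 162))) (XT.nd (nat_lit 78) (nat_lit 0) (nat_lit 0) (XT.lf (nat_lit 0) (nat_lit 2126143924) (nat_lit 608) (nat_lit 6074501845) (nat_lit 684) (nat_lit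 24338021982) (nat_lit 202) (nat_lit 5) (nat_lit 210) (nat_lit 5) (nat_lit 211) (nat_lit 5) (nat_lit 381) (nat_lit 358) (nat_lit 161)) (XT.lf (nat_lit 0) (nat_lit 11756419330) (nat_lit 684) (nat_lit 13521142021) (nat_lit 76) (nat_lit 7807179188) (nat_lit 202) (nat_lit 5) (nat_lit 211) (nat_lit 5) (nat_lit 203) (nat_lit 5) (nat_lit 382) (nat_lit 358) (nat_lit 160))))))))
noncomputable def xc224 : XT := (XT.nd (nat_lit 2028) (nat_lit 3116) (nat_lit 0) (XT.nd (nat_lit 1014) (nat_lit 2660) (nat_lit 0) (XT.nd (nat_lit 468) (nat_lit 1900) (nat_lit 0) (XT.nd (nat_lit 234) (nat_lit 532) (nat_lit 0) (XT.nd (nat_lit 78) (nat_lit 532) (nat_lit 0) (XT.lf (nat_lit 0) (nat_lit 3890031734) (nat_lit 532) (nat_lit 11623700777) (nat_lit 608) (nat_lit 18130618258) (nat_lit 195) (nat_lit 5) (nat_lit 202) (nat_lit 5) (nat_lit 203) (nat_lit 5) (nat_lit 383) (nat_lit 358) (nat_lit 159)) (XT.nd (nat_lit 78) (nat_lit 532) (nat_lit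 0) (XT.lf (nat_lit 0) (nat_lit 19542487326) (nat_lit 608) (nat_lit 12143513748) (nat_lit 76) (nat_lit 2529987778) (nat_lit 195) (nat_lit 5) (nat_lit 203) (nat_lit 5) (nat_lit 196) (nat_lit 5) (nat_lit 384) (nat_lit 358) (nat_lit 158)) (XT.lf (nat_lit 0) (nat_lit 5994823802) (nat_lit 532) (nat_lit 17867450077) (nat_lit 608) (nat_lit 10937398303) (nat_lit 188) (nat_lit 5) (nat_lit 195) (nat_lit 5) (nat_lit 196) (nat_lit 5) (nat_lit 385) (nat_lit 358) (nat_lit 157)))) (XT.nd (nat_lit 78) (nat_lit 532) (nat_lit 0) (XT.lf (nat_lit 0) (nat_lit 24923581591) (nat_lit 532) (nat_lit 3508203651) (nat_lit 608) (nat_lit 6965477978) (nat_lit 188) (nat_lit 5) (nat_lit 195) (nat_lit 5) (nat_lit 196) (nat_lit 5) (nat_lit 386) (nat_lit 358) (nat_lit 156)) (XT.nd (nat_lit 78) (nat_lit 76) (nat_lit 0) (XT.lf (nat_lit 0) (nat_lit 8461430594) (nat_lit 456) (nat_lit 24864312198) (nat_lit 532) (nat_lit 2681419482) (nat_lit 182)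 (nat_lit 5) (nat_lit 188) (nat_lit 5) (nat_lit 189) (nat_lit 5) (nat_lit 387) (nat_lit 358) (nat_lit 155)) (XT.lf (nat_lit 0) (nat_lit 1836522443) (nat_lit 532) (nat_lit 8507989427) (nat_lit 76) (nat_lit 26286173960) (nat_lit 181) (nat_lit 5) (nat_lit 188) (nat_lit 5) (nat_lit 182) (nat_lit 5) (nat_lit 388) (nat_lit 358) (nat_lit 154))))) (XT.nd (nat_lit 234) (nat_lit 912) (nat_lit 0) (XT.nd (nat_lit 78) (nat_lit 456) (nat_lit 0) (XT.lf (nat_lit 0) (nat_lit 6587980156) (nat_lit 608) (nat_lit 26022504818) (nat_lit 76) (nat_lit 4657078531) (nat_lit 174) (nat_lit 5) (nat_lit 182) (nat_lit 5) (nat_lit 175) (nat_lit 5) (nat_lit 389) (nat_lit 358) (nat_lit 153)) (XT.nd (nat_lit 78) (nat_lit 456) (nat_lit 0) (XT.lf (nat_lit 0) (nat_lit 11668874952) (nat_lit 608) (nat_lit 6261779003) (nat_lit 76) (nat_lit 19987287743) (nat_lit 174) (nat_lit 5) (nat_lit 182) (nat_lit 5) (nat_lit 175) (nat_lit 5) (nat_lit 390) (nat_lit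 358) (nat_lit 152)) (XT.lf (nat_lit 0) (nat_lit 14369607249) (nat_lit 456) (nat_lit 2668493356) (nat_lit 532) (nat_lit 21545654467) (nat_lit 168) (nat_lit 5) (nat_lit 174) (nat_lit 5) (nat_lit 175) (nat_lit 5) (nat_lit 391) (nat_lit 358) (nat_lit 151)))) (XT.nd (nat_lit 156) (nat_lit 456) (nat_lit 0) (XT.nd (nat_lit 78) (nat_lit 456) (nat_lit 0) (XT.lf (nat_lit 0) (nat_lit 22755531655) (nat_lit 532) (nat_lit 3648037915) (nat_lit 76) (nat_lit 12860360348) (nat_lit 168) (nat_lit 5) (nat_lit 175) (nat_lit 5) (nat_lit 169) (nat_lit 5) (nat_lit 392) (nat_lit 358) (nat_lit 150)) (XT.lf (nat_lit 0) (nat_lit 17854514160) (nat_lit 456) (nat_lit 10985896024) (nat_lit 532) (nat_lit 11118222993) (nat_lit 162) (nat_lit 5) (nat_lit 168) (nat_lit 5) (nat_lit 169) (nat_lit 5) (nat_lit 393) (nat_lit 358) (nat_lit 149))) (XT.nd (nat_lit 78) (nat_lit 456) (nat_lit 0) (XT.lf (nat_lit 0) (nat_lit 35189994075) (nat_lit 532)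 (nat_lit 646121218) (nat_lit 76) (nat_lit 4835598347) (nat_lit 162) (nat_lit 5) (nat_lit 169) (nat_lit 5) (nat_lit 163) (nat_lit 5) (nat_lit 394) (nat_lit 358) (nat_lit 148)) (XT.lf (nat_lit 0) (nat_lit 636686523) (nat_lit 456) (nat_lit 19633795959) (nat_lit 76) (nat_lit 21126037632) (nat_lit 156) (nat_lit 5) (nat_lit 162) (nat_lit 5) (nat_lit 157) (nat_lit 5) (nat_lit 395) (nat_lit 358) (nat_lit 147)))))) (XT.nd (nat_lit 468) (nat_lit 1444) (nat_lit 0) (XT.nd (nat_lit 234) (nat_lit 380) (nat_lit 0) (XT.nd (nat_lit 78) (nat_lit 380) (nat_lit 0) (XT.lf (nat_lit 0) (nat_lit 2710249425) (nat_lit 456) (nat_lit 4148844927) (nat_lit 532) (nat_lit 35281430199) (nat_lit 150) (nat_lit 5) (nat_lit 156) (nat_lit 5) (nat_lit 157) (nat_lit 5) (nat_lit 396) (nat_lit 358) (nat_lit 146)) (XT.nd (nat_lit 78) (nat_lit 380) (nat_lit 0) (XT.lf (nat_lit 0) (nat_lit 13586154233) (nat_lit 532) (nat_lit 16898047236) (nat_lit 76)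 (nat_lit 12413109036) (nat_lit 150) (nat_lit 5) (nat_lit 157) (nat_lit 5) (nat_lit 151) (nat_lit 5) (nat_lit 397) (nat_lit 358) (nat_lit 145)) (XT.lf (nat_lit 0) (nat_lit 6391327638) (nat_lit 380) (nat_lit 14224286148) (nat_lit 456) (nat_lit 23058169372) (nat_lit 145) (nat_lit 5) (nat_lit 150) (nat_lit 5) (nat_lit 151) (nat_lit 5) (nat_lit 398) (nat_lit 358) (nat_lit 144)))) (XT.nd (nat_lit 78) (nat_lit 380) (nat_lit 0) (XT.lf (nat_lit 0) (nat_lit 28050640828) (nat_lit 456) (nat_lit 13771088160) (nat_lit 76) (nat_lit 2645981224) (nat_lit 145) (nat_lit 5) (nat_lit 151) (nat_lit 5) (nat_lit 146) (nat_lit 5) (nat_lit 399) (nat_lit 358) (nat_lit 143)) (XT.nd (nat_lit 78) (nat_lit 0) (nat_lit 0) (XT.lf (nat_lit 0) (nat_lit 10507407292) (nat_lit 380) (nat_lit 25441305225) (nat_lit 456) (nat_lit 9329543458) (nat_lit 140) (nat_lit 5) (nat_lit 145) (nat_lit 5) (nat_lit 146) (nat_lit 5) (nat_lit 400) (nat_lit 358)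 (nat_lit 142)) (XT.lf (nat_lit 0) (nat_lit 35794159324) (nat_lit 380) (nat_lit 8426814436) (nat_lit 456) (nat_lit 1888027621) (nat_lit 140) (nat_lit 5) (nat_lit 145) (nat_lit 5) (nat_lit 146) (nat_lit 5) (nat_lit 401) (nat_lit 358) (nat_lit 141))))) (XT.nd (nat_lit 234) (nat_lit 684) (nat_lit 0) (XT.nd (nat_lit 78) (nat_lit 380) (nat_lit 0) (XT.lf (nat_lit 0) (nat_lit 5896933333) (nat_lit 380) (nat_lit 31936295161) (nat_lit 76) (nat_lit 9122787687) (nat_lit 135) (nat_lit 5) (nat_lit 140) (nat_lit 5) (nat_lit 136) (nat_lit 5) (nat_lit 402) (nat_lit 358) (nat_lit 140)) (XT.nd (nat_lit 78) (nat_lit 380) (nat_lit 0) (XT.lf (nat_lit 0) (nat_lit 14064365277) (nat_lit 380) (nat_lit 6605092763) (nat_lit 76) (nat_lit 27152817128) (nat_lit 135) (nat_lit 5) (nat_lit 140) (nat_lit 5) (nat_lit 136) (nat_lit 5) (nat_lit 403) (nat_lit 358) (nat_lit 139)) (XT.lf (nat_lit 0) (nat_lit 19871496748) (nat_lit 380) (nat_lit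 2794636412) (nat_lit 456) (nat_lit 26042709991) (nat_lit 130) (nat_lit 5) (nat_lit 135) (nat_lit 5) (nat_lit 136) (nat_lit 5) (nat_lit 404) (nat_lit 358) (nat_lit 138)))) (XT.nd (nat_lit 156) (nat_lit 380) (nat_lit 0) (XT.nd (nat_lit 78) (nat_lit 304) (nat_lit 0) (XT.lf (nat_lit 0) (nat_lit 31741745328) (nat_lit 456) (nat_lit 2495336141) (nat_lit 76) (nat_lit 15378453564) (nat_lit 130) (nat_lit 5) (nat_lit 136) (nat_lit 5) (nat_lit 131) (nat_lit 5) (nat_lit 405) (nat_lit 358) (nat_lit 137)) (XT.lf (nat_lit 0) (nat_lit 25096724548) (nat_lit 304) (nat_lit 16260182750) (nat_lit 380) (nat_lit 9184502509) (nat_lit 126) (nat_lit 5) (nat_lit 130) (nat_lit 5) (nat_lit 131) (nat_lit 5) (nat_lit 406) (nat_lit 358) (nat_lit 136))) (XT.nd (nat_lit 78) (nat_lit 76) (nat_lit 0) (XT.lf (nat_lit 0) (nat_lit 2089952746) (nat_lit 304) (nat_lit 49236181599) (nat_lit 380) (nat_lit 166958734) (nat_lit 122) (nat_lit 5) (nat_lit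 126) (nat_lit 5) (nat_lit 127) (nat_lit 5) (nat_lit 407) (nat_lit 358) (nat_lit 135)) (XT.lf (nat_lit 0) (nat_lit 9361998438) (nat_lit 380) (nat_lit 21746909348) (nat_lit 76) (nat_lit 21349223078) (nat_lit 121) (nat_lit 5) (nat_lit 126) (nat_lit 5) (nat_lit 122) (nat_lit 5) (nat_lit 408) (nat_lit 358) (nat_lit 134))))))) (XT.nd (nat_lit 1014) (nat_lit 988) (nat_lit 0) (XT.nd (nat_lit 468) (nat_lit 1140) (nat_lit 0) (XT.nd (nat_lit 234) (nat_lit 380) (nat_lit 0) (XT.nd (nat_lit 78) (nat_lit 304) (nat_lit 0) (XT.lf (nat_lit 0) (nat_lit 6869166475) (nat_lit 304) (nat_lit 12368775017) (nat_lit 380) (nat_lit 34212195029) (nat_lit 117) (nat_lit 5) (nat_lit 121) (nat_lit 5) (nat_lit 122) (nat_lit 5) (nat_lit 409) (nat_lit 358) (nat_lit 133)) (XT.nd (nat_lit 78) (nat_lit 304) (nat_lit 0) (XT.lf (nat_lit 0) (nat_lit 29697047767) (nat_lit 380) (nat_lit 17746872676) (nat_lit 76) (nat_lit 7019375855) (nat_lit 117)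 (nat_lit 5) (nat_lit 122) (nat_lit 5) (nat_lit 118) (nat_lit 5) (nat_lit 410) (nat_lit 358) (nat_lit 132)) (XT.lf (nat_lit 0) (nat_lit 12062993104) (nat_lit 304) (nat_lit 28643858852) (nat_lit 380) (nat_lit 14792891658) (nat_lit 113) (nat_lit 5) (nat_lit 117) (nat_lit 5) (nat_lit 118) (nat_lit 5) (nat_lit 411) (nat_lit 358) (nat_lit 131)))) (XT.nd (nat_lit 78) (nat_lit 380) (nat_lit 0) (XT.lf (nat_lit 0) (nat_lit 43128785922) (nat_lit 304) (nat_lit 9095900467) (nat_lit 380) (nat_lit 4337266346) (nat_lit 113) (nat_lit 5) (nat_lit 117) (nat_lit 5) (nat_lit 118) (nat_lit 5) (nat_lit 412) (nat_lit 358) (nat_lit 130)) (XT.nd (nat_lit 78) (nat_lit 0) (nat_lit 0) (XT.lf (nat_lit 0) (nat_lit 6584128100) (nat_lit 380) (nat_lit 40004509467) (nat_lit 76) (nat_lit 11057207777) (nat_lit 108) (nat_lit 5) (nat_lit 113) (nat_lit 5) (nat_lit 109) (nat_lit 5) (nat_lit 413) (nat_lit 358) (nat_lit 129)) (XT.lf (nat_lit 0)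 (nat_lit 17971610747) (nat_lit 380) (nat_lit 8971233857) (nat_lit 76) (nat_lit 31811353629) (nat_lit 108) (nat_lit 5) (nat_lit 113) (nat_lit 5) (nat_lit 109) (nat_lit 5) (nat_lit 414) (nat_lit 358) (nat_lit 128))))) (XT.nd (nat_lit 234) (nat_lit 608) (nat_lit 0) (XT.nd (nat_lit 78) (nat_lit 228) (nat_lit 0) (XT.lf (nat_lit 0) (nat_lit 23448523347) (nat_lit 304) (nat_lit 6476208700) (nat_lit 380) (nat_lit 29964349654) (nat_lit 104) (nat_lit 5) (nat_lit 108) (nat_lit 5) (nat_lit 109) (nat_lit 5) (nat_lit 415) (nat_lit 358) (nat_lit 127)) (XT.nd (nat_lit 78) (nat_lit 228) (nat_lit 0) (XT.lf (nat_lit 0) (nat_lit 42466949027) (nat_lit 380) (nat_lit 4173898924) (nat_lit 76) (nat_lit 14410249067) (nat_lit 104) (nat_lit 5) (nat_lit 109) (nat_lit 5) (nat_lit 105) (nat_lit 5) (nat_lit 416) (nat_lit 358) (nat_lit 126)) (XT.lf (nat_lit 0) (nat_lit 29571653797) (nat_lit 228) (nat_lit 26160826969) (nat_lit 304) (nat_lit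 6505080977) (nat_lit 101) (nat_lit 5) (nat_lit 104) (nat_lit 5) (nat_lit 105) (nat_lit 5) (nat_lit 417) (nat_lit 358) (nat_lit 125)))) (XT.nd (nat_lit 156) (nat_lit 228) (nat_lit 0) (XT.nd (nat_lit 78) (nat_lit 0) (nat_lit 0) (XT.lf (nat_lit 0) (nat_lit 915111960) (nat_lit 304) (nat_lit 4955441106) (nat_lit 380) (nat_lit 57585854755) (nat_lit 96) (nat_lit 5) (nat_lit 100) (nat_lit 5) (nat_lit 101) (nat_lit 5) (nat_lit 418) (nat_lit 358) (nat_lit 124)) (XT.lf (nat_lit 0) (nat_lit 18980842596) (nat_lit 380) (nat_lit 28760788820) (nat_lit 76) (nat_lit 16953432060) (nat_lit 96) (nat_lit 5) (nat_lit 101) (nat_lit 5) (nat_lit 97) (nat_lit 5) (nat_lit 419) (nat_lit 358) (nat_lit 123))) (XT.nd (nat_lit 78) (nat_lit 0) (nat_lit 0) (XT.lf (nat_lit 0) (nat_lit 6101129868) (nat_lit 228) (nat_lit 26489745800) (nat_lit 304) (nat_lit 33376810436) (nat_lit 93) (nat_lit 5) (nat_lit 96) (nat_lit 5) (nat_lit 97) (nat_lit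 5) (nat_lit 420) (nat_lit 358) (nat_lit 122)) (XT.lf (nat_lit 0) (nat_lit 42596498838) (nat_lit 228) (nat_lit 4301879960) (nat_lit 304) (nat_lit 20371433883) (nat_lit 93) (nat_lit 5) (nat_lit 96) (nat_lit 5) (nat_lit 97) (nat_lit 5) (nat_lit 421) (nat_lit 358) (nat_lit 121)))))) (XT.nd (nat_lit 41964) (nat_lit 0) (nat_lit 11780) (XT.nd (nat_lit 234) (nat_lit 456) (nat_lit 0) (XT.nd (nat_lit 78) (nat_lit 304) (nat_lit 0) (XT.lf (nat_lit 0) (nat_lit 11622240029) (nat_lit 228) (nat_lit 50301688068) (nat_lit 304) (nat_lit 6678410655) (nat_lit 90) (nat_lit 5) (nat_lit 93) (nat_lit 5) (nat_lit 94) (nat_lit 5) (nat_lit 422) (nat_lit 358) (nat_lit 120)) (XT.nd (nat_lit 78) (nat_lit 228) (nat_lit 0) (XT.lf (nat_lit 0) (nat_lit 7573495110) (nat_lit 304) (nat_lit 20573317608) (nat_lit 76) (nat_lit 41817097229) (nat_lit 89) (nat_lit 5) (nat_lit 93) (nat_lit 5) (nat_lit 90) (nat_lit 5) (nat_lit 423) (nat_lit 358) (nat_lit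 119)) (XT.lf (nat_lit 0) (nat_lit 17193147617) (nat_lit 228) (nat_lit 5089664071) (nat_lit 304) (nat_lit 49076610712) (nat_lit 86) (nat_lit 5) (nat_lit 89) (nat_lit 5) (nat_lit 90) (nat_lit 5) (nat_lit 424) (nat_lit 358) (nat_lit 118)))) (XT.nd (nat_lit 156) (nat_lit 228) (nat_lit 0) (XT.nd (nat_lit 78) (nat_lit 228) (nat_lit 0) (XT.lf (nat_lit 0) (nat_lit 37821400285) (nat_lit 304) (nat_lit 16459555381) (nat_lit 76) (nat_lit 18504205078) (nat_lit 86) (nat_lit 5) (nat_lit 90) (nat_lit 5) (nat_lit 87) (nat_lit 5) (nat_lit 425) (nat_lit 358) (nat_lit 117)) (XT.lf (nat_lit 0) (nat_lit 22770455290) (nat_lit 228) (nat_lit 31323823610) (nat_lit 304) (nat_lit 20151348654) (nat_lit 83) (nat_lit 5) (nat_lit 86) (nat_lit 5) (nat_lit 87) (nat_lit 5) (nat_lit 426) (nat_lit 358) (nat_lit 116))) (XT.nd (nat_lit 78) (nat_lit 228) (nat_lit 0) (XT.lf (nat_lit 0) (nat_lit 63512937985) (nat_lit 228) (nat_lit 7507486923) (nat_lit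 304) (nat_lit 4724531305) (nat_lit 83) (nat_lit 5) (nat_lit 86) (nat_lit 5) (nat_lit 87) (nat_lit 5) (nat_lit 427) (nat_lit 358) (nat_lit 115)) (XT.lf (nat_lit 0) (nat_lit 11388820582) (nat_lit 228) (nat_lit 48807104126) (nat_lit 76) (nat_lit 17076872480) (nat_lit 80) (nat_lit 5) (nat_lit 83) (nat_lit 5) (nat_lit 81) (nat_lit 5) (nat_lit 428) (nat_lit 358) (nat_lit 114))))) (XT.nd (nat_lit 234) (nat_lit 0) (nat_lit 76) (XT.nd (nat_lit 78) (nat_lit 0) (nat_lit 0) (XT.lf (nat_lit 0) (nat_lit 268517757) (nat_lit 1292) (nat_lit 5710302542) (nat_lit 1292) (nat_lit 5710302542) (nat_lit 235) (nat_lit 3) (nat_lit 252) (nat_lit 3) (nat_lit 252) (nat_lit 5) (nat_lit 359) (nat_lit 359) (nat_lit 182)) (XT.nd (nat_lit 78) (nat_lit 0) (nat_lit 76) (XT.lf (nat_lit 0) (nat_lit 663473788) (nat_lit 1292) (nat_lit 245654061) (nat_lit 1292) (nat_lit 22816178692) (nat_lit 235) (nat_lit 3) (nat_lit 252) (nat_lit 3) (nat_lit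 252) (nat_lit 5) (nat_lit 360) (nat_lit 359) (nat_lit 181)) (XT.lf (nat_lit 0) (nat_lit 1001265296) (nat_lit 1216) (nat_lit 12695070590) (nat_lit 1292) (nat_lit 10380218929) (nat_lit 236) (nat_lit 5) (nat_lit 252) (nat_lit 5) (nat_lit 253) (nat_lit 5) (nat_lit 361) (nat_lit 359) (nat_lit 180)))) (XT.nd (nat_lit 156) (nat_lit 0) (nat_lit 76) (XT.nd (nat_lit 78) (nat_lit 0) (nat_lit 76) (XT.lf (nat_lit 0) (nat_lit 1356209438) (nat_lit 1216) (nat_lit 1087335098) (nat_lit 1292) (nat_lit 21994587760) (nat_lit 236) (nat_lit 5) (nat_lit 252) (nat_lit 5) (nat_lit 253) (nat_lit 5) (nat_lit 362) (nat_lit 359) (nat_lit 179)) (XT.lf (nat_lit 0) (nat_lit 1912974424) (nat_lit 1216) (nat_lit 13814043491) (nat_lit 1292) (nat_lit 9077806265) (nat_lit 237) (nat_lit 5) (nat_lit 253) (nat_lit 5) (nat_lit 254) (nat_lit 5) (nat_lit 363) (nat_lit 359) (nat_lit 178))) (XT.nd (nat_lit 78) (nat_lit 0) (nat_lit 76) (XT.lf (nat_lit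 0) (nat_lit 2517488970) (nat_lit 1216) (nat_lit 1755526089) (nat_lit 1292) (nat_lit 20908572556) (nat_lit 237) (nat_lit 5) (nat_lit 253) (nat_lit 5) (nat_lit 254) (nat_lit 5) (nat_lit 364) (nat_lit 359) (nat_lit 177)) (XT.lf (nat_lit 0) (nat_lit 3313940362) (nat_lit 1216) (nat_lit 14765569515) (nat_lit 1292) (nat_lit 7484932162) (nat_lit 238) (nat_lit 5) (nat_lit 254) (nat_lit 5) (nat_lit 255) (nat_lit 5) (nat_lit 365) (nat_lit 359) (nat_lit 176))))))))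
noncomputable def xc225 : XT := (XT.nd (nat_lit 2106) (nat_lit 5472) (nat_lit 0) (XT.nd (nat_lit 1014) (nat_lit 4484) (nat_lit 0) (XT.nd (nat_lit 468) (nat_lit 836) (nat_lit 0) (XT.nd (nat_lit 234) (nat_lit 0) (nat_lit 152) (XT.nd (nat_lit 78) (nat_lit 0) (nat_lit 76) (XT.lf (nat_lit 0) (nat_lit 4190494023) (nat_lit 1216) (nat_lit 2237447203) (nat_lit 1292) (nat_lit 19529156670) (nat_lit 238) (nat_lit 5) (nat_lit 254) (nat_lit 5) (nat_lit 255) (nat_lit 5) (nat_lit 366) (nat_lit 359) (nat_lit 175)) (XT.nd (nat_lit 78) (nat_lit 0) (nat_lit 0) (XT.lf (nat_lit 0) (nat_lit 5248629463) (nat_lit 1216) (nat_lit 15536911499) (nat_lit 1292) (nat_lit 5571335919) (nat_lit 239) (nat_lit 5) (nat_lit 255) (nat_lit 5) (nat_lit 256) (nat_lit 5) (nat_lit 367) (nat_lit 359) (nat_lit 174)) (XT.lf (nat_lit 0) (nat_lit 6421186284) (nat_lit 1216) (nat_lit 2519503883) (nat_lit 1292) (nat_lit 17825480695) (nat_lit 239) (nat_lit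 5) (nat_lit 255) (nat_lit 5) (nat_lit 256) (nat_lit 5) (nat_lit 368) (nat_lit 359) (nat_lit 173)))) (XT.nd (nat_lit 78) (nat_lit 0) (nat_lit 0) (XT.lf (nat_lit 0) (nat_lit 7764370821) (nat_lit 1216) (nat_lit 16114532621) (nat_lit 1292) (nat_lit 3304778582) (nat_lit 240) (nat_lit 5) (nat_lit 256) (nat_lit 5) (nat_lit 257) (nat_lit 5) (nat_lit 369) (nat_lit 359) (nat_lit 172)) (XT.nd (nat_lit 78) (nat_lit 0) (nat_lit 76) (XT.lf (nat_lit 0) (nat_lit 9258486379) (nat_lit 1216) (nat_lit 2587268836) (nat_lit 1292) (nat_lit 15764646074) (nat_lit 240) (nat_lit 5) (nat_lit 256) (nat_lit 5) (nat_lit 257) (nat_lit 5) (nat_lit 370) (nat_lit 359) (nat_lit 171)) (XT.lf (nat_lit 0) (nat_lit 10911538960) (nat_lit 1216) (nat_lit 16484080017) (nat_lit 1292) (nat_lit 650881530) (nat_lit 241) (nat_lit 5) (nat_lit 257) (nat_lit 5) (nat_lit 258) (nat_lit 5) (nat_lit 371) (nat_lit 359) (nat_lit 170))))) (XT.nd (nat_lit 234) (nat_lit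 1064) (nat_lit 0) (XT.nd (nat_lit 78) (nat_lit 0) (nat_lit 0) (XT.lf (nat_lit 0) (nat_lit 12754461912) (nat_lit 1216) (nat_lit 2425464459) (nat_lit 1292) (nat_lit 13311549696) (nat_lit 241) (nat_lit 5) (nat_lit 257) (nat_lit 5) (nat_lit 258) (nat_lit 5) (nat_lit 372) (nat_lit 359) (nat_lit 169)) (XT.nd (nat_lit 78) (nat_lit 0) (nat_lit 76) (XT.lf (nat_lit 76) (nat_lit 12292192832) (nat_lit 0) (nat_lit 2475347631) (nat_lit 1292) (nat_lit 14178816074) (nat_lit 242) (nat_lit 5) (nat_lit 241) (nat_lit 5) (nat_lit 258) (nat_lit 5) (nat_lit 373) (nat_lit 359) (nat_lit 168)) (XT.lf (nat_lit 0) (nat_lit 16964525194) (nat_lit 1216) (nat_lit 2017946034) (nat_lit 1292) (nat_lit 10428708408) (nat_lit 242) (nat_lit 5) (nat_lit 258) (nat_lit 5) (nat_lit 259) (nat_lit 5) (nat_lit 374) (nat_lit 359) (nat_lit 167)))) (XT.nd (nat_lit 156) (nat_lit 1140) (nat_lit 0) (XT.nd (nat_lit 78) (nat_lit 0) (nat_lit 76) (XT.lf (nat_lit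 76) (nat_lit 13289594106) (nat_lit 0) (nat_lit 6086960621) (nat_lit 1292) (nat_lit 10508920226) (nat_lit 243) (nat_lit 5) (nat_lit 242) (nat_lit 5) (nat_lit 259) (nat_lit 5) (nat_lit 375) (nat_lit 359) (nat_lit 166)) (XT.lf (nat_lit 0) (nat_lit 21947641175) (nat_lit 1216) (nat_lit 1347686064) (nat_lit 76) (nat_lit 7076072547) (nat_lit 243) (nat_lit 5) (nat_lit 259) (nat_lit 5) (nat_lit 244) (nat_lit 5) (nat_lit 376) (nat_lit 359) (nat_lit 165))) (XT.nd (nat_lit 78) (nat_lit 0) (nat_lit 0) (XT.lf (nat_lit 0) (nat_lit 14579609553) (nat_lit 1216) (nat_lit 10213704792) (nat_lit 1292) (nat_lit 6072665886) (nat_lit 227) (nat_lit 5) (nat_lit 243) (nat_lit 5) (nat_lit 244) (nat_lit 5) (nat_lit 377) (nat_lit 359) (nat_lit 164)) (XT.lf (nat_lit 0) (nat_lit 27766546162) (nat_lit 1292) (nat_lit 396760151) (nat_lit 76) (nat_lit 3210827571) (nat_lit 227) (nat_lit 5) (nat_lit 244) (nat_lit 5) (nat_lit 228) (nat_lit 5)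 (nat_lit 378) (nat_lit 359) (nat_lit 163)))))) (XT.nd (nat_lit 546) (nat_lit 2052) (nat_lit 0) (XT.nd (nat_lit 234) (nat_lit 1140) (nat_lit 0) (XT.nd (nat_lit 78) (nat_lit 684) (nat_lit 0) (XT.lf (nat_lit 0) (nat_lit 16181606131) (nat_lit 608) (nat_lit 14901230523) (nat_lit 684) (nat_lit 807081050) (nat_lit 219) (nat_lit 5) (nat_lit 227) (nat_lit 5) (nat_lit 228) (nat_lit 5) (nat_lit 379) (nat_lit 359) (nat_lit 162)) (XT.nd (nat_lit 78) (nat_lit 0) (nat_lit 0) (XT.lf (nat_lit 0) (nat_lit 838148022) (nat_lit 608) (nat_lit 1208074678) (nat_lit 684) (nat_lit 30374074966) (nat_lit 210) (nat_lit 5) (nat_lit 218) (nat_lit 5) (nat_lit 219) (nat_lit 5) (nat_lit 380) (nat_lit 359) (nat_lit 161)) (XT.lf (nat_lit 0) (nat_lit 5250335793) (nat_lit 684) (nat_lit 14895007189) (nat_lit 76) (nat_lit 12812564652) (nat_lit 210) (nat_lit 5) (nat_lit 219) (nat_lit 5) (nat_lit 211) (nat_lit 5) (nat_lit 381) (nat_lit 359) (nat_lit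 160)))) (XT.nd (nat_lit 156) (nat_lit 532) (nat_lit 0) (XT.nd (nat_lit 78) (nat_lit 0) (nat_lit 0) (XT.lf (nat_lit 0) (nat_lit 2323547857) (nat_lit 608) (nat_lit 6258675327) (nat_lit 684) (nat_lit 24928474440) (nat_lit 202) (nat_lit 5) (nat_lit 210) (nat_lit 5) (nat_lit 211) (nat_lit 5) (nat_lit 382) (nat_lit 359) (nat_lit 159)) (XT.lf (nat_lit 0) (nat_lit 12240703569) (nat_lit 684) (nat_lit 13793020547) (nat_lit 76) (nat_lit 8039549320) (nat_lit 202) (nat_lit 5) (nat_lit 211) (nat_lit 5) (nat_lit 203) (nat_lit 5) (nat_lit 383) (nat_lit 359) (nat_lit 158))) (XT.nd (nat_lit 78) (nat_lit 0) (nat_lit 0) (XT.lf (nat_lit 0) (nat_lit 4139177091) (nat_lit 532) (nat_lit 11968999425) (nat_lit 608) (nat_lit 18541574039) (nat_lit 195) (nat_lit 5) (nat_lit 202) (nat_lit 5) (nat_lit 203) (nat_lit 5) (nat_lit 384) (nat_lit 359) (nat_lit 157)) (XT.lf (nat_lit 0) (nat_lit 20254067607) (nat_lit 608) (nat_lit 12375447957)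 (nat_lit 76) (nat_lit 2609135749) (nat_lit 195) (nat_lit 5) (nat_lit 203) (nat_lit 5) (nat_lit 196) (nat_lit 5) (nat_lit 385) (nat_lit 359) (nat_lit 156))))) (XT.nd (nat_lit 234) (nat_lit 1064) (nat_lit 0) (XT.nd (nat_lit 78) (nat_lit 456) (nat_lit 0) (XT.lf (nat_lit 0) (nat_lit 6305741964) (nat_lit 532) (nat_lit 18395316073) (nat_lit 608) (nat_lit 11138860488) (nat_lit 188) (nat_lit 5) (nat_lit 195) (nat_lit 5) (nat_lit 196) (nat_lit 5) (nat_lit 386) (nat_lit 359) (nat_lit 155)) (XT.nd (nat_lit 78) (nat_lit 456) (nat_lit 0) (XT.lf (nat_lit 0) (nat_lit 25798544812) (nat_lit 532) (nat_lit 3605529851) (nat_lit 608) (nat_lit 7051471673) (nat_lit 188) (nat_lit 5) (nat_lit 195) (nat_lit 5) (nat_lit 196) (nat_lit 5) (nat_lit 387) (nat_lit 359) (nat_lit 154)) (XT.lf (nat_lit 0) (nat_lit 8844805440) (nat_lit 456) (nat_lit 25597888751) (nat_lit 532) (nat_lit 2641114466) (nat_lit 182) (nat_lit 5) (nat_lit 188) (nat_lit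 5) (nat_lit 189) (nat_lit 5) (nat_lit 388) (nat_lit 359) (nat_lit 153)))) (XT.nd (nat_lit 156) (nat_lit 456) (nat_lit 0) (XT.nd (nat_lit 78) (nat_lit 532) (nat_lit 0) (XT.lf (nat_lit 0) (nat_lit 2006561203) (nat_lit 532) (nat_lit 8635132301) (nat_lit 76) (nat_lit 27084414546) (nat_lit 181) (nat_lit 5) (nat_lit 188) (nat_lit 5) (nat_lit 182) (nat_lit 5) (nat_lit 389) (nat_lit 359) (nat_lit 152)) (XT.lf (nat_lit 0) (nat_lit 6898568895) (nat_lit 608) (nat_lit 26673040797) (nat_lit 76) (nat_lit 4810543634) (nat_lit 174) (nat_lit 5) (nat_lit 182) (nat_lit 5) (nat_lit 175) (nat_lit 5) (nat_lit 390) (nat_lit 359) (nat_lit 151))) (XT.nd (nat_lit 78) (nat_lit 456) (nat_lit 0) (XT.lf (nat_lit 0) (nat_lit 12128600748) (nat_lit 608) (nat_lit 6323283668) (nat_lit 76) (nat_lit 20600258557) (nat_lit 174) (nat_lit 5) (nat_lit 182) (nat_lit 5) (nat_lit 175) (nat_lit 5) (nat_lit 391) (nat_lit 359) (nat_lit 150)) (XT.lf (nat_lit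 0) (nat_lit 14925805459) (nat_lit 456) (nat_lit 2731106379) (nat_lit 532) (nat_lit 22081080026) (nat_lit 168) (nat_lit 5) (nat_lit 174) (nat_lit 5) (nat_lit 175) (nat_lit 5) (nat_lit 392) (nat_lit 359) (nat_lit 149))))))) (XT.nd (nat_lit 1014) (nat_lit 2584) (nat_lit 0) (XT.nd (nat_lit 468) (nat_lit 1520) (nat_lit 0) (XT.nd (nat_lit 234) (nat_lit 912) (nat_lit 0) (XT.nd (nat_lit 78) (nat_lit 456) (nat_lit 0) (XT.lf (nat_lit 0) (nat_lit 23542892629) (nat_lit 532) (nat_lit 3632995372) (nat_lit 76) (nat_lit 13262774485) (nat_lit 168) (nat_lit 5) (nat_lit 175) (nat_lit 5) (nat_lit 169) (nat_lit 5) (nat_lit 393) (nat_lit 359) (nat_lit 148)) (XT.nd (nat_lit 78) (nat_lit 0) (nat_lit 0) (XT.lf (nat_lit 0) (nat_lit 18513412837) (nat_lit 456) (nat_lit 11295040189) (nat_lit 532) (nat_lit 11345811046) (nat_lit 162) (nat_lit 5) (nat_lit 168) (nat_lit 5) (nat_lit 169) (nat_lit 5) (nat_lit 394) (nat_lit 359) (nat_lit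 147)) (XT.lf (nat_lit 0) (nat_lit 36345720061) (nat_lit 532) (nat_lit 542985495) (nat_lit 76) (nat_lit 5000116783) (nat_lit 162) (nat_lit 5) (nat_lit 169) (nat_lit 5) (nat_lit 163) (nat_lit 5) (nat_lit 395) (nat_lit 359) (nat_lit 146)))) (XT.nd (nat_lit 78) (nat_lit 456) (nat_lit 0) (XT.lf (nat_lit 0) (nat_lit 755079053) (nat_lit 456) (nat_lit 20099476025) (nat_lit 76) (nat_lit 21780842362) (nat_lit 156) (nat_lit 5) (nat_lit 162) (nat_lit 5) (nat_lit 157) (nat_lit 5) (nat_lit 396) (nat_lit 359) (nat_lit 145)) (XT.nd (nat_lit 78) (nat_lit 0) (nat_lit 0) (XT.lf (nat_lit 0) (nat_lit 2913681566) (nat_lit 456) (nat_lit 4248759490) (nat_lit 532) (nat_lit 36239333647) (nat_lit 150) (nat_lit 5) (nat_lit 156) (nat_lit 5) (nat_lit 157) (nat_lit 5) (nat_lit 397) (nat_lit 359) (nat_lit 144)) (XT.lf (nat_lit 0) (nat_lit 14088699899) (nat_lit 532) (nat_lit 17283770939) (nat_lit 76) (nat_lit 12808872900) (nat_lit 150)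 (nat_lit 5) (nat_lit 157) (nat_lit 5) (nat_lit 151) (nat_lit 5) (nat_lit 398) (nat_lit 359) (nat_lit 143))))) (XT.nd (nat_lit 234) (nat_lit 760) (nat_lit 0) (XT.nd (nat_lit 78) (nat_lit 380) (nat_lit 0) (XT.lf (nat_lit 0) (nat_lit 6703096772) (nat_lit 380) (nat_lit 14624334406) (nat_lit 456) (nat_lit 23653728839) (nat_lit 145) (nat_lit 5) (nat_lit 150) (nat_lit 5) (nat_lit 151) (nat_lit 5) (nat_lit 399) (nat_lit 359) (nat_lit 142)) (XT.nd (nat_lit 78) (nat_lit 380) (nat_lit 0) (XT.lf (nat_lit 0) (nat_lit 28983039127) (nat_lit 456) (nat_lit 14065182481) (nat_lit 76) (nat_lit 2750758424) (nat_lit 145) (nat_lit 5) (nat_lit 151) (nat_lit 5) (nat_lit 146) (nat_lit 5) (nat_lit 400) (nat_lit 359) (nat_lit 141)) (XT.lf (nat_lit 0) (nat_lit 10940500791) (nat_lit 380) (nat_lit 26176038263) (nat_lit 456) (nat_lit 9517349556) (nat_lit 140) (nat_lit 5) (nat_lit 145) (nat_lit 5) (nat_lit 146) (nat_lit 5) (nat_lit 401)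 (nat_lit 359) (nat_lit 140)))) (XT.nd (nat_lit 156) (nat_lit 380) (nat_lit 0) (XT.nd (nat_lit 78) (nat_lit 380) (nat_lit 0) (XT.lf (nat_lit 0) (nat_lit 36982422241) (nat_lit 380) (nat_lit 8651943026) (nat_lit 456) (nat_lit 1855270191) (nat_lit 140) (nat_lit 5) (nat_lit 145) (nat_lit 5) (nat_lit 146) (nat_lit 5) (nat_lit 402) (nat_lit 359) (nat_lit 139)) (XT.lf (nat_lit 0) (nat_lit 6160325763) (nat_lit 380) (nat_lit 32776968722) (nat_lit 76) (nat_lit 9424776453) (nat_lit 135) (nat_lit 5) (nat_lit 140) (nat_lit 5) (nat_lit 136) (nat_lit 5) (nat_lit 403) (nat_lit 359) (nat_lit 138))) (XT.nd (nat_lit 78) (nat_lit 380) (nat_lit 0) (XT.lf (nat_lit 0) (nat_lit 14570261702) (nat_lit 380) (nat_lit 6689250114) (nat_lit 76) (nat_lit 27994882355) (nat_lit 135) (nat_lit 5) (nat_lit 140) (nat_lit 5) (nat_lit 136) (nat_lit 5) (nat_lit 404) (nat_lit 359) (nat_lit 137)) (XT.lf (nat_lit 0) (nat_lit 20580519480) (nat_lit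 380) (nat_lit 2848202596) (nat_lit 456) (nat_lit 26738878816) (nat_lit 130) (nat_lit 5) (nat_lit 135) (nat_lit 5) (nat_lit 136) (nat_lit 5) (nat_lit 405) (nat_lit 359) (nat_lit 136)))))) (XT.nd (nat_lit 546) (nat_lit 1292) (nat_lit 0) (XT.nd (nat_lit 234) (nat_lit 684) (nat_lit 0) (XT.nd (nat_lit 78) (nat_lit 608) (nat_lit 0) (XT.lf (nat_lit 0) (nat_lit 32774479166) (nat_lit 456) (nat_lit 2458454107) (nat_lit 76) (nat_lit 15868624817) (nat_lit 130) (nat_lit 5) (nat_lit 136) (nat_lit 5) (nat_lit 131) (nat_lit 5) (nat_lit 406) (nat_lit 359) (nat_lit 135)) (XT.nd (nat_lit 78) (nat_lit 304) (nat_lit 0) (XT.lf (nat_lit 0) (nat_lit 25960272891) (nat_lit 304) (nat_lit 16716542586) (nat_lit 380) (nat_lit 9378432877) (nat_lit 126) (nat_lit 5) (nat_lit 130) (nat_lit 5) (nat_lit 131) (nat_lit 5) (nat_lit 407) (nat_lit 359) (nat_lit 134)) (XT.lf (nat_lit 0) (nat_lit 2264294034) (nat_lit 304) (nat_lit 50679885126) (nat_lit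 380) (nat_lit 91331977) (nat_lit 122) (nat_lit 5) (nat_lit 126) (nat_lit 5) (nat_lit 127) (nat_lit 5) (nat_lit 408) (nat_lit 359) (nat_lit 133)))) (XT.nd (nat_lit 156) (nat_lit 304) (nat_lit 0) (XT.nd (nat_lit 78) (nat_lit 304) (nat_lit 0) (XT.lf (nat_lit 0) (nat_lit 9719617644) (nat_lit 380) (nat_lit 22289372627) (nat_lit 76) (nat_lit 22020556377) (nat_lit 121) (nat_lit 5) (nat_lit 126) (nat_lit 5) (nat_lit 122) (nat_lit 5) (nat_lit 409) (nat_lit 359) (nat_lit 132)) (XT.lf (nat_lit 0) (nat_lit 7184107589) (nat_lit 304) (nat_lit 12706542182) (nat_lit 380) (nat_lit 35160699118) (nat_lit 117) (nat_lit 5) (nat_lit 121) (nat_lit 5) (nat_lit 122) (nat_lit 5) (nat_lit 410) (nat_lit 359) (nat_lit 131))) (XT.nd (nat_lit 78) (nat_lit 304) (nat_lit 0) (XT.lf (nat_lit 0) (nat_lit 30661638905) (nat_lit 380) (nat_lit 18171669356) (nat_lit 76) (nat_lit 7261652626) (nat_lit 117) (nat_lit 5) (nat_lit 122) (nat_lit 5) (nat_lit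 118) (nat_lit 5) (nat_lit 411) (nat_lit 359) (nat_lit 130)) (XT.lf (nat_lit 0) (nat_lit 12531437402) (nat_lit 304) (nat_lit 29469178073) (nat_lit 380) (nat_lit 15161920494) (nat_lit 113) (nat_lit 5) (nat_lit 117) (nat_lit 5) (nat_lit 118) (nat_lit 5) (nat_lit 412) (nat_lit 359) (nat_lit 129))))) (XT.nd (nat_lit 234) (nat_lit 912) (nat_lit 0) (XT.nd (nat_lit 78) (nat_lit 380) (nat_lit 0) (XT.lf (nat_lit 0) (nat_lit 44526100476) (nat_lit 304) (nat_lit 9335771127) (nat_lit 380) (nat_lit 4394803838) (nat_lit 113) (nat_lit 5) (nat_lit 117) (nat_lit 5) (nat_lit 118) (nat_lit 5) (nat_lit 413) (nat_lit 359) (nat_lit 128)) (XT.nd (nat_lit 78) (nat_lit 0) (nat_lit 0) (XT.lf (nat_lit 0) (nat_lit 6852066393) (nat_lit 380) (nat_lit 41098984602) (nat_lit 76) (nat_lit 11422036033) (nat_lit 108) (nat_lit 5) (nat_lit 113) (nat_lit 5) (nat_lit 109) (nat_lit 5) (nat_lit 414) (nat_lit 359) (nat_lit 127)) (XT.lf (nat_lit 0)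 (nat_lit 18579122612) (nat_lit 380) (nat_lit 9137788203) (nat_lit 76) (nat_lit 32797841833) (nat_lit 108) (nat_lit 5) (nat_lit 113) (nat_lit 5) (nat_lit 109) (nat_lit 5) (nat_lit 415) (nat_lit 359) (nat_lit 126)))) (XT.nd (nat_lit 156) (nat_lit 608) (nat_lit 0) (XT.nd (nat_lit 78) (nat_lit 0) (nat_lit 0) (XT.lf (nat_lit 0) (nat_lit 24253556004) (nat_lit 304) (nat_lit 6636266796) (nat_lit 380) (nat_lit 30793890864) (nat_lit 104) (nat_lit 5) (nat_lit 108) (nat_lit 5) (nat_lit 109) (nat_lit 5) (nat_lit 416) (nat_lit 359) (nat_lit 125)) (XT.lf (nat_lit 0) (nat_lit 43806664114) (nat_lit 380) (nat_lit 4198835869) (nat_lit 76) (nat_lit 14875139306) (nat_lit 104) (nat_lit 5) (nat_lit 109) (nat_lit 5) (nat_lit 105) (nat_lit 5) (nat_lit 417) (nat_lit 359) (nat_lit 124))) (XT.nd (nat_lit 78) (nat_lit 380) (nat_lit 0) (XT.lf (nat_lit 0) (nat_lit 30558100295) (nat_lit 228) (nat_lit 26911102226) (nat_lit 304) (nat_lit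 6633524778) (nat_lit 101) (nat_lit 5) (nat_lit 104) (nat_lit 5) (nat_lit 105) (nat_lit 5) (nat_lit 418) (nat_lit 359) (nat_lit 123)) (XT.lf (nat_lit 0) (nat_lit 1042195813) (nat_lit 304) (nat_lit 5068933401) (nat_lit 380) (nat_lit 59247019264) (nat_lit 96) (nat_lit 5) (nat_lit 100) (nat_lit 5) (nat_lit 101) (nat_lit 5) (nat_lit 419) (nat_lit 359) (nat_lit 122))))))))
noncomputable def xc226 : XT := (XT.nd (nat_lit 43602) (nat_lit 0) (nat_lit 3952) (XT.nd (nat_lit 42510) (nat_lit 0) (nat_lit 11704) (XT.nd (nat_lit 468) (nat_lit 228) (nat_lit 0) (XT.nd (nat_lit 234) (nat_lit 532) (nat_lit 0) (XT.nd (nat_lit 78) (nat_lit 228) (nat_lit 0) (XT.lf (nat_lit 0) (nat_lit 19613178204) (nat_lit 380) (nat_lit 29525317350) (nat_lit 76) (nat_lit 17495515242) (nat_lit 96) (nat_lit 5) (nat_lit 101) (nat_lit 5) (nat_lit 97) (nat_lit 5) (nat_lit 420) (nat_lit 359) (nat_lit 121)) (XT.nd (nat_lit 78) (nat_lit 0) (nat_lit 0)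 (XT.lf (nat_lit 0) (nat_lit 6381495220) (nat_lit 228) (nat_lit 27249120319) (nat_lit 304) (nat_lit 34314223971) (nat_lit 93) (nat_lit 5) (nat_lit 96) (nat_lit 5) (nat_lit 97) (nat_lit 5) (nat_lit 421) (nat_lit 359) (nat_lit 120)) (XT.lf (nat_lit 0) (nat_lit 43968890363) (nat_lit 228) (nat_lit 4396647178) (nat_lit 304) (nat_lit 20920547017) (nat_lit 93) (nat_lit 5) (nat_lit 96) (nat_lit 5) (nat_lit 97) (nat_lit 5) (nat_lit 422) (nat_lit 359) (nat_lit 119)))) (XT.nd (nat_lit 78) (nat_lit 304) (nat_lit 0) (XT.lf (nat_lit 0) (nat_lit 12065955611) (nat_lit 228) (nat_lit 51775377768) (nat_lit 304) (nat_lit 6817269107) (nat_lit 90) (nat_lit 5) (nat_lit 93) (nat_lit 5) (nat_lit 94) (nat_lit 5) (nat_lit 423) (nat_lit 359) (nat_lit 118)) (XT.nd (nat_lit 78) (nat_lit 228) (nat_lit 0) (XT.lf (nat_lit 0) (nat_lit 7859237731) (nat_lit 304) (nat_lit 21097057239) (nat_lit 76) (nat_lit 43104761242) (nat_lit 89) (nat_lit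 5) (nat_lit 93) (nat_lit 5) (nat_lit 90) (nat_lit 5) (nat_lit 424) (nat_lit 359) (nat_lit 117)) (XT.lf (nat_lit 0) (nat_lit 17801485670) (nat_lit 228) (nat_lit 5207532740) (nat_lit 304) (nat_lit 50489440526) (nat_lit 86) (nat_lit 5) (nat_lit 89) (nat_lit 5) (nat_lit 90) (nat_lit 5) (nat_lit 425) (nat_lit 359) (nat_lit 116))))) (XT.nd (nat_lit 41730) (nat_lit 0) (nat_lit 11552) (XT.nd (nat_lit 78) (nat_lit 228) (nat_lit 0) (XT.lf (nat_lit 0) (nat_lit 39012408404) (nat_lit 304) (nat_lit 16862123560) (nat_lit 76) (nat_lit 19092478575) (nat_lit 86) (nat_lit 5) (nat_lit 90) (nat_lit 5) (nat_lit 87) (nat_lit 5) (nat_lit 426) (nat_lit 359) (nat_lit 115)) (XT.nd (nat_lit 78) (nat_lit 0) (nat_lit 0) (XT.lf (nat_lit 0) (nat_lit 23543893133) (nat_lit 228) (nat_lit 32228806764) (nat_lit 304) (nat_lit 20698615069) (nat_lit 83) (nat_lit 5) (nat_lit 86) (nat_lit 5) (nat_lit 87) (nat_lit 5) (nat_lit 427) (nat_lit 359)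 (nat_lit 114)) (XT.lf (nat_lit 0) (nat_lit 65506019507) (nat_lit 228) (nat_lit 7698991576) (nat_lit 304) (nat_lit 4810661376) (nat_lit 83) (nat_lit 5) (nat_lit 86) (nat_lit 5) (nat_lit 87) (nat_lit 5) (nat_lit 428) (nat_lit 359) (nat_lit 113)))) (XT.nd (nat_lit 156) (nat_lit 0) (nat_lit 76) (XT.nd (nat_lit 78) (nat_lit 0) (nat_lit 0) (XT.lf (nat_lit 0) (nat_lit 393818063) (nat_lit 1292) (nat_lit 5821200182) (nat_lit 1292) (nat_lit 5821200182) (nat_lit 235) (nat_lit 3) (nat_lit 252) (nat_lit 3) (nat_lit 252) (nat_lit 5) (nat_lit 360) (nat_lit 360) (nat_lit 180)) (XT.lf (nat_lit 0) (nat_lit 911037755) (nat_lit 1292) (nat_lit 135719923) (nat_lit 1292) (nat_lit 23383360293) (nat_lit 235) (nat_lit 3) (nat_lit 252) (nat_lit 3) (nat_lit 252) (nat_lit 5) (nat_lit 361) (nat_lit 360) (nat_lit 179))) (XT.nd (nat_lit 78) (nat_lit 0) (nat_lit 0) (XT.lf (nat_lit 0) (nat_lit 1252429825) (nat_lit 1216) (nat_lit 12951971226)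 (nat_lit 1292) (nat_lit 10587702073) (nat_lit 236) (nat_lit 5) (nat_lit 252) (nat_lit 5) (nat_lit 253) (nat_lit 5) (nat_lit 362) (nat_lit 360) (nat_lit 178)) (XT.lf (nat_lit 0) (nat_lit 1611581712) (nat_lit 1216) (nat_lit 999613907) (nat_lit 1292) (nat_lit 22553528864) (nat_lit 236) (nat_lit 5) (nat_lit 252) (nat_lit 5) (nat_lit 253) (nat_lit 5) (nat_lit 363) (nat_lit 360) (nat_lit 177)))))) (XT.nd (nat_lit 546) (nat_lit 0) (nat_lit 228) (XT.nd (nat_lit 234) (nat_lit 0) (nat_lit 76) (XT.nd (nat_lit 78) (nat_lit 0) (nat_lit 0) (XT.lf (nat_lit 0) (nat_lit 2179072967) (nat_lit 1216) (nat_lit 14102038908) (nat_lit 1292) (nat_lit 9261487790) (nat_lit 237) (nat_lit 5) (nat_lit 253) (nat_lit 5) (nat_lit 254) (nat_lit 5) (nat_lit 364) (nat_lit 360) (nat_lit 176)) (XT.nd (nat_lit 78) (nat_lit 0) (nat_lit 76) (XT.lf (nat_lit 0) (nat_lit 2795644037) (nat_lit 1216) (nat_lit 1685448291) (nat_lit 1292) (nat_lit 21449759185)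 (nat_lit 237) (nat_lit 5) (nat_lit 253) (nat_lit 5) (nat_lit 254) (nat_lit 5) (nat_lit 365) (nat_lit 360) (nat_lit 175)) (XT.lf (nat_lit 0) (nat_lit 3610521446) (nat_lit 1216) (nat_lit 15080223729) (nat_lit 1292) (nat_lit 7634613473) (nat_lit 238) (nat_lit 5) (nat_lit 254) (nat_lit 5) (nat_lit 255) (nat_lit 5) (nat_lit 366) (nat_lit 360) (nat_lit 174)))) (XT.nd (nat_lit 156) (nat_lit 0) (nat_lit 76) (XT.nd (nat_lit 78) (nat_lit 0) (nat_lit 76) (XT.lf (nat_lit 0) (nat_lit 4507629110) (nat_lit 1216) (nat_lit 2179995016) (nat_lit 1292) (nat_lit 20042345298) (nat_lit 238) (nat_lit 5) (nat_lit 254) (nat_lit 5) (nat_lit 255) (nat_lit 5) (nat_lit 367) (nat_lit 360) (nat_lit 173)) (XT.lf (nat_lit 0) (nat_lit 5592506925) (nat_lit 1216) (nat_lit 15873345630) (nat_lit 1292) (nat_lit 5676042151) (nat_lit 239) (nat_lit 5) (nat_lit 255) (nat_lit 5) (nat_lit 256) (nat_lit 5) (nat_lit 368) (nat_lit 360) (nat_lit 172)))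 (XT.nd (nat_lit 78) (nat_lit 0) (nat_lit 76) (XT.lf (nat_lit 0) (nat_lit 6794810784) (nat_lit 1216) (nat_lit 2469192675) (nat_lit 1292) (nat_lit 18299629732) (nat_lit 239) (nat_lit 5) (nat_lit 255) (nat_lit 5) (nat_lit 256) (nat_lit 5) (nat_lit 369) (nat_lit 360) (nat_lit 171)) (XT.lf (nat_lit 0) (nat_lit 8173715368) (nat_lit 1216) (nat_lit 16467406369) (nat_lit 1292) (nat_lit 3352687926) (nat_lit 240) (nat_lit 5) (nat_lit 256) (nat_lit 5) (nat_lit 257) (nat_lit 5) (nat_lit 370) (nat_lit 360) (nat_lit 170))))) (XT.nd (nat_lit 234) (nat_lit 0) (nat_lit 76) (XT.nd (nat_lit 78) (nat_lit 0) (nat_lit 76) (XT.lf (nat_lit 0) (nat_lit 9707516138) (nat_lit 1216) (nat_lit 2538127455) (nat_lit 1292) (nat_lit 16187843696) (nat_lit 240) (nat_lit 5) (nat_lit 256) (nat_lit 5) (nat_lit 257) (nat_lit 5) (nat_lit 371) (nat_lit 360) (nat_lit 169)) (XT.nd (nat_lit 78) (nat_lit 0) (nat_lit 0) (XT.lf (nat_lit 0) (nat_lit 11405974740)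 (nat_lit 1216) (nat_lit 16847572187) (nat_lit 1292) (nat_lit 629250680) (nat_lit 241) (nat_lit 5) (nat_lit 257) (nat_lit 5) (nat_lit 258) (nat_lit 5) (nat_lit 372) (nat_lit 360) (nat_lit 168)) (XT.lf (nat_lit 0) (nat_lit 13299318693) (nat_lit 1216) (nat_lit 2371014577) (nat_lit 1292) (nat_lit 13670937647) (nat_lit 241) (nat_lit 5) (nat_lit 257) (nat_lit 5) (nat_lit 258) (nat_lit 5) (nat_lit 373) (nat_lit 360) (nat_lit 167)))) (XT.nd (nat_lit 156) (nat_lit 0) (nat_lit 76) (XT.nd (nat_lit 78) (nat_lit 0) (nat_lit 76) (XT.lf (nat_lit 76) (nat_lit 12786925239) (nat_lit 0) (nat_lit 2582350290) (nat_lit 1292) (nat_lit 14440630104) (nat_lit 242) (nat_lit 5) (nat_lit 241) (nat_lit 5) (nat_lit 258) (nat_lit 5) (nat_lit 374) (nat_lit 360) (nat_lit 166)) (XT.lf (nat_lit 0) (nat_lit 17627241642) (nat_lit 1216) (nat_lit 1951180570) (nat_lit 1292) (nat_lit 10710401396) (nat_lit 242) (nat_lit 5) (nat_lit 258) (nat_lit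 5) (nat_lit 259) (nat_lit 5) (nat_lit 375) (nat_lit 360) (nat_lit 165))) (XT.nd (nat_lit 78) (nat_lit 0) (nat_lit 76) (XT.lf (nat_lit 76) (nat_lit 13814337697) (nat_lit 0) (nat_lit 6294027041) (nat_lit 1292) (nat_lit 10669083339) (nat_lit 243) (nat_lit 5) (nat_lit 242) (nat_lit 5) (nat_lit 259) (nat_lit 5) (nat_lit 376) (nat_lit 360) (nat_lit 164)) (XT.lf (nat_lit 0) (nat_lit 22751971640) (nat_lit 1216) (nat_lit 1261046749) (nat_lit 76) (nat_lit 7265072835) (nat_lit 243) (nat_lit 5) (nat_lit 259) (nat_lit 5) (nat_lit 244) (nat_lit 5) (nat_lit 377) (nat_lit 360) (nat_lit 163))))))) (XT.nd (nat_lit 1014) (nat_lit 3496) (nat_lit 0) (XT.nd (nat_lit 468) (nat_lit 1596) (nat_lit 0) (XT.nd (nat_lit 234) (nat_lit 1292) (nat_lit 0) (XT.nd (nat_lit 78) (nat_lit 608) (nat_lit 0) (XT.lf (nat_lit 0) (nat_lit 15142821953) (nat_lit 1216) (nat_lit 10537153001) (nat_lit 1292) (nat_lit 6107627473) (nat_lit 227) (nat_lit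 5) (nat_lit 243) (nat_lit 5) (nat_lit 244) (nat_lit 5) (nat_lit 378) (nat_lit 360) (nat_lit 162)) (XT.nd (nat_lit 78) (nat_lit 608) (nat_lit 0) (XT.lf (nat_lit 0) (nat_lit 28738083720) (nat_lit 1292) (nat_lit 282114319) (nat_lit 76) (nat_lit 3290934330) (nat_lit 227) (nat_lit 5) (nat_lit 244) (nat_lit 5) (nat_lit 228) (nat_lit 5) (nat_lit 379) (nat_lit 360) (nat_lit 161)) (XT.lf (nat_lit 0) (nat_lit 16792362278) (nat_lit 608) (nat_lit 15358670004) (nat_lit 684) (nat_lit 691444357) (nat_lit 219) (nat_lit 5) (nat_lit 227) (nat_lit 5) (nat_lit 228) (nat_lit 5) (nat_lit 380) (nat_lit 360) (nat_lit 160)))) (XT.nd (nat_lit 78) (nat_lit 608) (nat_lit 0) (XT.lf (nat_lit 0) (nat_lit 990138802) (nat_lit 608) (nat_lit 1251816277) (nat_lit 684) (nat_lit 31146857729) (nat_lit 210) (nat_lit 5) (nat_lit 218) (nat_lit 5) (nat_lit 219) (nat_lit 5) (nat_lit 381) (nat_lit 360) (nat_lit 159)) (XT.nd (nat_lit 78) (nat_lit 608)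 (nat_lit 0) (XT.lf (nat_lit 0) (nat_lit 5538208594) (nat_lit 684) (nat_lit 15214661079) (nat_lit 76) (nat_lit 13189802738) (nat_lit 210) (nat_lit 5) (nat_lit 219) (nat_lit 5) (nat_lit 211) (nat_lit 5) (nat_lit 382) (nat_lit 360) (nat_lit 158)) (XT.lf (nat_lit 0) (nat_lit 2519203596) (nat_lit 608) (nat_lit 6448262741) (nat_lit 684) (nat_lit 25544659146) (nat_lit 202) (nat_lit 5) (nat_lit 210) (nat_lit 5) (nat_lit 211) (nat_lit 5) (nat_lit 383) (nat_lit 360) (nat_lit 157))))) (XT.nd (nat_lit 234) (nat_lit 1064) (nat_lit 0) (XT.nd (nat_lit 78) (nat_lit 532) (nat_lit 0) (XT.lf (nat_lit 0) (nat_lit 12731962436) (nat_lit 684) (nat_lit 14080733554) (nat_lit 76) (nat_lit 8278996480) (nat_lit 202) (nat_lit 5) (nat_lit 211) (nat_lit 5) (nat_lit 203) (nat_lit 5) (nat_lit 384) (nat_lit 360) (nat_lit 156)) (XT.nd (nat_lit 78) (nat_lit 0) (nat_lit 0) (XT.lf (nat_lit 0) (nat_lit 4388193957) (nat_lit 532) (nat_lit 12324852918)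 (nat_lit 608) (nat_lit 18972491100) (nat_lit 195) (nat_lit 5) (nat_lit 202) (nat_lit 5) (nat_lit 203) (nat_lit 5) (nat_lit 385) (nat_lit 360) (nat_lit 155)) (XT.lf (nat_lit 0) (nat_lit 20979802240) (nat_lit 608) (nat_lit 12621938840) (nat_lit 76) (nat_lit 2690471690) (nat_lit 195) (nat_lit 5) (nat_lit 203) (nat_lit 5) (nat_lit 196) (nat_lit 5) (nat_lit 386) (nat_lit 360) (nat_lit 154)))) (XT.nd (nat_lit 156) (nat_lit 532) (nat_lit 0) (XT.nd (nat_lit 78) (nat_lit 0) (nat_lit 0) (XT.lf (nat_lit 0) (nat_lit 6618463518) (nat_lit 532) (nat_lit 18939486323) (nat_lit 608) (nat_lit 11353637328) (nat_lit 188) (nat_lit 5) (nat_lit 195) (nat_lit 5) (nat_lit 196) (nat_lit 5) (nat_lit 387) (nat_lit 360) (nat_lit 153)) (XT.lf (nat_lit 0) (nat_lit 26692451929) (nat_lit 532) (nat_lit 3706230472) (nat_lit 608) (nat_lit 7147104197) (nat_lit 188) (nat_lit 5) (nat_lit 195) (nat_lit 5) (nat_lit 196) (nat_lit 5) (nat_lit 388)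 (nat_lit 360) (nat_lit 152))) (XT.nd (nat_lit 78) (nat_lit 76) (nat_lit 0) (XT.lf (nat_lit 0) (nat_lit 9232245869) (nat_lit 456) (nat_lit 26354181703) (nat_lit 532) (nat_lit 2606531706) (nat_lit 182) (nat_lit 5) (nat_lit 188) (nat_lit 5) (nat_lit 189) (nat_lit 5) (nat_lit 389) (nat_lit 360) (nat_lit 151)) (XT.lf (nat_lit 0) (nat_lit 2175102923) (nat_lit 532) (nat_lit 8773442742) (nat_lit 76) (nat_lit 27906048092) (nat_lit 181) (nat_lit 5) (nat_lit 188) (nat_lit 5) (nat_lit 182) (nat_lit 5) (nat_lit 390) (nat_lit 360) (nat_lit 150)))))) (XT.nd (nat_lit 546) (nat_lit 1596) (nat_lit 0) (XT.nd (nat_lit 234) (nat_lit 912) (nat_lit 0) (XT.nd (nat_lit 78) (nat_lit 456) (nat_lit 0) (XT.lf (nat_lit 0) (nat_lit 7211991542) (nat_lit 608) (nat_lit 27350563376) (nat_lit 76) (nat_lit 4967823227) (nat_lit 174) (nat_lit 5) (nat_lit 182) (nat_lit 5) (nat_lit 175) (nat_lit 5) (nat_lit 391) (nat_lit 360) (nat_lit 149)) (XT.nd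 (nat_lit 78) (nat_lit 456) (nat_lit 0) (XT.lf (nat_lit 0) (nat_lit 12595823411) (nat_lit 608) (nat_lit 6393886406) (nat_lit 76) (nat_lit 21230852027) (nat_lit 174) (nat_lit 5) (nat_lit 182) (nat_lit 5) (nat_lit 175) (nat_lit 5) (nat_lit 392) (nat_lit 360) (nat_lit 148)) (XT.lf (nat_lit 0) (nat_lit 15491507789) (nat_lit 456) (nat_lit 2796599022) (nat_lit 532) (nat_lit 22638936997) (nat_lit 168) (nat_lit 5) (nat_lit 174) (nat_lit 5) (nat_lit 175) (nat_lit 5) (nat_lit 393) (nat_lit 360) (nat_lit 147)))) (XT.nd (nat_lit 156) (nat_lit 456) (nat_lit 0) (XT.nd (nat_lit 78) (nat_lit 456) (nat_lit 0) (XT.lf (nat_lit 0) (nat_lit 24347864510) (nat_lit 532) (nat_lit 3624647425) (nat_lit 76) (nat_lit 13676307947) (nat_lit 168) (nat_lit 5) (nat_lit 175) (nat_lit 5) (nat_lit 169) (nat_lit 5) (nat_lit 394) (nat_lit 360) (nat_lit 146)) (XT.lf (nat_lit 0) (nat_lit 19185002660) (nat_lit 456) (nat_lit 11614631600) (nat_lit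 532) (nat_lit 11586309200) (nat_lit 162) (nat_lit 5) (nat_lit 168) (nat_lit 5) (nat_lit 169) (nat_lit 5) (nat_lit 395) (nat_lit 360) (nat_lit 145))) (XT.nd (nat_lit 78) (nat_lit 456) (nat_lit 0) (XT.lf (nat_lit 0) (nat_lit 37530375915) (nat_lit 532) (nat_lit 443788812) (nat_lit 76) (nat_lit 5168454234) (nat_lit 162) (nat_lit 5) (nat_lit 169) (nat_lit 5) (nat_lit 163) (nat_lit 5) (nat_lit 396) (nat_lit 360) (nat_lit 144)) (XT.lf (nat_lit 0) (nat_lit 871323596) (nat_lit 456) (nat_lit 20586206358) (nat_lit 76) (nat_lit 22454084394) (nat_lit 156) (nat_lit 5) (nat_lit 162) (nat_lit 5) (nat_lit 157) (nat_lit 5) (nat_lit 397) (nat_lit 360) (nat_lit 143))))) (XT.nd (nat_lit 234) (nat_lit 760) (nat_lit 0) (XT.nd (nat_lit 78) (nat_lit 380) (nat_lit 0) (XT.lf (nat_lit 0) (nat_lit 3116206216) (nat_lit 456) (nat_lit 4353080805) (nat_lit 532) (nat_lit 37231745575) (nat_lit 150) (nat_lit 5) (nat_lit 156) (nat_lit 5) (nat_lit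 157) (nat_lit 5) (nat_lit 398) (nat_lit 360) (nat_lit 142)) (XT.nd (nat_lit 78) (nat_lit 380) (nat_lit 0) (XT.lf (nat_lit 0) (nat_lit 14600870783) (nat_lit 532) (nat_lit 17688024746) (nat_lit 76) (nat_lit 13215168112) (nat_lit 150) (nat_lit 5) (nat_lit 157) (nat_lit 5) (nat_lit 151) (nat_lit 5) (nat_lit 399) (nat_lit 360) (nat_lit 141)) (XT.lf (nat_lit 0) (nat_lit 7017328807) (nat_lit 380) (nat_lit 15037915671) (nat_lit 456) (nat_lit 24272676538) (nat_lit 145) (nat_lit 5) (nat_lit 150) (nat_lit 5) (nat_lit 151) (nat_lit 5) (nat_lit 400) (nat_lit 360) (nat_lit 140)))) (XT.nd (nat_lit 156) (nat_lit 380) (nat_lit 0) (XT.nd (nat_lit 78) (nat_lit 380) (nat_lit 0) (XT.lf (nat_lit 0) (nat_lit 29938192545) (nat_lit 456) (nat_lit 14374932920) (nat_lit 76) (nat_lit 2857221006) (nat_lit 145) (nat_lit 5) (nat_lit 151) (nat_lit 5) (nat_lit 146) (nat_lit 5) (nat_lit 401) (nat_lit 360) (nat_lit 139)) (XT.lf (nat_lit 0)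 (nat_lit 11379820802) (nat_lit 380) (nat_lit 26934449659) (nat_lit 456) (nat_lit 9716075617) (nat_lit 140) (nat_lit 5) (nat_lit 145) (nat_lit 5) (nat_lit 146) (nat_lit 5) (nat_lit 402) (nat_lit 360) (nat_lit 138))) (XT.nd (nat_lit 78) (nat_lit 380) (nat_lit 0) (XT.lf (nat_lit 0) (nat_lit 38199763827) (nat_lit 380) (nat_lit 8885414179) (nat_lit 456) (nat_lit 1826661864) (nat_lit 140) (nat_lit 5) (nat_lit 145) (nat_lit 5) (nat_lit 146) (nat_lit 5) (nat_lit 403) (nat_lit 360) (nat_lit 137)) (XT.lf (nat_lit 0) (nat_lit 6426655406) (nat_lit 380) (nat_lit 33649602607) (nat_lit 76) (nat_lit 9734200050) (nat_lit 135) (nat_lit 5) (nat_lit 140) (nat_lit 5) (nat_lit 136) (nat_lit 5) (nat_lit 404) (nat_lit 360) (nat_lit 136))))))))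
noncomputable def xc227 : XT := (XT.nd (nat_lit 43758) (nat_lit 0) (nat_lit 7220) (XT.nd (nat_lit 1014) (nat_lit 1368) (nat_lit 0) (XT.nd (nat_lit 468) (nat_lit 1292) (nat_lit 0) (XT.nd (nat_lit 234) (nat_lit 684) (nat_lit 0) (XT.nd (nat_lit 78) (nat_lit 380) (nat_lit 0) (XT.lf (nat_lit 0) (nat_lit 15086515058) (nat_lit 380) (nat_lit 6782475990) (nat_lit 76) (nat_lit 28860632034) (nat_lit 135) (nat_lit 5) (nat_lit 140) (nat_lit 5) (nat_lit 136) (nat_lit 5) (nat_lit 405) (nat_lit 360) (nat_lit 135)) (XT.nd (nat_lit 78) (nat_lit 0) (nat_lit 0) (XT.lf (nat_lit 0) (nat_lit 21304333245) (nat_lit 380) (nat_lit 2905113554) (nat_lit 456) (nat_lit 27460818510) (nat_lit 130) (nat_lit 5) (nat_lit 135) (nat_lit 5) (nat_lit 136) (nat_lit 5) (nat_lit 406) (nat_lit 360) (nat_lit 134)) (XT.lf (nat_lit 0) (nat_lit 33833575053) (nat_lit 456) (nat_lit 2426880067) (nat_lit 76) (nat_lit 16371846956) (nat_lit 130) (nat_lit 5)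 (nat_lit 136) (nat_lit 5) (nat_lit 131) (nat_lit 5) (nat_lit 407) (nat_lit 360) (nat_lit 133)))) (XT.nd (nat_lit 78) (nat_lit 380) (nat_lit 0) (XT.lf (nat_lit 0) (nat_lit 26843376117) (nat_lit 304) (nat_lit 17188398325) (nat_lit 380) (nat_lit 9582865600) (nat_lit 126) (nat_lit 5) (nat_lit 130) (nat_lit 5) (nat_lit 131) (nat_lit 5) (nat_lit 408) (nat_lit 360) (nat_lit 132)) (XT.nd (nat_lit 78) (nat_lit 76) (nat_lit 0) (XT.lf (nat_lit 0) (nat_lit 2437456813) (nat_lit 304) (nat_lit 52168816018) (nat_lit 380) (nat_lit 18065226) (nat_lit 122) (nat_lit 5) (nat_lit 126) (nat_lit 5) (nat_lit 127) (nat_lit 5) (nat_lit 409) (nat_lit 360) (nat_lit 131)) (XT.lf (nat_lit 0) (nat_lit 10083559130) (nat_lit 380) (nat_lit 22854421039) (nat_lit 76) (nat_lit 22710258379) (nat_lit 121) (nat_lit 5) (nat_lit 126) (nat_lit 5) (nat_lit 122) (nat_lit 5) (nat_lit 410) (nat_lit 360) (nat_lit 130))))) (XT.nd (nat_lit 234) (nat_lit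 684) (nat_lit 0) (XT.nd (nat_lit 78) (nat_lit 304) (nat_lit 0) (XT.lf (nat_lit 0) (nat_lit 7502247575) (nat_lit 304) (nat_lit 13056353693) (nat_lit 380) (nat_lit 36142127913) (nat_lit 117) (nat_lit 5) (nat_lit 121) (nat_lit 5) (nat_lit 122) (nat_lit 5) (nat_lit 411) (nat_lit 360) (nat_lit 129)) (XT.nd (nat_lit 78) (nat_lit 304) (nat_lit 0) (XT.lf (nat_lit 0) (nat_lit 31650938261) (nat_lit 380) (nat_lit 18615387162) (nat_lit 76) (nat_lit 7509378248) (nat_lit 117) (nat_lit 5) (nat_lit 122) (nat_lit 5) (nat_lit 118) (nat_lit 5) (nat_lit 412) (nat_lit 360) (nat_lit 128)) (XT.lf (nat_lit 0) (nat_lit 13007818365) (nat_lit 304) (nat_lit 30321208412) (nat_lit 380) (nat_lit 15546311605) (nat_lit 113) (nat_lit 5) (nat_lit 117) (nat_lit 5) (nat_lit 118) (nat_lit 5) (nat_lit 413) (nat_lit 360) (nat_lit 127)))) (XT.nd (nat_lit 156) (nat_lit 304) (nat_lit 0) (XT.nd (nat_lit 78) (nat_lit 380) (nat_lit 0) (XT.lf (nat_lit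 0) (nat_lit 45959395957) (nat_lit 304) (nat_lit 9584732607) (nat_lit 380) (nat_lit 4458233872) (nat_lit 113) (nat_lit 5) (nat_lit 117) (nat_lit 5) (nat_lit 118) (nat_lit 5) (nat_lit 414) (nat_lit 360) (nat_lit 126)) (XT.lf (nat_lit 0) (nat_lit 7124000757) (nat_lit 380) (nat_lit 42232359315) (nat_lit 76) (nat_lit 11795908371) (nat_lit 108) (nat_lit 5) (nat_lit 113) (nat_lit 5) (nat_lit 109) (nat_lit 5) (nat_lit 415) (nat_lit 360) (nat_lit 125))) (XT.nd (nat_lit 78) (nat_lit 304) (nat_lit 0) (XT.lf (nat_lit 0) (nat_lit 19200935487) (nat_lit 380) (nat_lit 9315227845) (nat_lit 76) (nat_lit 33812079279) (nat_lit 108) (nat_lit 5) (nat_lit 113) (nat_lit 5) (nat_lit 109) (nat_lit 5) (nat_lit 416) (nat_lit 360) (nat_lit 124)) (XT.lf (nat_lit 0) (nat_lit 25076908709) (nat_lit 304) (nat_lit 6803091472) (nat_lit 380) (nat_lit 31652301538) (nat_lit 104) (nat_lit 5) (nat_lit 108) (nat_lit 5) (nat_lit 109) (nat_lit 5)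 (nat_lit 417) (nat_lit 360) (nat_lit 123)))))) (XT.nd (nat_lit 546) (nat_lit 304) (nat_lit 0) (XT.nd (nat_lit 234) (nat_lit 456) (nat_lit 0) (XT.nd (nat_lit 78) (nat_lit 608) (nat_lit 0) (XT.lf (nat_lit 0) (nat_lit 45182798825) (nat_lit 380) (nat_lit 4230277407) (nat_lit 76) (nat_lit 15352105868) (nat_lit 104) (nat_lit 5) (nat_lit 109) (nat_lit 5) (nat_lit 105) (nat_lit 5) (nat_lit 418) (nat_lit 360) (nat_lit 122)) (XT.nd (nat_lit 78) (nat_lit 380) (nat_lit 0) (XT.lf (nat_lit 0) (nat_lit 31568440141) (nat_lit 228) (nat_lit 27685869027) (nat_lit 304) (nat_lit 6769651242) (nat_lit 101) (nat_lit 5) (nat_lit 104) (nat_lit 5) (nat_lit 105) (nat_lit 5) (nat_lit 419) (nat_lit 360) (nat_lit 121)) (XT.lf (nat_lit 0) (nat_lit 1167372984) (nat_lit 304) (nat_lit 5187849420) (nat_lit 380) (nat_lit 60961830978) (nat_lit 96) (nat_lit 5) (nat_lit 100) (nat_lit 5) (nat_lit 101) (nat_lit 5) (nat_lit 420) (nat_lit 360) (nat_lit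 120)))) (XT.nd (nat_lit 156) (nat_lit 228) (nat_lit 0) (XT.nd (nat_lit 78) (nat_lit 228) (nat_lit 0) (XT.lf (nat_lit 0) (nat_lit 20260872571) (nat_lit 380) (nat_lit 30318424280) (nat_lit 76) (nat_lit 18051939018) (nat_lit 96) (nat_lit 5) (nat_lit 101) (nat_lit 5) (nat_lit 97) (nat_lit 5) (nat_lit 421) (nat_lit 360) (nat_lit 119)) (XT.lf (nat_lit 0) (nat_lit 6664684309) (nat_lit 228) (nat_lit 28033303462) (nat_lit 304) (nat_lit 35283427503) (nat_lit 93) (nat_lit 5) (nat_lit 96) (nat_lit 5) (nat_lit 97) (nat_lit 5) (nat_lit 422) (nat_lit 360) (nat_lit 118))) (XT.nd (nat_lit 78) (nat_lit 228) (nat_lit 0) (XT.lf (nat_lit 0) (nat_lit 45377029144) (nat_lit 228) (nat_lit 4496225753) (nat_lit 304) (nat_lit 21489694315) (nat_lit 93) (nat_lit 5) (nat_lit 96) (nat_lit 5) (nat_lit 97) (nat_lit 5) (nat_lit 423) (nat_lit 360) (nat_lit 117)) (XT.lf (nat_lit 0) (nat_lit 12517526494) (nat_lit 228) (nat_lit 53295308021)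 (nat_lit 304) (nat_lit 6963823312) (nat_lit 90) (nat_lit 5) (nat_lit 93) (nat_lit 5) (nat_lit 94) (nat_lit 5) (nat_lit 424) (nat_lit 360) (nat_lit 116))))) (XT.nd (nat_lit 41886) (nat_lit 0) (nat_lit 11324) (XT.nd (nat_lit 78) (nat_lit 228) (nat_lit 0) (XT.lf (nat_lit 0) (nat_lit 8150192324) (nat_lit 304) (nat_lit 21641874039) (nat_lit 76) (nat_lit 44429152168) (nat_lit 89) (nat_lit 5) (nat_lit 93) (nat_lit 5) (nat_lit 90) (nat_lit 5) (nat_lit 425) (nat_lit 360) (nat_lit 115)) (XT.nd (nat_lit 78) (nat_lit 0) (nat_lit 0) (XT.lf (nat_lit 0) (nat_lit 18422761481) (nat_lit 228) (nat_lit 5330936351) (nat_lit 304) (nat_lit 51948068969) (nat_lit 86) (nat_lit 5) (nat_lit 89) (nat_lit 5) (nat_lit 90) (nat_lit 5) (nat_lit 426) (nat_lit 360) (nat_lit 114)) (XT.lf (nat_lit 0) (nat_lit 40235911122) (nat_lit 304) (nat_lit 17282005097) (nat_lit 76) (nat_lit 19696497484) (nat_lit 86) (nat_lit 5) (nat_lit 90) (nat_lit 5)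 (nat_lit 87) (nat_lit 5) (nat_lit 427) (nat_lit 360) (nat_lit 113)))) (XT.nd (nat_lit 156) (nat_lit 0) (nat_lit 76) (XT.nd (nat_lit 78) (nat_lit 0) (nat_lit 0) (XT.lf (nat_lit 0) (nat_lit 516147048) (nat_lit 1292) (nat_lit 5938892615) (nat_lit 1292) (nat_lit 5938892615) (nat_lit 235) (nat_lit 3) (nat_lit 252) (nat_lit 3) (nat_lit 252) (nat_lit 5) (nat_lit 361) (nat_lit 361) (nat_lit 178)) (XT.lf (nat_lit 0) (nat_lit 1152960040) (nat_lit 1292) (nat_lit 29221476) (nat_lit 1292) (nat_lit 23974291057) (nat_lit 235) (nat_lit 3) (nat_lit 252) (nat_lit 3) (nat_lit 252) (nat_lit 5) (nat_lit 362) (nat_lit 361) (nat_lit 177))) (XT.nd (nat_lit 78) (nat_lit 0) (nat_lit 0) (XT.lf (nat_lit 0) (nat_lit 1498435721) (nat_lit 1216) (nat_lit 13223694204) (nat_lit 1292) (nat_lit 10807375340) (nat_lit 236) (nat_lit 5) (nat_lit 252) (nat_lit 5) (nat_lit 253) (nat_lit 5) (nat_lit 363) (nat_lit 361) (nat_lit 176)) (XT.lf (nat_lit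 0) (nat_lit 1862291300) (nat_lit 1216) (nat_lit 916169160) (nat_lit 1292) (nat_lit 23135030075) (nat_lit 236) (nat_lit 5) (nat_lit 252) (nat_lit 5) (nat_lit 253) (nat_lit 5) (nat_lit 364) (nat_lit 361) (nat_lit 175))))))) (XT.nd (nat_lit 1014) (nat_lit 4256) (nat_lit 0) (XT.nd (nat_lit 468) (nat_lit 0) (nat_lit 228) (XT.nd (nat_lit 234) (nat_lit 0) (nat_lit 76) (XT.nd (nat_lit 78) (nat_lit 0) (nat_lit 0) (XT.lf (nat_lit 0) (nat_lit 2441173697) (nat_lit 1216) (nat_lit 14405931549) (nat_lit 1292) (nat_lit 9455768785) (nat_lit 237) (nat_lit 5) (nat_lit 253) (nat_lit 5) (nat_lit 254) (nat_lit 5) (nat_lit 365) (nat_lit 361) (nat_lit 174)) (XT.nd (nat_lit 78) (nat_lit 0) (nat_lit 76) (XT.lf (nat_lit 0) (nat_lit 3070511942) (nat_lit 1216) (nat_lit 1620314142) (nat_lit 1292) (nat_lit 22012122215) (nat_lit 237) (nat_lit 5) (nat_lit 253) (nat_lit 5) (nat_lit 254) (nat_lit 5) (nat_lit 366) (nat_lit 361) (nat_lit 173))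 (XT.lf (nat_lit 0) (nat_lit 3904682007) (nat_lit 1216) (nat_lit 15411683254) (nat_lit 1292) (nat_lit 7793082875) (nat_lit 238) (nat_lit 5) (nat_lit 254) (nat_lit 5) (nat_lit 255) (nat_lit 5) (nat_lit 367) (nat_lit 361) (nat_lit 172)))) (XT.nd (nat_lit 78) (nat_lit 0) (nat_lit 76) (XT.lf (nat_lit 0) (nat_lit 4823289942) (nat_lit 1216) (nat_lit 2127970413) (nat_lit 1292) (nat_lit 20575102063) (nat_lit 238) (nat_lit 5) (nat_lit 254) (nat_lit 5) (nat_lit 255) (nat_lit 5) (nat_lit 368) (nat_lit 361) (nat_lit 171)) (XT.nd (nat_lit 78) (nat_lit 0) (nat_lit 0) (XT.lf (nat_lit 0) (nat_lit 5935999522) (nat_lit 1216) (nat_lit 16227316558) (nat_lit 1292) (nat_lit 5787473529) (nat_lit 239) (nat_lit 5) (nat_lit 255) (nat_lit 5) (nat_lit 256) (nat_lit 5) (nat_lit 369) (nat_lit 361) (nat_lit 170)) (XT.lf (nat_lit 0) (nat_lit 7169254514) (nat_lit 1216) (nat_lit 2424599095) (nat_lit 1292) (nat_lit 18791482811) (nat_lit 239)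 (nat_lit 5) (nat_lit 255) (nat_lit 5) (nat_lit 256) (nat_lit 5) (nat_lit 370) (nat_lit 361) (nat_lit 169))))) (XT.nd (nat_lit 234) (nat_lit 0) (nat_lit 76) (XT.nd (nat_lit 78) (nat_lit 0) (nat_lit 0) (XT.lf (nat_lit 0) (nat_lit 8585213400) (nat_lit 1216) (nat_lit 16838361136) (nat_lit 1292) (nat_lit 3404975593) (nat_lit 240) (nat_lit 5) (nat_lit 256) (nat_lit 5) (nat_lit 257) (nat_lit 5) (nat_lit 371) (nat_lit 361) (nat_lit 168)) (XT.nd (nat_lit 78) (nat_lit 0) (nat_lit 76) (XT.lf (nat_lit 0) (nat_lit 10160184894) (nat_lit 1216) (nat_lit 2494788343) (nat_lit 1292) (nat_lit 16626592627) (nat_lit 240) (nat_lit 5) (nat_lit 256) (nat_lit 5) (nat_lit 257) (nat_lit 5) (nat_lit 372) (nat_lit 361) (nat_lit 167)) (XT.lf (nat_lit 0) (nat_lit 11905651966) (nat_lit 1216) (nat_lit 17229490793) (nat_lit 1292) (nat_lit 609333501) (nat_lit 241) (nat_lit 5) (nat_lit 257) (nat_lit 5) (nat_lit 258) (nat_lit 5) (nat_lit 373)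 (nat_lit 361) (nat_lit 166)))) (XT.nd (nat_lit 156) (nat_lit 0) (nat_lit 76) (XT.nd (nat_lit 78) (nat_lit 0) (nat_lit 0) (XT.lf (nat_lit 0) (nat_lit 13851208918) (nat_lit 1216) (nat_lit 2322233792) (nat_lit 1292) (nat_lit 14043401020) (nat_lit 241) (nat_lit 5) (nat_lit 257) (nat_lit 5) (nat_lit 258) (nat_lit 5) (nat_lit 374) (nat_lit 361) (nat_lit 165)) (XT.lf (nat_lit 76) (nat_lit 13289268618) (nat_lit 0) (nat_lit 2690683491) (nat_lit 1292) (nat_lit 14719687020) (nat_lit 242) (nat_lit 5) (nat_lit 241) (nat_lit 5) (nat_lit 258) (nat_lit 5) (nat_lit 375) (nat_lit 361) (nat_lit 164))) (XT.nd (nat_lit 78) (nat_lit 0) (nat_lit 0) (XT.lf (nat_lit 0) (nat_lit 18301011944) (nat_lit 1216) (nat_lit 1889719904) (nat_lit 1292) (nat_lit 11002334361) (nat_lit 242) (nat_lit 5) (nat_lit 258) (nat_lit 5) (nat_lit 259) (nat_lit 5) (nat_lit 376) (nat_lit 361) (nat_lit 163)) (XT.lf (nat_lit 76) (nat_lit 14347587479) (nat_lit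 0) (nat_lit 6505901486) (nat_lit 1292) (nat_lit 10842954979) (nat_lit 243) (nat_lit 5) (nat_lit 242) (nat_lit 5) (nat_lit 259) (nat_lit 5) (nat_lit 377) (nat_lit 361) (nat_lit 162)))))) (XT.nd (nat_lit 546) (nat_lit 1596) (nat_lit 0) (XT.nd (nat_lit 234) (nat_lit 1900) (nat_lit 0) (XT.nd (nat_lit 78) (nat_lit 1216) (nat_lit 0) (XT.lf (nat_lit 0) (nat_lit 23572056693) (nat_lit 1216) (nat_lit 1179102587) (nat_lit 76) (nat_lit 7461079607) (nat_lit 243) (nat_lit 5) (nat_lit 259) (nat_lit 5) (nat_lit 244) (nat_lit 5) (nat_lit 378) (nat_lit 361) (nat_lit 161)) (XT.nd (nat_lit 78) (nat_lit 0) (nat_lit 0) (XT.lf (nat_lit 0) (nat_lit 15715707906) (nat_lit 1216) (nat_lit 10869326658) (nat_lit 1292) (nat_lit 6152088844) (nat_lit 227) (nat_lit 5) (nat_lit 243) (nat_lit 5) (nat_lit 244) (nat_lit 5) (nat_lit 379) (nat_lit 361) (nat_lit 160)) (XT.lf (nat_lit 0) (nat_lit 29730814574) (nat_lit 1292) (nat_lit 171293521)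 (nat_lit 76) (nat_lit 3374375275) (nat_lit 227) (nat_lit 5) (nat_lit 244) (nat_lit 5) (nat_lit 228) (nat_lit 5) (nat_lit 380) (nat_lit 361) (nat_lit 159)))) (XT.nd (nat_lit 156) (nat_lit 608) (nat_lit 0) (XT.nd (nat_lit 78) (nat_lit 684) (nat_lit 0) (XT.lf (nat_lit 0) (nat_lit 17414247921) (nat_lit 608) (nat_lit 15829235520) (nat_lit 684) (nat_lit 580366475) (nat_lit 219) (nat_lit 5) (nat_lit 227) (nat_lit 5) (nat_lit 228) (nat_lit 5) (nat_lit 381) (nat_lit 361) (nat_lit 158)) (XT.lf (nat_lit 0) (nat_lit 1139407806) (nat_lit 608) (nat_lit 1296439630) (nat_lit 684) (nat_lit 31950770968) (nat_lit 210) (nat_lit 5) (nat_lit 218) (nat_lit 5) (nat_lit 219) (nat_lit 5) (nat_lit 382) (nat_lit 361) (nat_lit 157))) (XT.nd (nat_lit 78) (nat_lit 608) (nat_lit 0) (XT.lf (nat_lit 0) (nat_lit 5827234226) (nat_lit 684) (nat_lit 15551206175) (nat_lit 76) (nat_lit 13578767766) (nat_lit 210) (nat_lit 5) (nat_lit 219) (nat_lit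 5) (nat_lit 211) (nat_lit 5) (nat_lit 383) (nat_lit 361) (nat_lit 156)) (XT.lf (nat_lit 0) (nat_lit 2713499001) (nat_lit 608) (nat_lit 6643432891) (nat_lit 684) (nat_lit 26186887763) (nat_lit 202) (nat_lit 5) (nat_lit 210) (nat_lit 5) (nat_lit 211) (nat_lit 5) (nat_lit 384) (nat_lit 361) (nat_lit 155))))) (XT.nd (nat_lit 234) (nat_lit 1064) (nat_lit 0) (XT.nd (nat_lit 78) (nat_lit 532) (nat_lit 0) (XT.lf (nat_lit 0) (nat_lit 13230838795) (nat_lit 684) (nat_lit 14384315323) (nat_lit 76) (nat_lit 8525726898) (nat_lit 202) (nat_lit 5) (nat_lit 211) (nat_lit 5) (nat_lit 203) (nat_lit 5) (nat_lit 385) (nat_lit 361) (nat_lit 154)) (XT.nd (nat_lit 78) (nat_lit 0) (nat_lit 0) (XT.lf (nat_lit 0) (nat_lit 4637514914) (nat_lit 532) (nat_lit 12691566654) (nat_lit 608) (nat_lit 19423530136) (nat_lit 195) (nat_lit 5) (nat_lit 202) (nat_lit 5) (nat_lit 203) (nat_lit 5) (nat_lit 386) (nat_lit 361) (nat_lit 153)) (XT.lf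 (nat_lit 0) (nat_lit 21720528764) (nat_lit 608) (nat_lit 12882986905) (nat_lit 76) (nat_lit 2774071946) (nat_lit 195) (nat_lit 5) (nat_lit 203) (nat_lit 5) (nat_lit 196) (nat_lit 5) (nat_lit 387) (nat_lit 361) (nat_lit 152)))) (XT.nd (nat_lit 156) (nat_lit 532) (nat_lit 0) (XT.nd (nat_lit 78) (nat_lit 0) (nat_lit 0) (XT.lf (nat_lit 0) (nat_lit 6933474483) (nat_lit 532) (nat_lit 19500423073) (nat_lit 608) (nat_lit 11581710888) (nat_lit 188) (nat_lit 5) (nat_lit 195) (nat_lit 5) (nat_lit 196) (nat_lit 5) (nat_lit 388) (nat_lit 361) (nat_lit 151)) (XT.lf (nat_lit 0) (nat_lit 27606290593) (nat_lit 532) (nat_lit 3810380649) (nat_lit 608) (nat_lit 7252259498) (nat_lit 188) (nat_lit 5) (nat_lit 195) (nat_lit 5) (nat_lit 196) (nat_lit 5) (nat_lit 389) (nat_lit 361) (nat_lit 150))) (XT.nd (nat_lit 78) (nat_lit 76) (nat_lit 0) (XT.lf (nat_lit 0) (nat_lit 9624300686) (nat_lit 456) (nat_lit 27133831841) (nat_lit 532)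 (nat_lit 2577444978) (nat_lit 182) (nat_lit 5) (nat_lit 188) (nat_lit 5) (nat_lit 189) (nat_lit 5) (nat_lit 390) (nat_lit 361) (nat_lit 149)) (XT.lf (nat_lit 0) (nat_lit 2342481455) (nat_lit 532) (nat_lit 8922833669) (nat_lit 76) (nat_lit 28751808203) (nat_lit 181) (nat_lit 5) (nat_lit 188) (nat_lit 5) (nat_lit 182) (nat_lit 5) (nat_lit 391) (nat_lit 361) (nat_lit 148))))))))
noncomputable def xc228 : XT := (XT.nd (nat_lit 2106) (nat_lit 1368) (nat_lit 0) (XT.nd (nat_lit 1014) (nat_lit 2736) (nat_lit 0) (XT.nd (nat_lit 468) (nat_lit 1672) (nat_lit 0) (XT.nd (nat_lit 234) (nat_lit 456) (nat_lit 0) (XT.nd (nat_lit 78) (nat_lit 456) (nat_lit 0) (XT.lf (nat_lit 0) (nat_lit 7528705309) (nat_lit 608) (nat_lit 28055453314) (nat_lit 76) (nat_lit 5129077062) (nat_lit 174) (nat_lit 5) (nat_lit 182) (nat_lit 5) (nat_lit 175) (nat_lit 5) (nat_lit 392) (nat_lit 361) (nat_lit 147)) (XT.nd (nat_lit 78) (nat_lit 456) (nat_lit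 0) (XT.lf (nat_lit 0) (nat_lit 13071129202) (nat_lit 608) (nat_lit 6473443811) (nat_lit 76) (nat_lit 21879640828) (nat_lit 174) (nat_lit 5) (nat_lit 182) (nat_lit 5) (nat_lit 175) (nat_lit 5) (nat_lit 393) (nat_lit 361) (nat_lit 146)) (XT.lf (nat_lit 0) (nat_lit 16067411630) (nat_lit 456) (nat_lit 2865000199) (nat_lit 532) (nat_lit 23219532734) (nat_lit 168) (nat_lit 5) (nat_lit 174) (nat_lit 5) (nat_lit 175) (nat_lit 5) (nat_lit 394) (nat_lit 361) (nat_lit 145)))) (XT.nd (nat_lit 78) (nat_lit 456) (nat_lit 0) (XT.lf (nat_lit 0) (nat_lit 25171320618) (nat_lit 532) (nat_lit 3622784710) (nat_lit 76) (nat_lit 14101349025) (nat_lit 168) (nat_lit 5) (nat_lit 175) (nat_lit 5) (nat_lit 169) (nat_lit 5) (nat_lit 395) (nat_lit 361) (nat_lit 144)) (XT.nd (nat_lit 78) (nat_lit 0) (nat_lit 0) (XT.lf (nat_lit 0) (nat_lit 19870070543) (nat_lit 456) (nat_lit 11944916345) (nat_lit 532) (nat_lit 11839755600) (nat_lit 162)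 (nat_lit 5) (nat_lit 168) (nat_lit 5) (nat_lit 169) (nat_lit 5) (nat_lit 396) (nat_lit 361) (nat_lit 143)) (XT.lf (nat_lit 0) (nat_lit 38745159143) (nat_lit 532) (nat_lit 348245612) (nat_lit 76) (nat_lit 5340789365) (nat_lit 162) (nat_lit 5) (nat_lit 169) (nat_lit 5) (nat_lit 163) (nat_lit 5) (nat_lit 397) (nat_lit 361) (nat_lit 142))))) (XT.nd (nat_lit 234) (nat_lit 760) (nat_lit 0) (XT.nd (nat_lit 78) (nat_lit 456) (nat_lit 0) (XT.lf (nat_lit 0) (nat_lit 985682902) (nat_lit 456) (nat_lit 21094212053) (nat_lit 76) (nat_lit 23146386123) (nat_lit 156) (nat_lit 5) (nat_lit 162) (nat_lit 5) (nat_lit 157) (nat_lit 5) (nat_lit 398) (nat_lit 361) (nat_lit 141)) (XT.nd (nat_lit 78) (nat_lit 0) (nat_lit 0) (XT.lf (nat_lit 0) (nat_lit 3318198579) (nat_lit 456) (nat_lit 4461860175) (nat_lit 532) (nat_lit 38259369936) (nat_lit 150) (nat_lit 5) (nat_lit 156) (nat_lit 5) (nat_lit 157) (nat_lit 5) (nat_lit 399) (nat_lit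 361) (nat_lit 140)) (XT.lf (nat_lit 0) (nat_lit 15123268560) (nat_lit 532) (nat_lit 18110965119) (nat_lit 76) (nat_lit 13632387625) (nat_lit 150) (nat_lit 5) (nat_lit 157) (nat_lit 5) (nat_lit 151) (nat_lit 5) (nat_lit 400) (nat_lit 361) (nat_lit 139)))) (XT.nd (nat_lit 156) (nat_lit 380) (nat_lit 0) (XT.nd (nat_lit 78) (nat_lit 0) (nat_lit 0) (XT.lf (nat_lit 0) (nat_lit 7334493154) (nat_lit 380) (nat_lit 15465348017) (nat_lit 456) (nat_lit 24915397162) (nat_lit 145) (nat_lit 5) (nat_lit 150) (nat_lit 5) (nat_lit 151) (nat_lit 5) (nat_lit 401) (nat_lit 361) (nat_lit 138)) (XT.lf (nat_lit 0) (nat_lit 30917083201) (nat_lit 456) (nat_lit 14700416899) (nat_lit 76) (nat_lit 2965503220) (nat_lit 145) (nat_lit 5) (nat_lit 151) (nat_lit 5) (nat_lit 146) (nat_lit 5) (nat_lit 402) (nat_lit 361) (nat_lit 137))) (XT.nd (nat_lit 78) (nat_lit 0) (nat_lit 0) (XT.lf (nat_lit 0) (nat_lit 11825942532) (nat_lit 380) (nat_lit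 27717155832) (nat_lit 456) (nat_lit 9925745815) (nat_lit 140) (nat_lit 5) (nat_lit 145) (nat_lit 5) (nat_lit 146) (nat_lit 5) (nat_lit 403) (nat_lit 361) (nat_lit 136)) (XT.lf (nat_lit 0) (nat_lit 39447433544) (nat_lit 380) (nat_lit 9127386976) (nat_lit 456) (nat_lit 1802032525) (nat_lit 140) (nat_lit 5) (nat_lit 145) (nat_lit 5) (nat_lit 146) (nat_lit 5) (nat_lit 404) (nat_lit 361) (nat_lit 135)))))) (XT.nd (nat_lit 546) (nat_lit 1292) (nat_lit 0) (XT.nd (nat_lit 234) (nat_lit 684) (nat_lit 0) (XT.nd (nat_lit 78) (nat_lit 380) (nat_lit 0) (XT.lf (nat_lit 0) (nat_lit 6696295364) (nat_lit 380) (nat_lit 34554768717) (nat_lit 76) (nat_lit 10051374797) (nat_lit 135) (nat_lit 5) (nat_lit 140) (nat_lit 5) (nat_lit 136) (nat_lit 5) (nat_lit 405) (nat_lit 361) (nat_lit 134)) (XT.nd (nat_lit 78) (nat_lit 380) (nat_lit 0) (XT.lf (nat_lit 0) (nat_lit 15613712739) (nat_lit 380) (nat_lit 6884666805) (nat_lit 76) (nat_lit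 29750867252) (nat_lit 135) (nat_lit 5) (nat_lit 140) (nat_lit 5) (nat_lit 136) (nat_lit 5) (nat_lit 406) (nat_lit 361) (nat_lit 133)) (XT.lf (nat_lit 0) (nat_lit 22043753731) (nat_lit 380) (nat_lit 2965369874) (nat_lit 456) (nat_lit 28209021734) (nat_lit 130) (nat_lit 5) (nat_lit 135) (nat_lit 5) (nat_lit 136) (nat_lit 5) (nat_lit 407) (nat_lit 361) (nat_lit 132)))) (XT.nd (nat_lit 156) (nat_lit 380) (nat_lit 0) (XT.nd (nat_lit 78) (nat_lit 304) (nat_lit 0) (XT.lf (nat_lit 0) (nat_lit 34920089056) (nat_lit 456) (nat_lit 2400405045) (nat_lit 76) (nat_lit 16888606470) (nat_lit 130) (nat_lit 5) (nat_lit 136) (nat_lit 5) (nat_lit 131) (nat_lit 5) (nat_lit 408) (nat_lit 361) (nat_lit 131)) (XT.lf (nat_lit 0) (nat_lit 27746985477) (nat_lit 304) (nat_lit 17676111226) (nat_lit 380) (nat_lit 9797846842) (nat_lit 126) (nat_lit 5) (nat_lit 130) (nat_lit 5) (nat_lit 131) (nat_lit 5) (nat_lit 409) (nat_lit 361) (nat_lit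 130))) (XT.nd (nat_lit 78) (nat_lit 0) (nat_lit 0) (XT.lf (nat_lit 0) (nat_lit 52001499) (nat_lit 380) (nat_lit 53651694481) (nat_lit 76) (nat_lit 2557247002) (nat_lit 121) (nat_lit 5) (nat_lit 126) (nat_lit 5) (nat_lit 122) (nat_lit 5) (nat_lit 410) (nat_lit 361) (nat_lit 129)) (XT.lf (nat_lit 0) (nat_lit 10454265506) (nat_lit 380) (nat_lit 23442369848) (nat_lit 76) (nat_lit 23418981825) (nat_lit 121) (nat_lit 5) (nat_lit 126) (nat_lit 5) (nat_lit 122) (nat_lit 5) (nat_lit 411) (nat_lit 361) (nat_lit 128))))) (XT.nd (nat_lit 234) (nat_lit 684) (nat_lit 0) (XT.nd (nat_lit 78) (nat_lit 304) (nat_lit 0) (XT.lf (nat_lit 0) (nat_lit 7824041140) (nat_lit 304) (nat_lit 13418461163) (nat_lit 380) (nat_lit 37157212584) (nat_lit 117) (nat_lit 5) (nat_lit 121) (nat_lit 5) (nat_lit 122) (nat_lit 5) (nat_lit 412) (nat_lit 361) (nat_lit 127)) (XT.nd (nat_lit 78) (nat_lit 304) (nat_lit 0) (XT.lf (nat_lit 0) (nat_lit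 32665929872) (nat_lit 380) (nat_lit 19078239129) (nat_lit 76) (nat_lit 7762820632) (nat_lit 117) (nat_lit 5) (nat_lit 122) (nat_lit 5) (nat_lit 118) (nat_lit 5) (nat_lit 413) (nat_lit 361) (nat_lit 126)) (XT.lf (nat_lit 0) (nat_lit 13492725214) (nat_lit 304) (nat_lit 31200639175) (nat_lit 380) (nat_lit 15946279516) (nat_lit 113) (nat_lit 5) (nat_lit 117) (nat_lit 5) (nat_lit 118) (nat_lit 5) (nat_lit 414) (nat_lit 361) (nat_lit 125)))) (XT.nd (nat_lit 156) (nat_lit 304) (nat_lit 0) (XT.nd (nat_lit 78) (nat_lit 380) (nat_lit 0) (XT.lf (nat_lit 0) (nat_lit 47430092688) (nat_lit 304) (nat_lit 9842948868) (nat_lit 380) (nat_lit 4527494055) (nat_lit 113) (nat_lit 5) (nat_lit 117) (nat_lit 5) (nat_lit 118) (nat_lit 5) (nat_lit 415) (nat_lit 361) (nat_lit 124)) (XT.lf (nat_lit 0) (nat_lit 7400283106) (nat_lit 380) (nat_lit 43405452420) (nat_lit 76) (nat_lit 12179205225) (nat_lit 108) (nat_lit 5) (nat_lit 113)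 (nat_lit 5) (nat_lit 109) (nat_lit 5) (nat_lit 416) (nat_lit 361) (nat_lit 123))) (XT.nd (nat_lit 78) (nat_lit 304) (nat_lit 0) (XT.lf (nat_lit 0) (nat_lit 19837703675) (nat_lit 380) (nat_lit 9503541307) (nat_lit 76) (nat_lit 34855004379) (nat_lit 108) (nat_lit 5) (nat_lit 113) (nat_lit 5) (nat_lit 109) (nat_lit 5) (nat_lit 417) (nat_lit 361) (nat_lit 122)) (XT.lf (nat_lit 0) (nat_lit 25919465780) (nat_lit 304) (nat_lit 6976772935) (nat_lit 380) (nat_lit 32540219108) (nat_lit 104) (nat_lit 5) (nat_lit 108) (nat_lit 5) (nat_lit 109) (nat_lit 5) (nat_lit 418) (nat_lit 361) (nat_lit 121))))))) (XT.nd (nat_lit 42744) (nat_lit 0) (nat_lit 11476) (XT.nd (nat_lit 468) (nat_lit 532) (nat_lit 0) (XT.nd (nat_lit 234) (nat_lit 228) (nat_lit 0) (XT.nd (nat_lit 78) (nat_lit 608) (nat_lit 0) (XT.lf (nat_lit 0) (nat_lit 46596662266) (nat_lit 380) (nat_lit 4268088228) (nat_lit 76) (nat_lit 15841618411) (nat_lit 104) (nat_lit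 5) (nat_lit 109) (nat_lit 5) (nat_lit 105) (nat_lit 5) (nat_lit 419) (nat_lit 361) (nat_lit 120)) (XT.nd (nat_lit 78) (nat_lit 380) (nat_lit 0) (XT.lf (nat_lit 0) (nat_lit 32603717342) (nat_lit 228) (nat_lit 28485748269) (nat_lit 304) (nat_lit 6913471028) (nat_lit 101) (nat_lit 5) (nat_lit 104) (nat_lit 5) (nat_lit 105) (nat_lit 5) (nat_lit 420) (nat_lit 361) (nat_lit 119)) (XT.lf (nat_lit 0) (nat_lit 1290914578) (nat_lit 304) (nat_lit 5312235979) (nat_lit 380) (nat_lit 62731680475) (nat_lit 96) (nat_lit 5) (nat_lit 100) (nat_lit 5) (nat_lit 101) (nat_lit 5) (nat_lit 421) (nat_lit 361) (nat_lit 118)))) (XT.nd (nat_lit 78) (nat_lit 228) (nat_lit 0) (XT.lf (nat_lit 0) (nat_lit 20924593762) (nat_lit 380) (nat_lit 31140643055) (nat_lit 76) (nat_lit 18623243931) (nat_lit 96) (nat_lit 5) (nat_lit 101) (nat_lit 5) (nat_lit 97) (nat_lit 5) (nat_lit 422) (nat_lit 361) (nat_lit 117)) (XT.nd (nat_lit 78) (nat_lit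 0) (nat_lit 0) (XT.lf (nat_lit 0) (nat_lit 6951102577) (nat_lit 228) (nat_lit 28842923109) (nat_lit 304) (nat_lit 36285164199) (nat_lit 93) (nat_lit 5) (nat_lit 96) (nat_lit 5) (nat_lit 97) (nat_lit 5) (nat_lit 423) (nat_lit 361) (nat_lit 116)) (XT.lf (nat_lit 0) (nat_lit 46822298987) (nat_lit 228) (nat_lit 4600647033) (nat_lit 304) (nat_lit 22079272398) (nat_lit 93) (nat_lit 5) (nat_lit 96) (nat_lit 5) (nat_lit 97) (nat_lit 5) (nat_lit 424) (nat_lit 361) (nat_lit 115))))) (XT.nd (nat_lit 41964) (nat_lit 0) (nat_lit 11324) (XT.nd (nat_lit 78) (nat_lit 304) (nat_lit 0) (XT.lf (nat_lit 0) (nat_lit 12977501543) (nat_lit 228) (nat_lit 54862749521) (nat_lit 304) (nat_lit 7118101506) (nat_lit 90) (nat_lit 5) (nat_lit 93) (nat_lit 5) (nat_lit 94) (nat_lit 5) (nat_lit 425) (nat_lit 361) (nat_lit 114)) (XT.nd (nat_lit 78) (nat_lit 228) (nat_lit 0) (XT.lf (nat_lit 0) (nat_lit 8446708142) (nat_lit 304) (nat_lit 22208092352)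 (nat_lit 76) (nat_lit 45791481052) (nat_lit 89) (nat_lit 5) (nat_lit 93) (nat_lit 5) (nat_lit 90) (nat_lit 5) (nat_lit 426) (nat_lit 361) (nat_lit 113)) (XT.lf (nat_lit 0) (nat_lit 19057668136) (nat_lit 228) (nat_lit 5459926209) (nat_lit 304) (nat_lit 53453674040) (nat_lit 86) (nat_lit 5) (nat_lit 89) (nat_lit 5) (nat_lit 90) (nat_lit 5) (nat_lit 427) (nat_lit 361) (nat_lit 112)))) (XT.nd (nat_lit 156) (nat_lit 0) (nat_lit 76) (XT.nd (nat_lit 78) (nat_lit 0) (nat_lit 0) (XT.lf (nat_lit 0) (nat_lit 635801922) (nat_lit 1292) (nat_lit 6063384614) (nat_lit 1292) (nat_lit 6063384614) (nat_lit 235) (nat_lit 3) (nat_lit 252) (nat_lit 3) (nat_lit 252) (nat_lit 5) (nat_lit 362) (nat_lit 362) (nat_lit 176)) (XT.lf (nat_lit 76) (nat_lit 75599978) (nat_lit 0) (nat_lit 1314948319) (nat_lit 1292) (nat_lit 24514423652) (nat_lit 236) (nat_lit 5) (nat_lit 235) (nat_lit 3) (nat_lit 252) (nat_lit 5) (nat_lit 363) (nat_lit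 362) (nat_lit 175))) (XT.nd (nat_lit 78) (nat_lit 0) (nat_lit 0) (XT.lf (nat_lit 0) (nat_lit 1739856886) (nat_lit 1216) (nat_lit 13510275744) (nat_lit 1292) (nat_lit 11039261984) (nat_lit 236) (nat_lit 5) (nat_lit 252) (nat_lit 5) (nat_lit 253) (nat_lit 5) (nat_lit 364) (nat_lit 362) (nat_lit 174)) (XT.lf (nat_lit 0) (nat_lit 2108905761) (nat_lit 1216) (nat_lit 836732598) (nat_lit 1292) (nat_lit 23739435718) (nat_lit 236) (nat_lit 5) (nat_lit 252) (nat_lit 5) (nat_lit 253) (nat_lit 5) (nat_lit 365) (nat_lit 362) (nat_lit 173)))))) (XT.nd (nat_lit 546) (nat_lit 0) (nat_lit 228) (XT.nd (nat_lit 234) (nat_lit 0) (nat_lit 76) (XT.nd (nat_lit 78) (nat_lit 0) (nat_lit 0) (XT.lf (nat_lit 0) (nat_lit 2699844426) (nat_lit 1216) (nat_lit 14725781731) (nat_lit 1292) (nat_lit 9660675106) (nat_lit 237) (nat_lit 5) (nat_lit 253) (nat_lit 5) (nat_lit 254) (nat_lit 5) (nat_lit 366) (nat_lit 362) (nat_lit 172)) (XT.nd (nat_lit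 78) (nat_lit 0) (nat_lit 76) (XT.lf (nat_lit 0) (nat_lit 3342661784) (nat_lit 1216) (nat_lit 1559867484) (nat_lit 1292) (nat_lit 22596013316) (nat_lit 237) (nat_lit 5) (nat_lit 253) (nat_lit 5) (nat_lit 254) (nat_lit 5) (nat_lit 367) (nat_lit 362) (nat_lit 171)) (XT.lf (nat_lit 0) (nat_lit 4196999127) (nat_lit 1216) (nat_lit 15760029427) (nat_lit 1292) (nat_lit 7960357308) (nat_lit 238) (nat_lit 5) (nat_lit 254) (nat_lit 5) (nat_lit 255) (nat_lit 5) (nat_lit 368) (nat_lit 362) (nat_lit 170)))) (XT.nd (nat_lit 156) (nat_lit 0) (nat_lit 76) (XT.nd (nat_lit 78) (nat_lit 0) (nat_lit 76) (XT.lf (nat_lit 0) (nat_lit 5138063067) (nat_lit 1216) (nat_lit 2081125716) (nat_lit 1292) (nat_lit 21127774491) (nat_lit 238) (nat_lit 5) (nat_lit 254) (nat_lit 5) (nat_lit 255) (nat_lit 5) (nat_lit 369) (nat_lit 362) (nat_lit 169)) (XT.lf (nat_lit 0) (nat_lit 6279710000) (nat_lit 1216) (nat_lit 16598923083) (nat_lit 1292)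 (nat_lit 5905626072) (nat_lit 239) (nat_lit 5) (nat_lit 255) (nat_lit 5) (nat_lit 256) (nat_lit 5) (nat_lit 370) (nat_lit 362) (nat_lit 168))) (XT.nd (nat_lit 78) (nat_lit 0) (nat_lit 76) (XT.lf (nat_lit 0) (nat_lit 7545138453) (nat_lit 1216) (nat_lit 2385479815) (nat_lit 1292) (nat_lit 19301371312) (nat_lit 239) (nat_lit 5) (nat_lit 255) (nat_lit 5) (nat_lit 256) (nat_lit 5) (nat_lit 371) (nat_lit 362) (nat_lit 167)) (XT.lf (nat_lit 0) (nat_lit 8999510843) (nat_lit 1216) (nat_lit 17227509120) (nat_lit 1292) (nat_lit 3461604104) (nat_lit 240) (nat_lit 5) (nat_lit 256) (nat_lit 5) (nat_lit 257) (nat_lit 5) (nat_lit 372) (nat_lit 362) (nat_lit 166))))) (XT.nd (nat_lit 234) (nat_lit 0) (nat_lit 76) (XT.nd (nat_lit 78) (nat_lit 0) (nat_lit 76) (XT.lf (nat_lit 0) (nat_lit 10617166209) (nat_lit 1216) (nat_lit 2457007867) (nat_lit 1292) (nat_lit 17081195496) (nat_lit 240) (nat_lit 5) (nat_lit 256) (nat_lit 5)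 (nat_lit 257) (nat_lit 5) (nat_lit 373) (nat_lit 362) (nat_lit 165)) (XT.nd (nat_lit 78) (nat_lit 0) (nat_lit 0) (XT.lf (nat_lit 0) (nat_lit 12411278481) (nat_lit 1216) (nat_lit 17629956854) (nat_lit 1292) (nat_lit 591045782) (nat_lit 241) (nat_lit 5) (nat_lit 257) (nat_lit 5) (nat_lit 258) (nat_lit 5) (nat_lit 374) (nat_lit 362) (nat_lit 164)) (XT.lf (nat_lit 0) (nat_lit 14410878151) (nat_lit 1216) (nat_lit 2278872978) (nat_lit 1292) (nat_lit 14429200406) (nat_lit 241) (nat_lit 5) (nat_lit 257) (nat_lit 5) (nat_lit 258) (nat_lit 5) (nat_lit 375) (nat_lit 362) (nat_lit 163)))) (XT.nd (nat_lit 156) (nat_lit 0) (nat_lit 76) (XT.nd (nat_lit 78) (nat_lit 0) (nat_lit 76) (XT.lf (nat_lit 76) (nat_lit 13799866388) (nat_lit 0) (nat_lit 2800495044) (nat_lit 1292) (nat_lit 15015965172) (nat_lit 242) (nat_lit 5) (nat_lit 241) (nat_lit 5) (nat_lit 258) (nat_lit 5) (nat_lit 376) (nat_lit 362) (nat_lit 162)) (XT.lf (nat_lit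 0) (nat_lit 18986674456) (nat_lit 1216) (nat_lit 1833303684) (nat_lit 1292) (nat_lit 11304711793) (nat_lit 242) (nat_lit 5) (nat_lit 258) (nat_lit 5) (nat_lit 259) (nat_lit 5) (nat_lit 377) (nat_lit 362) (nat_lit 161))) (XT.nd (nat_lit 78) (nat_lit 0) (nat_lit 76) (XT.lf (nat_lit 76) (nat_lit 14890014021) (nat_lit 0) (nat_lit 6722808793) (nat_lit 1292) (nat_lit 11030435295) (nat_lit 243) (nat_lit 5) (nat_lit 242) (nat_lit 5) (nat_lit 259) (nat_lit 5) (nat_lit 378) (nat_lit 362) (nat_lit 160)) (XT.lf (nat_lit 0) (nat_lit 24408849747) (nat_lit 1216) (nat_lit 1101575707) (nat_lit 76) (nat_lit 7664226339) (nat_lit 243) (nat_lit 5) (nat_lit 259) (nat_lit 5) (nat_lit 244) (nat_lit 5) (nat_lit 379) (nat_lit 362) (nat_lit 159))))))))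
noncomputable def xc229 : XT := (XT.nd (nat_lit 2106) (nat_lit 3496) (nat_lit 0) (XT.nd (nat_lit 1014) (nat_lit 3496) (nat_lit 0) (XT.nd (nat_lit 468) (nat_lit 1596) (nat_lit 0) (XT.nd (nat_lit 234) (nat_lit 1292) (nat_lit 0) (XT.nd (nat_lit 78) (nat_lit 608) (nat_lit 0) (XT.lf (nat_lit 0) (nat_lit 16298972239) (nat_lit 1216) (nat_lit 11210543670) (nat_lit 1292) (nat_lit 6205849877) (nat_lit 227) (nat_lit 5) (nat_lit 243) (nat_lit 5) (nat_lit 244) (nat_lit 5) (nat_lit 380) (nat_lit 362) (nat_lit 158)) (XT.nd (nat_lit 78) (nat_lit 608) (nat_lit 0) (XT.lf (nat_lit 0) (nat_lit 30745831048) (nat_lit 1292) (nat_lit 63995502) (nat_lit 76) (nat_lit 3461196990) (nat_lit 227) (nat_lit 5) (nat_lit 244) (nat_lit 5) (nat_lit 228) (nat_lit 5) (nat_lit 381) (nat_lit 362) (nat_lit 157)) (XT.lf (nat_lit 0) (nat_lit 18048009862) (nat_lit 608) (nat_lit 16313355130) (nat_lit 684) (nat_lit 473523333) (nat_lit 219) (nat_lit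 5) (nat_lit 227) (nat_lit 5) (nat_lit 228) (nat_lit 5) (nat_lit 382) (nat_lit 362) (nat_lit 156)))) (XT.nd (nat_lit 78) (nat_lit 608) (nat_lit 0) (XT.lf (nat_lit 0) (nat_lit 1286291370) (nat_lit 608) (nat_lit 1341995901) (nat_lit 684) (nat_lit 32786292407) (nat_lit 210) (nat_lit 5) (nat_lit 218) (nat_lit 5) (nat_lit 219) (nat_lit 5) (nat_lit 383) (nat_lit 362) (nat_lit 155)) (XT.nd (nat_lit 78) (nat_lit 608) (nat_lit 0) (XT.lf (nat_lit 0) (nat_lit 6117876848) (nat_lit 684) (nat_lit 15904730072) (nat_lit 76) (nat_lit 13979788020) (nat_lit 210) (nat_lit 5) (nat_lit 219) (nat_lit 5) (nat_lit 211) (nat_lit 5) (nat_lit 384) (nat_lit 362) (nat_lit 154)) (XT.lf (nat_lit 0) (nat_lit 2906808296) (nat_lit 608) (nat_lit 6844359280) (nat_lit 684) (nat_lit 26855507727) (nat_lit 202) (nat_lit 5) (nat_lit 210) (nat_lit 5) (nat_lit 211) (nat_lit 5) (nat_lit 385) (nat_lit 362) (nat_lit 153))))) (XT.nd (nat_lit 234) (nat_lit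 1064) (nat_lit 0) (XT.nd (nat_lit 78) (nat_lit 532) (nat_lit 0) (XT.lf (nat_lit 0) (nat_lit 13737969902) (nat_lit 684) (nat_lit 14703826460) (nat_lit 76) (nat_lit 8779953342) (nat_lit 202) (nat_lit 5) (nat_lit 211) (nat_lit 5) (nat_lit 203) (nat_lit 5) (nat_lit 386) (nat_lit 362) (nat_lit 152)) (XT.nd (nat_lit 78) (nat_lit 0) (nat_lit 0) (XT.lf (nat_lit 0) (nat_lit 4887560465) (nat_lit 532) (nat_lit 13069455844) (nat_lit 608) (nat_lit 19894881816) (nat_lit 195) (nat_lit 5) (nat_lit 202) (nat_lit 5) (nat_lit 203) (nat_lit 5) (nat_lit 387) (nat_lit 362) (nat_lit 151)) (XT.lf (nat_lit 0) (nat_lit 22477086146) (nat_lit 608) (nat_lit 13158617713) (nat_lit 76) (nat_lit 2860014536) (nat_lit 195) (nat_lit 5) (nat_lit 203) (nat_lit 5) (nat_lit 196) (nat_lit 5) (nat_lit 388) (nat_lit 362) (nat_lit 150)))) (XT.nd (nat_lit 156) (nat_lit 532) (nat_lit 0) (XT.nd (nat_lit 78) (nat_lit 0) (nat_lit 0) (XT.lf (nat_lit 0)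 (nat_lit 7251250666) (nat_lit 532) (nat_lit 20078603982) (nat_lit 608) (nat_lit 11823086657) (nat_lit 188) (nat_lit 5) (nat_lit 195) (nat_lit 5) (nat_lit 196) (nat_lit 5) (nat_lit 389) (nat_lit 362) (nat_lit 149)) (XT.lf (nat_lit 0) (nat_lit 28541054018) (nat_lit 532) (nat_lit 3918059269) (nat_lit 608) (nat_lit 7366841305) (nat_lit 188) (nat_lit 5) (nat_lit 195) (nat_lit 5) (nat_lit 196) (nat_lit 5) (nat_lit 390) (nat_lit 362) (nat_lit 148))) (XT.nd (nat_lit 78) (nat_lit 76) (nat_lit 0) (XT.lf (nat_lit 0) (nat_lit 10021510658) (nat_lit 456) (nat_lit 27937501510) (nat_lit 532) (nat_lit 2553644113) (nat_lit 182) (nat_lit 5) (nat_lit 188) (nat_lit 5) (nat_lit 189) (nat_lit 5) (nat_lit 391) (nat_lit 362) (nat_lit 147)) (XT.lf (nat_lit 0) (nat_lit 2509018925) (nat_lit 532) (nat_lit 9083239618) (nat_lit 76) (nat_lit 29622448667) (nat_lit 181) (nat_lit 5) (nat_lit 188) (nat_lit 5) (nat_lit 182) (nat_lit 5) (nat_lit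 392) (nat_lit 362) (nat_lit 146)))))) (XT.nd (nat_lit 546) (nat_lit 1596) (nat_lit 0) (XT.nd (nat_lit 234) (nat_lit 912) (nat_lit 0) (XT.nd (nat_lit 78) (nat_lit 456) (nat_lit 0) (XT.lf (nat_lit 0) (nat_lit 7849159757) (nat_lit 608) (nat_lit 28788127411) (nat_lit 76) (nat_lit 5294467084) (nat_lit 174) (nat_lit 5) (nat_lit 182) (nat_lit 5) (nat_lit 175) (nat_lit 5) (nat_lit 393) (nat_lit 362) (nat_lit 145)) (XT.nd (nat_lit 78) (nat_lit 456) (nat_lit 0) (XT.lf (nat_lit 0) (nat_lit 13555101222) (nat_lit 608) (nat_lit 6561832074) (nat_lit 76) (nat_lit 22547212296) (nat_lit 174) (nat_lit 5) (nat_lit 182) (nat_lit 5) (nat_lit 175) (nat_lit 5) (nat_lit 394) (nat_lit 362) (nat_lit 144)) (XT.lf (nat_lit 0) (nat_lit 16654211627) (nat_lit 456) (nat_lit 2936342990) (nat_lit 532) (nat_lit 23823204800) (nat_lit 168) (nat_lit 5) (nat_lit 174) (nat_lit 5) (nat_lit 175) (nat_lit 5) (nat_lit 395) (nat_lit 362) (nat_lit 143))))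 (XT.nd (nat_lit 156) (nat_lit 456) (nat_lit 0) (XT.nd (nat_lit 78) (nat_lit 456) (nat_lit 0) (XT.lf (nat_lit 0) (nat_lit 26014140671) (nat_lit 532) (nat_lit 3627215129) (nat_lit 76) (nat_lit 14538294520) (nat_lit 168) (nat_lit 5) (nat_lit 175) (nat_lit 5) (nat_lit 169) (nat_lit 5) (nat_lit 396) (nat_lit 362) (nat_lit 142)) (XT.lf (nat_lit 0) (nat_lit 20569403692) (nat_lit 456) (nat_lit 12286151758) (nat_lit 532) (nat_lit 12106209578) (nat_lit 162) (nat_lit 5) (nat_lit 168) (nat_lit 5) (nat_lit 169) (nat_lit 5) (nat_lit 397) (nat_lit 362) (nat_lit 141))) (XT.nd (nat_lit 78) (nat_lit 456) (nat_lit 0) (XT.lf (nat_lit 0) (nat_lit 39991284254) (nat_lit 532) (nat_lit 256084946) (nat_lit 76) (nat_lit 5517302522) (nat_lit 162) (nat_lit 5) (nat_lit 169) (nat_lit 5) (nat_lit 163) (nat_lit 5) (nat_lit 398) (nat_lit 362) (nat_lit 140)) (XT.lf (nat_lit 0) (nat_lit 1098408820) (nat_lit 456) (nat_lit 21623748288) (nat_lit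 76) (nat_lit 23858384642) (nat_lit 156) (nat_lit 5) (nat_lit 162) (nat_lit 5) (nat_lit 157) (nat_lit 5) (nat_lit 399) (nat_lit 362) (nat_lit 139))))) (XT.nd (nat_lit 234) (nat_lit 760) (nat_lit 0) (XT.nd (nat_lit 78) (nat_lit 380) (nat_lit 0) (XT.lf (nat_lit 0) (nat_lit 3520022015) (nat_lit 456) (nat_lit 4575155085) (nat_lit 532) (nat_lit 39322950821) (nat_lit 150) (nat_lit 5) (nat_lit 156) (nat_lit 5) (nat_lit 157) (nat_lit 5) (nat_lit 400) (nat_lit 362) (nat_lit 138)) (XT.nd (nat_lit 78) (nat_lit 380) (nat_lit 0) (XT.lf (nat_lit 0) (nat_lit 15656494992) (nat_lit 532) (nat_lit 18552776146) (nat_lit 76) (nat_lit 14060931757) (nat_lit 150) (nat_lit 5) (nat_lit 157) (nat_lit 5) (nat_lit 151) (nat_lit 5) (nat_lit 401) (nat_lit 362) (nat_lit 137)) (XT.lf (nat_lit 0) (nat_lit 7655050602) (nat_lit 380) (nat_lit 15906964104) (nat_lit 456) (nat_lit 25582305140) (nat_lit 145) (nat_lit 5) (nat_lit 150) (nat_lit 5)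 (nat_lit 151) (nat_lit 5) (nat_lit 402) (nat_lit 362) (nat_lit 136)))) (XT.nd (nat_lit 156) (nat_lit 380) (nat_lit 0) (XT.nd (nat_lit 78) (nat_lit 380) (nat_lit 0) (XT.lf (nat_lit 0) (nat_lit 31920705491) (nat_lit 456) (nat_lit 15041736685) (nat_lit 76) (nat_lit 3075738545) (nat_lit 145) (nat_lit 5) (nat_lit 151) (nat_lit 5) (nat_lit 146) (nat_lit 5) (nat_lit 403) (nat_lit 362) (nat_lit 135)) (XT.lf (nat_lit 0) (nat_lit 12279436150) (nat_lit 380) (nat_lit 28524797081) (nat_lit 456) (nat_lit 10146402466) (nat_lit 140) (nat_lit 5) (nat_lit 145) (nat_lit 5) (nat_lit 146) (nat_lit 5) (nat_lit 404) (nat_lit 362) (nat_lit 134))) (XT.nd (nat_lit 78) (nat_lit 380) (nat_lit 0) (XT.lf (nat_lit 0) (nat_lit 40726696688) (nat_lit 380) (nat_lit 9378030502) (nat_lit 456) (nat_lit 1781223867) (nat_lit 140) (nat_lit 5) (nat_lit 145) (nat_lit 5) (nat_lit 146) (nat_lit 5) (nat_lit 405) (nat_lit 362) (nat_lit 133)) (XT.lf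 (nat_lit 0) (nat_lit 6969613574) (nat_lit 380) (nat_lit 35493078317) (nat_lit 76) (nat_lit 10376621145) (nat_lit 135) (nat_lit 5) (nat_lit 140) (nat_lit 5) (nat_lit 136) (nat_lit 5) (nat_lit 406) (nat_lit 362) (nat_lit 132))))))) (XT.nd (nat_lit 1014) (nat_lit 1140) (nat_lit 0) (XT.nd (nat_lit 468) (nat_lit 1292) (nat_lit 0) (XT.nd (nat_lit 234) (nat_lit 684) (nat_lit 0) (XT.nd (nat_lit 78) (nat_lit 380) (nat_lit 0) (XT.lf (nat_lit 0) (nat_lit 16152443877) (nat_lit 380) (nat_lit 6995737430) (nat_lit 76) (nat_lit 30666407935) (nat_lit 135) (nat_lit 5) (nat_lit 140) (nat_lit 5) (nat_lit 136) (nat_lit 5) (nat_lit 407) (nat_lit 362) (nat_lit 131)) (XT.nd (nat_lit 78) (nat_lit 0) (nat_lit 0) (XT.lf (nat_lit 0) (nat_lit 22799599748) (nat_lit 380) (nat_lit 3028977886) (nat_lit 456) (nat_lit 28984012028) (nat_lit 130) (nat_lit 5) (nat_lit 135) (nat_lit 5) (nat_lit 136) (nat_lit 5) (nat_lit 408) (nat_lit 362) (nat_lit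 130)) (XT.lf (nat_lit 0) (nat_lit 36035093698) (nat_lit 456) (nat_lit 2378834931) (nat_lit 76) (nat_lit 17419398988) (nat_lit 130) (nat_lit 5) (nat_lit 136) (nat_lit 5) (nat_lit 131) (nat_lit 5) (nat_lit 409) (nat_lit 362) (nat_lit 129)))) (XT.nd (nat_lit 78) (nat_lit 380) (nat_lit 0) (XT.lf (nat_lit 0) (nat_lit 28672059833) (nat_lit 304) (nat_lit 18180059328) (nat_lit 380) (nat_lit 10023439590) (nat_lit 126) (nat_lit 5) (nat_lit 130) (nat_lit 5) (nat_lit 131) (nat_lit 5) (nat_lit 410) (nat_lit 362) (nat_lit 128)) (XT.nd (nat_lit 78) (nat_lit 0) (nat_lit 0) (XT.lf (nat_lit 0) (nat_lit 119774750) (nat_lit 380) (nat_lit 55166406654) (nat_lit 76) (nat_lit 2660581592) (nat_lit 121) (nat_lit 5) (nat_lit 126) (nat_lit 5) (nat_lit 122) (nat_lit 5) (nat_lit 411) (nat_lit 362) (nat_lit 127)) (XT.lf (nat_lit 0) (nat_lit 10832178136) (nat_lit 380) (nat_lit 24053564573) (nat_lit 76) (nat_lit 24147393202) (nat_lit 121)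 (nat_lit 5) (nat_lit 126) (nat_lit 5) (nat_lit 122) (nat_lit 5) (nat_lit 412) (nat_lit 362) (nat_lit 126))))) (XT.nd (nat_lit 234) (nat_lit 684) (nat_lit 0) (XT.nd (nat_lit 78) (nat_lit 304) (nat_lit 0) (XT.lf (nat_lit 0) (nat_lit 8149936035) (nat_lit 304) (nat_lit 13793130050) (nat_lit 380) (nat_lit 38206720961) (nat_lit 117) (nat_lit 5) (nat_lit 121) (nat_lit 5) (nat_lit 122) (nat_lit 5) (nat_lit 413) (nat_lit 362) (nat_lit 125)) (XT.nd (nat_lit 78) (nat_lit 304) (nat_lit 0) (XT.lf (nat_lit 0) (nat_lit 33707613361) (nat_lit 380) (nat_lit 19560465040) (nat_lit 76) (nat_lit 8022249728) (nat_lit 117) (nat_lit 5) (nat_lit 122) (nat_lit 5) (nat_lit 118) (nat_lit 5) (nat_lit 414) (nat_lit 362) (nat_lit 124)) (XT.lf (nat_lit 0) (nat_lit 13986744691) (nat_lit 304) (nat_lit 32108186780) (nat_lit 380) (nat_lit 16362059325) (nat_lit 113) (nat_lit 5) (nat_lit 117) (nat_lit 5) (nat_lit 118) (nat_lit 5) (nat_lit 415)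 (nat_lit 362) (nat_lit 123)))) (XT.nd (nat_lit 156) (nat_lit 304) (nat_lit 0) (XT.nd (nat_lit 78) (nat_lit 380) (nat_lit 0) (XT.lf (nat_lit 0) (nat_lit 48939634032) (nat_lit 304) (nat_lit 10110595032) (nat_lit 380) (nat_lit 4602533852) (nat_lit 113) (nat_lit 5) (nat_lit 117) (nat_lit 5) (nat_lit 118) (nat_lit 5) (nat_lit 416) (nat_lit 362) (nat_lit 122)) (XT.lf (nat_lit 0) (nat_lit 7681262593) (nat_lit 380) (nat_lit 44619127281) (nat_lit 76) (nat_lit 12572312180) (nat_lit 108) (nat_lit 5) (nat_lit 113) (nat_lit 5) (nat_lit 109) (nat_lit 5) (nat_lit 417) (nat_lit 362) (nat_lit 121))) (XT.nd (nat_lit 78) (nat_lit 304) (nat_lit 0) (XT.lf (nat_lit 0) (nat_lit 20490088176) (nat_lit 380) (nat_lit 9702736176) (nat_lit 76) (nat_lit 35927577615) (nat_lit 108) (nat_lit 5) (nat_lit 113) (nat_lit 5) (nat_lit 109) (nat_lit 5) (nat_lit 418) (nat_lit 362) (nat_lit 120)) (XT.lf (nat_lit 0) (nat_lit 26782118856) (nat_lit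 304) (nat_lit 7157410573) (nat_lit 380) (nat_lit 33458313252) (nat_lit 104) (nat_lit 5) (nat_lit 108) (nat_lit 5) (nat_lit 109) (nat_lit 5) (nat_lit 419) (nat_lit 362) (nat_lit 119)))))) (XT.nd (nat_lit 546) (nat_lit 76) (nat_lit 0) (XT.nd (nat_lit 234) (nat_lit 456) (nat_lit 0) (XT.nd (nat_lit 78) (nat_lit 608) (nat_lit 0) (XT.lf (nat_lit 0) (nat_lit 48049590391) (nat_lit 380) (nat_lit 4312147935) (nat_lit 76) (nat_lit 16344154518) (nat_lit 104) (nat_lit 5) (nat_lit 109) (nat_lit 5) (nat_lit 105) (nat_lit 5) (nat_lit 420) (nat_lit 362) (nat_lit 118)) (XT.nd (nat_lit 78) (nat_lit 380) (nat_lit 0) (XT.lf (nat_lit 0) (nat_lit 33664988440) (nat_lit 228) (nat_lit 29311386012) (nat_lit 304) (nat_lit 7065007733) (nat_lit 101) (nat_lit 5) (nat_lit 104) (nat_lit 5) (nat_lit 105) (nat_lit 5) (nat_lit 421) (nat_lit 362) (nat_lit 117)) (XT.lf (nat_lit 0) (nat_lit 1413080986) (nat_lit 304) (nat_lit 5442147951) (nat_lit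 380) (nat_lit 64558012611) (nat_lit 96) (nat_lit 5) (nat_lit 100) (nat_lit 5) (nat_lit 101) (nat_lit 5) (nat_lit 422) (nat_lit 362) (nat_lit 116)))) (XT.nd (nat_lit 156) (nat_lit 228) (nat_lit 0) (XT.nd (nat_lit 78) (nat_lit 228) (nat_lit 0) (XT.lf (nat_lit 0) (nat_lit 21605017986) (nat_lit 380) (nat_lit 31992541719) (nat_lit 76) (nat_lit 19209980406) (nat_lit 96) (nat_lit 5) (nat_lit 101) (nat_lit 5) (nat_lit 97) (nat_lit 5) (nat_lit 423) (nat_lit 362) (nat_lit 115)) (XT.lf (nat_lit 0) (nat_lit 7241149216) (nat_lit 228) (nat_lit 29678632654) (nat_lit 304) (nat_lit 37320211604) (nat_lit 93) (nat_lit 5) (nat_lit 96) (nat_lit 5) (nat_lit 97) (nat_lit 5) (nat_lit 424) (nat_lit 362) (nat_lit 114))) (XT.nd (nat_lit 78) (nat_lit 228) (nat_lit 0) (XT.lf (nat_lit 0) (nat_lit 48306107338) (nat_lit 228) (nat_lit 4709949795) (nat_lit 304) (nat_lit 22689701520) (nat_lit 93) (nat_lit 5) (nat_lit 96) (nat_lit 5) (nat_lit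 97) (nat_lit 5) (nat_lit 425) (nat_lit 362) (nat_lit 113)) (XT.lf (nat_lit 0) (nat_lit 13446428112) (nat_lit 228) (nat_lit 56479017774) (nat_lit 304) (nat_lit 7280144405) (nat_lit 90) (nat_lit 5) (nat_lit 93) (nat_lit 5) (nat_lit 94) (nat_lit 5) (nat_lit 426) (nat_lit 362) (nat_lit 112))))) (XT.nd (nat_lit 42042) (nat_lit 0) (nat_lit 11172) (XT.nd (nat_lit 41886) (nat_lit 0) (nat_lit 11096) (XT.lf (nat_lit 0) (nat_lit 8749133846) (nat_lit 304) (nat_lit 22796063930) (nat_lit 76) (nat_lit 47192989005) (nat_lit 89) (nat_lit 5) (nat_lit 93) (nat_lit 5) (nat_lit 90) (nat_lit 5) (nat_lit 427) (nat_lit 362) (nat_lit 111)) (XT.nd (nat_lit 78) (nat_lit 0) (nat_lit 0) (XT.lf (nat_lit 0) (nat_lit 753066632) (nat_lit 1292) (nat_lit 6194692525) (nat_lit 1292) (nat_lit 6194692525) (nat_lit 235) (nat_lit 3) (nat_lit 252) (nat_lit 3) (nat_lit 252) (nat_lit 5) (nat_lit 363) (nat_lit 363) (nat_lit 174)) (XT.lf (nat_lit 76)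 (nat_lit 178063200) (nat_lit 0) (nat_lit 1445826143) (nat_lit 1292) (nat_lit 25052384224) (nat_lit 236) (nat_lit 5) (nat_lit 235) (nat_lit 3) (nat_lit 252) (nat_lit 5) (nat_lit 364) (nat_lit 363) (nat_lit 173)))) (XT.nd (nat_lit 156) (nat_lit 0) (nat_lit 76) (XT.nd (nat_lit 78) (nat_lit 0) (nat_lit 0) (XT.lf (nat_lit 0) (nat_lit 1977242615) (nat_lit 1216) (nat_lit 13811776602) (nat_lit 1292) (nat_lit 11283405612) (nat_lit 236) (nat_lit 5) (nat_lit 252) (nat_lit 5) (nat_lit 253) (nat_lit 5) (nat_lit 365) (nat_lit 363) (nat_lit 172)) (XT.lf (nat_lit 0) (nat_lit 2351969071) (nat_lit 1216) (nat_lit 761050678) (nat_lit 1292) (nat_lit 24367119536) (nat_lit 236) (nat_lit 5) (nat_lit 252) (nat_lit 5) (nat_lit 253) (nat_lit 5) (nat_lit 366) (nat_lit 363) (nat_lit 171))) (XT.nd (nat_lit 78) (nat_lit 0) (nat_lit 0) (XT.lf (nat_lit 0) (nat_lit 2955630520) (nat_lit 1216) (nat_lit 15061675492) (nat_lit 1292) (nat_lit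 9876250149) (nat_lit 237) (nat_lit 5) (nat_lit 253) (nat_lit 5) (nat_lit 254) (nat_lit 5) (nat_lit 367) (nat_lit 363) (nat_lit 170)) (XT.lf (nat_lit 0) (nat_lit 3612641406) (nat_lit 1216) (nat_lit 1503867692) (nat_lit 1292) (nat_lit 23201810987) (nat_lit 237) (nat_lit 5) (nat_lit 253) (nat_lit 5) (nat_lit 254) (nat_lit 5) (nat_lit 368) (nat_lit 363) (nat_lit 169))))))))
noncomputable def xc230 : XT := (XT.nd (nat_lit 2106) (nat_lit 5548) (nat_lit 0) (XT.nd (nat_lit 1014) (nat_lit 4028) (nat_lit 0) (XT.nd (nat_lit 468) (nat_lit 836) (nat_lit 0) (XT.nd (nat_lit 234) (nat_lit 0) (nat_lit 76) (XT.nd (nat_lit 78) (nat_lit 0) (nat_lit 0) (XT.lf (nat_lit 0) (nat_lit 4488029903) (nat_lit 1216) (nat_lit 16125370301) (nat_lit 1292) (nat_lit 8136468383) (nat_lit 238) (nat_lit 5) (nat_lit 254) (nat_lit 5) (nat_lit 255) (nat_lit 5) (nat_lit 369) (nat_lit 363) (nat_lit 168)) (XT.nd (nat_lit 78) (nat_lit 0) (nat_lit 76)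 (XT.lf (nat_lit 0) (nat_lit 5452516418) (nat_lit 1216) (nat_lit 2039229381) (nat_lit 1292) (nat_lit 21700734285) (nat_lit 238) (nat_lit 5) (nat_lit 254) (nat_lit 5) (nat_lit 255) (nat_lit 5) (nat_lit 370) (nat_lit 363) (nat_lit 167)) (XT.lf (nat_lit 0) (nat_lit 6624223925) (nat_lit 1216) (nat_lit 16988291500) (nat_lit 1292) (nat_lit 6030507491) (nat_lit 239) (nat_lit 5) (nat_lit 255) (nat_lit 5) (nat_lit 256) (nat_lit 5) (nat_lit 371) (nat_lit 363) (nat_lit 166)))) (XT.nd (nat_lit 78) (nat_lit 0) (nat_lit 76) (XT.lf (nat_lit 0) (nat_lit 7923067970) (nat_lit 1216) (nat_lit 2351608019) (nat_lit 1292) (nat_lit 19829648022) (nat_lit 239) (nat_lit 5) (nat_lit 255) (nat_lit 5) (nat_lit 256) (nat_lit 5) (nat_lit 372) (nat_lit 363) (nat_lit 165)) (XT.nd (nat_lit 78) (nat_lit 0) (nat_lit 0) (XT.lf (nat_lit 0) (nat_lit 9417239632) (nat_lit 1216) (nat_lit 17634990582) (nat_lit 1292) (nat_lit 3522544548) (nat_lit 240)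 (nat_lit 5) (nat_lit 256) (nat_lit 5) (nat_lit 257) (nat_lit 5) (nat_lit 373) (nat_lit 363) (nat_lit 164)) (XT.lf (nat_lit 0) (nat_lit 11079121452) (nat_lit 1216) (nat_lit 2424559062) (nat_lit 1292) (nat_lit 17551973420) (nat_lit 240) (nat_lit 5) (nat_lit 256) (nat_lit 5) (nat_lit 257) (nat_lit 5) (nat_lit 374) (nat_lit 363) (nat_lit 163))))) (XT.nd (nat_lit 234) (nat_lit 1064) (nat_lit 0) (XT.nd (nat_lit 78) (nat_lit 0) (nat_lit 0) (XT.lf (nat_lit 0) (nat_lit 12923551754) (nat_lit 1216) (nat_lit 18049119805) (nat_lit 1292) (nat_lit 574308567) (nat_lit 241) (nat_lit 5) (nat_lit 257) (nat_lit 5) (nat_lit 258) (nat_lit 5) (nat_lit 375) (nat_lit 363) (nat_lit 162)) (XT.nd (nat_lit 78) (nat_lit 0) (nat_lit 0) (XT.lf (nat_lit 0) (nat_lit 14979063640) (nat_lit 1216) (nat_lit 2240699599) (nat_lit 1292) (nat_lit 14828611770) (nat_lit 241) (nat_lit 5) (nat_lit 257) (nat_lit 5) (nat_lit 258) (nat_lit 5) (nat_lit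 376) (nat_lit 363) (nat_lit 161)) (XT.lf (nat_lit 76) (nat_lit 14319357442) (nat_lit 0) (nat_lit 2911930998) (nat_lit 1292) (nat_lit 15329473198) (nat_lit 242) (nat_lit 5) (nat_lit 241) (nat_lit 5) (nat_lit 258) (nat_lit 5) (nat_lit 377) (nat_lit 363) (nat_lit 160)))) (XT.nd (nat_lit 156) (nat_lit 1140) (nat_lit 0) (XT.nd (nat_lit 78) (nat_lit 0) (nat_lit 0) (XT.lf (nat_lit 0) (nat_lit 19685063599) (nat_lit 1216) (nat_lit 1781687828) (nat_lit 1292) (nat_lit 11617750216) (nat_lit 242) (nat_lit 5) (nat_lit 258) (nat_lit 5) (nat_lit 259) (nat_lit 5) (nat_lit 378) (nat_lit 363) (nat_lit 159)) (XT.lf (nat_lit 76) (nat_lit 15442284163) (nat_lit 0) (nat_lit 6944975912) (nat_lit 1292) (nat_lit 11231450783) (nat_lit 243) (nat_lit 5) (nat_lit 242) (nat_lit 5) (nat_lit 259) (nat_lit 5) (nat_lit 379) (nat_lit 363) (nat_lit 158))) (XT.nd (nat_lit 78) (nat_lit 1216) (nat_lit 0) (XT.lf (nat_lit 0) (nat_lit 25263305223)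 (nat_lit 1216) (nat_lit 1028203940) (nat_lit 76) (nat_lit 7874654915) (nat_lit 243) (nat_lit 5) (nat_lit 259) (nat_lit 5) (nat_lit 244) (nat_lit 5) (nat_lit 380) (nat_lit 363) (nat_lit 157)) (XT.lf (nat_lit 0) (nat_lit 16893317120) (nat_lit 1216) (nat_lit 11561128253) (nat_lit 1292) (nat_lit 6268732289) (nat_lit 227) (nat_lit 5) (nat_lit 243) (nat_lit 5) (nat_lit 244) (nat_lit 5) (nat_lit 381) (nat_lit 363) (nat_lit 156)))))) (XT.nd (nat_lit 546) (nat_lit 1596) (nat_lit 0) (XT.nd (nat_lit 234) (nat_lit 1140) (nat_lit 0) (XT.nd (nat_lit 78) (nat_lit 684) (nat_lit 0) (XT.lf (nat_lit 0) (nat_lit 40864537) (nat_lit 608) (nat_lit 31743760308) (nat_lit 684) (nat_lit 3510978800) (nat_lit 219) (nat_lit 5) (nat_lit 227) (nat_lit 5) (nat_lit 228) (nat_lit 5) (nat_lit 382) (nat_lit 363) (nat_lit 155)) (XT.nd (nat_lit 78) (nat_lit 684) (nat_lit 0) (XT.lf (nat_lit 0) (nat_lit 18694393605) (nat_lit 608) (nat_lit 16811467769)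 (nat_lit 684) (nat_lit 370607593) (nat_lit 219) (nat_lit 5) (nat_lit 227) (nat_lit 5) (nat_lit 228) (nat_lit 5) (nat_lit 383) (nat_lit 363) (nat_lit 154)) (XT.lf (nat_lit 0) (nat_lit 1431111923) (nat_lit 608) (nat_lit 1388536373) (nat_lit 684) (nat_lit 33653940290) (nat_lit 210) (nat_lit 5) (nat_lit 218) (nat_lit 5) (nat_lit 219) (nat_lit 5) (nat_lit 384) (nat_lit 363) (nat_lit 153)))) (XT.nd (nat_lit 156) (nat_lit 532) (nat_lit 0) (XT.nd (nat_lit 78) (nat_lit 608) (nat_lit 0) (XT.lf (nat_lit 0) (nat_lit 6410589885) (nat_lit 684) (nat_lit 16275347054) (nat_lit 76) (nat_lit 14393202983) (nat_lit 210) (nat_lit 5) (nat_lit 219) (nat_lit 5) (nat_lit 211) (nat_lit 5) (nat_lit 385) (nat_lit 363) (nat_lit 152)) (XT.lf (nat_lit 0) (nat_lit 3099493103) (nat_lit 608) (nat_lit 7051220270) (nat_lit 684) (nat_lit 27550901802) (nat_lit 202) (nat_lit 5) (nat_lit 210) (nat_lit 5) (nat_lit 211) (nat_lit 5) (nat_lit 386)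 (nat_lit 363) (nat_lit 151))) (XT.nd (nat_lit 78) (nat_lit 532) (nat_lit 0) (XT.lf (nat_lit 0) (nat_lit 14253988671) (nat_lit 684) (nat_lit 15039353241) (nat_lit 76) (nat_lit 9041895290) (nat_lit 202) (nat_lit 5) (nat_lit 211) (nat_lit 5) (nat_lit 203) (nat_lit 5) (nat_lit 387) (nat_lit 363) (nat_lit 150)) (XT.lf (nat_lit 0) (nat_lit 5138740115) (nat_lit 532) (nat_lit 13458845759) (nat_lit 608) (nat_lit 20386766234) (nat_lit 195) (nat_lit 5) (nat_lit 202) (nat_lit 5) (nat_lit 203) (nat_lit 5) (nat_lit 388) (nat_lit 363) (nat_lit 149))))) (XT.nd (nat_lit 234) (nat_lit 1064) (nat_lit 0) (XT.nd (nat_lit 78) (nat_lit 532) (nat_lit 0) (XT.lf (nat_lit 0) (nat_lit 23250316177) (nat_lit 608) (nat_lit 13448881193) (nat_lit 76) (nat_lit 2948379239) (nat_lit 195) (nat_lit 5) (nat_lit 203) (nat_lit 5) (nat_lit 196) (nat_lit 5) (nat_lit 389) (nat_lit 363) (nat_lit 148)) (XT.nd (nat_lit 78) (nat_lit 0) (nat_lit 0) (XT.lf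 (nat_lit 0) (nat_lit 7572258776) (nat_lit 532) (nat_lit 20674522490) (nat_lit 608) (nat_lit 12077792869) (nat_lit 188) (nat_lit 5) (nat_lit 195) (nat_lit 5) (nat_lit 196) (nat_lit 5) (nat_lit 390) (nat_lit 363) (nat_lit 147)) (XT.lf (nat_lit 0) (nat_lit 29497742522) (nat_lit 532) (nat_lit 4029348998) (nat_lit 608) (nat_lit 7490772382) (nat_lit 188) (nat_lit 5) (nat_lit 195) (nat_lit 5) (nat_lit 196) (nat_lit 5) (nat_lit 391) (nat_lit 363) (nat_lit 146)))) (XT.nd (nat_lit 156) (nat_lit 532) (nat_lit 0) (XT.nd (nat_lit 78) (nat_lit 76) (nat_lit 0) (XT.lf (nat_lit 0) (nat_lit 10424409678) (nat_lit 456) (nat_lit 28765875132) (nat_lit 532) (nat_lit 2534934166) (nat_lit 182) (nat_lit 5) (nat_lit 188) (nat_lit 5) (nat_lit 189) (nat_lit 5) (nat_lit 392) (nat_lit 363) (nat_lit 145)) (XT.lf (nat_lit 0) (nat_lit 2675026627) (nat_lit 532) (nat_lit 9254616003) (nat_lit 76) (nat_lit 30518744163) (nat_lit 181) (nat_lit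 5) (nat_lit 188) (nat_lit 5) (nat_lit 182) (nat_lit 5) (nat_lit 393) (nat_lit 363) (nat_lit 144))) (XT.nd (nat_lit 78) (nat_lit 0) (nat_lit 0) (XT.lf (nat_lit 0) (nat_lit 8173797797) (nat_lit 608) (nat_lit 29549038174) (nat_lit 76) (nat_lit 5464157642) (nat_lit 174) (nat_lit 5) (nat_lit 182) (nat_lit 5) (nat_lit 175) (nat_lit 5) (nat_lit 394) (nat_lit 363) (nat_lit 143)) (XT.lf (nat_lit 0) (nat_lit 14048320519) (nat_lit 608) (nat_lit 6658946202) (nat_lit 76) (nat_lit 23234169001) (nat_lit 174) (nat_lit 5) (nat_lit 182) (nat_lit 5) (nat_lit 175) (nat_lit 5) (nat_lit 395) (nat_lit 363) (nat_lit 142))))))) (XT.nd (nat_lit 1014) (nat_lit 2584) (nat_lit 0) (XT.nd (nat_lit 468) (nat_lit 1140) (nat_lit 0) (XT.nd (nat_lit 234) (nat_lit 912) (nat_lit 0) (XT.nd (nat_lit 78) (nat_lit 456) (nat_lit 0) (XT.lf (nat_lit 0) (nat_lit 17252600959) (nat_lit 456) (nat_lit 3010664580) (nat_lit 532) (nat_lit 24450320667) (nat_lit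 168) (nat_lit 5) (nat_lit 174) (nat_lit 5) (nat_lit 175) (nat_lit 5) (nat_lit 396) (nat_lit 363) (nat_lit 141)) (XT.nd (nat_lit 78) (nat_lit 456) (nat_lit 0) (XT.lf (nat_lit 0) (nat_lit 26877212110) (nat_lit 532) (nat_lit 3637763016) (nat_lit 76) (nat_lit 14987550175) (nat_lit 168) (nat_lit 5) (nat_lit 175) (nat_lit 5) (nat_lit 169) (nat_lit 5) (nat_lit 397) (nat_lit 363) (nat_lit 140)) (XT.lf (nat_lit 0) (nat_lit 21283790953) (nat_lit 456) (nat_lit 12638606536) (nat_lit 532) (nat_lit 12385751140) (nat_lit 162) (nat_lit 5) (nat_lit 168) (nat_lit 5) (nat_lit 169) (nat_lit 5) (nat_lit 398) (nat_lit 363) (nat_lit 139)))) (XT.nd (nat_lit 78) (nat_lit 912) (nat_lit 0) (XT.lf (nat_lit 0) (nat_lit 41269984359) (nat_lit 532) (nat_lit 167049580) (nat_lit 76) (nat_lit 5698175990) (nat_lit 162) (nat_lit 5) (nat_lit 169) (nat_lit 5) (nat_lit 163) (nat_lit 5) (nat_lit 399) (nat_lit 363) (nat_lit 138)) (XT.nd (nat_lit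 78) (nat_lit 456) (nat_lit 0) (XT.lf (nat_lit 0) (nat_lit 1209743055) (nat_lit 456) (nat_lit 22175099886) (nat_lit 76) (nat_lit 24590732406) (nat_lit 156) (nat_lit 5) (nat_lit 162) (nat_lit 5) (nat_lit 157) (nat_lit 5) (nat_lit 400) (nat_lit 363) (nat_lit 137)) (XT.lf (nat_lit 0) (nat_lit 3722029008) (nat_lit 456) (nat_lit 4693029121) (nat_lit 532) (nat_lit 40423272570) (nat_lit 150) (nat_lit 5) (nat_lit 156) (nat_lit 5) (nat_lit 157) (nat_lit 5) (nat_lit 401) (nat_lit 363) (nat_lit 136))))) (XT.nd (nat_lit 234) (nat_lit 760) (nat_lit 0) (XT.nd (nat_lit 78) (nat_lit 380) (nat_lit 0) (XT.lf (nat_lit 0) (nat_lit 16201152963) (nat_lit 532) (nat_lit 19013669047) (nat_lit 76) (nat_lit 14501208672) (nat_lit 150) (nat_lit 5) (nat_lit 157) (nat_lit 5) (nat_lit 151) (nat_lit 5) (nat_lit 402) (nat_lit 363) (nat_lit 135)) (XT.nd (nat_lit 78) (nat_lit 0) (nat_lit 0) (XT.lf (nat_lit 0) (nat_lit 7979454362) (nat_lit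 380) (nat_lit 16363111332) (nat_lit 456) (nat_lit 26273844482) (nat_lit 145) (nat_lit 5) (nat_lit 150) (nat_lit 5) (nat_lit 151) (nat_lit 5) (nat_lit 403) (nat_lit 363) (nat_lit 134)) (XT.lf (nat_lit 0) (nat_lit 32950067436) (nat_lit 456) (nat_lit 15399018834) (nat_lit 76) (nat_lit 3188059931) (nat_lit 145) (nat_lit 5) (nat_lit 151) (nat_lit 5) (nat_lit 146) (nat_lit 5) (nat_lit 404) (nat_lit 363) (nat_lit 133)))) (XT.nd (nat_lit 156) (nat_lit 380) (nat_lit 0) (XT.nd (nat_lit 78) (nat_lit 0) (nat_lit 0) (XT.lf (nat_lit 0) (nat_lit 12740867912) (nat_lit 380) (nat_lit 29358038000) (nat_lit 456) (nat_lit 10378105575) (nat_lit 140) (nat_lit 5) (nat_lit 145) (nat_lit 5) (nat_lit 146) (nat_lit 5) (nat_lit 405) (nat_lit 363) (nat_lit 132)) (XT.lf (nat_lit 0) (nat_lit 42038836110) (nat_lit 380) (nat_lit 9637523851) (nat_lit 456) (nat_lit 1764088772) (nat_lit 140) (nat_lit 5) (nat_lit 145) (nat_lit 5) (nat_lit 146)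 (nat_lit 5) (nat_lit 406) (nat_lit 363) (nat_lit 131))) (XT.nd (nat_lit 78) (nat_lit 0) (nat_lit 0) (XT.lf (nat_lit 0) (nat_lit 7246973589) (nat_lit 380) (nat_lit 36465181949) (nat_lit 76) (nat_lit 10710264114) (nat_lit 135) (nat_lit 5) (nat_lit 140) (nat_lit 5) (nat_lit 136) (nat_lit 5) (nat_lit 407) (nat_lit 363) (nat_lit 130)) (XT.lf (nat_lit 0) (nat_lit 16703300308) (nat_lit 380) (nat_lit 7115620507) (nat_lit 76) (nat_lit 31608093701) (nat_lit 135) (nat_lit 5) (nat_lit 140) (nat_lit 5) (nat_lit 136) (nat_lit 5) (nat_lit 408) (nat_lit 363) (nat_lit 129)))))) (XT.nd (nat_lit 546) (nat_lit 1216) (nat_lit 0) (XT.nd (nat_lit 234) (nat_lit 684) (nat_lit 0) (XT.nd (nat_lit 78) (nat_lit 304) (nat_lit 0) (XT.lf (nat_lit 0) (nat_lit 23572694542) (nat_lit 380) (nat_lit 3095949509) (nat_lit 456) (nat_lit 29786343816) (nat_lit 130) (nat_lit 5) (nat_lit 135) (nat_lit 5) (nat_lit 136) (nat_lit 5) (nat_lit 409) (nat_lit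 363) (nat_lit 128)) (XT.nd (nat_lit 78) (nat_lit 304) (nat_lit 0) (XT.lf (nat_lit 0) (nat_lit 37179679331) (nat_lit 456) (nat_lit 2361989720) (nat_lit 76) (nat_lit 17964729873) (nat_lit 130) (nat_lit 5) (nat_lit 136) (nat_lit 5) (nat_lit 131) (nat_lit 5) (nat_lit 410) (nat_lit 363) (nat_lit 127)) (XT.lf (nat_lit 0) (nat_lit 29619567081) (nat_lit 304) (nat_lit 18700637625) (nat_lit 380) (nat_lit 10259723268) (nat_lit 126) (nat_lit 5) (nat_lit 130) (nat_lit 5) (nat_lit 131) (nat_lit 5) (nat_lit 411) (nat_lit 363) (nat_lit 126)))) (XT.nd (nat_lit 156) (nat_lit 304) (nat_lit 0) (XT.nd (nat_lit 78) (nat_lit 0) (nat_lit 0) (XT.lf (nat_lit 0) (nat_lit 185780289) (nat_lit 380) (nat_lit 56732004319) (nat_lit 76) (nat_lit 2765488284) (nat_lit 121) (nat_lit 5) (nat_lit 126) (nat_lit 5) (nat_lit 122) (nat_lit 5) (nat_lit 412) (nat_lit 363) (nat_lit 125)) (XT.lf (nat_lit 0) (nat_lit 11217737943) (nat_lit 380) (nat_lit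 24688380700) (nat_lit 76) (nat_lit 24896173488) (nat_lit 121) (nat_lit 5) (nat_lit 126) (nat_lit 5) (nat_lit 122) (nat_lit 5) (nat_lit 413) (nat_lit 363) (nat_lit 124))) (XT.nd (nat_lit 78) (nat_lit 0) (nat_lit 0) (XT.lf (nat_lit 0) (nat_lit 8480374037) (nat_lit 304) (nat_lit 14180639714) (nat_lit 380) (nat_lit 39291457796) (nat_lit 117) (nat_lit 5) (nat_lit 121) (nat_lit 5) (nat_lit 122) (nat_lit 5) (nat_lit 414) (nat_lit 363) (nat_lit 123)) (XT.lf (nat_lit 0) (nat_lit 34777005202) (nat_lit 380) (nat_lit 20062331058) (nat_lit 76) (nat_lit 8287937936) (nat_lit 117) (nat_lit 5) (nat_lit 122) (nat_lit 5) (nat_lit 118) (nat_lit 5) (nat_lit 415) (nat_lit 363) (nat_lit 122))))) (XT.nd (nat_lit 234) (nat_lit 532) (nat_lit 0) (XT.nd (nat_lit 78) (nat_lit 380) (nat_lit 0) (XT.lf (nat_lit 0) (nat_lit 14490462142) (nat_lit 304) (nat_lit 33044595198) (nat_lit 380) (nat_lit 16793906518) (nat_lit 113) (nat_lit 5) (nat_lit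 117) (nat_lit 5) (nat_lit 118) (nat_lit 5) (nat_lit 416) (nat_lit 363) (nat_lit 121)) (XT.nd (nat_lit 78) (nat_lit 380) (nat_lit 0) (XT.lf (nat_lit 0) (nat_lit 50489488209) (nat_lit 304) (nat_lit 10387857363) (nat_lit 380) (nat_lit 4683314152) (nat_lit 113) (nat_lit 5) (nat_lit 117) (nat_lit 5) (nat_lit 118) (nat_lit 5) (nat_lit 417) (nat_lit 363) (nat_lit 120)) (XT.lf (nat_lit 0) (nat_lit 7967286287) (nat_lit 380) (nat_lit 45874292002) (nat_lit 76) (nat_lit 12975620481) (nat_lit 108) (nat_lit 5) (nat_lit 113) (nat_lit 5) (nat_lit 109) (nat_lit 5) (nat_lit 418) (nat_lit 363) (nat_lit 119)))) (XT.nd (nat_lit 156) (nat_lit 228) (nat_lit 0) (XT.nd (nat_lit 78) (nat_lit 304) (nat_lit 0) (XT.lf (nat_lit 0) (nat_lit 21158757634) (nat_lit 380) (nat_lit 9912838555) (nat_lit 76) (nat_lit 37030782552) (nat_lit 108) (nat_lit 5) (nat_lit 113) (nat_lit 5) (nat_lit 109) (nat_lit 5) (nat_lit 419) (nat_lit 363) (nat_lit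 118)) (XT.lf (nat_lit 0) (nat_lit 27665768210) (nat_lit 304) (nat_lit 7345112861) (nat_lit 380) (nat_lit 34407286111) (nat_lit 104) (nat_lit 5) (nat_lit 108) (nat_lit 5) (nat_lit 109) (nat_lit 5) (nat_lit 420) (nat_lit 363) (nat_lit 117))) (XT.nd (nat_lit 78) (nat_lit 228) (nat_lit 0) (XT.lf (nat_lit 0) (nat_lit 49542947511) (nat_lit 380) (nat_lit 4362350398) (nat_lit 76) (nat_lit 16860200290) (nat_lit 104) (nat_lit 5) (nat_lit 109) (nat_lit 5) (nat_lit 105) (nat_lit 5) (nat_lit 421) (nat_lit 363) (nat_lit 116)) (XT.lf (nat_lit 0) (nat_lit 34753323970) (nat_lit 228) (nat_lit 30163453857) (nat_lit 304) (nat_lit 7224297558) (nat_lit 101) (nat_lit 5) (nat_lit 104) (nat_lit 5) (nat_lit 105) (nat_lit 5) (nat_lit 422) (nat_lit 363) (nat_lit 115))))))))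
noncomputable def xc231 : XT := (XT.nd (nat_lit 44070) (nat_lit 0) (nat_lit 2128) (XT.nd (nat_lit 42978) (nat_lit 0) (nat_lit 8892) (XT.nd (nat_lit 42432) (nat_lit 0) (nat_lit 10868) (XT.nd (nat_lit 234) (nat_lit 0) (nat_lit 0) (XT.nd (nat_lit 78) (nat_lit 228) (nat_lit 0) (XT.lf (nat_lit 0) (nat_lit 1534122648) (nat_lit 304) (nat_lit 5577648126) (nat_lit 380) (nat_lit 66442327426) (nat_lit 96) (nat_lit 5) (nat_lit 100) (nat_lit 5) (nat_lit 101) (nat_lit 5) (nat_lit 423) (nat_lit 363) (nat_lit 114)) (XT.nd (nat_lit 78) (nat_lit 228) (nat_lit 0) (XT.lf (nat_lit 0) (nat_lit 22302830522) (nat_lit 380) (nat_lit 32874722884) (nat_lit 76) (nat_lit 19812709413) (nat_lit 96) (nat_lit 5) (nat_lit 101) (nat_lit 5) (nat_lit 97) (nat_lit 5) (nat_lit 424) (nat_lit 363) (nat_lit 113)) (XT.lf (nat_lit 0) (nat_lit 7535218043) (nat_lit 228) (nat_lit 30541111392) (nat_lit 304) (nat_lit 38389381982) (nat_lit 93) (nat_lit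 5) (nat_lit 96) (nat_lit 5) (nat_lit 97) (nat_lit 5) (nat_lit 425) (nat_lit 363) (nat_lit 112)))) (XT.nd (nat_lit 42042) (nat_lit 0) (nat_lit 10792) (XT.lf (nat_lit 0) (nat_lit 49829887014) (nat_lit 228) (nat_lit 4824180094) (nat_lit 304) (nat_lit 23321425604) (nat_lit 93) (nat_lit 5) (nat_lit 96) (nat_lit 5) (nat_lit 97) (nat_lit 5) (nat_lit 426) (nat_lit 363) (nat_lit 111)) (XT.nd (nat_lit 78) (nat_lit 0) (nat_lit 0) (XT.lf (nat_lit 0) (nat_lit 868212737) (nat_lit 1292) (nat_lit 6332843955) (nat_lit 1292) (nat_lit 6332843955) (nat_lit 235) (nat_lit 3) (nat_lit 252) (nat_lit 3) (nat_lit 252) (nat_lit 5) (nat_lit 364) (nat_lit 364) (nat_lit 172)) (XT.lf (nat_lit 76) (nat_lit 277848702) (nat_lit 0) (nat_lit 1575381883) (nat_lit 1292) (nat_lit 25617819323) (nat_lit 236) (nat_lit 5) (nat_lit 235) (nat_lit 3) (nat_lit 252) (nat_lit 5) (nat_lit 365) (nat_lit 364) (nat_lit 171))))) (XT.nd (nat_lit 234) (nat_lit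 0) (nat_lit 76) (XT.nd (nat_lit 78) (nat_lit 0) (nat_lit 0) (XT.lf (nat_lit 0) (nat_lit 2211119250) (nat_lit 1216) (nat_lit 14128281456) (nat_lit 1292) (nat_lit 11539869670) (nat_lit 236) (nat_lit 5) (nat_lit 252) (nat_lit 5) (nat_lit 253) (nat_lit 5) (nat_lit 366) (nat_lit 364) (nat_lit 170)) (XT.nd (nat_lit 78) (nat_lit 0) (nat_lit 76) (XT.lf (nat_lit 0) (nat_lit 2592003247) (nat_lit 1216) (nat_lit 688883709) (nat_lit 1292) (nat_lit 25018484471) (nat_lit 236) (nat_lit 5) (nat_lit 252) (nat_lit 5) (nat_lit 253) (nat_lit 5) (nat_lit 367) (nat_lit 364) (nat_lit 169)) (XT.lf (nat_lit 0) (nat_lit 3209056492) (nat_lit 1216) (nat_lit 15413723993) (nat_lit 1292) (nat_lit 10102554422) (nat_lit 237) (nat_lit 5) (nat_lit 253) (nat_lit 5) (nat_lit 254) (nat_lit 5) (nat_lit 368) (nat_lit 364) (nat_lit 168)))) (XT.nd (nat_lit 156) (nat_lit 0) (nat_lit 76) (XT.nd (nat_lit 78) (nat_lit 0) (nat_lit 76) (XT.lf (nat_lit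 0) (nat_lit 3880978955) (nat_lit 1216) (nat_lit 1452088806) (nat_lit 1292) (nat_lit 23829920432) (nat_lit 237) (nat_lit 5) (nat_lit 253) (nat_lit 5) (nat_lit 254) (nat_lit 5) (nat_lit 369) (nat_lit 364) (nat_lit 167)) (XT.lf (nat_lit 0) (nat_lit 4778312993) (nat_lit 1216) (nat_lit 16507840044) (nat_lit 1292) (nat_lit 8321462006) (nat_lit 238) (nat_lit 5) (nat_lit 254) (nat_lit 5) (nat_lit 255) (nat_lit 5) (nat_lit 370) (nat_lit 364) (nat_lit 166))) (XT.nd (nat_lit 78) (nat_lit 0) (nat_lit 76) (XT.lf (nat_lit 0) (nat_lit 5767200836) (nat_lit 1216) (nat_lit 2002065131) (nat_lit 1292) (nat_lit 22294377257) (nat_lit 238) (nat_lit 5) (nat_lit 254) (nat_lit 5) (nat_lit 255) (nat_lit 5) (nat_lit 371) (nat_lit 364) (nat_lit 165)) (XT.lf (nat_lit 0) (nat_lit 6970111189) (nat_lit 1216) (nat_lit 17395575013) (nat_lit 1292) (nat_lit 6162136862) (nat_lit 239) (nat_lit 5) (nat_lit 255) (nat_lit 5) (nat_lit 256) (nat_lit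 5) (nat_lit 372) (nat_lit 364) (nat_lit 164)))))) (XT.nd (nat_lit 546) (nat_lit 2204) (nat_lit 0) (XT.nd (nat_lit 234) (nat_lit 0) (nat_lit 152) (XT.nd (nat_lit 78) (nat_lit 0) (nat_lit 76) (XT.lf (nat_lit 0) (nat_lit 8303634326) (nat_lit 1216) (nat_lit 2322772539) (nat_lit 1292) (nat_lit 20376687119) (nat_lit 239) (nat_lit 5) (nat_lit 255) (nat_lit 5) (nat_lit 256) (nat_lit 5) (nat_lit 373) (nat_lit 364) (nat_lit 163)) (XT.nd (nat_lit 78) (nat_lit 0) (nat_lit 0) (XT.lf (nat_lit 0) (nat_lit 9839019206) (nat_lit 1216) (nat_lit 18060973269) (nat_lit 1292) (nat_lit 3587776282) (nat_lit 240) (nat_lit 5) (nat_lit 256) (nat_lit 5) (nat_lit 257) (nat_lit 5) (nat_lit 374) (nat_lit 364) (nat_lit 162)) (XT.lf (nat_lit 0) (nat_lit 11546701295) (nat_lit 1216) (nat_lit 2397230756) (nat_lit 1292) (nat_lit 18039266018) (nat_lit 240) (nat_lit 5) (nat_lit 256) (nat_lit 5) (nat_lit 257) (nat_lit 5) (nat_lit 375) (nat_lit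 364) (nat_lit 161)))) (XT.nd (nat_lit 156) (nat_lit 0) (nat_lit 0) (XT.nd (nat_lit 78) (nat_lit 0) (nat_lit 0) (XT.lf (nat_lit 0) (nat_lit 13443160388) (nat_lit 1216) (nat_lit 18487156925) (nat_lit 1292) (nat_lit 559047875) (nat_lit 241) (nat_lit 5) (nat_lit 257) (nat_lit 5) (nat_lit 258) (nat_lit 5) (nat_lit 376) (nat_lit 364) (nat_lit 160)) (XT.lf (nat_lit 0) (nat_lit 15556495823) (nat_lit 1216) (nat_lit 2207496826) (nat_lit 1292) (nat_lit 15241926482) (nat_lit 241) (nat_lit 5) (nat_lit 257) (nat_lit 5) (nat_lit 258) (nat_lit 5) (nat_lit 377) (nat_lit 364) (nat_lit 159))) (XT.nd (nat_lit 78) (nat_lit 0) (nat_lit 76) (XT.lf (nat_lit 76) (nat_lit 14848377380) (nat_lit 0) (nat_lit 3025135947) (nat_lit 1292) (nat_lit 15660249156) (nat_lit 242) (nat_lit 5) (nat_lit 241) (nat_lit 5) (nat_lit 258) (nat_lit 5) (nat_lit 378) (nat_lit 364) (nat_lit 158)) (XT.lf (nat_lit 0) (nat_lit 20397011406) (nat_lit 1216) (nat_lit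 1734643632) (nat_lit 1292) (nat_lit 11941678208) (nat_lit 242) (nat_lit 5) (nat_lit 258) (nat_lit 5) (nat_lit 259) (nat_lit 5) (nat_lit 379) (nat_lit 364) (nat_lit 157))))) (XT.nd (nat_lit 234) (nat_lit 1292) (nat_lit 0) (XT.nd (nat_lit 78) (nat_lit 1140) (nat_lit 0) (XT.lf (nat_lit 76) (nat_lit 16005062275) (nat_lit 0) (nat_lit 7172632245) (nat_lit 1292) (nat_lit 11445953387) (nat_lit 243) (nat_lit 5) (nat_lit 242) (nat_lit 5) (nat_lit 259) (nat_lit 5) (nat_lit 380) (nat_lit 364) (nat_lit 156)) (XT.nd (nat_lit 78) (nat_lit 1216) (nat_lit 0) (XT.lf (nat_lit 0) (nat_lit 26136380158) (nat_lit 1216) (nat_lit 958739908) (nat_lit 76) (nat_lit 8092515625) (nat_lit 243) (nat_lit 5) (nat_lit 259) (nat_lit 5) (nat_lit 244) (nat_lit 5) (nat_lit 381) (nat_lit 364) (nat_lit 155)) (XT.lf (nat_lit 0) (nat_lit 17499443351) (nat_lit 1216) (nat_lit 11921411317) (nat_lit 1292) (nat_lit 6340578701) (nat_lit 227) (nat_lit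 5) (nat_lit 243) (nat_lit 5) (nat_lit 244) (nat_lit 5) (nat_lit 382) (nat_lit 364) (nat_lit 154)))) (XT.nd (nat_lit 156) (nat_lit 684) (nat_lit 0) (XT.nd (nat_lit 78) (nat_lit 0) (nat_lit 0) (XT.lf (nat_lit 0) (nat_lit 143977315) (nat_lit 608) (nat_lit 32704531355) (nat_lit 684) (nat_lit 3502598028) (nat_lit 219) (nat_lit 5) (nat_lit 227) (nat_lit 5) (nat_lit 228) (nat_lit 5) (nat_lit 383) (nat_lit 364) (nat_lit 153)) (XT.lf (nat_lit 0) (nat_lit 19354144677) (nat_lit 608) (nat_lit 17324023683) (nat_lit 684) (nat_lit 271327631) (nat_lit 219) (nat_lit 5) (nat_lit 227) (nat_lit 5) (nat_lit 228) (nat_lit 5) (nat_lit 384) (nat_lit 364) (nat_lit 152))) (XT.nd (nat_lit 78) (nat_lit 0) (nat_lit 0) (XT.lf (nat_lit 0) (nat_lit 1574178953) (nat_lit 608) (nat_lit 1436112527) (nat_lit 684) (nat_lit 34554273090) (nat_lit 210) (nat_lit 5) (nat_lit 218) (nat_lit 5) (nat_lit 219) (nat_lit 5) (nat_lit 385) (nat_lit 364)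 (nat_lit 151)) (XT.lf (nat_lit 0) (nat_lit 6705817123) (nat_lit 684) (nat_lit 16663197512) (nat_lit 76) (nat_lit 14819363596) (nat_lit 210) (nat_lit 5) (nat_lit 219) (nat_lit 5) (nat_lit 211) (nat_lit 5) (nat_lit 386) (nat_lit 364) (nat_lit 150))))))) (XT.nd (nat_lit 1014) (nat_lit 3116) (nat_lit 0) (XT.nd (nat_lit 468) (nat_lit 1976) (nat_lit 0) (XT.nd (nat_lit 234) (nat_lit 532) (nat_lit 0) (XT.nd (nat_lit 78) (nat_lit 532) (nat_lit 0) (XT.lf (nat_lit 0) (nat_lit 3291903439) (nat_lit 608) (nat_lit 7264199251) (nat_lit 684) (nat_lit 28273487716) (nat_lit 202) (nat_lit 5) (nat_lit 210) (nat_lit 5) (nat_lit 211) (nat_lit 5) (nat_lit 387) (nat_lit 364) (nat_lit 149)) (XT.nd (nat_lit 78) (nat_lit 532) (nat_lit 0) (XT.lf (nat_lit 0) (nat_lit 14779524884) (nat_lit 684) (nat_lit 15391007010) (nat_lit 76) (nat_lit 9311779113) (nat_lit 202) (nat_lit 5) (nat_lit 211) (nat_lit 5) (nat_lit 203) (nat_lit 5) (nat_lit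 388) (nat_lit 364) (nat_lit 148)) (XT.lf (nat_lit 0) (nat_lit 5391453394) (nat_lit 532) (nat_lit 13860072004) (nat_lit 608) (nat_lit 20899432435) (nat_lit 195) (nat_lit 5) (nat_lit 202) (nat_lit 5) (nat_lit 203) (nat_lit 5) (nat_lit 389) (nat_lit 364) (nat_lit 147)))) (XT.nd (nat_lit 78) (nat_lit 532) (nat_lit 0) (XT.lf (nat_lit 0) (nat_lit 24041064842) (nat_lit 608) (nat_lit 13753851022) (nat_lit 76) (nat_lit 3039247684) (nat_lit 195) (nat_lit 5) (nat_lit 203) (nat_lit 5) (nat_lit 196) (nat_lit 5) (nat_lit 390) (nat_lit 364) (nat_lit 146)) (XT.nd (nat_lit 78) (nat_lit 0) (nat_lit 0) (XT.lf (nat_lit 0) (nat_lit 7896957493) (nat_lit 532) (nat_lit 21288688214) (nat_lit 608) (nat_lit 12345879896) (nat_lit 188) (nat_lit 5) (nat_lit 195) (nat_lit 5) (nat_lit 196) (nat_lit 5) (nat_lit 391) (nat_lit 364) (nat_lit 145)) (XT.lf (nat_lit 0) (nat_lit 30477365045) (nat_lit 532) (nat_lit 4144336311) (nat_lit 608) (nat_lit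 7623993845) (nat_lit 188) (nat_lit 5) (nat_lit 195) (nat_lit 5) (nat_lit 196) (nat_lit 5) (nat_lit 392) (nat_lit 364) (nat_lit 144))))) (XT.nd (nat_lit 234) (nat_lit 912) (nat_lit 0) (XT.nd (nat_lit 78) (nat_lit 608) (nat_lit 0) (XT.lf (nat_lit 0) (nat_lit 10833525888) (nat_lit 456) (nat_lit 29619659733) (nat_lit 532) (nat_lit 2521134636) (nat_lit 182) (nat_lit 5) (nat_lit 188) (nat_lit 5) (nat_lit 189) (nat_lit 5) (nat_lit 393) (nat_lit 364) (nat_lit 143)) (XT.nd (nat_lit 78) (nat_lit 532) (nat_lit 0) (XT.lf (nat_lit 0) (nat_lit 2840805878) (nat_lit 532) (nat_lit 9436938427) (nat_lit 76) (nat_lit 31441490987) (nat_lit 181) (nat_lit 5) (nat_lit 188) (nat_lit 5) (nat_lit 182) (nat_lit 5) (nat_lit 394) (nat_lit 364) (nat_lit 142)) (XT.lf (nat_lit 0) (nat_lit 8503056644) (nat_lit 608) (nat_lit 30338673558) (nat_lit 76) (nat_lit 5638315708) (nat_lit 174) (nat_lit 5) (nat_lit 182) (nat_lit 5) (nat_lit 175) (nat_lit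 5) (nat_lit 395) (nat_lit 364) (nat_lit 141)))) (XT.nd (nat_lit 156) (nat_lit 456) (nat_lit 0) (XT.nd (nat_lit 78) (nat_lit 456) (nat_lit 0) (XT.lf (nat_lit 0) (nat_lit 14551367136) (nat_lit 608) (nat_lit 6764699286) (nat_lit 76) (nat_lit 23941129348) (nat_lit 174) (nat_lit 5) (nat_lit 182) (nat_lit 5) (nat_lit 175) (nat_lit 5) (nat_lit 396) (nat_lit 364) (nat_lit 140)) (XT.lf (nat_lit 0) (nat_lit 17863272571) (nat_lit 456) (nat_lit 3088006196) (nat_lit 532) (nat_lit 25101277477) (nat_lit 168) (nat_lit 5) (nat_lit 174) (nat_lit 5) (nat_lit 175) (nat_lit 5) (nat_lit 397) (nat_lit 364) (nat_lit 139))) (XT.nd (nat_lit 78) (nat_lit 456) (nat_lit 0) (XT.lf (nat_lit 0) (nat_lit 27761431404) (nat_lit 532) (nat_lit 3654268357) (nat_lit 76) (nat_lit 15449531114) (nat_lit 168) (nat_lit 5) (nat_lit 175) (nat_lit 5) (nat_lit 169) (nat_lit 5) (nat_lit 398) (nat_lit 364) (nat_lit 138)) (XT.lf (nat_lit 0) (nat_lit 22014024117)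 (nat_lit 456) (nat_lit 13002560872) (nat_lit 532) (nat_lit 12678480497) (nat_lit 162) (nat_lit 5) (nat_lit 168) (nat_lit 5) (nat_lit 169) (nat_lit 5) (nat_lit 399) (nat_lit 364) (nat_lit 137)))))) (XT.nd (nat_lit 546) (nat_lit 1444) (nat_lit 0) (XT.nd (nat_lit 234) (nat_lit 760) (nat_lit 0) (XT.nd (nat_lit 78) (nat_lit 912) (nat_lit 0) (XT.lf (nat_lit 0) (nat_lit 42582512749) (nat_lit 532) (nat_lit 80895158) (nat_lit 76) (nat_lit 5883594258) (nat_lit 162) (nat_lit 5) (nat_lit 169) (nat_lit 5) (nat_lit 163) (nat_lit 5) (nat_lit 400) (nat_lit 364) (nat_lit 136)) (XT.nd (nat_lit 78) (nat_lit 456) (nat_lit 0) (XT.lf (nat_lit 0) (nat_lit 1319917871) (nat_lit 456) (nat_lit 22748580942) (nat_lit 76) (nat_lit 25344097912) (nat_lit 156) (nat_lit 5) (nat_lit 162) (nat_lit 5) (nat_lit 157) (nat_lit 5) (nat_lit 401) (nat_lit 364) (nat_lit 135)) (XT.lf (nat_lit 0) (nat_lit 3924562094) (nat_lit 456) (nat_lit 4815551905)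 (nat_lit 532) (nat_lit 41561159948) (nat_lit 150) (nat_lit 5) (nat_lit 156) (nat_lit 5) (nat_lit 157) (nat_lit 5) (nat_lit 402) (nat_lit 364) (nat_lit 134)))) (XT.nd (nat_lit 156) (nat_lit 380) (nat_lit 0) (XT.nd (nat_lit 78) (nat_lit 380) (nat_lit 0) (XT.lf (nat_lit 0) (nat_lit 16757847483) (nat_lit 532) (nat_lit 19493881755) (nat_lit 76) (nat_lit 14953634848) (nat_lit 150) (nat_lit 5) (nat_lit 157) (nat_lit 5) (nat_lit 151) (nat_lit 5) (nat_lit 403) (nat_lit 364) (nat_lit 133)) (XT.lf (nat_lit 0) (nat_lit 8308151068) (nat_lit 380) (nat_lit 16834152003) (nat_lit 456) (nat_lit 26990488686) (nat_lit 145) (nat_lit 5) (nat_lit 150) (nat_lit 5) (nat_lit 151) (nat_lit 5) (nat_lit 404) (nat_lit 364) (nat_lit 132))) (XT.nd (nat_lit 78) (nat_lit 380) (nat_lit 0) (XT.lf (nat_lit 0) (nat_lit 34006192025) (nat_lit 456) (nat_lit 15772413707) (nat_lit 76) (nat_lit 3302600050) (nat_lit 145) (nat_lit 5) (nat_lit 151)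 (nat_lit 5) (nat_lit 146) (nat_lit 5) (nat_lit 405) (nat_lit 364) (nat_lit 131)) (XT.lf (nat_lit 0) (nat_lit 13210801252) (nat_lit 380) (nat_lit 30217567910) (nat_lit 456) (nat_lit 10620932421) (nat_lit 140) (nat_lit 5) (nat_lit 145) (nat_lit 5) (nat_lit 146) (nat_lit 5) (nat_lit 406) (nat_lit 364) (nat_lit 130))))) (XT.nd (nat_lit 234) (nat_lit 1064) (nat_lit 0) (XT.nd (nat_lit 78) (nat_lit 380) (nat_lit 0) (XT.lf (nat_lit 0) (nat_lit 43385153915) (nat_lit 380) (nat_lit 9906056139) (nat_lit 456) (nat_lit 1750490735) (nat_lit 140) (nat_lit 5) (nat_lit 145) (nat_lit 5) (nat_lit 146) (nat_lit 5) (nat_lit 407) (nat_lit 364) (nat_lit 129)) (XT.nd (nat_lit 78) (nat_lit 0) (nat_lit 0) (XT.lf (nat_lit 0) (nat_lit 7528735335) (nat_lit 380) (nat_lit 37471769401) (nat_lit 76) (nat_lit 11052633716) (nat_lit 135) (nat_lit 5) (nat_lit 140) (nat_lit 5) (nat_lit 136) (nat_lit 5) (nat_lit 408) (nat_lit 364) (nat_lit 128))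 (XT.lf (nat_lit 0) (nat_lit 17266877510) (nat_lit 380) (nat_lit 7244265815) (nat_lit 76) (nat_lit 32576784744) (nat_lit 135) (nat_lit 5) (nat_lit 140) (nat_lit 5) (nat_lit 136) (nat_lit 5) (nat_lit 409) (nat_lit 364) (nat_lit 127)))) (XT.nd (nat_lit 156) (nat_lit 684) (nat_lit 0) (XT.nd (nat_lit 78) (nat_lit 0) (nat_lit 0) (XT.lf (nat_lit 0) (nat_lit 24363867084) (nat_lit 380) (nat_lit 3166302107) (nat_lit 456) (nat_lit 30616602456) (nat_lit 130) (nat_lit 5) (nat_lit 135) (nat_lit 5) (nat_lit 136) (nat_lit 5) (nat_lit 410) (nat_lit 364) (nat_lit 126)) (XT.lf (nat_lit 0) (nat_lit 38354955490) (nat_lit 456) (nat_lit 2349702781) (nat_lit 76) (nat_lit 18525114804) (nat_lit 130) (nat_lit 5) (nat_lit 136) (nat_lit 5) (nat_lit 131) (nat_lit 5) (nat_lit 411) (nat_lit 364) (nat_lit 125))) (XT.nd (nat_lit 78) (nat_lit 380) (nat_lit 0) (XT.lf (nat_lit 0) (nat_lit 30590485561) (nat_lit 304) (nat_lit 19238258239) (nat_lit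 380) (nat_lit 10506793400) (nat_lit 126) (nat_lit 5) (nat_lit 130) (nat_lit 5) (nat_lit 131) (nat_lit 5) (nat_lit 412) (nat_lit 364) (nat_lit 124)) (XT.lf (nat_lit 0) (nat_lit 250183273) (nat_lit 380) (nat_lit 58349701525) (nat_lit 76) (nat_lit 2872101952) (nat_lit 121) (nat_lit 5) (nat_lit 126) (nat_lit 5) (nat_lit 122) (nat_lit 5) (nat_lit 413) (nat_lit 364) (nat_lit 123))))))))
noncomputable def xc232 : XT := (XT.nd (nat_lit 44070) (nat_lit 0) (nat_lit 4332) (XT.nd (nat_lit 43056) (nat_lit 0) (nat_lit 10792) (XT.nd (nat_lit 468) (nat_lit 1140) (nat_lit 0) (XT.nd (nat_lit 234) (nat_lit 684) (nat_lit 0) (XT.nd (nat_lit 78) (nat_lit 304) (nat_lit 0) (XT.lf (nat_lit 0) (nat_lit 11611386174) (nat_lit 380) (nat_lit 25347223458) (nat_lit 76) (nat_lit 25666018905) (nat_lit 121) (nat_lit 5) (nat_lit 126) (nat_lit 5) (nat_lit 122) (nat_lit 5) (nat_lit 414) (nat_lit 364) (nat_lit 122)) (XT.nd (nat_lit 78) (nat_lit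 0) (nat_lit 0) (XT.lf (nat_lit 0) (nat_lit 8815791875) (nat_lit 304) (nat_lit 14581283490) (nat_lit 380) (nat_lit 40412265067) (nat_lit 117) (nat_lit 5) (nat_lit 121) (nat_lit 5) (nat_lit 122) (nat_lit 5) (nat_lit 415) (nat_lit 364) (nat_lit 121)) (XT.lf (nat_lit 0) (nat_lit 35875139978) (nat_lit 380) (nat_lit 20584129415) (nat_lit 76) (nat_lit 8560160499) (nat_lit 117) (nat_lit 5) (nat_lit 122) (nat_lit 5) (nat_lit 118) (nat_lit 5) (nat_lit 416) (nat_lit 364) (nat_lit 120)))) (XT.nd (nat_lit 78) (nat_lit 380) (nat_lit 0) (XT.lf (nat_lit 0) (nat_lit 15004462566) (nat_lit 304) (nat_lit 34010636432) (nat_lit 380) (nat_lit 17242096805) (nat_lit 113) (nat_lit 5) (nat_lit 117) (nat_lit 5) (nat_lit 118) (nat_lit 5) (nat_lit 417) (nat_lit 364) (nat_lit 119)) (XT.nd (nat_lit 78) (nat_lit 380) (nat_lit 0) (XT.lf (nat_lit 0) (nat_lit 52081150097) (nat_lit 304) (nat_lit 10674933257) (nat_lit 380) (nat_lit 4769806869)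 (nat_lit 113) (nat_lit 5) (nat_lit 117) (nat_lit 5) (nat_lit 118) (nat_lit 5) (nat_lit 418) (nat_lit 364) (nat_lit 118)) (XT.lf (nat_lit 0) (nat_lit 8258699840) (nat_lit 380) (nat_lit 47171899688) (nat_lit 76) (nat_lit 13389527550) (nat_lit 108) (nat_lit 5) (nat_lit 113) (nat_lit 5) (nat_lit 109) (nat_lit 5) (nat_lit 419) (nat_lit 364) (nat_lit 117))))) (XT.nd (nat_lit 234) (nat_lit 836) (nat_lit 0) (XT.nd (nat_lit 78) (nat_lit 304) (nat_lit 0) (XT.lf (nat_lit 0) (nat_lit 21844389260) (nat_lit 380) (nat_lit 10133892571) (nat_lit 76) (nat_lit 38165626858) (nat_lit 108) (nat_lit 5) (nat_lit 113) (nat_lit 5) (nat_lit 109) (nat_lit 5) (nat_lit 420) (nat_lit 364) (nat_lit 116)) (XT.nd (nat_lit 78) (nat_lit 0) (nat_lit 0) (XT.lf (nat_lit 0) (nat_lit 28571324051) (nat_lit 304) (nat_lit 7539997278) (nat_lit 380) (nat_lit 35387872553) (nat_lit 104) (nat_lit 5) (nat_lit 108) (nat_lit 5) (nat_lit 109) (nat_lit 5)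 (nat_lit 421) (nat_lit 364) (nat_lit 115)) (XT.lf (nat_lit 0) (nat_lit 51078127830) (nat_lit 380) (nat_lit 4418603156) (nat_lit 76) (nat_lit 17390250938) (nat_lit 104) (nat_lit 5) (nat_lit 109) (nat_lit 5) (nat_lit 105) (nat_lit 5) (nat_lit 422) (nat_lit 364) (nat_lit 114)))) (XT.nd (nat_lit 156) (nat_lit 228) (nat_lit 0) (XT.nd (nat_lit 78) (nat_lit 380) (nat_lit 0) (XT.lf (nat_lit 0) (nat_lit 35869809897) (nat_lit 228) (nat_lit 31042649362) (nat_lit 304) (nat_lit 7391389001) (nat_lit 101) (nat_lit 5) (nat_lit 104) (nat_lit 5) (nat_lit 105) (nat_lit 5) (nat_lit 423) (nat_lit 364) (nat_lit 113)) (XT.lf (nat_lit 0) (nat_lit 1654280772) (nat_lit 304) (nat_lit 5718807089) (nat_lit 380) (nat_lit 68386181129) (nat_lit 96) (nat_lit 5) (nat_lit 100) (nat_lit 5) (nat_lit 101) (nat_lit 5) (nat_lit 424) (nat_lit 364) (nat_lit 112))) (XT.nd (nat_lit 78) (nat_lit 228) (nat_lit 0) (XT.lf (nat_lit 0) (nat_lit 23018726632)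 (nat_lit 380) (nat_lit 33787823760) (nat_lit 76) (nat_lit 20432003124) (nat_lit 96) (nat_lit 5) (nat_lit 101) (nat_lit 5) (nat_lit 97) (nat_lit 5) (nat_lit 425) (nat_lit 364) (nat_lit 111)) (XT.lf (nat_lit 0) (nat_lit 7833698329) (nat_lit 228) (nat_lit 31431064933) (nat_lit 304) (nat_lit 39493522702) (nat_lit 93) (nat_lit 5) (nat_lit 96) (nat_lit 5) (nat_lit 97) (nat_lit 5) (nat_lit 426) (nat_lit 364) (nat_lit 110)))))) (XT.nd (nat_lit 468) (nat_lit 0) (nat_lit 228) (XT.nd (nat_lit 234) (nat_lit 0) (nat_lit 76) (XT.nd (nat_lit 78) (nat_lit 0) (nat_lit 0) (XT.lf (nat_lit 0) (nat_lit 981500241) (nat_lit 1292) (nat_lit 6477877492) (nat_lit 1292) (nat_lit 6477877492) (nat_lit 235) (nat_lit 3) (nat_lit 252) (nat_lit 3) (nat_lit 252) (nat_lit 5) (nat_lit 365) (nat_lit 365) (nat_lit 170)) (XT.nd (nat_lit 78) (nat_lit 0) (nat_lit 76) (XT.lf (nat_lit 76) (nat_lit 375206320) (nat_lit 0) (nat_lit 1703877155) (nat_lit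 1292) (nat_lit 26210902466) (nat_lit 236) (nat_lit 5) (nat_lit 235) (nat_lit 3) (nat_lit 252) (nat_lit 5) (nat_lit 366) (nat_lit 365) (nat_lit 169)) (XT.lf (nat_lit 0) (nat_lit 2441991763) (nat_lit 1216) (nat_lit 14459898357) (nat_lit 1292) (nat_lit 11808736972) (nat_lit 236) (nat_lit 5) (nat_lit 252) (nat_lit 5) (nat_lit 253) (nat_lit 5) (nat_lit 367) (nat_lit 365) (nat_lit 168)))) (XT.nd (nat_lit 78) (nat_lit 0) (nat_lit 76) (XT.lf (nat_lit 0) (nat_lit 2829509884) (nat_lit 1216) (nat_lit 620005033) (nat_lit 1292) (nat_lit 25693962512) (nat_lit 236) (nat_lit 5) (nat_lit 252) (nat_lit 5) (nat_lit 253) (nat_lit 5) (nat_lit 368) (nat_lit 365) (nat_lit 167)) (XT.nd (nat_lit 78) (nat_lit 0) (nat_lit 0) (XT.lf (nat_lit 0) (nat_lit 3460627514) (nat_lit 1216) (nat_lit 15782062978) (nat_lit 1292) (nat_lit 10339665148) (nat_lit 237) (nat_lit 5) (nat_lit 253) (nat_lit 5) (nat_lit 254) (nat_lit 5) (nat_lit 369) (nat_lit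 365) (nat_lit 166)) (XT.lf (nat_lit 0) (nat_lit 4148184369) (nat_lit 1216) (nat_lit 1404318719) (nat_lit 1292) (nat_lit 24480773475) (nat_lit 237) (nat_lit 5) (nat_lit 253) (nat_lit 5) (nat_lit 254) (nat_lit 5) (nat_lit 370) (nat_lit 365) (nat_lit 165))))) (XT.nd (nat_lit 234) (nat_lit 0) (nat_lit 76) (XT.nd (nat_lit 78) (nat_lit 0) (nat_lit 0) (XT.lf (nat_lit 0) (nat_lit 5068370078) (nat_lit 1216) (nat_lit 16907598419) (nat_lit 1292) (nat_lit 8515398045) (nat_lit 238) (nat_lit 5) (nat_lit 254) (nat_lit 5) (nat_lit 255) (nat_lit 5) (nat_lit 371) (nat_lit 365) (nat_lit 164)) (XT.nd (nat_lit 78) (nat_lit 0) (nat_lit 76) (XT.lf (nat_lit 0) (nat_lit 6082651515) (nat_lit 1216) (nat_lit 1969431137) (nat_lit 1292) (nat_lit 22909123311) (nat_lit 238) (nat_lit 5) (nat_lit 254) (nat_lit 5) (nat_lit 255) (nat_lit 5) (nat_lit 372) (nat_lit 365) (nat_lit 163)) (XT.lf (nat_lit 0) (nat_lit 7317927455) (nat_lit 1216) (nat_lit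 17820953214) (nat_lit 1292) (nat_lit 6300544324) (nat_lit 239) (nat_lit 5) (nat_lit 255) (nat_lit 5) (nat_lit 256) (nat_lit 5) (nat_lit 373) (nat_lit 365) (nat_lit 162)))) (XT.nd (nat_lit 156) (nat_lit 0) (nat_lit 76) (XT.nd (nat_lit 78) (nat_lit 0) (nat_lit 76) (XT.lf (nat_lit 0) (nat_lit 8687416104) (nat_lit 1216) (nat_lit 2298777026) (nat_lit 1292) (nat_lit 20942884195) (nat_lit 239) (nat_lit 5) (nat_lit 255) (nat_lit 5) (nat_lit 256) (nat_lit 5) (nat_lit 374) (nat_lit 365) (nat_lit 161)) (XT.lf (nat_lit 0) (nat_lit 10265457937) (nat_lit 1216) (nat_lit 18505651906) (nat_lit 1292) (nat_lit 3657286653) (nat_lit 240) (nat_lit 5) (nat_lit 256) (nat_lit 5) (nat_lit 257) (nat_lit 5) (nat_lit 375) (nat_lit 365) (nat_lit 160))) (XT.nd (nat_lit 78) (nat_lit 0) (nat_lit 76) (XT.lf (nat_lit 0) (nat_lit 12020547144) (nat_lit 1216) (nat_lit 2374826746) (nat_lit 1292) (nat_lit 18543431457) (nat_lit 240) (nat_lit 5)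 (nat_lit 256) (nat_lit 5) (nat_lit 257) (nat_lit 5) (nat_lit 376) (nat_lit 365) (nat_lit 159)) (XT.lf (nat_lit 0) (nat_lit 13970785563) (nat_lit 1216) (nat_lit 18944272836) (nat_lit 1292) (nat_lit 545194417) (nat_lit 241) (nat_lit 5) (nat_lit 257) (nat_lit 5) (nat_lit 258) (nat_lit 5) (nat_lit 377) (nat_lit 365) (nat_lit 158))))))) (XT.nd (nat_lit 1014) (nat_lit 3420) (nat_lit 0) (XT.nd (nat_lit 468) (nat_lit 2432) (nat_lit 0) (XT.nd (nat_lit 234) (nat_lit 1064) (nat_lit 0) (XT.nd (nat_lit 78) (nat_lit 0) (nat_lit 0) (XT.lf (nat_lit 0) (nat_lit 16143899788) (nat_lit 1216) (nat_lit 2179062705) (nat_lit 1292) (nat_lit 15669451370) (nat_lit 241) (nat_lit 5) (nat_lit 257) (nat_lit 5) (nat_lit 258) (nat_lit 5) (nat_lit 378) (nat_lit 365) (nat_lit 157)) (XT.nd (nat_lit 78) (nat_lit 0) (nat_lit 76) (XT.lf (nat_lit 76) (nat_lit 15387559698) (nat_lit 0) (nat_lit 3140253320) (nat_lit 1292) (nat_lit 16008359735) (nat_lit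 242) (nat_lit 5) (nat_lit 241) (nat_lit 5) (nat_lit 258) (nat_lit 5) (nat_lit 379) (nat_lit 365) (nat_lit 156)) (XT.lf (nat_lit 0) (nat_lit 21123349026) (nat_lit 1216) (nat_lit 1691956925) (nat_lit 1292) (nat_lit 12276736439) (nat_lit 242) (nat_lit 5) (nat_lit 258) (nat_lit 5) (nat_lit 259) (nat_lit 5) (nat_lit 380) (nat_lit 365) (nat_lit 155)))) (XT.nd (nat_lit 78) (nat_lit 1140) (nat_lit 0) (XT.lf (nat_lit 76) (nat_lit 16579011473) (nat_lit 0) (nat_lit 7406009964) (nat_lit 1292) (nat_lit 11673919679) (nat_lit 243) (nat_lit 5) (nat_lit 242) (nat_lit 5) (nat_lit 259) (nat_lit 5) (nat_lit 381) (nat_lit 365) (nat_lit 154)) (XT.nd (nat_lit 78) (nat_lit 1216) (nat_lit 0) (XT.lf (nat_lit 0) (nat_lit 27029035781) (nat_lit 1216) (nat_lit 892950169) (nat_lit 76) (nat_lit 8317967182) (nat_lit 243) (nat_lit 5) (nat_lit 259) (nat_lit 5) (nat_lit 244) (nat_lit 5) (nat_lit 382) (nat_lit 365) (nat_lit 153)) (XT.lf (nat_lit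 0) (nat_lit 18118051609) (nat_lit 1216) (nat_lit 12291730833) (nat_lit 1292) (nat_lit 6421251754) (nat_lit 227) (nat_lit 5) (nat_lit 243) (nat_lit 5) (nat_lit 244) (nat_lit 5) (nat_lit 383) (nat_lit 365) (nat_lit 152))))) (XT.nd (nat_lit 234) (nat_lit 1140) (nat_lit 0) (XT.nd (nat_lit 78) (nat_lit 684) (nat_lit 0) (XT.lf (nat_lit 0) (nat_lit 244334755) (nat_lit 608) (nat_lit 33693639996) (nat_lit 684) (nat_lit 3500493260) (nat_lit 219) (nat_lit 5) (nat_lit 227) (nat_lit 5) (nat_lit 228) (nat_lit 5) (nat_lit 384) (nat_lit 365) (nat_lit 151)) (XT.nd (nat_lit 78) (nat_lit 684) (nat_lit 0) (XT.lf (nat_lit 0) (nat_lit 20028009911) (nat_lit 608) (nat_lit 17851484880) (nat_lit 684) (nat_lit 175406577) (nat_lit 219) (nat_lit 5) (nat_lit 227) (nat_lit 5) (nat_lit 228) (nat_lit 5) (nat_lit 385) (nat_lit 365) (nat_lit 150)) (XT.lf (nat_lit 0) (nat_lit 1715789910) (nat_lit 608) (nat_lit 1484776130) (nat_lit 684) (nat_lit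 35487889304) (nat_lit 210) (nat_lit 5) (nat_lit 218) (nat_lit 5) (nat_lit 219) (nat_lit 5) (nat_lit 386) (nat_lit 365) (nat_lit 149)))) (XT.nd (nat_lit 156) (nat_lit 532) (nat_lit 0) (XT.nd (nat_lit 78) (nat_lit 608) (nat_lit 0) (XT.lf (nat_lit 0) (nat_lit 7003993749) (nat_lit 684) (nat_lit 17068447425) (nat_lit 76) (nat_lit 15258632527) (nat_lit 210) (nat_lit 5) (nat_lit 219) (nat_lit 5) (nat_lit 211) (nat_lit 5) (nat_lit 387) (nat_lit 365) (nat_lit 148)) (XT.lf (nat_lit 0) (nat_lit 3484378653) (nat_lit 608) (nat_lit 7483484802) (nat_lit 684) (nat_lit 29023717854) (nat_lit 202) (nat_lit 5) (nat_lit 210) (nat_lit 5) (nat_lit 211) (nat_lit 5) (nat_lit 388) (nat_lit 365) (nat_lit 147))) (XT.nd (nat_lit 78) (nat_lit 532) (nat_lit 0) (XT.lf (nat_lit 0) (nat_lit 15315206373) (nat_lit 684) (nat_lit 15758923639) (nat_lit 76) (nat_lit 9589838270) (nat_lit 202) (nat_lit 5) (nat_lit 211) (nat_lit 5) (nat_lit 203)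 (nat_lit 5) (nat_lit 389) (nat_lit 365) (nat_lit 146)) (XT.lf (nat_lit 0) (nat_lit 5646090836) (nat_lit 532) (nat_lit 14273480793) (nat_lit 608) (nat_lit 21433157999) (nat_lit 195) (nat_lit 5) (nat_lit 202) (nat_lit 5) (nat_lit 203) (nat_lit 5) (nat_lit 390) (nat_lit 365) (nat_lit 145)))))) (XT.nd (nat_lit 546) (nat_lit 1824) (nat_lit 0) (XT.nd (nat_lit 234) (nat_lit 1064) (nat_lit 0) (XT.nd (nat_lit 78) (nat_lit 532) (nat_lit 0) (XT.lf (nat_lit 0) (nat_lit 24850183658) (nat_lit 608) (nat_lit 14073624053) (nat_lit 76) (nat_lit 3132703433) (nat_lit 195) (nat_lit 5) (nat_lit 203) (nat_lit 5) (nat_lit 196) (nat_lit 5) (nat_lit 391) (nat_lit 365) (nat_lit 144)) (XT.nd (nat_lit 78) (nat_lit 0) (nat_lit 0) (XT.lf (nat_lit 0) (nat_lit 8225798497) (nat_lit 532) (nat_lit 21921627349) (nat_lit 608) (nat_lit 12627419683) (nat_lit 188) (nat_lit 5) (nat_lit 195) (nat_lit 5) (nat_lit 196) (nat_lit 5) (nat_lit 392) (nat_lit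 365) (nat_lit 143)) (XT.lf (nat_lit 0) (nat_lit 31480940636) (nat_lit 532) (nat_lit 4263111535) (nat_lit 608) (nat_lit 7766464524) (nat_lit 188) (nat_lit 5) (nat_lit 195) (nat_lit 5) (nat_lit 196) (nat_lit 5) (nat_lit 393) (nat_lit 365) (nat_lit 142)))) (XT.nd (nat_lit 156) (nat_lit 532) (nat_lit 0) (XT.nd (nat_lit 78) (nat_lit 76) (nat_lit 0) (XT.lf (nat_lit 0) (nat_lit 11249382753) (nat_lit 456) (nat_lit 30499585511) (nat_lit 532) (nat_lit 2512078737) (nat_lit 182) (nat_lit 5) (nat_lit 188) (nat_lit 5) (nat_lit 189) (nat_lit 5) (nat_lit 394) (nat_lit 365) (nat_lit 141)) (XT.lf (nat_lit 0) (nat_lit 3006648823) (nat_lit 532) (nat_lit 9630202056) (nat_lit 76) (nat_lit 32391507797) (nat_lit 181) (nat_lit 5) (nat_lit 188) (nat_lit 5) (nat_lit 182) (nat_lit 5) (nat_lit 395) (nat_lit 365) (nat_lit 140))) (XT.nd (nat_lit 78) (nat_lit 0) (nat_lit 0) (XT.lf (nat_lit 0) (nat_lit 8837368733) (nat_lit 608) (nat_lit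 31157556772) (nat_lit 76) (nat_lit 5817111079) (nat_lit 174) (nat_lit 5) (nat_lit 182) (nat_lit 5) (nat_lit 175) (nat_lit 5) (nat_lit 396) (nat_lit 365) (nat_lit 139)) (XT.lf (nat_lit 0) (nat_lit 15064821151) (nat_lit 608) (nat_lit 6879021825) (nat_lit 76) (nat_lit 24668728181) (nat_lit 174) (nat_lit 5) (nat_lit 182) (nat_lit 5) (nat_lit 175) (nat_lit 5) (nat_lit 397) (nat_lit 365) (nat_lit 138))))) (XT.nd (nat_lit 234) (nat_lit 912) (nat_lit 0) (XT.nd (nat_lit 78) (nat_lit 456) (nat_lit 0) (XT.lf (nat_lit 0) (nat_lit 18486920380) (nat_lit 456) (nat_lit 3168413070) (nat_lit 532) (nat_lit 25776501860) (nat_lit 168) (nat_lit 5) (nat_lit 174) (nat_lit 5) (nat_lit 175) (nat_lit 5) (nat_lit 398) (nat_lit 365) (nat_lit 137)) (XT.nd (nat_lit 78) (nat_lit 456) (nat_lit 0) (XT.lf (nat_lit 0) (nat_lit 28667705330) (nat_lit 532) (nat_lit 3676586059) (nat_lit 76) (nat_lit 15924662286) (nat_lit 168) (nat_lit 5) (nat_lit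 175) (nat_lit 5) (nat_lit 169) (nat_lit 5) (nat_lit 399) (nat_lit 365) (nat_lit 136)) (XT.lf (nat_lit 0) (nat_lit 22760899206) (nat_lit 456) (nat_lit 13378306603) (nat_lit 532) (nat_lit 12984517656) (nat_lit 162) (nat_lit 5) (nat_lit 168) (nat_lit 5) (nat_lit 169) (nat_lit 5) (nat_lit 400) (nat_lit 365) (nat_lit 135)))) (XT.nd (nat_lit 156) (nat_lit 456) (nat_lit 0) (XT.nd (nat_lit 78) (nat_lit 76) (nat_lit 0) (XT.lf (nat_lit 0) (nat_lit 2662557) (nat_lit 380) (nat_lit 43927507507) (nat_lit 456) (nat_lit 6071107302) (nat_lit 157) (nat_lit 5) (nat_lit 162) (nat_lit 5) (nat_lit 163) (nat_lit 5) (nat_lit 401) (nat_lit 365) (nat_lit 134)) (XT.lf (nat_lit 0) (nat_lit 1429156772) (nat_lit 456) (nat_lit 23344534516) (nat_lit 76) (nat_lit 26119166381) (nat_lit 156) (nat_lit 5) (nat_lit 162) (nat_lit 5) (nat_lit 157) (nat_lit 5) (nat_lit 402) (nat_lit 365) (nat_lit 133))) (XT.nd (nat_lit 78) (nat_lit 0) (nat_lit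 0) (XT.lf (nat_lit 0) (nat_lit 4127954735) (nat_lit 456) (nat_lit 4942799035) (nat_lit 532) (nat_lit 42737478394) (nat_lit 150) (nat_lit 5) (nat_lit 156) (nat_lit 5) (nat_lit 157) (nat_lit 5) (nat_lit 403) (nat_lit 365) (nat_lit 132)) (XT.lf (nat_lit 0) (nat_lit 17327186670) (nat_lit 532) (nat_lit 19993678542) (nat_lit 76) (nat_lit 15418635557) (nat_lit 150) (nat_lit 5) (nat_lit 157) (nat_lit 5) (nat_lit 151) (nat_lit 5) (nat_lit 404) (nat_lit 365) (nat_lit 131))))))))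
noncomputable def xc233 : XT := (XT.nd (nat_lit 44304) (nat_lit 0) (nat_lit 5928) (XT.nd (nat_lit 1014) (nat_lit 1596) (nat_lit 0) (XT.nd (nat_lit 468) (nat_lit 1368) (nat_lit 0) (XT.nd (nat_lit 234) (nat_lit 380) (nat_lit 0) (XT.nd (nat_lit 78) (nat_lit 380) (nat_lit 0) (XT.lf (nat_lit 0) (nat_lit 8641581740) (nat_lit 380) (nat_lit 17320463519) (nat_lit 456) (nat_lit 27732740693) (nat_lit 145) (nat_lit 5) (nat_lit 150) (nat_lit 5) (nat_lit 151) (nat_lit 5) (nat_lit 405) (nat_lit 365) (nat_lit 130)) (XT.nd (nat_lit 78) (nat_lit 380) (nat_lit 0) (XT.lf (nat_lit 0) (nat_lit 35090118540) (nat_lit 456) (nat_lit 16162095034) (nat_lit 76) (nat_lit 3419491533) (nat_lit 145) (nat_lit 5) (nat_lit 151) (nat_lit 5) (nat_lit 146) (nat_lit 5) (nat_lit 406) (nat_lit 365) (nat_lit 129)) (XT.lf (nat_lit 0) (nat_lit 13689797834) (nat_lit 380) (nat_lit 31104101329) (nat_lit 456) (nat_lit 10874977189) (nat_lit 140) (nat_lit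 5) (nat_lit 145) (nat_lit 5) (nat_lit 146) (nat_lit 5) (nat_lit 407) (nat_lit 365) (nat_lit 128)))) (XT.nd (nat_lit 78) (nat_lit 380) (nat_lit 0) (XT.lf (nat_lit 0) (nat_lit 44766973139) (nat_lit 380) (nat_lit 10183826544) (nat_lit 456) (nat_lit 1740303317) (nat_lit 140) (nat_lit 5) (nat_lit 145) (nat_lit 5) (nat_lit 146) (nat_lit 5) (nat_lit 408) (nat_lit 365) (nat_lit 127)) (XT.nd (nat_lit 78) (nat_lit 0) (nat_lit 0) (XT.lf (nat_lit 0) (nat_lit 7815255835) (nat_lit 380) (nat_lit 38513569758) (nat_lit 76) (nat_lit 11404065379) (nat_lit 135) (nat_lit 5) (nat_lit 140) (nat_lit 5) (nat_lit 136) (nat_lit 5) (nat_lit 409) (nat_lit 365) (nat_lit 126)) (XT.lf (nat_lit 0) (nat_lit 17843775524) (nat_lit 380) (nat_lit 7381639687) (nat_lit 76) (nat_lit 33573362705) (nat_lit 135) (nat_lit 5) (nat_lit 140) (nat_lit 5) (nat_lit 136) (nat_lit 5) (nat_lit 410) (nat_lit 365) (nat_lit 125))))) (XT.nd (nat_lit 234) (nat_lit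 684) (nat_lit 0) (XT.nd (nat_lit 78) (nat_lit 304) (nat_lit 0) (XT.lf (nat_lit 0) (nat_lit 25173953335) (nat_lit 380) (nat_lit 3240058362) (nat_lit 456) (nat_lit 31475404352) (nat_lit 130) (nat_lit 5) (nat_lit 135) (nat_lit 5) (nat_lit 136) (nat_lit 5) (nat_lit 411) (nat_lit 365) (nat_lit 124)) (XT.nd (nat_lit 78) (nat_lit 304) (nat_lit 0) (XT.lf (nat_lit 0) (nat_lit 39562052244) (nat_lit 456) (nat_lit 2341820191) (nat_lit 76) (nat_lit 19101080365) (nat_lit 130) (nat_lit 5) (nat_lit 136) (nat_lit 5) (nat_lit 131) (nat_lit 5) (nat_lit 412) (nat_lit 365) (nat_lit 123)) (XT.lf (nat_lit 0) (nat_lit 31585805432) (nat_lit 304) (nat_lit 19793350643) (nat_lit 380) (nat_lit 10764761302) (nat_lit 126) (nat_lit 5) (nat_lit 130) (nat_lit 5) (nat_lit 131) (nat_lit 5) (nat_lit 413) (nat_lit 365) (nat_lit 122)))) (XT.nd (nat_lit 156) (nat_lit 304) (nat_lit 0) (XT.nd (nat_lit 78) (nat_lit 0) (nat_lit 0) (XT.lf (nat_lit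 0) (nat_lit 313141288) (nat_lit 380) (nat_lit 60020766685) (nat_lit 76) (nat_lit 2980556479) (nat_lit 121) (nat_lit 5) (nat_lit 126) (nat_lit 5) (nat_lit 122) (nat_lit 5) (nat_lit 414) (nat_lit 365) (nat_lit 121)) (XT.lf (nat_lit 0) (nat_lit 12013565154) (nat_lit 380) (nat_lit 26030527651) (nat_lit 76) (nat_lit 26457641675) (nat_lit 121) (nat_lit 5) (nat_lit 126) (nat_lit 5) (nat_lit 122) (nat_lit 5) (nat_lit 415) (nat_lit 365) (nat_lit 120))) (XT.nd (nat_lit 78) (nat_lit 0) (nat_lit 0) (XT.lf (nat_lit 0) (nat_lit 9156622137) (nat_lit 304) (nat_lit 14995368790) (nat_lit 380) (nat_lit 41570022346) (nat_lit 117) (nat_lit 5) (nat_lit 121) (nat_lit 5) (nat_lit 122) (nat_lit 5) (nat_lit 416) (nat_lit 365) (nat_lit 119)) (XT.lf (nat_lit 0) (nat_lit 37003071640) (nat_lit 380) (nat_lit 21126178159) (nat_lit 76) (nat_lit 8839195896) (nat_lit 117) (nat_lit 5) (nat_lit 122) (nat_lit 5) (nat_lit 118) (nat_lit 5) (nat_lit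 417) (nat_lit 365) (nat_lit 118)))))) (XT.nd (nat_lit 546) (nat_lit 380) (nat_lit 0) (XT.nd (nat_lit 234) (nat_lit 532) (nat_lit 0) (XT.nd (nat_lit 78) (nat_lit 380) (nat_lit 0) (XT.lf (nat_lit 0) (nat_lit 15529331629) (nat_lit 304) (nat_lit 35007111033) (nat_lit 380) (nat_lit 17706926013) (nat_lit 113) (nat_lit 5) (nat_lit 117) (nat_lit 5) (nat_lit 118) (nat_lit 5) (nat_lit 418) (nat_lit 365) (nat_lit 117)) (XT.nd (nat_lit 78) (nat_lit 380) (nat_lit 0) (XT.lf (nat_lit 0) (nat_lit 53716143034) (nat_lit 304) (nat_lit 10972031262) (nat_lit 380) (nat_lit 4861994574) (nat_lit 113) (nat_lit 5) (nat_lit 117) (nat_lit 5) (nat_lit 118) (nat_lit 5) (nat_lit 419) (nat_lit 365) (nat_lit 116)) (XT.lf (nat_lit 0) (nat_lit 8555848113) (nat_lit 380) (nat_lit 48512948776) (nat_lit 76) (nat_lit 13814437483) (nat_lit 108) (nat_lit 5) (nat_lit 113) (nat_lit 5) (nat_lit 109) (nat_lit 5) (nat_lit 420) (nat_lit 365) (nat_lit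 115)))) (XT.nd (nat_lit 156) (nat_lit 228) (nat_lit 0) (XT.nd (nat_lit 78) (nat_lit 304) (nat_lit 0) (XT.lf (nat_lit 0) (nat_lit 22547669751) (nat_lit 380) (nat_lit 10365959928) (nat_lit 76) (nat_lit 39333143340) (nat_lit 108) (nat_lit 5) (nat_lit 113) (nat_lit 5) (nat_lit 109) (nat_lit 5) (nat_lit 421) (nat_lit 365) (nat_lit 114)) (XT.lf (nat_lit 0) (nat_lit 29499707807) (nat_lit 304) (nat_lit 7742190250) (nat_lit 380) (nat_lit 36400840485) (nat_lit 104) (nat_lit 5) (nat_lit 108) (nat_lit 5) (nat_lit 109) (nat_lit 5) (nat_lit 422) (nat_lit 365) (nat_lit 113))) (XT.nd (nat_lit 78) (nat_lit 228) (nat_lit 0) (XT.lf (nat_lit 0) (nat_lit 52656556963) (nat_lit 380) (nat_lit 4480826861) (nat_lit 76) (nat_lit 17934811363) (nat_lit 104) (nat_lit 5) (nat_lit 109) (nat_lit 5) (nat_lit 105) (nat_lit 5) (nat_lit 423) (nat_lit 365) (nat_lit 112)) (XT.lf (nat_lit 0) (nat_lit 37015549031) (nat_lit 228) (nat_lit 31949696483)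 (nat_lit 304) (nat_lit 7566342581) (nat_lit 101) (nat_lit 5) (nat_lit 104) (nat_lit 5) (nat_lit 105) (nat_lit 5) (nat_lit 424) (nat_lit 365) (nat_lit 111))))) (XT.nd (nat_lit 42432) (nat_lit 0) (nat_lit 10640) (XT.nd (nat_lit 42276) (nat_lit 0) (nat_lit 10564) (XT.lf (nat_lit 0) (nat_lit 1773788020) (nat_lit 304) (nat_lit 5865703113) (nat_lit 380) (nat_lit 70391187129) (nat_lit 96) (nat_lit 5) (nat_lit 100) (nat_lit 5) (nat_lit 101) (nat_lit 5) (nat_lit 425) (nat_lit 365) (nat_lit 110)) (XT.nd (nat_lit 78) (nat_lit 0) (nat_lit 0) (XT.lf (nat_lit 0) (nat_lit 1093178374) (nat_lit 1292) (nat_lit 6629842450) (nat_lit 1292) (nat_lit 6629842450) (nat_lit 235) (nat_lit 3) (nat_lit 252) (nat_lit 3) (nat_lit 252) (nat_lit 5) (nat_lit 366) (nat_lit 366) (nat_lit 168)) (XT.lf (nat_lit 76) (nat_lit 470374431) (nat_lit 0) (nat_lit 1831564132) (nat_lit 1292) (nat_lit 26831849735) (nat_lit 236) (nat_lit 5) (nat_lit 235)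 (nat_lit 3) (nat_lit 252) (nat_lit 5) (nat_lit 367) (nat_lit 366) (nat_lit 167)))) (XT.nd (nat_lit 156) (nat_lit 0) (nat_lit 76) (XT.nd (nat_lit 78) (nat_lit 0) (nat_lit 0) (XT.lf (nat_lit 0) (nat_lit 2670345243) (nat_lit 1216) (nat_lit 14806758232) (nat_lit 1292) (nat_lit 12090109282) (nat_lit 236) (nat_lit 5) (nat_lit 252) (nat_lit 5) (nat_lit 253) (nat_lit 5) (nat_lit 368) (nat_lit 366) (nat_lit 166)) (XT.lf (nat_lit 0) (nat_lit 3064971615) (nat_lit 1216) (nat_lit 554200257) (nat_lit 1292) (nat_lit 26394014592) (nat_lit 236) (nat_lit 5) (nat_lit 252) (nat_lit 5) (nat_lit 253) (nat_lit 5) (nat_lit 369) (nat_lit 366) (nat_lit 165))) (XT.nd (nat_lit 78) (nat_lit 0) (nat_lit 0) (XT.lf (nat_lit 0) (nat_lit 3710830850) (nat_lit 1216) (nat_lit 16166852293) (nat_lit 1292) (nat_lit 10587675908) (nat_lit 237) (nat_lit 5) (nat_lit 253) (nat_lit 5) (nat_lit 254) (nat_lit 5) (nat_lit 370) (nat_lit 366) (nat_lit 164))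 (XT.lf (nat_lit 0) (nat_lit 4414750785) (nat_lit 1216) (nat_lit 1360358402) (nat_lit 1292) (nat_lit 25154828529) (nat_lit 237) (nat_lit 5) (nat_lit 253) (nat_lit 5) (nat_lit 254) (nat_lit 5) (nat_lit 371) (nat_lit 366) (nat_lit 163))))))) (XT.nd (nat_lit 1014) (nat_lit 4028) (nat_lit 0) (XT.nd (nat_lit 468) (nat_lit 836) (nat_lit 0) (XT.nd (nat_lit 234) (nat_lit 0) (nat_lit 76) (XT.nd (nat_lit 78) (nat_lit 0) (nat_lit 0) (XT.lf (nat_lit 0) (nat_lit 5358707253) (nat_lit 1216) (nat_lit 17324830306) (nat_lit 1292) (nat_lit 8718350021) (nat_lit 238) (nat_lit 5) (nat_lit 254) (nat_lit 5) (nat_lit 255) (nat_lit 5) (nat_lit 372) (nat_lit 366) (nat_lit 162)) (XT.nd (nat_lit 78) (nat_lit 0) (nat_lit 76) (XT.lf (nat_lit 0) (nat_lit 6399389384) (nat_lit 1216) (nat_lit 1941139250) (nat_lit 1292) (nat_lit 23545416461) (nat_lit 238) (nat_lit 5) (nat_lit 254) (nat_lit 5) (nat_lit 255) (nat_lit 5) (nat_lit 373) (nat_lit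 366) (nat_lit 161)) (XT.lf (nat_lit 0) (nat_lit 7668215518) (nat_lit 1216) (nat_lit 18264631627) (nat_lit 1292) (nat_lit 6445770811) (nat_lit 239) (nat_lit 5) (nat_lit 255) (nat_lit 5) (nat_lit 256) (nat_lit 5) (nat_lit 374) (nat_lit 366) (nat_lit 160)))) (XT.nd (nat_lit 78) (nat_lit 0) (nat_lit 76) (XT.lf (nat_lit 0) (nat_lit 9074980567) (nat_lit 1216) (nat_lit 2279439188) (nat_lit 1292) (nat_lit 21528656310) (nat_lit 239) (nat_lit 5) (nat_lit 255) (nat_lit 5) (nat_lit 256) (nat_lit 5) (nat_lit 375) (nat_lit 366) (nat_lit 159)) (XT.nd (nat_lit 78) (nat_lit 0) (nat_lit 0) (XT.lf (nat_lit 0) (nat_lit 10697154501) (nat_lit 1216) (nat_lit 18969247742) (nat_lit 1292) (nat_lit 3731070746) (nat_lit 240) (nat_lit 5) (nat_lit 256) (nat_lit 5) (nat_lit 257) (nat_lit 5) (nat_lit 376) (nat_lit 366) (nat_lit 158)) (XT.lf (nat_lit 0) (nat_lit 12501292515) (nat_lit 1216) (nat_lit 2357165023) (nat_lit 1292) (nat_lit 19064846531)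 (nat_lit 240) (nat_lit 5) (nat_lit 256) (nat_lit 5) (nat_lit 257) (nat_lit 5) (nat_lit 377) (nat_lit 366) (nat_lit 157))))) (XT.nd (nat_lit 234) (nat_lit 1064) (nat_lit 0) (XT.nd (nat_lit 78) (nat_lit 0) (nat_lit 0) (XT.lf (nat_lit 0) (nat_lit 14507102421) (nat_lit 1216) (nat_lit 19420699054) (nat_lit 1292) (nat_lit 532683350) (nat_lit 241) (nat_lit 5) (nat_lit 257) (nat_lit 5) (nat_lit 258) (nat_lit 5) (nat_lit 378) (nat_lit 366) (nat_lit 156)) (XT.nd (nat_lit 78) (nat_lit 0) (nat_lit 0) (XT.lf (nat_lit 0) (nat_lit 16741996677) (nat_lit 1216) (nat_lit 2155209375) (nat_lit 1292) (nat_lit 16111508795) (nat_lit 241) (nat_lit 5) (nat_lit 257) (nat_lit 5) (nat_lit 258) (nat_lit 5) (nat_lit 379) (nat_lit 366) (nat_lit 155)) (XT.lf (nat_lit 76) (nat_lit 15937536943) (nat_lit 0) (nat_lit 3257425661) (nat_lit 1292) (nat_lit 16373899530) (nat_lit 242) (nat_lit 5) (nat_lit 241) (nat_lit 5) (nat_lit 258) (nat_lit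 5) (nat_lit 380) (nat_lit 366) (nat_lit 154)))) (XT.nd (nat_lit 156) (nat_lit 1140) (nat_lit 0) (XT.nd (nat_lit 78) (nat_lit 0) (nat_lit 0) (XT.lf (nat_lit 0) (nat_lit 21864908181) (nat_lit 1216) (nat_lit 1653427277) (nat_lit 1292) (nat_lit 12623177739) (nat_lit 242) (nat_lit 5) (nat_lit 258) (nat_lit 5) (nat_lit 259) (nat_lit 5) (nat_lit 381) (nat_lit 366) (nat_lit 153)) (XT.lf (nat_lit 76) (nat_lit 17164794797) (nat_lit 0) (nat_lit 7645344332) (nat_lit 1292) (nat_lit 11915350099) (nat_lit 243) (nat_lit 5) (nat_lit 242) (nat_lit 5) (nat_lit 259) (nat_lit 5) (nat_lit 382) (nat_lit 366) (nat_lit 152))) (XT.nd (nat_lit 78) (nat_lit 1216) (nat_lit 0) (XT.lf (nat_lit 0) (nat_lit 27942239042) (nat_lit 1216) (nat_lit 830614405) (nat_lit 76) (nat_lit 8551176749) (nat_lit 243) (nat_lit 5) (nat_lit 259) (nat_lit 5) (nat_lit 244) (nat_lit 5) (nat_lit 383) (nat_lit 366) (nat_lit 151)) (XT.lf (nat_lit 0) (nat_lit 18749843659)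 (nat_lit 1216) (nat_lit 12672432213) (nat_lit 1292) (nat_lit 6510633290) (nat_lit 227) (nat_lit 5) (nat_lit 243) (nat_lit 5) (nat_lit 244) (nat_lit 5) (nat_lit 384) (nat_lit 366) (nat_lit 150)))))) (XT.nd (nat_lit 546) (nat_lit 1596) (nat_lit 0) (XT.nd (nat_lit 234) (nat_lit 1140) (nat_lit 0) (XT.nd (nat_lit 78) (nat_lit 684) (nat_lit 0) (XT.lf (nat_lit 0) (nat_lit 342189937) (nat_lit 608) (nat_lit 34711964231) (nat_lit 684) (nat_lit 3504478074) (nat_lit 219) (nat_lit 5) (nat_lit 227) (nat_lit 5) (nat_lit 228) (nat_lit 5) (nat_lit 385) (nat_lit 366) (nat_lit 149)) (XT.nd (nat_lit 78) (nat_lit 684) (nat_lit 0) (XT.lf (nat_lit 0) (nat_lit 20716738693) (nat_lit 608) (nat_lit 18394325576) (nat_lit 684) (nat_lit 82581412) (nat_lit 219) (nat_lit 5) (nat_lit 227) (nat_lit 5) (nat_lit 228) (nat_lit 5) (nat_lit 386) (nat_lit 366) (nat_lit 148)) (XT.lf (nat_lit 0) (nat_lit 1856231078) (nat_lit 608) (nat_lit 1534579313)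 (nat_lit 684) (nat_lit 36455427313) (nat_lit 210) (nat_lit 5) (nat_lit 218) (nat_lit 5) (nat_lit 219) (nat_lit 5) (nat_lit 387) (nat_lit 366) (nat_lit 147)))) (XT.nd (nat_lit 156) (nat_lit 532) (nat_lit 0) (XT.nd (nat_lit 78) (nat_lit 608) (nat_lit 0) (XT.lf (nat_lit 0) (nat_lit 7305547355) (nat_lit 684) (nat_lit 17491287904) (nat_lit 76) (nat_lit 15711384454) (nat_lit 210) (nat_lit 5) (nat_lit 219) (nat_lit 5) (nat_lit 211) (nat_lit 5) (nat_lit 388) (nat_lit 366) (nat_lit 146)) (XT.lf (nat_lit 0) (nat_lit 3677248319) (nat_lit 608) (nat_lit 7709270875) (nat_lit 684) (nat_lit 29802079032) (nat_lit 202) (nat_lit 5) (nat_lit 210) (nat_lit 5) (nat_lit 211) (nat_lit 5) (nat_lit 389) (nat_lit 366) (nat_lit 145))) (XT.nd (nat_lit 78) (nat_lit 532) (nat_lit 0) (XT.lf (nat_lit 0) (nat_lit 15861660154) (nat_lit 684) (nat_lit 16143263050) (nat_lit 76) (nat_lit 9876313494) (nat_lit 202) (nat_lit 5) (nat_lit 211) (nat_lit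 5) (nat_lit 203) (nat_lit 5) (nat_lit 390) (nat_lit 366) (nat_lit 144)) (XT.lf (nat_lit 0) (nat_lit 5903034915) (nat_lit 532) (nat_lit 14699429235) (nat_lit 608) (nat_lit 21988248686) (nat_lit 195) (nat_lit 5) (nat_lit 202) (nat_lit 5) (nat_lit 203) (nat_lit 5) (nat_lit 391) (nat_lit 366) (nat_lit 143))))) (XT.nd (nat_lit 234) (nat_lit 1064) (nat_lit 0) (XT.nd (nat_lit 78) (nat_lit 532) (nat_lit 0) (XT.lf (nat_lit 0) (nat_lit 25678530971) (nat_lit 608) (nat_lit 14408319815) (nat_lit 76) (nat_lit 3228832069) (nat_lit 195) (nat_lit 5) (nat_lit 203) (nat_lit 5) (nat_lit 196) (nat_lit 5) (nat_lit 392) (nat_lit 366) (nat_lit 142)) (XT.nd (nat_lit 78) (nat_lit 0) (nat_lit 0) (XT.lf (nat_lit 0) (nat_lit 8559227442) (nat_lit 532) (nat_lit 22573883096) (nat_lit 608) (nat_lit 12922505248) (nat_lit 188) (nat_lit 5) (nat_lit 195) (nat_lit 5) (nat_lit 196) (nat_lit 5) (nat_lit 393) (nat_lit 366) (nat_lit 141)) (XT.lf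 (nat_lit 0) (nat_lit 32509499913) (nat_lit 532) (nat_lit 4385768888) (nat_lit 608) (nat_lit 7918160377) (nat_lit 188) (nat_lit 5) (nat_lit 195) (nat_lit 5) (nat_lit 196) (nat_lit 5) (nat_lit 394) (nat_lit 366) (nat_lit 140)))) (XT.nd (nat_lit 156) (nat_lit 532) (nat_lit 0) (XT.nd (nat_lit 78) (nat_lit 76) (nat_lit 0) (XT.lf (nat_lit 0) (nat_lit 11672500100) (nat_lit 456) (nat_lit 31406406412) (nat_lit 532) (nat_lit 2507612711) (nat_lit 182) (nat_lit 5) (nat_lit 188) (nat_lit 5) (nat_lit 189) (nat_lit 5) (nat_lit 395) (nat_lit 366) (nat_lit 139)) (XT.lf (nat_lit 0) (nat_lit 3172839209) (nat_lit 532) (nat_lit 9834421036) (nat_lit 76) (nat_lit 33369636366) (nat_lit 181) (nat_lit 5) (nat_lit 188) (nat_lit 5) (nat_lit 182) (nat_lit 5) (nat_lit 396) (nat_lit 366) (nat_lit 138))) (XT.nd (nat_lit 78) (nat_lit 0) (nat_lit 0) (XT.lf (nat_lit 0) (nat_lit 9177162611) (nat_lit 608) (nat_lit 32006246156) (nat_lit 76)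 (nat_lit 6000716598) (nat_lit 174) (nat_lit 5) (nat_lit 182) (nat_lit 5) (nat_lit 175) (nat_lit 5) (nat_lit 397) (nat_lit 366) (nat_lit 137)) (XT.lf (nat_lit 0) (nat_lit 15589263665) (nat_lit 608) (nat_lit 7001861102) (nat_lit 76) (nat_lit 25417617392) (nat_lit 174) (nat_lit 5) (nat_lit 182) (nat_lit 5) (nat_lit 175) (nat_lit 5) (nat_lit 398) (nat_lit 366) (nat_lit 136))))))))
noncomputable def xc234 : XT := (XT.nd (nat_lit 44382) (nat_lit 0) (nat_lit 7144) (XT.nd (nat_lit 1014) (nat_lit 2584) (nat_lit 0) (XT.nd (nat_lit 468) (nat_lit 1140) (nat_lit 0) (XT.nd (nat_lit 234) (nat_lit 912) (nat_lit 0) (XT.nd (nat_lit 78) (nat_lit 456) (nat_lit 0) (XT.lf (nat_lit 0) (nat_lit 19124240434) (nat_lit 456) (nat_lit 3251934393) (nat_lit 532) (nat_lit 26476449813) (nat_lit 168) (nat_lit 5) (nat_lit 174) (nat_lit 5) (nat_lit 175) (nat_lit 5) (nat_lit 399) (nat_lit 366) (nat_lit 135)) (XT.nd (nat_lit 78) (nat_lit 456)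 (nat_lit 0) (XT.lf (nat_lit 0) (nat_lit 29596952235) (nat_lit 532) (nat_lit 3704585263) (nat_lit 76) (nat_lit 16413378910) (nat_lit 168) (nat_lit 5) (nat_lit 175) (nat_lit 5) (nat_lit 169) (nat_lit 5) (nat_lit 400) (nat_lit 366) (nat_lit 134)) (XT.lf (nat_lit 0) (nat_lit 23525217713) (nat_lit 456) (nat_lit 13766147368) (nat_lit 532) (nat_lit 13304002045) (nat_lit 162) (nat_lit 5) (nat_lit 168) (nat_lit 5) (nat_lit 169) (nat_lit 5) (nat_lit 401) (nat_lit 366) (nat_lit 133)))) (XT.nd (nat_lit 78) (nat_lit 532) (nat_lit 0) (XT.lf (nat_lit 0) (nat_lit 85354217) (nat_lit 380) (nat_lit 45229644141) (nat_lit 456) (nat_lit 6184281914) (nat_lit 157) (nat_lit 5) (nat_lit 162) (nat_lit 5) (nat_lit 163) (nat_lit 5) (nat_lit 402) (nat_lit 366) (nat_lit 132)) (XT.nd (nat_lit 78) (nat_lit 456) (nat_lit 0) (XT.lf (nat_lit 0) (nat_lit 1537675141) (nat_lit 456) (nat_lit 23963332371) (nat_lit 76) (nat_lit 26916640450) (nat_lit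 156) (nat_lit 5) (nat_lit 162) (nat_lit 5) (nat_lit 157) (nat_lit 5) (nat_lit 403) (nat_lit 366) (nat_lit 131)) (XT.lf (nat_lit 0) (nat_lit 4332532163) (nat_lit 456) (nat_lit 5074852045) (nat_lit 532) (nat_lit 43953134320) (nat_lit 150) (nat_lit 5) (nat_lit 156) (nat_lit 5) (nat_lit 157) (nat_lit 5) (nat_lit 404) (nat_lit 366) (nat_lit 130))))) (XT.nd (nat_lit 234) (nat_lit 760) (nat_lit 0) (XT.nd (nat_lit 78) (nat_lit 380) (nat_lit 0) (XT.lf (nat_lit 0) (nat_lit 17909782704) (nat_lit 532) (nat_lit 20513349710) (nat_lit 76) (nat_lit 15896645339) (nat_lit 150) (nat_lit 5) (nat_lit 157) (nat_lit 5) (nat_lit 151) (nat_lit 5) (nat_lit 405) (nat_lit 366) (nat_lit 129)) (XT.nd (nat_lit 78) (nat_lit 0) (nat_lit 0) (XT.lf (nat_lit 0) (nat_lit 8980182703) (nat_lit 380) (nat_lit 17822438586) (nat_lit 456) (nat_lit 28501132891) (nat_lit 145) (nat_lit 5) (nat_lit 150) (nat_lit 5) (nat_lit 151) (nat_lit 5) (nat_lit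 406) (nat_lit 366) (nat_lit 128)) (XT.lf (nat_lit 0) (nat_lit 36202903871) (nat_lit 456) (nat_lit 16568259530) (nat_lit 76) (nat_lit 3538867193) (nat_lit 145) (nat_lit 5) (nat_lit 151) (nat_lit 5) (nat_lit 146) (nat_lit 5) (nat_lit 407) (nat_lit 366) (nat_lit 127)))) (XT.nd (nat_lit 156) (nat_lit 380) (nat_lit 0) (XT.nd (nat_lit 78) (nat_lit 0) (nat_lit 0) (XT.lf (nat_lit 0) (nat_lit 14178418572) (nat_lit 380) (nat_lit 32018378466) (nat_lit 456) (nat_lit 11140350641) (nat_lit 140) (nat_lit 5) (nat_lit 145) (nat_lit 5) (nat_lit 146) (nat_lit 5) (nat_lit 408) (nat_lit 366) (nat_lit 126)) (XT.lf (nat_lit 0) (nat_lit 46185639422) (nat_lit 380) (nat_lit 10471044347) (nat_lit 456) (nat_lit 1733409637) (nat_lit 140) (nat_lit 5) (nat_lit 145) (nat_lit 5) (nat_lit 146) (nat_lit 5) (nat_lit 409) (nat_lit 366) (nat_lit 125))) (XT.nd (nat_lit 78) (nat_lit 0) (nat_lit 0) (XT.lf (nat_lit 0) (nat_lit 8106889906) (nat_lit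 380) (nat_lit 39591351509) (nat_lit 76) (nat_lit 11764900369) (nat_lit 135) (nat_lit 5) (nat_lit 140) (nat_lit 5) (nat_lit 136) (nat_lit 5) (nat_lit 410) (nat_lit 366) (nat_lit 124)) (XT.lf (nat_lit 0) (nat_lit 18434599855) (nat_lit 380) (nat_lit 7527724468) (nat_lit 76) (nat_lit 34598731575) (nat_lit 135) (nat_lit 5) (nat_lit 140) (nat_lit 5) (nat_lit 136) (nat_lit 5) (nat_lit 411) (nat_lit 366) (nat_lit 123)))))) (XT.nd (nat_lit 546) (nat_lit 1216) (nat_lit 0) (XT.nd (nat_lit 234) (nat_lit 684) (nat_lit 0) (XT.nd (nat_lit 78) (nat_lit 304) (nat_lit 0) (XT.lf (nat_lit 0) (nat_lit 26003797478) (nat_lit 380) (nat_lit 3317246154) (nat_lit 456) (nat_lit 32363397110) (nat_lit 130) (nat_lit 5) (nat_lit 135) (nat_lit 5) (nat_lit 136) (nat_lit 5) (nat_lit 412) (nat_lit 366) (nat_lit 122)) (XT.nd (nat_lit 78) (nat_lit 304) (nat_lit 0) (XT.lf (nat_lit 0) (nat_lit 40802121550) (nat_lit 456) (nat_lit 2338200093) (nat_lit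 76) (nat_lit 19693164635) (nat_lit 130) (nat_lit 5) (nat_lit 136) (nat_lit 5) (nat_lit 131) (nat_lit 5) (nat_lit 413) (nat_lit 366) (nat_lit 121)) (XT.lf (nat_lit 0) (nat_lit 32606530036) (nat_lit 304) (nat_lit 20366361885) (nat_lit 380) (nat_lit 11033753816) (nat_lit 126) (nat_lit 5) (nat_lit 130) (nat_lit 5) (nat_lit 131) (nat_lit 5) (nat_lit 414) (nat_lit 366) (nat_lit 120)))) (XT.nd (nat_lit 156) (nat_lit 304) (nat_lit 0) (XT.nd (nat_lit 78) (nat_lit 0) (nat_lit 0) (XT.lf (nat_lit 0) (nat_lit 374804842) (nat_lit 380) (nat_lit 61746523170) (nat_lit 76) (nat_lit 3090985021) (nat_lit 121) (nat_lit 5) (nat_lit 126) (nat_lit 5) (nat_lit 122) (nat_lit 5) (nat_lit 415) (nat_lit 366) (nat_lit 119)) (XT.lf (nat_lit 0) (nat_lit 12424719017) (nat_lit 380) (nat_lit 26738757543) (nat_lit 76) (nat_lit 27271770777) (nat_lit 121) (nat_lit 5) (nat_lit 126) (nat_lit 5) (nat_lit 122) (nat_lit 5) (nat_lit 416) (nat_lit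 366) (nat_lit 118))) (XT.nd (nat_lit 78) (nat_lit 0) (nat_lit 0) (XT.lf (nat_lit 0) (nat_lit 9503294131) (nat_lit 304) (nat_lit 15423217218) (nat_lit 380) (nat_lit 42765647219) (nat_lit 117) (nat_lit 5) (nat_lit 121) (nat_lit 5) (nat_lit 122) (nat_lit 5) (nat_lit 417) (nat_lit 366) (nat_lit 117)) (XT.lf (nat_lit 0) (nat_lit 38161874754) (nat_lit 380) (nat_lit 21688820947) (nat_lit 76) (nat_lit 9125326229) (nat_lit 117) (nat_lit 5) (nat_lit 122) (nat_lit 5) (nat_lit 118) (nat_lit 5) (nat_lit 418) (nat_lit 366) (nat_lit 116))))) (XT.nd (nat_lit 234) (nat_lit 532) (nat_lit 0) (XT.nd (nat_lit 78) (nat_lit 380) (nat_lit 0) (XT.lf (nat_lit 0) (nat_lit 16065656659) (nat_lit 304) (nat_lit 36034848643) (nat_lit 380) (nat_lit 18188710005) (nat_lit 113) (nat_lit 5) (nat_lit 117) (nat_lit 5) (nat_lit 118) (nat_lit 5) (nat_lit 419) (nat_lit 366) (nat_lit 115)) (XT.nd (nat_lit 78) (nat_lit 380) (nat_lit 0) (XT.lf (nat_lit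 0) (nat_lit 55396020607) (nat_lit 304) (nat_lit 11279371112) (nat_lit 380) (nat_lit 4959870152) (nat_lit 113) (nat_lit 5) (nat_lit 117) (nat_lit 5) (nat_lit 118) (nat_lit 5) (nat_lit 420) (nat_lit 366) (nat_lit 114)) (XT.lf (nat_lit 0) (nat_lit 8859075803) (nat_lit 380) (nat_lit 49898483433) (nat_lit 76) (nat_lit 14250761556) (nat_lit 108) (nat_lit 5) (nat_lit 113) (nat_lit 5) (nat_lit 109) (nat_lit 5) (nat_lit 421) (nat_lit 366) (nat_lit 113)))) (XT.nd (nat_lit 156) (nat_lit 228) (nat_lit 0) (XT.nd (nat_lit 78) (nat_lit 304) (nat_lit 0) (XT.lf (nat_lit 0) (nat_lit 23269296200) (nat_lit 380) (nat_lit 10609119497) (nat_lit 76) (nat_lit 40534390987) (nat_lit 108) (nat_lit 5) (nat_lit 113) (nat_lit 5) (nat_lit 109) (nat_lit 5) (nat_lit 422) (nat_lit 366) (nat_lit 112)) (XT.lf (nat_lit 0) (nat_lit 30451853376) (nat_lit 304) (nat_lit 7951827109) (nat_lit 380) (nat_lit 37446991211) (nat_lit 104) (nat_lit 5) (nat_lit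 108) (nat_lit 5) (nat_lit 109) (nat_lit 5) (nat_lit 423) (nat_lit 366) (nat_lit 111))) (XT.nd (nat_lit 78) (nat_lit 228) (nat_lit 0) (XT.lf (nat_lit 0) (nat_lit 54279693485) (nat_lit 380) (nat_lit 4548954758) (nat_lit 76) (nat_lit 18494396751) (nat_lit 104) (nat_lit 5) (nat_lit 109) (nat_lit 5) (nat_lit 105) (nat_lit 5) (nat_lit 424) (nat_lit 366) (nat_lit 110)) (XT.lf (nat_lit 0) (nat_lit 38191662441) (nat_lit 228) (nat_lit 32885346053) (nat_lit 304) (nat_lit 7749230597) (nat_lit 101) (nat_lit 5) (nat_lit 104) (nat_lit 5) (nat_lit 105) (nat_lit 5) (nat_lit 425) (nat_lit 366) (nat_lit 109))))))) (XT.nd (nat_lit 1014) (nat_lit 3040) (nat_lit 0) (XT.nd (nat_lit 468) (nat_lit 0) (nat_lit 228) (XT.nd (nat_lit 234) (nat_lit 0) (nat_lit 76) (XT.nd (nat_lit 78) (nat_lit 0) (nat_lit 0) (XT.lf (nat_lit 0) (nat_lit 1203486332) (nat_lit 1292) (nat_lit 6788798648) (nat_lit 1292) (nat_lit 6788798648) (nat_lit 235) (nat_lit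 3) (nat_lit 252) (nat_lit 3) (nat_lit 252) (nat_lit 5) (nat_lit 367) (nat_lit 367) (nat_lit 166)) (XT.nd (nat_lit 78) (nat_lit 0) (nat_lit 76) (XT.lf (nat_lit 76) (nat_lit 563580698) (nat_lit 0) (nat_lit 1958686249) (nat_lit 1292) (nat_lit 27480918899) (nat_lit 236) (nat_lit 5) (nat_lit 235) (nat_lit 3) (nat_lit 252) (nat_lit 5) (nat_lit 368) (nat_lit 367) (nat_lit 165)) (XT.lf (nat_lit 0) (nat_lit 2896646314) (nat_lit 1216) (nat_lit 15169014448) (nat_lit 1292) (nat_lit 12384106934) (nat_lit 236) (nat_lit 5) (nat_lit 252) (nat_lit 5) (nat_lit 253) (nat_lit 5) (nat_lit 369) (nat_lit 367) (nat_lit 164)))) (XT.nd (nat_lit 78) (nat_lit 0) (nat_lit 76) (XT.lf (nat_lit 0) (nat_lit 3298853494) (nat_lit 1216) (nat_lit 491266525) (nat_lit 1292) (nat_lit 27119130539) (nat_lit 236) (nat_lit 5) (nat_lit 252) (nat_lit 5) (nat_lit 253) (nat_lit 5) (nat_lit 370) (nat_lit 367) (nat_lit 163)) (XT.nd (nat_lit 78) (nat_lit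 0) (nat_lit 0) (XT.lf (nat_lit 0) (nat_lit 3960137216) (nat_lit 1216) (nat_lit 16568275456) (nat_lit 1292) (nat_lit 10846696331) (nat_lit 237) (nat_lit 5) (nat_lit 253) (nat_lit 5) (nat_lit 254) (nat_lit 5) (nat_lit 371) (nat_lit 367) (nat_lit 162)) (XT.lf (nat_lit 0) (nat_lit 4681155872) (nat_lit 1216) (nat_lit 1320021187) (nat_lit 1292) (nat_lit 25852570614) (nat_lit 237) (nat_lit 5) (nat_lit 253) (nat_lit 5) (nat_lit 254) (nat_lit 5) (nat_lit 372) (nat_lit 367) (nat_lit 161))))) (XT.nd (nat_lit 234) (nat_lit 0) (nat_lit 76) (XT.nd (nat_lit 78) (nat_lit 0) (nat_lit 0) (XT.lf (nat_lit 0) (nat_lit 5649816356) (nat_lit 1216) (nat_lit 17759745291) (nat_lit 1292) (nat_lit 8930404843) (nat_lit 238) (nat_lit 5) (nat_lit 254) (nat_lit 5) (nat_lit 255) (nat_lit 5) (nat_lit 373) (nat_lit 367) (nat_lit 160)) (XT.nd (nat_lit 78) (nat_lit 0) (nat_lit 76) (XT.lf (nat_lit 0) (nat_lit 6717922411) (nat_lit 1216) (nat_lit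 1917014278) (nat_lit 1292) (nat_lit 24203724899) (nat_lit 238) (nat_lit 5) (nat_lit 254) (nat_lit 5) (nat_lit 255) (nat_lit 5) (nat_lit 374) (nat_lit 367) (nat_lit 159)) (XT.lf (nat_lit 0) (nat_lit 8021506625) (nat_lit 1216) (nat_lit 18726841305) (nat_lit 1292) (nat_lit 6597867808) (nat_lit 239) (nat_lit 5) (nat_lit 255) (nat_lit 5) (nat_lit 256) (nat_lit 5) (nat_lit 375) (nat_lit 367) (nat_lit 158)))) (XT.nd (nat_lit 156) (nat_lit 0) (nat_lit 76) (XT.nd (nat_lit 78) (nat_lit 0) (nat_lit 76) (XT.lf (nat_lit 0) (nat_lit 9466884976) (nat_lit 1216) (nat_lit 2264590062) (nat_lit 1292) (nat_lit 22134442090) (nat_lit 239) (nat_lit 5) (nat_lit 255) (nat_lit 5) (nat_lit 256) (nat_lit 5) (nat_lit 376) (nat_lit 367) (nat_lit 157)) (XT.lf (nat_lit 0) (nat_lit 11134699191) (nat_lit 1216) (nat_lit 19452008160) (nat_lit 1292) (nat_lit 3809131151) (nat_lit 240) (nat_lit 5) (nat_lit 256) (nat_lit 5) (nat_lit 257) (nat_lit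 5) (nat_lit 377) (nat_lit 367) (nat_lit 156))) (XT.nd (nat_lit 78) (nat_lit 0) (nat_lit 76) (XT.lf (nat_lit 0) (nat_lit 12989564353) (nat_lit 1216) (nat_lit 2344077046) (nat_lit 1292) (nat_lit 19603906764) (nat_lit 240) (nat_lit 5) (nat_lit 256) (nat_lit 5) (nat_lit 257) (nat_lit 5) (nat_lit 378) (nat_lit 367) (nat_lit 155)) (XT.lf (nat_lit 0) (nat_lit 15052781411) (nat_lit 1216) (nat_lit 19916693607) (nat_lit 1292) (nat_lit 521454030) (nat_lit 241) (nat_lit 5) (nat_lit 257) (nat_lit 5) (nat_lit 258) (nat_lit 5) (nat_lit 379) (nat_lit 367) (nat_lit 154)))))) (XT.nd (nat_lit 546) (nat_lit 1824) (nat_lit 0) (XT.nd (nat_lit 234) (nat_lit 1672) (nat_lit 0) (XT.nd (nat_lit 78) (nat_lit 0) (nat_lit 0) (XT.lf (nat_lit 0) (nat_lit 17351505040) (nat_lit 1216) (nat_lit 2135762337) (nat_lit 1292) (nat_lit 16568436757) (nat_lit 241) (nat_lit 5) (nat_lit 257) (nat_lit 5) (nat_lit 258) (nat_lit 5) (nat_lit 380) (nat_lit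 367) (nat_lit 153)) (XT.nd (nat_lit 78) (nat_lit 0) (nat_lit 76) (XT.lf (nat_lit 76) (nat_lit 16498941828) (nat_lit 0) (nat_lit 3376794902) (nat_lit 1292) (nat_lit 16756990400) (nat_lit 242) (nat_lit 5) (nat_lit 241) (nat_lit 5) (nat_lit 258) (nat_lit 5) (nat_lit 381) (nat_lit 367) (nat_lit 152)) (XT.lf (nat_lit 0) (nat_lit 22622522581) (nat_lit 1216) (nat_lit 1618867257) (nat_lit 1292) (nat_lit 12981267177) (nat_lit 242) (nat_lit 5) (nat_lit 258) (nat_lit 5) (nat_lit 259) (nat_lit 5) (nat_lit 382) (nat_lit 367) (nat_lit 151)))) (XT.nd (nat_lit 156) (nat_lit 1748) (nat_lit 0) (XT.nd (nat_lit 78) (nat_lit 0) (nat_lit 76) (XT.lf (nat_lit 76) (nat_lit 17763076354) (nat_lit 0) (nat_lit 7890874018) (nat_lit 1292) (nat_lit 12170268260) (nat_lit 243) (nat_lit 5) (nat_lit 242) (nat_lit 5) (nat_lit 259) (nat_lit 5) (nat_lit 383) (nat_lit 367) (nat_lit 150)) (XT.lf (nat_lit 0) (nat_lit 28876964115) (nat_lit 1216)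 (nat_lit 771524665) (nat_lit 76) (nat_lit 8792319981) (nat_lit 243) (nat_lit 5) (nat_lit 259) (nat_lit 5) (nat_lit 244) (nat_lit 5) (nat_lit 384) (nat_lit 367) (nat_lit 149))) (XT.nd (nat_lit 78) (nat_lit 608) (nat_lit 0) (XT.lf (nat_lit 0) (nat_lit 19395523530) (nat_lit 1216) (nat_lit 13063868686) (nat_lit 1292) (nat_lit 6608623589) (nat_lit 227) (nat_lit 5) (nat_lit 243) (nat_lit 5) (nat_lit 244) (nat_lit 5) (nat_lit 385) (nat_lit 367) (nat_lit 148)) (XT.lf (nat_lit 0) (nat_lit 437784261) (nat_lit 608) (nat_lit 35760406798) (nat_lit 684) (nat_lit 3514381968) (nat_lit 219) (nat_lit 5) (nat_lit 227) (nat_lit 5) (nat_lit 228) (nat_lit 5) (nat_lit 386) (nat_lit 367) (nat_lit 147))))) (XT.nd (nat_lit 234) (nat_lit 1140) (nat_lit 0) (XT.nd (nat_lit 78) (nat_lit 608) (nat_lit 0) (XT.lf (nat_lit 0) (nat_lit 7253531) (nat_lit 684) (nat_lit 18945705887) (nat_lit 76) (nat_lit 21413757401) (nat_lit 218) (nat_lit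 5) (nat_lit 227) (nat_lit 5) (nat_lit 219) (nat_lit 5) (nat_lit 387) (nat_lit 367) (nat_lit 146)) (XT.nd (nat_lit 78) (nat_lit 0) (nat_lit 0) (XT.lf (nat_lit 0) (nat_lit 1995778384) (nat_lit 608) (nat_lit 1585574652) (nat_lit 684) (nat_lit 37457565323) (nat_lit 210) (nat_lit 5) (nat_lit 218) (nat_lit 5) (nat_lit 219) (nat_lit 5) (nat_lit 388) (nat_lit 367) (nat_lit 145)) (XT.lf (nat_lit 0) (nat_lit 7610898897) (nat_lit 684) (nat_lit 17931934785) (nat_lit 76) (nat_lit 16178006365) (nat_lit 210) (nat_lit 5) (nat_lit 219) (nat_lit 5) (nat_lit 211) (nat_lit 5) (nat_lit 389) (nat_lit 367) (nat_lit 144)))) (XT.nd (nat_lit 156) (nat_lit 532) (nat_lit 0) (XT.nd (nat_lit 78) (nat_lit 0) (nat_lit 0) (XT.lf (nat_lit 0) (nat_lit 3870833096) (nat_lit 608) (nat_lit 7941756965) (nat_lit 684) (nat_lit 30609092334) (nat_lit 202) (nat_lit 5) (nat_lit 210) (nat_lit 5) (nat_lit 211) (nat_lit 5) (nat_lit 390) (nat_lit 367)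 (nat_lit 143)) (XT.lf (nat_lit 0) (nat_lit 16419513530) (nat_lit 684) (nat_lit 16544208789) (nat_lit 76) (nat_lit 10171453004) (nat_lit 202) (nat_lit 5) (nat_lit 211) (nat_lit 5) (nat_lit 203) (nat_lit 5) (nat_lit 391) (nat_lit 367) (nat_lit 142))) (XT.nd (nat_lit 78) (nat_lit 0) (nat_lit 0) (XT.lf (nat_lit 0) (nat_lit 6162660937) (nat_lit 532) (nat_lit 15138285633) (nat_lit 608) (nat_lit 22565038146) (nat_lit 195) (nat_lit 5) (nat_lit 202) (nat_lit 5) (nat_lit 203) (nat_lit 5) (nat_lit 392) (nat_lit 367) (nat_lit 141)) (XT.lf (nat_lit 0) (nat_lit 26526973246) (nat_lit 608) (nat_lit 14758080051) (nat_lit 76) (nat_lit 3327721288) (nat_lit 195) (nat_lit 5) (nat_lit 203) (nat_lit 5) (nat_lit 196) (nat_lit 5) (nat_lit 393) (nat_lit 367) (nat_lit 140))))))))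
noncomputable def xc235 : XT := (XT.nd (nat_lit 2106) (nat_lit 684) (nat_lit 0) (XT.nd (nat_lit 1014) (nat_lit 2812) (nat_lit 0) (XT.nd (nat_lit 468) (nat_lit 1824) (nat_lit 0) (XT.nd (nat_lit 234) (nat_lit 608) (nat_lit 0) (XT.nd (nat_lit 78) (nat_lit 456) (nat_lit 0) (XT.lf (nat_lit 0) (nat_lit 8897684904) (nat_lit 532) (nat_lit 23246016101) (nat_lit 608) (nat_lit 13231250229) (nat_lit 188) (nat_lit 5) (nat_lit 195) (nat_lit 5) (nat_lit 196) (nat_lit 5) (nat_lit 394) (nat_lit 367) (nat_lit 139)) (XT.nd (nat_lit 78) (nat_lit 456) (nat_lit 0) (XT.lf (nat_lit 0) (nat_lit 33564086501) (nat_lit 532) (nat_lit 4512406529) (nat_lit 608) (nat_lit 8079073949) (nat_lit 188) (nat_lit 5) (nat_lit 195) (nat_lit 5) (nat_lit 196) (nat_lit 5) (nat_lit 395) (nat_lit 367) (nat_lit 138)) (XT.lf (nat_lit 0) (nat_lit 12103395119) (nat_lit 456) (nat_lit 32340900740) (nat_lit 532) (nat_lit 2507595180) (nat_lit 182) (nat_lit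 5) (nat_lit 188) (nat_lit 5) (nat_lit 189) (nat_lit 5) (nat_lit 396) (nat_lit 367) (nat_lit 137)))) (XT.nd (nat_lit 78) (nat_lit 532) (nat_lit 0) (XT.lf (nat_lit 0) (nat_lit 3339653118) (nat_lit 532) (nat_lit 10049627971) (nat_lit 76) (nat_lit 34376742362) (nat_lit 181) (nat_lit 5) (nat_lit 188) (nat_lit 5) (nat_lit 182) (nat_lit 5) (nat_lit 397) (nat_lit 367) (nat_lit 136)) (XT.nd (nat_lit 78) (nat_lit 0) (nat_lit 0) (XT.lf (nat_lit 0) (nat_lit 9522863780) (nat_lit 608) (nat_lit 32885335115) (nat_lit 76) (nat_lit 6189308354) (nat_lit 174) (nat_lit 5) (nat_lit 182) (nat_lit 5) (nat_lit 175) (nat_lit 5) (nat_lit 398) (nat_lit 367) (nat_lit 135)) (XT.lf (nat_lit 0) (nat_lit 16125277780) (nat_lit 608) (nat_lit 7133180599) (nat_lit 76) (nat_lit 26188466552) (nat_lit 174) (nat_lit 5) (nat_lit 182) (nat_lit 5) (nat_lit 175) (nat_lit 5) (nat_lit 399) (nat_lit 367) (nat_lit 134))))) (XT.nd (nat_lit 234) (nat_lit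 912) (nat_lit 0) (XT.nd (nat_lit 78) (nat_lit 456) (nat_lit 0) (XT.lf (nat_lit 0) (nat_lit 19775932058) (nat_lit 456) (nat_lit 3338623285) (nat_lit 532) (nat_lit 27201606628) (nat_lit 168) (nat_lit 5) (nat_lit 174) (nat_lit 5) (nat_lit 175) (nat_lit 5) (nat_lit 400) (nat_lit 367) (nat_lit 133)) (XT.nd (nat_lit 78) (nat_lit 456) (nat_lit 0) (XT.lf (nat_lit 0) (nat_lit 30550103280) (nat_lit 532) (nat_lit 3738148706) (nat_lit 76) (nat_lit 16916126921) (nat_lit 168) (nat_lit 5) (nat_lit 175) (nat_lit 5) (nat_lit 169) (nat_lit 5) (nat_lit 401) (nat_lit 367) (nat_lit 132)) (XT.lf (nat_lit 0) (nat_lit 24307787828) (nat_lit 456) (nat_lit 14166398797) (nat_lit 532) (nat_lit 13637092187) (nat_lit 162) (nat_lit 5) (nat_lit 168) (nat_lit 5) (nat_lit 169) (nat_lit 5) (nat_lit 402) (nat_lit 367) (nat_lit 131)))) (XT.nd (nat_lit 156) (nat_lit 456) (nat_lit 0) (XT.nd (nat_lit 78) (nat_lit 76) (nat_lit 0) (XT.lf (nat_lit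 0) (nat_lit 165784373) (nat_lit 380) (nat_lit 46571745464) (nat_lit 456) (nat_lit 6304810271) (nat_lit 157) (nat_lit 5) (nat_lit 162) (nat_lit 5) (nat_lit 163) (nat_lit 5) (nat_lit 403) (nat_lit 367) (nat_lit 130)) (XT.lf (nat_lit 0) (nat_lit 1645680846) (nat_lit 456) (nat_lit 24605374788) (nat_lit 76) (nat_lit 27737240876) (nat_lit 156) (nat_lit 5) (nat_lit 162) (nat_lit 5) (nat_lit 157) (nat_lit 5) (nat_lit 404) (nat_lit 367) (nat_lit 129))) (XT.nd (nat_lit 78) (nat_lit 0) (nat_lit 0) (XT.lf (nat_lit 0) (nat_lit 4538612177) (nat_lit 456) (nat_lit 5211798369) (nat_lit 532) (nat_lit 45209075484) (nat_lit 150) (nat_lit 5) (nat_lit 156) (nat_lit 5) (nat_lit 157) (nat_lit 5) (nat_lit 405) (nat_lit 367) (nat_lit 128)) (XT.lf (nat_lit 0) (nat_lit 18506252765) (nat_lit 532) (nat_lit 21053211329) (nat_lit 76) (nat_lit 16388108480) (nat_lit 150) (nat_lit 5) (nat_lit 157) (nat_lit 5) (nat_lit 151) (nat_lit 5) (nat_lit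 406) (nat_lit 367) (nat_lit 127)))))) (XT.nd (nat_lit 546) (nat_lit 1292) (nat_lit 0) (XT.nd (nat_lit 234) (nat_lit 760) (nat_lit 0) (XT.nd (nat_lit 78) (nat_lit 380) (nat_lit 0) (XT.lf (nat_lit 0) (nat_lit 9324386479) (nat_lit 380) (nat_lit 18340485446) (nat_lit 456) (nat_lit 29296227183) (nat_lit 145) (nat_lit 5) (nat_lit 150) (nat_lit 5) (nat_lit 151) (nat_lit 5) (nat_lit 407) (nat_lit 367) (nat_lit 126)) (XT.nd (nat_lit 78) (nat_lit 380) (nat_lit 0) (XT.lf (nat_lit 0) (nat_lit 37345623821) (nat_lit 456) (nat_lit 16991126568) (nat_lit 76) (nat_lit 3660860255) (nat_lit 145) (nat_lit 5) (nat_lit 151) (nat_lit 5) (nat_lit 146) (nat_lit 5) (nat_lit 408) (nat_lit 367) (nat_lit 125)) (XT.lf (nat_lit 0) (nat_lit 14677224614) (nat_lit 380) (nat_lit 32961165750) (nat_lit 456) (nat_lit 11417179820) (nat_lit 140) (nat_lit 5) (nat_lit 145) (nat_lit 5) (nat_lit 146) (nat_lit 5) (nat_lit 409) (nat_lit 367) (nat_lit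 124)))) (XT.nd (nat_lit 156) (nat_lit 380) (nat_lit 0) (XT.nd (nat_lit 78) (nat_lit 380) (nat_lit 0) (XT.lf (nat_lit 0) (nat_lit 47642522668) (nat_lit 380) (nat_lit 10767929007) (nat_lit 456) (nat_lit 1729701886) (nat_lit 140) (nat_lit 5) (nat_lit 145) (nat_lit 5) (nat_lit 146) (nat_lit 5) (nat_lit 410) (nat_lit 367) (nat_lit 123)) (XT.lf (nat_lit 0) (nat_lit 8403990841) (nat_lit 380) (nat_lit 40705922725) (nat_lit 76) (nat_lit 12135486204) (nat_lit 135) (nat_lit 5) (nat_lit 140) (nat_lit 5) (nat_lit 136) (nat_lit 5) (nat_lit 411) (nat_lit 367) (nat_lit 122))) (XT.nd (nat_lit 78) (nat_lit 380) (nat_lit 0) (XT.lf (nat_lit 0) (nat_lit 19039962353) (nat_lit 380) (nat_lit 7682518018) (nat_lit 76) (nat_lit 35653818594) (nat_lit 135) (nat_lit 5) (nat_lit 140) (nat_lit 5) (nat_lit 136) (nat_lit 5) (nat_lit 412) (nat_lit 367) (nat_lit 121)) (XT.lf (nat_lit 0) (nat_lit 26854253134) (nat_lit 380) (nat_lit 3397898463)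 (nat_lit 456) (nat_lit 33281259743) (nat_lit 130) (nat_lit 5) (nat_lit 135) (nat_lit 5) (nat_lit 136) (nat_lit 5) (nat_lit 413) (nat_lit 367) (nat_lit 120))))) (XT.nd (nat_lit 234) (nat_lit 608) (nat_lit 0) (XT.nd (nat_lit 78) (nat_lit 684) (nat_lit 0) (XT.lf (nat_lit 0) (nat_lit 42076338593) (nat_lit 456) (nat_lit 2338712103) (nat_lit 76) (nat_lit 20301917778) (nat_lit 130) (nat_lit 5) (nat_lit 136) (nat_lit 5) (nat_lit 131) (nat_lit 5) (nat_lit 414) (nat_lit 367) (nat_lit 119)) (XT.nd (nat_lit 78) (nat_lit 380) (nat_lit 0) (XT.lf (nat_lit 0) (nat_lit 33653677245) (nat_lit 304) (nat_lit 20957756854) (nat_lit 380) (nat_lit 11313913075) (nat_lit 126) (nat_lit 5) (nat_lit 130) (nat_lit 5) (nat_lit 131) (nat_lit 5) (nat_lit 415) (nat_lit 367) (nat_lit 118)) (XT.lf (nat_lit 0) (nat_lit 435317831) (nat_lit 380) (nat_lit 63528349994) (nat_lit 76) (nat_lit 3203520253) (nat_lit 121) (nat_lit 5) (nat_lit 126) (nat_lit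 5) (nat_lit 122) (nat_lit 5) (nat_lit 416) (nat_lit 367) (nat_lit 117)))) (XT.nd (nat_lit 156) (nat_lit 304) (nat_lit 0) (XT.nd (nat_lit 78) (nat_lit 304) (nat_lit 0) (XT.lf (nat_lit 0) (nat_lit 12845294416) (nat_lit 380) (nat_lit 27472406802) (nat_lit 76) (nat_lit 28109152717) (nat_lit 121) (nat_lit 5) (nat_lit 126) (nat_lit 5) (nat_lit 122) (nat_lit 5) (nat_lit 417) (nat_lit 367) (nat_lit 116)) (XT.lf (nat_lit 0) (nat_lit 9856234722) (nat_lit 304) (nat_lit 15865164715) (nat_lit 380) (nat_lit 44000095760) (nat_lit 117) (nat_lit 5) (nat_lit 121) (nat_lit 5) (nat_lit 122) (nat_lit 5) (nat_lit 418) (nat_lit 367) (nat_lit 115))) (XT.nd (nat_lit 78) (nat_lit 304) (nat_lit 0) (XT.lf (nat_lit 0) (nat_lit 39352645753) (nat_lit 380) (nat_lit 22272426893) (nat_lit 76) (nat_lit 9418837600) (nat_lit 117) (nat_lit 5) (nat_lit 122) (nat_lit 5) (nat_lit 118) (nat_lit 5) (nat_lit 419) (nat_lit 367) (nat_lit 114)) (XT.lf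 (nat_lit 0) (nat_lit 16614027603) (nat_lit 304) (nat_lit 37094708580) (nat_lit 380) (nat_lit 18687784646) (nat_lit 113) (nat_lit 5) (nat_lit 117) (nat_lit 5) (nat_lit 118) (nat_lit 5) (nat_lit 420) (nat_lit 367) (nat_lit 113))))))) (XT.nd (nat_lit 43368) (nat_lit 0) (nat_lit 8056) (XT.nd (nat_lit 42822) (nat_lit 0) (nat_lit 9956) (XT.nd (nat_lit 234) (nat_lit 304) (nat_lit 0) (XT.nd (nat_lit 78) (nat_lit 380) (nat_lit 0) (XT.lf (nat_lit 0) (nat_lit 57122368453) (nat_lit 304) (nat_lit 11597183777) (nat_lit 380) (nat_lit 5063436489) (nat_lit 113) (nat_lit 5) (nat_lit 117) (nat_lit 5) (nat_lit 118) (nat_lit 5) (nat_lit 421) (nat_lit 367) (nat_lit 112)) (XT.nd (nat_lit 78) (nat_lit 0) (nat_lit 0) (XT.lf (nat_lit 0) (nat_lit 9168728034) (nat_lit 380) (nat_lit 51329594024) (nat_lit 76) (nat_lit 14698918720) (nat_lit 108) (nat_lit 5) (nat_lit 113) (nat_lit 5) (nat_lit 109) (nat_lit 5) (nat_lit 422) (nat_lit 367)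 (nat_lit 111)) (XT.lf (nat_lit 0) (nat_lit 24009976986) (nat_lit 380) (nat_lit 10863466954) (nat_lit 76) (nat_lit 41770456035) (nat_lit 108) (nat_lit 5) (nat_lit 113) (nat_lit 5) (nat_lit 109) (nat_lit 5) (nat_lit 423) (nat_lit 367) (nat_lit 110)))) (XT.nd (nat_lit 78) (nat_lit 0) (nat_lit 0) (XT.lf (nat_lit 0) (nat_lit 31428708379) (nat_lit 304) (nat_lit 8169052061) (nat_lit 380) (nat_lit 38527159842) (nat_lit 104) (nat_lit 5) (nat_lit 108) (nat_lit 5) (nat_lit 109) (nat_lit 5) (nat_lit 424) (nat_lit 367) (nat_lit 109)) (XT.nd (nat_lit 42432) (nat_lit 0) (nat_lit 9956) (XT.lf (nat_lit 0) (nat_lit 55949030480) (nat_lit 380) (nat_lit 4622932207) (nat_lit 76) (nat_lit 19069533157) (nat_lit 104) (nat_lit 5) (nat_lit 109) (nat_lit 5) (nat_lit 105) (nat_lit 5) (nat_lit 425) (nat_lit 367) (nat_lit 108)) (XT.lf (nat_lit 0) (nat_lit 1312653988) (nat_lit 1292) (nat_lit 6954816197) (nat_lit 1292) (nat_lit 6954816197)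 (nat_lit 235) (nat_lit 3) (nat_lit 252) (nat_lit 3) (nat_lit 252) (nat_lit 5) (nat_lit 368) (nat_lit 368) (nat_lit 164))))) (XT.nd (nat_lit 234) (nat_lit 0) (nat_lit 152) (XT.nd (nat_lit 78) (nat_lit 0) (nat_lit 76) (XT.lf (nat_lit 76) (nat_lit 655042774) (nat_lit 0) (nat_lit 2085478878) (nat_lit 1292) (nat_lit 28158408650) (nat_lit 236) (nat_lit 5) (nat_lit 235) (nat_lit 3) (nat_lit 252) (nat_lit 5) (nat_lit 369) (nat_lit 368) (nat_lit 163)) (XT.nd (nat_lit 78) (nat_lit 0) (nat_lit 0) (XT.lf (nat_lit 0) (nat_lit 3121344471) (nat_lit 1216) (nat_lit 15546842416) (nat_lit 1292) (nat_lit 12690868500) (nat_lit 236) (nat_lit 5) (nat_lit 252) (nat_lit 5) (nat_lit 253) (nat_lit 5) (nat_lit 370) (nat_lit 368) (nat_lit 162)) (XT.lf (nat_lit 0) (nat_lit 3531604311) (nat_lit 1216) (nat_lit 431011836) (nat_lit 1292) (nat_lit 27869829074) (nat_lit 236) (nat_lit 5) (nat_lit 252) (nat_lit 5) (nat_lit 253) (nat_lit 5)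 (nat_lit 371) (nat_lit 368) (nat_lit 161)))) (XT.nd (nat_lit 156) (nat_lit 0) (nat_lit 76) (XT.nd (nat_lit 78) (nat_lit 0) (nat_lit 0) (XT.lf (nat_lit 0) (nat_lit 4209002074) (nat_lit 1216) (nat_lit 16986539285) (nat_lit 1292) (nat_lit 11116851812) (nat_lit 237) (nat_lit 5) (nat_lit 253) (nat_lit 5) (nat_lit 254) (nat_lit 5) (nat_lit 372) (nat_lit 368) (nat_lit 160)) (XT.lf (nat_lit 0) (nat_lit 4947863113) (nat_lit 1216) (nat_lit 1283132081) (nat_lit 1292) (nat_lit 26574511413) (nat_lit 237) (nat_lit 5) (nat_lit 253) (nat_lit 5) (nat_lit 254) (nat_lit 5) (nat_lit 373) (nat_lit 368) (nat_lit 159))) (XT.nd (nat_lit 78) (nat_lit 0) (nat_lit 0) (XT.lf (nat_lit 0) (nat_lit 5942176232) (nat_lit 1216) (nat_lit 18212577311) (nat_lit 1292) (nat_lit 9151662565) (nat_lit 238) (nat_lit 5) (nat_lit 254) (nat_lit 5) (nat_lit 255) (nat_lit 5) (nat_lit 374) (nat_lit 368) (nat_lit 158)) (XT.lf (nat_lit 0) (nat_lit 7038746864)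 (nat_lit 1216) (nat_lit 1896893309) (nat_lit 1292) (nat_lit 24884541088) (nat_lit 238) (nat_lit 5) (nat_lit 254) (nat_lit 5) (nat_lit 255) (nat_lit 5) (nat_lit 375) (nat_lit 368) (nat_lit 157)))))) (XT.nd (nat_lit 546) (nat_lit 2204) (nat_lit 0) (XT.nd (nat_lit 234) (nat_lit 0) (nat_lit 76) (XT.nd (nat_lit 78) (nat_lit 0) (nat_lit 0) (XT.lf (nat_lit 0) (nat_lit 8378321719) (nat_lit 1216) (nat_lit 19207838484) (nat_lit 1292) (nat_lit 6756897134) (nat_lit 239) (nat_lit 5) (nat_lit 255) (nat_lit 5) (nat_lit 256) (nat_lit 5) (nat_lit 376) (nat_lit 368) (nat_lit 156)) (XT.nd (nat_lit 78) (nat_lit 0) (nat_lit 76) (XT.lf (nat_lit 0) (nat_lit 9863677831) (nat_lit 1216) (nat_lit 2254073337) (nat_lit 1292) (nat_lit 22760701849) (nat_lit 239) (nat_lit 5) (nat_lit 255) (nat_lit 5) (nat_lit 256) (nat_lit 5) (nat_lit 377) (nat_lit 368) (nat_lit 155)) (XT.lf (nat_lit 0) (nat_lit 11578675179) (nat_lit 1216) (nat_lit 19954206339)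 (nat_lit 1292) (nat_lit 3891477742) (nat_lit 240) (nat_lit 5) (nat_lit 256) (nat_lit 5) (nat_lit 257) (nat_lit 5) (nat_lit 378) (nat_lit 368) (nat_lit 154)))) (XT.nd (nat_lit 156) (nat_lit 0) (nat_lit 76) (XT.nd (nat_lit 78) (nat_lit 0) (nat_lit 76) (XT.lf (nat_lit 0) (nat_lit 13485984306) (nat_lit 1216) (nat_lit 2335407061) (nat_lit 1292) (nat_lit 20161026546) (nat_lit 240) (nat_lit 5) (nat_lit 256) (nat_lit 5) (nat_lit 257) (nat_lit 5) (nat_lit 379) (nat_lit 368) (nat_lit 153)) (XT.lf (nat_lit 0) (nat_lit 15608489575) (nat_lit 1216) (nat_lit 20432540708) (nat_lit 1292) (nat_lit 511449784) (nat_lit 241) (nat_lit 5) (nat_lit 257) (nat_lit 5) (nat_lit 258) (nat_lit 5) (nat_lit 380) (nat_lit 368) (nat_lit 152))) (XT.nd (nat_lit 78) (nat_lit 0) (nat_lit 0) (XT.lf (nat_lit 0) (nat_lit 17973142154) (nat_lit 1216) (nat_lit 2120559763) (nat_lit 1292) (nat_lit 17040589019) (nat_lit 241) (nat_lit 5) (nat_lit 257)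 (nat_lit 5) (nat_lit 258) (nat_lit 5) (nat_lit 381) (nat_lit 368) (nat_lit 151)) (XT.lf (nat_lit 76) (nat_lit 17072408317) (nat_lit 0) (nat_lit 3498502625) (nat_lit 1292) (nat_lit 17157780877) (nat_lit 242) (nat_lit 5) (nat_lit 241) (nat_lit 5) (nat_lit 258) (nat_lit 5) (nat_lit 382) (nat_lit 368) (nat_lit 150))))) (XT.nd (nat_lit 234) (nat_lit 2432) (nat_lit 0) (XT.nd (nat_lit 78) (nat_lit 0) (nat_lit 0) (XT.lf (nat_lit 0) (nat_lit 23397029302) (nat_lit 1216) (nat_lit 1588101727) (nat_lit 1292) (nat_lit 13351282161) (nat_lit 242) (nat_lit 5) (nat_lit 258) (nat_lit 5) (nat_lit 259) (nat_lit 5) (nat_lit 383) (nat_lit 368) (nat_lit 149)) (XT.nd (nat_lit 78) (nat_lit 0) (nat_lit 76) (XT.lf (nat_lit 76) (nat_lit 18374522432) (nat_lit 0) (nat_lit 8142841407) (nat_lit 1292) (nat_lit 12438720315) (nat_lit 243) (nat_lit 5) (nat_lit 242) (nat_lit 5) (nat_lit 259) (nat_lit 5) (nat_lit 384) (nat_lit 368) (nat_lit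 148)) (XT.lf (nat_lit 0) (nat_lit 29834193861) (nat_lit 1216) (nat_lit 715484647) (nat_lit 76) (nat_lit 9041581077) (nat_lit 243) (nat_lit 5) (nat_lit 259) (nat_lit 5) (nat_lit 244) (nat_lit 5) (nat_lit 385) (nat_lit 368) (nat_lit 147)))) (XT.nd (nat_lit 156) (nat_lit 684) (nat_lit 0) (XT.nd (nat_lit 78) (nat_lit 608) (nat_lit 0) (XT.lf (nat_lit 0) (nat_lit 20055798664) (nat_lit 1216) (nat_lit 13466401682) (nat_lit 1292) (nat_lit 6715140663) (nat_lit 227) (nat_lit 5) (nat_lit 243) (nat_lit 5) (nat_lit 244) (nat_lit 5) (nat_lit 386) (nat_lit 368) (nat_lit 146)) (XT.lf (nat_lit 0) (nat_lit 531348203) (nat_lit 608) (nat_lit 36839896013) (nat_lit 684) (nat_lit 3530049595) (nat_lit 219) (nat_lit 5) (nat_lit 227) (nat_lit 5) (nat_lit 228) (nat_lit 5) (nat_lit 387) (nat_lit 368) (nat_lit 145))) (XT.nd (nat_lit 78) (nat_lit 608) (nat_lit 0) (XT.lf (nat_lit 0) (nat_lit 92919890) (nat_lit 684) (nat_lit 19434247980)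 (nat_lit 76) (nat_lit 22047946286) (nat_lit 218) (nat_lit 5) (nat_lit 227) (nat_lit 5) (nat_lit 219) (nat_lit 5) (nat_lit 388) (nat_lit 368) (nat_lit 144)) (XT.lf (nat_lit 0) (nat_lit 2134698180) (nat_lit 608) (nat_lit 1637815244) (nat_lit 684) (nat_lit 38495021372) (nat_lit 210) (nat_lit 5) (nat_lit 218) (nat_lit 5) (nat_lit 219) (nat_lit 5) (nat_lit 389) (nat_lit 368) (nat_lit 143))))))))
noncomputable def xc236 : XT := (XT.nd (nat_lit 2106) (nat_lit 1368) (nat_lit 0) (XT.nd (nat_lit 1014) (nat_lit 3192) (nat_lit 0) (XT.nd (nat_lit 468) (nat_lit 1520) (nat_lit 0) (XT.nd (nat_lit 234) (nat_lit 1064) (nat_lit 0) (XT.nd (nat_lit 78) (nat_lit 608) (nat_lit 0) (XT.lf (nat_lit 0) (nat_lit 7920463605) (nat_lit 684) (nat_lit 18390628284) (nat_lit 76) (nat_lit 16658897858) (nat_lit 210) (nat_lit 5) (nat_lit 219) (nat_lit 5) (nat_lit 211) (nat_lit 5) (nat_lit 390) (nat_lit 368) (nat_lit 142)) (XT.nd (nat_lit 78)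 (nat_lit 0) (nat_lit 0) (XT.lf (nat_lit 0) (nat_lit 4065445530) (nat_lit 608) (nat_lit 8181148296) (nat_lit 684) (nat_lit 31445313008) (nat_lit 202) (nat_lit 5) (nat_lit 210) (nat_lit 5) (nat_lit 211) (nat_lit 5) (nat_lit 391) (nat_lit 368) (nat_lit 141)) (XT.lf (nat_lit 0) (nat_lit 16989395167) (nat_lit 684) (nat_lit 16961967655) (nat_lit 76) (nat_lit 10475512707) (nat_lit 202) (nat_lit 5) (nat_lit 211) (nat_lit 5) (nat_lit 203) (nat_lit 5) (nat_lit 392) (nat_lit 368) (nat_lit 140)))) (XT.nd (nat_lit 78) (nat_lit 532) (nat_lit 0) (XT.lf (nat_lit 0) (nat_lit 6425337894) (nat_lit 532) (nat_lit 15590429792) (nat_lit 608) (nat_lit 23163887678) (nat_lit 195) (nat_lit 5) (nat_lit 202) (nat_lit 5) (nat_lit 203) (nat_lit 5) (nat_lit 393) (nat_lit 368) (nat_lit 139)) (XT.nd (nat_lit 78) (nat_lit 532) (nat_lit 0) (XT.lf (nat_lit 0) (nat_lit 27396386313) (nat_lit 608) (nat_lit 15123068321) (nat_lit 76) (nat_lit 3429460982)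 (nat_lit 195) (nat_lit 5) (nat_lit 203) (nat_lit 5) (nat_lit 196) (nat_lit 5) (nat_lit 394) (nat_lit 368) (nat_lit 138)) (XT.lf (nat_lit 0) (nat_lit 9241607287) (nat_lit 532) (nat_lit 23938604908) (nat_lit 608) (nat_lit 13553788473) (nat_lit 188) (nat_lit 5) (nat_lit 195) (nat_lit 5) (nat_lit 196) (nat_lit 5) (nat_lit 395) (nat_lit 368) (nat_lit 137))))) (XT.nd (nat_lit 234) (nat_lit 988) (nat_lit 0) (XT.nd (nat_lit 78) (nat_lit 532) (nat_lit 0) (XT.lf (nat_lit 0) (nat_lit 34645758452) (nat_lit 532) (nat_lit 4643126613) (nat_lit 608) (nat_lit 8249213874) (nat_lit 188) (nat_lit 5) (nat_lit 195) (nat_lit 5) (nat_lit 196) (nat_lit 5) (nat_lit 396) (nat_lit 368) (nat_lit 136)) (XT.nd (nat_lit 78) (nat_lit 76) (nat_lit 0) (XT.lf (nat_lit 0) (nat_lit 12542583328) (nat_lit 456) (nat_lit 33303871787) (nat_lit 532) (nat_lit 2511896546) (nat_lit 182) (nat_lit 5) (nat_lit 188) (nat_lit 5) (nat_lit 189) (nat_lit 5)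 (nat_lit 397) (nat_lit 368) (nat_lit 135)) (XT.lf (nat_lit 0) (nat_lit 3507359661) (nat_lit 532) (nat_lit 10275873436) (nat_lit 76) (nat_lit 35413716143) (nat_lit 181) (nat_lit 5) (nat_lit 188) (nat_lit 5) (nat_lit 182) (nat_lit 5) (nat_lit 398) (nat_lit 368) (nat_lit 134)))) (XT.nd (nat_lit 156) (nat_lit 456) (nat_lit 0) (XT.nd (nat_lit 78) (nat_lit 0) (nat_lit 0) (XT.lf (nat_lit 0) (nat_lit 9874895524) (nat_lit 608) (nat_lit 33795452124) (nat_lit 76) (nat_lit 6383065895) (nat_lit 174) (nat_lit 5) (nat_lit 182) (nat_lit 5) (nat_lit 175) (nat_lit 5) (nat_lit 399) (nat_lit 368) (nat_lit 133)) (XT.lf (nat_lit 0) (nat_lit 16673449540) (nat_lit 608) (nat_lit 7272959470) (nat_lit 76) (nat_lit 26981963548) (nat_lit 174) (nat_lit 5) (nat_lit 182) (nat_lit 5) (nat_lit 175) (nat_lit 5) (nat_lit 400) (nat_lit 368) (nat_lit 132))) (XT.nd (nat_lit 78) (nat_lit 0) (nat_lit 0) (XT.lf (nat_lit 0) (nat_lit 20442698954)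 (nat_lit 456) (nat_lit 3428536777) (nat_lit 532) (nat_lit 27952486876) (nat_lit 168) (nat_lit 5) (nat_lit 174) (nat_lit 5) (nat_lit 175) (nat_lit 5) (nat_lit 401) (nat_lit 368) (nat_lit 131)) (XT.lf (nat_lit 0) (nat_lit 31528103671) (nat_lit 532) (nat_lit 3777172125) (nat_lit 76) (nat_lit 17433363433) (nat_lit 168) (nat_lit 5) (nat_lit 175) (nat_lit 5) (nat_lit 169) (nat_lit 5) (nat_lit 402) (nat_lit 368) (nat_lit 130)))))) (XT.nd (nat_lit 546) (nat_lit 1444) (nat_lit 0) (XT.nd (nat_lit 234) (nat_lit 836) (nat_lit 0) (XT.nd (nat_lit 78) (nat_lit 456) (nat_lit 0) (XT.lf (nat_lit 0) (nat_lit 25109425633) (nat_lit 456) (nat_lit 14579388693) (nat_lit 532) (nat_lit 13983965421) (nat_lit 162) (nat_lit 5) (nat_lit 168) (nat_lit 5) (nat_lit 169) (nat_lit 5) (nat_lit 403) (nat_lit 368) (nat_lit 129)) (XT.nd (nat_lit 78) (nat_lit 76) (nat_lit 0) (XT.lf (nat_lit 0) (nat_lit 244157404) (nat_lit 380) (nat_lit 47954958718)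 (nat_lit 456) (nat_lit 6432685751) (nat_lit 157) (nat_lit 5) (nat_lit 162) (nat_lit 5) (nat_lit 163) (nat_lit 5) (nat_lit 404) (nat_lit 368) (nat_lit 128)) (XT.lf (nat_lit 0) (nat_lit 1753374818) (nat_lit 456) (nat_lit 25271090414) (nat_lit 76) (nat_lit 28581707253) (nat_lit 156) (nat_lit 5) (nat_lit 162) (nat_lit 5) (nat_lit 157) (nat_lit 5) (nat_lit 405) (nat_lit 368) (nat_lit 127)))) (XT.nd (nat_lit 156) (nat_lit 380) (nat_lit 0) (XT.nd (nat_lit 78) (nat_lit 0) (nat_lit 0) (XT.lf (nat_lit 0) (nat_lit 4746505908) (nat_lit 456) (nat_lit 5353731322) (nat_lit 532) (nat_lit 46506291413) (nat_lit 150) (nat_lit 5) (nat_lit 156) (nat_lit 5) (nat_lit 157) (nat_lit 5) (nat_lit 406) (nat_lit 368) (nat_lit 126)) (XT.lf (nat_lit 0) (nat_lit 19117219951) (nat_lit 532) (nat_lit 21613605037) (nat_lit 76) (nat_lit 16893479494) (nat_lit 150) (nat_lit 5) (nat_lit 157) (nat_lit 5) (nat_lit 151) (nat_lit 5) (nat_lit 407)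 (nat_lit 368) (nat_lit 125))) (XT.nd (nat_lit 78) (nat_lit 0) (nat_lit 0) (XT.lf (nat_lit 0) (nat_lit 9674622640) (nat_lit 380) (nat_lit 18875028130) (nat_lit 456) (nat_lit 30118615088) (nat_lit 145) (nat_lit 5) (nat_lit 150) (nat_lit 5) (nat_lit 151) (nat_lit 5) (nat_lit 408) (nat_lit 368) (nat_lit 124)) (XT.lf (nat_lit 0) (nat_lit 38519374414) (nat_lit 456) (nat_lit 17430937896) (nat_lit 76) (nat_lit 3785604573) (nat_lit 145) (nat_lit 5) (nat_lit 151) (nat_lit 5) (nat_lit 146) (nat_lit 5) (nat_lit 409) (nat_lit 368) (nat_lit 123))))) (XT.nd (nat_lit 234) (nat_lit 684) (nat_lit 0) (XT.nd (nat_lit 78) (nat_lit 380) (nat_lit 0) (XT.lf (nat_lit 0) (nat_lit 15186778307) (nat_lit 380) (nat_lit 33933256382) (nat_lit 456) (nat_lit 11705607798) (nat_lit 140) (nat_lit 5) (nat_lit 145) (nat_lit 5) (nat_lit 146) (nat_lit 5) (nat_lit 410) (nat_lit 368) (nat_lit 122)) (XT.nd (nat_lit 78) (nat_lit 380) (nat_lit 0) (XT.lf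 (nat_lit 0) (nat_lit 49139018693) (nat_lit 380) (nat_lit 11074710236) (nat_lit 456) (nat_lit 1729080888) (nat_lit 140) (nat_lit 5) (nat_lit 145) (nat_lit 5) (nat_lit 146) (nat_lit 5) (nat_lit 411) (nat_lit 368) (nat_lit 121)) (XT.lf (nat_lit 0) (nat_lit 8706911055) (nat_lit 380) (nat_lit 41858131295) (nat_lit 76) (nat_lit 12516177074) (nat_lit 135) (nat_lit 5) (nat_lit 140) (nat_lit 5) (nat_lit 136) (nat_lit 5) (nat_lit 412) (nat_lit 368) (nat_lit 120)))) (XT.nd (nat_lit 156) (nat_lit 304) (nat_lit 0) (XT.nd (nat_lit 78) (nat_lit 380) (nat_lit 0) (XT.lf (nat_lit 0) (nat_lit 19660482086) (nat_lit 380) (nat_lit 7846033257) (nat_lit 76) (nat_lit 36739575175) (nat_lit 135) (nat_lit 5) (nat_lit 140) (nat_lit 5) (nat_lit 136) (nat_lit 5) (nat_lit 413) (nat_lit 368) (nat_lit 119)) (XT.lf (nat_lit 0) (nat_lit 27726184556) (nat_lit 380) (nat_lit 3482053273) (nat_lit 456) (nat_lit 34229702927) (nat_lit 130) (nat_lit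 5) (nat_lit 135) (nat_lit 5) (nat_lit 136) (nat_lit 5) (nat_lit 414) (nat_lit 368) (nat_lit 118))) (XT.nd (nat_lit 78) (nat_lit 304) (nat_lit 0) (XT.lf (nat_lit 0) (nat_lit 43385903137) (nat_lit 456) (nat_lit 2343236748) (nat_lit 76) (nat_lit 20927902641) (nat_lit 130) (nat_lit 5) (nat_lit 136) (nat_lit 5) (nat_lit 131) (nat_lit 5) (nat_lit 415) (nat_lit 368) (nat_lit 117)) (XT.lf (nat_lit 0) (nat_lit 34728280783) (nat_lit 304) (nat_lit 21568018557) (nat_lit 380) (nat_lit 11605396302) (nat_lit 126) (nat_lit 5) (nat_lit 130) (nat_lit 5) (nat_lit 131) (nat_lit 5) (nat_lit 416) (nat_lit 368) (nat_lit 116))))))) (XT.nd (nat_lit 43524) (nat_lit 0) (nat_lit 9044) (XT.nd (nat_lit 468) (nat_lit 380) (nat_lit 0) (XT.nd (nat_lit 234) (nat_lit 304) (nat_lit 0) (XT.nd (nat_lit 78) (nat_lit 304) (nat_lit 0) (XT.lf (nat_lit 0) (nat_lit 494817976) (nat_lit 380) (nat_lit 65367682564) (nat_lit 76) (nat_lit 3318294615) (nat_lit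 121) (nat_lit 5) (nat_lit 126) (nat_lit 5) (nat_lit 122) (nat_lit 5) (nat_lit 417) (nat_lit 368) (nat_lit 115)) (XT.nd (nat_lit 78) (nat_lit 304) (nat_lit 0) (XT.lf (nat_lit 0) (nat_lit 13275741220) (nat_lit 380) (nat_lit 28231998492) (nat_lit 76) (nat_lit 28970552303) (nat_lit 121) (nat_lit 5) (nat_lit 126) (nat_lit 5) (nat_lit 122) (nat_lit 5) (nat_lit 418) (nat_lit 368) (nat_lit 114)) (XT.lf (nat_lit 0) (nat_lit 10215869135) (nat_lit 304) (nat_lit 16321561715) (nat_lit 380) (nat_lit 45274363054) (nat_lit 117) (nat_lit 5) (nat_lit 121) (nat_lit 5) (nat_lit 122) (nat_lit 5) (nat_lit 419) (nat_lit 368) (nat_lit 113)))) (XT.nd (nat_lit 78) (nat_lit 304) (nat_lit 0) (XT.lf (nat_lit 0) (nat_lit 40576504186) (nat_lit 380) (nat_lit 22877390459) (nat_lit 76) (nat_lit 9720020491) (nat_lit 117) (nat_lit 5) (nat_lit 122) (nat_lit 5) (nat_lit 118) (nat_lit 5) (nat_lit 420) (nat_lit 368) (nat_lit 112)) (XT.nd (nat_lit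 78) (nat_lit 0) (nat_lit 0) (XT.lf (nat_lit 0) (nat_lit 17175037973) (nat_lit 304) (nat_lit 38187580450) (nat_lit 380) (nat_lit 19204505790) (nat_lit 113) (nat_lit 5) (nat_lit 117) (nat_lit 5) (nat_lit 118) (nat_lit 5) (nat_lit 421) (nat_lit 368) (nat_lit 111)) (XT.lf (nat_lit 0) (nat_lit 58896806052) (nat_lit 304) (nat_lit 11925711536) (nat_lit 380) (nat_lit 5172706190) (nat_lit 113) (nat_lit 5) (nat_lit 117) (nat_lit 5) (nat_lit 118) (nat_lit 5) (nat_lit 422) (nat_lit 368) (nat_lit 110))))) (XT.nd (nat_lit 42744) (nat_lit 0) (nat_lit 9652) (XT.nd (nat_lit 78) (nat_lit 0) (nat_lit 0) (XT.lf (nat_lit 0) (nat_lit 9485150943) (nat_lit 380) (nat_lit 52807417643) (nat_lit 76) (nat_lit 15159336105) (nat_lit 108) (nat_lit 5) (nat_lit 113) (nat_lit 5) (nat_lit 109) (nat_lit 5) (nat_lit 423) (nat_lit 368) (nat_lit 109)) (XT.nd (nat_lit 42588) (nat_lit 0) (nat_lit 9652) (XT.lf (nat_lit 0) (nat_lit 24770432672) (nat_lit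 380) (nat_lit 11129114455) (nat_lit 76) (nat_lit 43042453040) (nat_lit 108) (nat_lit 5) (nat_lit 113) (nat_lit 5) (nat_lit 109) (nat_lit 5) (nat_lit 424) (nat_lit 368) (nat_lit 108)) (XT.lf (nat_lit 0) (nat_lit 1420902555) (nat_lit 1292) (nat_lit 7127975331) (nat_lit 1292) (nat_lit 7127975331) (nat_lit 235) (nat_lit 3) (nat_lit 252) (nat_lit 3) (nat_lit 252) (nat_lit 5) (nat_lit 369) (nat_lit 369) (nat_lit 162)))) (XT.nd (nat_lit 156) (nat_lit 0) (nat_lit 76) (XT.nd (nat_lit 78) (nat_lit 0) (nat_lit 76) (XT.lf (nat_lit 76) (nat_lit 744968970) (nat_lit 0) (nat_lit 2212169968) (nat_lit 1292) (nat_lit 28864657926) (nat_lit 236) (nat_lit 5) (nat_lit 235) (nat_lit 3) (nat_lit 252) (nat_lit 5) (nat_lit 370) (nat_lit 369) (nat_lit 161)) (XT.lf (nat_lit 0) (nat_lit 3344873361) (nat_lit 1216) (nat_lit 15940439256) (nat_lit 1292) (nat_lit 13010550496) (nat_lit 236) (nat_lit 5) (nat_lit 252) (nat_lit 5) (nat_lit 253)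 (nat_lit 5) (nat_lit 371) (nat_lit 369) (nat_lit 160))) (XT.nd (nat_lit 78) (nat_lit 0) (nat_lit 76) (XT.lf (nat_lit 0) (nat_lit 3763657833) (nat_lit 1216) (nat_lit 373254393) (nat_lit 1292) (nat_lit 28646657869) (nat_lit 236) (nat_lit 5) (nat_lit 252) (nat_lit 5) (nat_lit 253) (nat_lit 5) (nat_lit 372) (nat_lit 369) (nat_lit 159)) (XT.lf (nat_lit 0) (nat_lit 4457866859) (nat_lit 1216) (nat_lit 17421873579) (nat_lit 1292) (nat_lit 11398283269) (nat_lit 237) (nat_lit 5) (nat_lit 253) (nat_lit 5) (nat_lit 254) (nat_lit 5) (nat_lit 373) (nat_lit 369) (nat_lit 158)))))) (XT.nd (nat_lit 546) (nat_lit 760) (nat_lit 0) (XT.nd (nat_lit 234) (nat_lit 0) (nat_lit 152) (XT.nd (nat_lit 78) (nat_lit 0) (nat_lit 76) (XT.lf (nat_lit 0) (nat_lit 5215323009) (nat_lit 1216) (nat_lit 1249527126) (nat_lit 1292) (nat_lit 27321189380) (nat_lit 237) (nat_lit 5) (nat_lit 253) (nat_lit 5) (nat_lit 254) (nat_lit 5) (nat_lit 374)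 (nat_lit 369) (nat_lit 157)) (XT.nd (nat_lit 78) (nat_lit 0) (nat_lit 0) (XT.lf (nat_lit 0) (nat_lit 6236253927) (nat_lit 1216) (nat_lit 18683584342) (nat_lit 1292) (nat_lit 9382236173) (nat_lit 238) (nat_lit 5) (nat_lit 254) (nat_lit 5) (nat_lit 255) (nat_lit 5) (nat_lit 375) (nat_lit 369) (nat_lit 156)) (XT.lf (nat_lit 0) (nat_lit 7362348502) (nat_lit 1216) (nat_lit 1880625071) (nat_lit 1292) (nat_lit 25588381914) (nat_lit 238) (nat_lit 5) (nat_lit 254) (nat_lit 5) (nat_lit 255) (nat_lit 5) (nat_lit 376) (nat_lit 369) (nat_lit 155)))) (XT.nd (nat_lit 156) (nat_lit 0) (nat_lit 76) (XT.nd (nat_lit 78) (nat_lit 0) (nat_lit 0) (XT.lf (nat_lit 0) (nat_lit 8739172638) (nat_lit 1216) (nat_lit 19707904292) (nat_lit 1292) (nat_lit 6922930744) (nat_lit 239) (nat_lit 5) (nat_lit 255) (nat_lit 5) (nat_lit 256) (nat_lit 5) (nat_lit 377) (nat_lit 369) (nat_lit 154)) (XT.lf (nat_lit 0) (nat_lit 10265900076) (nat_lit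 1216) (nat_lit 2247744715) (nat_lit 1292) (nat_lit 23407917755) (nat_lit 239) (nat_lit 5) (nat_lit 255) (nat_lit 5) (nat_lit 256) (nat_lit 5) (nat_lit 378) (nat_lit 369) (nat_lit 153))) (XT.nd (nat_lit 78) (nat_lit 0) (nat_lit 0) (XT.lf (nat_lit 0) (nat_lit 12029659728) (nat_lit 1216) (nat_lit 20476140980) (nat_lit 1292) (nat_lit 3978127491) (nat_lit 240) (nat_lit 5) (nat_lit 256) (nat_lit 5) (nat_lit 257) (nat_lit 5) (nat_lit 379) (nat_lit 369) (nat_lit 152)) (XT.lf (nat_lit 0) (nat_lit 13991169945) (nat_lit 1216) (nat_lit 2331011458) (nat_lit 1292) (nat_lit 20736639301) (nat_lit 240) (nat_lit 5) (nat_lit 256) (nat_lit 5) (nat_lit 257) (nat_lit 5) (nat_lit 380) (nat_lit 369) (nat_lit 151))))) (XT.nd (nat_lit 234) (nat_lit 1064) (nat_lit 0) (XT.nd (nat_lit 78) (nat_lit 0) (nat_lit 0) (XT.lf (nat_lit 0) (nat_lit 16174891799) (nat_lit 1216) (nat_lit 20968550478) (nat_lit 1292) (nat_lit 502617704) (nat_lit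 241) (nat_lit 5) (nat_lit 257) (nat_lit 5) (nat_lit 258) (nat_lit 5) (nat_lit 381) (nat_lit 369) (nat_lit 150)) (XT.nd (nat_lit 78) (nat_lit 0) (nat_lit 0) (XT.lf (nat_lit 0) (nat_lit 18607625289) (nat_lit 1216) (nat_lit 2109451847) (nat_lit 1292) (nat_lit 17528335258) (nat_lit 241) (nat_lit 5) (nat_lit 257) (nat_lit 5) (nat_lit 258) (nat_lit 5) (nat_lit 382) (nat_lit 369) (nat_lit 149)) (XT.lf (nat_lit 76) (nat_lit 17658572681) (nat_lit 0) (nat_lit 3622690313) (nat_lit 1292) (nat_lit 17576445649) (nat_lit 242) (nat_lit 5) (nat_lit 241) (nat_lit 5) (nat_lit 258) (nat_lit 5) (nat_lit 383) (nat_lit 369) (nat_lit 148)))) (XT.nd (nat_lit 156) (nat_lit 1140) (nat_lit 0) (XT.nd (nat_lit 78) (nat_lit 0) (nat_lit 0) (XT.lf (nat_lit 0) (nat_lit 24189270131) (nat_lit 1216) (nat_lit 1560967187) (nat_lit 1292) (nat_lit 13733512555) (nat_lit 242) (nat_lit 5) (nat_lit 258) (nat_lit 5) (nat_lit 259) (nat_lit 5) (nat_lit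 384) (nat_lit 369) (nat_lit 147)) (XT.lf (nat_lit 76) (nat_lit 18999802583) (nat_lit 0) (nat_lit 8401492912) (nat_lit 1292) (nat_lit 12720774382) (nat_lit 243) (nat_lit 5) (nat_lit 242) (nat_lit 5) (nat_lit 259) (nat_lit 5) (nat_lit 385) (nat_lit 369) (nat_lit 146))) (XT.nd (nat_lit 78) (nat_lit 1216) (nat_lit 0) (XT.lf (nat_lit 0) (nat_lit 30814921273) (nat_lit 1216) (nat_lit 662309014) (nat_lit 76) (nat_lit 9299152854) (nat_lit 243) (nat_lit 5) (nat_lit 259) (nat_lit 5) (nat_lit 244) (nat_lit 5) (nat_lit 386) (nat_lit 369) (nat_lit 145)) (XT.lf (nat_lit 0) (nat_lit 20731381030) (nat_lit 1216) (nat_lit 13880401213) (nat_lit 1292) (nat_lit 6830119595) (nat_lit 227) (nat_lit 5) (nat_lit 243) (nat_lit 5) (nat_lit 244) (nat_lit 5) (nat_lit 387) (nat_lit 369) (nat_lit 144))))))))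
noncomputable def xc237 : XT := (XT.nd (nat_lit 2106) (nat_lit 2052) (nat_lit 0) (XT.nd (nat_lit 1014) (nat_lit 2964) (nat_lit 0) (XT.nd (nat_lit 468) (nat_lit 2128) (nat_lit 0) (XT.nd (nat_lit 234) (nat_lit 608) (nat_lit 0) (XT.nd (nat_lit 78) (nat_lit 684) (nat_lit 0) (XT.lf (nat_lit 0) (nat_lit 623102028) (nat_lit 608) (nat_lit 37951386617) (nat_lit 684) (nat_lit 3551340063) (nat_lit 219) (nat_lit 5) (nat_lit 227) (nat_lit 5) (nat_lit 228) (nat_lit 5) (nat_lit 388) (nat_lit 369) (nat_lit 143)) (XT.nd (nat_lit 78) (nat_lit 608) (nat_lit 0) (XT.lf (nat_lit 0) (nat_lit 176251132) (nat_lit 684) (nat_lit 19942028853) (nat_lit 76) (nat_lit 22701632919) (nat_lit 218) (nat_lit 5) (nat_lit 227) (nat_lit 5) (nat_lit 219) (nat_lit 5) (nat_lit 389) (nat_lit 369) (nat_lit 142)) (XT.lf (nat_lit 0) (nat_lit 2273247982) (nat_lit 608) (nat_lit 1691354784) (nat_lit 684) (nat_lit 39568553406) (nat_lit 210) (nat_lit 5)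 (nat_lit 218) (nat_lit 5) (nat_lit 219) (nat_lit 5) (nat_lit 390) (nat_lit 369) (nat_lit 141)))) (XT.nd (nat_lit 78) (nat_lit 608) (nat_lit 0) (XT.lf (nat_lit 0) (nat_lit 8234651877) (nat_lit 684) (nat_lit 18867632696) (nat_lit 76) (nat_lit 17154471470) (nat_lit 210) (nat_lit 5) (nat_lit 219) (nat_lit 5) (nat_lit 211) (nat_lit 5) (nat_lit 391) (nat_lit 369) (nat_lit 140)) (XT.nd (nat_lit 78) (nat_lit 0) (nat_lit 0) (XT.lf (nat_lit 0) (nat_lit 4261390838) (nat_lit 608) (nat_lit 8427656005) (nat_lit 684) (nat_lit 32311330428) (nat_lit 202) (nat_lit 5) (nat_lit 210) (nat_lit 5) (nat_lit 211) (nat_lit 5) (nat_lit 392) (nat_lit 369) (nat_lit 139)) (XT.lf (nat_lit 0) (nat_lit 17571936134) (nat_lit 684) (nat_lit 17396769377) (nat_lit 76) (nat_lit 10788756421) (nat_lit 202) (nat_lit 5) (nat_lit 211) (nat_lit 5) (nat_lit 203) (nat_lit 5) (nat_lit 393) (nat_lit 369) (nat_lit 138))))) (XT.nd (nat_lit 234) (nat_lit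 1064) (nat_lit 0) (XT.nd (nat_lit 78) (nat_lit 532) (nat_lit 0) (XT.lf (nat_lit 0) (nat_lit 6691429287) (nat_lit 532) (nat_lit 16056253336) (nat_lit 608) (nat_lit 23785186048) (nat_lit 195) (nat_lit 5) (nat_lit 202) (nat_lit 5) (nat_lit 203) (nat_lit 5) (nat_lit 394) (nat_lit 369) (nat_lit 137)) (XT.nd (nat_lit 78) (nat_lit 532) (nat_lit 0) (XT.lf (nat_lit 0) (nat_lit 28287656610) (nat_lit 608) (nat_lit 15503469645) (nat_lit 76) (nat_lit 3534143337) (nat_lit 195) (nat_lit 5) (nat_lit 203) (nat_lit 5) (nat_lit 196) (nat_lit 5) (nat_lit 395) (nat_lit 369) (nat_lit 136)) (XT.lf (nat_lit 0) (nat_lit 9591427695) (nat_lit 532) (nat_lit 24652246442) (nat_lit 608) (nat_lit 13890273687) (nat_lit 188) (nat_lit 5) (nat_lit 195) (nat_lit 5) (nat_lit 196) (nat_lit 5) (nat_lit 396) (nat_lit 369) (nat_lit 135)))) (XT.nd (nat_lit 156) (nat_lit 608) (nat_lit 0) (XT.nd (nat_lit 78) (nat_lit 456) (nat_lit 0) (XT.lf (nat_lit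 0) (nat_lit 35755589642) (nat_lit 532) (nat_lit 4778035349) (nat_lit 608) (nat_lit 8428604426) (nat_lit 188) (nat_lit 5) (nat_lit 195) (nat_lit 5) (nat_lit 196) (nat_lit 5) (nat_lit 397) (nat_lit 369) (nat_lit 134)) (XT.lf (nat_lit 0) (nat_lit 12990579517) (nat_lit 456) (nat_lit 34296148488) (nat_lit 532) (nat_lit 2520398423) (nat_lit 182) (nat_lit 5) (nat_lit 188) (nat_lit 5) (nat_lit 189) (nat_lit 5) (nat_lit 398) (nat_lit 369) (nat_lit 133))) (XT.nd (nat_lit 78) (nat_lit 532) (nat_lit 0) (XT.lf (nat_lit 0) (nat_lit 3676221651) (nat_lit 532) (nat_lit 10513225542) (nat_lit 76) (nat_lit 36481473570) (nat_lit 181) (nat_lit 5) (nat_lit 188) (nat_lit 5) (nat_lit 182) (nat_lit 5) (nat_lit 399) (nat_lit 369) (nat_lit 132)) (XT.lf (nat_lit 0) (nat_lit 10233679697) (nat_lit 608) (nat_lit 34737260787) (nat_lit 76) (nat_lit 6582172434) (nat_lit 174) (nat_lit 5) (nat_lit 182) (nat_lit 5) (nat_lit 175) (nat_lit 5)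 (nat_lit 400) (nat_lit 369) (nat_lit 131)))))) (XT.nd (nat_lit 546) (nat_lit 1140) (nat_lit 0) (XT.nd (nat_lit 234) (nat_lit 1368) (nat_lit 0) (XT.nd (nat_lit 78) (nat_lit 456) (nat_lit 0) (XT.lf (nat_lit 0) (nat_lit 17234368859) (nat_lit 608) (nat_lit 7421192039) (nat_lit 76) (nat_lit 27798815235) (nat_lit 174) (nat_lit 5) (nat_lit 182) (nat_lit 5) (nat_lit 175) (nat_lit 5) (nat_lit 401) (nat_lit 369) (nat_lit 130)) (XT.nd (nat_lit 78) (nat_lit 0) (nat_lit 0) (XT.lf (nat_lit 0) (nat_lit 21125250292) (nat_lit 456) (nat_lit 3521735791) (nat_lit 532) (nat_lit 28729634438) (nat_lit 168) (nat_lit 5) (nat_lit 174) (nat_lit 5) (nat_lit 175) (nat_lit 5) (nat_lit 402) (nat_lit 369) (nat_lit 129)) (XT.lf (nat_lit 0) (nat_lit 32531913878) (nat_lit 532) (nat_lit 3821563693) (nat_lit 76) (nat_lit 17965557195) (nat_lit 168) (nat_lit 5) (nat_lit 175) (nat_lit 5) (nat_lit 169) (nat_lit 5) (nat_lit 403) (nat_lit 369) (nat_lit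 128)))) (XT.nd (nat_lit 156) (nat_lit 532) (nat_lit 0) (XT.nd (nat_lit 78) (nat_lit 380) (nat_lit 0) (XT.lf (nat_lit 0) (nat_lit 25930956276) (nat_lit 456) (nat_lit 15005457255) (nat_lit 532) (nat_lit 14344817656) (nat_lit 162) (nat_lit 5) (nat_lit 168) (nat_lit 5) (nat_lit 169) (nat_lit 5) (nat_lit 404) (nat_lit 369) (nat_lit 127)) (XT.lf (nat_lit 0) (nat_lit 320668195) (nat_lit 380) (nat_lit 49380468531) (nat_lit 456) (nat_lit 6567914576) (nat_lit 157) (nat_lit 5) (nat_lit 162) (nat_lit 5) (nat_lit 163) (nat_lit 5) (nat_lit 405) (nat_lit 369) (nat_lit 126))) (XT.nd (nat_lit 78) (nat_lit 456) (nat_lit 0) (XT.lf (nat_lit 0) (nat_lit 1860951599) (nat_lit 456) (nat_lit 25960936185) (nat_lit 76) (nat_lit 29450798729) (nat_lit 156) (nat_lit 5) (nat_lit 162) (nat_lit 5) (nat_lit 157) (nat_lit 5) (nat_lit 406) (nat_lit 369) (nat_lit 125)) (XT.lf (nat_lit 0) (nat_lit 4956518547) (nat_lit 456) (nat_lit 5500750087)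 (nat_lit 532) (nat_lit 47845813895) (nat_lit 150) (nat_lit 5) (nat_lit 156) (nat_lit 5) (nat_lit 157) (nat_lit 5) (nat_lit 407) (nat_lit 369) (nat_lit 124))))) (XT.nd (nat_lit 234) (nat_lit 760) (nat_lit 0) (XT.nd (nat_lit 78) (nat_lit 380) (nat_lit 0) (XT.lf (nat_lit 0) (nat_lit 19743314174) (nat_lit 532) (nat_lit 22194897879) (nat_lit 76) (nat_lit 17413223610) (nat_lit 150) (nat_lit 5) (nat_lit 157) (nat_lit 5) (nat_lit 151) (nat_lit 5) (nat_lit 408) (nat_lit 369) (nat_lit 123)) (XT.nd (nat_lit 78) (nat_lit 0) (nat_lit 0) (XT.lf (nat_lit 0) (nat_lit 10031318635) (nat_lit 380) (nat_lit 19426506724) (nat_lit 456) (nat_lit 30968917898) (nat_lit 145) (nat_lit 5) (nat_lit 150) (nat_lit 5) (nat_lit 151) (nat_lit 5) (nat_lit 409) (nat_lit 369) (nat_lit 122)) (XT.lf (nat_lit 0) (nat_lit 39725273186) (nat_lit 456) (nat_lit 17887957400) (nat_lit 76) (nat_lit 3913234836) (nat_lit 145) (nat_lit 5) (nat_lit 151) (nat_lit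 5) (nat_lit 146) (nat_lit 5) (nat_lit 410) (nat_lit 369) (nat_lit 121)))) (XT.nd (nat_lit 156) (nat_lit 380) (nat_lit 0) (XT.nd (nat_lit 78) (nat_lit 0) (nat_lit 0) (XT.lf (nat_lit 0) (nat_lit 15707644126) (nat_lit 380) (nat_lit 34935470926) (nat_lit 456) (nat_lit 12005793454) (nat_lit 140) (nat_lit 5) (nat_lit 145) (nat_lit 5) (nat_lit 146) (nat_lit 5) (nat_lit 411) (nat_lit 369) (nat_lit 120)) (XT.lf (nat_lit 0) (nat_lit 50676550875) (nat_lit 380) (nat_lit 11391628099) (nat_lit 456) (nat_lit 1731455667) (nat_lit 140) (nat_lit 5) (nat_lit 145) (nat_lit 5) (nat_lit 146) (nat_lit 5) (nat_lit 412) (nat_lit 369) (nat_lit 119))) (XT.nd (nat_lit 78) (nat_lit 0) (nat_lit 0) (XT.lf (nat_lit 0) (nat_lit 9016002718) (nat_lit 380) (nat_lit 43048865233) (nat_lit 76) (nat_lit 12907334253) (nat_lit 135) (nat_lit 5) (nat_lit 140) (nat_lit 5) (nat_lit 136) (nat_lit 5) (nat_lit 413) (nat_lit 369) (nat_lit 118)) (XT.lf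 (nat_lit 0) (nat_lit 20296786191) (nat_lit 380) (nat_lit 8018297748) (nat_lit 76) (nat_lit 37856977835) (nat_lit 135) (nat_lit 5) (nat_lit 140) (nat_lit 5) (nat_lit 136) (nat_lit 5) (nat_lit 414) (nat_lit 369) (nat_lit 117))))))) (XT.nd (nat_lit 43602) (nat_lit 0) (nat_lit 9728) (XT.nd (nat_lit 468) (nat_lit 684) (nat_lit 0) (XT.nd (nat_lit 234) (nat_lit 684) (nat_lit 0) (XT.nd (nat_lit 78) (nat_lit 304) (nat_lit 0) (XT.lf (nat_lit 0) (nat_lit 28620467810) (nat_lit 380) (nat_lit 3569753496) (nat_lit 456) (nat_lit 35209469301) (nat_lit 130) (nat_lit 5) (nat_lit 135) (nat_lit 5) (nat_lit 136) (nat_lit 5) (nat_lit 415) (nat_lit 369) (nat_lit 116)) (XT.nd (nat_lit 78) (nat_lit 304) (nat_lit 0) (XT.lf (nat_lit 0) (nat_lit 44732040874) (nat_lit 456) (nat_lit 2351664949) (nat_lit 76) (nat_lit 21571695352) (nat_lit 130) (nat_lit 5) (nat_lit 136) (nat_lit 5) (nat_lit 131) (nat_lit 5) (nat_lit 416) (nat_lit 369)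 (nat_lit 115)) (XT.lf (nat_lit 0) (nat_lit 35831391550) (nat_lit 304) (nat_lit 22197648421) (nat_lit 380) (nat_lit 11908375643) (nat_lit 126) (nat_lit 5) (nat_lit 130) (nat_lit 5) (nat_lit 131) (nat_lit 5) (nat_lit 417) (nat_lit 369) (nat_lit 114)))) (XT.nd (nat_lit 78) (nat_lit 304) (nat_lit 0) (XT.lf (nat_lit 0) (nat_lit 553437244) (nat_lit 380) (nat_lit 67266013513) (nat_lit 76) (nat_lit 3435440545) (nat_lit 121) (nat_lit 5) (nat_lit 126) (nat_lit 5) (nat_lit 122) (nat_lit 5) (nat_lit 418) (nat_lit 369) (nat_lit 113)) (XT.nd (nat_lit 78) (nat_lit 304) (nat_lit 0) (XT.lf (nat_lit 0) (nat_lit 13716513193) (nat_lit 380) (nat_lit 29018085119) (nat_lit 76) (nat_lit 29856753426) (nat_lit 121) (nat_lit 5) (nat_lit 126) (nat_lit 5) (nat_lit 122) (nat_lit 5) (nat_lit 419) (nat_lit 369) (nat_lit 112)) (XT.lf (nat_lit 0) (nat_lit 10582621740) (nat_lit 304) (nat_lit 16792773331) (nat_lit 380) (nat_lit 46589483775)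 (nat_lit 117) (nat_lit 5) (nat_lit 121) (nat_lit 5) (nat_lit 122) (nat_lit 5) (nat_lit 420) (nat_lit 369) (nat_lit 111))))) (XT.nd (nat_lit 234) (nat_lit 380) (nat_lit 0) (XT.nd (nat_lit 78) (nat_lit 304) (nat_lit 0) (XT.lf (nat_lit 0) (nat_lit 41834593978) (nat_lit 380) (nat_lit 23504131402) (nat_lit 76) (nat_lit 10029170132) (nat_lit 117) (nat_lit 5) (nat_lit 122) (nat_lit 5) (nat_lit 118) (nat_lit 5) (nat_lit 421) (nat_lit 369) (nat_lit 110)) (XT.nd (nat_lit 78) (nat_lit 0) (nat_lit 0) (XT.lf (nat_lit 0) (nat_lit 17749285759) (nat_lit 304) (nat_lit 39314384802) (nat_lit 380) (nat_lit 19739249319) (nat_lit 113) (nat_lit 5) (nat_lit 117) (nat_lit 5) (nat_lit 118) (nat_lit 5) (nat_lit 422) (nat_lit 369) (nat_lit 109)) (XT.lf (nat_lit 0) (nat_lit 60720988531) (nat_lit 304) (nat_lit 12265208065) (nat_lit 380) (nat_lit 5287701314) (nat_lit 113) (nat_lit 5) (nat_lit 117) (nat_lit 5) (nat_lit 118) (nat_lit 5)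 (nat_lit 423) (nat_lit 369) (nat_lit 108)))) (XT.nd (nat_lit 42744) (nat_lit 0) (nat_lit 9652) (XT.nd (nat_lit 42666) (nat_lit 0) (nat_lit 9652) (XT.lf (nat_lit 0) (nat_lit 9808692245) (nat_lit 380) (nat_lit 54333138709) (nat_lit 76) (nat_lit 15632449513) (nat_lit 108) (nat_lit 5) (nat_lit 113) (nat_lit 5) (nat_lit 109) (nat_lit 5) (nat_lit 424) (nat_lit 369) (nat_lit 107)) (XT.lf (nat_lit 0) (nat_lit 1528445220) (nat_lit 1292) (nat_lit 7308366243) (nat_lit 1292) (nat_lit 7308366243) (nat_lit 235) (nat_lit 3) (nat_lit 252) (nat_lit 3) (nat_lit 252) (nat_lit 5) (nat_lit 370) (nat_lit 370) (nat_lit 160))) (XT.nd (nat_lit 78) (nat_lit 0) (nat_lit 76) (XT.lf (nat_lit 76) (nat_lit 833558884) (nat_lit 0) (nat_lit 2338980655) (nat_lit 1292) (nat_lit 29600045318) (nat_lit 236) (nat_lit 5) (nat_lit 235) (nat_lit 3) (nat_lit 252) (nat_lit 5) (nat_lit 371) (nat_lit 370) (nat_lit 159)) (XT.lf (nat_lit 0) (nat_lit 3567651982)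 (nat_lit 1216) (nat_lit 16350023504) (nat_lit 1292) (nat_lit 13343327131) (nat_lit 236) (nat_lit 5) (nat_lit 252) (nat_lit 5) (nat_lit 253) (nat_lit 5) (nat_lit 372) (nat_lit 370) (nat_lit 158)))))) (XT.nd (nat_lit 546) (nat_lit 0) (nat_lit 304) (XT.nd (nat_lit 234) (nat_lit 0) (nat_lit 152) (XT.nd (nat_lit 78) (nat_lit 0) (nat_lit 76) (XT.lf (nat_lit 0) (nat_lit 3995433996) (nat_lit 1216) (nat_lit 317821996) (nat_lit 1292) (nat_lit 29450193644) (nat_lit 236) (nat_lit 5) (nat_lit 252) (nat_lit 5) (nat_lit 253) (nat_lit 5) (nat_lit 373) (nat_lit 370) (nat_lit 157)) (XT.nd (nat_lit 78) (nat_lit 0) (nat_lit 0) (XT.lf (nat_lit 0) (nat_lit 4707160150) (nat_lit 1216) (nat_lit 17874530837) (nat_lit 1292) (nat_lit 11691146937) (nat_lit 237) (nat_lit 5) (nat_lit 253) (nat_lit 5) (nat_lit 254) (nat_lit 5) (nat_lit 374) (nat_lit 370) (nat_lit 156)) (XT.lf (nat_lit 0) (nat_lit 5483974238) (nat_lit 1216) (nat_lit 1219052795)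 (nat_lit 1292) (nat_lit 28093169886) (nat_lit 237) (nat_lit 5) (nat_lit 253) (nat_lit 5) (nat_lit 254) (nat_lit 5) (nat_lit 375) (nat_lit 370) (nat_lit 155)))) (XT.nd (nat_lit 156) (nat_lit 0) (nat_lit 76) (XT.nd (nat_lit 78) (nat_lit 0) (nat_lit 0) (XT.lf (nat_lit 0) (nat_lit 6532505848) (nat_lit 1216) (nat_lit 19173048146) (nat_lit 1292) (nat_lit 9622251407) (nat_lit 238) (nat_lit 5) (nat_lit 254) (nat_lit 5) (nat_lit 255) (nat_lit 5) (nat_lit 376) (nat_lit 370) (nat_lit 154)) (XT.lf (nat_lit 0) (nat_lit 7689203717) (nat_lit 1216) (nat_lit 1868069332) (nat_lit 1292) (nat_lit 26315788856) (nat_lit 238) (nat_lit 5) (nat_lit 254) (nat_lit 5) (nat_lit 255) (nat_lit 5) (nat_lit 377) (nat_lit 370) (nat_lit 153))) (XT.nd (nat_lit 78) (nat_lit 0) (nat_lit 0) (XT.lf (nat_lit 0) (nat_lit 9104563264) (nat_lit 1216) (nat_lit 20227344506) (nat_lit 1292) (nat_lit 7096050560) (nat_lit 239) (nat_lit 5) (nat_lit 255)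 (nat_lit 5) (nat_lit 256) (nat_lit 5) (nat_lit 378) (nat_lit 370) (nat_lit 152)) (XT.lf (nat_lit 0) (nat_lit 10674086250) (nat_lit 1216) (nat_lit 2245471314) (nat_lit 1292) (nat_lit 24076594019) (nat_lit 239) (nat_lit 5) (nat_lit 255) (nat_lit 5) (nat_lit 256) (nat_lit 5) (nat_lit 379) (nat_lit 370) (nat_lit 151))))) (XT.nd (nat_lit 234) (nat_lit 0) (nat_lit 76) (XT.nd (nat_lit 78) (nat_lit 0) (nat_lit 0) (XT.lf (nat_lit 0) (nat_lit 12488225354) (nat_lit 1216) (nat_lit 21018136068) (nat_lit 1292) (nat_lit 4069104285) (nat_lit 240) (nat_lit 5) (nat_lit 256) (nat_lit 5) (nat_lit 257) (nat_lit 5) (nat_lit 380) (nat_lit 370) (nat_lit 150)) (XT.nd (nat_lit 78) (nat_lit 0) (nat_lit 76) (XT.lf (nat_lit 0) (nat_lit 14505735951) (nat_lit 1216) (nat_lit 2330758169) (nat_lit 1292) (nat_lit 21331197673) (nat_lit 240) (nat_lit 5) (nat_lit 256) (nat_lit 5) (nat_lit 257) (nat_lit 5) (nat_lit 381) (nat_lit 370) (nat_lit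 149)) (XT.lf (nat_lit 0) (nat_lit 16752652019) (nat_lit 1216) (nat_lit 21525058731) (nat_lit 1292) (nat_lit 494908438) (nat_lit 241) (nat_lit 5) (nat_lit 257) (nat_lit 5) (nat_lit 258) (nat_lit 5) (nat_lit 382) (nat_lit 370) (nat_lit 148)))) (XT.nd (nat_lit 156) (nat_lit 0) (nat_lit 76) (XT.nd (nat_lit 78) (nat_lit 0) (nat_lit 0) (XT.lf (nat_lit 0) (nat_lit 19255672947) (nat_lit 1216) (nat_lit 2102300197) (nat_lit 1292) (nat_lit 18032061241) (nat_lit 241) (nat_lit 5) (nat_lit 257) (nat_lit 5) (nat_lit 258) (nat_lit 5) (nat_lit 383) (nat_lit 370) (nat_lit 147)) (XT.lf (nat_lit 76) (nat_lit 18258074525) (nat_lit 0) (nat_lit 3749499602) (nat_lit 1292) (nat_lit 18013185099) (nat_lit 242) (nat_lit 5) (nat_lit 241) (nat_lit 5) (nat_lit 258) (nat_lit 5) (nat_lit 384) (nat_lit 370) (nat_lit 146))) (XT.nd (nat_lit 78) (nat_lit 0) (nat_lit 0) (XT.lf (nat_lit 0) (nat_lit 25000092876) (nat_lit 1216) (nat_lit 1537311150)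 (nat_lit 1292) (nat_lit 14128260820) (nat_lit 242) (nat_lit 5) (nat_lit 258) (nat_lit 5) (nat_lit 259) (nat_lit 5) (nat_lit 385) (nat_lit 370) (nat_lit 145)) (XT.lf (nat_lit 76) (nat_lit 19639590683) (nat_lit 0) (nat_lit 8667079279) (nat_lit 1292) (nat_lit 13016520016) (nat_lit 243) (nat_lit 5) (nat_lit 242) (nat_lit 5) (nat_lit 259) (nat_lit 5) (nat_lit 386) (nat_lit 370) (nat_lit 144))))))))
noncomputable def xc238 : XT := (XT.nd (nat_lit 2106) (nat_lit 2052) (nat_lit 0) (XT.nd (nat_lit 1014) (nat_lit 3192) (nat_lit 0) (XT.nd (nat_lit 468) (nat_lit 2128) (nat_lit 0) (XT.nd (nat_lit 234) (nat_lit 684) (nat_lit 0) (XT.nd (nat_lit 78) (nat_lit 1824) (nat_lit 0) (XT.lf (nat_lit 0) (nat_lit 31820150885) (nat_lit 1216) (nat_lit 611822763) (nat_lit 76) (nat_lit 9565236823) (nat_lit 243) (nat_lit 5) (nat_lit 259) (nat_lit 5) (nat_lit 244) (nat_lit 5) (nat_lit 387) (nat_lit 370) (nat_lit 143)) (XT.nd (nat_lit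 78) (nat_lit 608) (nat_lit 0) (XT.lf (nat_lit 0) (nat_lit 21422988222) (nat_lit 1216) (nat_lit 14306246259) (nat_lit 1292) (nat_lit 6953511929) (nat_lit 227) (nat_lit 5) (nat_lit 243) (nat_lit 5) (nat_lit 244) (nat_lit 5) (nat_lit 388) (nat_lit 370) (nat_lit 142)) (XT.lf (nat_lit 0) (nat_lit 713256469) (nat_lit 608) (nat_lit 39095860653) (nat_lit 684) (nat_lit 3578126263) (nat_lit 219) (nat_lit 5) (nat_lit 227) (nat_lit 5) (nat_lit 228) (nat_lit 5) (nat_lit 389) (nat_lit 370) (nat_lit 141)))) (XT.nd (nat_lit 78) (nat_lit 608) (nat_lit 0) (XT.lf (nat_lit 0) (nat_lit 257458777) (nat_lit 684) (nat_lit 20469362612) (nat_lit 76) (nat_lit 23375375133) (nat_lit 218) (nat_lit 5) (nat_lit 227) (nat_lit 5) (nat_lit 219) (nat_lit 5) (nat_lit 390) (nat_lit 370) (nat_lit 140)) (XT.nd (nat_lit 78) (nat_lit 0) (nat_lit 0) (XT.lf (nat_lit 0) (nat_lit 2411677164) (nat_lit 608) (nat_lit 1746247641) (nat_lit 684) (nat_lit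 40678959422) (nat_lit 210) (nat_lit 5) (nat_lit 218) (nat_lit 5) (nat_lit 219) (nat_lit 5) (nat_lit 391) (nat_lit 370) (nat_lit 139)) (XT.lf (nat_lit 0) (nat_lit 8553870115) (nat_lit 684) (nat_lit 19363236155) (nat_lit 76) (nat_lit 17665153004) (nat_lit 210) (nat_lit 5) (nat_lit 219) (nat_lit 5) (nat_lit 211) (nat_lit 5) (nat_lit 392) (nat_lit 370) (nat_lit 138))))) (XT.nd (nat_lit 234) (nat_lit 988) (nat_lit 0) (XT.nd (nat_lit 78) (nat_lit 532) (nat_lit 0) (XT.lf (nat_lit 0) (nat_lit 4458967638) (nat_lit 608) (nat_lit 8681497335) (nat_lit 684) (nat_lit 33207768117) (nat_lit 202) (nat_lit 5) (nat_lit 210) (nat_lit 5) (nat_lit 211) (nat_lit 5) (nat_lit 393) (nat_lit 370) (nat_lit 137)) (XT.nd (nat_lit 78) (nat_lit 532) (nat_lit 0) (XT.lf (nat_lit 0) (nat_lit 18167770918) (nat_lit 684) (nat_lit 17848866343) (nat_lit 76) (nat_lit 11111456095) (nat_lit 202) (nat_lit 5) (nat_lit 211) (nat_lit 5) (nat_lit 203)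 (nat_lit 5) (nat_lit 394) (nat_lit 370) (nat_lit 136)) (XT.lf (nat_lit 0) (nat_lit 6961293907) (nat_lit 532) (nat_lit 16536160043) (nat_lit 608) (nat_lit 24429349358) (nat_lit 195) (nat_lit 5) (nat_lit 202) (nat_lit 5) (nat_lit 203) (nat_lit 5) (nat_lit 395) (nat_lit 370) (nat_lit 135)))) (XT.nd (nat_lit 156) (nat_lit 456) (nat_lit 0) (XT.nd (nat_lit 78) (nat_lit 532) (nat_lit 0) (XT.lf (nat_lit 0) (nat_lit 29201682393) (nat_lit 608) (nat_lit 15899490195) (nat_lit 76) (nat_lit 3641862920) (nat_lit 195) (nat_lit 5) (nat_lit 203) (nat_lit 5) (nat_lit 196) (nat_lit 5) (nat_lit 396) (nat_lit 370) (nat_lit 134)) (XT.lf (nat_lit 0) (nat_lit 9947576775) (nat_lit 532) (nat_lit 25387556493) (nat_lit 608) (nat_lit 14240879117) (nat_lit 188) (nat_lit 5) (nat_lit 195) (nat_lit 5) (nat_lit 196) (nat_lit 5) (nat_lit 397) (nat_lit 370) (nat_lit 133))) (XT.nd (nat_lit 78) (nat_lit 456) (nat_lit 0) (XT.lf (nat_lit 0) (nat_lit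 36894671165) (nat_lit 532) (nat_lit 4917243069) (nat_lit 608) (nat_lit 8617285101) (nat_lit 188) (nat_lit 5) (nat_lit 195) (nat_lit 5) (nat_lit 196) (nat_lit 5) (nat_lit 398) (nat_lit 370) (nat_lit 132)) (XT.lf (nat_lit 0) (nat_lit 13447898644) (nat_lit 456) (nat_lit 35318586103) (nat_lit 532) (nat_lit 2532993109) (nat_lit 182) (nat_lit 5) (nat_lit 188) (nat_lit 5) (nat_lit 189) (nat_lit 5) (nat_lit 399) (nat_lit 370) (nat_lit 131)))))) (XT.nd (nat_lit 546) (nat_lit 1292) (nat_lit 0) (XT.nd (nat_lit 234) (nat_lit 1292) (nat_lit 0) (XT.nd (nat_lit 78) (nat_lit 532) (nat_lit 0) (XT.lf (nat_lit 0) (nat_lit 3846496236) (nat_lit 532) (nat_lit 10761769544) (nat_lit 76) (nat_lit 37580956841) (nat_lit 181) (nat_lit 5) (nat_lit 188) (nat_lit 5) (nat_lit 182) (nat_lit 5) (nat_lit 400) (nat_lit 370) (nat_lit 130)) (XT.nd (nat_lit 78) (nat_lit 0) (nat_lit 0) (XT.lf (nat_lit 0) (nat_lit 10599637498) (nat_lit 608) (nat_lit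 35711459956) (nat_lit 76) (nat_lit 6786815063) (nat_lit 174) (nat_lit 5) (nat_lit 182) (nat_lit 5) (nat_lit 175) (nat_lit 5) (nat_lit 401) (nat_lit 370) (nat_lit 129)) (XT.lf (nat_lit 0) (nat_lit 17808630420) (nat_lit 608) (nat_lit 7577887359) (nat_lit 76) (nat_lit 28639748095) (nat_lit 174) (nat_lit 5) (nat_lit 182) (nat_lit 5) (nat_lit 175) (nat_lit 5) (nat_lit 402) (nat_lit 370) (nat_lit 128)))) (XT.nd (nat_lit 156) (nat_lit 836) (nat_lit 0) (XT.nd (nat_lit 78) (nat_lit 0) (nat_lit 0) (XT.lf (nat_lit 0) (nat_lit 21824301767) (nat_lit 456) (nat_lit 3618285132) (nat_lit 532) (nat_lit 29533622591) (nat_lit 168) (nat_lit 5) (nat_lit 174) (nat_lit 5) (nat_lit 175) (nat_lit 5) (nat_lit 403) (nat_lit 370) (nat_lit 127)) (XT.lf (nat_lit 0) (nat_lit 33562510842) (nat_lit 532) (nat_lit 3871243504) (nat_lit 76) (nat_lit 18513189062) (nat_lit 168) (nat_lit 5) (nat_lit 175) (nat_lit 5) (nat_lit 169) (nat_lit 5) (nat_lit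 404) (nat_lit 370) (nat_lit 126))) (XT.nd (nat_lit 78) (nat_lit 380) (nat_lit 0) (XT.lf (nat_lit 0) (nat_lit 26773215131) (nat_lit 456) (nat_lit 15444957291) (nat_lit 532) (nat_lit 14719863168) (nat_lit 162) (nat_lit 5) (nat_lit 168) (nat_lit 5) (nat_lit 169) (nat_lit 5) (nat_lit 405) (nat_lit 370) (nat_lit 125)) (XT.lf (nat_lit 0) (nat_lit 395502745) (nat_lit 380) (nat_lit 50849497868) (nat_lit 456) (nat_lit 6710515452) (nat_lit 157) (nat_lit 5) (nat_lit 162) (nat_lit 5) (nat_lit 163) (nat_lit 5) (nat_lit 406) (nat_lit 370) (nat_lit 124))))) (XT.nd (nat_lit 234) (nat_lit 760) (nat_lit 0) (XT.nd (nat_lit 78) (nat_lit 456) (nat_lit 0) (XT.lf (nat_lit 0) (nat_lit 1968599863) (nat_lit 456) (nat_lit 26675397278) (nat_lit 76) (nat_lit 30345294750) (nat_lit 156) (nat_lit 5) (nat_lit 162) (nat_lit 5) (nat_lit 157) (nat_lit 5) (nat_lit 407) (nat_lit 370) (nat_lit 123)) (XT.nd (nat_lit 78) (nat_lit 0) (nat_lit 0)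 (XT.lf (nat_lit 0) (nat_lit 5168950047) (nat_lit 456) (nat_lit 5652959719) (nat_lit 532) (nat_lit 49228717523) (nat_lit 150) (nat_lit 5) (nat_lit 156) (nat_lit 5) (nat_lit 157) (nat_lit 5) (nat_lit 408) (nat_lit 370) (nat_lit 122)) (XT.lf (nat_lit 0) (nat_lit 20385173054) (nat_lit 532) (nat_lit 22797482200) (nat_lit 76) (nat_lit 17947817255) (nat_lit 150) (nat_lit 5) (nat_lit 157) (nat_lit 5) (nat_lit 151) (nat_lit 5) (nat_lit 409) (nat_lit 370) (nat_lit 121)))) (XT.nd (nat_lit 156) (nat_lit 380) (nat_lit 0) (XT.nd (nat_lit 78) (nat_lit 0) (nat_lit 0) (XT.lf (nat_lit 0) (nat_lit 10394900588) (nat_lit 380) (nat_lit 19995377663) (nat_lit 456) (nat_lit 31847786885) (nat_lit 145) (nat_lit 5) (nat_lit 150) (nat_lit 5) (nat_lit 151) (nat_lit 5) (nat_lit 410) (nat_lit 370) (nat_lit 120)) (XT.lf (nat_lit 0) (nat_lit 40964460489) (nat_lit 456) (nat_lit 18362470914) (nat_lit 76) (nat_lit 4043886784) (nat_lit 145)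 (nat_lit 5) (nat_lit 151) (nat_lit 5) (nat_lit 146) (nat_lit 5) (nat_lit 411) (nat_lit 370) (nat_lit 119))) (XT.nd (nat_lit 78) (nat_lit 0) (nat_lit 0) (XT.lf (nat_lit 0) (nat_lit 16240389588) (nat_lit 380) (nat_lit 35968657924) (nat_lit 456) (nat_lit 12317911289) (nat_lit 140) (nat_lit 5) (nat_lit 145) (nat_lit 5) (nat_lit 146) (nat_lit 5) (nat_lit 412) (nat_lit 370) (nat_lit 118)) (XT.lf (nat_lit 0) (nat_lit 52256571807) (nat_lit 380) (nat_lit 11718933127) (nat_lit 456) (nat_lit 1736743056) (nat_lit 140) (nat_lit 5) (nat_lit 145) (nat_lit 5) (nat_lit 146) (nat_lit 5) (nat_lit 413) (nat_lit 370) (nat_lit 117))))))) (XT.nd (nat_lit 43758) (nat_lit 0) (nat_lit 9348) (XT.nd (nat_lit 468) (nat_lit 608) (nat_lit 0) (XT.nd (nat_lit 234) (nat_lit 684) (nat_lit 0) (XT.nd (nat_lit 78) (nat_lit 380) (nat_lit 0) (XT.lf (nat_lit 0) (nat_lit 9331618376) (nat_lit 380) (nat_lit 44279053028) (nat_lit 76) (nat_lit 13309326518)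 (nat_lit 135) (nat_lit 5) (nat_lit 140) (nat_lit 5) (nat_lit 136) (nat_lit 5) (nat_lit 414) (nat_lit 370) (nat_lit 116)) (XT.nd (nat_lit 78) (nat_lit 380) (nat_lit 0) (XT.lf (nat_lit 0) (nat_lit 20949510724) (nat_lit 380) (nat_lit 8199353320) (nat_lit 76) (nat_lit 39007029148) (nat_lit 135) (nat_lit 5) (nat_lit 140) (nat_lit 5) (nat_lit 136) (nat_lit 5) (nat_lit 415) (nat_lit 370) (nat_lit 115)) (XT.lf (nat_lit 0) (nat_lit 29537991937) (nat_lit 380) (nat_lit 3661046897) (nat_lit 456) (nat_lit 36221333818) (nat_lit 130) (nat_lit 5) (nat_lit 135) (nat_lit 5) (nat_lit 136) (nat_lit 5) (nat_lit 416) (nat_lit 370) (nat_lit 114)))) (XT.nd (nat_lit 78) (nat_lit 684) (nat_lit 0) (XT.lf (nat_lit 0) (nat_lit 46116004780) (nat_lit 456) (nat_lit 2363897524) (nat_lit 76) (nat_lit 22233885926) (nat_lit 130) (nat_lit 5) (nat_lit 136) (nat_lit 5) (nat_lit 131) (nat_lit 5) (nat_lit 417) (nat_lit 370) (nat_lit 113)) (XT.nd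 (nat_lit 78) (nat_lit 380) (nat_lit 0) (XT.lf (nat_lit 0) (nat_lit 36964078930) (nat_lit 304) (nat_lit 22847166627) (nat_lit 380) (nat_lit 12223038028) (nat_lit 126) (nat_lit 5) (nat_lit 130) (nat_lit 5) (nat_lit 131) (nat_lit 5) (nat_lit 418) (nat_lit 370) (nat_lit 112)) (XT.lf (nat_lit 0) (nat_lit 611302242) (nat_lit 380) (nat_lit 69224893600) (nat_lit 76) (nat_lit 3555090707) (nat_lit 121) (nat_lit 5) (nat_lit 126) (nat_lit 5) (nat_lit 122) (nat_lit 5) (nat_lit 419) (nat_lit 370) (nat_lit 111))))) (XT.nd (nat_lit 234) (nat_lit 304) (nat_lit 0) (XT.nd (nat_lit 78) (nat_lit 304) (nat_lit 0) (XT.lf (nat_lit 0) (nat_lit 14168068667) (nat_lit 380) (nat_lit 29831248722) (nat_lit 76) (nat_lit 30768559861) (nat_lit 121) (nat_lit 5) (nat_lit 126) (nat_lit 5) (nat_lit 122) (nat_lit 5) (nat_lit 420) (nat_lit 370) (nat_lit 110)) (XT.nd (nat_lit 78) (nat_lit 0) (nat_lit 0) (XT.lf (nat_lit 0) (nat_lit 10956916804)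 (nat_lit 304) (nat_lit 17279179553) (nat_lit 380) (nat_lit 47946532819) (nat_lit 117) (nat_lit 5) (nat_lit 121) (nat_lit 5) (nat_lit 122) (nat_lit 5) (nat_lit 421) (nat_lit 370) (nat_lit 109)) (XT.lf (nat_lit 0) (nat_lit 43128084683) (nat_lit 380) (nat_lit 24153094752) (nat_lit 76) (nat_lit 10346586877) (nat_lit 117) (nat_lit 5) (nat_lit 122) (nat_lit 5) (nat_lit 118) (nat_lit 5) (nat_lit 422) (nat_lit 370) (nat_lit 108)))) (XT.nd (nat_lit 42900) (nat_lit 0) (nat_lit 9272) (XT.nd (nat_lit 42822) (nat_lit 0) (nat_lit 9272) (XT.lf (nat_lit 0) (nat_lit 18337374329) (nat_lit 304) (nat_lit 40476073804) (nat_lit 380) (nat_lit 20292411204) (nat_lit 113) (nat_lit 5) (nat_lit 117) (nat_lit 5) (nat_lit 118) (nat_lit 5) (nat_lit 423) (nat_lit 370) (nat_lit 107)) (XT.lf (nat_lit 0) (nat_lit 1635487745) (nat_lit 1292) (nat_lit 7496088955) (nat_lit 1292) (nat_lit 7496088955) (nat_lit 235) (nat_lit 3) (nat_lit 252) (nat_lit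 3) (nat_lit 252) (nat_lit 5) (nat_lit 371) (nat_lit 371) (nat_lit 158))) (XT.nd (nat_lit 78) (nat_lit 0) (nat_lit 76) (XT.lf (nat_lit 76) (nat_lit 921004001) (nat_lit 0) (nat_lit 2466125839) (nat_lit 1292) (nat_lit 30364988570) (nat_lit 236) (nat_lit 5) (nat_lit 235) (nat_lit 3) (nat_lit 252) (nat_lit 5) (nat_lit 372) (nat_lit 371) (nat_lit 157)) (XT.lf (nat_lit 0) (nat_lit 3790085840) (nat_lit 1216) (nat_lit 16775834861) (nat_lit 1292) (nat_lit 13689390089) (nat_lit 236) (nat_lit 5) (nat_lit 252) (nat_lit 5) (nat_lit 253) (nat_lit 5) (nat_lit 373) (nat_lit 371) (nat_lit 156)))))) (XT.nd (nat_lit 546) (nat_lit 0) (nat_lit 304) (XT.nd (nat_lit 234) (nat_lit 0) (nat_lit 152) (XT.nd (nat_lit 78) (nat_lit 0) (nat_lit 76) (XT.lf (nat_lit 0) (nat_lit 4227340025) (nat_lit 1216) (nat_lit 264551463) (nat_lit 1292) (nat_lit 30281042312) (nat_lit 236) (nat_lit 5) (nat_lit 252) (nat_lit 5) (nat_lit 253) (nat_lit 5)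 (nat_lit 374) (nat_lit 371) (nat_lit 155)) (XT.nd (nat_lit 78) (nat_lit 0) (nat_lit 0) (XT.lf (nat_lit 0) (nat_lit 4957298778) (nat_lit 1216) (nat_lit 18344786039) (nat_lit 1292) (nat_lit 11995614185) (nat_lit 237) (nat_lit 5) (nat_lit 253) (nat_lit 5) (nat_lit 254) (nat_lit 5) (nat_lit 375) (nat_lit 371) (nat_lit 154)) (XT.lf (nat_lit 0) (nat_lit 5754244750) (nat_lit 1216) (nat_lit 1191565424) (nat_lit 1292) (nat_lit 28891045410) (nat_lit 237) (nat_lit 5) (nat_lit 253) (nat_lit 5) (nat_lit 254) (nat_lit 5) (nat_lit 376) (nat_lit 371) (nat_lit 153)))) (XT.nd (nat_lit 156) (nat_lit 0) (nat_lit 76) (XT.nd (nat_lit 78) (nat_lit 0) (nat_lit 0) (XT.lf (nat_lit 0) (nat_lit 6831378848) (nat_lit 1216) (nat_lit 19681274065) (nat_lit 1292) (nat_lit 9871846603) (nat_lit 238) (nat_lit 5) (nat_lit 254) (nat_lit 5) (nat_lit 255) (nat_lit 5) (nat_lit 377) (nat_lit 371) (nat_lit 152)) (XT.lf (nat_lit 0) (nat_lit 8019780630)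 (nat_lit 1216) (nat_lit 1859096339) (nat_lit 1292) (nat_lit 27067328206) (nat_lit 238) (nat_lit 5) (nat_lit 254) (nat_lit 5) (nat_lit 255) (nat_lit 5) (nat_lit 378) (nat_lit 371) (nat_lit 151))) (XT.nd (nat_lit 78) (nat_lit 0) (nat_lit 0) (XT.lf (nat_lit 0) (nat_lit 9474990620) (nat_lit 1216) (nat_lit 20766489363) (nat_lit 1292) (nat_lit 7276348321) (nat_lit 239) (nat_lit 5) (nat_lit 255) (nat_lit 5) (nat_lit 256) (nat_lit 5) (nat_lit 379) (nat_lit 371) (nat_lit 150)) (XT.lf (nat_lit 0) (nat_lit 11088765593) (nat_lit 1216) (nat_lit 2247131105) (nat_lit 1292) (nat_lit 24767257126) (nat_lit 239) (nat_lit 5) (nat_lit 255) (nat_lit 5) (nat_lit 256) (nat_lit 5) (nat_lit 380) (nat_lit 371) (nat_lit 149))))) (XT.nd (nat_lit 234) (nat_lit 0) (nat_lit 76) (XT.nd (nat_lit 78) (nat_lit 0) (nat_lit 0) (XT.lf (nat_lit 0) (nat_lit 12954940957) (nat_lit 1216) (nat_lit 21580540701) (nat_lit 1292) (nat_lit 4164438767) (nat_lit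 240) (nat_lit 5) (nat_lit 256) (nat_lit 5) (nat_lit 257) (nat_lit 5) (nat_lit 381) (nat_lit 371) (nat_lit 148)) (XT.nd (nat_lit 78) (nat_lit 0) (nat_lit 76) (XT.lf (nat_lit 0) (nat_lit 15030295255) (nat_lit 1216) (nat_lit 2334526110) (nat_lit 1292) (nat_lit 21945173752) (nat_lit 240) (nat_lit 5) (nat_lit 256) (nat_lit 5) (nat_lit 257) (nat_lit 5) (nat_lit 382) (nat_lit 371) (nat_lit 147)) (XT.lf (nat_lit 0) (nat_lit 17342434395) (nat_lit 1216) (nat_lit 22102426798) (nat_lit 1292) (nat_lit 488276007) (nat_lit 241) (nat_lit 5) (nat_lit 257) (nat_lit 5) (nat_lit 258) (nat_lit 5) (nat_lit 383) (nat_lit 371) (nat_lit 146)))) (XT.nd (nat_lit 156) (nat_lit 0) (nat_lit 76) (XT.nd (nat_lit 78) (nat_lit 0) (nat_lit 0) (XT.lf (nat_lit 0) (nat_lit 19918006063) (nat_lit 1216) (nat_lit 2098977266) (nat_lit 1292) (nat_lit 18552169016) (nat_lit 241) (nat_lit 5) (nat_lit 257) (nat_lit 5) (nat_lit 258) (nat_lit 5) (nat_lit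 384) (nat_lit 371) (nat_lit 145)) (XT.lf (nat_lit 76) (nat_lit 18871557796) (nat_lit 0) (nat_lit 3879072514) (nat_lit 1292) (nat_lit 18468224897) (nat_lit 242) (nat_lit 5) (nat_lit 241) (nat_lit 5) (nat_lit 258) (nat_lit 5) (nat_lit 385) (nat_lit 371) (nat_lit 144))) (XT.nd (nat_lit 78) (nat_lit 0) (nat_lit 0) (XT.lf (nat_lit 0) (nat_lit 25830352653) (nat_lit 1216) (nat_lit 1516991563) (nat_lit 1292) (nat_lit 14535842162) (nat_lit 242) (nat_lit 5) (nat_lit 258) (nat_lit 5) (nat_lit 259) (nat_lit 5) (nat_lit 386) (nat_lit 371) (nat_lit 143)) (XT.lf (nat_lit 76) (nat_lit 20294565963) (nat_lit 0) (nat_lit 8939855896) (nat_lit 1292) (nat_lit 13326067745) (nat_lit 243) (nat_lit 5) (nat_lit 242) (nat_lit 5) (nat_lit 259) (nat_lit 5) (nat_lit 387) (nat_lit 371) (nat_lit 142))))))))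
noncomputable def xc239 : XT := (XT.nd (nat_lit 2106) (nat_lit 1748) (nat_lit 0) (XT.nd (nat_lit 1014) (nat_lit 3192) (nat_lit 0) (XT.nd (nat_lit 468) (nat_lit 2128) (nat_lit 0) (XT.nd (nat_lit 234) (nat_lit 684) (nat_lit 0) (XT.nd (nat_lit 78) (nat_lit 1824) (nat_lit 0) (XT.lf (nat_lit 0) (nat_lit 32850900170) (nat_lit 1216) (nat_lit 563860620) (nat_lit 76) (nat_lit 9840043285) (nat_lit 243) (nat_lit 5) (nat_lit 259) (nat_lit 5) (nat_lit 244) (nat_lit 5) (nat_lit 388) (nat_lit 371) (nat_lit 141)) (XT.nd (nat_lit 78) (nat_lit 608) (nat_lit 0) (XT.lf (nat_lit 0) (nat_lit 22131344529) (nat_lit 1216) (nat_lit 14744325163) (nat_lit 1292) (nat_lit 7085285114) (nat_lit 227) (nat_lit 5) (nat_lit 243) (nat_lit 5) (nat_lit 244) (nat_lit 5) (nat_lit 389) (nat_lit 371) (nat_lit 140)) (XT.lf (nat_lit 0) (nat_lit 802013369) (nat_lit 608) (nat_lit 40274328365) (nat_lit 684) (nat_lit 3610294256) (nat_lit 219) (nat_lit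 5) (nat_lit 227) (nat_lit 5) (nat_lit 228) (nat_lit 5) (nat_lit 390) (nat_lit 371) (nat_lit 139)))) (XT.nd (nat_lit 78) (nat_lit 608) (nat_lit 0) (XT.lf (nat_lit 0) (nat_lit 336744526) (nat_lit 684) (nat_lit 21016587890) (nat_lit 76) (nat_lit 24069749052) (nat_lit 218) (nat_lit 5) (nat_lit 227) (nat_lit 5) (nat_lit 219) (nat_lit 5) (nat_lit 391) (nat_lit 371) (nat_lit 138)) (XT.nd (nat_lit 78) (nat_lit 0) (nat_lit 0) (XT.lf (nat_lit 0) (nat_lit 2550227632) (nat_lit 608) (nat_lit 1802548929) (nat_lit 684) (nat_lit 41827077675) (nat_lit 210) (nat_lit 5) (nat_lit 218) (nat_lit 5) (nat_lit 219) (nat_lit 5) (nat_lit 392) (nat_lit 371) (nat_lit 137)) (XT.lf (nat_lit 0) (nat_lit 8878521548) (nat_lit 684) (nat_lit 19877750432) (nat_lit 76) (nat_lit 18191381880) (nat_lit 210) (nat_lit 5) (nat_lit 219) (nat_lit 5) (nat_lit 211) (nat_lit 5) (nat_lit 393) (nat_lit 371) (nat_lit 136))))) (XT.nd (nat_lit 234) (nat_lit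 988) (nat_lit 0) (XT.nd (nat_lit 78) (nat_lit 532) (nat_lit 0) (XT.lf (nat_lit 0) (nat_lit 4658468664) (nat_lit 608) (nat_lit 8942895833) (nat_lit 684) (nat_lit 34135283821) (nat_lit 202) (nat_lit 5) (nat_lit 210) (nat_lit 5) (nat_lit 211) (nat_lit 5) (nat_lit 394) (nat_lit 371) (nat_lit 135)) (XT.nd (nat_lit 78) (nat_lit 532) (nat_lit 0) (XT.lf (nat_lit 0) (nat_lit 18777538423) (nat_lit 684) (nat_lit 18318533375) (nat_lit 76) (nat_lit 11443892040) (nat_lit 202) (nat_lit 5) (nat_lit 211) (nat_lit 5) (nat_lit 203) (nat_lit 5) (nat_lit 395) (nat_lit 371) (nat_lit 134)) (XT.lf (nat_lit 0) (nat_lit 7235286595) (nat_lit 532) (nat_lit 17030566182) (nat_lit 608) (nat_lit 25096820968) (nat_lit 195) (nat_lit 5) (nat_lit 202) (nat_lit 5) (nat_lit 203) (nat_lit 5) (nat_lit 396) (nat_lit 371) (nat_lit 133)))) (XT.nd (nat_lit 156) (nat_lit 456) (nat_lit 0) (XT.nd (nat_lit 78) (nat_lit 532) (nat_lit 0) (XT.lf (nat_lit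 0) (nat_lit 30139374947) (nat_lit 608) (nat_lit 16311357040) (nat_lit 76) (nat_lit 3752716774) (nat_lit 195) (nat_lit 5) (nat_lit 203) (nat_lit 5) (nat_lit 196) (nat_lit 5) (nat_lit 397) (nat_lit 371) (nat_lit 132)) (XT.lf (nat_lit 0) (nat_lit 10310483529) (nat_lit 532) (nat_lit 26145170235) (nat_lit 608) (nat_lit 14605797280) (nat_lit 188) (nat_lit 5) (nat_lit 195) (nat_lit 5) (nat_lit 196) (nat_lit 5) (nat_lit 398) (nat_lit 371) (nat_lit 131))) (XT.nd (nat_lit 78) (nat_lit 456) (nat_lit 0) (XT.lf (nat_lit 0) (nat_lit 38064112708) (nat_lit 532) (nat_lit 5060864290) (nat_lit 608) (nat_lit 8815310246) (nat_lit 188) (nat_lit 5) (nat_lit 195) (nat_lit 5) (nat_lit 196) (nat_lit 5) (nat_lit 399) (nat_lit 371) (nat_lit 130)) (XT.lf (nat_lit 0) (nat_lit 13915056729) (nat_lit 456) (nat_lit 36372066921) (nat_lit 532) (nat_lit 2549583084) (nat_lit 182) (nat_lit 5) (nat_lit 188) (nat_lit 5) (nat_lit 189) (nat_lit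 5) (nat_lit 400) (nat_lit 371) (nat_lit 129)))))) (XT.nd (nat_lit 546) (nat_lit 1292) (nat_lit 0) (XT.nd (nat_lit 234) (nat_lit 1292) (nat_lit 0) (XT.nd (nat_lit 78) (nat_lit 532) (nat_lit 0) (XT.lf (nat_lit 0) (nat_lit 4018435505) (nat_lit 532) (nat_lit 11021607489) (nat_lit 76) (nat_lit 38713135347) (nat_lit 181) (nat_lit 5) (nat_lit 188) (nat_lit 5) (nat_lit 182) (nat_lit 5) (nat_lit 401) (nat_lit 371) (nat_lit 128)) (XT.nd (nat_lit 78) (nat_lit 0) (nat_lit 0) (XT.lf (nat_lit 0) (nat_lit 10973190211) (nat_lit 608) (nat_lit 36718783909) (nat_lit 76) (nat_lit 6997184956) (nat_lit 174) (nat_lit 5) (nat_lit 182) (nat_lit 5) (nat_lit 175) (nat_lit 5) (nat_lit 402) (nat_lit 371) (nat_lit 127)) (XT.lf (nat_lit 0) (nat_lit 18396834564) (nat_lit 608) (nat_lit 7743068790) (nat_lit 76) (nat_lit 29505508927) (nat_lit 174) (nat_lit 5) (nat_lit 182) (nat_lit 5) (nat_lit 175) (nat_lit 5) (nat_lit 403) (nat_lit 371)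 (nat_lit 126)))) (XT.nd (nat_lit 156) (nat_lit 836) (nat_lit 0) (XT.nd (nat_lit 78) (nat_lit 0) (nat_lit 0) (XT.lf (nat_lit 0) (nat_lit 22540576646) (nat_lit 456) (nat_lit 3718253487) (nat_lit 532) (nat_lit 30365054136) (nat_lit 168) (nat_lit 5) (nat_lit 174) (nat_lit 5) (nat_lit 175) (nat_lit 5) (nat_lit 404) (nat_lit 371) (nat_lit 125)) (XT.lf (nat_lit 0) (nat_lit 34620889182) (nat_lit 532) (nat_lit 3926143087) (nat_lit 76) (nat_lit 19076752470) (nat_lit 168) (nat_lit 5) (nat_lit 175) (nat_lit 5) (nat_lit 169) (nat_lit 5) (nat_lit 405) (nat_lit 371) (nat_lit 124))) (XT.nd (nat_lit 78) (nat_lit 380) (nat_lit 0) (XT.lf (nat_lit 0) (nat_lit 27637048938) (nat_lit 456) (nat_lit 15898254468) (nat_lit 532) (nat_lit 15109334435) (nat_lit 162) (nat_lit 5) (nat_lit 168) (nat_lit 5) (nat_lit 169) (nat_lit 5) (nat_lit 406) (nat_lit 371) (nat_lit 123)) (XT.lf (nat_lit 0) (nat_lit 468838753) (nat_lit 380) (nat_lit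 52363309019) (nat_lit 456) (nat_lit 6860519236) (nat_lit 157) (nat_lit 5) (nat_lit 162) (nat_lit 5) (nat_lit 163) (nat_lit 5) (nat_lit 407) (nat_lit 371) (nat_lit 122))))) (XT.nd (nat_lit 234) (nat_lit 760) (nat_lit 0) (XT.nd (nat_lit 78) (nat_lit 456) (nat_lit 0) (XT.lf (nat_lit 0) (nat_lit 2076502911) (nat_lit 456) (nat_lit 27414987133) (nat_lit 76) (nat_lit 31265995812) (nat_lit 156) (nat_lit 5) (nat_lit 162) (nat_lit 5) (nat_lit 157) (nat_lit 5) (nat_lit 408) (nat_lit 371) (nat_lit 121)) (XT.nd (nat_lit 78) (nat_lit 0) (nat_lit 0) (XT.lf (nat_lit 0) (nat_lit 5384095788) (nat_lit 456) (nat_lit 5810471151) (nat_lit 532) (nat_lit 50656120298) (nat_lit 150) (nat_lit 5) (nat_lit 156) (nat_lit 5) (nat_lit 157) (nat_lit 5) (nat_lit 409) (nat_lit 371) (nat_lit 120)) (XT.lf (nat_lit 0) (nat_lit 21043442784) (nat_lit 532) (nat_lit 23421775583) (nat_lit 76) (nat_lit 18497748556) (nat_lit 150) (nat_lit 5) (nat_lit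 157) (nat_lit 5) (nat_lit 151) (nat_lit 5) (nat_lit 410) (nat_lit 371) (nat_lit 119)))) (XT.nd (nat_lit 156) (nat_lit 380) (nat_lit 0) (XT.nd (nat_lit 78) (nat_lit 0) (nat_lit 0) (XT.lf (nat_lit 0) (nat_lit 10765794070) (nat_lit 380) (nat_lit 20582114041) (nat_lit 456) (nat_lit 32755903543) (nat_lit 145) (nat_lit 5) (nat_lit 150) (nat_lit 5) (nat_lit 151) (nat_lit 5) (nat_lit 411) (nat_lit 371) (nat_lit 118)) (XT.lf (nat_lit 0) (nat_lit 42238100786) (nat_lit 456) (nat_lit 18854786074) (nat_lit 76) (nat_lit 4177697404) (nat_lit 145) (nat_lit 5) (nat_lit 151) (nat_lit 5) (nat_lit 146) (nat_lit 5) (nat_lit 412) (nat_lit 371) (nat_lit 117))) (XT.nd (nat_lit 78) (nat_lit 0) (nat_lit 0) (XT.lf (nat_lit 0) (nat_lit 16785586135) (nat_lit 380) (nat_lit 37033694540) (nat_lit 456) (nat_lit 12642151268) (nat_lit 140) (nat_lit 5) (nat_lit 145) (nat_lit 5) (nat_lit 146) (nat_lit 5) (nat_lit 413) (nat_lit 371) (nat_lit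 116)) (XT.lf (nat_lit 0) (nat_lit 53880564941) (nat_lit 380) (nat_lit 12056886440) (nat_lit 456) (nat_lit 1744867328) (nat_lit 140) (nat_lit 5) (nat_lit 145) (nat_lit 5) (nat_lit 146) (nat_lit 5) (nat_lit 414) (nat_lit 371) (nat_lit 115))))))) (XT.nd (nat_lit 43836) (nat_lit 0) (nat_lit 9120) (XT.nd (nat_lit 468) (nat_lit 304) (nat_lit 0) (XT.nd (nat_lit 234) (nat_lit 684) (nat_lit 0) (XT.nd (nat_lit 78) (nat_lit 380) (nat_lit 0) (XT.lf (nat_lit 0) (nat_lit 9654111536) (nat_lit 380) (nat_lit 45549664074) (nat_lit 76) (nat_lit 13722530564) (nat_lit 135) (nat_lit 5) (nat_lit 140) (nat_lit 5) (nat_lit 136) (nat_lit 5) (nat_lit 415) (nat_lit 371) (nat_lit 114)) (XT.nd (nat_lit 78) (nat_lit 380) (nat_lit 0) (XT.lf (nat_lit 0) (nat_lit 21619301491) (nat_lit 380) (nat_lit 8389255721) (nat_lit 76) (nat_lit 40190758712) (nat_lit 135) (nat_lit 5) (nat_lit 140) (nat_lit 5) (nat_lit 136) (nat_lit 5) (nat_lit 416) (nat_lit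 371) (nat_lit 113)) (XT.lf (nat_lit 0) (nat_lit 30479660108) (nat_lit 380) (nat_lit 3755986039) (nat_lit 456) (nat_lit 37266104135) (nat_lit 130) (nat_lit 5) (nat_lit 135) (nat_lit 5) (nat_lit 136) (nat_lit 5) (nat_lit 417) (nat_lit 371) (nat_lit 112)))) (XT.nd (nat_lit 78) (nat_lit 684) (nat_lit 0) (XT.lf (nat_lit 0) (nat_lit 47539076478) (nat_lit 456) (nat_lit 2379844733) (nat_lit 76) (nat_lit 22915078875) (nat_lit 130) (nat_lit 5) (nat_lit 136) (nat_lit 5) (nat_lit 131) (nat_lit 5) (nat_lit 418) (nat_lit 371) (nat_lit 111)) (XT.nd (nat_lit 78) (nat_lit 380) (nat_lit 0) (XT.lf (nat_lit 0) (nat_lit 38127432097) (nat_lit 304) (nat_lit 23517112452) (nat_lit 380) (nat_lit 12549585060) (nat_lit 126) (nat_lit 5) (nat_lit 130) (nat_lit 5) (nat_lit 131) (nat_lit 5) (nat_lit 419) (nat_lit 371) (nat_lit 110)) (XT.lf (nat_lit 0) (nat_lit 668534589) (nat_lit 380) (nat_lit 71245932689) (nat_lit 76) (nat_lit 3677378216)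 (nat_lit 121) (nat_lit 5) (nat_lit 126) (nat_lit 5) (nat_lit 122) (nat_lit 5) (nat_lit 420) (nat_lit 371) (nat_lit 109))))) (XT.nd (nat_lit 43056) (nat_lit 0) (nat_lit 8968) (XT.nd (nat_lit 78) (nat_lit 304) (nat_lit 0) (XT.lf (nat_lit 0) (nat_lit 14630871193) (nat_lit 380) (nat_lit 30672101020) (nat_lit 76) (nat_lit 31706796062) (nat_lit 121) (nat_lit 5) (nat_lit 126) (nat_lit 5) (nat_lit 122) (nat_lit 5) (nat_lit 421) (nat_lit 371) (nat_lit 108)) (XT.nd (nat_lit 78) (nat_lit 0) (nat_lit 0) (XT.lf (nat_lit 0) (nat_lit 11339179225) (nat_lit 304) (nat_lit 17781175472) (nat_lit 380) (nat_lit 49346625976) (nat_lit 117) (nat_lit 5) (nat_lit 121) (nat_lit 5) (nat_lit 122) (nat_lit 5) (nat_lit 422) (nat_lit 371) (nat_lit 107)) (XT.lf (nat_lit 0) (nat_lit 44458172756) (nat_lit 380) (nat_lit 24824750851) (nat_lit 76) (nat_lit 10672576567) (nat_lit 117) (nat_lit 5) (nat_lit 122) (nat_lit 5) (nat_lit 118) (nat_lit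 5) (nat_lit 423) (nat_lit 371) (nat_lit 106)))) (XT.nd (nat_lit 156) (nat_lit 0) (nat_lit 76) (XT.nd (nat_lit 78) (nat_lit 0) (nat_lit 0) (XT.lf (nat_lit 0) (nat_lit 1742229036) (nat_lit 1292) (nat_lit 7691253200) (nat_lit 1292) (nat_lit 7691253200) (nat_lit 235) (nat_lit 3) (nat_lit 252) (nat_lit 3) (nat_lit 252) (nat_lit 5) (nat_lit 372) (nat_lit 372) (nat_lit 156)) (XT.lf (nat_lit 76) (nat_lit 1007488254) (nat_lit 0) (nat_lit 2593814736) (nat_lit 1292) (nat_lit 31159944159) (nat_lit 236) (nat_lit 5) (nat_lit 235) (nat_lit 3) (nat_lit 252) (nat_lit 5) (nat_lit 373) (nat_lit 372) (nat_lit 155))) (XT.nd (nat_lit 78) (nat_lit 0) (nat_lit 0) (XT.lf (nat_lit 0) (nat_lit 4012568036) (nat_lit 1216) (nat_lit 17218133991) (nat_lit 1292) (nat_lit 14048948353) (nat_lit 236) (nat_lit 5) (nat_lit 252) (nat_lit 5) (nat_lit 253) (nat_lit 5) (nat_lit 374) (nat_lit 372) (nat_lit 154)) (XT.lf (nat_lit 0) (nat_lit 4459771507)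 (nat_lit 1216) (nat_lit 213288089) (nat_lit 1292) (nat_lit 31139839175) (nat_lit 236) (nat_lit 5) (nat_lit 252) (nat_lit 5) (nat_lit 253) (nat_lit 5) (nat_lit 375) (nat_lit 372) (nat_lit 153)))))) (XT.nd (nat_lit 546) (nat_lit 0) (nat_lit 228) (XT.nd (nat_lit 234) (nat_lit 0) (nat_lit 76) (XT.nd (nat_lit 78) (nat_lit 0) (nat_lit 0) (XT.lf (nat_lit 0) (nat_lit 5208688891) (nat_lit 1216) (nat_lit 18832936460) (nat_lit 1292) (nat_lit 12311871375) (nat_lit 237) (nat_lit 5) (nat_lit 253) (nat_lit 5) (nat_lit 254) (nat_lit 5) (nat_lit 376) (nat_lit 372) (nat_lit 152)) (XT.nd (nat_lit 78) (nat_lit 0) (nat_lit 76) (XT.lf (nat_lit 0) (nat_lit 6026552821) (nat_lit 1216) (nat_lit 1166930678) (nat_lit 1292) (nat_lit 29715435766) (nat_lit 237) (nat_lit 5) (nat_lit 253) (nat_lit 5) (nat_lit 254) (nat_lit 5) (nat_lit 377) (nat_lit 372) (nat_lit 151)) (XT.lf (nat_lit 0) (nat_lit 7133311283) (nat_lit 1216) (nat_lit 20208590857)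 (nat_lit 1292) (nat_lit 10131172569) (nat_lit 238) (nat_lit 5) (nat_lit 254) (nat_lit 5) (nat_lit 255) (nat_lit 5) (nat_lit 378) (nat_lit 372) (nat_lit 150)))) (XT.nd (nat_lit 156) (nat_lit 0) (nat_lit 76) (XT.nd (nat_lit 78) (nat_lit 0) (nat_lit 76) (XT.lf (nat_lit 0) (nat_lit 8354540135) (nat_lit 1216) (nat_lit 1853586288) (nat_lit 1292) (nat_lit 27843591321) (nat_lit 238) (nat_lit 5) (nat_lit 254) (nat_lit 5) (nat_lit 255) (nat_lit 5) (nat_lit 379) (nat_lit 372) (nat_lit 149)) (XT.lf (nat_lit 0) (nat_lit 9850945926) (nat_lit 1216) (nat_lit 21325693415) (nat_lit 1292) (nat_lit 7463925456) (nat_lit 239) (nat_lit 5) (nat_lit 255) (nat_lit 5) (nat_lit 256) (nat_lit 5) (nat_lit 380) (nat_lit 372) (nat_lit 148))) (XT.nd (nat_lit 78) (nat_lit 0) (nat_lit 76) (XT.lf (nat_lit 0) (nat_lit 11510463112) (nat_lit 1216) (nat_lit 2252612389) (nat_lit 1292) (nat_lit 25480456087) (nat_lit 239) (nat_lit 5) (nat_lit 255)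 (nat_lit 5) (nat_lit 256) (nat_lit 5) (nat_lit 381) (nat_lit 372) (nat_lit 147)) (XT.lf (nat_lit 0) (nat_lit 13430372900) (nat_lit 1216) (nat_lit 22163728957) (nat_lit 1292) (nat_lit 4264168190) (nat_lit 240) (nat_lit 5) (nat_lit 256) (nat_lit 5) (nat_lit 257) (nat_lit 5) (nat_lit 382) (nat_lit 372) (nat_lit 146))))) (XT.nd (nat_lit 234) (nat_lit 0) (nat_lit 76) (XT.nd (nat_lit 78) (nat_lit 0) (nat_lit 76) (XT.lf (nat_lit 0) (nat_lit 15565460146) (nat_lit 1216) (nat_lit 2342204645) (nat_lit 1292) (nat_lit 22579059315) (nat_lit 240) (nat_lit 5) (nat_lit 256) (nat_lit 5) (nat_lit 257) (nat_lit 5) (nat_lit 383) (nat_lit 372) (nat_lit 145)) (XT.nd (nat_lit 78) (nat_lit 0) (nat_lit 0) (XT.lf (nat_lit 0) (nat_lit 17944904443) (nat_lit 1216) (nat_lit 22701041411) (nat_lit 1292) (nat_lit 482677625) (nat_lit 241) (nat_lit 5) (nat_lit 257) (nat_lit 5) (nat_lit 258) (nat_lit 5) (nat_lit 384) (nat_lit 372) (nat_lit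 144)) (XT.lf (nat_lit 0) (nat_lit 20595349173) (nat_lit 1216) (nat_lit 2099365816) (nat_lit 1292) (nat_lit 19089077133) (nat_lit 241) (nat_lit 5) (nat_lit 257) (nat_lit 5) (nat_lit 258) (nat_lit 5) (nat_lit 385) (nat_lit 372) (nat_lit 143)))) (XT.nd (nat_lit 156) (nat_lit 0) (nat_lit 76) (XT.nd (nat_lit 78) (nat_lit 0) (nat_lit 76) (XT.lf (nat_lit 76) (nat_lit 19499671761) (nat_lit 0) (nat_lit 4011551698) (nat_lit 1292) (nat_lit 18941815659) (nat_lit 242) (nat_lit 5) (nat_lit 241) (nat_lit 5) (nat_lit 258) (nat_lit 5) (nat_lit 386) (nat_lit 372) (nat_lit 142)) (XT.lf (nat_lit 0) (nat_lit 26680913143) (nat_lit 1216) (nat_lit 1499876254) (nat_lit 1292) (nat_lit 14956584706) (nat_lit 242) (nat_lit 5) (nat_lit 258) (nat_lit 5) (nat_lit 259) (nat_lit 5) (nat_lit 387) (nat_lit 372) (nat_lit 141))) (XT.nd (nat_lit 78) (nat_lit 0) (nat_lit 76) (XT.lf (nat_lit 76) (nat_lit 20965414027) (nat_lit 0) (nat_lit 9220083092)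 (nat_lit 1292) (nat_lit 13649548645) (nat_lit 243) (nat_lit 5) (nat_lit 242) (nat_lit 5) (nat_lit 259) (nat_lit 5) (nat_lit 388) (nat_lit 372) (nat_lit 140)) (XT.lf (nat_lit 0) (nat_lit 33908200912) (nat_lit 1216) (nat_lit 518266469) (nat_lit 76) (nat_lit 10123791437) (nat_lit 243) (nat_lit 5) (nat_lit 259) (nat_lit 5) (nat_lit 244) (nat_lit 5) (nat_lit 389) (nat_lit 372) (nat_lit 139))))))))
noncomputable def xc240 : XT := (XT.nd (nat_lit 2028) (nat_lit 1444) (nat_lit 0) (XT.nd (nat_lit 1014) (nat_lit 3116) (nat_lit 0) (XT.nd (nat_lit 468) (nat_lit 1596) (nat_lit 0) (XT.nd (nat_lit 234) (nat_lit 1216) (nat_lit 0) (XT.nd (nat_lit 78) (nat_lit 684) (nat_lit 0) (XT.lf (nat_lit 0) (nat_lit 22857181992) (nat_lit 1216) (nat_lit 15195036025) (nat_lit 1292) (nat_lit 7225421974) (nat_lit 227) (nat_lit 5) (nat_lit 243) (nat_lit 5) (nat_lit 244) (nat_lit 5) (nat_lit 390) (nat_lit 372) (nat_lit 138)) (XT.nd (nat_lit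 78) (nat_lit 76) (nat_lit 0) (XT.lf (nat_lit 0) (nat_lit 889566281) (nat_lit 608) (nat_lit 41487829110) (nat_lit 684) (nat_lit 3647742686) (nat_lit 219) (nat_lit 5) (nat_lit 227) (nat_lit 5) (nat_lit 228) (nat_lit 5) (nat_lit 391) (nat_lit 372) (nat_lit 137)) (XT.lf (nat_lit 0) (nat_lit 414300896) (nat_lit 684) (nat_lit 21584067711) (nat_lit 76) (nat_lit 24785349551) (nat_lit 218) (nat_lit 5) (nat_lit 227) (nat_lit 5) (nat_lit 219) (nat_lit 5) (nat_lit 392) (nat_lit 372) (nat_lit 136)))) (XT.nd (nat_lit 78) (nat_lit 608) (nat_lit 0) (XT.lf (nat_lit 0) (nat_lit 2689134454) (nat_lit 608) (nat_lit 1860314584) (nat_lit 684) (nat_lit 43013786952) (nat_lit 210) (nat_lit 5) (nat_lit 218) (nat_lit 5) (nat_lit 219) (nat_lit 5) (nat_lit 393) (nat_lit 372) (nat_lit 135)) (XT.nd (nat_lit 78) (nat_lit 608) (nat_lit 0) (XT.lf (nat_lit 0) (nat_lit 9209007018) (nat_lit 684) (nat_lit 20411510781) (nat_lit 76) (nat_lit 18733611494)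 (nat_lit 210) (nat_lit 5) (nat_lit 219) (nat_lit 5) (nat_lit 211) (nat_lit 5) (nat_lit 394) (nat_lit 372) (nat_lit 134)) (XT.lf (nat_lit 0) (nat_lit 4860181435) (nat_lit 608) (nat_lit 9212081547) (nat_lit 684) (nat_lit 35094569654) (nat_lit 202) (nat_lit 5) (nat_lit 210) (nat_lit 5) (nat_lit 211) (nat_lit 5) (nat_lit 395) (nat_lit 372) (nat_lit 133))))) (XT.nd (nat_lit 234) (nat_lit 1064) (nat_lit 0) (XT.nd (nat_lit 78) (nat_lit 532) (nat_lit 0) (XT.lf (nat_lit 0) (nat_lit 19401882934) (nat_lit 684) (nat_lit 18806067547) (nat_lit 76) (nat_lit 11786353171) (nat_lit 202) (nat_lit 5) (nat_lit 211) (nat_lit 5) (nat_lit 203) (nat_lit 5) (nat_lit 396) (nat_lit 372) (nat_lit 132)) (XT.nd (nat_lit 78) (nat_lit 0) (nat_lit 0) (XT.lf (nat_lit 0) (nat_lit 7513758965) (nat_lit 532) (nat_lit 17539900868) (nat_lit 608) (nat_lit 25788071463) (nat_lit 195) (nat_lit 5) (nat_lit 202) (nat_lit 5) (nat_lit 203) (nat_lit 5)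 (nat_lit 397) (nat_lit 372) (nat_lit 131)) (XT.lf (nat_lit 0) (nat_lit 31101659770) (nat_lit 608) (nat_lit 16739317922) (nat_lit 76) (nat_lit 3866804514) (nat_lit 195) (nat_lit 5) (nat_lit 203) (nat_lit 5) (nat_lit 196) (nat_lit 5) (nat_lit 398) (nat_lit 372) (nat_lit 130)))) (XT.nd (nat_lit 156) (nat_lit 532) (nat_lit 0) (XT.nd (nat_lit 78) (nat_lit 0) (nat_lit 0) (XT.lf (nat_lit 0) (nat_lit 10680576101) (nat_lit 532) (nat_lit 26925742749) (nat_lit 608) (nat_lit 14985239734) (nat_lit 188) (nat_lit 5) (nat_lit 195) (nat_lit 5) (nat_lit 196) (nat_lit 5) (nat_lit 399) (nat_lit 372) (nat_lit 129)) (XT.lf (nat_lit 0) (nat_lit 39265043921) (nat_lit 532) (nat_lit 5209017798) (nat_lit 608) (nat_lit 9022748714) (nat_lit 188) (nat_lit 5) (nat_lit 195) (nat_lit 5) (nat_lit 196) (nat_lit 5) (nat_lit 400) (nat_lit 372) (nat_lit 128))) (XT.nd (nat_lit 78) (nat_lit 76) (nat_lit 0) (XT.lf (nat_lit 0) (nat_lit 14392571703)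 (nat_lit 456) (nat_lit 37457500994) (nat_lit 532) (nat_lit 2570080551) (nat_lit 182) (nat_lit 5) (nat_lit 188) (nat_lit 5) (nat_lit 189) (nat_lit 5) (nat_lit 401) (nat_lit 372) (nat_lit 127)) (XT.lf (nat_lit 0) (nat_lit 4192287074) (nat_lit 532) (nat_lit 11292857899) (nat_lit 76) (nat_lit 39879006550) (nat_lit 181) (nat_lit 5) (nat_lit 188) (nat_lit 5) (nat_lit 182) (nat_lit 5) (nat_lit 402) (nat_lit 372) (nat_lit 126)))))) (XT.nd (nat_lit 468) (nat_lit 1292) (nat_lit 0) (XT.nd (nat_lit 234) (nat_lit 836) (nat_lit 0) (XT.nd (nat_lit 78) (nat_lit 456) (nat_lit 0) (XT.lf (nat_lit 0) (nat_lit 11354759928) (nat_lit 608) (nat_lit 37760002581) (nat_lit 76) (nat_lit 7213477581) (nat_lit 174) (nat_lit 5) (nat_lit 182) (nat_lit 5) (nat_lit 175) (nat_lit 5) (nat_lit 403) (nat_lit 372) (nat_lit 125)) (XT.nd (nat_lit 78) (nat_lit 456) (nat_lit 0) (XT.lf (nat_lit 0) (nat_lit 18999588155) (nat_lit 608) (nat_lit 7916773625)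 (nat_lit 76) (nat_lit 30396865532) (nat_lit 174) (nat_lit 5) (nat_lit 182) (nat_lit 5) (nat_lit 175) (nat_lit 5) (nat_lit 404) (nat_lit 372) (nat_lit 124)) (XT.lf (nat_lit 0) (nat_lit 23274806789) (nat_lit 456) (nat_lit 3821713431) (nat_lit 532) (nat_lit 31224561577) (nat_lit 168) (nat_lit 5) (nat_lit 174) (nat_lit 5) (nat_lit 175) (nat_lit 5) (nat_lit 405) (nat_lit 372) (nat_lit 123)))) (XT.nd (nat_lit 78) (nat_lit 836) (nat_lit 0) (XT.lf (nat_lit 0) (nat_lit 35708062388) (nat_lit 532) (nat_lit 3986204954) (nat_lit 76) (nat_lit 19656753919) (nat_lit 168) (nat_lit 5) (nat_lit 175) (nat_lit 5) (nat_lit 169) (nat_lit 5) (nat_lit 406) (nat_lit 372) (nat_lit 122)) (XT.nd (nat_lit 78) (nat_lit 380) (nat_lit 0) (XT.lf (nat_lit 0) (nat_lit 28523316926) (nat_lit 456) (nat_lit 16365727559) (nat_lit 532) (nat_lit 15513482007) (nat_lit 162) (nat_lit 5) (nat_lit 168) (nat_lit 5) (nat_lit 169) (nat_lit 5) (nat_lit 407)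 (nat_lit 372) (nat_lit 121)) (XT.lf (nat_lit 0) (nat_lit 540846159) (nat_lit 380) (nat_lit 53923204628) (nat_lit 456) (nat_lit 7017968634) (nat_lit 157) (nat_lit 5) (nat_lit 162) (nat_lit 5) (nat_lit 163) (nat_lit 5) (nat_lit 408) (nat_lit 372) (nat_lit 120))))) (XT.nd (nat_lit 234) (nat_lit 760) (nat_lit 0) (XT.nd (nat_lit 78) (nat_lit 456) (nat_lit 0) (XT.lf (nat_lit 0) (nat_lit 2184839145) (nat_lit 456) (nat_lit 28180247508) (nat_lit 76) (nat_lit 32213724219) (nat_lit 156) (nat_lit 5) (nat_lit 162) (nat_lit 5) (nat_lit 157) (nat_lit 5) (nat_lit 409) (nat_lit 372) (nat_lit 119)) (XT.nd (nat_lit 78) (nat_lit 0) (nat_lit 0) (XT.lf (nat_lit 0) (nat_lit 5602247221) (nat_lit 456) (nat_lit 5973401216) (nat_lit 532) (nat_lit 52129184290) (nat_lit 150) (nat_lit 5) (nat_lit 156) (nat_lit 5) (nat_lit 157) (nat_lit 5) (nat_lit 410) (nat_lit 372) (nat_lit 118)) (XT.lf (nat_lit 0) (nat_lit 21718779001) (nat_lit 532)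 (nat_lit 24068220835) (nat_lit 76) (nat_lit 19063517834) (nat_lit 150) (nat_lit 5) (nat_lit 157) (nat_lit 5) (nat_lit 151) (nat_lit 5) (nat_lit 411) (nat_lit 372) (nat_lit 117)))) (XT.nd (nat_lit 156) (nat_lit 380) (nat_lit 0) (XT.nd (nat_lit 78) (nat_lit 0) (nat_lit 0) (XT.lf (nat_lit 0) (nat_lit 11144424848) (nat_lit 380) (nat_lit 21187205935) (nat_lit 456) (nat_lit 33693979887) (nat_lit 145) (nat_lit 5) (nat_lit 150) (nat_lit 5) (nat_lit 151) (nat_lit 5) (nat_lit 412) (nat_lit 372) (nat_lit 116)) (XT.lf (nat_lit 0) (nat_lit 43547383958) (nat_lit 456) (nat_lit 19365232214) (nat_lit 76) (nat_lit 4314805136) (nat_lit 145) (nat_lit 5) (nat_lit 151) (nat_lit 5) (nat_lit 146) (nat_lit 5) (nat_lit 413) (nat_lit 372) (nat_lit 115))) (XT.nd (nat_lit 78) (nat_lit 0) (nat_lit 0) (XT.lf (nat_lit 0) (nat_lit 17343810010) (nat_lit 380) (nat_lit 38131487240) (nat_lit 456) (nat_lit 12978718700) (nat_lit 140) (nat_lit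 5) (nat_lit 145) (nat_lit 5) (nat_lit 146) (nat_lit 5) (nat_lit 414) (nat_lit 372) (nat_lit 114)) (XT.lf (nat_lit 0) (nat_lit 55550046250) (nat_lit 380) (nat_lit 12405759890) (nat_lit 456) (nat_lit 1755759847) (nat_lit 140) (nat_lit 5) (nat_lit 145) (nat_lit 5) (nat_lit 146) (nat_lit 5) (nat_lit 415) (nat_lit 372) (nat_lit 113))))))) (XT.nd (nat_lit 43992) (nat_lit 0) (nat_lit 7448) (XT.nd (nat_lit 468) (nat_lit 0) (nat_lit 0) (XT.nd (nat_lit 234) (nat_lit 684) (nat_lit 0) (XT.nd (nat_lit 78) (nat_lit 380) (nat_lit 0) (XT.lf (nat_lit 0) (nat_lit 9983837256) (nat_lit 380) (nat_lit 46861709143) (nat_lit 76) (nat_lit 14147331422) (nat_lit 135) (nat_lit 5) (nat_lit 140) (nat_lit 5) (nat_lit 136) (nat_lit 5) (nat_lit 416) (nat_lit 372) (nat_lit 112)) (XT.nd (nat_lit 78) (nat_lit 380) (nat_lit 0) (XT.lf (nat_lit 0) (nat_lit 22306814880) (nat_lit 380) (nat_lit 8588074312) (nat_lit 76) (nat_lit 41409224135) (nat_lit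 135) (nat_lit 5) (nat_lit 140) (nat_lit 5) (nat_lit 136) (nat_lit 5) (nat_lit 417) (nat_lit 372) (nat_lit 111)) (XT.lf (nat_lit 0) (nat_lit 31446390765) (nat_lit 380) (nat_lit 3854628232) (nat_lit 456) (nat_lit 38344621053) (nat_lit 130) (nat_lit 5) (nat_lit 135) (nat_lit 5) (nat_lit 136) (nat_lit 5) (nat_lit 418) (nat_lit 372) (nat_lit 110)))) (XT.nd (nat_lit 78) (nat_lit 684) (nat_lit 0) (XT.lf (nat_lit 0) (nat_lit 49002567609) (nat_lit 456) (nat_lit 2399425844) (nat_lit 76) (nat_lit 23615893832) (nat_lit 130) (nat_lit 5) (nat_lit 136) (nat_lit 5) (nat_lit 131) (nat_lit 5) (nat_lit 419) (nat_lit 372) (nat_lit 109)) (XT.nd (nat_lit 78) (nat_lit 380) (nat_lit 0) (XT.lf (nat_lit 0) (nat_lit 39322561308) (nat_lit 304) (nat_lit 24208044645) (nat_lit 380) (nat_lit 12888232939) (nat_lit 126) (nat_lit 5) (nat_lit 130) (nat_lit 5) (nat_lit 131) (nat_lit 5) (nat_lit 420) (nat_lit 372) (nat_lit 108)) (XT.lf (nat_lit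 0) (nat_lit 725251273) (nat_lit 380) (nat_lit 73330800802) (nat_lit 76) (nat_lit 3802436850) (nat_lit 121) (nat_lit 5) (nat_lit 126) (nat_lit 5) (nat_lit 122) (nat_lit 5) (nat_lit 421) (nat_lit 372) (nat_lit 107))))) (XT.nd (nat_lit 43212) (nat_lit 0) (nat_lit 8740) (XT.nd (nat_lit 43056) (nat_lit 0) (nat_lit 8664) (XT.lf (nat_lit 0) (nat_lit 15105390189) (nat_lit 380) (nat_lit 31541283597) (nat_lit 76) (nat_lit 32672307989) (nat_lit 121) (nat_lit 5) (nat_lit 126) (nat_lit 5) (nat_lit 122) (nat_lit 5) (nat_lit 422) (nat_lit 372) (nat_lit 106)) (XT.nd (nat_lit 78) (nat_lit 0) (nat_lit 0) (XT.lf (nat_lit 0) (nat_lit 1848861691) (nat_lit 1292) (nat_lit 7893978331) (nat_lit 1292) (nat_lit 7893978331) (nat_lit 235) (nat_lit 3) (nat_lit 252) (nat_lit 3) (nat_lit 252) (nat_lit 5) (nat_lit 373) (nat_lit 373) (nat_lit 154)) (XT.lf (nat_lit 76) (nat_lit 1093188567) (nat_lit 0) (nat_lit 2722251406) (nat_lit 1292)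 (nat_lit 31985406950) (nat_lit 236) (nat_lit 5) (nat_lit 235) (nat_lit 3) (nat_lit 252) (nat_lit 5) (nat_lit 374) (nat_lit 373) (nat_lit 153)))) (XT.nd (nat_lit 156) (nat_lit 0) (nat_lit 76) (XT.nd (nat_lit 78) (nat_lit 0) (nat_lit 0) (XT.lf (nat_lit 0) (nat_lit 4235480302) (nat_lit 1216) (nat_lit 17677202362) (nat_lit 1292) (nat_lit 14422228060) (nat_lit 236) (nat_lit 5) (nat_lit 252) (nat_lit 5) (nat_lit 253) (nat_lit 5) (nat_lit 375) (nat_lit 373) (nat_lit 152)) (XT.lf (nat_lit 0) (nat_lit 4693113414) (nat_lit 1216) (nat_lit 163885131) (nat_lit 1292) (nat_lit 32027249162) (nat_lit 236) (nat_lit 5) (nat_lit 252) (nat_lit 5) (nat_lit 253) (nat_lit 5) (nat_lit 376) (nat_lit 373) (nat_lit 151))) (XT.nd (nat_lit 78) (nat_lit 0) (nat_lit 0) (XT.lf (nat_lit 0) (nat_lit 5461726965) (nat_lit 1216) (nat_lit 19339301536) (nat_lit 1292) (nat_lit 12640119743) (nat_lit 237) (nat_lit 5) (nat_lit 253) (nat_lit 5) (nat_lit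 254) (nat_lit 5) (nat_lit 377) (nat_lit 373) (nat_lit 150)) (XT.lf (nat_lit 0) (nat_lit 6301308053) (nat_lit 1216) (nat_lit 1145023047) (nat_lit 1292) (nat_lit 30566988381) (nat_lit 237) (nat_lit 5) (nat_lit 253) (nat_lit 5) (nat_lit 254) (nat_lit 5) (nat_lit 378) (nat_lit 373) (nat_lit 149)))))) (XT.nd (nat_lit 546) (nat_lit 1444) (nat_lit 0) (XT.nd (nat_lit 234) (nat_lit 0) (nat_lit 76) (XT.nd (nat_lit 78) (nat_lit 0) (nat_lit 0) (XT.lf (nat_lit 0) (nat_lit 7438734006) (nat_lit 1216) (nat_lit 20755350581) (nat_lit 1292) (nat_lit 10400392473) (nat_lit 238) (nat_lit 5) (nat_lit 254) (nat_lit 5) (nat_lit 255) (nat_lit 5) (nat_lit 379) (nat_lit 373) (nat_lit 148)) (XT.nd (nat_lit 78) (nat_lit 0) (nat_lit 76) (XT.lf (nat_lit 0) (nat_lit 8693936907) (nat_lit 1216) (nat_lit 1851428826) (nat_lit 1292) (nat_lit 28645194912) (nat_lit 238) (nat_lit 5) (nat_lit 254) (nat_lit 5) (nat_lit 255) (nat_lit 5) (nat_lit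 380) (nat_lit 373) (nat_lit 147)) (XT.lf (nat_lit 0) (nat_lit 10232915616) (nat_lit 1216) (nat_lit 21905335432) (nat_lit 1292) (nat_lit 7658892975) (nat_lit 239) (nat_lit 5) (nat_lit 255) (nat_lit 5) (nat_lit 256) (nat_lit 5) (nat_lit 381) (nat_lit 373) (nat_lit 146)))) (XT.nd (nat_lit 156) (nat_lit 0) (nat_lit 76) (XT.nd (nat_lit 78) (nat_lit 0) (nat_lit 76) (XT.lf (nat_lit 0) (nat_lit 11939700609) (nat_lit 1216) (nat_lit 2261813299) (nat_lit 1292) (nat_lit 26216762736) (nat_lit 239) (nat_lit 5) (nat_lit 255) (nat_lit 5) (nat_lit 256) (nat_lit 5) (nat_lit 382) (nat_lit 373) (nat_lit 145)) (XT.lf (nat_lit 0) (nat_lit 13915086061) (nat_lit 1216) (nat_lit 22768099808) (nat_lit 1292) (nat_lit 4368336294) (nat_lit 240) (nat_lit 5) (nat_lit 256) (nat_lit 5) (nat_lit 257) (nat_lit 5) (nat_lit 383) (nat_lit 373) (nat_lit 144))) (XT.nd (nat_lit 78) (nat_lit 0) (nat_lit 76) (XT.lf (nat_lit 0) (nat_lit 16111843343)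 (nat_lit 1216) (nat_lit 2353693097) (nat_lit 1292) (nat_lit 23233366102) (nat_lit 240) (nat_lit 5) (nat_lit 256) (nat_lit 5) (nat_lit 257) (nat_lit 5) (nat_lit 384) (nat_lit 373) (nat_lit 143)) (XT.lf (nat_lit 0) (nat_lit 18560730148) (nat_lit 1216) (nat_lit 23321314627) (nat_lit 1292) (nat_lit 478073532) (nat_lit 241) (nat_lit 5) (nat_lit 257) (nat_lit 5) (nat_lit 258) (nat_lit 5) (nat_lit 385) (nat_lit 373) (nat_lit 142))))) (XT.nd (nat_lit 234) (nat_lit 1672) (nat_lit 0) (XT.nd (nat_lit 78) (nat_lit 0) (nat_lit 0) (XT.lf (nat_lit 0) (nat_lit 21288431563) (nat_lit 1216) (nat_lit 2103358415) (nat_lit 1292) (nat_lit 19643220882) (nat_lit 241) (nat_lit 5) (nat_lit 257) (nat_lit 5) (nat_lit 258) (nat_lit 5) (nat_lit 386) (nat_lit 373) (nat_lit 141)) (XT.nd (nat_lit 78) (nat_lit 0) (nat_lit 76) (XT.lf (nat_lit 76) (nat_lit 20143071972) (nat_lit 0) (nat_lit 4147080648) (nat_lit 1292) (nat_lit 19434232646) (nat_lit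 242) (nat_lit 5) (nat_lit 241) (nat_lit 5) (nat_lit 258) (nat_lit 5) (nat_lit 387) (nat_lit 373) (nat_lit 140)) (XT.lf (nat_lit 0) (nat_lit 27552647834) (nat_lit 1216) (nat_lit 1485842420) (nat_lit 1292) (nat_lit 15390829688) (nat_lit 242) (nat_lit 5) (nat_lit 258) (nat_lit 5) (nat_lit 259) (nat_lit 5) (nat_lit 388) (nat_lit 373) (nat_lit 139)))) (XT.nd (nat_lit 156) (nat_lit 1748) (nat_lit 0) (XT.nd (nat_lit 78) (nat_lit 0) (nat_lit 76) (XT.lf (nat_lit 76) (nat_lit 21652827843) (nat_lit 0) (nat_lit 9508026445) (nat_lit 1292) (nat_lit 13987113968) (nat_lit 243) (nat_lit 5) (nat_lit 242) (nat_lit 5) (nat_lit 259) (nat_lit 5) (nat_lit 389) (nat_lit 373) (nat_lit 138)) (XT.lf (nat_lit 0) (nat_lit 34993100571) (nat_lit 1216) (nat_lit 474892822) (nat_lit 76) (nat_lit 10416709491) (nat_lit 243) (nat_lit 5) (nat_lit 259) (nat_lit 5) (nat_lit 244) (nat_lit 5) (nat_lit 390) (nat_lit 373) (nat_lit 137))) (XT.nd (nat_lit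 78) (nat_lit 608) (nat_lit 0) (XT.lf (nat_lit 0) (nat_lit 23601241429) (nat_lit 1216) (nat_lit 15658787103) (nat_lit 1292) (nat_lit 7373920242) (nat_lit 227) (nat_lit 5) (nat_lit 243) (nat_lit 5) (nat_lit 244) (nat_lit 5) (nat_lit 391) (nat_lit 373) (nat_lit 136)) (XT.lf (nat_lit 0) (nat_lit 976101051) (nat_lit 608) (nat_lit 42737432306) (nat_lit 684) (nat_lit 3690382246) (nat_lit 219) (nat_lit 5) (nat_lit 227) (nat_lit 5) (nat_lit 228) (nat_lit 5) (nat_lit 392) (nat_lit 373) (nat_lit 135))))))))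
noncomputable def xc241 : XT := (XT.nd (nat_lit 2106) (nat_lit 684) (nat_lit 0) (XT.nd (nat_lit 1014) (nat_lit 3344) (nat_lit 0) (XT.nd (nat_lit 468) (nat_lit 1596) (nat_lit 0) (XT.nd (nat_lit 234) (nat_lit 1140) (nat_lit 0) (XT.nd (nat_lit 78) (nat_lit 608) (nat_lit 0) (XT.lf (nat_lit 0) (nat_lit 490311820) (nat_lit 684) (nat_lit 22172189408) (nat_lit 76) (nat_lit 25522790730) (nat_lit 218) (nat_lit 5) (nat_lit 227) (nat_lit 5) (nat_lit 219) (nat_lit 5) (nat_lit 393) (nat_lit 373) (nat_lit 134)) (XT.nd (nat_lit 78) (nat_lit 0) (nat_lit 0) (XT.lf (nat_lit 0) (nat_lit 2828626467) (nat_lit 608) (nat_lit 1919601435) (nat_lit 684) (nat_lit 44240006901) (nat_lit 210) (nat_lit 5) (nat_lit 218) (nat_lit 5) (nat_lit 219) (nat_lit 5) (nat_lit 394) (nat_lit 373) (nat_lit 133)) (XT.lf (nat_lit 0) (nat_lit 9545725738) (nat_lit 684) (nat_lit 20964875838) (nat_lit 76) (nat_lit 19292309590) (nat_lit 210) (nat_lit 5) (nat_lit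 219) (nat_lit 5) (nat_lit 211) (nat_lit 5) (nat_lit 395) (nat_lit 373) (nat_lit 132)))) (XT.nd (nat_lit 78) (nat_lit 532) (nat_lit 0) (XT.lf (nat_lit 0) (nat_lit 5064388906) (nat_lit 608) (nat_lit 9489291235) (nat_lit 684) (nat_lit 36086352278) (nat_lit 202) (nat_lit 5) (nat_lit 210) (nat_lit 5) (nat_lit 211) (nat_lit 5) (nat_lit 396) (nat_lit 373) (nat_lit 131)) (XT.nd (nat_lit 78) (nat_lit 532) (nat_lit 0) (XT.lf (nat_lit 0) (nat_lit 20041455078) (nat_lit 684) (nat_lit 19311788051) (nat_lit 76) (nat_lit 12139137253) (nat_lit 202) (nat_lit 5) (nat_lit 211) (nat_lit 5) (nat_lit 203) (nat_lit 5) (nat_lit 397) (nat_lit 373) (nat_lit 130)) (XT.lf (nat_lit 0) (nat_lit 7797060104) (nat_lit 532) (nat_lit 18064606424) (nat_lit 608) (nat_lit 26503598673) (nat_lit 195) (nat_lit 5) (nat_lit 202) (nat_lit 5) (nat_lit 203) (nat_lit 5) (nat_lit 398) (nat_lit 373) (nat_lit 129))))) (XT.nd (nat_lit 234) (nat_lit 1064)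 (nat_lit 0) (XT.nd (nat_lit 78) (nat_lit 532) (nat_lit 0) (XT.lf (nat_lit 0) (nat_lit 32089477755) (nat_lit 608) (nat_lit 17183641084) (nat_lit 76) (nat_lit 3984228422) (nat_lit 195) (nat_lit 5) (nat_lit 203) (nat_lit 5) (nat_lit 196) (nat_lit 5) (nat_lit 399) (nat_lit 373) (nat_lit 128)) (XT.nd (nat_lit 78) (nat_lit 0) (nat_lit 0) (XT.lf (nat_lit 0) (nat_lit 11058282541) (nat_lit 532) (nat_lit 27729949575) (nat_lit 608) (nat_lit 15379436887) (nat_lit 188) (nat_lit 5) (nat_lit 195) (nat_lit 5) (nat_lit 196) (nat_lit 5) (nat_lit 400) (nat_lit 373) (nat_lit 127)) (XT.lf (nat_lit 0) (nat_lit 40498615779) (nat_lit 532) (nat_lit 5361826724) (nat_lit 608) (nat_lit 9239683565) (nat_lit 188) (nat_lit 5) (nat_lit 195) (nat_lit 5) (nat_lit 196) (nat_lit 5) (nat_lit 401) (nat_lit 373) (nat_lit 126)))) (XT.nd (nat_lit 156) (nat_lit 532) (nat_lit 0) (XT.nd (nat_lit 78) (nat_lit 76) (nat_lit 0) (XT.lf (nat_lit 0) (nat_lit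 14880964249) (nat_lit 456) (nat_lit 38575826897) (nat_lit 532) (nat_lit 2594406998) (nat_lit 182) (nat_lit 5) (nat_lit 188) (nat_lit 5) (nat_lit 189) (nat_lit 5) (nat_lit 402) (nat_lit 373) (nat_lit 125)) (XT.lf (nat_lit 0) (nat_lit 4368294638) (nat_lit 532) (nat_lit 11575655498) (nat_lit 76) (nat_lit 41079596883) (nat_lit 181) (nat_lit 5) (nat_lit 188) (nat_lit 5) (nat_lit 182) (nat_lit 5) (nat_lit 403) (nat_lit 373) (nat_lit 124))) (XT.nd (nat_lit 78) (nat_lit 0) (nat_lit 0) (XT.lf (nat_lit 0) (nat_lit 11744770254) (nat_lit 608) (nat_lit 38835921855) (nat_lit 76) (nat_lit 7435892915) (nat_lit 174) (nat_lit 5) (nat_lit 182) (nat_lit 5) (nat_lit 175) (nat_lit 5) (nat_lit 404) (nat_lit 373) (nat_lit 123)) (XT.lf (nat_lit 0) (nat_lit 19617505439) (nat_lit 608) (nat_lit 8099052752) (nat_lit 76) (nat_lit 31314607426) (nat_lit 174) (nat_lit 5) (nat_lit 182) (nat_lit 5) (nat_lit 175) (nat_lit 5) (nat_lit 405)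 (nat_lit 373) (nat_lit 122)))))) (XT.nd (nat_lit 546) (nat_lit 1520) (nat_lit 0) (XT.nd (nat_lit 234) (nat_lit 912) (nat_lit 0) (XT.nd (nat_lit 78) (nat_lit 456) (nat_lit 0) (XT.lf (nat_lit 0) (nat_lit 24027733662) (nat_lit 456) (nat_lit 3928741439) (nat_lit 532) (nat_lit 32112807349) (nat_lit 168) (nat_lit 5) (nat_lit 174) (nat_lit 5) (nat_lit 175) (nat_lit 5) (nat_lit 406) (nat_lit 373) (nat_lit 121)) (XT.nd (nat_lit 78) (nat_lit 456) (nat_lit 0) (XT.lf (nat_lit 0) (nat_lit 36825064021) (nat_lit 532) (nat_lit 4051382179) (nat_lit 76) (nat_lit 20253713464) (nat_lit 168) (nat_lit 5) (nat_lit 175) (nat_lit 5) (nat_lit 169) (nat_lit 5) (nat_lit 407) (nat_lit 373) (nat_lit 120)) (XT.lf (nat_lit 0) (nat_lit 29432891936) (nat_lit 456) (nat_lit 16847768721) (nat_lit 532) (nat_lit 15932574410) (nat_lit 162) (nat_lit 5) (nat_lit 168) (nat_lit 5) (nat_lit 169) (nat_lit 5) (nat_lit 408) (nat_lit 373) (nat_lit 119))))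 (XT.nd (nat_lit 156) (nat_lit 456) (nat_lit 0) (XT.nd (nat_lit 78) (nat_lit 76) (nat_lit 0) (XT.lf (nat_lit 0) (nat_lit 611687665) (nat_lit 380) (nat_lit 55530528760) (nat_lit 456) (nat_lit 7182917931) (nat_lit 157) (nat_lit 5) (nat_lit 162) (nat_lit 5) (nat_lit 163) (nat_lit 5) (nat_lit 409) (nat_lit 373) (nat_lit 118)) (XT.lf (nat_lit 0) (nat_lit 2293782516) (nat_lit 456) (nat_lit 28971748591) (nat_lit 76) (nat_lit 33189324873) (nat_lit 156) (nat_lit 5) (nat_lit 162) (nat_lit 5) (nat_lit 157) (nat_lit 5) (nat_lit 410) (nat_lit 373) (nat_lit 117))) (XT.nd (nat_lit 78) (nat_lit 0) (nat_lit 0) (XT.lf (nat_lit 0) (nat_lit 5823692487) (nat_lit 456) (nat_lit 6141872675) (nat_lit 532) (nat_lit 53649116359) (nat_lit 150) (nat_lit 5) (nat_lit 156) (nat_lit 5) (nat_lit 157) (nat_lit 5) (nat_lit 411) (nat_lit 373) (nat_lit 116)) (XT.lf (nat_lit 0) (nat_lit 22411847633) (nat_lit 532) (nat_lit 24737286015) (nat_lit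 76) (nat_lit 19645638111) (nat_lit 150) (nat_lit 5) (nat_lit 157) (nat_lit 5) (nat_lit 151) (nat_lit 5) (nat_lit 412) (nat_lit 373) (nat_lit 115))))) (XT.nd (nat_lit 234) (nat_lit 760) (nat_lit 0) (XT.nd (nat_lit 78) (nat_lit 380) (nat_lit 0) (XT.lf (nat_lit 0) (nat_lit 11531219613) (nat_lit 380) (nat_lit 21811160763) (nat_lit 456) (nat_lit 34662758788) (nat_lit 145) (nat_lit 5) (nat_lit 150) (nat_lit 5) (nat_lit 151) (nat_lit 5) (nat_lit 413) (nat_lit 373) (nat_lit 114)) (XT.nd (nat_lit 78) (nat_lit 380) (nat_lit 0) (XT.lf (nat_lit 0) (nat_lit 44893526607) (nat_lit 456) (nat_lit 19894160297) (nat_lit 76) (nat_lit 4455350062) (nat_lit 145) (nat_lit 5) (nat_lit 151) (nat_lit 5) (nat_lit 146) (nat_lit 5) (nat_lit 414) (nat_lit 373) (nat_lit 113)) (XT.lf (nat_lit 0) (nat_lit 17915643107) (nat_lit 380) (nat_lit 39262972495) (nat_lit 456) (nat_lit 13327834143) (nat_lit 140) (nat_lit 5) (nat_lit 145) (nat_lit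 5) (nat_lit 146) (nat_lit 5) (nat_lit 415) (nat_lit 373) (nat_lit 112)))) (XT.nd (nat_lit 156) (nat_lit 380) (nat_lit 0) (XT.nd (nat_lit 78) (nat_lit 380) (nat_lit 0) (XT.lf (nat_lit 0) (nat_lit 57266565886) (nat_lit 380) (nat_lit 12765836219) (nat_lit 456) (nat_lit 1769358742) (nat_lit 140) (nat_lit 5) (nat_lit 145) (nat_lit 5) (nat_lit 146) (nat_lit 5) (nat_lit 416) (nat_lit 373) (nat_lit 111)) (XT.lf (nat_lit 0) (nat_lit 10321152708) (nat_lit 380) (nat_lit 48216240922) (nat_lit 76) (nat_lit 14584122881) (nat_lit 135) (nat_lit 5) (nat_lit 140) (nat_lit 5) (nat_lit 136) (nat_lit 5) (nat_lit 417) (nat_lit 373) (nat_lit 110))) (XT.nd (nat_lit 78) (nat_lit 380) (nat_lit 0) (XT.lf (nat_lit 0) (nat_lit 23012718680) (nat_lit 380) (nat_lit 8795891788) (nat_lit 76) (nat_lit 42663512040) (nat_lit 135) (nat_lit 5) (nat_lit 140) (nat_lit 5) (nat_lit 136) (nat_lit 5) (nat_lit 418) (nat_lit 373) (nat_lit 109)) (XT.lf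 (nat_lit 0) (nat_lit 32439118763) (nat_lit 380) (nat_lit 3957035495) (nat_lit 456) (nat_lit 39457759000) (nat_lit 130) (nat_lit 5) (nat_lit 135) (nat_lit 5) (nat_lit 136) (nat_lit 5) (nat_lit 419) (nat_lit 373) (nat_lit 108))))))) (XT.nd (nat_lit 44070) (nat_lit 0) (nat_lit 6156) (XT.nd (nat_lit 43524) (nat_lit 0) (nat_lit 8740) (XT.nd (nat_lit 43290) (nat_lit 0) (nat_lit 8664) (XT.nd (nat_lit 78) (nat_lit 684) (nat_lit 0) (XT.lf (nat_lit 0) (nat_lit 50507821221) (nat_lit 456) (nat_lit 2422568737) (nat_lit 76) (nat_lit 24336966170) (nat_lit 130) (nat_lit 5) (nat_lit 136) (nat_lit 5) (nat_lit 131) (nat_lit 5) (nat_lit 420) (nat_lit 373) (nat_lit 107)) (XT.nd (nat_lit 78) (nat_lit 380) (nat_lit 0) (XT.lf (nat_lit 0) (nat_lit 40550599207) (nat_lit 304) (nat_lit 24920541823) (nat_lit 380) (nat_lit 13239212407) (nat_lit 126) (nat_lit 5) (nat_lit 130) (nat_lit 5) (nat_lit 131) (nat_lit 5) (nat_lit 421) (nat_lit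 373) (nat_lit 106)) (XT.lf (nat_lit 0) (nat_lit 781564987) (nat_lit 380) (nat_lit 75481229240) (nat_lit 76) (nat_lit 3930401262) (nat_lit 121) (nat_lit 5) (nat_lit 126) (nat_lit 5) (nat_lit 122) (nat_lit 5) (nat_lit 422) (nat_lit 373) (nat_lit 105)))) (XT.nd (nat_lit 78) (nat_lit 0) (nat_lit 0) (XT.lf (nat_lit 0) (nat_lit 1955572506) (nat_lit 1292) (nat_lit 8104393247) (nat_lit 1292) (nat_lit 8104393247) (nat_lit 235) (nat_lit 3) (nat_lit 252) (nat_lit 3) (nat_lit 252) (nat_lit 5) (nat_lit 374) (nat_lit 374) (nat_lit 152)) (XT.nd (nat_lit 78) (nat_lit 0) (nat_lit 76) (XT.lf (nat_lit 76) (nat_lit 1178275359) (nat_lit 0) (nat_lit 2851635254) (nat_lit 1292) (nat_lit 32841909931) (nat_lit 236) (nat_lit 5) (nat_lit 235) (nat_lit 3) (nat_lit 252) (nat_lit 5) (nat_lit 375) (nat_lit 374) (nat_lit 151)) (XT.lf (nat_lit 0) (nat_lit 4459193994) (nat_lit 1216) (nat_lit 18153342122) (nat_lit 1292) (nat_lit 14809472389)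 (nat_lit 236) (nat_lit 5) (nat_lit 252) (nat_lit 5) (nat_lit 253) (nat_lit 5) (nat_lit 376) (nat_lit 374) (nat_lit 150))))) (XT.nd (nat_lit 234) (nat_lit 0) (nat_lit 152) (XT.nd (nat_lit 78) (nat_lit 0) (nat_lit 76) (XT.lf (nat_lit 0) (nat_lit 4927741073) (nat_lit 1216) (nat_lit 116203325) (nat_lit 1292) (nat_lit 32943967110) (nat_lit 236) (nat_lit 5) (nat_lit 252) (nat_lit 5) (nat_lit 253) (nat_lit 5) (nat_lit 377) (nat_lit 374) (nat_lit 149)) (XT.nd (nat_lit 78) (nat_lit 0) (nat_lit 0) (XT.lf (nat_lit 0) (nat_lit 5716800761) (nat_lit 1216) (nat_lit 19864222765) (nat_lit 1292) (nat_lit 12980575317) (nat_lit 237) (nat_lit 5) (nat_lit 253) (nat_lit 5) (nat_lit 254) (nat_lit 5) (nat_lit 378) (nat_lit 374) (nat_lit 148)) (XT.lf (nat_lit 0) (nat_lit 6578912330) (nat_lit 1216) (nat_lit 1125725373) (nat_lit 1292) (nat_lit 31446378597) (nat_lit 237) (nat_lit 5) (nat_lit 253) (nat_lit 5) (nat_lit 254) (nat_lit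 5) (nat_lit 379) (nat_lit 374) (nat_lit 147)))) (XT.nd (nat_lit 156) (nat_lit 0) (nat_lit 76) (XT.nd (nat_lit 78) (nat_lit 0) (nat_lit 0) (XT.lf (nat_lit 0) (nat_lit 7748071335) (nat_lit 1216) (nat_lit 21321928526) (nat_lit 1292) (nat_lit 10679681773) (nat_lit 238) (nat_lit 5) (nat_lit 254) (nat_lit 5) (nat_lit 255) (nat_lit 5) (nat_lit 380) (nat_lit 374) (nat_lit 146)) (XT.lf (nat_lit 0) (nat_lit 9038420362) (nat_lit 1216) (nat_lit 1852522591) (nat_lit 1292) (nat_lit 29472781367) (nat_lit 238) (nat_lit 5) (nat_lit 254) (nat_lit 5) (nat_lit 255) (nat_lit 5) (nat_lit 381) (nat_lit 374) (nat_lit 145))) (XT.nd (nat_lit 78) (nat_lit 0) (nat_lit 0) (XT.lf (nat_lit 0) (nat_lit 10621382311) (nat_lit 1216) (nat_lit 22505818347) (nat_lit 1292) (nat_lit 7861371382) (nat_lit 239) (nat_lit 5) (nat_lit 255) (nat_lit 5) (nat_lit 256) (nat_lit 5) (nat_lit 382) (nat_lit 374) (nat_lit 144)) (XT.lf (nat_lit 0) (nat_lit 12376997673)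 (nat_lit 1216) (nat_lit 2274641341) (nat_lit 1292) (nat_lit 26976772043) (nat_lit 239) (nat_lit 5) (nat_lit 255) (nat_lit 5) (nat_lit 256) (nat_lit 5) (nat_lit 383) (nat_lit 374) (nat_lit 143)))))) (XT.nd (nat_lit 546) (nat_lit 2888) (nat_lit 0) (XT.nd (nat_lit 234) (nat_lit 0) (nat_lit 76) (XT.nd (nat_lit 78) (nat_lit 0) (nat_lit 0) (XT.lf (nat_lit 0) (nat_lit 14409644849) (nat_lit 1216) (nat_lit 23394077086) (nat_lit 1292) (nat_lit 4476993187) (nat_lit 240) (nat_lit 5) (nat_lit 256) (nat_lit 5) (nat_lit 257) (nat_lit 5) (nat_lit 384) (nat_lit 374) (nat_lit 142)) (XT.nd (nat_lit 78) (nat_lit 0) (nat_lit 76) (XT.lf (nat_lit 0) (nat_lit 16670059037) (nat_lit 1216) (nat_lit 2368900283) (nat_lit 1292) (nat_lit 23908626118) (nat_lit 240) (nat_lit 5) (nat_lit 256) (nat_lit 5) (nat_lit 257) (nat_lit 5) (nat_lit 385) (nat_lit 374) (nat_lit 141)) (XT.lf (nat_lit 0) (nat_lit 19190583037) (nat_lit 1216) (nat_lit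 23963683798) (nat_lit 1292) (nat_lit 474426841) (nat_lit 241) (nat_lit 5) (nat_lit 257) (nat_lit 5) (nat_lit 258) (nat_lit 5) (nat_lit 386) (nat_lit 374) (nat_lit 140)))) (XT.nd (nat_lit 156) (nat_lit 0) (nat_lit 76) (XT.nd (nat_lit 78) (nat_lit 0) (nat_lit 0) (XT.lf (nat_lit 0) (nat_lit 21997988378) (nat_lit 1216) (nat_lit 2110856966) (nat_lit 1292) (nat_lit 20215052560) (nat_lit 241) (nat_lit 5) (nat_lit 257) (nat_lit 5) (nat_lit 258) (nat_lit 5) (nat_lit 387) (nat_lit 374) (nat_lit 139)) (XT.lf (nat_lit 76) (nat_lit 20802421213) (nat_lit 0) (nat_lit 4285803935) (nat_lit 1292) (nat_lit 19945775525) (nat_lit 242) (nat_lit 5) (nat_lit 241) (nat_lit 5) (nat_lit 258) (nat_lit 5) (nat_lit 388) (nat_lit 374) (nat_lit 138))) (XT.nd (nat_lit 78) (nat_lit 0) (nat_lit 0) (XT.lf (nat_lit 0) (nat_lit 28446441235) (nat_lit 1216) (nat_lit 1474776141) (nat_lit 1292) (nat_lit 15838931655) (nat_lit 242) (nat_lit 5) (nat_lit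 258) (nat_lit 5) (nat_lit 259) (nat_lit 5) (nat_lit 389) (nat_lit 374) (nat_lit 137)) (XT.lf (nat_lit 76) (nat_lit 22357508724) (nat_lit 0) (nat_lit 9803957088) (nat_lit 1292) (nat_lit 14338934819) (nat_lit 243) (nat_lit 5) (nat_lit 242) (nat_lit 5) (nat_lit 259) (nat_lit 5) (nat_lit 390) (nat_lit 374) (nat_lit 136))))) (XT.nd (nat_lit 234) (nat_lit 1292) (nat_lit 0) (XT.nd (nat_lit 78) (nat_lit 1824) (nat_lit 0) (XT.lf (nat_lit 0) (nat_lit 36106663624) (nat_lit 1216) (nat_lit 433600309) (nat_lit 76) (nat_lit 10719034804) (nat_lit 243) (nat_lit 5) (nat_lit 259) (nat_lit 5) (nat_lit 244) (nat_lit 5) (nat_lit 391) (nat_lit 374) (nat_lit 135)) (XT.nd (nat_lit 78) (nat_lit 608) (nat_lit 0) (XT.lf (nat_lit 0) (nat_lit 24364273467) (nat_lit 1216) (nat_lit 16135997221) (nat_lit 1292) (nat_lit 7530792113) (nat_lit 227) (nat_lit 5) (nat_lit 243) (nat_lit 5) (nat_lit 244) (nat_lit 5) (nat_lit 392) (nat_lit 374) (nat_lit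 134)) (XT.lf (nat_lit 0) (nat_lit 1061796357) (nat_lit 608) (nat_lit 44024238397) (nat_lit 684) (nat_lit 3738135168) (nat_lit 219) (nat_lit 5) (nat_lit 227) (nat_lit 5) (nat_lit 228) (nat_lit 5) (nat_lit 393) (nat_lit 374) (nat_lit 133)))) (XT.nd (nat_lit 156) (nat_lit 608) (nat_lit 0) (XT.nd (nat_lit 78) (nat_lit 608) (nat_lit 0) (XT.lf (nat_lit 0) (nat_lit 564953211) (nat_lit 684) (nat_lit 22781364577) (nat_lit 76) (nat_lit 26282706417) (nat_lit 218) (nat_lit 5) (nat_lit 227) (nat_lit 5) (nat_lit 219) (nat_lit 5) (nat_lit 394) (nat_lit 374) (nat_lit 132)) (XT.lf (nat_lit 0) (nat_lit 2968926847) (nat_lit 608) (nat_lit 1980467273) (nat_lit 684) (nat_lit 45506698427) (nat_lit 210) (nat_lit 5) (nat_lit 218) (nat_lit 5) (nat_lit 219) (nat_lit 5) (nat_lit 395) (nat_lit 374) (nat_lit 131))) (XT.nd (nat_lit 78) (nat_lit 608) (nat_lit 0) (XT.lf (nat_lit 0) (nat_lit 9889076028) (nat_lit 684) (nat_lit 21538227556)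 (nat_lit 76) (nat_lit 19867958651) (nat_lit 210) (nat_lit 5) (nat_lit 219) (nat_lit 5) (nat_lit 211) (nat_lit 5) (nat_lit 396) (nat_lit 374) (nat_lit 130)) (XT.lf (nat_lit 0) (nat_lit 5271370086) (nat_lit 608) (nat_lit 9774768578) (nat_lit 684) (nat_lit 37111393157) (nat_lit 202) (nat_lit 5) (nat_lit 210) (nat_lit 5) (nat_lit 211) (nat_lit 5) (nat_lit 397) (nat_lit 374) (nat_lit 129))))))))
noncomputable def xc242 : XT := (XT.nd (nat_lit 45318) (nat_lit 0) (nat_lit 3952) (XT.nd (nat_lit 1014) (nat_lit 2052) (nat_lit 0) (XT.nd (nat_lit 468) (nat_lit 1900) (nat_lit 0) (XT.nd (nat_lit 234) (nat_lit 988) (nat_lit 0) (XT.nd (nat_lit 78) (nat_lit 532) (nat_lit 0) (XT.lf (nat_lit 0) (nat_lit 20696912752) (nat_lit 684) (nat_lit 19836036101) (nat_lit 76) (nat_lit 12502551154) (nat_lit 202) (nat_lit 5) (nat_lit 211) (nat_lit 5) (nat_lit 203) (nat_lit 5) (nat_lit 398) (nat_lit 374) (nat_lit 128)) (XT.nd (nat_lit 78)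 (nat_lit 0) (nat_lit 0) (XT.lf (nat_lit 0) (nat_lit 8085537248) (nat_lit 532) (nat_lit 18605138763) (nat_lit 608) (nat_lit 27243927733) (nat_lit 195) (nat_lit 5) (nat_lit 202) (nat_lit 5) (nat_lit 203) (nat_lit 5) (nat_lit 399) (nat_lit 374) (nat_lit 127)) (XT.lf (nat_lit 0) (nat_lit 33103786361) (nat_lit 608) (nat_lit 17644615133) (nat_lit 76) (nat_lit 4105093547) (nat_lit 195) (nat_lit 5) (nat_lit 203) (nat_lit 5) (nat_lit 196) (nat_lit 5) (nat_lit 400) (nat_lit 374) (nat_lit 126)))) (XT.nd (nat_lit 78) (nat_lit 456) (nat_lit 0) (XT.lf (nat_lit 0) (nat_lit 11444031542) (nat_lit 532) (nat_lit 28558487278) (nat_lit 608) (nat_lit 15788637849) (nat_lit 188) (nat_lit 5) (nat_lit 195) (nat_lit 5) (nat_lit 196) (nat_lit 5) (nat_lit 401) (nat_lit 374) (nat_lit 125)) (XT.nd (nat_lit 78) (nat_lit 456) (nat_lit 0) (XT.lf (nat_lit 0) (nat_lit 41766001946) (nat_lit 532) (nat_lit 5519418628) (nat_lit 608) (nat_lit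 9466211795) (nat_lit 188) (nat_lit 5) (nat_lit 195) (nat_lit 5) (nat_lit 196) (nat_lit 5) (nat_lit 402) (nat_lit 374) (nat_lit 124)) (XT.lf (nat_lit 0) (nat_lit 15380758616) (nat_lit 456) (nat_lit 39728012509) (nat_lit 532) (nat_lit 2622492795) (nat_lit 182) (nat_lit 5) (nat_lit 188) (nat_lit 5) (nat_lit 189) (nat_lit 5) (nat_lit 403) (nat_lit 374) (nat_lit 123))))) (XT.nd (nat_lit 234) (nat_lit 1292) (nat_lit 0) (XT.nd (nat_lit 78) (nat_lit 532) (nat_lit 0) (XT.lf (nat_lit 0) (nat_lit 4546698507) (nat_lit 532) (nat_lit 11870150974) (nat_lit 76) (nat_lit 42315962673) (nat_lit 181) (nat_lit 5) (nat_lit 188) (nat_lit 5) (nat_lit 182) (nat_lit 5) (nat_lit 404) (nat_lit 374) (nat_lit 122)) (XT.nd (nat_lit 78) (nat_lit 0) (nat_lit 0) (XT.lf (nat_lit 0) (nat_lit 12143646992) (nat_lit 608) (nat_lit 39947383897) (nat_lit 76) (nat_lit 7664635652) (nat_lit 174) (nat_lit 5) (nat_lit 182) (nat_lit 5) (nat_lit 175)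 (nat_lit 5) (nat_lit 405) (nat_lit 374) (nat_lit 121)) (XT.lf (nat_lit 0) (nat_lit 20251208883) (nat_lit 608) (nat_lit 8289970342) (nat_lit 76) (nat_lit 32259546571) (nat_lit 174) (nat_lit 5) (nat_lit 182) (nat_lit 5) (nat_lit 175) (nat_lit 5) (nat_lit 406) (nat_lit 374) (nat_lit 120)))) (XT.nd (nat_lit 156) (nat_lit 836) (nat_lit 0) (XT.nd (nat_lit 78) (nat_lit 0) (nat_lit 0) (XT.lf (nat_lit 0) (nat_lit 24800109332) (nat_lit 456) (nat_lit 4039417900) (nat_lit 532) (nat_lit 33030484080) (nat_lit 168) (nat_lit 5) (nat_lit 174) (nat_lit 5) (nat_lit 175) (nat_lit 5) (nat_lit 407) (nat_lit 374) (nat_lit 119)) (XT.lf (nat_lit 0) (nat_lit 37972948905) (nat_lit 532) (nat_lit 4121638017) (nat_lit 76) (nat_lit 20868165219) (nat_lit 168) (nat_lit 5) (nat_lit 175) (nat_lit 5) (nat_lit 169) (nat_lit 5) (nat_lit 408) (nat_lit 374) (nat_lit 118))) (XT.nd (nat_lit 78) (nat_lit 380) (nat_lit 0) (XT.lf (nat_lit 0) (nat_lit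 30366661522) (nat_lit 456) (nat_lit 17344783774) (nat_lit 532) (nat_lit 16366898087) (nat_lit 162) (nat_lit 5) (nat_lit 168) (nat_lit 5) (nat_lit 169) (nat_lit 5) (nat_lit 409) (nat_lit 374) (nat_lit 117)) (XT.lf (nat_lit 0) (nat_lit 681519227) (nat_lit 380) (nat_lit 57186668011) (nat_lit 456) (nat_lit 7355432745) (nat_lit 157) (nat_lit 5) (nat_lit 162) (nat_lit 5) (nat_lit 163) (nat_lit 5) (nat_lit 410) (nat_lit 374) (nat_lit 116)))))) (XT.nd (nat_lit 546) (nat_lit 760) (nat_lit 0) (XT.nd (nat_lit 234) (nat_lit 760) (nat_lit 0) (XT.nd (nat_lit 78) (nat_lit 456) (nat_lit 0) (XT.lf (nat_lit 0) (nat_lit 2403502953) (nat_lit 456) (nat_lit 29790089151) (nat_lit 76) (nat_lit 34193666065) (nat_lit 156) (nat_lit 5) (nat_lit 162) (nat_lit 5) (nat_lit 157) (nat_lit 5) (nat_lit 411) (nat_lit 374) (nat_lit 115)) (XT.nd (nat_lit 78) (nat_lit 0) (nat_lit 0) (XT.lf (nat_lit 0) (nat_lit 6048717004) (nat_lit 456) (nat_lit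 6316014257) (nat_lit 532) (nat_lit 55217168925) (nat_lit 150) (nat_lit 5) (nat_lit 156) (nat_lit 5) (nat_lit 157) (nat_lit 5) (nat_lit 412) (nat_lit 374) (nat_lit 114)) (XT.lf (nat_lit 0) (nat_lit 23123325753) (nat_lit 532) (nat_lit 25429464503) (nat_lit 76) (nat_lit 20244635630) (nat_lit 150) (nat_lit 5) (nat_lit 157) (nat_lit 5) (nat_lit 151) (nat_lit 5) (nat_lit 413) (nat_lit 374) (nat_lit 113)))) (XT.nd (nat_lit 156) (nat_lit 380) (nat_lit 0) (XT.nd (nat_lit 78) (nat_lit 0) (nat_lit 0) (XT.lf (nat_lit 0) (nat_lit 11926606686) (nat_lit 380) (nat_lit 22454503645) (nat_lit 456) (nat_lit 35663014352) (nat_lit 145) (nat_lit 5) (nat_lit 150) (nat_lit 5) (nat_lit 151) (nat_lit 5) (nat_lit 414) (nat_lit 374) (nat_lit 112)) (XT.lf (nat_lit 0) (nat_lit 46277773380) (nat_lit 456) (nat_lit 20441942893) (nat_lit 76) (nat_lit 4599474107) (nat_lit 145) (nat_lit 5) (nat_lit 151) (nat_lit 5) (nat_lit 146) (nat_lit 5)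 (nat_lit 415) (nat_lit 374) (nat_lit 111))) (XT.nd (nat_lit 78) (nat_lit 0) (nat_lit 0) (XT.lf (nat_lit 0) (nat_lit 18501673807) (nat_lit 380) (nat_lit 40429117526) (nat_lit 456) (nat_lit 13689733341) (nat_lit 140) (nat_lit 5) (nat_lit 145) (nat_lit 5) (nat_lit 146) (nat_lit 5) (nat_lit 416) (nat_lit 374) (nat_lit 110)) (XT.lf (nat_lit 0) (nat_lit 59031709860) (nat_lit 380) (nat_lit 13137409224) (nat_lit 456) (nat_lit 1785608605) (nat_lit 140) (nat_lit 5) (nat_lit 145) (nat_lit 5) (nat_lit 146) (nat_lit 5) (nat_lit 417) (nat_lit 374) (nat_lit 109))))) (XT.nd (nat_lit 234) (nat_lit 0) (nat_lit 0) (XT.nd (nat_lit 78) (nat_lit 380) (nat_lit 0) (XT.lf (nat_lit 0) (nat_lit 10666417729) (nat_lit 380) (nat_lit 49614354603) (nat_lit 76) (nat_lit 15033307908) (nat_lit 135) (nat_lit 5) (nat_lit 140) (nat_lit 5) (nat_lit 136) (nat_lit 5) (nat_lit 418) (nat_lit 374) (nat_lit 108)) (XT.nd (nat_lit 78) (nat_lit 380)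 (nat_lit 0) (XT.lf (nat_lit 0) (nat_lit 23737692900) (nat_lit 380) (nat_lit 9012803933) (nat_lit 76) (nat_lit 43954739091) (nat_lit 135) (nat_lit 5) (nat_lit 140) (nat_lit 5) (nat_lit 136) (nat_lit 5) (nat_lit 419) (nat_lit 374) (nat_lit 107)) (XT.lf (nat_lit 0) (nat_lit 33458796497) (nat_lit 380) (nat_lit 4063274522) (nat_lit 456) (nat_lit 40606426558) (nat_lit 130) (nat_lit 5) (nat_lit 135) (nat_lit 5) (nat_lit 136) (nat_lit 5) (nat_lit 420) (nat_lit 374) (nat_lit 106)))) (XT.nd (nat_lit 43368) (nat_lit 0) (nat_lit 7980) (XT.nd (nat_lit 43290) (nat_lit 0) (nat_lit 7980) (XT.lf (nat_lit 0) (nat_lit 52056213161) (nat_lit 456) (nat_lit 2449209526) (nat_lit 76) (nat_lit 25078947644) (nat_lit 130) (nat_lit 5) (nat_lit 136) (nat_lit 5) (nat_lit 131) (nat_lit 5) (nat_lit 421) (nat_lit 374) (nat_lit 105)) (XT.lf (nat_lit 0) (nat_lit 2062542976) (nat_lit 1292) (nat_lit 8322636332) (nat_lit 1292) (nat_lit 8322636332)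 (nat_lit 235) (nat_lit 3) (nat_lit 252) (nat_lit 3) (nat_lit 252) (nat_lit 5) (nat_lit 375) (nat_lit 375) (nat_lit 150))) (XT.nd (nat_lit 78) (nat_lit 0) (nat_lit 76) (XT.lf (nat_lit 76) (nat_lit 1262913030) (nat_lit 0) (nat_lit 2982161506) (nat_lit 1292) (nat_lit 33730024023) (nat_lit 236) (nat_lit 5) (nat_lit 235) (nat_lit 3) (nat_lit 252) (nat_lit 5) (nat_lit 376) (nat_lit 375) (nat_lit 149)) (XT.lf (nat_lit 0) (nat_lit 4684071033) (nat_lit 1216) (nat_lit 18646876017) (nat_lit 1292) (nat_lit 15210941486) (nat_lit 236) (nat_lit 5) (nat_lit 252) (nat_lit 5) (nat_lit 253) (nat_lit 5) (nat_lit 377) (nat_lit 375) (nat_lit 148))))))) (XT.nd (nat_lit 1014) (nat_lit 4104) (nat_lit 0) (XT.nd (nat_lit 468) (nat_lit 0) (nat_lit 228) (XT.nd (nat_lit 234) (nat_lit 0) (nat_lit 152) (XT.nd (nat_lit 78) (nat_lit 0) (nat_lit 76) (XT.lf (nat_lit 0) (nat_lit 5164021091) (nat_lit 1216) (nat_lit 70110426) (nat_lit 1292)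 (nat_lit 33890718089) (nat_lit 236) (nat_lit 5) (nat_lit 252) (nat_lit 5) (nat_lit 253) (nat_lit 5) (nat_lit 378) (nat_lit 375) (nat_lit 147)) (XT.nd (nat_lit 78) (nat_lit 0) (nat_lit 0) (XT.lf (nat_lit 0) (nat_lit 5974290256) (nat_lit 1216) (nat_lit 20408063656) (nat_lit 1292) (nat_lit 13333468853) (nat_lit 237) (nat_lit 5) (nat_lit 253) (nat_lit 5) (nat_lit 254) (nat_lit 5) (nat_lit 379) (nat_lit 375) (nat_lit 146)) (XT.lf (nat_lit 0) (nat_lit 6859760741) (nat_lit 1216) (nat_lit 1108928403) (nat_lit 1292) (nat_lit 32354310029) (nat_lit 237) (nat_lit 5) (nat_lit 253) (nat_lit 5) (nat_lit 254) (nat_lit 5) (nat_lit 380) (nat_lit 375) (nat_lit 145)))) (XT.nd (nat_lit 78) (nat_lit 0) (nat_lit 0) (XT.lf (nat_lit 0) (nat_lit 8061741968) (nat_lit 1216) (nat_lit 21908723178) (nat_lit 1292) (nat_lit 10969228156) (nat_lit 238) (nat_lit 5) (nat_lit 254) (nat_lit 5) (nat_lit 255) (nat_lit 5) (nat_lit 381) (nat_lit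 375) (nat_lit 144)) (XT.nd (nat_lit 78) (nat_lit 0) (nat_lit 76) (XT.lf (nat_lit 0) (nat_lit 9388435588) (nat_lit 1216) (nat_lit 1856774770) (nat_lit 1292) (nat_lit 30327019109) (nat_lit 238) (nat_lit 5) (nat_lit 254) (nat_lit 5) (nat_lit 255) (nat_lit 5) (nat_lit 382) (nat_lit 375) (nat_lit 143)) (XT.lf (nat_lit 0) (nat_lit 11016825766) (nat_lit 1216) (nat_lit 23127569250) (nat_lit 1292) (nat_lit 8071490606) (nat_lit 239) (nat_lit 5) (nat_lit 255) (nat_lit 5) (nat_lit 256) (nat_lit 5) (nat_lit 383) (nat_lit 375) (nat_lit 142))))) (XT.nd (nat_lit 234) (nat_lit 0) (nat_lit 152) (XT.nd (nat_lit 78) (nat_lit 0) (nat_lit 76) (XT.lf (nat_lit 0) (nat_lit 12822872638) (nat_lit 1216) (nat_lit 2291012963) (nat_lit 1292) (nat_lit 27761102469) (nat_lit 239) (nat_lit 5) (nat_lit 255) (nat_lit 5) (nat_lit 256) (nat_lit 5) (nat_lit 384) (nat_lit 375) (nat_lit 141)) (XT.nd (nat_lit 78) (nat_lit 0) (nat_lit 0) (XT.lf (nat_lit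 0) (nat_lit 14914614189) (nat_lit 1216) (nat_lit 24042109489) (nat_lit 1292) (nat_lit 4590195248) (nat_lit 240) (nat_lit 5) (nat_lit 256) (nat_lit 5) (nat_lit 257) (nat_lit 5) (nat_lit 385) (nat_lit 375) (nat_lit 140)) (XT.lf (nat_lit 0) (nat_lit 17240723910) (nat_lit 1216) (nat_lit 2387744078) (nat_lit 1292) (nat_lit 24605391955) (nat_lit 240) (nat_lit 5) (nat_lit 256) (nat_lit 5) (nat_lit 257) (nat_lit 5) (nat_lit 386) (nat_lit 375) (nat_lit 139)))) (XT.nd (nat_lit 156) (nat_lit 0) (nat_lit 0) (XT.nd (nat_lit 78) (nat_lit 0) (nat_lit 0) (XT.lf (nat_lit 0) (nat_lit 19835139236) (nat_lit 1216) (nat_lit 24628611592) (nat_lit 1292) (nat_lit 471703385) (nat_lit 241) (nat_lit 5) (nat_lit 257) (nat_lit 5) (nat_lit 258) (nat_lit 5) (nat_lit 387) (nat_lit 375) (nat_lit 138)) (XT.lf (nat_lit 0) (nat_lit 22724761726) (nat_lit 1216) (nat_lit 2121772267) (nat_lit 1292) (nat_lit 20805041747) (nat_lit 241) (nat_lit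 5) (nat_lit 257) (nat_lit 5) (nat_lit 258) (nat_lit 5) (nat_lit 388) (nat_lit 375) (nat_lit 137))) (XT.nd (nat_lit 78) (nat_lit 0) (nat_lit 76) (XT.lf (nat_lit 76) (nat_lit 21478390430) (nat_lit 0) (nat_lit 4427867419) (nat_lit 1292) (nat_lit 20476768170) (nat_lit 242) (nat_lit 5) (nat_lit 241) (nat_lit 5) (nat_lit 258) (nat_lit 5) (nat_lit 389) (nat_lit 375) (nat_lit 136)) (XT.lf (nat_lit 0) (nat_lit 29363190081) (nat_lit 1216) (nat_lit 1466571927) (nat_lit 1292) (nat_lit 16301258693) (nat_lit 242) (nat_lit 5) (nat_lit 258) (nat_lit 5) (nat_lit 259) (nat_lit 5) (nat_lit 390) (nat_lit 375) (nat_lit 135)))))) (XT.nd (nat_lit 546) (nat_lit 2128) (nat_lit 0) (XT.nd (nat_lit 234) (nat_lit 1292) (nat_lit 0) (XT.nd (nat_lit 78) (nat_lit 1140) (nat_lit 0) (XT.lf (nat_lit 76) (nat_lit 23080167293) (nat_lit 0) (nat_lit 10108152008) (nat_lit 1292) (nat_lit 14705201866) (nat_lit 243) (nat_lit 5) (nat_lit 242) (nat_lit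 5) (nat_lit 259) (nat_lit 5) (nat_lit 391) (nat_lit 375) (nat_lit 134)) (XT.nd (nat_lit 78) (nat_lit 1216) (nat_lit 0) (XT.lf (nat_lit 0) (nat_lit 37249972908) (nat_lit 1216) (nat_lit 394257203) (nat_lit 76) (nat_lit 11031014018) (nat_lit 243) (nat_lit 5) (nat_lit 259) (nat_lit 5) (nat_lit 244) (nat_lit 5) (nat_lit 392) (nat_lit 375) (nat_lit 133)) (XT.lf (nat_lit 0) (nat_lit 25147039540) (nat_lit 1216) (nat_lit 16627096183) (nat_lit 1292) (nat_lit 7696063849) (nat_lit 227) (nat_lit 5) (nat_lit 243) (nat_lit 5) (nat_lit 244) (nat_lit 5) (nat_lit 393) (nat_lit 375) (nat_lit 132)))) (XT.nd (nat_lit 156) (nat_lit 608) (nat_lit 0) (XT.nd (nat_lit 78) (nat_lit 76) (nat_lit 0) (XT.lf (nat_lit 0) (nat_lit 1146824226) (nat_lit 608) (nat_lit 45349379840) (nat_lit 684) (nat_lit 3790934756) (nat_lit 219) (nat_lit 5) (nat_lit 227) (nat_lit 5) (nat_lit 228) (nat_lit 5) (nat_lit 394) (nat_lit 375) (nat_lit 131)) (XT.lf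 (nat_lit 0) (nat_lit 638393500) (nat_lit 684) (nat_lit 23412029086) (nat_lit 76) (nat_lit 27065750684) (nat_lit 218) (nat_lit 5) (nat_lit 227) (nat_lit 5) (nat_lit 219) (nat_lit 5) (nat_lit 395) (nat_lit 375) (nat_lit 130))) (XT.nd (nat_lit 78) (nat_lit 0) (nat_lit 0) (XT.lf (nat_lit 0) (nat_lit 3110253665) (nat_lit 608) (nat_lit 2042970928) (nat_lit 684) (nat_lit 46814864144) (nat_lit 210) (nat_lit 5) (nat_lit 218) (nat_lit 5) (nat_lit 219) (nat_lit 5) (nat_lit 396) (nat_lit 375) (nat_lit 129)) (XT.lf (nat_lit 0) (nat_lit 10239456027) (nat_lit 684) (nat_lit 22131971181) (nat_lit 76) (nat_lit 20461056297) (nat_lit 210) (nat_lit 5) (nat_lit 219) (nat_lit 5) (nat_lit 211) (nat_lit 5) (nat_lit 397) (nat_lit 375) (nat_lit 128))))) (XT.nd (nat_lit 234) (nat_lit 988) (nat_lit 0) (XT.nd (nat_lit 78) (nat_lit 532) (nat_lit 0) (XT.lf (nat_lit 0) (nat_lit 5481400634) (nat_lit 608) (nat_lit 10068764399) (nat_lit 684)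 (nat_lit 38170488850) (nat_lit 202) (nat_lit 5) (nat_lit 210) (nat_lit 5) (nat_lit 211) (nat_lit 5) (nat_lit 398) (nat_lit 375) (nat_lit 127)) (XT.nd (nat_lit 78) (nat_lit 532) (nat_lit 0) (XT.lf (nat_lit 0) (nat_lit 21368922049) (nat_lit 684) (nat_lit 20379174878) (nat_lit 76) (nat_lit 12876911112) (nat_lit 202) (nat_lit 5) (nat_lit 211) (nat_lit 5) (nat_lit 203) (nat_lit 5) (nat_lit 399) (nat_lit 375) (nat_lit 126)) (XT.lf (nat_lit 0) (nat_lit 8379536433) (nat_lit 532) (nat_lit 19161967775) (nat_lit 608) (nat_lit 28009611199) (nat_lit 195) (nat_lit 5) (nat_lit 202) (nat_lit 5) (nat_lit 203) (nat_lit 5) (nat_lit 400) (nat_lit 375) (nat_lit 125)))) (XT.nd (nat_lit 156) (nat_lit 456) (nat_lit 0) (XT.nd (nat_lit 78) (nat_lit 532) (nat_lit 0) (XT.lf (nat_lit 0) (nat_lit 34145560781) (nat_lit 608) (nat_lit 18122548946) (nat_lit 76) (nat_lit 4229507803) (nat_lit 195) (nat_lit 5) (nat_lit 203) (nat_lit 5) (nat_lit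 196) (nat_lit 5) (nat_lit 401) (nat_lit 375) (nat_lit 124)) (XT.lf (nat_lit 0) (nat_lit 11838253162) (nat_lit 532) (nat_lit 29412074034) (nat_lit 608) (nat_lit 16213110307) (nat_lit 188) (nat_lit 5) (nat_lit 195) (nat_lit 5) (nat_lit 196) (nat_lit 5) (nat_lit 402) (nat_lit 375) (nat_lit 123))) (XT.nd (nat_lit 78) (nat_lit 456) (nat_lit 0) (XT.lf (nat_lit 0) (nat_lit 43068400135) (nat_lit 532) (nat_lit 5681925592) (nat_lit 608) (nat_lit 9702444094) (nat_lit 188) (nat_lit 5) (nat_lit 195) (nat_lit 5) (nat_lit 196) (nat_lit 5) (nat_lit 403) (nat_lit 375) (nat_lit 122)) (XT.lf (nat_lit 0) (nat_lit 15892483420) (nat_lit 456) (nat_lit 40915055830) (nat_lit 532) (nat_lit 2654276814) (nat_lit 182) (nat_lit 5) (nat_lit 188) (nat_lit 5) (nat_lit 189) (nat_lit 5) (nat_lit 404) (nat_lit 375) (nat_lit 121))))))))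
noncomputable def xc243 : XT := (XT.nd (nat_lit 45396) (nat_lit 0) (nat_lit 2052) (XT.nd (nat_lit 1014) (nat_lit 760) (nat_lit 0) (XT.nd (nat_lit 468) (nat_lit 1672) (nat_lit 0) (XT.nd (nat_lit 234) (nat_lit 912) (nat_lit 0) (XT.nd (nat_lit 78) (nat_lit 532) (nat_lit 0) (XT.lf (nat_lit 0) (nat_lit 4727736120) (nat_lit 532) (nat_lit 12176510769) (nat_lit 76) (nat_lit 43589191089) (nat_lit 181) (nat_lit 5) (nat_lit 188) (nat_lit 5) (nat_lit 182) (nat_lit 5) (nat_lit 405) (nat_lit 375) (nat_lit 120)) (XT.nd (nat_lit 78) (nat_lit 0) (nat_lit 0) (XT.lf (nat_lit 0) (nat_lit 12551818811) (nat_lit 608) (nat_lit 41095267557) (nat_lit 76) (nat_lit 7899915423) (nat_lit 174) (nat_lit 5) (nat_lit 182) (nat_lit 5) (nat_lit 175) (nat_lit 5) (nat_lit 406) (nat_lit 375) (nat_lit 119)) (XT.lf (nat_lit 0) (nat_lit 20901330013) (nat_lit 608) (nat_lit 8489603571) (nat_lit 76) (nat_lit 33232518115) (nat_lit 174) (nat_lit 5)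 (nat_lit 182) (nat_lit 5) (nat_lit 175) (nat_lit 5) (nat_lit 407) (nat_lit 375) (nat_lit 118)))) (XT.nd (nat_lit 78) (nat_lit 456) (nat_lit 0) (XT.lf (nat_lit 0) (nat_lit 25592697455) (nat_lit 456) (nat_lit 4153827149) (nat_lit 532) (nat_lit 33978314909) (nat_lit 168) (nat_lit 5) (nat_lit 174) (nat_lit 5) (nat_lit 175) (nat_lit 5) (nat_lit 408) (nat_lit 375) (nat_lit 117)) (XT.nd (nat_lit 78) (nat_lit 456) (nat_lit 0) (XT.lf (nat_lit 0) (nat_lit 39152794328) (nat_lit 532) (nat_lit 4196945534) (nat_lit 76) (nat_lit 21500657862) (nat_lit 168) (nat_lit 5) (nat_lit 175) (nat_lit 5) (nat_lit 169) (nat_lit 5) (nat_lit 409) (nat_lit 375) (nat_lit 116)) (XT.lf (nat_lit 0) (nat_lit 31325529053) (nat_lit 456) (nat_lit 17857192507) (nat_lit 532) (nat_lit 16816757367) (nat_lit 162) (nat_lit 5) (nat_lit 168) (nat_lit 5) (nat_lit 169) (nat_lit 5) (nat_lit 410) (nat_lit 375) (nat_lit 115))))) (XT.nd (nat_lit 234) (nat_lit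 760) (nat_lit 0) (XT.nd (nat_lit 78) (nat_lit 532) (nat_lit 0) (XT.lf (nat_lit 0) (nat_lit 750490521) (nat_lit 380) (nat_lit 58893052658) (nat_lit 456) (nat_lit 7535589814) (nat_lit 157) (nat_lit 5) (nat_lit 162) (nat_lit 5) (nat_lit 163) (nat_lit 5) (nat_lit 411) (nat_lit 375) (nat_lit 114)) (XT.nd (nat_lit 78) (nat_lit 456) (nat_lit 0) (XT.lf (nat_lit 0) (nat_lit 2514166777) (nat_lit 456) (nat_lit 30635896738) (nat_lit 76) (nat_lit 35227640290) (nat_lit 156) (nat_lit 5) (nat_lit 162) (nat_lit 5) (nat_lit 157) (nat_lit 5) (nat_lit 412) (nat_lit 375) (nat_lit 113)) (XT.lf (nat_lit 0) (nat_lit 6277604042) (nat_lit 456) (nat_lit 6495960706) (nat_lit 532) (nat_lit 56834640798) (nat_lit 150) (nat_lit 5) (nat_lit 156) (nat_lit 5) (nat_lit 157) (nat_lit 5) (nat_lit 413) (nat_lit 375) (nat_lit 112)))) (XT.nd (nat_lit 156) (nat_lit 380) (nat_lit 0) (XT.nd (nat_lit 78) (nat_lit 380) (nat_lit 0) (XT.lf (nat_lit 0)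 (nat_lit 23853902414) (nat_lit 532) (nat_lit 26145275110) (nat_lit 76) (nat_lit 20861050365) (nat_lit 150) (nat_lit 5) (nat_lit 157) (nat_lit 5) (nat_lit 151) (nat_lit 5) (nat_lit 414) (nat_lit 375) (nat_lit 111)) (XT.lf (nat_lit 0) (nat_lit 12331016711) (nat_lit 380) (nat_lit 23117777795) (nat_lit 456) (nat_lit 36695552347) (nat_lit 145) (nat_lit 5) (nat_lit 150) (nat_lit 5) (nat_lit 151) (nat_lit 5) (nat_lit 415) (nat_lit 375) (nat_lit 110))) (XT.nd (nat_lit 78) (nat_lit 380) (nat_lit 0) (XT.lf (nat_lit 0) (nat_lit 47701398292) (nat_lit 456) (nat_lit 21008974190) (nat_lit 76) (nat_lit 4747321222) (nat_lit 145) (nat_lit 5) (nat_lit 151) (nat_lit 5) (nat_lit 146) (nat_lit 5) (nat_lit 416) (nat_lit 375) (nat_lit 109)) (XT.lf (nat_lit 0) (nat_lit 19102497805) (nat_lit 380) (nat_lit 41630921070) (nat_lit 456) (nat_lit 14064667188) (nat_lit 140) (nat_lit 5) (nat_lit 145) (nat_lit 5) (nat_lit 146) (nat_lit 5)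 (nat_lit 417) (nat_lit 375) (nat_lit 108)))))) (XT.nd (nat_lit 43836) (nat_lit 0) (nat_lit 8056) (XT.nd (nat_lit 234) (nat_lit 380) (nat_lit 0) (XT.nd (nat_lit 78) (nat_lit 380) (nat_lit 0) (XT.lf (nat_lit 0) (nat_lit 60847101722) (nat_lit 380) (nat_lit 13520783946) (nat_lit 456) (nat_lit 1804460209) (nat_lit 140) (nat_lit 5) (nat_lit 145) (nat_lit 5) (nat_lit 146) (nat_lit 5) (nat_lit 418) (nat_lit 375) (nat_lit 107)) (XT.nd (nat_lit 78) (nat_lit 0) (nat_lit 0) (XT.lf (nat_lit 0) (nat_lit 11019995368) (nat_lit 380) (nat_lit 51057188534) (nat_lit 76) (nat_lit 15495299078) (nat_lit 135) (nat_lit 5) (nat_lit 140) (nat_lit 5) (nat_lit 136) (nat_lit 5) (nat_lit 419) (nat_lit 375) (nat_lit 106)) (XT.lf (nat_lit 0) (nat_lit 24482430588) (nat_lit 380) (nat_lit 9238919403) (nat_lit 76) (nat_lit 45284053042) (nat_lit 135) (nat_lit 5) (nat_lit 140) (nat_lit 5) (nat_lit 136) (nat_lit 5) (nat_lit 420) (nat_lit 375)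 (nat_lit 105)))) (XT.nd (nat_lit 43446) (nat_lit 0) (nat_lit 7980) (XT.nd (nat_lit 43368) (nat_lit 0) (nat_lit 7980) (XT.lf (nat_lit 0) (nat_lit 34506395034) (nat_lit 380) (nat_lit 4173416666) (nat_lit 456) (nat_lit 41791567029) (nat_lit 130) (nat_lit 5) (nat_lit 135) (nat_lit 5) (nat_lit 136) (nat_lit 5) (nat_lit 421) (nat_lit 375) (nat_lit 104)) (XT.lf (nat_lit 0) (nat_lit 2169949752) (nat_lit 1292) (nat_lit 8548855424) (nat_lit 1292) (nat_lit 8548855424) (nat_lit 235) (nat_lit 3) (nat_lit 252) (nat_lit 3) (nat_lit 252) (nat_lit 5) (nat_lit 376) (nat_lit 376) (nat_lit 148))) (XT.nd (nat_lit 78) (nat_lit 0) (nat_lit 76) (XT.lf (nat_lit 76) (nat_lit 1347260417) (nat_lit 0) (nat_lit 3114021670) (nat_lit 1292) (nat_lit 34650357955) (nat_lit 236) (nat_lit 5) (nat_lit 235) (nat_lit 3) (nat_lit 252) (nat_lit 5) (nat_lit 377) (nat_lit 376) (nat_lit 147)) (XT.lf (nat_lit 0) (nat_lit 4910464801) (nat_lit 1216)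 (nat_lit 19158147347) (nat_lit 1292) (nat_lit 15626912416) (nat_lit 236) (nat_lit 5) (nat_lit 252) (nat_lit 5) (nat_lit 253) (nat_lit 5) (nat_lit 378) (nat_lit 376) (nat_lit 146))))) (XT.nd (nat_lit 234) (nat_lit 0) (nat_lit 152) (XT.nd (nat_lit 78) (nat_lit 0) (nat_lit 76) (XT.lf (nat_lit 0) (nat_lit 5402312244) (nat_lit 1216) (nat_lit 25480777) (nat_lit 1292) (nat_lit 34868257773) (nat_lit 236) (nat_lit 5) (nat_lit 252) (nat_lit 5) (nat_lit 253) (nat_lit 5) (nat_lit 379) (nat_lit 376) (nat_lit 145)) (XT.nd (nat_lit 78) (nat_lit 0) (nat_lit 0) (XT.lf (nat_lit 0) (nat_lit 6234568518) (nat_lit 1216) (nat_lit 20971209711) (nat_lit 1292) (nat_lit 13699045807) (nat_lit 237) (nat_lit 5) (nat_lit 253) (nat_lit 5) (nat_lit 254) (nat_lit 5) (nat_lit 380) (nat_lit 376) (nat_lit 144)) (XT.lf (nat_lit 0) (nat_lit 7144242451) (nat_lit 1216) (nat_lit 1094530377) (nat_lit 1292) (nat_lit 33291514949) (nat_lit 237) (nat_lit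 5) (nat_lit 253) (nat_lit 5) (nat_lit 254) (nat_lit 5) (nat_lit 381) (nat_lit 376) (nat_lit 143)))) (XT.nd (nat_lit 156) (nat_lit 0) (nat_lit 76) (XT.nd (nat_lit 78) (nat_lit 0) (nat_lit 0) (XT.lf (nat_lit 0) (nat_lit 8380159873) (nat_lit 1216) (nat_lit 22516156233) (nat_lit 1292) (nat_lit 11269231506) (nat_lit 238) (nat_lit 5) (nat_lit 254) (nat_lit 5) (nat_lit 255) (nat_lit 5) (nat_lit 382) (nat_lit 376) (nat_lit 142)) (XT.lf (nat_lit 0) (nat_lit 9744424234) (nat_lit 1216) (nat_lit 1864100693) (nat_lit 1292) (nat_lit 31208602988) (nat_lit 238) (nat_lit 5) (nat_lit 254) (nat_lit 5) (nat_lit 255) (nat_lit 5) (nat_lit 383) (nat_lit 376) (nat_lit 141))) (XT.nd (nat_lit 78) (nat_lit 0) (nat_lit 0) (XT.lf (nat_lit 0) (nat_lit 11419723777) (nat_lit 1216) (nat_lit 23771039417) (nat_lit 1292) (nat_lit 8289389950) (nat_lit 239) (nat_lit 5) (nat_lit 255) (nat_lit 5) (nat_lit 256) (nat_lit 5) (nat_lit 384) (nat_lit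 376) (nat_lit 140)) (XT.lf (nat_lit 0) (nat_lit 13277843514) (nat_lit 1216) (nat_lit 2310853147) (nat_lit 1292) (nat_lit 28570396345) (nat_lit 239) (nat_lit 5) (nat_lit 255) (nat_lit 5) (nat_lit 256) (nat_lit 5) (nat_lit 385) (nat_lit 376) (nat_lit 139))))))) (XT.nd (nat_lit 1014) (nat_lit 4028) (nat_lit 0) (XT.nd (nat_lit 468) (nat_lit 2280) (nat_lit 0) (XT.nd (nat_lit 234) (nat_lit 0) (nat_lit 76) (XT.nd (nat_lit 78) (nat_lit 0) (nat_lit 0) (XT.lf (nat_lit 0) (nat_lit 15430560480) (nat_lit 1216) (nat_lit 24712670624) (nat_lit 1292) (nat_lit 4708005041) (nat_lit 240) (nat_lit 5) (nat_lit 256) (nat_lit 5) (nat_lit 257) (nat_lit 5) (nat_lit 386) (nat_lit 376) (nat_lit 138)) (XT.nd (nat_lit 78) (nat_lit 0) (nat_lit 76) (XT.lf (nat_lit 0) (nat_lit 17824458118) (nat_lit 1216) (nat_lit 2410151013) (nat_lit 1292) (nat_lit 25324237146) (nat_lit 240) (nat_lit 5) (nat_lit 256) (nat_lit 5) (nat_lit 257) (nat_lit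 5) (nat_lit 387) (nat_lit 376) (nat_lit 137)) (XT.lf (nat_lit 0) (nat_lit 20495080497) (nat_lit 1216) (nat_lit 25316586048) (nat_lit 1292) (nat_lit 469871584) (nat_lit 241) (nat_lit 5) (nat_lit 257) (nat_lit 5) (nat_lit 258) (nat_lit 5) (nat_lit 388) (nat_lit 376) (nat_lit 136)))) (XT.nd (nat_lit 78) (nat_lit 0) (nat_lit 0) (XT.lf (nat_lit 0) (nat_lit 23469501747) (nat_lit 1216) (nat_lit 2136023599) (nat_lit 1292) (nat_lit 21413675619) (nat_lit 241) (nat_lit 5) (nat_lit 257) (nat_lit 5) (nat_lit 258) (nat_lit 5) (nat_lit 389) (nat_lit 376) (nat_lit 135)) (XT.nd (nat_lit 78) (nat_lit 0) (nat_lit 76) (XT.lf (nat_lit 76) (nat_lit 22171659647) (nat_lit 0) (nat_lit 4573418462) (nat_lit 1292) (nat_lit 21027558517) (nat_lit 242) (nat_lit 5) (nat_lit 241) (nat_lit 5) (nat_lit 258) (nat_lit 5) (nat_lit 390) (nat_lit 376) (nat_lit 134)) (XT.lf (nat_lit 0) (nat_lit 30303804522) (nat_lit 1216) (nat_lit 1461132287)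 (nat_lit 1292) (nat_lit 16778192662) (nat_lit 242) (nat_lit 5) (nat_lit 258) (nat_lit 5) (nat_lit 259) (nat_lit 5) (nat_lit 391) (nat_lit 376) (nat_lit 133))))) (XT.nd (nat_lit 234) (nat_lit 1292) (nat_lit 0) (XT.nd (nat_lit 78) (nat_lit 1140) (nat_lit 0) (XT.lf (nat_lit 76) (nat_lit 23821524435) (nat_lit 0) (nat_lit 10420894360) (nat_lit 1292) (nat_lit 15086125103) (nat_lit 243) (nat_lit 5) (nat_lit 242) (nat_lit 5) (nat_lit 259) (nat_lit 5) (nat_lit 392) (nat_lit 376) (nat_lit 132)) (XT.nd (nat_lit 78) (nat_lit 1216) (nat_lit 0) (XT.lf (nat_lit 0) (nat_lit 38424130946) (nat_lit 1216) (nat_lit 356738973) (nat_lit 76) (nat_lit 11352903220) (nat_lit 243) (nat_lit 5) (nat_lit 259) (nat_lit 5) (nat_lit 244) (nat_lit 5) (nat_lit 393) (nat_lit 376) (nat_lit 131)) (XT.lf (nat_lit 0) (nat_lit 25950312890) (nat_lit 1216) (nat_lit 17132525191) (nat_lit 1292) (nat_lit 7869775412) (nat_lit 227) (nat_lit 5) (nat_lit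 243) (nat_lit 5) (nat_lit 244) (nat_lit 5) (nat_lit 394) (nat_lit 376) (nat_lit 130)))) (XT.nd (nat_lit 156) (nat_lit 608) (nat_lit 0) (XT.nd (nat_lit 78) (nat_lit 76) (nat_lit 0) (XT.lf (nat_lit 0) (nat_lit 1231350528) (nat_lit 608) (nat_lit 46714022127) (nat_lit 684) (nat_lit 3848724946) (nat_lit 219) (nat_lit 5) (nat_lit 227) (nat_lit 5) (nat_lit 228) (nat_lit 5) (nat_lit 395) (nat_lit 376) (nat_lit 129)) (XT.lf (nat_lit 0) (nat_lit 710794143) (nat_lit 684) (nat_lit 24064643114) (nat_lit 76) (nat_lit 27872598381) (nat_lit 218) (nat_lit 5) (nat_lit 227) (nat_lit 5) (nat_lit 219) (nat_lit 5) (nat_lit 396) (nat_lit 376) (nat_lit 128))) (XT.nd (nat_lit 78) (nat_lit 0) (nat_lit 0) (XT.lf (nat_lit 0) (nat_lit 3252820406) (nat_lit 608) (nat_lit 2107172335) (nat_lit 684) (nat_lit 48165548889) (nat_lit 210) (nat_lit 5) (nat_lit 218) (nat_lit 5) (nat_lit 219) (nat_lit 5) (nat_lit 397) (nat_lit 376) (nat_lit 127))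 (XT.lf (nat_lit 0) (nat_lit 10597264382) (nat_lit 684) (nat_lit 22746535273) (nat_lit 76) (nat_lit 21072115705) (nat_lit 210) (nat_lit 5) (nat_lit 219) (nat_lit 5) (nat_lit 211) (nat_lit 5) (nat_lit 398) (nat_lit 376) (nat_lit 126)))))) (XT.nd (nat_lit 546) (nat_lit 1900) (nat_lit 0) (XT.nd (nat_lit 234) (nat_lit 988) (nat_lit 0) (XT.nd (nat_lit 78) (nat_lit 532) (nat_lit 0) (XT.lf (nat_lit 0) (nat_lit 5694753431) (nat_lit 608) (nat_lit 10371536882) (nat_lit 684) (nat_lit 39264471362) (nat_lit 202) (nat_lit 5) (nat_lit 210) (nat_lit 5) (nat_lit 211) (nat_lit 5) (nat_lit 399) (nat_lit 376) (nat_lit 125)) (XT.nd (nat_lit 78) (nat_lit 532) (nat_lit 0) (XT.lf (nat_lit 0) (nat_lit 22058158166) (nat_lit 684) (nat_lit 20941589520) (nat_lit 76) (nat_lit 13262543003) (nat_lit 202) (nat_lit 5) (nat_lit 211) (nat_lit 5) (nat_lit 203) (nat_lit 5) (nat_lit 400) (nat_lit 376) (nat_lit 124)) (XT.lf (nat_lit 0) (nat_lit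 8679403124) (nat_lit 532) (nat_lit 19735577726) (nat_lit 608) (nat_lit 28801229192) (nat_lit 195) (nat_lit 5) (nat_lit 202) (nat_lit 5) (nat_lit 203) (nat_lit 5) (nat_lit 401) (nat_lit 376) (nat_lit 123)))) (XT.nd (nat_lit 156) (nat_lit 456) (nat_lit 0) (XT.nd (nat_lit 78) (nat_lit 532) (nat_lit 0) (XT.lf (nat_lit 0) (nat_lit 35215795103) (nat_lit 608) (nat_lit 18617771610) (nat_lit 76) (nat_lit 4357582074) (nat_lit 195) (nat_lit 5) (nat_lit 203) (nat_lit 5) (nat_lit 196) (nat_lit 5) (nat_lit 402) (nat_lit 376) (nat_lit 122)) (XT.lf (nat_lit 0) (nat_lit 12241379524) (nat_lit 532) (nat_lit 30291450241) (nat_lit 608) (nat_lit 16653140456) (nat_lit 188) (nat_lit 5) (nat_lit 195) (nat_lit 5) (nat_lit 196) (nat_lit 5) (nat_lit 403) (nat_lit 376) (nat_lit 121))) (XT.nd (nat_lit 78) (nat_lit 456) (nat_lit 0) (XT.lf (nat_lit 0) (nat_lit 44407033466) (nat_lit 532) (nat_lit 5849484318) (nat_lit 608) (nat_lit 9948504639)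 (nat_lit 188) (nat_lit 5) (nat_lit 195) (nat_lit 5) (nat_lit 196) (nat_lit 5) (nat_lit 404) (nat_lit 376) (nat_lit 120)) (XT.lf (nat_lit 0) (nat_lit 16416672424) (nat_lit 456) (nat_lit 42137985821) (nat_lit 532) (nat_lit 2689706075) (nat_lit 182) (nat_lit 5) (nat_lit 188) (nat_lit 5) (nat_lit 189) (nat_lit 5) (nat_lit 405) (nat_lit 376) (nat_lit 119))))) (XT.nd (nat_lit 234) (nat_lit 1292) (nat_lit 0) (XT.nd (nat_lit 78) (nat_lit 532) (nat_lit 0) (XT.lf (nat_lit 0) (nat_lit 4911642534) (nat_lit 532) (nat_lit 12494916908) (nat_lit 76) (nat_lit 44900401120) (nat_lit 181) (nat_lit 5) (nat_lit 188) (nat_lit 5) (nat_lit 182) (nat_lit 5) (nat_lit 406) (nat_lit 376) (nat_lit 118)) (XT.nd (nat_lit 78) (nat_lit 0) (nat_lit 0) (XT.lf (nat_lit 0) (nat_lit 12969717903) (nat_lit 608) (nat_lit 42280488805) (nat_lit 76) (nat_lit 8141947009) (nat_lit 174) (nat_lit 5) (nat_lit 182) (nat_lit 5) (nat_lit 175) (nat_lit 5)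 (nat_lit 407) (nat_lit 376) (nat_lit 117)) (XT.lf (nat_lit 0) (nat_lit 21568510232) (nat_lit 608) (nat_lit 8698042379) (nat_lit 76) (nat_lit 34234381157) (nat_lit 174) (nat_lit 5) (nat_lit 182) (nat_lit 5) (nat_lit 175) (nat_lit 5) (nat_lit 408) (nat_lit 376) (nat_lit 116)))) (XT.nd (nat_lit 156) (nat_lit 836) (nat_lit 0) (XT.nd (nat_lit 78) (nat_lit 0) (nat_lit 0) (XT.lf (nat_lit 0) (nat_lit 26406274253) (nat_lit 456) (nat_lit 4272057490) (nat_lit 532) (nat_lit 34957053844) (nat_lit 168) (nat_lit 5) (nat_lit 174) (nat_lit 5) (nat_lit 175) (nat_lit 5) (nat_lit 409) (nat_lit 376) (nat_lit 115)) (XT.lf (nat_lit 0) (nat_lit 40365701237) (nat_lit 532) (nat_lit 4277287283) (nat_lit 76) (nat_lit 22151755160) (nat_lit 168) (nat_lit 5) (nat_lit 175) (nat_lit 5) (nat_lit 169) (nat_lit 5) (nat_lit 410) (nat_lit 376) (nat_lit 114))) (XT.nd (nat_lit 78) (nat_lit 380) (nat_lit 0) (XT.lf (nat_lit 0) (nat_lit 32310414810)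 (nat_lit 456) (nat_lit 18385428991) (nat_lit 532) (nat_lit 17282474470) (nat_lit 162) (nat_lit 5) (nat_lit 168) (nat_lit 5) (nat_lit 169) (nat_lit 5) (nat_lit 411) (nat_lit 376) (nat_lit 113)) (XT.lf (nat_lit 0) (nat_lit 818745378) (nat_lit 380) (nat_lit 60651157845) (nat_lit 456) (nat_lit 7723476800) (nat_lit 157) (nat_lit 5) (nat_lit 162) (nat_lit 5) (nat_lit 163) (nat_lit 5) (nat_lit 412) (nat_lit 376) (nat_lit 112))))))))
noncomputable def xc244 : XT := (XT.nd (nat_lit 45552) (nat_lit 0) (nat_lit 380) (XT.nd (nat_lit 44460) (nat_lit 0) (nat_lit 6992) (XT.nd (nat_lit 468) (nat_lit 380) (nat_lit 0) (XT.nd (nat_lit 234) (nat_lit 760) (nat_lit 0) (XT.nd (nat_lit 78) (nat_lit 456) (nat_lit 0) (XT.lf (nat_lit 0) (nat_lit 2625937087) (nat_lit 456) (nat_lit 31509827927) (nat_lit 76) (nat_lit 36292165081) (nat_lit 156) (nat_lit 5) (nat_lit 162) (nat_lit 5) (nat_lit 157) (nat_lit 5) (nat_lit 413) (nat_lit 376)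 (nat_lit 111)) (XT.nd (nat_lit 78) (nat_lit 0) (nat_lit 0) (XT.lf (nat_lit 0) (nat_lit 6510635271) (nat_lit 456) (nat_lit 6681852838) (nat_lit 532) (nat_lit 58502878066) (nat_lit 150) (nat_lit 5) (nat_lit 156) (nat_lit 5) (nat_lit 157) (nat_lit 5) (nat_lit 414) (nat_lit 376) (nat_lit 110)) (XT.lf (nat_lit 0) (nat_lit 24604279491) (nat_lit 532) (nat_lit 26885262238) (nat_lit 76) (nat_lit 21495436563) (nat_lit 150) (nat_lit 5) (nat_lit 157) (nat_lit 5) (nat_lit 151) (nat_lit 5) (nat_lit 415) (nat_lit 376) (nat_lit 109)))) (XT.nd (nat_lit 78) (nat_lit 380) (nat_lit 0) (XT.lf (nat_lit 0) (nat_lit 12744883327) (nat_lit 380) (nat_lit 23801544932) (nat_lit 456) (nat_lit 37761210664) (nat_lit 145) (nat_lit 5) (nat_lit 150) (nat_lit 5) (nat_lit 151) (nat_lit 5) (nat_lit 416) (nat_lit 376) (nat_lit 108)) (XT.nd (nat_lit 78) (nat_lit 380) (nat_lit 0) (XT.lf (nat_lit 0) (nat_lit 49165706062) (nat_lit 456) (nat_lit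 21595670045) (nat_lit 76) (nat_lit 4899037581) (nat_lit 145) (nat_lit 5) (nat_lit 151) (nat_lit 5) (nat_lit 146) (nat_lit 5) (nat_lit 417) (nat_lit 376) (nat_lit 107)) (XT.lf (nat_lit 0) (nat_lit 19718718920) (nat_lit 380) (nat_lit 42869414183) (nat_lit 456) (nat_lit 14452901713) (nat_lit 140) (nat_lit 5) (nat_lit 145) (nat_lit 5) (nat_lit 146) (nat_lit 5) (nat_lit 418) (nat_lit 376) (nat_lit 106))))) (XT.nd (nat_lit 43680) (nat_lit 0) (nat_lit 7600) (XT.nd (nat_lit 78) (nat_lit 380) (nat_lit 0) (XT.lf (nat_lit 0) (nat_lit 62714404270) (nat_lit 380) (nat_lit 13916276863) (nat_lit 456) (nat_lit 1825870239) (nat_lit 140) (nat_lit 5) (nat_lit 145) (nat_lit 5) (nat_lit 146) (nat_lit 5) (nat_lit 419) (nat_lit 376) (nat_lit 105)) (XT.nd (nat_lit 43524) (nat_lit 0) (nat_lit 7600) (XT.lf (nat_lit 0) (nat_lit 11382252414) (nat_lit 380) (nat_lit 52545924920) (nat_lit 76) (nat_lit 15970519000) (nat_lit 135) (nat_lit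 5) (nat_lit 140) (nat_lit 5) (nat_lit 136) (nat_lit 5) (nat_lit 420) (nat_lit 376) (nat_lit 104)) (XT.lf (nat_lit 0) (nat_lit 2277965096) (nat_lit 1292) (nat_lit 8783207788) (nat_lit 1292) (nat_lit 8783207788) (nat_lit 235) (nat_lit 3) (nat_lit 252) (nat_lit 3) (nat_lit 252) (nat_lit 5) (nat_lit 377) (nat_lit 377) (nat_lit 146)))) (XT.nd (nat_lit 156) (nat_lit 0) (nat_lit 76) (XT.nd (nat_lit 78) (nat_lit 0) (nat_lit 76) (XT.lf (nat_lit 76) (nat_lit 1431471232) (nat_lit 0) (nat_lit 3247403975) (nat_lit 1292) (nat_lit 35603558213) (nat_lit 236) (nat_lit 5) (nat_lit 235) (nat_lit 3) (nat_lit 252) (nat_lit 5) (nat_lit 378) (nat_lit 377) (nat_lit 145)) (XT.lf (nat_lit 0) (nat_lit 5138720998) (nat_lit 1216) (nat_lit 19687519959) (nat_lit 1292) (nat_lit 16057679149) (nat_lit 236) (nat_lit 5) (nat_lit 252) (nat_lit 5) (nat_lit 253) (nat_lit 5) (nat_lit 379) (nat_lit 377) (nat_lit 144))) (XT.nd (nat_lit 78) (nat_lit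 0) (nat_lit 76) (XT.lf (nat_lit 76) (nat_lit 18159454) (nat_lit 0) (nat_lit 5624981429) (nat_lit 1292) (nat_lit 35859387952) (nat_lit 237) (nat_lit 5) (nat_lit 236) (nat_lit 5) (nat_lit 253) (nat_lit 5) (nat_lit 380) (nat_lit 377) (nat_lit 143)) (XT.lf (nat_lit 0) (nat_lit 6498002552) (nat_lit 1216) (nat_lit 21554068451) (nat_lit 1292) (nat_lit 14077566326) (nat_lit 237) (nat_lit 5) (nat_lit 253) (nat_lit 5) (nat_lit 254) (nat_lit 5) (nat_lit 381) (nat_lit 377) (nat_lit 142)))))) (XT.nd (nat_lit 546) (nat_lit 760) (nat_lit 0) (XT.nd (nat_lit 234) (nat_lit 0) (nat_lit 152) (XT.nd (nat_lit 78) (nat_lit 0) (nat_lit 76) (XT.lf (nat_lit 0) (nat_lit 7432741548) (nat_lit 1216) (nat_lit 1082436627) (nat_lit 1292) (nat_lit 34258754713) (nat_lit 237) (nat_lit 5) (nat_lit 253) (nat_lit 5) (nat_lit 254) (nat_lit 5) (nat_lit 382) (nat_lit 377) (nat_lit 141)) (XT.nd (nat_lit 78) (nat_lit 0) (nat_lit 0) (XT.lf (nat_lit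 0) (nat_lit 8703735133) (nat_lit 1216) (nat_lit 23144672648) (nat_lit 1292) (nat_lit 11579903894) (nat_lit 238) (nat_lit 5) (nat_lit 254) (nat_lit 5) (nat_lit 255) (nat_lit 5) (nat_lit 383) (nat_lit 377) (nat_lit 140)) (XT.lf (nat_lit 0) (nat_lit 10106825373) (nat_lit 1216) (nat_lit 1874423449) (nat_lit 1292) (nat_lit 32118254712) (nat_lit 238) (nat_lit 5) (nat_lit 254) (nat_lit 5) (nat_lit 255) (nat_lit 5) (nat_lit 384) (nat_lit 377) (nat_lit 139)))) (XT.nd (nat_lit 156) (nat_lit 0) (nat_lit 76) (XT.nd (nat_lit 78) (nat_lit 0) (nat_lit 0) (XT.lf (nat_lit 0) (nat_lit 11830553060) (nat_lit 1216) (nat_lit 24436704380) (nat_lit 1292) (nat_lit 8515218057) (nat_lit 239) (nat_lit 5) (nat_lit 255) (nat_lit 5) (nat_lit 256) (nat_lit 5) (nat_lit 385) (nat_lit 377) (nat_lit 138)) (XT.lf (nat_lit 0) (nat_lit 13742428887) (nat_lit 1216) (nat_lit 2334095034) (nat_lit 1292) (nat_lit 29405320283) (nat_lit 239) (nat_lit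 5) (nat_lit 255) (nat_lit 5) (nat_lit 256) (nat_lit 5) (nat_lit 386) (nat_lit 377) (nat_lit 137))) (XT.nd (nat_lit 78) (nat_lit 0) (nat_lit 0) (XT.lf (nat_lit 0) (nat_lit 15958052528) (nat_lit 1216) (nat_lit 25406259105) (nat_lit 1292) (nat_lit 4830491243) (nat_lit 240) (nat_lit 5) (nat_lit 256) (nat_lit 5) (nat_lit 257) (nat_lit 5) (nat_lit 387) (nat_lit 377) (nat_lit 136)) (XT.lf (nat_lit 0) (nat_lit 18421886263) (nat_lit 1216) (nat_lit 2436055894) (nat_lit 1292) (nat_lit 26065756543) (nat_lit 240) (nat_lit 5) (nat_lit 256) (nat_lit 5) (nat_lit 257) (nat_lit 5) (nat_lit 388) (nat_lit 377) (nat_lit 135))))) (XT.nd (nat_lit 234) (nat_lit 1064) (nat_lit 0) (XT.nd (nat_lit 78) (nat_lit 0) (nat_lit 0) (XT.lf (nat_lit 0) (nat_lit 21171095212) (nat_lit 1216) (nat_lit 26028120682) (nat_lit 1292) (nat_lit 468902313) (nat_lit 241) (nat_lit 5) (nat_lit 257) (nat_lit 5) (nat_lit 258) (nat_lit 5) (nat_lit 389) (nat_lit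 377) (nat_lit 134)) (XT.nd (nat_lit 78) (nat_lit 0) (nat_lit 0) (XT.lf (nat_lit 0) (nat_lit 24232967673) (nat_lit 1216) (nat_lit 2153538339) (nat_lit 1292) (nat_lit 22041459268) (nat_lit 241) (nat_lit 5) (nat_lit 257) (nat_lit 5) (nat_lit 258) (nat_lit 5) (nat_lit 390) (nat_lit 377) (nat_lit 133)) (XT.lf (nat_lit 76) (nat_lit 22882918876) (nat_lit 0) (nat_lit 4722606142) (nat_lit 1292) (nat_lit 21598518464) (nat_lit 242) (nat_lit 5) (nat_lit 241) (nat_lit 5) (nat_lit 258) (nat_lit 5) (nat_lit 391) (nat_lit 377) (nat_lit 132)))) (XT.nd (nat_lit 156) (nat_lit 1140) (nat_lit 0) (XT.nd (nat_lit 78) (nat_lit 0) (nat_lit 0) (XT.lf (nat_lit 0) (nat_lit 31269209296) (nat_lit 1216) (nat_lit 1458367332) (nat_lit 1292) (nat_lit 17270129458) (nat_lit 242) (nat_lit 5) (nat_lit 258) (nat_lit 5) (nat_lit 259) (nat_lit 5) (nat_lit 392) (nat_lit 377) (nat_lit 131)) (XT.lf (nat_lit 76) (nat_lit 24582312239) (nat_lit 0) (nat_lit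 10742473771) (nat_lit 1292) (nat_lit 15481933648) (nat_lit 243) (nat_lit 5) (nat_lit 242) (nat_lit 5) (nat_lit 259) (nat_lit 5) (nat_lit 393) (nat_lit 377) (nat_lit 130))) (XT.nd (nat_lit 78) (nat_lit 1216) (nat_lit 0) (XT.lf (nat_lit 0) (nat_lit 39630261276) (nat_lit 1216) (nat_lit 320927854) (nat_lit 76) (nat_lit 11684968100) (nat_lit 243) (nat_lit 5) (nat_lit 259) (nat_lit 5) (nat_lit 244) (nat_lit 5) (nat_lit 394) (nat_lit 377) (nat_lit 129)) (XT.lf (nat_lit 0) (nat_lit 26774879551) (nat_lit 1216) (nat_lit 17652737278) (nat_lit 1292) (nat_lit 8051980133) (nat_lit 227) (nat_lit 5) (nat_lit 243) (nat_lit 5) (nat_lit 244) (nat_lit 5) (nat_lit 395) (nat_lit 377) (nat_lit 128))))))) (XT.nd (nat_lit 1014) (nat_lit 2584) (nat_lit 0) (XT.nd (nat_lit 468) (nat_lit 2128) (nat_lit 0) (XT.nd (nat_lit 234) (nat_lit 608) (nat_lit 0) (XT.nd (nat_lit 78) (nat_lit 684) (nat_lit 0) (XT.lf (nat_lit 0) (nat_lit 1315535435)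 (nat_lit 608) (nat_lit 48119364831) (nat_lit 684) (nat_lit 3911459904) (nat_lit 219) (nat_lit 5) (nat_lit 227) (nat_lit 5) (nat_lit 228) (nat_lit 5) (nat_lit 396) (nat_lit 377) (nat_lit 127)) (XT.nd (nat_lit 78) (nat_lit 608) (nat_lit 0) (XT.lf (nat_lit 0) (nat_lit 782310104) (nat_lit 684) (nat_lit 24739691234) (nat_lit 76) (nat_lit 28703945695) (nat_lit 218) (nat_lit 5) (nat_lit 227) (nat_lit 5) (nat_lit 219) (nat_lit 5) (nat_lit 397) (nat_lit 377) (nat_lit 126)) (XT.lf (nat_lit 0) (nat_lit 3396836473) (nat_lit 608) (nat_lit 2173132607) (nat_lit 684) (nat_lit 49559840288) (nat_lit 210) (nat_lit 5) (nat_lit 218) (nat_lit 5) (nat_lit 219) (nat_lit 5) (nat_lit 398) (nat_lit 377) (nat_lit 125)))) (XT.nd (nat_lit 78) (nat_lit 608) (nat_lit 0) (XT.lf (nat_lit 0) (nat_lit 10962900926) (nat_lit 684) (nat_lit 23382371764) (nat_lit 76) (nat_lit 21701666035) (nat_lit 210) (nat_lit 5) (nat_lit 219) (nat_lit 5) (nat_lit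 211) (nat_lit 5) (nat_lit 399) (nat_lit 377) (nat_lit 124)) (XT.nd (nat_lit 78) (nat_lit 0) (nat_lit 0) (XT.lf (nat_lit 0) (nat_lit 5911699134) (nat_lit 608) (nat_lit 10683351809) (nat_lit 684) (nat_lit 40394208544) (nat_lit 202) (nat_lit 5) (nat_lit 210) (nat_lit 5) (nat_lit 211) (nat_lit 5) (nat_lit 400) (nat_lit 377) (nat_lit 123)) (XT.lf (nat_lit 0) (nat_lit 22765306301) (nat_lit 684) (nat_lit 21523687140) (nat_lit 76) (nat_lit 13659782624) (nat_lit 202) (nat_lit 5) (nat_lit 211) (nat_lit 5) (nat_lit 203) (nat_lit 5) (nat_lit 401) (nat_lit 377) (nat_lit 122))))) (XT.nd (nat_lit 234) (nat_lit 1064) (nat_lit 0) (XT.nd (nat_lit 78) (nat_lit 532) (nat_lit 0) (XT.lf (nat_lit 0) (nat_lit 8985482832) (nat_lit 532) (nat_lit 20326467678) (nat_lit 608) (nat_lit 29619389602) (nat_lit 195) (nat_lit 5) (nat_lit 202) (nat_lit 5) (nat_lit 203) (nat_lit 5) (nat_lit 402) (nat_lit 377) (nat_lit 121)) (XT.nd (nat_lit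 78) (nat_lit 532) (nat_lit 0) (XT.lf (nat_lit 0) (nat_lit 36315503472) (nat_lit 608) (nat_lit 19130632401) (nat_lit 76) (nat_lit 4489430318) (nat_lit 195) (nat_lit 5) (nat_lit 203) (nat_lit 5) (nat_lit 196) (nat_lit 5) (nat_lit 403) (nat_lit 377) (nat_lit 120)) (XT.lf (nat_lit 0) (nat_lit 12653845499) (nat_lit 532) (nat_lit 31197379144) (nat_lit 608) (nat_lit 17109032944) (nat_lit 188) (nat_lit 5) (nat_lit 195) (nat_lit 5) (nat_lit 196) (nat_lit 5) (nat_lit 404) (nat_lit 377) (nat_lit 119)))) (XT.nd (nat_lit 156) (nat_lit 608) (nat_lit 0) (XT.nd (nat_lit 78) (nat_lit 456) (nat_lit 0) (XT.lf (nat_lit 0) (nat_lit 45783151838) (nat_lit 532) (nat_lit 6022236222) (nat_lit 608) (nat_lit 10204530919) (nat_lit 188) (nat_lit 5) (nat_lit 195) (nat_lit 5) (nat_lit 196) (nat_lit 5) (nat_lit 405) (nat_lit 377) (nat_lit 118)) (XT.lf (nat_lit 0) (nat_lit 16953865312) (nat_lit 456) (nat_lit 43397863275) (nat_lit 532) (nat_lit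 2728735420) (nat_lit 182) (nat_lit 5) (nat_lit 188) (nat_lit 5) (nat_lit 189) (nat_lit 5) (nat_lit 406) (nat_lit 377) (nat_lit 117))) (XT.nd (nat_lit 78) (nat_lit 532) (nat_lit 0) (XT.lf (nat_lit 0) (nat_lit 5098650902) (nat_lit 532) (nat_lit 12825566863) (nat_lit 76) (nat_lit 46250744568) (nat_lit 181) (nat_lit 5) (nat_lit 188) (nat_lit 5) (nat_lit 182) (nat_lit 5) (nat_lit 407) (nat_lit 377) (nat_lit 116)) (XT.lf (nat_lit 0) (nat_lit 13397780623) (nat_lit 608) (nat_lit 43504001238) (nat_lit 76) (nat_lit 8390950563) (nat_lit 174) (nat_lit 5) (nat_lit 182) (nat_lit 5) (nat_lit 175) (nat_lit 5) (nat_lit 408) (nat_lit 377) (nat_lit 115)))))) (XT.nd (nat_lit 546) (nat_lit 760) (nat_lit 0) (XT.nd (nat_lit 234) (nat_lit 1368) (nat_lit 0) (XT.nd (nat_lit 78) (nat_lit 456) (nat_lit 0) (XT.lf (nat_lit 0) (nat_lit 22253401639) (nat_lit 608) (nat_lit 8915389250) (nat_lit 76) (nat_lit 35266019527) (nat_lit 174) (nat_lit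 5) (nat_lit 182) (nat_lit 5) (nat_lit 175) (nat_lit 5) (nat_lit 409) (nat_lit 377) (nat_lit 114)) (XT.nd (nat_lit 78) (nat_lit 0) (nat_lit 0) (XT.lf (nat_lit 0) (nat_lit 27241629484) (nat_lit 456) (nat_lit 4394201236) (nat_lit 532) (nat_lit 35967486157) (nat_lit 168) (nat_lit 5) (nat_lit 174) (nat_lit 5) (nat_lit 175) (nat_lit 5) (nat_lit 410) (nat_lit 377) (nat_lit 113)) (XT.lf (nat_lit 0) (nat_lit 41612795453) (nat_lit 532) (nat_lit 4362654996) (nat_lit 76) (nat_lit 22822036501) (nat_lit 168) (nat_lit 5) (nat_lit 175) (nat_lit 5) (nat_lit 169) (nat_lit 5) (nat_lit 411) (nat_lit 377) (nat_lit 112)))) (XT.nd (nat_lit 156) (nat_lit 532) (nat_lit 0) (XT.nd (nat_lit 78) (nat_lit 380) (nat_lit 0) (XT.lf (nat_lit 0) (nat_lit 33322257073) (nat_lit 456) (nat_lit 18929941911) (nat_lit 532) (nat_lit 17764389539) (nat_lit 162) (nat_lit 5) (nat_lit 168) (nat_lit 5) (nat_lit 169) (nat_lit 5) (nat_lit 412) (nat_lit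 377) (nat_lit 111)) (XT.lf (nat_lit 0) (nat_lit 886422210) (nat_lit 380) (nat_lit 62462504822) (nat_lit 456) (nat_lit 7919192124) (nat_lit 157) (nat_lit 5) (nat_lit 162) (nat_lit 5) (nat_lit 163) (nat_lit 5) (nat_lit 413) (nat_lit 377) (nat_lit 110))) (XT.nd (nat_lit 78) (nat_lit 456) (nat_lit 0) (XT.lf (nat_lit 0) (nat_lit 2738974136) (nat_lit 456) (nat_lit 32412568600) (nat_lit 76) (nat_lit 37388183857) (nat_lit 156) (nat_lit 5) (nat_lit 162) (nat_lit 5) (nat_lit 157) (nat_lit 5) (nat_lit 414) (nat_lit 377) (nat_lit 109)) (XT.lf (nat_lit 0) (nat_lit 6748091296) (nat_lit 456) (nat_lit 6873837606) (nat_lit 532) (nat_lit 60223275035) (nat_lit 150) (nat_lit 5) (nat_lit 156) (nat_lit 5) (nat_lit 157) (nat_lit 5) (nat_lit 415) (nat_lit 377) (nat_lit 108))))) (XT.nd (nat_lit 234) (nat_lit 380) (nat_lit 0) (XT.nd (nat_lit 78) (nat_lit 380) (nat_lit 0) (XT.lf (nat_lit 0) (nat_lit 25375172513) (nat_lit 532) (nat_lit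 27649996063) (nat_lit 76) (nat_lit 22148363272) (nat_lit 150) (nat_lit 5) (nat_lit 157) (nat_lit 5) (nat_lit 151) (nat_lit 5) (nat_lit 416) (nat_lit 377) (nat_lit 107)) (XT.nd (nat_lit 78) (nat_lit 0) (nat_lit 0) (XT.lf (nat_lit 0) (nat_lit 13168643829) (nat_lit 380) (nat_lit 24506385702) (nat_lit 456) (nat_lit 38860859828) (nat_lit 145) (nat_lit 5) (nat_lit 150) (nat_lit 5) (nat_lit 151) (nat_lit 5) (nat_lit 417) (nat_lit 377) (nat_lit 106)) (XT.lf (nat_lit 0) (nat_lit 50672033472) (nat_lit 456) (nat_lit 22202468065) (nat_lit 76) (nat_lit 5054771761) (nat_lit 145) (nat_lit 5) (nat_lit 151) (nat_lit 5) (nat_lit 146) (nat_lit 5) (nat_lit 418) (nat_lit 377) (nat_lit 105)))) (XT.nd (nat_lit 43680) (nat_lit 0) (nat_lit 7220) (XT.nd (nat_lit 78) (nat_lit 0) (nat_lit 0) (XT.lf (nat_lit 0) (nat_lit 20350949901) (nat_lit 380) (nat_lit 44145661073) (nat_lit 456) (nat_lit 14854718108) (nat_lit 140) (nat_lit 5) (nat_lit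 145) (nat_lit 5) (nat_lit 146) (nat_lit 5) (nat_lit 419) (nat_lit 377) (nat_lit 104)) (XT.lf (nat_lit 0) (nat_lit 64635321266) (nat_lit 380) (nat_lit 14324216106) (nat_lit 456) (nat_lit 1849801048) (nat_lit 140) (nat_lit 5) (nat_lit 145) (nat_lit 5) (nat_lit 146) (nat_lit 5) (nat_lit 420) (nat_lit 377) (nat_lit 103))) (XT.nd (nat_lit 78) (nat_lit 0) (nat_lit 0) (XT.lf (nat_lit 0) (nat_lit 2386757297) (nat_lit 1292) (nat_lit 9025860118) (nat_lit 1292) (nat_lit 9025860118) (nat_lit 235) (nat_lit 3) (nat_lit 252) (nat_lit 3) (nat_lit 252) (nat_lit 5) (nat_lit 378) (nat_lit 378) (nat_lit 144)) (XT.lf (nat_lit 76) (nat_lit 1515694473) (nat_lit 0) (nat_lit 3382493786) (nat_lit 1292) (nat_lit 36590309054) (nat_lit 236) (nat_lit 5) (nat_lit 235) (nat_lit 3) (nat_lit 252) (nat_lit 5) (nat_lit 379) (nat_lit 378) (nat_lit 143))))))))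
noncomputable def xc245 : XT := (XT.nd (nat_lit 2106) (nat_lit 3648) (nat_lit 0) (XT.nd (nat_lit 1014) (nat_lit 3648) (nat_lit 0) (XT.nd (nat_lit 468) (nat_lit 0) (nat_lit 228) (XT.nd (nat_lit 234) (nat_lit 0) (nat_lit 76) (XT.nd (nat_lit 78) (nat_lit 0) (nat_lit 0) (XT.lf (nat_lit 0) (nat_lit 5369178465) (nat_lit 1216) (nat_lit 20235378278) (nat_lit 1292) (nat_lit 16503552572) (nat_lit 236) (nat_lit 5) (nat_lit 252) (nat_lit 5) (nat_lit 253) (nat_lit 5) (nat_lit 380) (nat_lit 378) (nat_lit 142)) (XT.nd (nat_lit 78) (nat_lit 0) (nat_lit 76) (XT.lf (nat_lit 76) (nat_lit 61052231) (nat_lit 0) (nat_lit 5825863581) (nat_lit 1292) (nat_lit 36858416098) (nat_lit 237) (nat_lit 5) (nat_lit 236) (nat_lit 5) (nat_lit 253) (nat_lit 5) (nat_lit 381) (nat_lit 378) (nat_lit 141)) (XT.lf (nat_lit 0) (nat_lit 6764954108) (nat_lit 1216) (nat_lit 22157069473) (nat_lit 1292) (nat_lit 14469305272) (nat_lit 237) (nat_lit 5)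 (nat_lit 253) (nat_lit 5) (nat_lit 254) (nat_lit 5) (nat_lit 382) (nat_lit 378) (nat_lit 140)))) (XT.nd (nat_lit 78) (nat_lit 0) (nat_lit 76) (XT.lf (nat_lit 0) (nat_lit 7725637852) (nat_lit 1216) (nat_lit 1072559210) (nat_lit 1292) (nat_lit 35256820224) (nat_lit 237) (nat_lit 5) (nat_lit 253) (nat_lit 5) (nat_lit 254) (nat_lit 5) (nat_lit 383) (nat_lit 378) (nat_lit 139)) (XT.nd (nat_lit 78) (nat_lit 0) (nat_lit 0) (XT.lf (nat_lit 0) (nat_lit 9032874772) (nat_lit 1216) (nat_lit 23794740727) (nat_lit 1292) (nat_lit 11901469588) (nat_lit 238) (nat_lit 5) (nat_lit 254) (nat_lit 5) (nat_lit 255) (nat_lit 5) (nat_lit 384) (nat_lit 378) (nat_lit 138)) (XT.lf (nat_lit 0) (nat_lit 10476076332) (nat_lit 1216) (nat_lit 1887673531) (nat_lit 1292) (nat_lit 33056723302) (nat_lit 238) (nat_lit 5) (nat_lit 254) (nat_lit 5) (nat_lit 255) (nat_lit 5) (nat_lit 385) (nat_lit 378) (nat_lit 137))))) (XT.nd (nat_lit 234) (nat_lit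 0) (nat_lit 76) (XT.nd (nat_lit 78) (nat_lit 0) (nat_lit 0) (XT.lf (nat_lit 0) (nat_lit 12249790106) (nat_lit 1216) (nat_lit 25125064048) (nat_lit 1292) (nat_lit 8749132898) (nat_lit 239) (nat_lit 5) (nat_lit 255) (nat_lit 5) (nat_lit 256) (nat_lit 5) (nat_lit 386) (nat_lit 378) (nat_lit 136)) (XT.nd (nat_lit 78) (nat_lit 0) (nat_lit 76) (XT.lf (nat_lit 0) (nat_lit 14217148796) (nat_lit 1216) (nat_lit 2360679571) (nat_lit 1292) (nat_lit 30266565619) (nat_lit 239) (nat_lit 5) (nat_lit 255) (nat_lit 5) (nat_lit 256) (nat_lit 5) (nat_lit 387) (nat_lit 378) (nat_lit 135)) (XT.lf (nat_lit 0) (nat_lit 16497662455) (nat_lit 1216) (nat_lit 26123398675) (nat_lit 1292) (nat_lit 4957728584) (nat_lit 240) (nat_lit 5) (nat_lit 256) (nat_lit 5) (nat_lit 257) (nat_lit 5) (nat_lit 388) (nat_lit 378) (nat_lit 134)))) (XT.nd (nat_lit 156) (nat_lit 0) (nat_lit 76) (XT.nd (nat_lit 78) (nat_lit 0) (nat_lit 76) (XT.lf (nat_lit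 0) (nat_lit 19033638337) (nat_lit 1216) (nat_lit 2465401452) (nat_lit 1292) (nat_lit 26830566719) (nat_lit 240) (nat_lit 5) (nat_lit 256) (nat_lit 5) (nat_lit 257) (nat_lit 5) (nat_lit 389) (nat_lit 378) (nat_lit 133)) (XT.lf (nat_lit 0) (nat_lit 21863879402) (nat_lit 1216) (nat_lit 26763754625) (nat_lit 1292) (nat_lit 468768781) (nat_lit 241) (nat_lit 5) (nat_lit 257) (nat_lit 5) (nat_lit 258) (nat_lit 5) (nat_lit 390) (nat_lit 378) (nat_lit 132))) (XT.nd (nat_lit 78) (nat_lit 0) (nat_lit 0) (XT.lf (nat_lit 0) (nat_lit 25015928872) (nat_lit 1216) (nat_lit 2174251597) (nat_lit 1292) (nat_lit 22688916054) (nat_lit 241) (nat_lit 5) (nat_lit 257) (nat_lit 5) (nat_lit 258) (nat_lit 5) (nat_lit 391) (nat_lit 378) (nat_lit 131)) (XT.lf (nat_lit 76) (nat_lit 23612869011) (nat_lit 0) (nat_lit 4875581458) (nat_lit 1292) (nat_lit 22190043808) (nat_lit 242) (nat_lit 5) (nat_lit 241) (nat_lit 5) (nat_lit 258) (nat_lit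 5) (nat_lit 392) (nat_lit 378) (nat_lit 130)))))) (XT.nd (nat_lit 546) (nat_lit 1672) (nat_lit 0) (XT.nd (nat_lit 234) (nat_lit 2432) (nat_lit 0) (XT.nd (nat_lit 78) (nat_lit 0) (nat_lit 0) (XT.lf (nat_lit 0) (nat_lit 32260344900) (nat_lit 1216) (nat_lit 1458194398) (nat_lit 1292) (nat_lit 17777479280) (nat_lit 242) (nat_lit 5) (nat_lit 258) (nat_lit 5) (nat_lit 259) (nat_lit 5) (nat_lit 393) (nat_lit 378) (nat_lit 129)) (XT.nd (nat_lit 78) (nat_lit 0) (nat_lit 76) (XT.lf (nat_lit 76) (nat_lit 25363274934) (nat_lit 0) (nat_lit 11073186650) (nat_lit 1292) (nat_lit 15892875578) (nat_lit 243) (nat_lit 5) (nat_lit 242) (nat_lit 5) (nat_lit 259) (nat_lit 5) (nat_lit 394) (nat_lit 378) (nat_lit 128)) (XT.lf (nat_lit 0) (nat_lit 40869509770) (nat_lit 1216) (nat_lit 286712455) (nat_lit 76) (nat_lit 12027484136) (nat_lit 243) (nat_lit 5) (nat_lit 259) (nat_lit 5) (nat_lit 244) (nat_lit 5) (nat_lit 395) (nat_lit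 378) (nat_lit 127)))) (XT.nd (nat_lit 156) (nat_lit 684) (nat_lit 0) (XT.nd (nat_lit 78) (nat_lit 608) (nat_lit 0) (XT.lf (nat_lit 0) (nat_lit 27621539337) (nat_lit 1216) (nat_lit 18188197736) (nat_lit 1292) (nat_lit 8242744419) (nat_lit 227) (nat_lit 5) (nat_lit 243) (nat_lit 5) (nat_lit 244) (nat_lit 5) (nat_lit 396) (nat_lit 378) (nat_lit 126)) (XT.lf (nat_lit 0) (nat_lit 1399533868) (nat_lit 608) (nat_lit 49566642675) (nat_lit 684) (nat_lit 3979103644) (nat_lit 219) (nat_lit 5) (nat_lit 227) (nat_lit 5) (nat_lit 228) (nat_lit 5) (nat_lit 397) (nat_lit 378) (nat_lit 125))) (XT.nd (nat_lit 78) (nat_lit 608) (nat_lit 0) (XT.lf (nat_lit 0) (nat_lit 853090310) (nat_lit 684) (nat_lit 25437682543) (nat_lit 76) (nat_lit 29560510726) (nat_lit 218) (nat_lit 5) (nat_lit 227) (nat_lit 5) (nat_lit 219) (nat_lit 5) (nat_lit 398) (nat_lit 378) (nat_lit 124)) (XT.lf (nat_lit 0) (nat_lit 3542507668) (nat_lit 608) (nat_lit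 2240914107) (nat_lit 684) (nat_lit 50998869385) (nat_lit 210) (nat_lit 5) (nat_lit 218) (nat_lit 5) (nat_lit 219) (nat_lit 5) (nat_lit 399) (nat_lit 378) (nat_lit 123))))) (XT.nd (nat_lit 234) (nat_lit 1064) (nat_lit 0) (XT.nd (nat_lit 78) (nat_lit 608) (nat_lit 0) (XT.lf (nat_lit 0) (nat_lit 11336767321) (nat_lit 684) (nat_lit 24039956061) (nat_lit 76) (nat_lit 22350252880) (nat_lit 210) (nat_lit 5) (nat_lit 219) (nat_lit 5) (nat_lit 211) (nat_lit 5) (nat_lit 400) (nat_lit 378) (nat_lit 122)) (XT.nd (nat_lit 78) (nat_lit 0) (nat_lit 0) (XT.lf (nat_lit 0) (nat_lit 6132506702) (nat_lit 608) (nat_lit 11004482790) (nat_lit 684) (nat_lit 41560604544) (nat_lit 202) (nat_lit 5) (nat_lit 210) (nat_lit 5) (nat_lit 211) (nat_lit 5) (nat_lit 401) (nat_lit 378) (nat_lit 121)) (XT.lf (nat_lit 0) (nat_lit 23491062539) (nat_lit 684) (nat_lit 22125896891) (nat_lit 76) (nat_lit 14068975981) (nat_lit 202) (nat_lit 5) (nat_lit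 211) (nat_lit 5) (nat_lit 203) (nat_lit 5) (nat_lit 402) (nat_lit 378) (nat_lit 120)))) (XT.nd (nat_lit 156) (nat_lit 532) (nat_lit 0) (XT.nd (nat_lit 78) (nat_lit 0) (nat_lit 0) (XT.lf (nat_lit 0) (nat_lit 9298121701) (nat_lit 532) (nat_lit 20935151914) (nat_lit 608) (nat_lit 30464728321) (nat_lit 195) (nat_lit 5) (nat_lit 202) (nat_lit 5) (nat_lit 203) (nat_lit 5) (nat_lit 403) (nat_lit 378) (nat_lit 119)) (XT.lf (nat_lit 0) (nat_lit 37445721254) (nat_lit 608) (nat_lit 19661500796) (nat_lit 76) (nat_lit 4625169671) (nat_lit 195) (nat_lit 5) (nat_lit 203) (nat_lit 5) (nat_lit 196) (nat_lit 5) (nat_lit 404) (nat_lit 378) (nat_lit 118))) (XT.nd (nat_lit 78) (nat_lit 0) (nat_lit 0) (XT.lf (nat_lit 0) (nat_lit 13076089376) (nat_lit 532) (nat_lit 32130647484) (nat_lit 608) (nat_lit 17581110865) (nat_lit 188) (nat_lit 5) (nat_lit 195) (nat_lit 5) (nat_lit 196) (nat_lit 5) (nat_lit 405) (nat_lit 378) (nat_lit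 117)) (XT.lf (nat_lit 0) (nat_lit 47198033299) (nat_lit 532) (nat_lit 6200327547) (nat_lit 608) (nat_lit 10470673577) (nat_lit 188) (nat_lit 5) (nat_lit 195) (nat_lit 5) (nat_lit 196) (nat_lit 5) (nat_lit 406) (nat_lit 378) (nat_lit 116))))))) (XT.nd (nat_lit 1014) (nat_lit 380) (nat_lit 0) (XT.nd (nat_lit 468) (nat_lit 1748) (nat_lit 0) (XT.nd (nat_lit 234) (nat_lit 456) (nat_lit 0) (XT.nd (nat_lit 78) (nat_lit 608) (nat_lit 0) (XT.lf (nat_lit 0) (nat_lit 17504608442) (nat_lit 456) (nat_lit 44695781715) (nat_lit 532) (nat_lit 2771327205) (nat_lit 182) (nat_lit 5) (nat_lit 188) (nat_lit 5) (nat_lit 189) (nat_lit 5) (nat_lit 407) (nat_lit 378) (nat_lit 115)) (XT.nd (nat_lit 78) (nat_lit 532) (nat_lit 0) (XT.lf (nat_lit 0) (nat_lit 5288992927) (nat_lit 532) (nat_lit 13168673437) (nat_lit 76) (nat_lit 47641407083) (nat_lit 181) (nat_lit 5) (nat_lit 188) (nat_lit 5) (nat_lit 182) (nat_lit 5) (nat_lit 408) (nat_lit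 378) (nat_lit 114)) (XT.lf (nat_lit 0) (nat_lit 13836448119) (nat_lit 608) (nat_lit 44766796615) (nat_lit 76) (nat_lit 8647151834) (nat_lit 174) (nat_lit 5) (nat_lit 182) (nat_lit 5) (nat_lit 175) (nat_lit 5) (nat_lit 409) (nat_lit 378) (nat_lit 113)))) (XT.nd (nat_lit 78) (nat_lit 456) (nat_lit 0) (XT.lf (nat_lit 0) (nat_lit 22956667840) (nat_lit 608) (nat_lit 9141759025) (nat_lit 76) (nat_lit 36328342592) (nat_lit 174) (nat_lit 5) (nat_lit 182) (nat_lit 5) (nat_lit 175) (nat_lit 5) (nat_lit 410) (nat_lit 378) (nat_lit 112)) (XT.nd (nat_lit 78) (nat_lit 0) (nat_lit 0) (XT.lf (nat_lit 0) (nat_lit 28099567410) (nat_lit 456) (nat_lit 4520354751) (nat_lit 532) (nat_lit 37010428827) (nat_lit 168) (nat_lit 5) (nat_lit 174) (nat_lit 5) (nat_lit 175) (nat_lit 5) (nat_lit 411) (nat_lit 378) (nat_lit 111)) (XT.lf (nat_lit 0) (nat_lit 42895228876) (nat_lit 532) (nat_lit 4453049297) (nat_lit 76) (nat_lit 23512097432)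 (nat_lit 168) (nat_lit 5) (nat_lit 175) (nat_lit 5) (nat_lit 169) (nat_lit 5) (nat_lit 412) (nat_lit 378) (nat_lit 110))))) (XT.nd (nat_lit 234) (nat_lit 836) (nat_lit 0) (XT.nd (nat_lit 78) (nat_lit 456) (nat_lit 0) (XT.lf (nat_lit 0) (nat_lit 34362013218) (nat_lit 456) (nat_lit 19491194915) (nat_lit 532) (nat_lit 18262860705) (nat_lit 162) (nat_lit 5) (nat_lit 168) (nat_lit 5) (nat_lit 169) (nat_lit 5) (nat_lit 413) (nat_lit 378) (nat_lit 109)) (XT.nd (nat_lit 78) (nat_lit 76) (nat_lit 0) (XT.lf (nat_lit 0) (nat_lit 953654399) (nat_lit 380) (nat_lit 64328662220) (nat_lit 456) (nat_lit 8122844823) (nat_lit 157) (nat_lit 5) (nat_lit 162) (nat_lit 5) (nat_lit 163) (nat_lit 5) (nat_lit 414) (nat_lit 378) (nat_lit 108)) (XT.lf (nat_lit 0) (nat_lit 2853435694) (nat_lit 456) (nat_lit 33344834277) (nat_lit 76) (nat_lit 38516666798) (nat_lit 156) (nat_lit 5) (nat_lit 162) (nat_lit 5) (nat_lit 157) (nat_lit 5)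 (nat_lit 415) (nat_lit 378) (nat_lit 107)))) (XT.nd (nat_lit 156) (nat_lit 380) (nat_lit 0) (XT.nd (nat_lit 78) (nat_lit 0) (nat_lit 0) (XT.lf (nat_lit 0) (nat_lit 6990252168) (nat_lit 456) (nat_lit 7072068177) (nat_lit 532) (nat_lit 61997275225) (nat_lit 150) (nat_lit 5) (nat_lit 156) (nat_lit 5) (nat_lit 157) (nat_lit 5) (nat_lit 416) (nat_lit 378) (nat_lit 106)) (XT.lf (nat_lit 0) (nat_lit 26167311502) (nat_lit 532) (nat_lit 28440072774) (nat_lit 76) (nat_lit 22820414898) (nat_lit 150) (nat_lit 5) (nat_lit 157) (nat_lit 5) (nat_lit 151) (nat_lit 5) (nat_lit 417) (nat_lit 378) (nat_lit 105))) (XT.nd (nat_lit 78) (nat_lit 0) (nat_lit 0) (XT.lf (nat_lit 0) (nat_lit 13602739813) (nat_lit 380) (nat_lit 25232900133) (nat_lit 456) (nat_lit 39995403546) (nat_lit 145) (nat_lit 5) (nat_lit 150) (nat_lit 5) (nat_lit 151) (nat_lit 5) (nat_lit 418) (nat_lit 378) (nat_lit 104)) (XT.lf (nat_lit 0) (nat_lit 52221750727)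 (nat_lit 456) (nat_lit 22829827731) (nat_lit 76) (nat_lit 5214674931) (nat_lit 145) (nat_lit 5) (nat_lit 151) (nat_lit 5) (nat_lit 146) (nat_lit 5) (nat_lit 419) (nat_lit 378) (nat_lit 103)))))) (XT.nd (nat_lit 44148) (nat_lit 0) (nat_lit 7448) (XT.nd (nat_lit 43836) (nat_lit 0) (nat_lit 7296) (XT.nd (nat_lit 43680) (nat_lit 0) (nat_lit 7220) (XT.lf (nat_lit 0) (nat_lit 20999813222) (nat_lit 380) (nat_lit 45460759970) (nat_lit 456) (nat_lit 15270412760) (nat_lit 140) (nat_lit 5) (nat_lit 145) (nat_lit 5) (nat_lit 146) (nat_lit 5) (nat_lit 420) (nat_lit 378) (nat_lit 102)) (XT.nd (nat_lit 78) (nat_lit 0) (nat_lit 0) (XT.lf (nat_lit 0) (nat_lit 2496491083) (nat_lit 1292) (nat_lit 9276988542) (nat_lit 1292) (nat_lit 9276988542) (nat_lit 235) (nat_lit 3) (nat_lit 252) (nat_lit 3) (nat_lit 252) (nat_lit 5) (nat_lit 379) (nat_lit 379) (nat_lit 142)) (XT.lf (nat_lit 76) (nat_lit 1600074823) (nat_lit 0) (nat_lit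 3519474012) (nat_lit 1292) (nat_lit 37611332581) (nat_lit 236) (nat_lit 5) (nat_lit 235) (nat_lit 3) (nat_lit 252) (nat_lit 5) (nat_lit 380) (nat_lit 379) (nat_lit 141)))) (XT.nd (nat_lit 156) (nat_lit 0) (nat_lit 76) (XT.nd (nat_lit 78) (nat_lit 0) (nat_lit 0) (XT.lf (nat_lit 0) (nat_lit 5602169963) (nat_lit 1216) (nat_lit 20802127363) (nat_lit 1292) (nat_lit 16964860534) (nat_lit 236) (nat_lit 5) (nat_lit 252) (nat_lit 5) (nat_lit 253) (nat_lit 5) (nat_lit 381) (nat_lit 379) (nat_lit 140)) (XT.lf (nat_lit 76) (nat_lit 102800843) (nat_lit 0) (nat_lit 6030927649) (nat_lit 1292) (nat_lit 37891821053) (nat_lit 237) (nat_lit 5) (nat_lit 236) (nat_lit 5) (nat_lit 253) (nat_lit 5) (nat_lit 382) (nat_lit 379) (nat_lit 139))) (XT.nd (nat_lit 78) (nat_lit 0) (nat_lit 0) (XT.lf (nat_lit 0) (nat_lit 7035780456) (nat_lit 1216) (nat_lit 22780664552) (nat_lit 1292) (nat_lit 14874552265) (nat_lit 237) (nat_lit 5) (nat_lit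 253) (nat_lit 5) (nat_lit 254) (nat_lit 5) (nat_lit 383) (nat_lit 379) (nat_lit 138)) (XT.lf (nat_lit 0) (nat_lit 8023307692) (nat_lit 1216) (nat_lit 1064816564) (nat_lit 1292) (nat_lit 36286532438) (nat_lit 237) (nat_lit 5) (nat_lit 253) (nat_lit 5) (nat_lit 254) (nat_lit 5) (nat_lit 384) (nat_lit 379) (nat_lit 137))))) (XT.nd (nat_lit 234) (nat_lit 0) (nat_lit 76) (XT.nd (nat_lit 78) (nat_lit 0) (nat_lit 0) (XT.lf (nat_lit 0) (nat_lit 9367983537) (nat_lit 1216) (nat_lit 24466852247) (nat_lit 1292) (nat_lit 12234165081) (nat_lit 238) (nat_lit 5) (nat_lit 254) (nat_lit 5) (nat_lit 255) (nat_lit 5) (nat_lit 385) (nat_lit 379) (nat_lit 136)) (XT.nd (nat_lit 78) (nat_lit 0) (nat_lit 76) (XT.lf (nat_lit 0) (nat_lit 10852613499) (nat_lit 1216) (nat_lit 1903788492) (nat_lit 1292) (nat_lit 34024785589) (nat_lit 238) (nat_lit 5) (nat_lit 254) (nat_lit 5) (nat_lit 255) (nat_lit 5) (nat_lit 386) (nat_lit 379) (nat_lit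 135)) (XT.lf (nat_lit 0) (nat_lit 12677912006) (nat_lit 1216) (nat_lit 25836642849) (nat_lit 1292) (nat_lit 8991301766) (nat_lit 239) (nat_lit 5) (nat_lit 255) (nat_lit 5) (nat_lit 256) (nat_lit 5) (nat_lit 387) (nat_lit 379) (nat_lit 134)))) (XT.nd (nat_lit 156) (nat_lit 0) (nat_lit 76) (XT.nd (nat_lit 78) (nat_lit 0) (nat_lit 76) (XT.lf (nat_lit 0) (nat_lit 14702525587) (nat_lit 1216) (nat_lit 2390555180) (nat_lit 1292) (nat_lit 31154848879) (nat_lit 239) (nat_lit 5) (nat_lit 255) (nat_lit 5) (nat_lit 256) (nat_lit 5) (nat_lit 388) (nat_lit 379) (nat_lit 133)) (XT.lf (nat_lit 0) (nat_lit 17049966588) (nat_lit 1216) (nat_lit 26864638384) (nat_lit 1292) (nat_lit 5089797801) (nat_lit 240) (nat_lit 5) (nat_lit 256) (nat_lit 5) (nat_lit 257) (nat_lit 5) (nat_lit 389) (nat_lit 379) (nat_lit 132))) (XT.nd (nat_lit 78) (nat_lit 0) (nat_lit 76) (XT.lf (nat_lit 0) (nat_lit 19660350651) (nat_lit 1216) (nat_lit 2498138008)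 (nat_lit 1292) (nat_lit 27619306400) (nat_lit 240) (nat_lit 5) (nat_lit 256) (nat_lit 5) (nat_lit 257) (nat_lit 5) (nat_lit 390) (nat_lit 379) (nat_lit 131)) (XT.lf (nat_lit 0) (nat_lit 22574137695) (nat_lit 1216) (nat_lit 27524052806) (nat_lit 1292) (nat_lit 469446415) (nat_lit 241) (nat_lit 5) (nat_lit 257) (nat_lit 5) (nat_lit 258) (nat_lit 5) (nat_lit 391) (nat_lit 379) (nat_lit 130))))))))
noncomputable def xc246 : XT := (XT.nd (nat_lit 2106) (nat_lit 380) (nat_lit 0) (XT.nd (nat_lit 1014) (nat_lit 3420) (nat_lit 0) (XT.nd (nat_lit 468) (nat_lit 2432) (nat_lit 0) (XT.nd (nat_lit 234) (nat_lit 1064) (nat_lit 0) (XT.nd (nat_lit 78) (nat_lit 0) (nat_lit 0) (XT.lf (nat_lit 0) (nat_lit 25819165875) (nat_lit 1216) (nat_lit 2198105886) (nat_lit 1292) (nat_lit 23356587973) (nat_lit 241) (nat_lit 5) (nat_lit 257) (nat_lit 5) (nat_lit 258) (nat_lit 5) (nat_lit 392) (nat_lit 379) (nat_lit 129)) (XT.nd (nat_lit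 78) (nat_lit 0) (nat_lit 76) (XT.lf (nat_lit 76) (nat_lit 24362222721) (nat_lit 0) (nat_lit 5032497531) (nat_lit 1292) (nat_lit 22802554238) (nat_lit 242) (nat_lit 5) (nat_lit 241) (nat_lit 5) (nat_lit 258) (nat_lit 5) (nat_lit 393) (nat_lit 379) (nat_lit 128)) (XT.lf (nat_lit 0) (nat_lit 33278168751) (nat_lit 1216) (nat_lit 1460537690) (nat_lit 1292) (nat_lit 18300666924) (nat_lit 242) (nat_lit 5) (nat_lit 258) (nat_lit 5) (nat_lit 259) (nat_lit 5) (nat_lit 394) (nat_lit 379) (nat_lit 127)))) (XT.nd (nat_lit 78) (nat_lit 1140) (nat_lit 0) (XT.lf (nat_lit 76) (nat_lit 26165169814) (nat_lit 0) (nat_lit 11413336500) (nat_lit 1292) (nat_lit 16319217808) (nat_lit 243) (nat_lit 5) (nat_lit 242) (nat_lit 5) (nat_lit 259) (nat_lit 5) (nat_lit 395) (nat_lit 379) (nat_lit 126)) (XT.nd (nat_lit 78) (nat_lit 1216) (nat_lit 0) (XT.lf (nat_lit 0) (nat_lit 42143045959) (nat_lit 1216) (nat_lit 253987375) (nat_lit 76)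 (nat_lit 12380736782) (nat_lit 243) (nat_lit 5) (nat_lit 259) (nat_lit 5) (nat_lit 244) (nat_lit 5) (nat_lit 396) (nat_lit 379) (nat_lit 125)) (XT.lf (nat_lit 0) (nat_lit 28491106809) (nat_lit 1216) (nat_lit 18739384567) (nat_lit 1292) (nat_lit 8442147481) (nat_lit 227) (nat_lit 5) (nat_lit 243) (nat_lit 5) (nat_lit 244) (nat_lit 5) (nat_lit 397) (nat_lit 379) (nat_lit 124))))) (XT.nd (nat_lit 234) (nat_lit 1140) (nat_lit 0) (XT.nd (nat_lit 78) (nat_lit 684) (nat_lit 0) (XT.lf (nat_lit 0) (nat_lit 1483495914) (nat_lit 608) (nat_lit 51057126638) (nat_lit 684) (nat_lit 4051629683) (nat_lit 219) (nat_lit 5) (nat_lit 227) (nat_lit 5) (nat_lit 228) (nat_lit 5) (nat_lit 398) (nat_lit 379) (nat_lit 123)) (XT.nd (nat_lit 78) (nat_lit 608) (nat_lit 0) (XT.lf (nat_lit 0) (nat_lit 923278083) (nat_lit 684) (nat_lit 26159150820) (nat_lit 76) (nat_lit 30443034088) (nat_lit 218) (nat_lit 5) (nat_lit 227) (nat_lit 5) (nat_lit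 219) (nat_lit 5) (nat_lit 399) (nat_lit 379) (nat_lit 122)) (XT.lf (nat_lit 0) (nat_lit 3690036645) (nat_lit 608) (nat_lit 2310580517) (nat_lit 684) (nat_lit 52483811326) (nat_lit 210) (nat_lit 5) (nat_lit 218) (nat_lit 5) (nat_lit 219) (nat_lit 5) (nat_lit 400) (nat_lit 379) (nat_lit 121)))) (XT.nd (nat_lit 156) (nat_lit 532) (nat_lit 0) (XT.nd (nat_lit 78) (nat_lit 608) (nat_lit 0) (XT.lf (nat_lit 0) (nat_lit 11719267709) (nat_lit 684) (nat_lit 24719787171) (nat_lit 76) (nat_lit 23018438725) (nat_lit 210) (nat_lit 5) (nat_lit 219) (nat_lit 5) (nat_lit 211) (nat_lit 5) (nat_lit 401) (nat_lit 379) (nat_lit 120)) (XT.lf (nat_lit 0) (nat_lit 6357443910) (nat_lit 608) (nat_lit 11335211512) (nat_lit 684) (nat_lit 42764600306) (nat_lit 202) (nat_lit 5) (nat_lit 210) (nat_lit 5) (nat_lit 211) (nat_lit 5) (nat_lit 402) (nat_lit 379) (nat_lit 119))) (XT.nd (nat_lit 78) (nat_lit 532) (nat_lit 0) (XT.lf (nat_lit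 0) (nat_lit 24236134739) (nat_lit 684) (nat_lit 22748670062) (nat_lit 76) (nat_lit 14490479589) (nat_lit 202) (nat_lit 5) (nat_lit 211) (nat_lit 5) (nat_lit 203) (nat_lit 5) (nat_lit 403) (nat_lit 379) (nat_lit 118)) (XT.lf (nat_lit 0) (nat_lit 9617667090) (nat_lit 532) (nat_lit 21562160385) (nat_lit 608) (nat_lit 31337909524) (nat_lit 195) (nat_lit 5) (nat_lit 202) (nat_lit 5) (nat_lit 203) (nat_lit 5) (nat_lit 404) (nat_lit 379) (nat_lit 117)))))) (XT.nd (nat_lit 546) (nat_lit 1824) (nat_lit 0) (XT.nd (nat_lit 234) (nat_lit 1064) (nat_lit 0) (XT.nd (nat_lit 78) (nat_lit 532) (nat_lit 0) (XT.lf (nat_lit 0) (nat_lit 38607506200) (nat_lit 608) (nat_lit 20210766521) (nat_lit 76) (nat_lit 4764920562) (nat_lit 195) (nat_lit 5) (nat_lit 203) (nat_lit 5) (nat_lit 196) (nat_lit 5) (nat_lit 405) (nat_lit 379) (nat_lit 116)) (XT.nd (nat_lit 78) (nat_lit 0) (nat_lit 0) (XT.lf (nat_lit 0) (nat_lit 13508553520) (nat_lit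 532) (nat_lit 33092066169) (nat_lit 608) (nat_lit 18069715774) (nat_lit 188) (nat_lit 5) (nat_lit 195) (nat_lit 5) (nat_lit 196) (nat_lit 5) (nat_lit 406) (nat_lit 379) (nat_lit 115)) (XT.lf (nat_lit 0) (nat_lit 48652985426) (nat_lit 532) (nat_lit 6383909471) (nat_lit 608) (nat_lit 10747096292) (nat_lit 188) (nat_lit 5) (nat_lit 195) (nat_lit 5) (nat_lit 196) (nat_lit 5) (nat_lit 407) (nat_lit 379) (nat_lit 114)))) (XT.nd (nat_lit 156) (nat_lit 532) (nat_lit 0) (XT.nd (nat_lit 78) (nat_lit 76) (nat_lit 0) (XT.lf (nat_lit 0) (nat_lit 18069455594) (nat_lit 456) (nat_lit 46032868328) (nat_lit 532) (nat_lit 2817451018) (nat_lit 182) (nat_lit 5) (nat_lit 188) (nat_lit 5) (nat_lit 189) (nat_lit 5) (nat_lit 408) (nat_lit 379) (nat_lit 113)) (XT.lf (nat_lit 0) (nat_lit 5482899305) (nat_lit 532) (nat_lit 13524464687) (nat_lit 76) (nat_lit 49073609214) (nat_lit 181) (nat_lit 5) (nat_lit 188) (nat_lit 5) (nat_lit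 182) (nat_lit 5) (nat_lit 409) (nat_lit 379) (nat_lit 112))) (XT.nd (nat_lit 78) (nat_lit 0) (nat_lit 0) (XT.lf (nat_lit 0) (nat_lit 14286166954) (nat_lit 608) (nat_lit 46069905462) (nat_lit 76) (nat_lit 8910782387) (nat_lit 174) (nat_lit 5) (nat_lit 182) (nat_lit 5) (nat_lit 175) (nat_lit 5) (nat_lit 410) (nat_lit 379) (nat_lit 111)) (XT.lf (nat_lit 0) (nat_lit 23678984760) (nat_lit 608) (nat_lit 9377278736) (nat_lit 76) (nat_lit 37422286073) (nat_lit 174) (nat_lit 5) (nat_lit 182) (nat_lit 5) (nat_lit 175) (nat_lit 5) (nat_lit 411) (nat_lit 379) (nat_lit 110))))) (XT.nd (nat_lit 234) (nat_lit 912) (nat_lit 0) (XT.nd (nat_lit 78) (nat_lit 456) (nat_lit 0) (XT.lf (nat_lit 0) (nat_lit 28980907756) (nat_lit 456) (nat_lit 4650618497) (nat_lit 532) (nat_lit 38086731027) (nat_lit 168) (nat_lit 5) (nat_lit 174) (nat_lit 5) (nat_lit 175) (nat_lit 5) (nat_lit 412) (nat_lit 379) (nat_lit 109)) (XT.nd (nat_lit 78)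 (nat_lit 456) (nat_lit 0) (XT.lf (nat_lit 0) (nat_lit 44214180718) (nat_lit 532) (nat_lit 4548479452) (nat_lit 76) (nat_lit 24222550218) (nat_lit 168) (nat_lit 5) (nat_lit 175) (nat_lit 5) (nat_lit 169) (nat_lit 5) (nat_lit 413) (nat_lit 379) (nat_lit 108)) (XT.lf (nat_lit 0) (nat_lit 35430660808) (nat_lit 456) (nat_lit 20069666974) (nat_lit 532) (nat_lit 18778264181) (nat_lit 162) (nat_lit 5) (nat_lit 168) (nat_lit 5) (nat_lit 169) (nat_lit 5) (nat_lit 414) (nat_lit 379) (nat_lit 107)))) (XT.nd (nat_lit 156) (nat_lit 456) (nat_lit 0) (XT.nd (nat_lit 78) (nat_lit 76) (nat_lit 0) (XT.lf (nat_lit 0) (nat_lit 1020570680) (nat_lit 380) (nat_lit 66251247369) (nat_lit 456) (nat_lit 8334554425) (nat_lit 157) (nat_lit 5) (nat_lit 162) (nat_lit 5) (nat_lit 163) (nat_lit 5) (nat_lit 415) (nat_lit 379) (nat_lit 106)) (XT.lf (nat_lit 0) (nat_lit 2969477387) (nat_lit 456) (nat_lit 34307370481) (nat_lit 76) (nat_lit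 39678611731) (nat_lit 156) (nat_lit 5) (nat_lit 162) (nat_lit 5) (nat_lit 157) (nat_lit 5) (nat_lit 416) (nat_lit 379) (nat_lit 105))) (XT.nd (nat_lit 78) (nat_lit 0) (nat_lit 0) (XT.lf (nat_lit 0) (nat_lit 7237397882) (nat_lit 456) (nat_lit 7276704011) (nat_lit 532) (nat_lit 63826372423) (nat_lit 150) (nat_lit 5) (nat_lit 156) (nat_lit 5) (nat_lit 157) (nat_lit 5) (nat_lit 417) (nat_lit 379) (nat_lit 104)) (XT.lf (nat_lit 0) (nat_lit 26981441803) (nat_lit 532) (nat_lit 29256114838) (nat_lit 76) (nat_lit 23512191760) (nat_lit 150) (nat_lit 5) (nat_lit 157) (nat_lit 5) (nat_lit 151) (nat_lit 5) (nat_lit 418) (nat_lit 379) (nat_lit 103))))))) (XT.nd (nat_lit 44772) (nat_lit 0) (nat_lit 3800) (XT.nd (nat_lit 44226) (nat_lit 0) (nat_lit 6992) (XT.nd (nat_lit 43992) (nat_lit 0) (nat_lit 6916) (XT.nd (nat_lit 43836) (nat_lit 0) (nat_lit 6840) (XT.lf (nat_lit 0) (nat_lit 14047617812) (nat_lit 380) (nat_lit 25981708101)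 (nat_lit 456) (nat_lit 41165779294) (nat_lit 145) (nat_lit 5) (nat_lit 150) (nat_lit 5) (nat_lit 151) (nat_lit 5) (nat_lit 419) (nat_lit 379) (nat_lit 102)) (XT.nd (nat_lit 78) (nat_lit 0) (nat_lit 0) (XT.lf (nat_lit 0) (nat_lit 2607328002) (nat_lit 1292) (nat_lit 9536778659) (nat_lit 1292) (nat_lit 9536778659) (nat_lit 235) (nat_lit 3) (nat_lit 252) (nat_lit 3) (nat_lit 252) (nat_lit 5) (nat_lit 380) (nat_lit 380) (nat_lit 140)) (XT.lf (nat_lit 76) (nat_lit 1684753018) (nat_lit 0) (nat_lit 3658525489) (nat_lit 1292) (nat_lit 38667388890) (nat_lit 236) (nat_lit 5) (nat_lit 235) (nat_lit 3) (nat_lit 252) (nat_lit 5) (nat_lit 381) (nat_lit 380) (nat_lit 139)))) (XT.nd (nat_lit 78) (nat_lit 0) (nat_lit 0) (XT.lf (nat_lit 0) (nat_lit 5838022924) (nat_lit 1216) (nat_lit 21388193009) (nat_lit 1292) (nat_lit 17441947914) (nat_lit 236) (nat_lit 5) (nat_lit 252) (nat_lit 5) (nat_lit 253) (nat_lit 5) (nat_lit 382)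 (nat_lit 380) (nat_lit 138)) (XT.nd (nat_lit 78) (nat_lit 0) (nat_lit 76) (XT.lf (nat_lit 76) (nat_lit 143510512) (nat_lit 0) (nat_lit 6240404975) (nat_lit 1292) (nat_lit 38960381201) (nat_lit 237) (nat_lit 5) (nat_lit 236) (nat_lit 5) (nat_lit 253) (nat_lit 5) (nat_lit 383) (nat_lit 380) (nat_lit 137)) (XT.lf (nat_lit 0) (nat_lit 7310835137) (nat_lit 1216) (nat_lit 23425327768) (nat_lit 1292) (nat_lit 15293611753) (nat_lit 237) (nat_lit 5) (nat_lit 253) (nat_lit 5) (nat_lit 254) (nat_lit 5) (nat_lit 384) (nat_lit 380) (nat_lit 136))))) (XT.nd (nat_lit 234) (nat_lit 0) (nat_lit 152) (XT.nd (nat_lit 78) (nat_lit 0) (nat_lit 76) (XT.lf (nat_lit 0) (nat_lit 8326124658) (nat_lit 1216) (nat_lit 1059133176) (nat_lit 1292) (nat_lit 37348742897) (nat_lit 237) (nat_lit 5) (nat_lit 253) (nat_lit 5) (nat_lit 254) (nat_lit 5) (nat_lit 385) (nat_lit 380) (nat_lit 135)) (XT.nd (nat_lit 78) (nat_lit 0) (nat_lit 0) (XT.lf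 (nat_lit 0) (nat_lit 9709464671) (nat_lit 1216) (nat_lit 25161522626) (nat_lit 1292) (nat_lit 12578239149) (nat_lit 238) (nat_lit 5) (nat_lit 254) (nat_lit 5) (nat_lit 255) (nat_lit 5) (nat_lit 386) (nat_lit 380) (nat_lit 134)) (XT.lf (nat_lit 0) (nat_lit 11236873096) (nat_lit 1216) (nat_lit 1922712644) (nat_lit 1292) (nat_lit 35023246744) (nat_lit 238) (nat_lit 5) (nat_lit 254) (nat_lit 5) (nat_lit 255) (nat_lit 5) (nat_lit 387) (nat_lit 380) (nat_lit 133)))) (XT.nd (nat_lit 156) (nat_lit 0) (nat_lit 76) (XT.nd (nat_lit 78) (nat_lit 0) (nat_lit 0) (XT.lf (nat_lit 0) (nat_lit 13115397257) (nat_lit 1216) (nat_lit 26571989924) (nat_lit 1292) (nat_lit 9241901296) (nat_lit 239) (nat_lit 5) (nat_lit 255) (nat_lit 5) (nat_lit 256) (nat_lit 5) (nat_lit 388) (nat_lit 380) (nat_lit 132)) (XT.lf (nat_lit 0) (nat_lit 15199084744) (nat_lit 1216) (nat_lit 2423677456) (nat_lit 1292) (nat_lit 32070912285) (nat_lit 239)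 (nat_lit 5) (nat_lit 255) (nat_lit 5) (nat_lit 256) (nat_lit 5) (nat_lit 389) (nat_lit 380) (nat_lit 131))) (XT.nd (nat_lit 78) (nat_lit 0) (nat_lit 0) (XT.lf (nat_lit 0) (nat_lit 17615546327) (nat_lit 1216) (nat_lit 27630552790) (nat_lit 1292) (nat_lit 5226785598) (nat_lit 240) (nat_lit 5) (nat_lit 256) (nat_lit 5) (nat_lit 257) (nat_lit 5) (nat_lit 390) (nat_lit 380) (nat_lit 130)) (XT.lf (nat_lit 0) (nat_lit 20302666745) (nat_lit 1216) (nat_lit 2534223173) (nat_lit 1292) (nat_lit 28432636915) (nat_lit 240) (nat_lit 5) (nat_lit 256) (nat_lit 5) (nat_lit 257) (nat_lit 5) (nat_lit 391) (nat_lit 380) (nat_lit 129)))))) (XT.nd (nat_lit 546) (nat_lit 2432) (nat_lit 0) (XT.nd (nat_lit 234) (nat_lit 1064) (nat_lit 0) (XT.nd (nat_lit 78) (nat_lit 0) (nat_lit 0) (XT.lf (nat_lit 0) (nat_lit 23302584290) (nat_lit 1216) (nat_lit 28309606176) (nat_lit 1292) (nat_lit 470912757) (nat_lit 241) (nat_lit 5) (nat_lit 257)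 (nat_lit 5) (nat_lit 258) (nat_lit 5) (nat_lit 392) (nat_lit 380) (nat_lit 128)) (XT.nd (nat_lit 78) (nat_lit 0) (nat_lit 0) (XT.lf (nat_lit 0) (nat_lit 26643471399) (nat_lit 1216) (nat_lit 2225050797) (nat_lit 1292) (nat_lit 24045036049) (nat_lit 241) (nat_lit 5) (nat_lit 257) (nat_lit 5) (nat_lit 258) (nat_lit 5) (nat_lit 393) (nat_lit 380) (nat_lit 127)) (XT.lf (nat_lit 76) (nat_lit 25131705332) (nat_lit 0) (nat_lit 5193509812) (nat_lit 1292) (nat_lit 23436493355) (nat_lit 242) (nat_lit 5) (nat_lit 241) (nat_lit 5) (nat_lit 258) (nat_lit 5) (nat_lit 394) (nat_lit 380) (nat_lit 126)))) (XT.nd (nat_lit 156) (nat_lit 1140) (nat_lit 0) (XT.nd (nat_lit 78) (nat_lit 0) (nat_lit 0) (XT.lf (nat_lit 0) (nat_lit 34323656337) (nat_lit 1216) (nat_lit 1465327956) (nat_lit 1292) (nat_lit 18840132088) (nat_lit 242) (nat_lit 5) (nat_lit 258) (nat_lit 5) (nat_lit 259) (nat_lit 5) (nat_lit 395) (nat_lit 380) (nat_lit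 125)) (XT.lf (nat_lit 76) (nat_lit 26988768167) (nat_lit 0) (nat_lit 11763234240) (nat_lit 1292) (nat_lit 16761245999) (nat_lit 243) (nat_lit 5) (nat_lit 242) (nat_lit 5) (nat_lit 259) (nat_lit 5) (nat_lit 396) (nat_lit 380) (nat_lit 124))) (XT.nd (nat_lit 78) (nat_lit 1216) (nat_lit 0) (XT.lf (nat_lit 0) (nat_lit 43452064358) (nat_lit 1216) (nat_lit 222652850) (nat_lit 76) (nat_lit 12745021663) (nat_lit 243) (nat_lit 5) (nat_lit 259) (nat_lit 5) (nat_lit 244) (nat_lit 5) (nat_lit 397) (nat_lit 380) (nat_lit 123)) (XT.lf (nat_lit 0) (nat_lit 29384412256) (nat_lit 1216) (nat_lit 19306788933) (nat_lit 1292) (nat_lit 8650281101) (nat_lit 227) (nat_lit 5) (nat_lit 243) (nat_lit 5) (nat_lit 244) (nat_lit 5) (nat_lit 398) (nat_lit 380) (nat_lit 122))))) (XT.nd (nat_lit 234) (nat_lit 1140) (nat_lit 0) (XT.nd (nat_lit 78) (nat_lit 684) (nat_lit 0) (XT.lf (nat_lit 0) (nat_lit 1567567225) (nat_lit 608) (nat_lit 52592125084)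 (nat_lit 684) (nat_lit 4129020716) (nat_lit 219) (nat_lit 5) (nat_lit 227) (nat_lit 5) (nat_lit 228) (nat_lit 5) (nat_lit 399) (nat_lit 380) (nat_lit 121)) (XT.nd (nat_lit 78) (nat_lit 608) (nat_lit 0) (XT.lf (nat_lit 0) (nat_lit 993011550) (nat_lit 684) (nat_lit 26904654725) (nat_lit 76) (nat_lit 31352279528) (nat_lit 218) (nat_lit 5) (nat_lit 227) (nat_lit 5) (nat_lit 219) (nat_lit 5) (nat_lit 400) (nat_lit 380) (nat_lit 120)) (XT.lf (nat_lit 0) (nat_lit 3839623357) (nat_lit 608) (nat_lit 2382196913) (nat_lit 684) (nat_lit 54015886094) (nat_lit 210) (nat_lit 5) (nat_lit 218) (nat_lit 5) (nat_lit 219) (nat_lit 5) (nat_lit 401) (nat_lit 380) (nat_lit 119)))) (XT.nd (nat_lit 156) (nat_lit 532) (nat_lit 0) (XT.nd (nat_lit 78) (nat_lit 608) (nat_lit 0) (XT.lf (nat_lit 0) (nat_lit 12110809327) (nat_lit 684) (nat_lit 25422387882) (nat_lit 76) (nat_lit 23706803422) (nat_lit 210) (nat_lit 5) (nat_lit 219) (nat_lit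 5) (nat_lit 211) (nat_lit 5) (nat_lit 402) (nat_lit 380) (nat_lit 118)) (XT.lf (nat_lit 0) (nat_lit 6586777848) (nat_lit 608) (nat_lit 11675827984) (nat_lit 684) (nat_lit 44007174121) (nat_lit 202) (nat_lit 5) (nat_lit 210) (nat_lit 5) (nat_lit 211) (nat_lit 5) (nat_lit 403) (nat_lit 380) (nat_lit 117))) (XT.nd (nat_lit 78) (nat_lit 532) (nat_lit 0) (XT.lf (nat_lit 0) (nat_lit 25001243405) (nat_lit 684) (nat_lit 23392480211) (nat_lit 76) (nat_lit 14924660776) (nat_lit 202) (nat_lit 5) (nat_lit 211) (nat_lit 5) (nat_lit 203) (nat_lit 5) (nat_lit 404) (nat_lit 380) (nat_lit 116)) (XT.lf (nat_lit 0) (nat_lit 9944468136) (nat_lit 532) (nat_lit 22208039159) (nat_lit 608) (nat_lit 32239625992) (nat_lit 195) (nat_lit 5) (nat_lit 202) (nat_lit 5) (nat_lit 203) (nat_lit 5) (nat_lit 405) (nat_lit 380) (nat_lit 115))))))))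
noncomputable def xc247 : XT := (XT.nd (nat_lit 45942) (nat_lit 0) (nat_lit 456) (XT.nd (nat_lit 1014) (nat_lit 0) (nat_lit 0) (XT.nd (nat_lit 468) (nat_lit 1824) (nat_lit 0) (XT.nd (nat_lit 234) (nat_lit 1064) (nat_lit 0) (XT.nd (nat_lit 78) (nat_lit 532) (nat_lit 0) (XT.lf (nat_lit 0) (nat_lit 39801939613) (nat_lit 608) (nat_lit 20778839637) (nat_lit 76) (nat_lit 4908806815) (nat_lit 195) (nat_lit 5) (nat_lit 203) (nat_lit 5) (nat_lit 196) (nat_lit 5) (nat_lit 406) (nat_lit 380) (nat_lit 114)) (XT.nd (nat_lit 78) (nat_lit 0) (nat_lit 0) (XT.lf (nat_lit 0) (nat_lit 13951685007) (nat_lit 532) (nat_lit 34082470967) (nat_lit 608) (nat_lit 18575207740) (nat_lit 188) (nat_lit 5) (nat_lit 195) (nat_lit 5) (nat_lit 196) (nat_lit 5) (nat_lit 407) (nat_lit 380) (nat_lit 113)) (XT.lf (nat_lit 0) (nat_lit 50149346718) (nat_lit 532) (nat_lit 6573138224) (nat_lit 608) (nat_lit 11033975679) (nat_lit 188) (nat_lit 5)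 (nat_lit 195) (nat_lit 5) (nat_lit 196) (nat_lit 5) (nat_lit 408) (nat_lit 380) (nat_lit 112)))) (XT.nd (nat_lit 78) (nat_lit 608) (nat_lit 0) (XT.lf (nat_lit 0) (nat_lit 18648968708) (nat_lit 456) (nat_lit 47410284918) (nat_lit 532) (nat_lit 2867083416) (nat_lit 182) (nat_lit 5) (nat_lit 188) (nat_lit 5) (nat_lit 189) (nat_lit 5) (nat_lit 409) (nat_lit 380) (nat_lit 111)) (XT.nd (nat_lit 78) (nat_lit 532) (nat_lit 0) (XT.lf (nat_lit 0) (nat_lit 5680600149) (nat_lit 532) (nat_lit 13893183873) (nat_lit 76) (nat_lit 50548607498) (nat_lit 181) (nat_lit 5) (nat_lit 188) (nat_lit 5) (nat_lit 182) (nat_lit 5) (nat_lit 410) (nat_lit 380) (nat_lit 110)) (XT.lf (nat_lit 0) (nat_lit 14747389714) (nat_lit 608) (nat_lit 47414397713) (nat_lit 76) (nat_lit 9182079842) (nat_lit 174) (nat_lit 5) (nat_lit 182) (nat_lit 5) (nat_lit 175) (nat_lit 5) (nat_lit 411) (nat_lit 380) (nat_lit 109))))) (XT.nd (nat_lit 234) (nat_lit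 1368) (nat_lit 0) (XT.nd (nat_lit 78) (nat_lit 456) (nat_lit 0) (XT.lf (nat_lit 0) (nat_lit 24421041441) (nat_lit 608) (nat_lit 9622087474) (nat_lit 76) (nat_lit 38548812891) (nat_lit 174) (nat_lit 5) (nat_lit 182) (nat_lit 5) (nat_lit 175) (nat_lit 5) (nat_lit 412) (nat_lit 380) (nat_lit 108)) (XT.nd (nat_lit 78) (nat_lit 0) (nat_lit 0) (XT.lf (nat_lit 0) (nat_lit 29886486675) (nat_lit 456) (nat_lit 4785097089) (nat_lit 532) (nat_lit 39197274644) (nat_lit 168) (nat_lit 5) (nat_lit 174) (nat_lit 5) (nat_lit 175) (nat_lit 5) (nat_lit 413) (nat_lit 380) (nat_lit 107)) (XT.lf (nat_lit 0) (nat_lit 45570858733) (nat_lit 532) (nat_lit 4648963128) (nat_lit 76) (nat_lit 24954024409) (nat_lit 168) (nat_lit 5) (nat_lit 175) (nat_lit 5) (nat_lit 169) (nat_lit 5) (nat_lit 414) (nat_lit 380) (nat_lit 106)))) (XT.nd (nat_lit 156) (nat_lit 532) (nat_lit 0) (XT.nd (nat_lit 78) (nat_lit 380) (nat_lit 0) (XT.lf (nat_lit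 0) (nat_lit 36529198686) (nat_lit 456) (nat_lit 20665852761) (nat_lit 532) (nat_lit 19310994381) (nat_lit 162) (nat_lit 5) (nat_lit 168) (nat_lit 5) (nat_lit 169) (nat_lit 5) (nat_lit 415) (nat_lit 380) (nat_lit 105)) (XT.lf (nat_lit 0) (nat_lit 1087295491) (nat_lit 380) (nat_lit 68231927672) (nat_lit 456) (nat_lit 8554450854) (nat_lit 157) (nat_lit 5) (nat_lit 162) (nat_lit 5) (nat_lit 163) (nat_lit 5) (nat_lit 416) (nat_lit 380) (nat_lit 104))) (XT.nd (nat_lit 78) (nat_lit 456) (nat_lit 0) (XT.lf (nat_lit 0) (nat_lit 3087253028) (nat_lit 456) (nat_lit 35300953152) (nat_lit 76) (nat_lit 40875045046) (nat_lit 156) (nat_lit 5) (nat_lit 162) (nat_lit 5) (nat_lit 157) (nat_lit 5) (nat_lit 417) (nat_lit 380) (nat_lit 103)) (XT.lf (nat_lit 0) (nat_lit 7489808865) (nat_lit 456) (nat_lit 7487910956) (nat_lit 532) (nat_lit 65712111792) (nat_lit 150) (nat_lit 5) (nat_lit 156) (nat_lit 5) (nat_lit 157) (nat_lit 5)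 (nat_lit 418) (nat_lit 380) (nat_lit 102)))))) (XT.nd (nat_lit 44382) (nat_lit 0) (nat_lit 6688) (XT.nd (nat_lit 44070) (nat_lit 0) (nat_lit 6536) (XT.nd (nat_lit 43914) (nat_lit 0) (nat_lit 6460) (XT.lf (nat_lit 0) (nat_lit 27818324925) (nat_lit 532) (nat_lit 30098771306) (nat_lit 76) (nat_lit 24224310661) (nat_lit 150) (nat_lit 5) (nat_lit 157) (nat_lit 5) (nat_lit 151) (nat_lit 5) (nat_lit 419) (nat_lit 380) (nat_lit 101)) (XT.nd (nat_lit 78) (nat_lit 0) (nat_lit 0) (XT.lf (nat_lit 0) (nat_lit 2719426801) (nat_lit 1292) (nat_lit 9805425577) (nat_lit 1292) (nat_lit 9805425577) (nat_lit 235) (nat_lit 3) (nat_lit 252) (nat_lit 3) (nat_lit 252) (nat_lit 5) (nat_lit 381) (nat_lit 381) (nat_lit 138)) (XT.lf (nat_lit 76) (nat_lit 1769866209) (nat_lit 0) (nat_lit 3799827352) (nat_lit 1292) (nat_lit 39759276267) (nat_lit 236) (nat_lit 5) (nat_lit 235) (nat_lit 3) (nat_lit 252) (nat_lit 5) (nat_lit 382) (nat_lit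 381) (nat_lit 137)))) (XT.nd (nat_lit 156) (nat_lit 0) (nat_lit 76) (XT.nd (nat_lit 78) (nat_lit 0) (nat_lit 0) (XT.lf (nat_lit 0) (nat_lit 6077060174) (nat_lit 1216) (nat_lit 21994021876) (nat_lit 1292) (nat_lit 17935176719) (nat_lit 236) (nat_lit 5) (nat_lit 252) (nat_lit 5) (nat_lit 253) (nat_lit 5) (nat_lit 383) (nat_lit 381) (nat_lit 136)) (XT.lf (nat_lit 76) (nat_lit 183281605) (nat_lit 0) (nat_lit 6454527763) (nat_lit 1292) (nat_lit 40064912796) (nat_lit 237) (nat_lit 5) (nat_lit 236) (nat_lit 5) (nat_lit 253) (nat_lit 5) (nat_lit 384) (nat_lit 381) (nat_lit 135))) (XT.nd (nat_lit 78) (nat_lit 0) (nat_lit 0) (XT.lf (nat_lit 0) (nat_lit 7590468671) (nat_lit 1216) (nat_lit 24091555674) (nat_lit 1292) (nat_lit 15726803101) (nat_lit 237) (nat_lit 5) (nat_lit 253) (nat_lit 5) (nat_lit 254) (nat_lit 5) (nat_lit 385) (nat_lit 381) (nat_lit 134)) (XT.lf (nat_lit 0) (nat_lit 8634460320) (nat_lit 1216) (nat_lit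 1055439282) (nat_lit 1292) (nat_lit 38444334305) (nat_lit 237) (nat_lit 5) (nat_lit 253) (nat_lit 5) (nat_lit 254) (nat_lit 5) (nat_lit 386) (nat_lit 381) (nat_lit 133))))) (XT.nd (nat_lit 234) (nat_lit 0) (nat_lit 76) (XT.nd (nat_lit 78) (nat_lit 0) (nat_lit 0) (XT.lf (nat_lit 0) (nat_lit 10057720642) (nat_lit 1216) (nat_lit 25879291117) (nat_lit 1292) (nat_lit 12933952913) (nat_lit 238) (nat_lit 5) (nat_lit 254) (nat_lit 5) (nat_lit 255) (nat_lit 5) (nat_lit 387) (nat_lit 381) (nat_lit 132)) (XT.nd (nat_lit 78) (nat_lit 0) (nat_lit 76) (XT.lf (nat_lit 0) (nat_lit 11629291940) (nat_lit 1216) (nat_lit 1944396754) (nat_lit 1292) (nat_lit 36052940835) (nat_lit 238) (nat_lit 5) (nat_lit 254) (nat_lit 5) (nat_lit 255) (nat_lit 5) (nat_lit 388) (nat_lit 381) (nat_lit 131)) (XT.lf (nat_lit 0) (nat_lit 13562726542) (nat_lit 1216) (nat_lit 27331679350) (nat_lit 1292) (nat_lit 9501117500) (nat_lit 239) (nat_lit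 5) (nat_lit 255) (nat_lit 5) (nat_lit 256) (nat_lit 5) (nat_lit 389) (nat_lit 381) (nat_lit 130)))) (XT.nd (nat_lit 156) (nat_lit 0) (nat_lit 76) (XT.nd (nat_lit 78) (nat_lit 0) (nat_lit 76) (XT.lf (nat_lit 0) (nat_lit 15707355701) (nat_lit 1216) (nat_lit 2460008876) (nat_lit 1292) (nat_lit 33015524279) (nat_lit 239) (nat_lit 5) (nat_lit 255) (nat_lit 5) (nat_lit 256) (nat_lit 5) (nat_lit 390) (nat_lit 381) (nat_lit 129)) (XT.lf (nat_lit 0) (nat_lit 18194989002) (nat_lit 1216) (nat_lit 28421742213) (nat_lit 1292) (nat_lit 5368784625) (nat_lit 240) (nat_lit 5) (nat_lit 256) (nat_lit 5) (nat_lit 257) (nat_lit 5) (nat_lit 391) (nat_lit 381) (nat_lit 128))) (XT.nd (nat_lit 78) (nat_lit 0) (nat_lit 76) (XT.lf (nat_lit 0) (nat_lit 20961238287) (nat_lit 1216) (nat_lit 2573621557) (nat_lit 1292) (nat_lit 29271242682) (nat_lit 240) (nat_lit 5) (nat_lit 256) (nat_lit 5) (nat_lit 257) (nat_lit 5) (nat_lit 392) (nat_lit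 381) (nat_lit 127)) (XT.lf (nat_lit 0) (nat_lit 24049943903) (nat_lit 1216) (nat_lit 29121031968) (nat_lit 1292) (nat_lit 473147360) (nat_lit 241) (nat_lit 5) (nat_lit 257) (nat_lit 5) (nat_lit 258) (nat_lit 5) (nat_lit 393) (nat_lit 381) (nat_lit 126))))))) (XT.nd (nat_lit 1014) (nat_lit 2964) (nat_lit 0) (XT.nd (nat_lit 468) (nat_lit 2432) (nat_lit 0) (XT.nd (nat_lit 234) (nat_lit 1064) (nat_lit 0) (XT.nd (nat_lit 78) (nat_lit 0) (nat_lit 0) (XT.lf (nat_lit 0) (nat_lit 27489651351) (nat_lit 1216) (nat_lit 2255042715) (nat_lit 1292) (nat_lit 24754840742) (nat_lit 241) (nat_lit 5) (nat_lit 257) (nat_lit 5) (nat_lit 258) (nat_lit 5) (nat_lit 394) (nat_lit 381) (nat_lit 125)) (XT.nd (nat_lit 78) (nat_lit 0) (nat_lit 76) (XT.lf (nat_lit 76) (nat_lit 25922055710) (nat_lit 0) (nat_lit 5358776276) (nat_lit 1292) (nat_lit 24092328744) (nat_lit 242) (nat_lit 5) (nat_lit 241) (nat_lit 5) (nat_lit 258) (nat_lit 5)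 (nat_lit 395) (nat_lit 381) (nat_lit 124)) (XT.lf (nat_lit 0) (nat_lit 35397802376) (nat_lit 1216) (nat_lit 1472502175) (nat_lit 1292) (nat_lit 19396329693) (nat_lit 242) (nat_lit 5) (nat_lit 258) (nat_lit 5) (nat_lit 259) (nat_lit 5) (nat_lit 396) (nat_lit 381) (nat_lit 123)))) (XT.nd (nat_lit 78) (nat_lit 1140) (nat_lit 0) (XT.lf (nat_lit 76) (nat_lit 27834856189) (nat_lit 0) (nat_lit 12123198517) (nat_lit 1292) (nat_lit 17219264505) (nat_lit 243) (nat_lit 5) (nat_lit 242) (nat_lit 5) (nat_lit 259) (nat_lit 5) (nat_lit 397) (nat_lit 381) (nat_lit 122)) (XT.nd (nat_lit 78) (nat_lit 1216) (nat_lit 0) (XT.lf (nat_lit 0) (nat_lit 44797785795) (nat_lit 1216) (nat_lit 192614417) (nat_lit 76) (nat_lit 13120644796) (nat_lit 243) (nat_lit 5) (nat_lit 259) (nat_lit 5) (nat_lit 244) (nat_lit 5) (nat_lit 398) (nat_lit 381) (nat_lit 121)) (XT.lf (nat_lit 0) (nat_lit 30302302662) (nat_lit 1216) (nat_lit 19890915618)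 (nat_lit 1292) (nat_lit 8867249422) (nat_lit 227) (nat_lit 5) (nat_lit 243) (nat_lit 5) (nat_lit 244) (nat_lit 5) (nat_lit 399) (nat_lit 381) (nat_lit 120))))) (XT.nd (nat_lit 234) (nat_lit 1140) (nat_lit 0) (XT.nd (nat_lit 78) (nat_lit 684) (nat_lit 0) (XT.lf (nat_lit 0) (nat_lit 1651889401) (nat_lit 608) (nat_lit 54172984931) (nat_lit 684) (nat_lit 4211268323) (nat_lit 219) (nat_lit 5) (nat_lit 227) (nat_lit 5) (nat_lit 228) (nat_lit 5) (nat_lit 400) (nat_lit 381) (nat_lit 119)) (XT.nd (nat_lit 78) (nat_lit 608) (nat_lit 0) (XT.lf (nat_lit 0) (nat_lit 1062424033) (nat_lit 684) (nat_lit 27674778042) (nat_lit 76) (nat_lit 32289034564) (nat_lit 218) (nat_lit 5) (nat_lit 227) (nat_lit 5) (nat_lit 219) (nat_lit 5) (nat_lit 401) (nat_lit 381) (nat_lit 118)) (XT.lf (nat_lit 0) (nat_lit 3991465477) (nat_lit 608) (nat_lit 2455829829) (nat_lit 684) (nat_lit 55596359311) (nat_lit 210) (nat_lit 5) (nat_lit 218) (nat_lit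 5) (nat_lit 219) (nat_lit 5) (nat_lit 402) (nat_lit 381) (nat_lit 117)))) (XT.nd (nat_lit 156) (nat_lit 532) (nat_lit 0) (XT.nd (nat_lit 78) (nat_lit 608) (nat_lit 0) (XT.lf (nat_lit 0) (nat_lit 12511803119) (nat_lit 684) (nat_lit 26148304967) (nat_lit 76) (nat_lit 24415944687) (nat_lit 210) (nat_lit 5) (nat_lit 219) (nat_lit 5) (nat_lit 211) (nat_lit 5) (nat_lit 403) (nat_lit 381) (nat_lit 116)) (XT.lf (nat_lit 0) (nat_lit 6820775396) (nat_lit 608) (nat_lit 12026630797) (nat_lit 684) (nat_lit 45289342221) (nat_lit 202) (nat_lit 5) (nat_lit 210) (nat_lit 5) (nat_lit 211) (nat_lit 5) (nat_lit 404) (nat_lit 381) (nat_lit 115))) (XT.nd (nat_lit 78) (nat_lit 532) (nat_lit 0) (XT.lf (nat_lit 0) (nat_lit 25787122562) (nat_lit 684) (nat_lit 24057823329) (nat_lit 76) (nat_lit 15371898007) (nat_lit 202) (nat_lit 5) (nat_lit 211) (nat_lit 5) (nat_lit 203) (nat_lit 5) (nat_lit 405) (nat_lit 381) (nat_lit 114)) (XT.lf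 (nat_lit 0) (nat_lit 10278876298) (nat_lit 532) (nat_lit 22873350899) (nat_lit 608) (nat_lit 33170599466) (nat_lit 195) (nat_lit 5) (nat_lit 202) (nat_lit 5) (nat_lit 203) (nat_lit 5) (nat_lit 406) (nat_lit 381) (nat_lit 113)))))) (XT.nd (nat_lit 546) (nat_lit 1368) (nat_lit 0) (XT.nd (nat_lit 234) (nat_lit 1064) (nat_lit 0) (XT.nd (nat_lit 78) (nat_lit 532) (nat_lit 0) (XT.lf (nat_lit 0) (nat_lit 41030127527) (nat_lit 608) (nat_lit 21366150645) (nat_lit 76) (nat_lit 5056955775) (nat_lit 195) (nat_lit 5) (nat_lit 203) (nat_lit 5) (nat_lit 196) (nat_lit 5) (nat_lit 407) (nat_lit 381) (nat_lit 112)) (XT.nd (nat_lit 78) (nat_lit 0) (nat_lit 0) (XT.lf (nat_lit 0) (nat_lit 14405936265) (nat_lit 532) (nat_lit 35102723222) (nat_lit 608) (nat_lit 19097965426) (nat_lit 188) (nat_lit 5) (nat_lit 195) (nat_lit 5) (nat_lit 196) (nat_lit 5) (nat_lit 408) (nat_lit 381) (nat_lit 111)) (XT.lf (nat_lit 0) (nat_lit 51688488002)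 (nat_lit 532) (nat_lit 6768175211) (nat_lit 608) (nat_lit 11331501216) (nat_lit 188) (nat_lit 5) (nat_lit 195) (nat_lit 5) (nat_lit 196) (nat_lit 5) (nat_lit 409) (nat_lit 381) (nat_lit 110)))) (XT.nd (nat_lit 156) (nat_lit 532) (nat_lit 0) (XT.nd (nat_lit 78) (nat_lit 76) (nat_lit 0) (XT.lf (nat_lit 0) (nat_lit 19243718611) (nat_lit 456) (nat_lit 48829228908) (nat_lit 532) (nat_lit 2920207679) (nat_lit 182) (nat_lit 5) (nat_lit 188) (nat_lit 5) (nat_lit 189) (nat_lit 5) (nat_lit 410) (nat_lit 381) (nat_lit 109)) (XT.lf (nat_lit 0) (nat_lit 5882325407) (nat_lit 532) (nat_lit 14275089433) (nat_lit 76) (nat_lit 52067695573) (nat_lit 181) (nat_lit 5) (nat_lit 188) (nat_lit 5) (nat_lit 182) (nat_lit 5) (nat_lit 411) (nat_lit 381) (nat_lit 108))) (XT.nd (nat_lit 78) (nat_lit 0) (nat_lit 0) (XT.lf (nat_lit 0) (nat_lit 15220575617) (nat_lit 608) (nat_lit 48801383408) (nat_lit 76) (nat_lit 9461288098) (nat_lit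 174) (nat_lit 5) (nat_lit 182) (nat_lit 5) (nat_lit 175) (nat_lit 5) (nat_lit 412) (nat_lit 381) (nat_lit 107)) (XT.lf (nat_lit 0) (nat_lit 25183540851) (nat_lit 608) (nat_lit 9876336277) (nat_lit 76) (nat_lit 39708914036) (nat_lit 174) (nat_lit 5) (nat_lit 182) (nat_lit 5) (nat_lit 175) (nat_lit 5) (nat_lit 413) (nat_lit 381) (nat_lit 106))))) (XT.nd (nat_lit 234) (nat_lit 456) (nat_lit 0) (XT.nd (nat_lit 78) (nat_lit 456) (nat_lit 0) (XT.lf (nat_lit 0) (nat_lit 30817157707) (nat_lit 456) (nat_lit 4923899354) (nat_lit 532) (nat_lit 40342974848) (nat_lit 168) (nat_lit 5) (nat_lit 174) (nat_lit 5) (nat_lit 175) (nat_lit 5) (nat_lit 414) (nat_lit 381) (nat_lit 105)) (XT.nd (nat_lit 78) (nat_lit 456) (nat_lit 0) (XT.lf (nat_lit 0) (nat_lit 46966500465) (nat_lit 532) (nat_lit 4754526180) (nat_lit 76) (nat_lit 25707167419) (nat_lit 168) (nat_lit 5) (nat_lit 175) (nat_lit 5) (nat_lit 169) (nat_lit 5) (nat_lit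 415) (nat_lit 381) (nat_lit 104)) (XT.lf (nat_lit 0) (nat_lit 37658648079) (nat_lit 456) (nat_lit 21280263049) (nat_lit 532) (nat_lit 19861464070) (nat_lit 162) (nat_lit 5) (nat_lit 168) (nat_lit 5) (nat_lit 169) (nat_lit 5) (nat_lit 416) (nat_lit 381) (nat_lit 103)))) (XT.nd (nat_lit 44148) (nat_lit 0) (nat_lit 6004) (XT.nd (nat_lit 78) (nat_lit 76) (nat_lit 0) (XT.lf (nat_lit 0) (nat_lit 1153949316) (nat_lit 380) (nat_lit 70272422010) (nat_lit 456) (nat_lit 8782674347) (nat_lit 157) (nat_lit 5) (nat_lit 162) (nat_lit 5) (nat_lit 163) (nat_lit 5) (nat_lit 417) (nat_lit 381) (nat_lit 102)) (XT.lf (nat_lit 0) (nat_lit 3206914940) (nat_lit 456) (nat_lit 36326389096) (nat_lit 76) (nat_lit 42107022634) (nat_lit 156) (nat_lit 5) (nat_lit 162) (nat_lit 5) (nat_lit 157) (nat_lit 5) (nat_lit 418) (nat_lit 381) (nat_lit 101))) (XT.nd (nat_lit 78) (nat_lit 0) (nat_lit 0) (XT.lf (nat_lit 0) (nat_lit 2832943773) (nat_lit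 1292) (nat_lit 10083133974) (nat_lit 1292) (nat_lit 10083133974) (nat_lit 235) (nat_lit 3) (nat_lit 252) (nat_lit 3) (nat_lit 252) (nat_lit 5) (nat_lit 382) (nat_lit 382) (nat_lit 136)) (XT.lf (nat_lit 76) (nat_lit 1855548302) (nat_lit 0) (nat_lit 3943557397) (nat_lit 1292) (nat_lit 40887831452) (nat_lit 236) (nat_lit 5) (nat_lit 235) (nat_lit 3) (nat_lit 252) (nat_lit 5) (nat_lit 383) (nat_lit 382) (nat_lit 135))))))))
noncomputable def xc248 : XT := (XT.nd (nat_lit 2028) (nat_lit 1976) (nat_lit 0) (XT.nd (nat_lit 1014) (nat_lit 3648) (nat_lit 0) (XT.nd (nat_lit 468) (nat_lit 0) (nat_lit 228) (XT.nd (nat_lit 234) (nat_lit 0) (nat_lit 76) (XT.nd (nat_lit 78) (nat_lit 0) (nat_lit 0) (XT.lf (nat_lit 0) (nat_lit 6319600618) (nat_lit 1216) (nat_lit 22620081646) (nat_lit 1292) (nat_lit 18444926212) (nat_lit 236) (nat_lit 5) (nat_lit 252) (nat_lit 5) (nat_lit 253) (nat_lit 5) (nat_lit 384) (nat_lit 382) (nat_lit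 134)) (XT.nd (nat_lit 78) (nat_lit 0) (nat_lit 76) (XT.lf (nat_lit 76) (nat_lit 222209950) (nat_lit 0) (nat_lit 6673529454) (nat_lit 1292) (nat_lit 41206270264) (nat_lit 237) (nat_lit 5) (nat_lit 236) (nat_lit 5) (nat_lit 253) (nat_lit 5) (nat_lit 385) (nat_lit 382) (nat_lit 133)) (XT.lf (nat_lit 0) (nat_lit 7875029258) (nat_lit 1216) (nat_lit 24779867500) (nat_lit 1292) (nat_lit 16174460710) (nat_lit 237) (nat_lit 5) (nat_lit 253) (nat_lit 5) (nat_lit 254) (nat_lit 5) (nat_lit 386) (nat_lit 382) (nat_lit 132)))) (XT.nd (nat_lit 78) (nat_lit 0) (nat_lit 76) (XT.lf (nat_lit 0) (nat_lit 8948684932) (nat_lit 1216) (nat_lit 1053670572) (nat_lit 1292) (nat_lit 39574221146) (nat_lit 237) (nat_lit 5) (nat_lit 253) (nat_lit 5) (nat_lit 254) (nat_lit 5) (nat_lit 387) (nat_lit 382) (nat_lit 131)) (XT.nd (nat_lit 78) (nat_lit 0) (nat_lit 0) (XT.lf (nat_lit 0) (nat_lit 10413153865) (nat_lit 1216) (nat_lit 26620721045)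 (nat_lit 1292) (nat_lit 13301579936) (nat_lit 238) (nat_lit 5) (nat_lit 254) (nat_lit 5) (nat_lit 255) (nat_lit 5) (nat_lit 388) (nat_lit 382) (nat_lit 130)) (XT.lf (nat_lit 0) (nat_lit 12030308177) (nat_lit 1216) (nat_lit 1968797777) (nat_lit 1292) (nat_lit 37114731425) (nat_lit 238) (nat_lit 5) (nat_lit 254) (nat_lit 5) (nat_lit 255) (nat_lit 5) (nat_lit 389) (nat_lit 382) (nat_lit 129))))) (XT.nd (nat_lit 234) (nat_lit 0) (nat_lit 76) (XT.nd (nat_lit 78) (nat_lit 0) (nat_lit 0) (XT.lf (nat_lit 0) (nat_lit 14020383499) (nat_lit 1216) (nat_lit 28116310406) (nat_lit 1292) (nat_lit 9769145807) (nat_lit 239) (nat_lit 5) (nat_lit 255) (nat_lit 5) (nat_lit 256) (nat_lit 5) (nat_lit 390) (nat_lit 382) (nat_lit 128)) (XT.nd (nat_lit 78) (nat_lit 0) (nat_lit 76) (XT.lf (nat_lit 0) (nat_lit 16227872644) (nat_lit 1216) (nat_lit 2499518536) (nat_lit 1292) (nat_lit 33989480088) (nat_lit 239) (nat_lit 5) (nat_lit 255)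 (nat_lit 5) (nat_lit 256) (nat_lit 5) (nat_lit 391) (nat_lit 382) (nat_lit 127)) (XT.lf (nat_lit 0) (nat_lit 18788888711) (nat_lit 1216) (nat_lit 29238833013) (nat_lit 1292) (nat_lit 5515893465) (nat_lit 240) (nat_lit 5) (nat_lit 256) (nat_lit 5) (nat_lit 257) (nat_lit 5) (nat_lit 392) (nat_lit 382) (nat_lit 126)))) (XT.nd (nat_lit 156) (nat_lit 0) (nat_lit 76) (XT.nd (nat_lit 78) (nat_lit 0) (nat_lit 76) (XT.lf (nat_lit 0) (nat_lit 21636725958) (nat_lit 1216) (nat_lit 2616304507) (nat_lit 1292) (nat_lit 30135831710) (nat_lit 240) (nat_lit 5) (nat_lit 256) (nat_lit 5) (nat_lit 257) (nat_lit 5) (nat_lit 393) (nat_lit 382) (nat_lit 125)) (XT.lf (nat_lit 0) (nat_lit 24816952715) (nat_lit 1216) (nat_lit 29958973990) (nat_lit 1292) (nat_lit 476131694) (nat_lit 241) (nat_lit 5) (nat_lit 257) (nat_lit 5) (nat_lit 258) (nat_lit 5) (nat_lit 394) (nat_lit 382) (nat_lit 124))) (XT.nd (nat_lit 78) (nat_lit 0) (nat_lit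 0) (XT.lf (nat_lit 0) (nat_lit 28358525838) (nat_lit 1216) (nat_lit 2288044543) (nat_lit 1292) (nat_lit 25486602385) (nat_lit 241) (nat_lit 5) (nat_lit 257) (nat_lit 5) (nat_lit 258) (nat_lit 5) (nat_lit 395) (nat_lit 382) (nat_lit 123)) (XT.lf (nat_lit 76) (nat_lit 26734027134) (nat_lit 0) (nat_lit 5528457624) (nat_lit 1292) (nat_lit 24770552078) (nat_lit 242) (nat_lit 5) (nat_lit 241) (nat_lit 5) (nat_lit 258) (nat_lit 5) (nat_lit 396) (nat_lit 382) (nat_lit 122)))))) (XT.nd (nat_lit 468) (nat_lit 2280) (nat_lit 0) (XT.nd (nat_lit 234) (nat_lit 1824) (nat_lit 0) (XT.nd (nat_lit 78) (nat_lit 0) (nat_lit 0) (XT.lf (nat_lit 0) (nat_lit 36501621969) (nat_lit 1216) (nat_lit 1482003265) (nat_lit 1292) (nat_lit 19969730228) (nat_lit 242) (nat_lit 5) (nat_lit 258) (nat_lit 5) (nat_lit 259) (nat_lit 5) (nat_lit 397) (nat_lit 382) (nat_lit 121)) (XT.nd (nat_lit 78) (nat_lit 0) (nat_lit 76) (XT.lf (nat_lit 76) (nat_lit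 28704235909) (nat_lit 0) (nat_lit 12493556033) (nat_lit 1292) (nat_lit 17693596353) (nat_lit 243) (nat_lit 5) (nat_lit 242) (nat_lit 5) (nat_lit 259) (nat_lit 5) (nat_lit 398) (nat_lit 382) (nat_lit 120)) (XT.lf (nat_lit 0) (nat_lit 46181458747) (nat_lit 1216) (nat_lit 163782595) (nat_lit 76) (nat_lit 13507922811) (nat_lit 243) (nat_lit 5) (nat_lit 259) (nat_lit 5) (nat_lit 244) (nat_lit 5) (nat_lit 399) (nat_lit 382) (nat_lit 119)))) (XT.nd (nat_lit 78) (nat_lit 684) (nat_lit 0) (XT.lf (nat_lit 0) (nat_lit 31245642680) (nat_lit 1216) (nat_lit 20492283502) (nat_lit 1292) (nat_lit 9093168770) (nat_lit 227) (nat_lit 5) (nat_lit 243) (nat_lit 5) (nat_lit 244) (nat_lit 5) (nat_lit 400) (nat_lit 382) (nat_lit 118)) (XT.nd (nat_lit 78) (nat_lit 76) (nat_lit 0) (XT.lf (nat_lit 0) (nat_lit 1736600347) (nat_lit 608) (nat_lit 55801092845) (nat_lit 684) (nat_lit 4298372688) (nat_lit 219) (nat_lit 5) (nat_lit 227)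 (nat_lit 5) (nat_lit 228) (nat_lit 5) (nat_lit 401) (nat_lit 382) (nat_lit 117)) (XT.lf (nat_lit 0) (nat_lit 1131644417) (nat_lit 684) (nat_lit 28470129947) (nat_lit 76) (nat_lit 33254111152) (nat_lit 218) (nat_lit 5) (nat_lit 227) (nat_lit 5) (nat_lit 219) (nat_lit 5) (nat_lit 402) (nat_lit 382) (nat_lit 116))))) (XT.nd (nat_lit 234) (nat_lit 1064) (nat_lit 0) (XT.nd (nat_lit 78) (nat_lit 608) (nat_lit 0) (XT.lf (nat_lit 0) (nat_lit 4145758805) (nat_lit 608) (nat_lit 2531547337) (nat_lit 684) (nat_lit 57226543080) (nat_lit 210) (nat_lit 5) (nat_lit 218) (nat_lit 5) (nat_lit 219) (nat_lit 5) (nat_lit 403) (nat_lit 382) (nat_lit 115)) (XT.nd (nat_lit 78) (nat_lit 608) (nat_lit 0) (XT.lf (nat_lit 0) (nat_lit 12922664341) (nat_lit 684) (nat_lit 26898109426) (nat_lit 76) (nat_lit 25146478606) (nat_lit 210) (nat_lit 5) (nat_lit 219) (nat_lit 5) (nat_lit 211) (nat_lit 5) (nat_lit 404) (nat_lit 382) (nat_lit 114))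 (XT.lf (nat_lit 0) (nat_lit 7059703694) (nat_lit 608) (nat_lit 12387927386) (nat_lit 684) (nat_lit 46612159424) (nat_lit 202) (nat_lit 5) (nat_lit 210) (nat_lit 5) (nat_lit 211) (nat_lit 5) (nat_lit 405) (nat_lit 382) (nat_lit 113)))) (XT.nd (nat_lit 156) (nat_lit 532) (nat_lit 0) (XT.nd (nat_lit 78) (nat_lit 532) (nat_lit 0) (XT.lf (nat_lit 0) (nat_lit 26594520625) (nat_lit 684) (nat_lit 24745218046) (nat_lit 76) (nat_lit 15832581205) (nat_lit 202) (nat_lit 5) (nat_lit 211) (nat_lit 5) (nat_lit 203) (nat_lit 5) (nat_lit 406) (nat_lit 382) (nat_lit 112)) (XT.lf (nat_lit 0) (nat_lit 10621245904) (nat_lit 532) (nat_lit 23558675345) (nat_lit 608) (nat_lit 34131581051) (nat_lit 195) (nat_lit 5) (nat_lit 202) (nat_lit 5) (nat_lit 203) (nat_lit 5) (nat_lit 407) (nat_lit 382) (nat_lit 111))) (XT.nd (nat_lit 78) (nat_lit 532) (nat_lit 0) (XT.lf (nat_lit 0) (nat_lit 42293201894) (nat_lit 608) (nat_lit 21973150641)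 (nat_lit 76) (nat_lit 5209498415) (nat_lit 195) (nat_lit 5) (nat_lit 203) (nat_lit 5) (nat_lit 196) (nat_lit 5) (nat_lit 408) (nat_lit 382) (nat_lit 110)) (XT.lf (nat_lit 0) (nat_lit 14871765695) (nat_lit 532) (nat_lit 36153710588) (nat_lit 608) (nat_lit 19638386201) (nat_lit 188) (nat_lit 5) (nat_lit 195) (nat_lit 5) (nat_lit 196) (nat_lit 5) (nat_lit 409) (nat_lit 382) (nat_lit 109))))))) (XT.nd (nat_lit 45162) (nat_lit 0) (nat_lit 4940) (XT.nd (nat_lit 468) (nat_lit 456) (nat_lit 0) (XT.nd (nat_lit 234) (nat_lit 988) (nat_lit 0) (XT.nd (nat_lit 78) (nat_lit 532) (nat_lit 0) (XT.lf (nat_lit 0) (nat_lit 53271813848) (nat_lit 532) (nat_lit 6969187137) (nat_lit 608) (nat_lit 11639875196) (nat_lit 188) (nat_lit 5) (nat_lit 195) (nat_lit 5) (nat_lit 196) (nat_lit 5) (nat_lit 410) (nat_lit 382) (nat_lit 108)) (XT.nd (nat_lit 78) (nat_lit 76) (nat_lit 0) (XT.lf (nat_lit 0) (nat_lit 19854285747) (nat_lit 456)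 (nat_lit 50290934358) (nat_lit 532) (nat_lit 2976813590) (nat_lit 182) (nat_lit 5) (nat_lit 188) (nat_lit 5) (nat_lit 189) (nat_lit 5) (nat_lit 411) (nat_lit 382) (nat_lit 107)) (XT.lf (nat_lit 0) (nat_lit 6088305259) (nat_lit 532) (nat_lit 14670454986) (nat_lit 76) (nat_lit 53632205325) (nat_lit 181) (nat_lit 5) (nat_lit 188) (nat_lit 5) (nat_lit 182) (nat_lit 5) (nat_lit 412) (nat_lit 382) (nat_lit 106)))) (XT.nd (nat_lit 78) (nat_lit 456) (nat_lit 0) (XT.lf (nat_lit 0) (nat_lit 15706191106) (nat_lit 608) (nat_lit 50232013433) (nat_lit 76) (nat_lit 9748657574) (nat_lit 174) (nat_lit 5) (nat_lit 182) (nat_lit 5) (nat_lit 175) (nat_lit 5) (nat_lit 413) (nat_lit 382) (nat_lit 105)) (XT.nd (nat_lit 78) (nat_lit 456) (nat_lit 0) (XT.lf (nat_lit 0) (nat_lit 25967200688) (nat_lit 608) (nat_lit 10140188037) (nat_lit 76) (nat_lit 40903609450) (nat_lit 174) (nat_lit 5) (nat_lit 182) (nat_lit 5) (nat_lit 175) (nat_lit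 5) (nat_lit 414) (nat_lit 382) (nat_lit 104)) (XT.lf (nat_lit 0) (nat_lit 31773792743) (nat_lit 456) (nat_lit 5067138393) (nat_lit 532) (nat_lit 41524780697) (nat_lit 168) (nat_lit 5) (nat_lit 174) (nat_lit 5) (nat_lit 175) (nat_lit 5) (nat_lit 415) (nat_lit 382) (nat_lit 103))))) (XT.nd (nat_lit 44382) (nat_lit 0) (nat_lit 5548) (XT.nd (nat_lit 78) (nat_lit 456) (nat_lit 0) (XT.lf (nat_lit 0) (nat_lit 48402374516) (nat_lit 532) (nat_lit 4865202458) (nat_lit 76) (nat_lit 26482645122) (nat_lit 168) (nat_lit 5) (nat_lit 175) (nat_lit 5) (nat_lit 169) (nat_lit 5) (nat_lit 416) (nat_lit 382) (nat_lit 102)) (XT.nd (nat_lit 44226) (nat_lit 0) (nat_lit 5548) (XT.lf (nat_lit 0) (nat_lit 38820053700) (nat_lit 456) (nat_lit 21913425116) (nat_lit 532) (nat_lit 20430104540) (nat_lit 162) (nat_lit 5) (nat_lit 168) (nat_lit 5) (nat_lit 169) (nat_lit 5) (nat_lit 417) (nat_lit 382) (nat_lit 101)) (XT.lf (nat_lit 0) (nat_lit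 2948033102) (nat_lit 1292) (nat_lit 10370118171) (nat_lit 1292) (nat_lit 10370118171) (nat_lit 235) (nat_lit 3) (nat_lit 252) (nat_lit 3) (nat_lit 252) (nat_lit 5) (nat_lit 383) (nat_lit 383) (nat_lit 134)))) (XT.nd (nat_lit 156) (nat_lit 0) (nat_lit 76) (XT.nd (nat_lit 78) (nat_lit 0) (nat_lit 76) (XT.lf (nat_lit 76) (nat_lit 1941930282) (nat_lit 0) (nat_lit 4089892419) (nat_lit 1292) (nat_lit 42053929961) (nat_lit 236) (nat_lit 5) (nat_lit 235) (nat_lit 3) (nat_lit 252) (nat_lit 5) (nat_lit 384) (nat_lit 383) (nat_lit 133)) (XT.lf (nat_lit 0) (nat_lit 6565959904) (nat_lit 1216) (nat_lit 23266861222) (nat_lit 1292) (nat_lit 18971593059) (nat_lit 236) (nat_lit 5) (nat_lit 252) (nat_lit 5) (nat_lit 253) (nat_lit 5) (nat_lit 385) (nat_lit 383) (nat_lit 132))) (XT.nd (nat_lit 78) (nat_lit 0) (nat_lit 76) (XT.lf (nat_lit 76) (nat_lit 260387132) (nat_lit 0) (nat_lit 6897645091) (nat_lit 1292) (nat_lit 42385346566)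 (nat_lit 237) (nat_lit 5) (nat_lit 236) (nat_lit 5) (nat_lit 253) (nat_lit 5) (nat_lit 386) (nat_lit 383) (nat_lit 131)) (XT.lf (nat_lit 0) (nat_lit 8164863439) (nat_lit 1216) (nat_lit 25490805381) (nat_lit 1292) (nat_lit 16636934154) (nat_lit 237) (nat_lit 5) (nat_lit 253) (nat_lit 5) (nat_lit 254) (nat_lit 5) (nat_lit 387) (nat_lit 383) (nat_lit 130)))))) (XT.nd (nat_lit 546) (nat_lit 760) (nat_lit 0) (XT.nd (nat_lit 234) (nat_lit 0) (nat_lit 152) (XT.nd (nat_lit 78) (nat_lit 0) (nat_lit 76) (XT.lf (nat_lit 0) (nat_lit 9269168105) (nat_lit 1216) (nat_lit 1053767928) (nat_lit 1292) (nat_lit 40739350327) (nat_lit 237) (nat_lit 5) (nat_lit 253) (nat_lit 5) (nat_lit 254) (nat_lit 5) (nat_lit 388) (nat_lit 383) (nat_lit 129)) (XT.nd (nat_lit 78) (nat_lit 0) (nat_lit 0) (XT.lf (nat_lit 0) (nat_lit 10776167392) (nat_lit 1216) (nat_lit 27386400076) (nat_lit 1292) (nat_lit 13681406330) (nat_lit 238) (nat_lit 5)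 (nat_lit 254) (nat_lit 5) (nat_lit 255) (nat_lit 5) (nat_lit 389) (nat_lit 383) (nat_lit 128)) (XT.lf (nat_lit 0) (nat_lit 12440361997) (nat_lit 1216) (nat_lit 1995878603) (nat_lit 1292) (nat_lit 38209512198) (nat_lit 238) (nat_lit 5) (nat_lit 254) (nat_lit 5) (nat_lit 255) (nat_lit 5) (nat_lit 390) (nat_lit 383) (nat_lit 127)))) (XT.nd (nat_lit 156) (nat_lit 0) (nat_lit 76) (XT.nd (nat_lit 78) (nat_lit 0) (nat_lit 0) (XT.lf (nat_lit 0) (nat_lit 14488855463) (nat_lit 1216) (nat_lit 28926507868) (nat_lit 1292) (nat_lit 10046191133) (nat_lit 239) (nat_lit 5) (nat_lit 255) (nat_lit 5) (nat_lit 256) (nat_lit 5) (nat_lit 391) (nat_lit 383) (nat_lit 126)) (XT.lf (nat_lit 0) (nat_lit 16761175288) (nat_lit 1216) (nat_lit 2542181907) (nat_lit 1292) (nat_lit 34993602307) (nat_lit 239) (nat_lit 5) (nat_lit 255) (nat_lit 5) (nat_lit 256) (nat_lit 5) (nat_lit 392) (nat_lit 383) (nat_lit 125))) (XT.nd (nat_lit 78) (nat_lit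 0) (nat_lit 0) (XT.lf (nat_lit 0) (nat_lit 19397847142) (nat_lit 1216) (nat_lit 30082477909) (nat_lit 1292) (nat_lit 5668216626) (nat_lit 240) (nat_lit 5) (nat_lit 256) (nat_lit 5) (nat_lit 257) (nat_lit 5) (nat_lit 393) (nat_lit 383) (nat_lit 124)) (XT.lf (nat_lit 0) (nat_lit 22329800329) (nat_lit 1216) (nat_lit 2662249862) (nat_lit 1292) (nat_lit 31027136135) (nat_lit 240) (nat_lit 5) (nat_lit 256) (nat_lit 5) (nat_lit 257) (nat_lit 5) (nat_lit 394) (nat_lit 383) (nat_lit 123))))) (XT.nd (nat_lit 234) (nat_lit 1064) (nat_lit 0) (XT.nd (nat_lit 78) (nat_lit 0) (nat_lit 0) (XT.lf (nat_lit 0) (nat_lit 25604359303) (nat_lit 1216) (nat_lit 30824102963) (nat_lit 1292) (nat_lit 479849064) (nat_lit 241) (nat_lit 5) (nat_lit 257) (nat_lit 5) (nat_lit 258) (nat_lit 5) (nat_lit 395) (nat_lit 383) (nat_lit 122)) (XT.nd (nat_lit 78) (nat_lit 0) (nat_lit 0) (XT.lf (nat_lit 0) (nat_lit 29250930163) (nat_lit 1216) (nat_lit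 2324025446) (nat_lit 1292) (nat_lit 26240941640) (nat_lit 241) (nat_lit 5) (nat_lit 257) (nat_lit 5) (nat_lit 258) (nat_lit 5) (nat_lit 396) (nat_lit 383) (nat_lit 121)) (XT.lf (nat_lit 76) (nat_lit 27568388181) (nat_lit 0) (nat_lit 5702717479) (nat_lit 1292) (nat_lit 25471679265) (nat_lit 242) (nat_lit 5) (nat_lit 241) (nat_lit 5) (nat_lit 258) (nat_lit 5) (nat_lit 397) (nat_lit 383) (nat_lit 120)))) (XT.nd (nat_lit 156) (nat_lit 1140) (nat_lit 0) (XT.nd (nat_lit 78) (nat_lit 0) (nat_lit 0) (XT.lf (nat_lit 0) (nat_lit 37636151749) (nat_lit 1216) (nat_lit 1493779816) (nat_lit 1292) (nat_lit 20560820103) (nat_lit 242) (nat_lit 5) (nat_lit 258) (nat_lit 5) (nat_lit 259) (nat_lit 5) (nat_lit 398) (nat_lit 383) (nat_lit 119)) (XT.lf (nat_lit 76) (nat_lit 29597726106) (nat_lit 0) (nat_lit 12874641873) (nat_lit 1292) (nat_lit 18184583254) (nat_lit 243) (nat_lit 5) (nat_lit 242) (nat_lit 5) (nat_lit 259) (nat_lit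 5) (nat_lit 399) (nat_lit 383) (nat_lit 118))) (XT.nd (nat_lit 78) (nat_lit 1216) (nat_lit 0) (XT.lf (nat_lit 0) (nat_lit 47604360685) (nat_lit 1216) (nat_lit 136072589) (nat_lit 76) (nat_lit 13907183184) (nat_lit 243) (nat_lit 5) (nat_lit 259) (nat_lit 5) (nat_lit 244) (nat_lit 5) (nat_lit 400) (nat_lit 383) (nat_lit 117)) (XT.lf (nat_lit 0) (nat_lit 32215315607) (nat_lit 1216) (nat_lit 21111426044) (nat_lit 1292) (nat_lit 9328167494) (nat_lit 227) (nat_lit 5) (nat_lit 243) (nat_lit 5) (nat_lit 244) (nat_lit 5) (nat_lit 401) (nat_lit 383) (nat_lit 116))))))))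
noncomputable def xc249 : XT := (XT.nd (nat_lit 46332) (nat_lit 0) (nat_lit 456) (XT.nd (nat_lit 1014) (nat_lit 456) (nat_lit 0) (XT.nd (nat_lit 468) (nat_lit 2128) (nat_lit 0) (XT.nd (nat_lit 234) (nat_lit 608) (nat_lit 0) (XT.nd (nat_lit 78) (nat_lit 684) (nat_lit 0) (XT.lf (nat_lit 0) (nat_lit 1821834623) (nat_lit 608) (nat_lit 57477876471) (nat_lit 684) (nat_lit 4390342359) (nat_lit 219) (nat_lit 5) (nat_lit 227) (nat_lit 5) (nat_lit 228) (nat_lit 5) (nat_lit 402) (nat_lit 383) (nat_lit 115)) (XT.nd (nat_lit 78) (nat_lit 608) (nat_lit 0) (XT.lf (nat_lit 0) (nat_lit 1200797505) (nat_lit 684) (nat_lit 29291345320) (nat_lit 76) (nat_lit 34248346375) (nat_lit 218) (nat_lit 5) (nat_lit 227) (nat_lit 5) (nat_lit 219) (nat_lit 5) (nat_lit 403) (nat_lit 383) (nat_lit 114)) (XT.lf (nat_lit 0) (nat_lit 4302697658) (nat_lit 608) (nat_lit 2609419117) (nat_lit 684) (nat_lit 58907796900) (nat_lit 210) (nat_lit 5)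 (nat_lit 218) (nat_lit 5) (nat_lit 219) (nat_lit 5) (nat_lit 404) (nat_lit 383) (nat_lit 113)))) (XT.nd (nat_lit 78) (nat_lit 608) (nat_lit 0) (XT.lf (nat_lit 0) (nat_lit 13343813145) (nat_lit 684) (nat_lit 27672396766) (nat_lit 76) (nat_lit 25899040159) (nat_lit 210) (nat_lit 5) (nat_lit 219) (nat_lit 5) (nat_lit 211) (nat_lit 5) (nat_lit 405) (nat_lit 383) (nat_lit 112)) (XT.nd (nat_lit 78) (nat_lit 0) (nat_lit 0) (XT.lf (nat_lit 0) (nat_lit 7303830592) (nat_lit 608) (nat_lit 12760034304) (nat_lit 684) (nat_lit 47976719829) (nat_lit 202) (nat_lit 5) (nat_lit 210) (nat_lit 5) (nat_lit 211) (nat_lit 5) (nat_lit 406) (nat_lit 383) (nat_lit 111)) (XT.lf (nat_lit 0) (nat_lit 27424201267) (nat_lit 684) (nat_lit 25455205860) (nat_lit 76) (nat_lit 16307112095) (nat_lit 202) (nat_lit 5) (nat_lit 211) (nat_lit 5) (nat_lit 203) (nat_lit 5) (nat_lit 407) (nat_lit 383) (nat_lit 110))))) (XT.nd (nat_lit 234) (nat_lit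 1064) (nat_lit 0) (XT.nd (nat_lit 78) (nat_lit 532) (nat_lit 0) (XT.lf (nat_lit 0) (nat_lit 10971934668) (nat_lit 532) (nat_lit 24264609815) (nat_lit 608) (nat_lit 35123351652) (nat_lit 195) (nat_lit 5) (nat_lit 202) (nat_lit 5) (nat_lit 203) (nat_lit 5) (nat_lit 408) (nat_lit 383) (nat_lit 109)) (XT.nd (nat_lit 78) (nat_lit 532) (nat_lit 0) (XT.lf (nat_lit 0) (nat_lit 43592321770) (nat_lit 608) (nat_lit 22600311488) (nat_lit 76) (nat_lit 5366569461) (nat_lit 195) (nat_lit 5) (nat_lit 203) (nat_lit 5) (nat_lit 196) (nat_lit 5) (nat_lit 409) (nat_lit 383) (nat_lit 108)) (XT.lf (nat_lit 0) (nat_lit 15349638283) (nat_lit 532) (nat_lit 37236347799) (nat_lit 608) (nat_lit 20196886276) (nat_lit 188) (nat_lit 5) (nat_lit 195) (nat_lit 5) (nat_lit 196) (nat_lit 5) (nat_lit 410) (nat_lit 383) (nat_lit 107)))) (XT.nd (nat_lit 156) (nat_lit 608) (nat_lit 0) (XT.nd (nat_lit 78) (nat_lit 456) (nat_lit 0) (XT.lf (nat_lit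 0) (nat_lit 54900764008) (nat_lit 532) (nat_lit 7176346143) (nat_lit 608) (nat_lit 11959312703) (nat_lit 188) (nat_lit 5) (nat_lit 195) (nat_lit 5) (nat_lit 196) (nat_lit 5) (nat_lit 411) (nat_lit 383) (nat_lit 106)) (XT.lf (nat_lit 0) (nat_lit 20481260891) (nat_lit 456) (nat_lit 51796673023) (nat_lit 532) (nat_lit 3036897223) (nat_lit 182) (nat_lit 5) (nat_lit 188) (nat_lit 5) (nat_lit 189) (nat_lit 5) (nat_lit 412) (nat_lit 383) (nat_lit 105))) (XT.nd (nat_lit 78) (nat_lit 532) (nat_lit 0) (XT.lf (nat_lit 0) (nat_lit 6298770506) (nat_lit 532) (nat_lit 15079569362) (nat_lit 76) (nat_lit 55243508072) (nat_lit 181) (nat_lit 5) (nat_lit 188) (nat_lit 5) (nat_lit 182) (nat_lit 5) (nat_lit 413) (nat_lit 383) (nat_lit 104)) (XT.lf (nat_lit 0) (nat_lit 16204710442) (nat_lit 608) (nat_lit 51707480314) (nat_lit 76) (nat_lit 10044445449) (nat_lit 174) (nat_lit 5) (nat_lit 182) (nat_lit 5) (nat_lit 175) (nat_lit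 5) (nat_lit 414) (nat_lit 383) (nat_lit 103)))))) (XT.nd (nat_lit 44772) (nat_lit 0) (nat_lit 5244) (XT.nd (nat_lit 44460) (nat_lit 0) (nat_lit 5092) (XT.nd (nat_lit 78) (nat_lit 456) (nat_lit 0) (XT.lf (nat_lit 0) (nat_lit 26772754187) (nat_lit 608) (nat_lit 10413817443) (nat_lit 76) (nat_lit 42133948945) (nat_lit 174) (nat_lit 5) (nat_lit 182) (nat_lit 5) (nat_lit 175) (nat_lit 5) (nat_lit 415) (nat_lit 383) (nat_lit 102)) (XT.nd (nat_lit 78) (nat_lit 0) (nat_lit 0) (XT.lf (nat_lit 0) (nat_lit 32757282993) (nat_lit 456) (nat_lit 5214931655) (nat_lit 532) (nat_lit 42743675785) (nat_lit 168) (nat_lit 5) (nat_lit 174) (nat_lit 5) (nat_lit 175) (nat_lit 5) (nat_lit 416) (nat_lit 383) (nat_lit 101)) (XT.lf (nat_lit 0) (nat_lit 49879781822) (nat_lit 532) (nat_lit 4981033630) (nat_lit 76) (nat_lit 27281142460) (nat_lit 168) (nat_lit 5) (nat_lit 175) (nat_lit 5) (nat_lit 169) (nat_lit 5) (nat_lit 417) (nat_lit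 383) (nat_lit 100)))) (XT.nd (nat_lit 156) (nat_lit 0) (nat_lit 76) (XT.nd (nat_lit 78) (nat_lit 0) (nat_lit 0) (XT.lf (nat_lit 0) (nat_lit 3064847190) (nat_lit 1292) (nat_lit 10666602221) (nat_lit 1292) (nat_lit 10666602221) (nat_lit 235) (nat_lit 3) (nat_lit 252) (nat_lit 3) (nat_lit 252) (nat_lit 5) (nat_lit 384) (nat_lit 384) (nat_lit 132)) (XT.lf (nat_lit 76) (nat_lit 2029140524) (nat_lit 0) (nat_lit 4239008553) (nat_lit 1292) (nat_lit 43258486464) (nat_lit 236) (nat_lit 5) (nat_lit 235) (nat_lit 3) (nat_lit 252) (nat_lit 5) (nat_lit 385) (nat_lit 384) (nat_lit 131))) (XT.nd (nat_lit 78) (nat_lit 0) (nat_lit 0) (XT.lf (nat_lit 0) (nat_lit 6816451066) (nat_lit 1216) (nat_lit 23934870949) (nat_lit 1292) (nat_lit 19515591507) (nat_lit 236) (nat_lit 5) (nat_lit 252) (nat_lit 5) (nat_lit 253) (nat_lit 5) (nat_lit 386) (nat_lit 384) (nat_lit 130)) (XT.lf (nat_lit 76) (nat_lit 297900777) (nat_lit 0) (nat_lit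 7127111680) (nat_lit 1292) (nat_lit 43603073607) (nat_lit 237) (nat_lit 5) (nat_lit 236) (nat_lit 5) (nat_lit 253) (nat_lit 5) (nat_lit 387) (nat_lit 384) (nat_lit 129))))) (XT.nd (nat_lit 234) (nat_lit 0) (nat_lit 76) (XT.nd (nat_lit 78) (nat_lit 0) (nat_lit 0) (XT.lf (nat_lit 0) (nat_lit 8460316745) (nat_lit 1216) (nat_lit 26224934629) (nat_lit 1292) (nat_lit 17114588341) (nat_lit 237) (nat_lit 5) (nat_lit 253) (nat_lit 5) (nat_lit 254) (nat_lit 5) (nat_lit 388) (nat_lit 384) (nat_lit 128)) (XT.nd (nat_lit 78) (nat_lit 0) (nat_lit 76) (XT.lf (nat_lit 0) (nat_lit 9596279461) (nat_lit 1216) (nat_lit 1055677167) (nat_lit 1292) (nat_lit 41940701867) (nat_lit 237) (nat_lit 5) (nat_lit 253) (nat_lit 5) (nat_lit 254) (nat_lit 5) (nat_lit 389) (nat_lit 384) (nat_lit 127)) (XT.lf (nat_lit 0) (nat_lit 11147165593) (nat_lit 1216) (nat_lit 28176940517) (nat_lit 1292) (nat_lit 14073730879) (nat_lit 238) (nat_lit 5)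 (nat_lit 254) (nat_lit 5) (nat_lit 255) (nat_lit 5) (nat_lit 390) (nat_lit 384) (nat_lit 126)))) (XT.nd (nat_lit 156) (nat_lit 0) (nat_lit 76) (XT.nd (nat_lit 78) (nat_lit 0) (nat_lit 76) (XT.lf (nat_lit 0) (nat_lit 12859896331) (nat_lit 1216) (nat_lit 2025607814) (nat_lit 1292) (nat_lit 39338207622) (nat_lit 238) (nat_lit 5) (nat_lit 254) (nat_lit 5) (nat_lit 255) (nat_lit 5) (nat_lit 391) (nat_lit 384) (nat_lit 125)) (XT.lf (nat_lit 0) (nat_lit 14968634199) (nat_lit 1216) (nat_lit 29762922341) (nat_lit 1292) (nat_lit 10332467951) (nat_lit 239) (nat_lit 5) (nat_lit 255) (nat_lit 5) (nat_lit 256) (nat_lit 5) (nat_lit 392) (nat_lit 384) (nat_lit 124))) (XT.nd (nat_lit 78) (nat_lit 0) (nat_lit 76) (XT.lf (nat_lit 0) (nat_lit 17307809646) (nat_lit 1216) (nat_lit 2587980604) (nat_lit 1292) (nat_lit 36028741526) (nat_lit 239) (nat_lit 5) (nat_lit 255) (nat_lit 5) (nat_lit 256) (nat_lit 5) (nat_lit 393) (nat_lit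 384) (nat_lit 123)) (XT.lf (nat_lit 0) (nat_lit 20022474393) (nat_lit 1216) (nat_lit 30953356344) (nat_lit 1292) (nat_lit 5825864555) (nat_lit 240) (nat_lit 5) (nat_lit 256) (nat_lit 5) (nat_lit 257) (nat_lit 5) (nat_lit 394) (nat_lit 384) (nat_lit 122))))))) (XT.nd (nat_lit 1014) (nat_lit 2128) (nat_lit 0) (XT.nd (nat_lit 468) (nat_lit 2888) (nat_lit 0) (XT.nd (nat_lit 234) (nat_lit 0) (nat_lit 76) (XT.nd (nat_lit 78) (nat_lit 0) (nat_lit 76) (XT.lf (nat_lit 0) (nat_lit 23041142724) (nat_lit 1216) (nat_lit 2711441724) (nat_lit 1292) (nat_lit 31945912773) (nat_lit 240) (nat_lit 5) (nat_lit 256) (nat_lit 5) (nat_lit 257) (nat_lit 5) (nat_lit 395) (nat_lit 384) (nat_lit 121)) (XT.nd (nat_lit 78) (nat_lit 0) (nat_lit 0) (XT.lf (nat_lit 0) (nat_lit 26412925568) (nat_lit 1216) (nat_lit 31717116893) (nat_lit 1292) (nat_lit 484284519) (nat_lit 241) (nat_lit 5) (nat_lit 257) (nat_lit 5) (nat_lit 258) (nat_lit 5)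 (nat_lit 396) (nat_lit 384) (nat_lit 120)) (XT.lf (nat_lit 0) (nat_lit 30167715821) (nat_lit 1216) (nat_lit 2362960618) (nat_lit 1292) (nat_lit 27018499970) (nat_lit 241) (nat_lit 5) (nat_lit 257) (nat_lit 5) (nat_lit 258) (nat_lit 5) (nat_lit 397) (nat_lit 384) (nat_lit 119)))) (XT.nd (nat_lit 78) (nat_lit 0) (nat_lit 76) (XT.lf (nat_lit 76) (nat_lit 28425923598) (nat_lit 0) (nat_lit 5881722584) (nat_lit 1292) (nat_lit 26196250630) (nat_lit 242) (nat_lit 5) (nat_lit 241) (nat_lit 5) (nat_lit 258) (nat_lit 5) (nat_lit 398) (nat_lit 384) (nat_lit 118)) (XT.nd (nat_lit 78) (nat_lit 0) (nat_lit 0) (XT.lf (nat_lit 0) (nat_lit 38802451045) (nat_lit 1216) (nat_lit 1507785832) (nat_lit 1292) (nat_lit 21170102024) (nat_lit 242) (nat_lit 5) (nat_lit 258) (nat_lit 5) (nat_lit 259) (nat_lit 5) (nat_lit 399) (nat_lit 384) (nat_lit 117)) (XT.lf (nat_lit 76) (nat_lit 30516163234) (nat_lit 0) (nat_lit 13266799839) (nat_lit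 1292) (nat_lit 18692585650) (nat_lit 243) (nat_lit 5) (nat_lit 242) (nat_lit 5) (nat_lit 259) (nat_lit 5) (nat_lit 400) (nat_lit 384) (nat_lit 116))))) (XT.nd (nat_lit 234) (nat_lit 1292) (nat_lit 0) (XT.nd (nat_lit 78) (nat_lit 1824) (nat_lit 0) (XT.lf (nat_lit 0) (nat_lit 49067799428) (nat_lit 1216) (nat_lit 109404004) (nat_lit 76) (nat_lit 14318764491) (nat_lit 243) (nat_lit 5) (nat_lit 259) (nat_lit 5) (nat_lit 244) (nat_lit 5) (nat_lit 401) (nat_lit 384) (nat_lit 115)) (XT.nd (nat_lit 78) (nat_lit 608) (nat_lit 0) (XT.lf (nat_lit 0) (nat_lit 33212224360) (nat_lit 1216) (nat_lit 21748891775) (nat_lit 1292) (nat_lit 9572385845) (nat_lit 227) (nat_lit 5) (nat_lit 243) (nat_lit 5) (nat_lit 244) (nat_lit 5) (nat_lit 402) (nat_lit 384) (nat_lit 114)) (XT.lf (nat_lit 0) (nat_lit 1907723770) (nat_lit 608) (nat_lit 59204805696) (nat_lit 684) (nat_lit 4487194010) (nat_lit 219) (nat_lit 5) (nat_lit 227) (nat_lit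 5) (nat_lit 228) (nat_lit 5) (nat_lit 403) (nat_lit 384) (nat_lit 113)))) (XT.nd (nat_lit 156) (nat_lit 608) (nat_lit 0) (XT.nd (nat_lit 78) (nat_lit 608) (nat_lit 0) (XT.lf (nat_lit 0) (nat_lit 1270004345) (nat_lit 684) (nat_lit 30139085090) (nat_lit 76) (nat_lit 35272603145) (nat_lit 218) (nat_lit 5) (nat_lit 227) (nat_lit 5) (nat_lit 219) (nat_lit 5) (nat_lit 404) (nat_lit 384) (nat_lit 112)) (XT.lf (nat_lit 0) (nat_lit 4462475250) (nat_lit 608) (nat_lit 2689516526) (nat_lit 684) (nat_lit 60641528617) (nat_lit 210) (nat_lit 5) (nat_lit 218) (nat_lit 5) (nat_lit 219) (nat_lit 5) (nat_lit 405) (nat_lit 384) (nat_lit 111))) (XT.nd (nat_lit 78) (nat_lit 608) (nat_lit 0) (XT.lf (nat_lit 0) (nat_lit 13775675163) (nat_lit 684) (nat_lit 28471787310) (nat_lit 76) (nat_lit 26674283770) (nat_lit 210) (nat_lit 5) (nat_lit 219) (nat_lit 5) (nat_lit 211) (nat_lit 5) (nat_lit 406) (nat_lit 384) (nat_lit 110)) (XT.lf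 (nat_lit 0) (nat_lit 7553425090) (nat_lit 608) (nat_lit 13143277502) (nat_lit 684) (nat_lit 49384157556) (nat_lit 202) (nat_lit 5) (nat_lit 210) (nat_lit 5) (nat_lit 211) (nat_lit 5) (nat_lit 407) (nat_lit 384) (nat_lit 109)))))) (XT.nd (nat_lit 546) (nat_lit 532) (nat_lit 0) (XT.nd (nat_lit 234) (nat_lit 1064) (nat_lit 0) (XT.nd (nat_lit 78) (nat_lit 532) (nat_lit 0) (XT.lf (nat_lit 0) (nat_lit 28276944295) (nat_lit 684) (nat_lit 26188351405) (nat_lit 76) (nat_lit 16795904544) (nat_lit 202) (nat_lit 5) (nat_lit 211) (nat_lit 5) (nat_lit 203) (nat_lit 5) (nat_lit 408) (nat_lit 384) (nat_lit 108)) (XT.nd (nat_lit 78) (nat_lit 0) (nat_lit 0) (XT.lf (nat_lit 0) (nat_lit 11331304214) (nat_lit 532) (nat_lit 24991769723) (nat_lit 608) (nat_lit 36146722453) (nat_lit 195) (nat_lit 5) (nat_lit 202) (nat_lit 5) (nat_lit 203) (nat_lit 5) (nat_lit 409) (nat_lit 384) (nat_lit 107)) (XT.lf (nat_lit 0) (nat_lit 44928674532)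 (nat_lit 608) (nat_lit 23248126023) (nat_lit 76) (nat_lit 5528307514) (nat_lit 195) (nat_lit 5) (nat_lit 203) (nat_lit 5) (nat_lit 196) (nat_lit 5) (nat_lit 410) (nat_lit 384) (nat_lit 106)))) (XT.nd (nat_lit 156) (nat_lit 532) (nat_lit 0) (XT.nd (nat_lit 78) (nat_lit 0) (nat_lit 0) (XT.lf (nat_lit 0) (nat_lit 15840026213) (nat_lit 532) (nat_lit 38351577448) (nat_lit 608) (nat_lit 20773900876) (nat_lit 188) (nat_lit 5) (nat_lit 195) (nat_lit 5) (nat_lit 196) (nat_lit 5) (nat_lit 411) (nat_lit 384) (nat_lit 105)) (XT.lf (nat_lit 0) (nat_lit 56576814871) (nat_lit 532) (nat_lit 7389829939) (nat_lit 608) (nat_lit 12290041610) (nat_lit 188) (nat_lit 5) (nat_lit 195) (nat_lit 5) (nat_lit 196) (nat_lit 5) (nat_lit 412) (nat_lit 384) (nat_lit 104))) (XT.nd (nat_lit 78) (nat_lit 76) (nat_lit 0) (XT.lf (nat_lit 0) (nat_lit 21125245868) (nat_lit 456) (nat_lit 53347755449) (nat_lit 532) (nat_lit 3100460757) (nat_lit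 182) (nat_lit 5) (nat_lit 188) (nat_lit 5) (nat_lit 189) (nat_lit 5) (nat_lit 413) (nat_lit 384) (nat_lit 103)) (XT.lf (nat_lit 0) (nat_lit 6513952953) (nat_lit 532) (nat_lit 15502736653) (nat_lit 76) (nat_lit 56903015772) (nat_lit 181) (nat_lit 5) (nat_lit 188) (nat_lit 5) (nat_lit 182) (nat_lit 5) (nat_lit 414) (nat_lit 384) (nat_lit 102))))) (XT.nd (nat_lit 44616) (nat_lit 0) (nat_lit 4636) (XT.nd (nat_lit 78) (nat_lit 0) (nat_lit 0) (XT.lf (nat_lit 0) (nat_lit 16716616298) (nat_lit 608) (nat_lit 53229019058) (nat_lit 76) (nat_lit 10348915912) (nat_lit 174) (nat_lit 5) (nat_lit 182) (nat_lit 5) (nat_lit 175) (nat_lit 5) (nat_lit 415) (nat_lit 384) (nat_lit 101)) (XT.nd (nat_lit 44460) (nat_lit 0) (nat_lit 4636) (XT.lf (nat_lit 0) (nat_lit 27600950932) (nat_lit 608) (nat_lit 10697410933) (nat_lit 76) (nat_lit 43401013141) (nat_lit 174) (nat_lit 5) (nat_lit 182) (nat_lit 5) (nat_lit 175) (nat_lit 5) (nat_lit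 416) (nat_lit 384) (nat_lit 100)) (XT.lf (nat_lit 0) (nat_lit 3183536968) (nat_lit 1292) (nat_lit 10972820011) (nat_lit 1292) (nat_lit 10972820011) (nat_lit 235) (nat_lit 3) (nat_lit 252) (nat_lit 3) (nat_lit 252) (nat_lit 5) (nat_lit 385) (nat_lit 385) (nat_lit 130)))) (XT.nd (nat_lit 156) (nat_lit 0) (nat_lit 76) (XT.nd (nat_lit 78) (nat_lit 0) (nat_lit 76) (XT.lf (nat_lit 76) (nat_lit 2117305091) (nat_lit 0) (nat_lit 4391081591) (nat_lit 1292) (nat_lit 44502455220) (nat_lit 236) (nat_lit 5) (nat_lit 235) (nat_lit 3) (nat_lit 252) (nat_lit 5) (nat_lit 386) (nat_lit 385) (nat_lit 129)) (XT.lf (nat_lit 0) (nat_lit 7071385135) (nat_lit 1216) (nat_lit 24624642867) (nat_lit 1292) (nat_lit 20077353584) (nat_lit 236) (nat_lit 5) (nat_lit 252) (nat_lit 5) (nat_lit 253) (nat_lit 5) (nat_lit 387) (nat_lit 385) (nat_lit 128))) (XT.nd (nat_lit 78) (nat_lit 0) (nat_lit 76) (XT.lf (nat_lit 76) (nat_lit 334834812) (nat_lit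 0) (nat_lit 7362168537) (nat_lit 1292) (nat_lit 44860422715) (nat_lit 237) (nat_lit 5) (nat_lit 236) (nat_lit 5) (nat_lit 253) (nat_lit 5) (nat_lit 388) (nat_lit 385) (nat_lit 127)) (XT.lf (nat_lit 0) (nat_lit 8761734318) (nat_lit 1216) (nat_lit 26982844028) (nat_lit 1292) (nat_lit 17607803691) (nat_lit 237) (nat_lit 5) (nat_lit 253) (nat_lit 5) (nat_lit 254) (nat_lit 5) (nat_lit 389) (nat_lit 385) (nat_lit 126))))))))
noncomputable def xc250 : XT := (XT.nd (nat_lit 46566) (nat_lit 0) (nat_lit 1596) (XT.nd (nat_lit 1014) (nat_lit 4788) (nat_lit 0) (XT.nd (nat_lit 468) (nat_lit 0) (nat_lit 228) (XT.nd (nat_lit 234) (nat_lit 0) (nat_lit 152) (XT.nd (nat_lit 78) (nat_lit 0) (nat_lit 76) (XT.lf (nat_lit 0) (nat_lit 9930389273) (nat_lit 1216) (nat_lit 1059348802) (nat_lit 1292) (nat_lit 43179289622) (nat_lit 237) (nat_lit 5) (nat_lit 253) (nat_lit 5) (nat_lit 254) (nat_lit 5) (nat_lit 390) (nat_lit 385) (nat_lit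 125)) (XT.nd (nat_lit 78) (nat_lit 0) (nat_lit 0) (XT.lf (nat_lit 0) (nat_lit 11526554808) (nat_lit 1216) (nat_lit 28992979658) (nat_lit 1292) (nat_lit 14478865191) (nat_lit 238) (nat_lit 5) (nat_lit 254) (nat_lit 5) (nat_lit 255) (nat_lit 5) (nat_lit 391) (nat_lit 385) (nat_lit 124)) (XT.lf (nat_lit 0) (nat_lit 13289357539) (nat_lit 1216) (nat_lit 2057959472) (nat_lit 1292) (nat_lit 40501773643) (nat_lit 238) (nat_lit 5) (nat_lit 254) (nat_lit 5) (nat_lit 255) (nat_lit 5) (nat_lit 392) (nat_lit 385) (nat_lit 123)))) (XT.nd (nat_lit 78) (nat_lit 0) (nat_lit 0) (XT.lf (nat_lit 0) (nat_lit 15460216622) (nat_lit 1216) (nat_lit 30626230633) (nat_lit 1292) (nat_lit 10628200388) (nat_lit 239) (nat_lit 5) (nat_lit 255) (nat_lit 5) (nat_lit 256) (nat_lit 5) (nat_lit 393) (nat_lit 385) (nat_lit 122)) (XT.nd (nat_lit 78) (nat_lit 0) (nat_lit 76) (XT.lf (nat_lit 0) (nat_lit 17868328788) (nat_lit 1216) (nat_lit 2636902180)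 (nat_lit 1292) (nat_lit 37095776974) (nat_lit 239) (nat_lit 5) (nat_lit 255) (nat_lit 5) (nat_lit 256) (nat_lit 5) (nat_lit 394) (nat_lit 385) (nat_lit 121)) (XT.lf (nat_lit 0) (nat_lit 20663389775) (nat_lit 1216) (nat_lit 31852174865) (nat_lit 1292) (nat_lit 5988953651) (nat_lit 240) (nat_lit 5) (nat_lit 256) (nat_lit 5) (nat_lit 257) (nat_lit 5) (nat_lit 395) (nat_lit 385) (nat_lit 120))))) (XT.nd (nat_lit 234) (nat_lit 0) (nat_lit 76) (XT.nd (nat_lit 78) (nat_lit 0) (nat_lit 76) (XT.lf (nat_lit 0) (nat_lit 23771446084) (nat_lit 1216) (nat_lit 2763870248) (nat_lit 1292) (nat_lit 32892943708) (nat_lit 240) (nat_lit 5) (nat_lit 256) (nat_lit 5) (nat_lit 257) (nat_lit 5) (nat_lit 396) (nat_lit 385) (nat_lit 119)) (XT.nd (nat_lit 78) (nat_lit 0) (nat_lit 0) (XT.lf (nat_lit 0) (nat_lit 27243427658) (nat_lit 1216) (nat_lit 32638741477) (nat_lit 1292) (nat_lit 489424784) (nat_lit 241) (nat_lit 5) (nat_lit 257)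 (nat_lit 5) (nat_lit 258) (nat_lit 5) (nat_lit 397) (nat_lit 385) (nat_lit 118)) (XT.lf (nat_lit 0) (nat_lit 31109751493) (nat_lit 1216) (nat_lit 2404831064) (nat_lit 1292) (nat_lit 27819940143) (nat_lit 241) (nat_lit 5) (nat_lit 257) (nat_lit 5) (nat_lit 258) (nat_lit 5) (nat_lit 398) (nat_lit 385) (nat_lit 117)))) (XT.nd (nat_lit 156) (nat_lit 0) (nat_lit 76) (XT.nd (nat_lit 78) (nat_lit 0) (nat_lit 76) (XT.lf (nat_lit 76) (nat_lit 29307435184) (nat_lit 0) (nat_lit 6065642996) (nat_lit 1292) (nat_lit 26944831133) (nat_lit 242) (nat_lit 5) (nat_lit 241) (nat_lit 5) (nat_lit 258) (nat_lit 5) (nat_lit 399) (nat_lit 385) (nat_lit 116)) (XT.lf (nat_lit 0) (nat_lit 40001603041) (nat_lit 1216) (nat_lit 1523980499) (nat_lit 1292) (nat_lit 21798095383) (nat_lit 242) (nat_lit 5) (nat_lit 258) (nat_lit 5) (nat_lit 259) (nat_lit 5) (nat_lit 400) (nat_lit 385) (nat_lit 115))) (XT.nd (nat_lit 78) (nat_lit 0) (nat_lit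 76) (XT.lf (nat_lit 76) (nat_lit 31460402344) (nat_lit 0) (nat_lit 13670382786) (nat_lit 1292) (nat_lit 19217982787) (nat_lit 243) (nat_lit 5) (nat_lit 242) (nat_lit 5) (nat_lit 259) (nat_lit 5) (nat_lit 401) (nat_lit 385) (nat_lit 114)) (XT.lf (nat_lit 0) (nat_lit 50573114515) (nat_lit 1216) (nat_lit 83700581) (nat_lit 76) (nat_lit 14743016662) (nat_lit 243) (nat_lit 5) (nat_lit 259) (nat_lit 5) (nat_lit 244) (nat_lit 5) (nat_lit 402) (nat_lit 385) (nat_lit 113)))))) (XT.nd (nat_lit 546) (nat_lit 2128) (nat_lit 0) (XT.nd (nat_lit 234) (nat_lit 1216) (nat_lit 0) (XT.nd (nat_lit 78) (nat_lit 684) (nat_lit 0) (XT.lf (nat_lit 0) (nat_lit 34237292461) (nat_lit 1216) (nat_lit 22405244803) (nat_lit 1292) (nat_lit 9825975864) (nat_lit 227) (nat_lit 5) (nat_lit 243) (nat_lit 5) (nat_lit 244) (nat_lit 5) (nat_lit 403) (nat_lit 385) (nat_lit 112)) (XT.nd (nat_lit 78) (nat_lit 76) (nat_lit 0) (XT.lf (nat_lit 0) (nat_lit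 1994396626) (nat_lit 608) (nat_lit 60983393952) (nat_lit 684) (nat_lit 4588952237) (nat_lit 219) (nat_lit 5) (nat_lit 227) (nat_lit 5) (nat_lit 228) (nat_lit 5) (nat_lit 404) (nat_lit 385) (nat_lit 111)) (XT.lf (nat_lit 0) (nat_lit 1339382556) (nat_lit 684) (nat_lit 31014036614) (nat_lit 76) (nat_lit 36327770946) (nat_lit 218) (nat_lit 5) (nat_lit 227) (nat_lit 5) (nat_lit 219) (nat_lit 5) (nat_lit 405) (nat_lit 385) (nat_lit 110)))) (XT.nd (nat_lit 156) (nat_lit 608) (nat_lit 0) (XT.nd (nat_lit 78) (nat_lit 0) (nat_lit 0) (XT.lf (nat_lit 0) (nat_lit 4625284056) (nat_lit 608) (nat_lit 2771912679) (nat_lit 684) (nat_lit 62429195449) (nat_lit 210) (nat_lit 5) (nat_lit 218) (nat_lit 5) (nat_lit 219) (nat_lit 5) (nat_lit 406) (nat_lit 385) (nat_lit 109)) (XT.lf (nat_lit 0) (nat_lit 14218682079) (nat_lit 684) (nat_lit 29296926547) (nat_lit 76) (nat_lit 27472883860) (nat_lit 210) (nat_lit 5) (nat_lit 219) (nat_lit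 5) (nat_lit 211) (nat_lit 5) (nat_lit 407) (nat_lit 385) (nat_lit 108))) (XT.nd (nat_lit 78) (nat_lit 0) (nat_lit 0) (XT.lf (nat_lit 0) (nat_lit 7808757770) (nat_lit 608) (nat_lit 13537992614) (nat_lit 684) (nat_lit 50835647532) (nat_lit 202) (nat_lit 5) (nat_lit 210) (nat_lit 5) (nat_lit 211) (nat_lit 5) (nat_lit 408) (nat_lit 385) (nat_lit 107)) (XT.lf (nat_lit 0) (nat_lit 29153546515) (nat_lit 684) (nat_lit 26945242752) (nat_lit 76) (nat_lit 17299384929) (nat_lit 202) (nat_lit 5) (nat_lit 211) (nat_lit 5) (nat_lit 203) (nat_lit 5) (nat_lit 409) (nat_lit 385) (nat_lit 106))))) (XT.nd (nat_lit 234) (nat_lit 1064) (nat_lit 0) (XT.nd (nat_lit 78) (nat_lit 532) (nat_lit 0) (XT.lf (nat_lit 0) (nat_lit 11699720583) (nat_lit 532) (nat_lit 25740789110) (nat_lit 608) (nat_lit 37202535430) (nat_lit 195) (nat_lit 5) (nat_lit 202) (nat_lit 5) (nat_lit 203) (nat_lit 5) (nat_lit 410) (nat_lit 385) (nat_lit 105)) (XT.nd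 (nat_lit 78) (nat_lit 532) (nat_lit 0) (XT.lf (nat_lit 0) (nat_lit 46303477089) (nat_lit 608) (nat_lit 23917108301) (nat_lit 76) (nat_lit 5694855173) (nat_lit 195) (nat_lit 5) (nat_lit 203) (nat_lit 5) (nat_lit 196) (nat_lit 5) (nat_lit 411) (nat_lit 385) (nat_lit 104)) (XT.lf (nat_lit 0) (nat_lit 16343409468) (nat_lit 532) (nat_lit 39500370803) (nat_lit 608) (nat_lit 21369884432) (nat_lit 188) (nat_lit 5) (nat_lit 195) (nat_lit 5) (nat_lit 196) (nat_lit 5) (nat_lit 412) (nat_lit 385) (nat_lit 103)))) (XT.nd (nat_lit 156) (nat_lit 608) (nat_lit 0) (XT.nd (nat_lit 78) (nat_lit 456) (nat_lit 0) (XT.lf (nat_lit 0) (nat_lit 58301480937) (nat_lit 532) (nat_lit 7609821956) (nat_lit 608) (nat_lit 12632302595) (nat_lit 188) (nat_lit 5) (nat_lit 195) (nat_lit 5) (nat_lit 196) (nat_lit 5) (nat_lit 413) (nat_lit 385) (nat_lit 102)) (XT.lf (nat_lit 0) (nat_lit 21786854266) (nat_lit 456) (nat_lit 54945532100) (nat_lit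 532) (nat_lit 3167512300) (nat_lit 182) (nat_lit 5) (nat_lit 188) (nat_lit 5) (nat_lit 189) (nat_lit 5) (nat_lit 414) (nat_lit 385) (nat_lit 101))) (XT.nd (nat_lit 78) (nat_lit 532) (nat_lit 0) (XT.lf (nat_lit 0) (nat_lit 6734085777) (nat_lit 532) (nat_lit 15940276300) (nat_lit 76) (nat_lit 58612182272) (nat_lit 181) (nat_lit 5) (nat_lit 188) (nat_lit 5) (nat_lit 182) (nat_lit 5) (nat_lit 415) (nat_lit 385) (nat_lit 100)) (XT.lf (nat_lit 0) (nat_lit 17242400340) (nat_lit 608) (nat_lit 54797908043) (nat_lit 76) (nat_lit 10662340406) (nat_lit 174) (nat_lit 5) (nat_lit 182) (nat_lit 5) (nat_lit 175) (nat_lit 5) (nat_lit 416) (nat_lit 385) (nat_lit 99))))))) (XT.nd (nat_lit 1014) (nat_lit 3040) (nat_lit 0) (XT.nd (nat_lit 468) (nat_lit 0) (nat_lit 228) (XT.nd (nat_lit 234) (nat_lit 0) (nat_lit 76) (XT.nd (nat_lit 78) (nat_lit 0) (nat_lit 0) (XT.lf (nat_lit 0) (nat_lit 3304252204) (nat_lit 1292) (nat_lit 11289015379)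 (nat_lit 1292) (nat_lit 11289015379) (nat_lit 235) (nat_lit 3) (nat_lit 252) (nat_lit 3) (nat_lit 252) (nat_lit 5) (nat_lit 386) (nat_lit 386) (nat_lit 128)) (XT.nd (nat_lit 78) (nat_lit 0) (nat_lit 76) (XT.lf (nat_lit 76) (nat_lit 2206548017) (nat_lit 0) (nat_lit 4546287300) (nat_lit 1292) (nat_lit 45786830566) (nat_lit 236) (nat_lit 5) (nat_lit 235) (nat_lit 3) (nat_lit 252) (nat_lit 5) (nat_lit 387) (nat_lit 386) (nat_lit 127)) (XT.lf (nat_lit 0) (nat_lit 7331071732) (nat_lit 1216) (nat_lit 25336730998) (nat_lit 1292) (nat_lit 20657329325) (nat_lit 236) (nat_lit 5) (nat_lit 252) (nat_lit 5) (nat_lit 253) (nat_lit 5) (nat_lit 388) (nat_lit 386) (nat_lit 126)))) (XT.nd (nat_lit 78) (nat_lit 0) (nat_lit 76) (XT.lf (nat_lit 76) (nat_lit 371269726) (nat_lit 0) (nat_lit 7603057635) (nat_lit 1292) (nat_lit 46158405158) (nat_lit 237) (nat_lit 5) (nat_lit 236) (nat_lit 5) (nat_lit 253) (nat_lit 5) (nat_lit 389)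 (nat_lit 386) (nat_lit 125)) (XT.nd (nat_lit 78) (nat_lit 0) (nat_lit 0) (XT.lf (nat_lit 0) (nat_lit 9069461521) (nat_lit 1216) (nat_lit 27765146164) (nat_lit 1292) (nat_lit 18116976344) (nat_lit 237) (nat_lit 5) (nat_lit 253) (nat_lit 5) (nat_lit 254) (nat_lit 5) (nat_lit 390) (nat_lit 386) (nat_lit 124)) (XT.lf (nat_lit 0) (nat_lit 10271869081) (nat_lit 1216) (nat_lit 1064737825) (nat_lit 1292) (nat_lit 44456162042) (nat_lit 237) (nat_lit 5) (nat_lit 253) (nat_lit 5) (nat_lit 254) (nat_lit 5) (nat_lit 391) (nat_lit 386) (nat_lit 123))))) (XT.nd (nat_lit 234) (nat_lit 0) (nat_lit 76) (XT.nd (nat_lit 78) (nat_lit 0) (nat_lit 0) (XT.lf (nat_lit 0) (nat_lit 11914743994) (nat_lit 1216) (nat_lit 29835180138) (nat_lit 1292) (nat_lit 14897133858) (nat_lit 238) (nat_lit 5) (nat_lit 254) (nat_lit 5) (nat_lit 255) (nat_lit 5) (nat_lit 392) (nat_lit 386) (nat_lit 122)) (XT.nd (nat_lit 78) (nat_lit 0) (nat_lit 76)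 (XT.lf (nat_lit 0) (nat_lit 13729196073) (nat_lit 1216) (nat_lit 2092912907) (nat_lit 1292) (nat_lit 41701198416) (nat_lit 238) (nat_lit 5) (nat_lit 254) (nat_lit 5) (nat_lit 255) (nat_lit 5) (nat_lit 393) (nat_lit 386) (nat_lit 121)) (XT.lf (nat_lit 0) (nat_lit 15964105501) (nat_lit 1216) (nat_lit 31517136152) (nat_lit 1292) (nat_lit 10933622323) (nat_lit 239) (nat_lit 5) (nat_lit 255) (nat_lit 5) (nat_lit 256) (nat_lit 5) (nat_lit 394) (nat_lit 386) (nat_lit 120)))) (XT.nd (nat_lit 156) (nat_lit 0) (nat_lit 76) (XT.nd (nat_lit 78) (nat_lit 0) (nat_lit 76) (XT.lf (nat_lit 0) (nat_lit 18443293584) (nat_lit 1216) (nat_lit 2688939924) (nat_lit 1292) (nat_lit 38195617200) (nat_lit 239) (nat_lit 5) (nat_lit 255) (nat_lit 5) (nat_lit 256) (nat_lit 5) (nat_lit 395) (nat_lit 386) (nat_lit 119)) (XT.lf (nat_lit 0) (nat_lit 21321222613) (nat_lit 1216) (nat_lit 32779667560) (nat_lit 1292) (nat_lit 6157606292) (nat_lit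 240) (nat_lit 5) (nat_lit 256) (nat_lit 5) (nat_lit 257) (nat_lit 5) (nat_lit 396) (nat_lit 386) (nat_lit 118))) (XT.nd (nat_lit 78) (nat_lit 0) (nat_lit 76) (XT.lf (nat_lit 0) (nat_lit 24521415820) (nat_lit 1216) (nat_lit 2819531452) (nat_lit 1292) (nat_lit 33869036904) (nat_lit 240) (nat_lit 5) (nat_lit 256) (nat_lit 5) (nat_lit 257) (nat_lit 5) (nat_lit 397) (nat_lit 386) (nat_lit 117)) (XT.lf (nat_lit 0) (nat_lit 28096656893) (nat_lit 1216) (nat_lit 33589730544) (nat_lit 1292) (nat_lit 495258182) (nat_lit 241) (nat_lit 5) (nat_lit 257) (nat_lit 5) (nat_lit 258) (nat_lit 5) (nat_lit 398) (nat_lit 386) (nat_lit 116)))))) (XT.nd (nat_lit 546) (nat_lit 1824) (nat_lit 0) (XT.nd (nat_lit 234) (nat_lit 1672) (nat_lit 0) (XT.nd (nat_lit 78) (nat_lit 0) (nat_lit 0) (XT.lf (nat_lit 0) (nat_lit 32077924043) (nat_lit 1216) (nat_lit 2449623398) (nat_lit 1292) (nat_lit 28645946750) (nat_lit 241) (nat_lit 5) (nat_lit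 257) (nat_lit 5) (nat_lit 258) (nat_lit 5) (nat_lit 399) (nat_lit 386) (nat_lit 115)) (XT.nd (nat_lit 78) (nat_lit 0) (nat_lit 76) (XT.lf (nat_lit 76) (nat_lit 30213742676) (nat_lit 0) (nat_lit 6254652285) (nat_lit 1292) (nat_lit 27718010626) (nat_lit 242) (nat_lit 5) (nat_lit 241) (nat_lit 5) (nat_lit 258) (nat_lit 5) (nat_lit 400) (nat_lit 386) (nat_lit 114)) (XT.lf (nat_lit 0) (nat_lit 41234715950) (nat_lit 1216) (nat_lit 1542327958) (nat_lit 1292) (nat_lit 22445336669) (nat_lit 242) (nat_lit 5) (nat_lit 258) (nat_lit 5) (nat_lit 259) (nat_lit 5) (nat_lit 401) (nat_lit 386) (nat_lit 113)))) (XT.nd (nat_lit 156) (nat_lit 1748) (nat_lit 0) (XT.nd (nat_lit 78) (nat_lit 0) (nat_lit 76) (XT.lf (nat_lit 76) (nat_lit 32431318018) (nat_lit 0) (nat_lit 14085752967) (nat_lit 1292) (nat_lit 19761172819) (nat_lit 243) (nat_lit 5) (nat_lit 242) (nat_lit 5) (nat_lit 259) (nat_lit 5) (nat_lit 402) (nat_lit 386) (nat_lit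 112)) (XT.lf (nat_lit 0) (nat_lit 52121678582) (nat_lit 1216) (nat_lit 58889944) (nat_lit 76) (nat_lit 15180301258) (nat_lit 243) (nat_lit 5) (nat_lit 259) (nat_lit 5) (nat_lit 244) (nat_lit 5) (nat_lit 403) (nat_lit 386) (nat_lit 111))) (XT.nd (nat_lit 78) (nat_lit 608) (nat_lit 0) (XT.lf (nat_lit 0) (nat_lit 35291465030) (nat_lit 1216) (nat_lit 23081065334) (nat_lit 1292) (nat_lit 10089101301) (nat_lit 227) (nat_lit 5) (nat_lit 243) (nat_lit 5) (nat_lit 244) (nat_lit 5) (nat_lit 404) (nat_lit 386) (nat_lit 110)) (XT.lf (nat_lit 0) (nat_lit 2081979625) (nat_lit 608) (nat_lit 62815199556) (nat_lit 684) (nat_lit 4695649372) (nat_lit 219) (nat_lit 5) (nat_lit 227) (nat_lit 5) (nat_lit 228) (nat_lit 5) (nat_lit 405) (nat_lit 386) (nat_lit 109))))) (XT.nd (nat_lit 234) (nat_lit 1140) (nat_lit 0) (XT.nd (nat_lit 78) (nat_lit 608) (nat_lit 0) (XT.lf (nat_lit 0) (nat_lit 1409046623) (nat_lit 684) (nat_lit 31916914091)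 (nat_lit 76) (nat_lit 37414766583) (nat_lit 218) (nat_lit 5) (nat_lit 227) (nat_lit 5) (nat_lit 219) (nat_lit 5) (nat_lit 406) (nat_lit 386) (nat_lit 108)) (XT.nd (nat_lit 78) (nat_lit 0) (nat_lit 0) (XT.lf (nat_lit 0) (nat_lit 4791316164) (nat_lit 608) (nat_lit 2856682517) (nat_lit 684) (nat_lit 64272305051) (nat_lit 210) (nat_lit 5) (nat_lit 218) (nat_lit 5) (nat_lit 219) (nat_lit 5) (nat_lit 407) (nat_lit 386) (nat_lit 107)) (XT.lf (nat_lit 0) (nat_lit 14673272197) (nat_lit 684) (nat_lit 30148485505) (nat_lit 76) (nat_lit 28295535431) (nat_lit 210) (nat_lit 5) (nat_lit 219) (nat_lit 5) (nat_lit 211) (nat_lit 5) (nat_lit 408) (nat_lit 386) (nat_lit 106)))) (XT.nd (nat_lit 156) (nat_lit 532) (nat_lit 0) (XT.nd (nat_lit 78) (nat_lit 0) (nat_lit 0) (XT.lf (nat_lit 0) (nat_lit 8070101216) (nat_lit 608) (nat_lit 13944525254) (nat_lit 684) (nat_lit 52332406324) (nat_lit 202) (nat_lit 5) (nat_lit 210) (nat_lit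 5) (nat_lit 211) (nat_lit 5) (nat_lit 409) (nat_lit 386) (nat_lit 105)) (XT.lf (nat_lit 0) (nat_lit 30054822616) (nat_lit 684) (nat_lit 27726491735) (nat_lit 76) (nat_lit 17817992501) (nat_lit 202) (nat_lit 5) (nat_lit 211) (nat_lit 5) (nat_lit 203) (nat_lit 5) (nat_lit 410) (nat_lit 386) (nat_lit 104))) (XT.nd (nat_lit 78) (nat_lit 0) (nat_lit 0) (XT.lf (nat_lit 0) (nat_lit 12077554733) (nat_lit 532) (nat_lit 26512321197) (nat_lit 608) (nat_lit 38291663904) (nat_lit 195) (nat_lit 5) (nat_lit 202) (nat_lit 5) (nat_lit 203) (nat_lit 5) (nat_lit 411) (nat_lit 386) (nat_lit 103)) (XT.lf (nat_lit 0) (nat_lit 47717977124) (nat_lit 608) (nat_lit 24607793853) (nat_lit 76) (nat_lit 5866359170) (nat_lit 195) (nat_lit 5) (nat_lit 203) (nat_lit 5) (nat_lit 196) (nat_lit 5) (nat_lit 412) (nat_lit 386) (nat_lit 102))))))))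
noncomputable def xc251 : XT := (XT.nd (nat_lit 46722) (nat_lit 0) (nat_lit 456) (XT.nd (nat_lit 45630) (nat_lit 0) (nat_lit 1520) (XT.nd (nat_lit 45084) (nat_lit 0) (nat_lit 4104) (XT.nd (nat_lit 44850) (nat_lit 0) (nat_lit 4028) (XT.nd (nat_lit 78) (nat_lit 456) (nat_lit 0) (XT.lf (nat_lit 0) (nat_lit 16860276432) (nat_lit 532) (nat_lit 40683728644) (nat_lit 608) (nat_lit 21985310807) (nat_lit 188) (nat_lit 5) (nat_lit 195) (nat_lit 5) (nat_lit 196) (nat_lit 5) (nat_lit 413) (nat_lit 386) (nat_lit 101)) (XT.nd (nat_lit 78) (nat_lit 456) (nat_lit 0) (XT.lf (nat_lit 0) (nat_lit 60076316317) (nat_lit 532) (nat_lit 7836511485) (nat_lit 608) (nat_lit 12986349190) (nat_lit 188) (nat_lit 5) (nat_lit 195) (nat_lit 5) (nat_lit 196) (nat_lit 5) (nat_lit 414) (nat_lit 386) (nat_lit 100)) (XT.lf (nat_lit 0) (nat_lit 22466712155) (nat_lit 456) (nat_lit 56591394516) (nat_lit 532) (nat_lit 3238065731) (nat_lit 182)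 (nat_lit 5) (nat_lit 188) (nat_lit 5) (nat_lit 189) (nat_lit 5) (nat_lit 415) (nat_lit 386) (nat_lit 99)))) (XT.nd (nat_lit 78) (nat_lit 0) (nat_lit 0) (XT.lf (nat_lit 0) (nat_lit 3427141790) (nat_lit 1292) (nat_lit 11615442243) (nat_lit 1292) (nat_lit 11615442243) (nat_lit 235) (nat_lit 3) (nat_lit 252) (nat_lit 3) (nat_lit 252) (nat_lit 5) (nat_lit 387) (nat_lit 387) (nat_lit 126)) (XT.nd (nat_lit 78) (nat_lit 0) (nat_lit 76) (XT.lf (nat_lit 76) (nat_lit 2296991581) (nat_lit 0) (nat_lit 4704801718) (nat_lit 1292) (nat_lit 47112647463) (nat_lit 236) (nat_lit 5) (nat_lit 235) (nat_lit 3) (nat_lit 252) (nat_lit 5) (nat_lit 388) (nat_lit 387) (nat_lit 125)) (XT.lf (nat_lit 0) (nat_lit 7595819647) (nat_lit 1216) (nat_lit 26071711658) (nat_lit 1292) (nat_lit 21255987025) (nat_lit 236) (nat_lit 5) (nat_lit 252) (nat_lit 5) (nat_lit 253) (nat_lit 5) (nat_lit 389) (nat_lit 387) (nat_lit 124))))) (XT.nd (nat_lit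 234) (nat_lit 0) (nat_lit 152) (XT.nd (nat_lit 78) (nat_lit 0) (nat_lit 76) (XT.lf (nat_lit 76) (nat_lit 407282801) (nat_lit 0) (nat_lit 7850023945) (nat_lit 1292) (nat_lit 47498072725) (nat_lit 237) (nat_lit 5) (nat_lit 236) (nat_lit 5) (nat_lit 253) (nat_lit 5) (nat_lit 390) (nat_lit 387) (nat_lit 123)) (XT.nd (nat_lit 78) (nat_lit 0) (nat_lit 0) (XT.lf (nat_lit 0) (nat_lit 9383844521) (nat_lit 1216) (nat_lit 28572477791) (nat_lit 1292) (nat_lit 18642518382) (nat_lit 237) (nat_lit 5) (nat_lit 253) (nat_lit 5) (nat_lit 254) (nat_lit 5) (nat_lit 391) (nat_lit 387) (nat_lit 122)) (XT.lf (nat_lit 0) (nat_lit 10621092294) (nat_lit 1216) (nat_lit 1071803495) (nat_lit 1292) (nat_lit 45772402969) (nat_lit 237) (nat_lit 5) (nat_lit 253) (nat_lit 5) (nat_lit 254) (nat_lit 5) (nat_lit 392) (nat_lit 387) (nat_lit 121)))) (XT.nd (nat_lit 156) (nat_lit 0) (nat_lit 76) (XT.nd (nat_lit 78) (nat_lit 0) (nat_lit 0) (XT.lf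 (nat_lit 0) (nat_lit 12312145350) (nat_lit 1216) (nat_lit 30704230349) (nat_lit 1292) (nat_lit 15328874635) (nat_lit 238) (nat_lit 5) (nat_lit 254) (nat_lit 5) (nat_lit 255) (nat_lit 5) (nat_lit 393) (nat_lit 387) (nat_lit 120)) (XT.lf (nat_lit 0) (nat_lit 14179867136) (nat_lit 1216) (nat_lit 2130452534) (nat_lit 1292) (nat_lit 42937503069) (nat_lit 238) (nat_lit 5) (nat_lit 254) (nat_lit 5) (nat_lit 255) (nat_lit 5) (nat_lit 394) (nat_lit 387) (nat_lit 119))) (XT.nd (nat_lit 78) (nat_lit 0) (nat_lit 0) (XT.lf (nat_lit 0) (nat_lit 16480810154) (nat_lit 1216) (nat_lit 32436369342) (nat_lit 1292) (nat_lit 11248977514) (nat_lit 239) (nat_lit 5) (nat_lit 255) (nat_lit 5) (nat_lit 256) (nat_lit 5) (nat_lit 395) (nat_lit 387) (nat_lit 118)) (XT.lf (nat_lit 0) (nat_lit 19033273448) (nat_lit 1216) (nat_lit 2744092690) (nat_lit 1292) (nat_lit 39329200785) (nat_lit 239) (nat_lit 5) (nat_lit 255) (nat_lit 5) (nat_lit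 256) (nat_lit 5) (nat_lit 396) (nat_lit 387) (nat_lit 117)))))) (XT.nd (nat_lit 546) (nat_lit 2888) (nat_lit 0) (XT.nd (nat_lit 234) (nat_lit 0) (nat_lit 76) (XT.nd (nat_lit 78) (nat_lit 0) (nat_lit 0) (XT.lf (nat_lit 0) (nat_lit 21996613032) (nat_lit 1216) (nat_lit 33736596516) (nat_lit 1292) (nat_lit 6331950873) (nat_lit 240) (nat_lit 5) (nat_lit 256) (nat_lit 5) (nat_lit 257) (nat_lit 5) (nat_lit 397) (nat_lit 387) (nat_lit 116)) (XT.nd (nat_lit 78) (nat_lit 0) (nat_lit 76) (XT.lf (nat_lit 0) (nat_lit 25291770665) (nat_lit 1216) (nat_lit 2878427035) (nat_lit 1292) (nat_lit 34875026840) (nat_lit 240) (nat_lit 5) (nat_lit 256) (nat_lit 5) (nat_lit 257) (nat_lit 5) (nat_lit 398) (nat_lit 387) (nat_lit 115)) (XT.lf (nat_lit 0) (nat_lit 28973420682) (nat_lit 1216) (nat_lit 34570866540) (nat_lit 1292) (nat_lit 501774571) (nat_lit 241) (nat_lit 5) (nat_lit 257) (nat_lit 5) (nat_lit 258) (nat_lit 5) (nat_lit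 399) (nat_lit 387) (nat_lit 114)))) (XT.nd (nat_lit 156) (nat_lit 0) (nat_lit 76) (XT.nd (nat_lit 78) (nat_lit 0) (nat_lit 0) (XT.lf (nat_lit 0) (nat_lit 33073139514) (nat_lit 1216) (nat_lit 2497329652) (nat_lit 1292) (nat_lit 29497226748) (nat_lit 241) (nat_lit 5) (nat_lit 257) (nat_lit 5) (nat_lit 258) (nat_lit 5) (nat_lit 400) (nat_lit 387) (nat_lit 113)) (XT.lf (nat_lit 76) (nat_lit 31145684635) (nat_lit 0) (nat_lit 6448927727) (nat_lit 1292) (nat_lit 28516404144) (nat_lit 242) (nat_lit 5) (nat_lit 241) (nat_lit 5) (nat_lit 258) (nat_lit 5) (nat_lit 401) (nat_lit 387) (nat_lit 112))) (XT.nd (nat_lit 78) (nat_lit 0) (nat_lit 0) (XT.lf (nat_lit 0) (nat_lit 42502924190) (nat_lit 1216) (nat_lit 1562797103) (nat_lit 1292) (nat_lit 23112379891) (nat_lit 242) (nat_lit 5) (nat_lit 258) (nat_lit 5) (nat_lit 259) (nat_lit 5) (nat_lit 402) (nat_lit 387) (nat_lit 111)) (XT.lf (nat_lit 76) (nat_lit 33429805305)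 (nat_lit 0) (nat_lit 14513282383) (nat_lit 1292) (nat_lit 20322572947) (nat_lit 243) (nat_lit 5) (nat_lit 242) (nat_lit 5) (nat_lit 259) (nat_lit 5) (nat_lit 403) (nat_lit 387) (nat_lit 110))))) (XT.nd (nat_lit 234) (nat_lit 1292) (nat_lit 0) (XT.nd (nat_lit 78) (nat_lit 1824) (nat_lit 0) (XT.lf (nat_lit 0) (nat_lit 53714898769) (nat_lit 1216) (nat_lit 34903363) (nat_lit 76) (nat_lit 15630991751) (nat_lit 243) (nat_lit 5) (nat_lit 259) (nat_lit 5) (nat_lit 244) (nat_lit 5) (nat_lit 404) (nat_lit 387) (nat_lit 109)) (XT.nd (nat_lit 78) (nat_lit 608) (nat_lit 0) (XT.lf (nat_lit 0) (nat_lit 36375709778) (nat_lit 1216) (nat_lit 23776950200) (nat_lit 1292) (nat_lit 10361937562) (nat_lit 227) (nat_lit 5) (nat_lit 243) (nat_lit 5) (nat_lit 244) (nat_lit 5) (nat_lit 405) (nat_lit 387) (nat_lit 108)) (XT.lf (nat_lit 0) (nat_lit 2170597088) (nat_lit 608) (nat_lit 64701827082) (nat_lit 684) (nat_lit 4807325308) (nat_lit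 219) (nat_lit 5) (nat_lit 227) (nat_lit 5) (nat_lit 228) (nat_lit 5) (nat_lit 406) (nat_lit 387) (nat_lit 107)))) (XT.nd (nat_lit 156) (nat_lit 608) (nat_lit 0) (XT.nd (nat_lit 78) (nat_lit 608) (nat_lit 0) (XT.lf (nat_lit 0) (nat_lit 1479108191) (nat_lit 684) (nat_lit 32848459008) (nat_lit 76) (nat_lit 38534534974) (nat_lit 218) (nat_lit 5) (nat_lit 227) (nat_lit 5) (nat_lit 219) (nat_lit 5) (nat_lit 407) (nat_lit 387) (nat_lit 106)) (XT.lf (nat_lit 0) (nat_lit 4960763620) (nat_lit 608) (nat_lit 2943902889) (nat_lit 684) (nat_lit 66172416646) (nat_lit 210) (nat_lit 5) (nat_lit 218) (nat_lit 5) (nat_lit 219) (nat_lit 5) (nat_lit 408) (nat_lit 387) (nat_lit 105))) (XT.nd (nat_lit 78) (nat_lit 608) (nat_lit 0) (XT.lf (nat_lit 0) (nat_lit 15139891001) (nat_lit 684) (nat_lit 31027161168) (nat_lit 76) (nat_lit 29142954661) (nat_lit 210) (nat_lit 5) (nat_lit 219) (nat_lit 5) (nat_lit 211) (nat_lit 5) (nat_lit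 409) (nat_lit 387) (nat_lit 104)) (XT.lf (nat_lit 0) (nat_lit 8337730421) (nat_lit 608) (nat_lit 14363231321) (nat_lit 684) (nat_lit 53875693026) (nat_lit 202) (nat_lit 5) (nat_lit 210) (nat_lit 5) (nat_lit 211) (nat_lit 5) (nat_lit 410) (nat_lit 387) (nat_lit 103))))))) (XT.nd (nat_lit 45708) (nat_lit 0) (nat_lit 1672) (XT.nd (nat_lit 45162) (nat_lit 0) (nat_lit 3572) (XT.nd (nat_lit 234) (nat_lit 532) (nat_lit 0) (XT.nd (nat_lit 78) (nat_lit 532) (nat_lit 0) (XT.lf (nat_lit 0) (nat_lit 30981606051) (nat_lit 684) (nat_lit 28532734315) (nat_lit 76) (nat_lit 18352179768) (nat_lit 202) (nat_lit 5) (nat_lit 211) (nat_lit 5) (nat_lit 203) (nat_lit 5) (nat_lit 411) (nat_lit 387) (nat_lit 102)) (XT.nd (nat_lit 78) (nat_lit 0) (nat_lit 0) (XT.lf (nat_lit 0) (nat_lit 12465183035) (nat_lit 532) (nat_lit 27307038946) (nat_lit 608) (nat_lit 39415013134) (nat_lit 195) (nat_lit 5) (nat_lit 202) (nat_lit 5) (nat_lit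 203) (nat_lit 5) (nat_lit 412) (nat_lit 387) (nat_lit 101)) (XT.lf (nat_lit 0) (nat_lit 49173454341) (nat_lit 608) (nat_lit 25320739992) (nat_lit 76) (nat_lit 6042970494) (nat_lit 195) (nat_lit 5) (nat_lit 203) (nat_lit 5) (nat_lit 196) (nat_lit 5) (nat_lit 413) (nat_lit 387) (nat_lit 100)))) (XT.nd (nat_lit 78) (nat_lit 0) (nat_lit 0) (XT.lf (nat_lit 0) (nat_lit 17391124484) (nat_lit 532) (nat_lit 41902682125) (nat_lit 608) (nat_lit 22620673545) (nat_lit 188) (nat_lit 5) (nat_lit 195) (nat_lit 5) (nat_lit 196) (nat_lit 5) (nat_lit 414) (nat_lit 387) (nat_lit 99)) (XT.nd (nat_lit 44772) (nat_lit 0) (nat_lit 3572) (XT.lf (nat_lit 0) (nat_lit 61902916252) (nat_lit 532) (nat_lit 8070093841) (nat_lit 608) (nat_lit 13352447835) (nat_lit 188) (nat_lit 5) (nat_lit 195) (nat_lit 5) (nat_lit 196) (nat_lit 5) (nat_lit 415) (nat_lit 387) (nat_lit 98)) (XT.lf (nat_lit 0) (nat_lit 3552354027) (nat_lit 1292) (nat_lit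 11952364746) (nat_lit 1292) (nat_lit 11952364746) (nat_lit 235) (nat_lit 3) (nat_lit 252) (nat_lit 3) (nat_lit 252) (nat_lit 5) (nat_lit 388) (nat_lit 388) (nat_lit 124))))) (XT.nd (nat_lit 234) (nat_lit 0) (nat_lit 152) (XT.nd (nat_lit 78) (nat_lit 0) (nat_lit 76) (XT.lf (nat_lit 76) (nat_lit 2388756568) (nat_lit 0) (nat_lit 4866801457) (nat_lit 1292) (nat_lit 48480982094) (nat_lit 236) (nat_lit 5) (nat_lit 235) (nat_lit 3) (nat_lit 252) (nat_lit 5) (nat_lit 389) (nat_lit 388) (nat_lit 123)) (XT.nd (nat_lit 78) (nat_lit 0) (nat_lit 0) (XT.lf (nat_lit 0) (nat_lit 7865937391) (nat_lit 1216) (nat_lit 26830183802) (nat_lit 1292) (nat_lit 21873813511) (nat_lit 236) (nat_lit 5) (nat_lit 252) (nat_lit 5) (nat_lit 253) (nat_lit 5) (nat_lit 390) (nat_lit 388) (nat_lit 122)) (XT.lf (nat_lit 76) (nat_lit 442948342) (nat_lit 0) (nat_lit 8103315765) (nat_lit 1292) (nat_lit 48880518359) (nat_lit 237) (nat_lit 5) (nat_lit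 236) (nat_lit 5) (nat_lit 253) (nat_lit 5) (nat_lit 391) (nat_lit 388) (nat_lit 121)))) (XT.nd (nat_lit 156) (nat_lit 0) (nat_lit 76) (XT.nd (nat_lit 78) (nat_lit 0) (nat_lit 0) (XT.lf (nat_lit 0) (nat_lit 9705230867) (nat_lit 1216) (nat_lit 29405500217) (nat_lit 1292) (nat_lit 19184858076) (nat_lit 237) (nat_lit 5) (nat_lit 253) (nat_lit 5) (nat_lit 254) (nat_lit 5) (nat_lit 392) (nat_lit 388) (nat_lit 120)) (XT.lf (nat_lit 0) (nat_lit 10978434781) (nat_lit 1216) (nat_lit 1080509147) (nat_lit 1292) (nat_lit 47129132478) (nat_lit 237) (nat_lit 5) (nat_lit 253) (nat_lit 5) (nat_lit 254) (nat_lit 5) (nat_lit 393) (nat_lit 388) (nat_lit 119))) (XT.nd (nat_lit 78) (nat_lit 0) (nat_lit 0) (XT.lf (nat_lit 0) (nat_lit 12719174935) (nat_lit 1216) (nat_lit 31600844871) (nat_lit 1292) (nat_lit 15774438641) (nat_lit 238) (nat_lit 5) (nat_lit 254) (nat_lit 5) (nat_lit 255) (nat_lit 5) (nat_lit 394) (nat_lit 388) (nat_lit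 118)) (XT.lf (nat_lit 0) (nat_lit 14641831328) (nat_lit 1216) (nat_lit 2170567674) (nat_lit 1292) (nat_lit 44211742498) (nat_lit 238) (nat_lit 5) (nat_lit 254) (nat_lit 5) (nat_lit 255) (nat_lit 5) (nat_lit 395) (nat_lit 388) (nat_lit 117)))))) (XT.nd (nat_lit 546) (nat_lit 2204) (nat_lit 0) (XT.nd (nat_lit 234) (nat_lit 0) (nat_lit 76) (XT.nd (nat_lit 78) (nat_lit 0) (nat_lit 0) (XT.lf (nat_lit 0) (nat_lit 17010847135) (nat_lit 1216) (nat_lit 33384688158) (nat_lit 1292) (nat_lit 11574519722) (nat_lit 239) (nat_lit 5) (nat_lit 255) (nat_lit 5) (nat_lit 256) (nat_lit 5) (nat_lit 396) (nat_lit 388) (nat_lit 116)) (XT.nd (nat_lit 78) (nat_lit 0) (nat_lit 76) (XT.lf (nat_lit 0) (nat_lit 19638847065) (nat_lit 1216) (nat_lit 2802364729) (nat_lit 1292) (nat_lit 40497497082) (nat_lit 239) (nat_lit 5) (nat_lit 255) (nat_lit 5) (nat_lit 256) (nat_lit 5) (nat_lit 397) (nat_lit 388) (nat_lit 115)) (XT.lf (nat_lit 0)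 (nat_lit 22690212753) (nat_lit 1216) (nat_lit 34723752313) (nat_lit 1292) (nat_lit 6512121854) (nat_lit 240) (nat_lit 5) (nat_lit 256) (nat_lit 5) (nat_lit 257) (nat_lit 5) (nat_lit 398) (nat_lit 388) (nat_lit 114)))) (XT.nd (nat_lit 156) (nat_lit 0) (nat_lit 76) (XT.nd (nat_lit 78) (nat_lit 0) (nat_lit 76) (XT.lf (nat_lit 0) (nat_lit 26083243523) (nat_lit 1216) (nat_lit 2940564218) (nat_lit 1292) (nat_lit 35911775174) (nat_lit 240) (nat_lit 5) (nat_lit 256) (nat_lit 5) (nat_lit 257) (nat_lit 5) (nat_lit 399) (nat_lit 388) (nat_lit 113)) (XT.lf (nat_lit 0) (nat_lit 29874543448) (nat_lit 1216) (nat_lit 35582961033) (nat_lit 1292) (nat_lit 508965279) (nat_lit 241) (nat_lit 5) (nat_lit 257) (nat_lit 5) (nat_lit 258) (nat_lit 5) (nat_lit 400) (nat_lit 388) (nat_lit 112))) (XT.nd (nat_lit 78) (nat_lit 0) (nat_lit 0) (XT.lf (nat_lit 0) (nat_lit 34096324132) (nat_lit 1216) (nat_lit 2547947112) (nat_lit 1292) (nat_lit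 30374510027) (nat_lit 241) (nat_lit 5) (nat_lit 257) (nat_lit 5) (nat_lit 258) (nat_lit 5) (nat_lit 401) (nat_lit 388) (nat_lit 111)) (XT.lf (nat_lit 76) (nat_lit 32104119345) (nat_lit 0) (nat_lit 6648650507) (nat_lit 1292) (nat_lit 29340652230) (nat_lit 242) (nat_lit 5) (nat_lit 241) (nat_lit 5) (nat_lit 258) (nat_lit 5) (nat_lit 402) (nat_lit 388) (nat_lit 110))))) (XT.nd (nat_lit 234) (nat_lit 2432) (nat_lit 0) (XT.nd (nat_lit 78) (nat_lit 0) (nat_lit 0) (XT.lf (nat_lit 0) (nat_lit 43807389578) (nat_lit 1216) (nat_lit 1585361387) (nat_lit 1292) (nat_lit 23799797025) (nat_lit 242) (nat_lit 5) (nat_lit 258) (nat_lit 5) (nat_lit 259) (nat_lit 5) (nat_lit 403) (nat_lit 388) (nat_lit 109)) (XT.nd (nat_lit 78) (nat_lit 0) (nat_lit 76) (XT.lf (nat_lit 76) (nat_lit 34456780665) (nat_lit 0) (nat_lit 14953353139) (nat_lit 1292) (nat_lit 20902619580) (nat_lit 243) (nat_lit 5) (nat_lit 242) (nat_lit 5) (nat_lit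 259) (nat_lit 5) (nat_lit 404) (nat_lit 388) (nat_lit 108)) (XT.lf (nat_lit 0) (nat_lit 55354218133) (nat_lit 1216) (nat_lit 11675528) (nat_lit 76) (nat_lit 16095473823) (nat_lit 243) (nat_lit 5) (nat_lit 259) (nat_lit 5) (nat_lit 244) (nat_lit 5) (nat_lit 405) (nat_lit 388) (nat_lit 107)))) (XT.nd (nat_lit 156) (nat_lit 684) (nat_lit 0) (XT.nd (nat_lit 78) (nat_lit 608) (nat_lit 0) (XT.lf (nat_lit 0) (nat_lit 37491018018) (nat_lit 1216) (nat_lit 24493513400) (nat_lit 1292) (nat_lit 10644671663) (nat_lit 227) (nat_lit 5) (nat_lit 243) (nat_lit 5) (nat_lit 244) (nat_lit 5) (nat_lit 406) (nat_lit 388) (nat_lit 106)) (XT.lf (nat_lit 0) (nat_lit 2260371494) (nat_lit 608) (nat_lit 66644928778) (nat_lit 684) (nat_lit 4924027350) (nat_lit 219) (nat_lit 5) (nat_lit 227) (nat_lit 5) (nat_lit 228) (nat_lit 5) (nat_lit 407) (nat_lit 388) (nat_lit 105))) (XT.nd (nat_lit 78) (nat_lit 608) (nat_lit 0) (XT.lf (nat_lit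 0) (nat_lit 1549676336) (nat_lit 684) (nat_lit 33809440627) (nat_lit 76) (nat_lit 39688049949) (nat_lit 218) (nat_lit 5) (nat_lit 227) (nat_lit 5) (nat_lit 219) (nat_lit 5) (nat_lit 408) (nat_lit 388) (nat_lit 104)) (XT.lf (nat_lit 0) (nat_lit 5133818757) (nat_lit 608) (nat_lit 3033652624) (nat_lit 684) (nat_lit 68131142208) (nat_lit 210) (nat_lit 5) (nat_lit 218) (nat_lit 5) (nat_lit 219) (nat_lit 5) (nat_lit 409) (nat_lit 388) (nat_lit 103))))))))
noncomputable def xc252 : XT := (XT.nd (nat_lit 46956) (nat_lit 0) (nat_lit 0) (XT.nd (nat_lit 45864) (nat_lit 0) (nat_lit 1140) (XT.nd (nat_lit 45318) (nat_lit 0) (nat_lit 3040) (XT.nd (nat_lit 234) (nat_lit 532) (nat_lit 0) (XT.nd (nat_lit 78) (nat_lit 608) (nat_lit 0) (XT.lf (nat_lit 0) (nat_lit 15618991717) (nat_lit 684) (nat_lit 31933676914) (nat_lit 76) (nat_lit 30015879523) (nat_lit 210) (nat_lit 5) (nat_lit 219) (nat_lit 5) (nat_lit 211) (nat_lit 5)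 (nat_lit 410) (nat_lit 388) (nat_lit 102)) (XT.nd (nat_lit 78) (nat_lit 0) (nat_lit 0) (XT.lf (nat_lit 0) (nat_lit 8611923196) (nat_lit 608) (nat_lit 14794477313) (nat_lit 684) (nat_lit 55466810186) (nat_lit 202) (nat_lit 5) (nat_lit 210) (nat_lit 5) (nat_lit 211) (nat_lit 5) (nat_lit 411) (nat_lit 388) (nat_lit 101)) (XT.lf (nat_lit 0) (nat_lit 31934749921) (nat_lit 684) (nat_lit 29364630971) (nat_lit 76) (nat_lit 18902412888) (nat_lit 202) (nat_lit 5) (nat_lit 211) (nat_lit 5) (nat_lit 203) (nat_lit 5) (nat_lit 412) (nat_lit 388) (nat_lit 100)))) (XT.nd (nat_lit 78) (nat_lit 0) (nat_lit 0) (XT.lf (nat_lit 0) (nat_lit 12862987769) (nat_lit 532) (nat_lit 28125635648) (nat_lit 608) (nat_lit 40573520945) (nat_lit 195) (nat_lit 5) (nat_lit 202) (nat_lit 5) (nat_lit 203) (nat_lit 5) (nat_lit 413) (nat_lit 388) (nat_lit 99)) (XT.nd (nat_lit 44928) (nat_lit 0) (nat_lit 3040) (XT.lf (nat_lit 0) (nat_lit 50671221741)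 (nat_lit 608) (nat_lit 26056526131) (nat_lit 76) (nat_lit 6224844537) (nat_lit 195) (nat_lit 5) (nat_lit 203) (nat_lit 5) (nat_lit 196) (nat_lit 5) (nat_lit 414) (nat_lit 388) (nat_lit 98)) (XT.lf (nat_lit 0) (nat_lit 3680036895) (nat_lit 1292) (nat_lit 12300057411) (nat_lit 1292) (nat_lit 12300057411) (nat_lit 235) (nat_lit 3) (nat_lit 252) (nat_lit 3) (nat_lit 252) (nat_lit 5) (nat_lit 389) (nat_lit 389) (nat_lit 122))))) (XT.nd (nat_lit 234) (nat_lit 0) (nat_lit 152) (XT.nd (nat_lit 78) (nat_lit 0) (nat_lit 76) (XT.lf (nat_lit 76) (nat_lit 2481962520) (nat_lit 0) (nat_lit 5032463987) (nat_lit 1292) (nat_lit 49892952520) (nat_lit 236) (nat_lit 5) (nat_lit 235) (nat_lit 3) (nat_lit 252) (nat_lit 5) (nat_lit 390) (nat_lit 389) (nat_lit 121)) (XT.nd (nat_lit 78) (nat_lit 0) (nat_lit 0) (XT.lf (nat_lit 0) (nat_lit 8141733738) (nat_lit 1216) (nat_lit 27612769393) (nat_lit 1292) (nat_lit 22511314442) (nat_lit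 236) (nat_lit 5) (nat_lit 252) (nat_lit 5) (nat_lit 253) (nat_lit 5) (nat_lit 391) (nat_lit 389) (nat_lit 120)) (XT.lf (nat_lit 76) (nat_lit 478337892) (nat_lit 0) (nat_lit 8363185058) (nat_lit 1292) (nat_lit 50306876838) (nat_lit 237) (nat_lit 5) (nat_lit 236) (nat_lit 5) (nat_lit 253) (nat_lit 5) (nat_lit 392) (nat_lit 389) (nat_lit 119)))) (XT.nd (nat_lit 156) (nat_lit 0) (nat_lit 76) (XT.nd (nat_lit 78) (nat_lit 0) (nat_lit 0) (XT.lf (nat_lit 0) (nat_lit 10033970044) (nat_lit 1216) (nat_lit 30264899735) (nat_lit 1292) (nat_lit 19744440148) (nat_lit 237) (nat_lit 5) (nat_lit 253) (nat_lit 5) (nat_lit 254) (nat_lit 5) (nat_lit 393) (nat_lit 389) (nat_lit 118)) (XT.lf (nat_lit 0) (nat_lit 11344275447) (nat_lit 1216) (nat_lit 1090822005) (nat_lit 1292) (nat_lit 48527507743) (nat_lit 237) (nat_lit 5) (nat_lit 253) (nat_lit 5) (nat_lit 254) (nat_lit 5) (nat_lit 394) (nat_lit 389) (nat_lit 117))) (XT.nd (nat_lit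 78) (nat_lit 0) (nat_lit 0) (XT.lf (nat_lit 0) (nat_lit 13136253269) (nat_lit 1216) (nat_lit 32525764939) (nat_lit 1292) (nat_lit 16234190575) (nat_lit 238) (nat_lit 5) (nat_lit 254) (nat_lit 5) (nat_lit 255) (nat_lit 5) (nat_lit 395) (nat_lit 389) (nat_lit 116)) (XT.lf (nat_lit 0) (nat_lit 15115555284) (nat_lit 1216) (nat_lit 2213252396) (nat_lit 1292) (nat_lit 45525006204) (nat_lit 238) (nat_lit 5) (nat_lit 254) (nat_lit 5) (nat_lit 255) (nat_lit 5) (nat_lit 396) (nat_lit 389) (nat_lit 115)))))) (XT.nd (nat_lit 546) (nat_lit 2204) (nat_lit 0) (XT.nd (nat_lit 234) (nat_lit 0) (nat_lit 76) (XT.nd (nat_lit 78) (nat_lit 0) (nat_lit 0) (XT.lf (nat_lit 0) (nat_lit 17554740912) (nat_lit 1216) (nat_lit 34362878569) (nat_lit 1292) (nat_lit 11910512861) (nat_lit 239) (nat_lit 5) (nat_lit 255) (nat_lit 5) (nat_lit 256) (nat_lit 5) (nat_lit 397) (nat_lit 389) (nat_lit 114)) (XT.nd (nat_lit 78) (nat_lit 0) (nat_lit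 76) (XT.lf (nat_lit 0) (nat_lit 20260603120) (nat_lit 1216) (nat_lit 2863765541) (nat_lit 1292) (nat_lit 41701506993) (nat_lit 239) (nat_lit 5) (nat_lit 255) (nat_lit 5) (nat_lit 256) (nat_lit 5) (nat_lit 398) (nat_lit 389) (nat_lit 113)) (XT.lf (nat_lit 0) (nat_lit 23402685872) (nat_lit 1216) (nat_lit 35741954563) (nat_lit 1292) (nat_lit 6698259810) (nat_lit 240) (nat_lit 5) (nat_lit 256) (nat_lit 5) (nat_lit 257) (nat_lit 5) (nat_lit 399) (nat_lit 389) (nat_lit 112)))) (XT.nd (nat_lit 156) (nat_lit 0) (nat_lit 76) (XT.nd (nat_lit 78) (nat_lit 0) (nat_lit 76) (XT.lf (nat_lit 0) (nat_lit 26896582320) (nat_lit 1216) (nat_lit 3005955591) (nat_lit 1292) (nat_lit 36980171438) (nat_lit 240) (nat_lit 5) (nat_lit 256) (nat_lit 5) (nat_lit 257) (nat_lit 5) (nat_lit 400) (nat_lit 389) (nat_lit 111)) (XT.lf (nat_lit 0) (nat_lit 30800867551) (nat_lit 1216) (nat_lit 36626855272) (nat_lit 1292) (nat_lit 516823050) (nat_lit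 241) (nat_lit 5) (nat_lit 257) (nat_lit 5) (nat_lit 258) (nat_lit 5) (nat_lit 401) (nat_lit 389) (nat_lit 110))) (XT.nd (nat_lit 78) (nat_lit 0) (nat_lit 0) (XT.lf (nat_lit 0) (nat_lit 35148425311) (nat_lit 1216) (nat_lit 2601478154) (nat_lit 1292) (nat_lit 31278550000) (nat_lit 241) (nat_lit 5) (nat_lit 257) (nat_lit 5) (nat_lit 258) (nat_lit 5) (nat_lit 402) (nat_lit 389) (nat_lit 109)) (XT.lf (nat_lit 76) (nat_lit 33089925714) (nat_lit 0) (nat_lit 6854005910) (nat_lit 1292) (nat_lit 30191421294) (nat_lit 242) (nat_lit 5) (nat_lit 241) (nat_lit 5) (nat_lit 258) (nat_lit 5) (nat_lit 403) (nat_lit 389) (nat_lit 108))))) (XT.nd (nat_lit 234) (nat_lit 1292) (nat_lit 0) (XT.nd (nat_lit 78) (nat_lit 1140) (nat_lit 0) (XT.lf (nat_lit 0) (nat_lit 45149302529) (nat_lit 1216) (nat_lit 1609998646) (nat_lit 1292) (nat_lit 24508178472) (nat_lit 242) (nat_lit 5) (nat_lit 258) (nat_lit 5) (nat_lit 259) (nat_lit 5) (nat_lit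 404) (nat_lit 389) (nat_lit 107)) (XT.nd (nat_lit 78) (nat_lit 1140) (nat_lit 0) (XT.lf (nat_lit 76) (nat_lit 35513182926) (nat_lit 0) (nat_lit 15406357809) (nat_lit 1292) (nat_lit 21501768527) (nat_lit 243) (nat_lit 5) (nat_lit 242) (nat_lit 5) (nat_lit 259) (nat_lit 5) (nat_lit 405) (nat_lit 389) (nat_lit 106)) (XT.lf (nat_lit 0) (nat_lit 11071710) (nat_lit 1216) (nat_lit 57030151805) (nat_lit 1292) (nat_lit 16563180389) (nat_lit 227) (nat_lit 5) (nat_lit 243) (nat_lit 5) (nat_lit 244) (nat_lit 5) (nat_lit 406) (nat_lit 389) (nat_lit 105)))) (XT.nd (nat_lit 156) (nat_lit 684) (nat_lit 0) (XT.nd (nat_lit 78) (nat_lit 608) (nat_lit 0) (XT.lf (nat_lit 0) (nat_lit 38638405685) (nat_lit 1216) (nat_lit 25231386663) (nat_lit 1292) (nat_lit 10937502222) (nat_lit 227) (nat_lit 5) (nat_lit 243) (nat_lit 5) (nat_lit 244) (nat_lit 5) (nat_lit 407) (nat_lit 389) (nat_lit 104)) (XT.lf (nat_lit 0) (nat_lit 2351423749)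 (nat_lit 608) (nat_lit 68646206025) (nat_lit 684) (nat_lit 5045810084) (nat_lit 219) (nat_lit 5) (nat_lit 227) (nat_lit 5) (nat_lit 228) (nat_lit 5) (nat_lit 408) (nat_lit 389) (nat_lit 103))) (XT.nd (nat_lit 78) (nat_lit 608) (nat_lit 0) (XT.lf (nat_lit 0) (nat_lit 1620857832) (nat_lit 684) (nat_lit 34800656496) (nat_lit 76) (nat_lit 40876315094) (nat_lit 218) (nat_lit 5) (nat_lit 227) (nat_lit 5) (nat_lit 219) (nat_lit 5) (nat_lit 409) (nat_lit 389) (nat_lit 102)) (XT.lf (nat_lit 0) (nat_lit 5310674519) (nat_lit 608) (nat_lit 3126012611) (nat_lit 684) (nat_lit 70150147699) (nat_lit 210) (nat_lit 5) (nat_lit 218) (nat_lit 5) (nat_lit 219) (nat_lit 5) (nat_lit 410) (nat_lit 389) (nat_lit 101))))))) (XT.nd (nat_lit 45942) (nat_lit 0) (nat_lit 1140) (XT.nd (nat_lit 45396) (nat_lit 0) (nat_lit 3116) (XT.nd (nat_lit 234) (nat_lit 532) (nat_lit 0) (XT.nd (nat_lit 78) (nat_lit 608) (nat_lit 0) (XT.lf (nat_lit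 0) (nat_lit 16111035863) (nat_lit 684) (nat_lit 32868783000) (nat_lit 76) (nat_lit 30915070416) (nat_lit 210) (nat_lit 5) (nat_lit 219) (nat_lit 5) (nat_lit 211) (nat_lit 5) (nat_lit 411) (nat_lit 389) (nat_lit 100)) (XT.nd (nat_lit 78) (nat_lit 0) (nat_lit 0) (XT.lf (nat_lit 0) (nat_lit 8892960562) (nat_lit 608) (nat_lit 15238640648) (nat_lit 684) (nat_lit 57107104781) (nat_lit 202) (nat_lit 5) (nat_lit 210) (nat_lit 5) (nat_lit 211) (nat_lit 5) (nat_lit 412) (nat_lit 389) (nat_lit 99)) (XT.lf (nat_lit 0) (nat_lit 32915127878) (nat_lit 684) (nat_lit 30222867126) (nat_lit 76) (nat_lit 19469172076) (nat_lit 202) (nat_lit 5) (nat_lit 211) (nat_lit 5) (nat_lit 203) (nat_lit 5) (nat_lit 413) (nat_lit 389) (nat_lit 98)))) (XT.nd (nat_lit 45006) (nat_lit 0) (nat_lit 3040) (XT.lf (nat_lit 0) (nat_lit 13271357600) (nat_lit 532) (nat_lit 28968825525) (nat_lit 608) (nat_lit 41768158392) (nat_lit 195) (nat_lit 5)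 (nat_lit 202) (nat_lit 5) (nat_lit 203) (nat_lit 5) (nat_lit 414) (nat_lit 389) (nat_lit 97)) (XT.nd (nat_lit 78) (nat_lit 0) (nat_lit 0) (XT.lf (nat_lit 0) (nat_lit 3810338319) (nat_lit 1292) (nat_lit 12658805314) (nat_lit 1292) (nat_lit 12658805314) (nat_lit 235) (nat_lit 3) (nat_lit 252) (nat_lit 3) (nat_lit 252) (nat_lit 5) (nat_lit 390) (nat_lit 390) (nat_lit 120)) (XT.lf (nat_lit 76) (nat_lit 2576727980) (nat_lit 0) (nat_lit 5201967915) (nat_lit 1292) (nat_lit 51349719381) (nat_lit 236) (nat_lit 5) (nat_lit 235) (nat_lit 3) (nat_lit 252) (nat_lit 5) (nat_lit 391) (nat_lit 390) (nat_lit 119))))) (XT.nd (nat_lit 234) (nat_lit 0) (nat_lit 76) (XT.nd (nat_lit 78) (nat_lit 0) (nat_lit 0) (XT.lf (nat_lit 0) (nat_lit 8423518247) (nat_lit 1216) (nat_lit 28420113807) (nat_lit 1292) (nat_lit 23169014632) (nat_lit 236) (nat_lit 5) (nat_lit 252) (nat_lit 5) (nat_lit 253) (nat_lit 5) (nat_lit 392) (nat_lit 390)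 (nat_lit 118)) (XT.nd (nat_lit 78) (nat_lit 0) (nat_lit 76) (XT.lf (nat_lit 76) (nat_lit 513520435) (nat_lit 0) (nat_lit 8629887774) (nat_lit 1292) (nat_lit 51778325511) (nat_lit 237) (nat_lit 5) (nat_lit 236) (nat_lit 5) (nat_lit 253) (nat_lit 5) (nat_lit 393) (nat_lit 390) (nat_lit 117)) (XT.lf (nat_lit 0) (nat_lit 10370414021) (nat_lit 1216) (nat_lit 31151388070) (nat_lit 1292) (nat_lit 20321726062) (nat_lit 237) (nat_lit 5) (nat_lit 253) (nat_lit 5) (nat_lit 254) (nat_lit 5) (nat_lit 394) (nat_lit 390) (nat_lit 116)))) (XT.nd (nat_lit 156) (nat_lit 0) (nat_lit 76) (XT.nd (nat_lit 78) (nat_lit 0) (nat_lit 76) (XT.lf (nat_lit 0) (nat_lit 11718996794) (nat_lit 1216) (nat_lit 1102713017) (nat_lit 1292) (nat_lit 49968723955) (nat_lit 237) (nat_lit 5) (nat_lit 253) (nat_lit 5) (nat_lit 254) (nat_lit 5) (nat_lit 395) (nat_lit 390) (nat_lit 115)) (XT.lf (nat_lit 0) (nat_lit 13563805931) (nat_lit 1216) (nat_lit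 33479758947) (nat_lit 1292) (nat_lit 16708508943) (nat_lit 238) (nat_lit 5) (nat_lit 254) (nat_lit 5) (nat_lit 255) (nat_lit 5) (nat_lit 396) (nat_lit 390) (nat_lit 114))) (XT.nd (nat_lit 78) (nat_lit 0) (nat_lit 76) (XT.lf (nat_lit 0) (nat_lit 15601512296) (nat_lit 1216) (nat_lit 2258505365) (nat_lit 1292) (nat_lit 46878419159) (nat_lit 238) (nat_lit 5) (nat_lit 254) (nat_lit 5) (nat_lit 255) (nat_lit 5) (nat_lit 397) (nat_lit 390) (nat_lit 113)) (XT.lf (nat_lit 0) (nat_lit 18113024540) (nat_lit 1216) (nat_lit 35371755091) (nat_lit 1292) (nat_lit 12257231158) (nat_lit 239) (nat_lit 5) (nat_lit 255) (nat_lit 5) (nat_lit 256) (nat_lit 5) (nat_lit 398) (nat_lit 390) (nat_lit 112)))))) (XT.nd (nat_lit 546) (nat_lit 2204) (nat_lit 0) (XT.nd (nat_lit 234) (nat_lit 0) (nat_lit 152) (XT.nd (nat_lit 78) (nat_lit 0) (nat_lit 76) (XT.lf (nat_lit 0) (nat_lit 20899141021) (nat_lit 1216) (nat_lit 2928309735) (nat_lit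 1292) (nat_lit 42942263766) (nat_lit 239) (nat_lit 5) (nat_lit 255) (nat_lit 5) (nat_lit 256) (nat_lit 5) (nat_lit 399) (nat_lit 390) (nat_lit 111)) (XT.nd (nat_lit 78) (nat_lit 0) (nat_lit 0) (XT.lf (nat_lit 0) (nat_lit 24134709644) (nat_lit 1216) (nat_lit 36792052470) (nat_lit 1292) (nat_lit 6890511497) (nat_lit 240) (nat_lit 5) (nat_lit 256) (nat_lit 5) (nat_lit 257) (nat_lit 5) (nat_lit 400) (nat_lit 390) (nat_lit 110)) (XT.lf (nat_lit 0) (nat_lit 27732550853) (nat_lit 1216) (nat_lit 3074618987) (nat_lit 1292) (nat_lit 38081133759) (nat_lit 240) (nat_lit 5) (nat_lit 256) (nat_lit 5) (nat_lit 257) (nat_lit 5) (nat_lit 401) (nat_lit 390) (nat_lit 109)))) (XT.nd (nat_lit 156) (nat_lit 0) (nat_lit 0) (XT.nd (nat_lit 78) (nat_lit 0) (nat_lit 0) (XT.lf (nat_lit 0) (nat_lit 31753254213) (nat_lit 1216) (nat_lit 37703420764) (nat_lit 1292) (nat_lit 525341987) (nat_lit 241) (nat_lit 5) (nat_lit 257) (nat_lit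 5) (nat_lit 258) (nat_lit 5) (nat_lit 402) (nat_lit 390) (nat_lit 108)) (XT.lf (nat_lit 0) (nat_lit 36230412669) (nat_lit 1216) (nat_lit 2657930105) (nat_lit 1292) (nat_lit 32210124214) (nat_lit 241) (nat_lit 5) (nat_lit 257) (nat_lit 5) (nat_lit 258) (nat_lit 5) (nat_lit 403) (nat_lit 390) (nat_lit 107))) (XT.nd (nat_lit 78) (nat_lit 0) (nat_lit 76) (XT.lf (nat_lit 76) (nat_lit 34104004189) (nat_lit 0) (nat_lit 7065183527) (nat_lit 1292) (nat_lit 31069404009) (nat_lit 242) (nat_lit 5) (nat_lit 241) (nat_lit 5) (nat_lit 258) (nat_lit 5) (nat_lit 404) (nat_lit 390) (nat_lit 106)) (XT.lf (nat_lit 0) (nat_lit 46529883277) (nat_lit 1216) (nat_lit 1636690931) (nat_lit 1292) (nat_lit 25238133540) (nat_lit 242) (nat_lit 5) (nat_lit 258) (nat_lit 5) (nat_lit 259) (nat_lit 5) (nat_lit 405) (nat_lit 390) (nat_lit 105))))) (XT.nd (nat_lit 234) (nat_lit 1292) (nat_lit 0) (XT.nd (nat_lit 78) (nat_lit 1140) (nat_lit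 0) (XT.lf (nat_lit 76) (nat_lit 36599974249) (nat_lit 0) (nat_lit 15872699807) (nat_lit 1292) (nat_lit 22120495218) (nat_lit 243) (nat_lit 5) (nat_lit 242) (nat_lit 5) (nat_lit 259) (nat_lit 5) (nat_lit 406) (nat_lit 390) (nat_lit 104)) (XT.nd (nat_lit 78) (nat_lit 0) (nat_lit 0) (XT.lf (nat_lit 0) (nat_lit 33401072) (nat_lit 1216) (nat_lit 58744034865) (nat_lit 1292) (nat_lit 17034338334) (nat_lit 227) (nat_lit 5) (nat_lit 243) (nat_lit 5) (nat_lit 244) (nat_lit 5) (nat_lit 407) (nat_lit 390) (nat_lit 103)) (XT.lf (nat_lit 0) (nat_lit 39818914372) (nat_lit 1216) (nat_lit 25991220017) (nat_lit 1292) (nat_lit 11240639456) (nat_lit 227) (nat_lit 5) (nat_lit 243) (nat_lit 5) (nat_lit 244) (nat_lit 5) (nat_lit 408) (nat_lit 390) (nat_lit 102)))) (XT.nd (nat_lit 156) (nat_lit 608) (nat_lit 0) (XT.nd (nat_lit 78) (nat_lit 76) (nat_lit 0) (XT.lf (nat_lit 0) (nat_lit 2443873437) (nat_lit 608) (nat_lit 70707410835)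 (nat_lit 684) (nat_lit 5172735251) (nat_lit 219) (nat_lit 5) (nat_lit 227) (nat_lit 5) (nat_lit 228) (nat_lit 5) (nat_lit 409) (nat_lit 390) (nat_lit 101)) (XT.lf (nat_lit 0) (nat_lit 1692757396) (nat_lit 684) (nat_lit 35822933001) (nat_lit 76) (nat_lit 42100364606) (nat_lit 218) (nat_lit 5) (nat_lit 227) (nat_lit 5) (nat_lit 219) (nat_lit 5) (nat_lit 410) (nat_lit 390) (nat_lit 100))) (XT.nd (nat_lit 78) (nat_lit 0) (nat_lit 0) (XT.lf (nat_lit 0) (nat_lit 5491524776) (nat_lit 608) (nat_lit 3221065878) (nat_lit 684) (nat_lit 72231154368) (nat_lit 210) (nat_lit 5) (nat_lit 218) (nat_lit 5) (nat_lit 219) (nat_lit 5) (nat_lit 411) (nat_lit 390) (nat_lit 99)) (XT.lf (nat_lit 0) (nat_lit 16616493808) (nat_lit 684) (nat_lit 33833257065) (nat_lit 76) (nat_lit 31841310829) (nat_lit 210) (nat_lit 5) (nat_lit 219) (nat_lit 5) (nat_lit 211) (nat_lit 5) (nat_lit 412) (nat_lit 390) (nat_lit 98))))))))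
noncomputable def xc253 : XT := (XT.nd (nat_lit 92430) (nat_lit 0) (nat_lit 1216) (XT.nd (nat_lit 46098) (nat_lit 0) (nat_lit 608) (XT.nd (nat_lit 45552) (nat_lit 0) (nat_lit 2660) (XT.nd (nat_lit 45318) (nat_lit 0) (nat_lit 2584) (XT.nd (nat_lit 45162) (nat_lit 0) (nat_lit 2508) (XT.lf (nat_lit 0) (nat_lit 9181127143) (nat_lit 608) (nat_lit 15696109996) (nat_lit 684) (nat_lit 58797969249) (nat_lit 202) (nat_lit 5) (nat_lit 210) (nat_lit 5) (nat_lit 211) (nat_lit 5) (nat_lit 413) (nat_lit 390) (nat_lit 97)) (XT.nd (nat_lit 78) (nat_lit 0) (nat_lit 0) (XT.lf (nat_lit 0) (nat_lit 3943406427) (nat_lit 1292) (nat_lit 13028904265) (nat_lit 1292) (nat_lit 13028904265) (nat_lit 235) (nat_lit 3) (nat_lit 252) (nat_lit 3) (nat_lit 252) (nat_lit 5) (nat_lit 391) (nat_lit 391) (nat_lit 118)) (XT.lf (nat_lit 76) (nat_lit 2673170723) (nat_lit 0) (nat_lit 5375493262) (nat_lit 1292) (nat_lit 52852486658) (nat_lit 236)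 (nat_lit 5) (nat_lit 235) (nat_lit 3) (nat_lit 252) (nat_lit 5) (nat_lit 392) (nat_lit 391) (nat_lit 117)))) (XT.nd (nat_lit 78) (nat_lit 0) (nat_lit 0) (XT.lf (nat_lit 0) (nat_lit 8711601771) (nat_lit 1216) (nat_lit 29252886259) (nat_lit 1292) (nat_lit 23847458391) (nat_lit 236) (nat_lit 5) (nat_lit 252) (nat_lit 5) (nat_lit 253) (nat_lit 5) (nat_lit 393) (nat_lit 391) (nat_lit 116)) (XT.nd (nat_lit 78) (nat_lit 0) (nat_lit 76) (XT.lf (nat_lit 76) (nat_lit 548562590) (nat_lit 0) (nat_lit 8903684175) (nat_lit 1292) (nat_lit 53296085087) (nat_lit 237) (nat_lit 5) (nat_lit 236) (nat_lit 5) (nat_lit 253) (nat_lit 5) (nat_lit 394) (nat_lit 391) (nat_lit 115)) (XT.lf (nat_lit 0) (nat_lit 10714917785) (nat_lit 1216) (nat_lit 32065702870) (nat_lit 1292) (nat_lit 20917194329) (nat_lit 237) (nat_lit 5) (nat_lit 253) (nat_lit 5) (nat_lit 254) (nat_lit 5) (nat_lit 395) (nat_lit 391) (nat_lit 114))))) (XT.nd (nat_lit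 234) (nat_lit 0) (nat_lit 152) (XT.nd (nat_lit 78) (nat_lit 0) (nat_lit 76) (XT.lf (nat_lit 0) (nat_lit 12102985477) (nat_lit 1216) (nat_lit 1116156697) (nat_lit 1292) (nat_lit 51454015271) (nat_lit 237) (nat_lit 5) (nat_lit 253) (nat_lit 5) (nat_lit 254) (nat_lit 5) (nat_lit 396) (nat_lit 391) (nat_lit 113)) (XT.nd (nat_lit 78) (nat_lit 0) (nat_lit 0) (XT.lf (nat_lit 0) (nat_lit 14002264141) (nat_lit 1216) (nat_lit 34463622976) (nat_lit 1292) (nat_lit 17197786317) (nat_lit 238) (nat_lit 5) (nat_lit 254) (nat_lit 5) (nat_lit 255) (nat_lit 5) (nat_lit 397) (nat_lit 391) (nat_lit 112)) (XT.lf (nat_lit 0) (nat_lit 16100182938) (nat_lit 1216) (nat_lit 2306329711) (nat_lit 1292) (nat_lit 48273142710) (nat_lit 238) (nat_lit 5) (nat_lit 254) (nat_lit 5) (nat_lit 255) (nat_lit 5) (nat_lit 398) (nat_lit 391) (nat_lit 111)))) (XT.nd (nat_lit 156) (nat_lit 0) (nat_lit 76) (XT.nd (nat_lit 78) (nat_lit 0) (nat_lit 0)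 (XT.lf (nat_lit 0) (nat_lit 18686240332) (nat_lit 1216) (nat_lit 36412161363) (nat_lit 1292) (nat_lit 12614959319) (nat_lit 239) (nat_lit 5) (nat_lit 255) (nat_lit 5) (nat_lit 256) (nat_lit 5) (nat_lit 399) (nat_lit 391) (nat_lit 110)) (XT.lf (nat_lit 0) (nat_lit 21555071616) (nat_lit 1216) (nat_lit 2996016910) (nat_lit 1292) (nat_lit 44220833841) (nat_lit 239) (nat_lit 5) (nat_lit 255) (nat_lit 5) (nat_lit 256) (nat_lit 5) (nat_lit 400) (nat_lit 391) (nat_lit 109))) (XT.nd (nat_lit 78) (nat_lit 0) (nat_lit 0) (XT.lf (nat_lit 0) (nat_lit 24886975266) (nat_lit 1216) (nat_lit 37874925430) (nat_lit 1292) (nat_lit 7089029926) (nat_lit 240) (nat_lit 5) (nat_lit 256) (nat_lit 5) (nat_lit 257) (nat_lit 5) (nat_lit 401) (nat_lit 391) (nat_lit 108)) (XT.lf (nat_lit 0) (nat_lit 28591929644) (nat_lit 1216) (nat_lit 3146577348) (nat_lit 1292) (nat_lit 39215609602) (nat_lit 240) (nat_lit 5) (nat_lit 256) (nat_lit 5)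 (nat_lit 257) (nat_lit 5) (nat_lit 402) (nat_lit 391) (nat_lit 107)))))) (XT.nd (nat_lit 546) (nat_lit 1292) (nat_lit 0) (XT.nd (nat_lit 234) (nat_lit 1064) (nat_lit 0) (XT.nd (nat_lit 78) (nat_lit 0) (nat_lit 0) (XT.lf (nat_lit 0) (nat_lit 32732584459) (nat_lit 1216) (nat_lit 38813559898) (nat_lit 1292) (nat_lit 534517502) (nat_lit 241) (nat_lit 5) (nat_lit 257) (nat_lit 5) (nat_lit 258) (nat_lit 5) (nat_lit 403) (nat_lit 391) (nat_lit 106)) (XT.nd (nat_lit 78) (nat_lit 0) (nat_lit 0) (XT.lf (nat_lit 0) (nat_lit 37343279048) (nat_lit 1216) (nat_lit 2717315106) (nat_lit 1292) (nat_lit 33170034985) (nat_lit 241) (nat_lit 5) (nat_lit 257) (nat_lit 5) (nat_lit 258) (nat_lit 5) (nat_lit 404) (nat_lit 391) (nat_lit 105)) (XT.lf (nat_lit 76) (nat_lit 35147277679) (nat_lit 0) (nat_lit 7282377453) (nat_lit 1292) (nat_lit 31975319739) (nat_lit 242) (nat_lit 5) (nat_lit 241) (nat_lit 5) (nat_lit 258) (nat_lit 5)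 (nat_lit 405) (nat_lit 391) (nat_lit 104)))) (XT.nd (nat_lit 156) (nat_lit 1140) (nat_lit 0) (XT.nd (nat_lit 78) (nat_lit 0) (nat_lit 0) (XT.lf (nat_lit 0) (nat_lit 47950383105) (nat_lit 1216) (nat_lit 1665424353) (nat_lit 1292) (nat_lit 25990290945) (nat_lit 242) (nat_lit 5) (nat_lit 258) (nat_lit 5) (nat_lit 259) (nat_lit 5) (nat_lit 406) (nat_lit 391) (nat_lit 103)) (XT.lf (nat_lit 76) (nat_lit 37718141103) (nat_lit 0) (nat_lit 16352793766) (nat_lit 1292) (nat_lit 22759294951) (nat_lit 243) (nat_lit 5) (nat_lit 242) (nat_lit 5) (nat_lit 259) (nat_lit 5) (nat_lit 407) (nat_lit 391) (nat_lit 102))) (XT.nd (nat_lit 78) (nat_lit 0) (nat_lit 0) (XT.lf (nat_lit 0) (nat_lit 55137586) (nat_lit 1216) (nat_lit 60509163439) (nat_lit 1292) (nat_lit 17521108452) (nat_lit 227) (nat_lit 5) (nat_lit 243) (nat_lit 5) (nat_lit 244) (nat_lit 5) (nat_lit 408) (nat_lit 391) (nat_lit 101)) (XT.lf (nat_lit 0) (nat_lit 41033612367)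 (nat_lit 1216) (nat_lit 26773682373) (nat_lit 1292) (nat_lit 11554305212) (nat_lit 227) (nat_lit 5) (nat_lit 243) (nat_lit 5) (nat_lit 244) (nat_lit 5) (nat_lit 409) (nat_lit 391) (nat_lit 100))))) (XT.nd (nat_lit 45474) (nat_lit 0) (nat_lit 1900) (XT.nd (nat_lit 78) (nat_lit 684) (nat_lit 0) (XT.lf (nat_lit 0) (nat_lit 2537839065) (nat_lit 608) (nat_lit 72830347393) (nat_lit 684) (nat_lit 5304871654) (nat_lit 219) (nat_lit 5) (nat_lit 227) (nat_lit 5) (nat_lit 228) (nat_lit 5) (nat_lit 410) (nat_lit 391) (nat_lit 99)) (XT.nd (nat_lit 78) (nat_lit 608) (nat_lit 0) (XT.lf (nat_lit 0) (nat_lit 1765477934) (nat_lit 684) (nat_lit 36877125949) (nat_lit 76) (nat_lit 43361264184) (nat_lit 218) (nat_lit 5) (nat_lit 227) (nat_lit 5) (nat_lit 219) (nat_lit 5) (nat_lit 411) (nat_lit 391) (nat_lit 98)) (XT.lf (nat_lit 0) (nat_lit 5676564629) (nat_lit 608) (nat_lit 3318897675) (nat_lit 684) (nat_lit 74375940105) (nat_lit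 210) (nat_lit 5) (nat_lit 218) (nat_lit 5) (nat_lit 219) (nat_lit 5) (nat_lit 412) (nat_lit 391) (nat_lit 97)))) (XT.nd (nat_lit 156) (nat_lit 0) (nat_lit 76) (XT.nd (nat_lit 78) (nat_lit 0) (nat_lit 0) (XT.lf (nat_lit 0) (nat_lit 4079389794) (nat_lit 1292) (nat_lit 13410661006) (nat_lit 1292) (nat_lit 13410661006) (nat_lit 235) (nat_lit 3) (nat_lit 252) (nat_lit 3) (nat_lit 252) (nat_lit 5) (nat_lit 392) (nat_lit 392) (nat_lit 116)) (XT.lf (nat_lit 76) (nat_lit 2771407982) (nat_lit 0) (nat_lit 5553221733) (nat_lit 1292) (nat_lit 54402502482) (nat_lit 236) (nat_lit 5) (nat_lit 235) (nat_lit 3) (nat_lit 252) (nat_lit 5) (nat_lit 393) (nat_lit 392) (nat_lit 115))) (XT.nd (nat_lit 78) (nat_lit 0) (nat_lit 0) (XT.lf (nat_lit 0) (nat_lit 9006296961) (nat_lit 1216) (nat_lit 30111780262) (nat_lit 1292) (nat_lit 24547209903) (nat_lit 236) (nat_lit 5) (nat_lit 252) (nat_lit 5) (nat_lit 253) (nat_lit 5) (nat_lit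 394) (nat_lit 392) (nat_lit 114)) (XT.lf (nat_lit 76) (nat_lit 583528791) (nat_lit 0) (nat_lit 9184839161) (nat_lit 1292) (nat_lit 54861420472) (nat_lit 237) (nat_lit 5) (nat_lit 236) (nat_lit 5) (nat_lit 253) (nat_lit 5) (nat_lit 395) (nat_lit 392) (nat_lit 113))))))) (XT.nd (nat_lit 1014) (nat_lit 1444) (nat_lit 0) (XT.nd (nat_lit 468) (nat_lit 0) (nat_lit 228) (XT.nd (nat_lit 234) (nat_lit 0) (nat_lit 76) (XT.nd (nat_lit 78) (nat_lit 0) (nat_lit 0) (XT.lf (nat_lit 0) (nat_lit 11067839862) (nat_lit 1216) (nat_lit 33008608218) (nat_lit 1292) (nat_lit 21531340836) (nat_lit 237) (nat_lit 5) (nat_lit 253) (nat_lit 5) (nat_lit 254) (nat_lit 5) (nat_lit 396) (nat_lit 392) (nat_lit 112)) (XT.nd (nat_lit 78) (nat_lit 0) (nat_lit 76) (XT.lf (nat_lit 0) (nat_lit 12496632851) (nat_lit 1216) (nat_lit 1131130972) (nat_lit 1292) (nat_lit 52984655805) (nat_lit 237) (nat_lit 5) (nat_lit 253) (nat_lit 5) (nat_lit 254)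 (nat_lit 5) (nat_lit 397) (nat_lit 392) (nat_lit 111)) (XT.lf (nat_lit 0) (nat_lit 14452065341) (nat_lit 1216) (nat_lit 35478181359) (nat_lit 1292) (nat_lit 17702429592) (nat_lit 238) (nat_lit 5) (nat_lit 254) (nat_lit 5) (nat_lit 255) (nat_lit 5) (nat_lit 398) (nat_lit 392) (nat_lit 110)))) (XT.nd (nat_lit 78) (nat_lit 0) (nat_lit 76) (XT.lf (nat_lit 0) (nat_lit 16612055685) (nat_lit 1216) (nat_lit 2356732897) (nat_lit 1292) (nat_lit 49710375520) (nat_lit 238) (nat_lit 5) (nat_lit 254) (nat_lit 5) (nat_lit 255) (nat_lit 5) (nat_lit 399) (nat_lit 392) (nat_lit 109)) (XT.nd (nat_lit 78) (nat_lit 0) (nat_lit 0) (XT.lf (nat_lit 0) (nat_lit 19274940517) (nat_lit 1216) (nat_lit 37484970750) (nat_lit 1292) (nat_lit 12983992722) (nat_lit 239) (nat_lit 5) (nat_lit 255) (nat_lit 5) (nat_lit 256) (nat_lit 5) (nat_lit 400) (nat_lit 392) (nat_lit 108)) (XT.lf (nat_lit 0) (nat_lit 22229017915) (nat_lit 1216) (nat_lit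 3066911540) (nat_lit 1292) (nat_lit 45538317714) (nat_lit 239) (nat_lit 5) (nat_lit 255) (nat_lit 5) (nat_lit 256) (nat_lit 5) (nat_lit 401) (nat_lit 392) (nat_lit 107))))) (XT.nd (nat_lit 234) (nat_lit 0) (nat_lit 76) (XT.nd (nat_lit 78) (nat_lit 0) (nat_lit 0) (XT.lf (nat_lit 0) (nat_lit 25660188666) (nat_lit 1216) (nat_lit 38991483670) (nat_lit 1292) (nat_lit 7293974445) (nat_lit 240) (nat_lit 5) (nat_lit 256) (nat_lit 5) (nat_lit 257) (nat_lit 5) (nat_lit 402) (nat_lit 392) (nat_lit 106)) (XT.nd (nat_lit 78) (nat_lit 0) (nat_lit 76) (XT.lf (nat_lit 0) (nat_lit 29475516797) (nat_lit 1216) (nat_lit 3221858628) (nat_lit 1292) (nat_lit 40384576551) (nat_lit 240) (nat_lit 5) (nat_lit 256) (nat_lit 5) (nat_lit 257) (nat_lit 5) (nat_lit 403) (nat_lit 392) (nat_lit 105)) (XT.lf (nat_lit 0) (nat_lit 33739760051) (nat_lit 1216) (nat_lit 39958206596) (nat_lit 1292) (nat_lit 544346274) (nat_lit 241) (nat_lit 5)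 (nat_lit 257) (nat_lit 5) (nat_lit 258) (nat_lit 5) (nat_lit 404) (nat_lit 392) (nat_lit 104)))) (XT.nd (nat_lit 156) (nat_lit 0) (nat_lit 76) (XT.nd (nat_lit 78) (nat_lit 0) (nat_lit 0) (XT.lf (nat_lit 0) (nat_lit 38488041554) (nat_lit 1216) (nat_lit 2779649996) (nat_lit 1292) (nat_lit 34159110061) (nat_lit 241) (nat_lit 5) (nat_lit 257) (nat_lit 5) (nat_lit 258) (nat_lit 5) (nat_lit 405) (nat_lit 392) (nat_lit 103)) (XT.lf (nat_lit 76) (nat_lit 36220692488) (nat_lit 0) (nat_lit 7505786490) (nat_lit 1292) (nat_lit 32909914998) (nat_lit 242) (nat_lit 5) (nat_lit 241) (nat_lit 5) (nat_lit 258) (nat_lit 5) (nat_lit 406) (nat_lit 392) (nat_lit 102))) (XT.nd (nat_lit 78) (nat_lit 0) (nat_lit 0) (XT.lf (nat_lit 0) (nat_lit 49412085596) (nat_lit 1216) (nat_lit 1696188944) (nat_lit 1292) (nat_lit 26765299323) (nat_lit 242) (nat_lit 5) (nat_lit 258) (nat_lit 5) (nat_lit 259) (nat_lit 5) (nat_lit 407) (nat_lit 392)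 (nat_lit 101)) (XT.lf (nat_lit 76) (nat_lit 38868695259) (nat_lit 0) (nat_lit 16847065924) (nat_lit 1292) (nat_lit 23418683165) (nat_lit 243) (nat_lit 5) (nat_lit 242) (nat_lit 5) (nat_lit 259) (nat_lit 5) (nat_lit 408) (nat_lit 392) (nat_lit 100)))))) (XT.nd (nat_lit 45864) (nat_lit 0) (nat_lit 1368) (XT.nd (nat_lit 234) (nat_lit 76) (nat_lit 0) (XT.nd (nat_lit 78) (nat_lit 608) (nat_lit 0) (XT.lf (nat_lit 0) (nat_lit 76335950) (nat_lit 1216) (nat_lit 62327084706) (nat_lit 1292) (nat_lit 18023874300) (nat_lit 227) (nat_lit 5) (nat_lit 243) (nat_lit 5) (nat_lit 244) (nat_lit 5) (nat_lit 409) (nat_lit 392) (nat_lit 99)) (XT.nd (nat_lit 78) (nat_lit 608) (nat_lit 0) (XT.lf (nat_lit 0) (nat_lit 42283595726) (nat_lit 1216) (nat_lit 27579462129) (nat_lit 1292) (nat_lit 11878733003) (nat_lit 227) (nat_lit 5) (nat_lit 243) (nat_lit 5) (nat_lit 244) (nat_lit 5) (nat_lit 410) (nat_lit 392) (nat_lit 98)) (XT.lf (nat_lit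 0) (nat_lit 2633438301) (nat_lit 608) (nat_lit 75016873643) (nat_lit 684) (nat_lit 5442295065) (nat_lit 219) (nat_lit 5) (nat_lit 227) (nat_lit 5) (nat_lit 228) (nat_lit 5) (nat_lit 411) (nat_lit 392) (nat_lit 97)))) (XT.nd (nat_lit 45474) (nat_lit 0) (nat_lit 1292) (XT.nd (nat_lit 45396) (nat_lit 0) (nat_lit 1292) (XT.lf (nat_lit 0) (nat_lit 1839120768) (nat_lit 684) (nat_lit 37964121185) (nat_lit 76) (nat_lit 44660111951) (nat_lit 218) (nat_lit 5) (nat_lit 227) (nat_lit 5) (nat_lit 219) (nat_lit 5) (nat_lit 412) (nat_lit 392) (nat_lit 96)) (XT.lf (nat_lit 0) (nat_lit 4218437691) (nat_lit 1292) (nat_lit 13804393424) (nat_lit 1292) (nat_lit 13804393424) (nat_lit 235) (nat_lit 3) (nat_lit 252) (nat_lit 3) (nat_lit 252) (nat_lit 5) (nat_lit 393) (nat_lit 393) (nat_lit 114))) (XT.nd (nat_lit 78) (nat_lit 0) (nat_lit 76) (XT.lf (nat_lit 76) (nat_lit 2871556666) (nat_lit 0) (nat_lit 5735336975) (nat_lit 1292)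 (nat_lit 56001060001) (nat_lit 236) (nat_lit 5) (nat_lit 235) (nat_lit 3) (nat_lit 252) (nat_lit 5) (nat_lit 394) (nat_lit 393) (nat_lit 113)) (XT.lf (nat_lit 0) (nat_lit 9307918745) (nat_lit 1216) (nat_lit 30997514117) (nat_lit 1292) (nat_lit 25268853611) (nat_lit 236) (nat_lit 5) (nat_lit 252) (nat_lit 5) (nat_lit 253) (nat_lit 5) (nat_lit 395) (nat_lit 393) (nat_lit 112))))) (XT.nd (nat_lit 234) (nat_lit 0) (nat_lit 152) (XT.nd (nat_lit 78) (nat_lit 0) (nat_lit 76) (XT.lf (nat_lit 76) (nat_lit 618481467) (nat_lit 0) (nat_lit 9473622587) (nat_lit 1292) (nat_lit 56475641664) (nat_lit 237) (nat_lit 5) (nat_lit 236) (nat_lit 5) (nat_lit 253) (nat_lit 5) (nat_lit 396) (nat_lit 393) (nat_lit 111)) (XT.nd (nat_lit 78) (nat_lit 0) (nat_lit 0) (XT.lf (nat_lit 0) (nat_lit 11429542834) (nat_lit 1216) (nat_lit 33980895177) (nat_lit 1292) (nat_lit 22164679192) (nat_lit 237) (nat_lit 5) (nat_lit 253) (nat_lit 5) (nat_lit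 254) (nat_lit 5) (nat_lit 397) (nat_lit 393) (nat_lit 110)) (XT.lf (nat_lit 0) (nat_lit 12900335502) (nat_lit 1216) (nat_lit 1147617050) (nat_lit 1292) (nat_lit 54561960655) (nat_lit 237) (nat_lit 5) (nat_lit 253) (nat_lit 5) (nat_lit 254) (nat_lit 5) (nat_lit 398) (nat_lit 393) (nat_lit 109)))) (XT.nd (nat_lit 156) (nat_lit 0) (nat_lit 76) (XT.nd (nat_lit 78) (nat_lit 0) (nat_lit 0) (XT.lf (nat_lit 0) (nat_lit 14913653765) (nat_lit 1216) (nat_lit 36524287280) (nat_lit 1292) (nat_lit 18222860275) (nat_lit 238) (nat_lit 5) (nat_lit 254) (nat_lit 5) (nat_lit 255) (nat_lit 5) (nat_lit 399) (nat_lit 393) (nat_lit 108)) (XT.lf (nat_lit 0) (nat_lit 17137627514) (nat_lit 1216) (nat_lit 2409726613) (nat_lit 1292) (nat_lit 51191354549) (nat_lit 238) (nat_lit 5) (nat_lit 254) (nat_lit 5) (nat_lit 255) (nat_lit 5) (nat_lit 400) (nat_lit 393) (nat_lit 107))) (XT.nd (nat_lit 78) (nat_lit 0) (nat_lit 0) (XT.lf (nat_lit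 0) (nat_lit 19879687908) (nat_lit 1216) (nat_lit 38591086982) (nat_lit 1292) (nat_lit 13364637608) (nat_lit 239) (nat_lit 5) (nat_lit 255) (nat_lit 5) (nat_lit 256) (nat_lit 5) (nat_lit 401) (nat_lit 393) (nat_lit 106)) (XT.lf (nat_lit 0) (nat_lit 22921615807) (nat_lit 1216) (nat_lit 3141022876) (nat_lit 1292) (nat_lit 46895850842) (nat_lit 239) (nat_lit 5) (nat_lit 255) (nat_lit 5) (nat_lit 256) (nat_lit 5) (nat_lit 402) (nat_lit 393) (nat_lit 105))))))))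
noncomputable def xc254 : XT := (XT.nd (nat_lit 93210) (nat_lit 0) (nat_lit 608) (XT.nd (nat_lit 46488) (nat_lit 0) (nat_lit 608) (XT.nd (nat_lit 468) (nat_lit 988) (nat_lit 0) (XT.nd (nat_lit 234) (nat_lit 0) (nat_lit 76) (XT.nd (nat_lit 78) (nat_lit 0) (nat_lit 0) (XT.lf (nat_lit 0) (nat_lit 26455071280) (nat_lit 1216) (nat_lit 40142668917) (nat_lit 1292) (nat_lit 7505510826) (nat_lit 240) (nat_lit 5) (nat_lit 256) (nat_lit 5) (nat_lit 257) (nat_lit 5) (nat_lit 403) (nat_lit 393) (nat_lit 104)) (XT.nd (nat_lit 78) (nat_lit 0) (nat_lit 76) (XT.lf (nat_lit 0) (nat_lit 30384128859) (nat_lit 1216) (nat_lit 3300495685) (nat_lit 1292) (nat_lit 41589043117) (nat_lit 240) (nat_lit 5) (nat_lit 256) (nat_lit 5) (nat_lit 257) (nat_lit 5) (nat_lit 404) (nat_lit 393) (nat_lit 103)) (XT.lf (nat_lit 0) (nat_lit 34775704438) (nat_lit 1216) (nat_lit 41138327005) (nat_lit 1292) (nat_lit 554826203) (nat_lit 241) (nat_lit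 5) (nat_lit 257) (nat_lit 5) (nat_lit 258) (nat_lit 5) (nat_lit 405) (nat_lit 393) (nat_lit 102)))) (XT.nd (nat_lit 78) (nat_lit 0) (nat_lit 0) (XT.lf (nat_lit 0) (nat_lit 39665742593) (nat_lit 1216) (nat_lit 2844956206) (nat_lit 1292) (nat_lit 35178203304) (nat_lit 241) (nat_lit 5) (nat_lit 257) (nat_lit 5) (nat_lit 258) (nat_lit 5) (nat_lit 406) (nat_lit 393) (nat_lit 101)) (XT.nd (nat_lit 78) (nat_lit 0) (nat_lit 76) (XT.lf (nat_lit 76) (nat_lit 37325219265) (nat_lit 0) (nat_lit 7735614353) (nat_lit 1292) (nat_lit 33873963949) (nat_lit 242) (nat_lit 5) (nat_lit 241) (nat_lit 5) (nat_lit 258) (nat_lit 5) (nat_lit 407) (nat_lit 393) (nat_lit 100)) (XT.lf (nat_lit 0) (nat_lit 50916307903) (nat_lit 1216) (nat_lit 1728978525) (nat_lit 1292) (nat_lit 27563827771) (nat_lit 242) (nat_lit 5) (nat_lit 258) (nat_lit 5) (nat_lit 259) (nat_lit 5) (nat_lit 408) (nat_lit 393) (nat_lit 99))))) (XT.nd (nat_lit 45708)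 (nat_lit 0) (nat_lit 608) (XT.nd (nat_lit 78) (nat_lit 1140) (nat_lit 0) (XT.lf (nat_lit 76) (nat_lit 40052674791) (nat_lit 0) (nat_lit 17355954520) (nat_lit 1292) (nat_lit 24099195744) (nat_lit 243) (nat_lit 5) (nat_lit 242) (nat_lit 5) (nat_lit 259) (nat_lit 5) (nat_lit 409) (nat_lit 393) (nat_lit 98)) (XT.nd (nat_lit 78) (nat_lit 0) (nat_lit 0) (XT.lf (nat_lit 0) (nat_lit 97048347) (nat_lit 1216) (nat_lit 64199391700) (nat_lit 1292) (nat_lit 18543035805) (nat_lit 227) (nat_lit 5) (nat_lit 243) (nat_lit 5) (nat_lit 244) (nat_lit 5) (nat_lit 410) (nat_lit 393) (nat_lit 97)) (XT.lf (nat_lit 0) (nat_lit 43569989343) (nat_lit 1216) (nat_lit 28409267792) (nat_lit 1292) (nat_lit 12214168077) (nat_lit 227) (nat_lit 5) (nat_lit 243) (nat_lit 5) (nat_lit 244) (nat_lit 5) (nat_lit 411) (nat_lit 393) (nat_lit 96)))) (XT.nd (nat_lit 156) (nat_lit 0) (nat_lit 76) (XT.nd (nat_lit 78) (nat_lit 0) (nat_lit 0) (XT.lf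 (nat_lit 0) (nat_lit 4360700316) (nat_lit 1292) (nat_lit 14210430767) (nat_lit 1292) (nat_lit 14210430767) (nat_lit 235) (nat_lit 3) (nat_lit 252) (nat_lit 3) (nat_lit 252) (nat_lit 5) (nat_lit 394) (nat_lit 394) (nat_lit 112)) (XT.lf (nat_lit 76) (nat_lit 2973733571) (nat_lit 0) (nat_lit 5922024844) (nat_lit 1292) (nat_lit 57649498290) (nat_lit 236) (nat_lit 5) (nat_lit 235) (nat_lit 3) (nat_lit 252) (nat_lit 5) (nat_lit 395) (nat_lit 394) (nat_lit 111))) (XT.nd (nat_lit 78) (nat_lit 0) (nat_lit 0) (XT.lf (nat_lit 0) (nat_lit 9616784806) (nat_lit 1216) (nat_lit 31910831422) (nat_lit 1292) (nat_lit 26012994638) (nat_lit 236) (nat_lit 5) (nat_lit 252) (nat_lit 5) (nat_lit 253) (nat_lit 5) (nat_lit 396) (nat_lit 394) (nat_lit 110)) (XT.lf (nat_lit 76) (nat_lit 653481205) (nat_lit 0) (nat_lit 9770309586) (nat_lit 1292) (nat_lit 58140104690) (nat_lit 237) (nat_lit 5) (nat_lit 236) (nat_lit 5) (nat_lit 253)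 (nat_lit 5) (nat_lit 397) (nat_lit 394) (nat_lit 109)))))) (XT.nd (nat_lit 546) (nat_lit 152) (nat_lit 0) (XT.nd (nat_lit 234) (nat_lit 0) (nat_lit 76) (XT.nd (nat_lit 78) (nat_lit 0) (nat_lit 0) (XT.lf (nat_lit 0) (nat_lit 11800393843) (nat_lit 1216) (nat_lit 34983382371) (nat_lit 1292) (nat_lit 22817741098) (nat_lit 237) (nat_lit 5) (nat_lit 253) (nat_lit 5) (nat_lit 254) (nat_lit 5) (nat_lit 398) (nat_lit 394) (nat_lit 108)) (XT.nd (nat_lit 78) (nat_lit 0) (nat_lit 76) (XT.lf (nat_lit 0) (nat_lit 13314495785) (nat_lit 1216) (nat_lit 1165599288) (nat_lit 1292) (nat_lit 56187286979) (nat_lit 237) (nat_lit 5) (nat_lit 253) (nat_lit 5) (nat_lit 254) (nat_lit 5) (nat_lit 399) (nat_lit 394) (nat_lit 107)) (XT.lf (nat_lit 0) (nat_lit 15387481008) (nat_lit 1216) (nat_lit 37602823402) (nat_lit 1292) (nat_lit 18759514785) (nat_lit 238) (nat_lit 5) (nat_lit 254) (nat_lit 5) (nat_lit 255) (nat_lit 5) (nat_lit 400)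 (nat_lit 394) (nat_lit 106)))) (XT.nd (nat_lit 156) (nat_lit 0) (nat_lit 76) (XT.nd (nat_lit 78) (nat_lit 0) (nat_lit 76) (XT.lf (nat_lit 0) (nat_lit 17677404525) (nat_lit 1216) (nat_lit 2465326667) (nat_lit 1292) (nat_lit 52717356061) (nat_lit 238) (nat_lit 5) (nat_lit 254) (nat_lit 5) (nat_lit 255) (nat_lit 5) (nat_lit 401) (nat_lit 394) (nat_lit 105)) (XT.lf (nat_lit 0) (nat_lit 20501056560) (nat_lit 1216) (nat_lit 39731444824) (nat_lit 1292) (nat_lit 13757211296) (nat_lit 239) (nat_lit 5) (nat_lit 255) (nat_lit 5) (nat_lit 256) (nat_lit 5) (nat_lit 402) (nat_lit 394) (nat_lit 104))) (XT.nd (nat_lit 78) (nat_lit 0) (nat_lit 76) (XT.lf (nat_lit 0) (nat_lit 23633514781) (nat_lit 1216) (nat_lit 3218384856) (nat_lit 1292) (nat_lit 48294604580) (nat_lit 239) (nat_lit 5) (nat_lit 255) (nat_lit 5) (nat_lit 256) (nat_lit 5) (nat_lit 403) (nat_lit 394) (nat_lit 103)) (XT.lf (nat_lit 0) (nat_lit 27272360854) (nat_lit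 1216) (nat_lit 41329455099) (nat_lit 1292) (nat_lit 7723811363) (nat_lit 240) (nat_lit 5) (nat_lit 256) (nat_lit 5) (nat_lit 257) (nat_lit 5) (nat_lit 404) (nat_lit 394) (nat_lit 102))))) (XT.nd (nat_lit 234) (nat_lit 380) (nat_lit 0) (XT.nd (nat_lit 78) (nat_lit 0) (nat_lit 76) (XT.lf (nat_lit 0) (nat_lit 31318601690) (nat_lit 1216) (nat_lit 3382526200) (nat_lit 1292) (nat_lit 42830049568) (nat_lit 240) (nat_lit 5) (nat_lit 256) (nat_lit 5) (nat_lit 257) (nat_lit 5) (nat_lit 405) (nat_lit 394) (nat_lit 101)) (XT.nd (nat_lit 78) (nat_lit 0) (nat_lit 0) (XT.lf (nat_lit 0) (nat_lit 35841363719) (nat_lit 1216) (nat_lit 42354920222) (nat_lit 1292) (nat_lit 565956369) (nat_lit 241) (nat_lit 5) (nat_lit 257) (nat_lit 5) (nat_lit 258) (nat_lit 5) (nat_lit 406) (nat_lit 394) (nat_lit 100)) (XT.lf (nat_lit 0) (nat_lit 40877450936) (nat_lit 1216) (nat_lit 2913259657) (nat_lit 1292) (nat_lit 36228195404) (nat_lit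 241) (nat_lit 5) (nat_lit 257) (nat_lit 5) (nat_lit 258) (nat_lit 5) (nat_lit 407) (nat_lit 394) (nat_lit 99)))) (XT.nd (nat_lit 156) (nat_lit 456) (nat_lit 0) (XT.nd (nat_lit 78) (nat_lit 0) (nat_lit 76) (XT.lf (nat_lit 76) (nat_lit 38461853968) (nat_lit 0) (nat_lit 7972069878) (nat_lit 1292) (nat_lit 34868268928) (nat_lit 242) (nat_lit 5) (nat_lit 241) (nat_lit 5) (nat_lit 258) (nat_lit 5) (nat_lit 408) (nat_lit 394) (nat_lit 98)) (XT.lf (nat_lit 0) (nat_lit 52464402042) (nat_lit 1216) (nat_lit 1763790582) (nat_lit 1292) (nat_lit 28386566404) (nat_lit 242) (nat_lit 5) (nat_lit 258) (nat_lit 5) (nat_lit 259) (nat_lit 5) (nat_lit 409) (nat_lit 394) (nat_lit 97))) (XT.nd (nat_lit 45708) (nat_lit 532) (nat_lit 0) (XT.lf (nat_lit 76) (nat_lit 41271145105) (nat_lit 0) (nat_lit 17879910202) (nat_lit 1292) (nat_lit 24801389341) (nat_lit 243) (nat_lit 5) (nat_lit 242) (nat_lit 5) (nat_lit 259) (nat_lit 5) (nat_lit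 410) (nat_lit 394) (nat_lit 96)) (XT.lf (nat_lit 0) (nat_lit 4506329031) (nat_lit 1292) (nat_lit 14629113885) (nat_lit 1292) (nat_lit 14629113885) (nat_lit 235) (nat_lit 3) (nat_lit 252) (nat_lit 3) (nat_lit 252) (nat_lit 5) (nat_lit 395) (nat_lit 395) (nat_lit 110))))))) (XT.nd (nat_lit 1014) (nat_lit 0) (nat_lit 0) (XT.nd (nat_lit 468) (nat_lit 0) (nat_lit 228) (XT.nd (nat_lit 234) (nat_lit 0) (nat_lit 152) (XT.nd (nat_lit 78) (nat_lit 0) (nat_lit 76) (XT.lf (nat_lit 76) (nat_lit 3078055584) (nat_lit 0) (nat_lit 6113473656) (nat_lit 1292) (nat_lit 59349203324) (nat_lit 236) (nat_lit 5) (nat_lit 235) (nat_lit 3) (nat_lit 252) (nat_lit 5) (nat_lit 396) (nat_lit 395) (nat_lit 109)) (XT.nd (nat_lit 78) (nat_lit 0) (nat_lit 0) (XT.lf (nat_lit 0) (nat_lit 9933216052) (nat_lit 1216) (nat_lit 32852501620) (nat_lit 1292) (nat_lit 26780259223) (nat_lit 236) (nat_lit 5) (nat_lit 252) (nat_lit 5) (nat_lit 253) (nat_lit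 5) (nat_lit 397) (nat_lit 395) (nat_lit 108)) (XT.lf (nat_lit 76) (nat_lit 688586908) (nat_lit 0) (nat_lit 10075180888) (nat_lit 1292) (nat_lit 59856212606) (nat_lit 237) (nat_lit 5) (nat_lit 236) (nat_lit 5) (nat_lit 253) (nat_lit 5) (nat_lit 398) (nat_lit 395) (nat_lit 107)))) (XT.nd (nat_lit 78) (nat_lit 0) (nat_lit 0) (XT.lf (nat_lit 0) (nat_lit 12180765093) (nat_lit 1216) (nat_lit 36016916586) (nat_lit 1292) (nat_lit 23491076734) (nat_lit 237) (nat_lit 5) (nat_lit 253) (nat_lit 5) (nat_lit 254) (nat_lit 5) (nat_lit 399) (nat_lit 395) (nat_lit 106)) (XT.nd (nat_lit 78) (nat_lit 0) (nat_lit 76) (XT.lf (nat_lit 0) (nat_lit 13739522343) (nat_lit 1216) (nat_lit 1185065076) (nat_lit 1292) (nat_lit 57862035106) (nat_lit 237) (nat_lit 5) (nat_lit 253) (nat_lit 5) (nat_lit 254) (nat_lit 5) (nat_lit 400) (nat_lit 395) (nat_lit 105)) (XT.lf (nat_lit 0) (nat_lit 15874006589) (nat_lit 1216) (nat_lit 38714702528)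 (nat_lit 1292) (nat_lit 19312844768) (nat_lit 238) (nat_lit 5) (nat_lit 254) (nat_lit 5) (nat_lit 255) (nat_lit 5) (nat_lit 401) (nat_lit 395) (nat_lit 104))))) (XT.nd (nat_lit 234) (nat_lit 0) (nat_lit 152) (XT.nd (nat_lit 78) (nat_lit 0) (nat_lit 76) (XT.lf (nat_lit 0) (nat_lit 18231902534) (nat_lit 1216) (nat_lit 2523552898) (nat_lit 1292) (nat_lit 54289696684) (nat_lit 238) (nat_lit 5) (nat_lit 254) (nat_lit 5) (nat_lit 255) (nat_lit 5) (nat_lit 402) (nat_lit 395) (nat_lit 103)) (XT.nd (nat_lit 78) (nat_lit 0) (nat_lit 0) (XT.lf (nat_lit 0) (nat_lit 21139632431) (nat_lit 1216) (nat_lit 40907010784) (nat_lit 1292) (nat_lit 14162042405) (nat_lit 239) (nat_lit 5) (nat_lit 255) (nat_lit 5) (nat_lit 256) (nat_lit 5) (nat_lit 403) (nat_lit 395) (nat_lit 102)) (XT.lf (nat_lit 0) (nat_lit 24365378646) (nat_lit 1216) (nat_lit 3299036028) (nat_lit 1292) (nat_lit 49735787155) (nat_lit 239) (nat_lit 5) (nat_lit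 255) (nat_lit 5) (nat_lit 256) (nat_lit 5) (nat_lit 404) (nat_lit 395) (nat_lit 101)))) (XT.nd (nat_lit 156) (nat_lit 0) (nat_lit 76) (XT.nd (nat_lit 78) (nat_lit 0) (nat_lit 0) (XT.lf (nat_lit 0) (nat_lit 28112812229) (nat_lit 1216) (nat_lit 42552849087) (nat_lit 1292) (nat_lit 7949054983) (nat_lit 240) (nat_lit 5) (nat_lit 256) (nat_lit 5) (nat_lit 257) (nat_lit 5) (nat_lit 405) (nat_lit 395) (nat_lit 100)) (XT.lf (nat_lit 0) (nat_lit 32279791342) (nat_lit 1216) (nat_lit 3467992603) (nat_lit 1292) (nat_lit 44108668802) (nat_lit 240) (nat_lit 5) (nat_lit 256) (nat_lit 5) (nat_lit 257) (nat_lit 5) (nat_lit 406) (nat_lit 395) (nat_lit 99))) (XT.nd (nat_lit 78) (nat_lit 0) (nat_lit 0) (XT.lf (nat_lit 0) (nat_lit 36937707608) (nat_lit 1216) (nat_lit 43609019057) (nat_lit 1292) (nat_lit 577737002) (nat_lit 241) (nat_lit 5) (nat_lit 257) (nat_lit 5) (nat_lit 258) (nat_lit 5) (nat_lit 407) (nat_lit 395) (nat_lit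 98)) (XT.lf (nat_lit 0) (nat_lit 42124262791) (nat_lit 1216) (nat_lit 2984590678) (nat_lit 1292) (nat_lit 37309994608) (nat_lit 241) (nat_lit 5) (nat_lit 257) (nat_lit 5) (nat_lit 258) (nat_lit 5) (nat_lit 408) (nat_lit 395) (nat_lit 97)))))) (XT.nd (nat_lit 46254) (nat_lit 0) (nat_lit 152) (XT.nd (nat_lit 45942) (nat_lit 0) (nat_lit 0) (XT.nd (nat_lit 78) (nat_lit 456) (nat_lit 0) (XT.lf (nat_lit 76) (nat_lit 39631618839) (nat_lit 0) (nat_lit 8215367232) (nat_lit 1292) (nat_lit 35893661005) (nat_lit 242) (nat_lit 5) (nat_lit 241) (nat_lit 5) (nat_lit 258) (nat_lit 5) (nat_lit 409) (nat_lit 395) (nat_lit 96)) (XT.nd (nat_lit 45786) (nat_lit 532) (nat_lit 0) (XT.lf (nat_lit 0) (nat_lit 54057756198) (nat_lit 1216) (nat_lit 1800626160) (nat_lit 1292) (nat_lit 29234226927) (nat_lit 242) (nat_lit 5) (nat_lit 258) (nat_lit 5) (nat_lit 259) (nat_lit 5) (nat_lit 410) (nat_lit 395) (nat_lit 95)) (XT.lf (nat_lit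 0) (nat_lit 4655476584) (nat_lit 1292) (nat_lit 15060795479) (nat_lit 1292) (nat_lit 15060795479) (nat_lit 235) (nat_lit 3) (nat_lit 252) (nat_lit 3) (nat_lit 252) (nat_lit 5) (nat_lit 396) (nat_lit 396) (nat_lit 108)))) (XT.nd (nat_lit 156) (nat_lit 0) (nat_lit 76) (XT.nd (nat_lit 78) (nat_lit 0) (nat_lit 76) (XT.lf (nat_lit 76) (nat_lit 3184639881) (nat_lit 0) (nat_lit 6309874441) (nat_lit 1292) (nat_lit 61101608998) (nat_lit 236) (nat_lit 5) (nat_lit 235) (nat_lit 3) (nat_lit 252) (nat_lit 5) (nat_lit 397) (nat_lit 396) (nat_lit 107)) (XT.lf (nat_lit 0) (nat_lit 10257537071) (nat_lit 1216) (nat_lit 33823320570) (nat_lit 1292) (nat_lit 27571295189) (nat_lit 236) (nat_lit 5) (nat_lit 252) (nat_lit 5) (nat_lit 253) (nat_lit 5) (nat_lit 398) (nat_lit 396) (nat_lit 106))) (XT.nd (nat_lit 78) (nat_lit 0) (nat_lit 76) (XT.lf (nat_lit 76) (nat_lit 723855946) (nat_lit 0) (nat_lit 10388523141) (nat_lit 1292) (nat_lit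 61625416541) (nat_lit 237) (nat_lit 5) (nat_lit 236) (nat_lit 5) (nat_lit 253) (nat_lit 5) (nat_lit 399) (nat_lit 396) (nat_lit 105)) (XT.lf (nat_lit 0) (nat_lit 12571034342) (nat_lit 1216) (nat_lit 37082373414) (nat_lit 1292) (nat_lit 24185255169) (nat_lit 237) (nat_lit 5) (nat_lit 253) (nat_lit 5) (nat_lit 254) (nat_lit 5) (nat_lit 400) (nat_lit 396) (nat_lit 104))))) (XT.nd (nat_lit 234) (nat_lit 0) (nat_lit 152) (XT.nd (nat_lit 78) (nat_lit 0) (nat_lit 76) (XT.lf (nat_lit 0) (nat_lit 14175830630) (nat_lit 1216) (nat_lit 1206004728) (nat_lit 1292) (nat_lit 59587649686) (nat_lit 237) (nat_lit 5) (nat_lit 253) (nat_lit 5) (nat_lit 254) (nat_lit 5) (nat_lit 401) (nat_lit 396) (nat_lit 103)) (XT.nd (nat_lit 78) (nat_lit 0) (nat_lit 0) (XT.lf (nat_lit 0) (nat_lit 16373698509) (nat_lit 1216) (nat_lit 39860868293) (nat_lit 1292) (nat_lit 19883317432) (nat_lit 238) (nat_lit 5) (nat_lit 254) (nat_lit 5) (nat_lit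 255) (nat_lit 5) (nat_lit 402) (nat_lit 396) (nat_lit 102)) (XT.lf (nat_lit 0) (nat_lit 18801647691) (nat_lit 1216) (nat_lit 2584429086) (nat_lit 1292) (nat_lit 55909734498) (nat_lit 238) (nat_lit 5) (nat_lit 254) (nat_lit 5) (nat_lit 255) (nat_lit 5) (nat_lit 403) (nat_lit 396) (nat_lit 101)))) (XT.nd (nat_lit 156) (nat_lit 0) (nat_lit 76) (XT.nd (nat_lit 78) (nat_lit 0) (nat_lit 0) (XT.lf (nat_lit 0) (nat_lit 21796014046) (nat_lit 1216) (nat_lit 42118783852) (nat_lit 1292) (nat_lit 14579471092) (nat_lit 239) (nat_lit 5) (nat_lit 255) (nat_lit 5) (nat_lit 256) (nat_lit 5) (nat_lit 404) (nat_lit 396) (nat_lit 100)) (XT.lf (nat_lit 0) (nat_lit 25117886260) (nat_lit 1216) (nat_lit 3383019482) (nat_lit 1292) (nat_lit 51220644667) (nat_lit 239) (nat_lit 5) (nat_lit 255) (nat_lit 5) (nat_lit 256) (nat_lit 5) (nat_lit 405) (nat_lit 396) (nat_lit 99))) (XT.nd (nat_lit 78) (nat_lit 0) (nat_lit 0) (XT.lf (nat_lit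 0) (nat_lit 28977198150) (nat_lit 1216) (nat_lit 43813891469) (nat_lit 1292) (nat_lit 8181427358) (nat_lit 240) (nat_lit 5) (nat_lit 256) (nat_lit 5) (nat_lit 257) (nat_lit 5) (nat_lit 406) (nat_lit 396) (nat_lit 98)) (XT.lf (nat_lit 0) (nat_lit 33268574942) (nat_lit 1216) (nat_lit 3556942002) (nat_lit 1292) (nat_lit 45426007240) (nat_lit 240) (nat_lit 5) (nat_lit 256) (nat_lit 5) (nat_lit 257) (nat_lit 5) (nat_lit 407) (nat_lit 396) (nat_lit 97))))))))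
noncomputable def xc255 : XT := (XT.nd (nat_lit 140010) (nat_lit 0) (nat_lit 0) (XT.nd (nat_lit 46878) (nat_lit 0) (nat_lit 0) (XT.nd (nat_lit 46332) (nat_lit 0) (nat_lit 152) (XT.nd (nat_lit 46098) (nat_lit 0) (nat_lit 0) (XT.nd (nat_lit 78) (nat_lit 456) (nat_lit 0) (XT.lf (nat_lit 0) (nat_lit 38065730415) (nat_lit 1216) (nat_lit 44901690824) (nat_lit 1292) (nat_lit 590169444) (nat_lit 241) (nat_lit 5) (nat_lit 257) (nat_lit 5) (nat_lit 258) (nat_lit 5) (nat_lit 408) (nat_lit 396) (nat_lit 96)) (XT.nd (nat_lit 45942) (nat_lit 456) (nat_lit 0) (XT.lf (nat_lit 0) (nat_lit 43407302888) (nat_lit 1216) (nat_lit 3058983927) (nat_lit 1292) (nat_lit 38424537487) (nat_lit 241) (nat_lit 5) (nat_lit 257) (nat_lit 5) (nat_lit 258) (nat_lit 5) (nat_lit 409) (nat_lit 396) (nat_lit 95)) (XT.lf (nat_lit 0) (nat_lit 4808297336) (nat_lit 1292) (nat_lit 15505840360) (nat_lit 1292) (nat_lit 15505840360) (nat_lit 235) (nat_lit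 3) (nat_lit 252) (nat_lit 3) (nat_lit 252) (nat_lit 5) (nat_lit 397) (nat_lit 397) (nat_lit 106)))) (XT.nd (nat_lit 78) (nat_lit 0) (nat_lit 76) (XT.lf (nat_lit 76) (nat_lit 3293604122) (nat_lit 0) (nat_lit 6511421193) (nat_lit 1292) (nat_lit 62908198200) (nat_lit 236) (nat_lit 5) (nat_lit 235) (nat_lit 3) (nat_lit 252) (nat_lit 5) (nat_lit 398) (nat_lit 397) (nat_lit 105)) (XT.nd (nat_lit 78) (nat_lit 0) (nat_lit 0) (XT.lf (nat_lit 0) (nat_lit 10590076585) (nat_lit 1216) (nat_lit 34824111149) (nat_lit 1292) (nat_lit 28386772426) (nat_lit 236) (nat_lit 5) (nat_lit 252) (nat_lit 5) (nat_lit 253) (nat_lit 5) (nat_lit 399) (nat_lit 397) (nat_lit 104)) (XT.lf (nat_lit 76) (nat_lit 759344299) (nat_lit 0) (nat_lit 10710629233) (nat_lit 1292) (nat_lit 63449216794) (nat_lit 237) (nat_lit 5) (nat_lit 236) (nat_lit 5) (nat_lit 253) (nat_lit 5) (nat_lit 400) (nat_lit 397) (nat_lit 103))))) (XT.nd (nat_lit 234) (nat_lit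 0) (nat_lit 76) (XT.nd (nat_lit 78) (nat_lit 0) (nat_lit 0) (XT.lf (nat_lit 0) (nat_lit 12971585388) (nat_lit 1216) (nat_lit 38180657916) (nat_lit 1292) (nat_lit 24900864792) (nat_lit 237) (nat_lit 5) (nat_lit 253) (nat_lit 5) (nat_lit 254) (nat_lit 5) (nat_lit 401) (nat_lit 397) (nat_lit 102)) (XT.nd (nat_lit 78) (nat_lit 0) (nat_lit 76) (XT.lf (nat_lit 0) (nat_lit 14623843429) (nat_lit 1216) (nat_lit 1228411374) (nat_lit 1292) (nat_lit 61365620894) (nat_lit 237) (nat_lit 5) (nat_lit 253) (nat_lit 5) (nat_lit 254) (nat_lit 5) (nat_lit 402) (nat_lit 397) (nat_lit 101)) (XT.lf (nat_lit 0) (nat_lit 16887033814) (nat_lit 1216) (nat_lit 41042295897) (nat_lit 1292) (nat_lit 20471415901) (nat_lit 238) (nat_lit 5) (nat_lit 254) (nat_lit 5) (nat_lit 255) (nat_lit 5) (nat_lit 403) (nat_lit 397) (nat_lit 100)))) (XT.nd (nat_lit 156) (nat_lit 0) (nat_lit 76) (XT.nd (nat_lit 78) (nat_lit 0) (nat_lit 76) (XT.lf (nat_lit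 0) (nat_lit 19387177072) (nat_lit 1216) (nat_lit 2647982886) (nat_lit 1292) (nat_lit 57578870169) (nat_lit 238) (nat_lit 5) (nat_lit 254) (nat_lit 5) (nat_lit 255) (nat_lit 5) (nat_lit 404) (nat_lit 397) (nat_lit 99)) (XT.lf (nat_lit 0) (nat_lit 22470813161) (nat_lit 1216) (nat_lit 43367796274) (nat_lit 1292) (nat_lit 15009849300) (nat_lit 239) (nat_lit 5) (nat_lit 255) (nat_lit 5) (nat_lit 256) (nat_lit 5) (nat_lit 405) (nat_lit 397) (nat_lit 98))) (XT.nd (nat_lit 78) (nat_lit 0) (nat_lit 76) (XT.lf (nat_lit 0) (nat_lit 25891732259) (nat_lit 1216) (nat_lit 3470382791) (nat_lit 1292) (nat_lit 52750462139) (nat_lit 239) (nat_lit 5) (nat_lit 255) (nat_lit 5) (nat_lit 256) (nat_lit 5) (nat_lit 406) (nat_lit 397) (nat_lit 97)) (XT.lf (nat_lit 0) (nat_lit 29866310075) (nat_lit 1216) (nat_lit 45113657360) (nat_lit 1292) (nat_lit 8421121028) (nat_lit 240) (nat_lit 5) (nat_lit 256) (nat_lit 5) (nat_lit 257) (nat_lit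 5) (nat_lit 407) (nat_lit 397) (nat_lit 96)))))) (XT.nd (nat_lit 46488) (nat_lit 0) (nat_lit 0) (XT.nd (nat_lit 46176) (nat_lit 0) (nat_lit 0) (XT.nd (nat_lit 78) (nat_lit 380) (nat_lit 0) (XT.lf (nat_lit 0) (nat_lit 34285851588) (nat_lit 1216) (nat_lit 3649426132) (nat_lit 1292) (nat_lit 46783205757) (nat_lit 240) (nat_lit 5) (nat_lit 256) (nat_lit 5) (nat_lit 257) (nat_lit 5) (nat_lit 408) (nat_lit 397) (nat_lit 95)) (XT.nd (nat_lit 46020) (nat_lit 456) (nat_lit 0) (XT.lf (nat_lit 0) (nat_lit 39226452049) (nat_lit 1216) (nat_lit 46234038179) (nat_lit 1292) (nat_lit 603256121) (nat_lit 241) (nat_lit 5) (nat_lit 257) (nat_lit 5) (nat_lit 258) (nat_lit 5) (nat_lit 409) (nat_lit 397) (nat_lit 94)) (XT.lf (nat_lit 0) (nat_lit 4964947476) (nat_lit 1292) (nat_lit 15964625729) (nat_lit 1292) (nat_lit 15964625729) (nat_lit 235) (nat_lit 3) (nat_lit 252) (nat_lit 3) (nat_lit 252) (nat_lit 5) (nat_lit 398) (nat_lit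 398) (nat_lit 104)))) (XT.nd (nat_lit 156) (nat_lit 0) (nat_lit 76) (XT.nd (nat_lit 78) (nat_lit 0) (nat_lit 76) (XT.lf (nat_lit 76) (nat_lit 3405066638) (nat_lit 0) (nat_lit 6718311117) (nat_lit 1292) (nat_lit 64770503937) (nat_lit 236) (nat_lit 5) (nat_lit 235) (nat_lit 3) (nat_lit 252) (nat_lit 5) (nat_lit 399) (nat_lit 398) (nat_lit 103)) (XT.lf (nat_lit 0) (nat_lit 10931167893) (nat_lit 1216) (nat_lit 35855723881) (nat_lit 1292) (nat_lit 29227383405) (nat_lit 236) (nat_lit 5) (nat_lit 252) (nat_lit 5) (nat_lit 253) (nat_lit 5) (nat_lit 400) (nat_lit 398) (nat_lit 102))) (XT.nd (nat_lit 78) (nat_lit 0) (nat_lit 76) (XT.lf (nat_lit 76) (nat_lit 795106695) (nat_lit 0) (nat_lit 11041798612) (nat_lit 1292) (nat_lit 65329163990) (nat_lit 237) (nat_lit 5) (nat_lit 236) (nat_lit 5) (nat_lit 253) (nat_lit 5) (nat_lit 401) (nat_lit 398) (nat_lit 101)) (XT.lf (nat_lit 0) (nat_lit 13382808561) (nat_lit 1216) (nat_lit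 39312705328) (nat_lit 1292) (nat_lit 25638513762) (nat_lit 237) (nat_lit 5) (nat_lit 253) (nat_lit 5) (nat_lit 254) (nat_lit 5) (nat_lit 402) (nat_lit 398) (nat_lit 100))))) (XT.nd (nat_lit 234) (nat_lit 152) (nat_lit 0) (XT.nd (nat_lit 78) (nat_lit 0) (nat_lit 76) (XT.lf (nat_lit 0) (nat_lit 15083991364) (nat_lit 1216) (nat_lit 1252280875) (nat_lit 1292) (nat_lit 63197485662) (nat_lit 237) (nat_lit 5) (nat_lit 253) (nat_lit 5) (nat_lit 254) (nat_lit 5) (nat_lit 403) (nat_lit 398) (nat_lit 99)) (XT.nd (nat_lit 78) (nat_lit 0) (nat_lit 0) (XT.lf (nat_lit 0) (nat_lit 17414499150) (nat_lit 1216) (nat_lit 42259992858) (nat_lit 1292) (nat_lit 21077639578) (nat_lit 238) (nat_lit 5) (nat_lit 254) (nat_lit 5) (nat_lit 255) (nat_lit 5) (nat_lit 404) (nat_lit 398) (nat_lit 98)) (XT.lf (nat_lit 0) (nat_lit 19989039298) (nat_lit 1216) (nat_lit 2714245756) (nat_lit 1292) (nat_lit 59298548120) (nat_lit 238) (nat_lit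 5) (nat_lit 254) (nat_lit 5) (nat_lit 255) (nat_lit 5) (nat_lit 405) (nat_lit 398) (nat_lit 97)))) (XT.nd (nat_lit 156) (nat_lit 304) (nat_lit 0) (XT.nd (nat_lit 78) (nat_lit 0) (nat_lit 0) (XT.lf (nat_lit 0) (nat_lit 23164655431) (nat_lit 1216) (nat_lit 44655114360) (nat_lit 1292) (nat_lit 15453541023) (nat_lit 239) (nat_lit 5) (nat_lit 255) (nat_lit 5) (nat_lit 256) (nat_lit 5) (nat_lit 406) (nat_lit 398) (nat_lit 96)) (XT.lf (nat_lit 0) (nat_lit 26687627795) (nat_lit 1216) (nat_lit 3561177963) (nat_lit 1292) (nat_lit 54326564590) (nat_lit 239) (nat_lit 5) (nat_lit 255) (nat_lit 5) (nat_lit 256) (nat_lit 5) (nat_lit 407) (nat_lit 398) (nat_lit 95))) (XT.nd (nat_lit 46176) (nat_lit 380) (nat_lit 0) (XT.lf (nat_lit 0) (nat_lit 30780958986) (nat_lit 1216) (nat_lit 46453257246) (nat_lit 1292) (nat_lit 8668335532) (nat_lit 240) (nat_lit 5) (nat_lit 256) (nat_lit 5) (nat_lit 257) (nat_lit 5) (nat_lit 408) (nat_lit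 398) (nat_lit 94)) (XT.lf (nat_lit 0) (nat_lit 5125585240) (nat_lit 1292) (nat_lit 16437541463) (nat_lit 1292) (nat_lit 16437541463) (nat_lit 235) (nat_lit 3) (nat_lit 252) (nat_lit 3) (nat_lit 252) (nat_lit 5) (nat_lit 399) (nat_lit 399) (nat_lit 102))))))) (XT.nd (nat_lit 47268) (nat_lit 0) (nat_lit 0) (XT.nd (nat_lit 468) (nat_lit 0) (nat_lit 0) (XT.nd (nat_lit 234) (nat_lit 0) (nat_lit 152) (XT.nd (nat_lit 78) (nat_lit 0) (nat_lit 76) (XT.lf (nat_lit 76) (nat_lit 3519146615) (nat_lit 0) (nat_lit 6930744878) (nat_lit 1292) (nat_lit 66690110515) (nat_lit 236) (nat_lit 5) (nat_lit 235) (nat_lit 3) (nat_lit 252) (nat_lit 5) (nat_lit 400) (nat_lit 399) (nat_lit 101)) (XT.nd (nat_lit 78) (nat_lit 0) (nat_lit 0) (XT.lf (nat_lit 0) (nat_lit 11281149316) (nat_lit 1216) (nat_lit 36919037598) (nat_lit 1292) (nat_lit 30093843711) (nat_lit 236) (nat_lit 5) (nat_lit 252) (nat_lit 5) (nat_lit 253) (nat_lit 5) (nat_lit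 401) (nat_lit 399) (nat_lit 100)) (XT.lf (nat_lit 76) (nat_lit 831196739) (nat_lit 0) (nat_lit 11382337613) (nat_lit 1292) (nat_lit 67266860280) (nat_lit 237) (nat_lit 5) (nat_lit 236) (nat_lit 5) (nat_lit 253) (nat_lit 5) (nat_lit 402) (nat_lit 399) (nat_lit 99)))) (XT.nd (nat_lit 78) (nat_lit 0) (nat_lit 0) (XT.lf (nat_lit 0) (nat_lit 13805101199) (nat_lit 1216) (nat_lit 40479481789) (nat_lit 1292) (nat_lit 26398830478) (nat_lit 237) (nat_lit 5) (nat_lit 253) (nat_lit 5) (nat_lit 254) (nat_lit 5) (nat_lit 403) (nat_lit 399) (nat_lit 98)) (XT.nd (nat_lit 78) (nat_lit 0) (nat_lit 76) (XT.lf (nat_lit 0) (nat_lit 15556713417) (nat_lit 1216) (nat_lit 1277611729) (nat_lit 1292) (nat_lit 65084828972) (nat_lit 237) (nat_lit 5) (nat_lit 253) (nat_lit 5) (nat_lit 254) (nat_lit 5) (nat_lit 404) (nat_lit 399) (nat_lit 97)) (XT.lf (nat_lit 0) (nat_lit 17956591322) (nat_lit 1216) (nat_lit 43514999812) (nat_lit 1292)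 (nat_lit 21702504538) (nat_lit 238) (nat_lit 5) (nat_lit 254) (nat_lit 5) (nat_lit 255) (nat_lit 5) (nat_lit 405) (nat_lit 399) (nat_lit 96))))) (XT.nd (nat_lit 46488) (nat_lit 0) (nat_lit 0) (XT.nd (nat_lit 78) (nat_lit 228) (nat_lit 0) (XT.lf (nat_lit 0) (nat_lit 20607795136) (nat_lit 1216) (nat_lit 2783252903) (nat_lit 1292) (nat_lit 61070257740) (nat_lit 238) (nat_lit 5) (nat_lit 254) (nat_lit 5) (nat_lit 255) (nat_lit 5) (nat_lit 406) (nat_lit 399) (nat_lit 95)) (XT.nd (nat_lit 46332) (nat_lit 304) (nat_lit 0) (XT.lf (nat_lit 0) (nat_lit 23878181083) (nat_lit 1216) (nat_lit 45981839332) (nat_lit 1292) (nat_lit 15910922581) (nat_lit 239) (nat_lit 5) (nat_lit 255) (nat_lit 5) (nat_lit 256) (nat_lit 5) (nat_lit 407) (nat_lit 399) (nat_lit 94)) (XT.lf (nat_lit 0) (nat_lit 5290371120) (nat_lit 1292) (nat_lit 16924990415) (nat_lit 1292) (nat_lit 16924990415) (nat_lit 235) (nat_lit 3) (nat_lit 252) (nat_lit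 3) (nat_lit 252) (nat_lit 5) (nat_lit 400) (nat_lit 400) (nat_lit 100)))) (XT.nd (nat_lit 156) (nat_lit 0) (nat_lit 76) (XT.nd (nat_lit 78) (nat_lit 0) (nat_lit 76) (XT.lf (nat_lit 76) (nat_lit 3635964277) (nat_lit 0) (nat_lit 7148926840) (nat_lit 1292) (nat_lit 68668654778) (nat_lit 236) (nat_lit 5) (nat_lit 235) (nat_lit 3) (nat_lit 252) (nat_lit 5) (nat_lit 401) (nat_lit 400) (nat_lit 99)) (XT.lf (nat_lit 0) (nat_lit 11640364628) (nat_lit 1216) (nat_lit 38014960125) (nat_lit 1292) (nat_lit 30986892600) (nat_lit 236) (nat_lit 5) (nat_lit 252) (nat_lit 5) (nat_lit 253) (nat_lit 5) (nat_lit 402) (nat_lit 400) (nat_lit 98))) (XT.nd (nat_lit 78) (nat_lit 0) (nat_lit 76) (XT.lf (nat_lit 76) (nat_lit 867667040) (nat_lit 0) (nat_lit 11732559785) (nat_lit 1292) (nat_lit 69263960603) (nat_lit 237) (nat_lit 5) (nat_lit 236) (nat_lit 5) (nat_lit 253) (nat_lit 5) (nat_lit 403) (nat_lit 400) (nat_lit 97)) (XT.lf (nat_lit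 0) (nat_lit 14238868130) (nat_lit 1216) (nat_lit 41681985104) (nat_lit 1292) (nat_lit 27182464072) (nat_lit 237) (nat_lit 5) (nat_lit 253) (nat_lit 5) (nat_lit 254) (nat_lit 5) (nat_lit 404) (nat_lit 400) (nat_lit 96)))))) (XT.nd (nat_lit 46878) (nat_lit 0) (nat_lit 0) (XT.nd (nat_lit 46566) (nat_lit 152) (nat_lit 0) (XT.nd (nat_lit 78) (nat_lit 0) (nat_lit 76) (XT.lf (nat_lit 0) (nat_lit 16042457436) (nat_lit 1216) (nat_lit 1304404996) (nat_lit 1292) (nat_lit 67029285182) (nat_lit 237) (nat_lit 5) (nat_lit 253) (nat_lit 5) (nat_lit 254) (nat_lit 5) (nat_lit 405) (nat_lit 400) (nat_lit 95)) (XT.nd (nat_lit 78) (nat_lit 0) (nat_lit 0) (XT.lf (nat_lit 0) (nat_lit 18513817856) (nat_lit 1216) (nat_lit 44808391336) (nat_lit 1292) (nat_lit 22346543923) (nat_lit 238) (nat_lit 5) (nat_lit 254) (nat_lit 5) (nat_lit 255) (nat_lit 5) (nat_lit 406) (nat_lit 400) (nat_lit 94)) (XT.lf (nat_lit 0) (nat_lit 21244018110)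 (nat_lit 1216) (nat_lit 2855043237) (nat_lit 1292) (nat_lit 62895534646) (nat_lit 238) (nat_lit 5) (nat_lit 254) (nat_lit 5) (nat_lit 255) (nat_lit 5) (nat_lit 407) (nat_lit 400) (nat_lit 93)))) (XT.nd (nat_lit 156) (nat_lit 0) (nat_lit 76) (XT.nd (nat_lit 78) (nat_lit 0) (nat_lit 0) (XT.lf (nat_lit 0) (nat_lit 5459468080) (nat_lit 1292) (nat_lit 17427388736) (nat_lit 1292) (nat_lit 17427388736) (nat_lit 235) (nat_lit 3) (nat_lit 252) (nat_lit 3) (nat_lit 252) (nat_lit 5) (nat_lit 401) (nat_lit 401) (nat_lit 98)) (XT.lf (nat_lit 76) (nat_lit 3755641059) (nat_lit 0) (nat_lit 7373065318) (nat_lit 1292) (nat_lit 70707827388) (nat_lit 236) (nat_lit 5) (nat_lit 235) (nat_lit 3) (nat_lit 252) (nat_lit 5) (nat_lit 402) (nat_lit 401) (nat_lit 97))) (XT.nd (nat_lit 78) (nat_lit 0) (nat_lit 0) (XT.lf (nat_lit 0) (nat_lit 12009163495) (nat_lit 1216) (nat_lit 39144429006) (nat_lit 1292) (nat_lit 31907293589) (nat_lit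 236) (nat_lit 5) (nat_lit 252) (nat_lit 5) (nat_lit 253) (nat_lit 5) (nat_lit 403) (nat_lit 401) (nat_lit 96)) (XT.lf (nat_lit 76) (nat_lit 904569328) (nat_lit 0) (nat_lit 12092786219) (nat_lit 1292) (nat_lit 71322173996) (nat_lit 237) (nat_lit 5) (nat_lit 236) (nat_lit 5) (nat_lit 253) (nat_lit 5) (nat_lit 404) (nat_lit 401) (nat_lit 95))))) (XT.nd (nat_lit 46722) (nat_lit 0) (nat_lit 0) (XT.nd (nat_lit 78) (nat_lit 152) (nat_lit 0) (XT.lf (nat_lit 0) (nat_lit 14684522151) (nat_lit 1216) (nat_lit 42921245546) (nat_lit 1292) (nat_lit 27990084926) (nat_lit 237) (nat_lit 5) (nat_lit 253) (nat_lit 5) (nat_lit 254) (nat_lit 5) (nat_lit 405) (nat_lit 401) (nat_lit 94)) (XT.nd (nat_lit 46566) (nat_lit 152) (nat_lit 0) (XT.lf (nat_lit 0) (nat_lit 16541680652) (nat_lit 1216) (nat_lit 1332664221) (nat_lit 1292) (nat_lit 69032539399) (nat_lit 237) (nat_lit 5) (nat_lit 253) (nat_lit 5) (nat_lit 254) (nat_lit 5) (nat_lit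 406) (nat_lit 401) (nat_lit 93)) (XT.lf (nat_lit 0) (nat_lit 5633041760) (nat_lit 1292) (nat_lit 17945166198) (nat_lit 1292) (nat_lit 17945166198) (nat_lit 235) (nat_lit 3) (nat_lit 252) (nat_lit 3) (nat_lit 252) (nat_lit 5) (nat_lit 402) (nat_lit 402) (nat_lit 96)))) (XT.nd (nat_lit 156) (nat_lit 0) (nat_lit 0) (XT.nd (nat_lit 78) (nat_lit 0) (nat_lit 76) (XT.lf (nat_lit 76) (nat_lit 3878299785) (nat_lit 0) (nat_lit 7603372814) (nat_lit 1292) (nat_lit 72809374178) (nat_lit 236) (nat_lit 5) (nat_lit 235) (nat_lit 3) (nat_lit 252) (nat_lit 5) (nat_lit 403) (nat_lit 402) (nat_lit 95)) (XT.lf (nat_lit 0) (nat_lit 12387901901) (nat_lit 1216) (nat_lit 40308412246) (nat_lit 1292) (nat_lit 32855835058) (nat_lit 236) (nat_lit 5) (nat_lit 252) (nat_lit 5) (nat_lit 253) (nat_lit 5) (nat_lit 404) (nat_lit 402) (nat_lit 94))) (XT.nd (nat_lit 46800) (nat_lit 76) (nat_lit 0) (XT.lf (nat_lit 76) (nat_lit 941954571) (nat_lit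 0) (nat_lit 12463345882) (nat_lit 1292) (nat_lit 73443264963) (nat_lit 237) (nat_lit 5) (nat_lit 236) (nat_lit 5) (nat_lit 253) (nat_lit 5) (nat_lit 405) (nat_lit 402) (nat_lit 93)) (XT.lf (nat_lit 76) (nat_lit 4004064834) (nat_lit 0) (nat_lit 7840066266) (nat_lit 1292) (nat_lit 74975097546) (nat_lit 236) (nat_lit 5) (nat_lit 235) (nat_lit 3) (nat_lit 252) (nat_lit 5) (nat_lit 404) (nat_lit 403) (nat_lit 93))))))))

set_option maxRecDepth 10000000 in
noncomputable def Tp : PT := (PT.nd (nat_lit 7323186) (PT.nd (nat_lit 6527508) (PT.nd (nat_lit 5685420) (PT.nd (nat_lit 4888884) (PT.nd (nat_lit 4186260) (PT.nd (nat_lit 3670992) pc0 pc1) (PT.nd (nat_lit 421434) pc2 pc3)) (PT.nd (nat_lit 468312) (PT.nd (nat_lit 280722) pc4 pc5) (PT.nd (nat_lit 187356) pc6 pc7))) (PT.nd (nat_lit 468624) (PT.nd (nat_lit 280566) (PT.nd (nat_lit 140400) pc8 pc9) (PT.nd (nat_lit 94146) pc10 pc11)) (PT.nd (nat_lit 187200) (PT.nd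 (nat_lit 93600) pc12 pc13) (PT.nd (nat_lit 93288) pc14 pc15)))) (PT.nd (nat_lit 423384) (PT.nd (nat_lit 234858) (PT.nd (nat_lit 95160) (PT.nd (nat_lit 47580) pc16 pc17) (PT.nd (nat_lit 92352) pc18 pc19)) (PT.nd (nat_lit 94380) (PT.nd (nat_lit 47190) pc20 pc21) (PT.nd (nat_lit 47112) pc22 pc23))) (PT.nd (nat_lit 187044) (PT.nd (nat_lit 93756) (PT.nd (nat_lit 46878) pc24 pc25) (PT.nd (nat_lit 46722) pc26 pc27)) (PT.nd (nat_lit 92898) (PT.nd (nat_lit 46488) pc28 pc29) (PT.nd (nat_lit 46254) pc30 pc31))))) (PT.nd (nat_lit 468780) (PT.nd (nat_lit 236262) (PT.nd (nat_lit 140088) (PT.nd (nat_lit 48516) (PT.nd (nat_lit 2496) pc32 pc33) (PT.nd (nat_lit 45864) pc34 pc35)) (PT.nd (nat_lit 48126) (PT.nd (nat_lit 2496) pc36 pc37) (PT.nd (nat_lit 45474) pc38 pc39))) (PT.nd (nat_lit 137982) (PT.nd (nat_lit 47814) (PT.nd (nat_lit 45240) pc40 pc41) (PT.nd (nat_lit 45162) pc42 pc43)) (PT.nd (nat_lit 47346) (PT.nd (nat_lit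 2496) pc44 pc45) (PT.nd (nat_lit 2574) pc46 pc47)))) (PT.nd (nat_lit 331110) (PT.nd (nat_lit 138918) (PT.nd (nat_lit 46956) (PT.nd (nat_lit 2496) pc48 pc49) (PT.nd (nat_lit 45708) pc50 pc51)) (PT.nd (nat_lit 93522) (PT.nd (nat_lit 46566) pc52 pc53) (PT.nd (nat_lit 47112) pc54 pc55))) (PT.nd (nat_lit 329160) (PT.nd (nat_lit 141180) (PT.nd (nat_lit 88140) pc56 pc57) (PT.nd (nat_lit 93834) pc58 pc59)) (PT.nd (nat_lit 273312) (PT.nd (nat_lit 133224) pc60 pc61) (PT.nd (nat_lit 149136) pc62 pc63))))))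

set_option maxRecDepth 10000000 in
noncomputable def Tx : XT := (XT.nd (nat_lit 10582728) (nat_lit 0) (nat_lit 304) XT.nil (XT.nd (nat_lit 8340696) (nat_lit 0) (nat_lit 0) (XT.nd (nat_lit 3927690) (nat_lit 0) (nat_lit 1216) (XT.nd (nat_lit 2715024) (nat_lit 0) (nat_lit 456) (XT.nd (nat_lit 1916694) (nat_lit 0) (nat_lit 228) (XT.nd (nat_lit 1312038) (nat_lit 0) (nat_lit 76) (XT.nd (nat_lit 935220) (nat_lit 0) (nat_lit 0) (XT.nd (nat_lit 654498) (nat_lit 0) (nat_lit 0) (XT.nd (nat_lit 421824) (nat_lit 0) (nat_lit 0) (XT.nd (nat_lit 281190) (nat_lit 0) (nat_lit 0) xc0 xc1) (XT.nd (nat_lit 139230) (nat_lit 0) (nat_lit 0) xc2 xc3)) (XT.nd (nat_lit 141024) (nat_lit 0) (nat_lit 0) (XT.nd (nat_lit 48516) (nat_lit 0) (nat_lit 0) xc4 xc5) (XT.nd (nat_lit 48126) (nat_lit 0) (nat_lit 0) xc6 xc7))) (XT.nd (nat_lit 189618) (nat_lit 0) (nat_lit 76) (XT.nd (nat_lit 95082) (nat_lit 0) (nat_lit 76) (XT.nd (nat_lit 47580)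 (nat_lit 0) (nat_lit 0) xc8 xc9) (XT.nd (nat_lit 47346) (nat_lit 0) (nat_lit 0) xc10 xc11)) (XT.nd (nat_lit 93912) (nat_lit 0) (nat_lit 0) (XT.nd (nat_lit 47034) (nat_lit 0) (nat_lit 0) xc12 xc13) (XT.nd (nat_lit 46722) (nat_lit 0) (nat_lit 0) xc14 xc15)))) (XT.nd (nat_lit 326274) (nat_lit 0) (nat_lit 0) (XT.nd (nat_lit 184938) (nat_lit 0) (nat_lit 0) (XT.nd (nat_lit 92742) (nat_lit 0) (nat_lit 0) (XT.nd (nat_lit 46410) (nat_lit 0) (nat_lit 0) xc16 xc17) (XT.nd (nat_lit 46176) (nat_lit 0) (nat_lit 0) xc18 xc19)) (XT.nd (nat_lit 91572) (nat_lit 0) (nat_lit 0) (XT.nd (nat_lit 45864) (nat_lit 0) (nat_lit 0) xc20 xc21) (XT.nd (nat_lit 4212) (nat_lit 228) (nat_lit 0) xc22 xc23))) (XT.nd (nat_lit 139854) (nat_lit 0) (nat_lit 152) (XT.nd (nat_lit 90558) (nat_lit 0) (nat_lit 76) (XT.nd (nat_lit 45318) (nat_lit 0) (nat_lit 76) xc24 xc25) (XT.nd (nat_lit 4212) (nat_lit 304) (nat_lit 0) xc26 xc27)) (XT.nd (nat_lit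 49140) (nat_lit 0) (nat_lit 0) (XT.nd (nat_lit 44928) (nat_lit 0) (nat_lit 152) xc28 xc29) (XT.nd (nat_lit 44772) (nat_lit 0) (nat_lit 0) xc30 xc31))))) (XT.nd (nat_lit 424086) (nat_lit 0) (nat_lit 76) (XT.nd (nat_lit 233220) (nat_lit 0) (nat_lit 76) (XT.nd (nat_lit 97110) (nat_lit 0) (nat_lit 0) (XT.nd (nat_lit 48594) (nat_lit 0) (nat_lit 0) (XT.nd (nat_lit 4134) (nat_lit 228) (nat_lit 0) xc32 xc33) (XT.nd (nat_lit 44304) (nat_lit 0) (nat_lit 532) xc34 xc35)) (XT.nd (nat_lit 48282) (nat_lit 0) (nat_lit 0) (XT.nd (nat_lit 44070) (nat_lit 0) (nat_lit 76) xc36 xc37) (XT.nd (nat_lit 43992) (nat_lit 0) (nat_lit 0) xc38 xc39))) (XT.nd (nat_lit 95706) (nat_lit 0) (nat_lit 0) (XT.nd (nat_lit 47892) (nat_lit 0) (nat_lit 0) (XT.nd (nat_lit 4134) (nat_lit 684) (nat_lit 0) xc40 xc41) (XT.nd (nat_lit 4212) (nat_lit 228) (nat_lit 0) xc42 xc43)) (XT.nd (nat_lit 47658) (nat_lit 0) (nat_lit 0) (XT.nd (nat_lit 4212) (nat_lit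 0) (nat_lit 0) xc44 xc45) (XT.nd (nat_lit 43290) (nat_lit 0) (nat_lit 1140) xc46 xc47)))) (XT.nd (nat_lit 188370) (nat_lit 0) (nat_lit 76) (XT.nd (nat_lit 94458) (nat_lit 0) (nat_lit 0) (XT.nd (nat_lit 47268) (nat_lit 0) (nat_lit 0) (XT.nd (nat_lit 43056) (nat_lit 0) (nat_lit 912) xc48 xc49) (XT.nd (nat_lit 42978) (nat_lit 0) (nat_lit 836) xc50 xc51)) (XT.nd (nat_lit 47034) (nat_lit 0) (nat_lit 76) (XT.nd (nat_lit 42822) (nat_lit 0) (nat_lit 760) xc52 xc53) (XT.nd (nat_lit 42666) (nat_lit 0) (nat_lit 760) xc54 xc55))) (XT.nd (nat_lit 93210) (nat_lit 0) (nat_lit 76) (XT.nd (nat_lit 46644) (nat_lit 0) (nat_lit 76) (XT.nd (nat_lit 42432) (nat_lit 0) (nat_lit 836) xc56 xc57) (XT.nd (nat_lit 42354) (nat_lit 0) (nat_lit 988) xc58 xc59)) (XT.nd (nat_lit 46410) (nat_lit 0) (nat_lit 0) (XT.nd (nat_lit 42198) (nat_lit 0) (nat_lit 1216) xc60 xc61) (XT.nd (nat_lit 42042) (nat_lit 0) (nat_lit 1748) xc62 xc63)))))) (XT.nd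 (nat_lit 649194) (nat_lit 0) (nat_lit 304) (XT.nd (nat_lit 328146) (nat_lit 0) (nat_lit 152) (XT.nd (nat_lit 183612) (nat_lit 0) (nat_lit 76) (XT.nd (nat_lit 92118) (nat_lit 0) (nat_lit 76) (XT.nd (nat_lit 46098) (nat_lit 0) (nat_lit 76) (XT.nd (nat_lit 41886) (nat_lit 0) (nat_lit 2432) xc64 xc65) (XT.nd (nat_lit 4212) (nat_lit 0) (nat_lit 0) xc66 xc67)) (XT.nd (nat_lit 45786) (nat_lit 0) (nat_lit 0) (XT.nd (nat_lit 4134) (nat_lit 380) (nat_lit 0) xc68 xc69) (XT.nd (nat_lit 4212) (nat_lit 836) (nat_lit 0) xc70 xc71))) (XT.nd (nat_lit 53898) (nat_lit 0) (nat_lit 0) (XT.nd (nat_lit 45474) (nat_lit 0) (nat_lit 228) (XT.nd (nat_lit 4134) (nat_lit 1672) (nat_lit 0) xc72 xc73) (XT.nd (nat_lit 4212) (nat_lit 2812) (nat_lit 0) xc74 xc75)) (XT.nd (nat_lit 45396) (nat_lit 0) (nat_lit 0) (XT.nd (nat_lit 41184) (nat_lit 0) (nat_lit 912) xc76 xc77) (XT.nd (nat_lit 41028) (nat_lit 0) (nat_lit 1976) xc78 xc79)))) (XT.nd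 (nat_lit 143286) (nat_lit 0) (nat_lit 76) (XT.nd (nat_lit 90012) (nat_lit 0) (nat_lit 76) (XT.nd (nat_lit 45006) (nat_lit 0) (nat_lit 76) (XT.nd (nat_lit 40794) (nat_lit 0) (nat_lit 4104) xc80 xc81) (XT.nd (nat_lit 4212) (nat_lit 456) (nat_lit 0) xc82 xc83)) (XT.nd (nat_lit 44850) (nat_lit 0) (nat_lit 380) (XT.nd (nat_lit 4212) (nat_lit 1520) (nat_lit 0) xc84 xc85) (XT.nd (nat_lit 4212) (nat_lit 3420) (nat_lit 0) xc86 xc87))) (XT.nd (nat_lit 89154) (nat_lit 0) (nat_lit 76) (XT.nd (nat_lit 44616) (nat_lit 0) (nat_lit 76) (XT.nd (nat_lit 40404) (nat_lit 0) (nat_lit 1596) xc88 xc89) (XT.nd (nat_lit 40326) (nat_lit 0) (nat_lit 4408) xc90 xc91)) (XT.nd (nat_lit 44382) (nat_lit 0) (nat_lit 0) (XT.nd (nat_lit 4212) (nat_lit 532) (nat_lit 0) xc92 xc93) (XT.nd (nat_lit 4212) (nat_lit 2280) (nat_lit 0) xc94 xc95))))) (XT.nd (nat_lit 244842) (nat_lit 0) (nat_lit 228) (XT.nd (nat_lit 140166) (nat_lit 0) (nat_lit 152)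 (XT.nd (nat_lit 52416) (nat_lit 0) (nat_lit 76) (XT.nd (nat_lit 8346) (nat_lit 1140) (nat_lit 0) (XT.nd (nat_lit 4134) (nat_lit 5472) (nat_lit 0) xc96 xc97) (XT.nd (nat_lit 39858) (nat_lit 0) (nat_lit 4180) xc98 xc99)) (XT.nd (nat_lit 43914) (nat_lit 0) (nat_lit 76) (XT.nd (nat_lit 4212) (nat_lit 380) (nat_lit 0) xc100 xc101) (XT.nd (nat_lit 4212) (nat_lit 2432) (nat_lit 0) xc102 xc103))) (XT.nd (nat_lit 52260) (nat_lit 0) (nat_lit 0) (XT.nd (nat_lit 8346) (nat_lit 1368) (nat_lit 0) (XT.nd (nat_lit 4134) (nat_lit 6688) (nat_lit 0) xc104 xc105) (XT.nd (nat_lit 39702) (nat_lit 0) (nat_lit 5092) xc106 xc107)) (XT.nd (nat_lit 43992) (nat_lit 0) (nat_lit 152) (XT.nd (nat_lit 4212) (nat_lit 760) (nat_lit 0) xc108 xc109) (XT.nd (nat_lit 4212) (nat_lit 3040) (nat_lit 0) xc110 xc111)))) (XT.nd (nat_lit 140790) (nat_lit 0) (nat_lit 0) (XT.nd (nat_lit 88140) (nat_lit 0) (nat_lit 0) (XT.nd (nat_lit 43992) (nat_lit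 0) (nat_lit 0) (XT.nd (nat_lit 39780) (nat_lit 0) (nat_lit 1824) xc112 xc113) (XT.nd (nat_lit 39936) (nat_lit 0) (nat_lit 5548) xc114 xc115)) (XT.nd (nat_lit 44226) (nat_lit 0) (nat_lit 76) (XT.nd (nat_lit 4212) (nat_lit 760) (nat_lit 0) xc116 xc117) (XT.nd (nat_lit 4212) (nat_lit 3192) (nat_lit 0) xc118 xc119))) (XT.nd (nat_lit 88686) (nat_lit 0) (nat_lit 152) (XT.nd (nat_lit 44226) (nat_lit 0) (nat_lit 152) (XT.nd (nat_lit 40014) (nat_lit 0) (nat_lit 1596) xc120 xc121) (XT.nd (nat_lit 40248) (nat_lit 0) (nat_lit 4636) xc122 xc123)) (XT.nd (nat_lit 44538) (nat_lit 0) (nat_lit 76) (XT.nd (nat_lit 4212) (nat_lit 380) (nat_lit 0) xc124 xc125) (XT.nd (nat_lit 4212) (nat_lit 2128) (nat_lit 0) xc126 xc127))))))) (XT.nd (nat_lit 1361256) (nat_lit 0) (nat_lit 1976) (XT.nd (nat_lit 613158) (nat_lit 0) (nat_lit 532) (XT.nd (nat_lit 286182) (nat_lit 0) (nat_lit 228) (XT.nd (nat_lit 142584) (nat_lit 0) (nat_lit 76)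 (XT.nd (nat_lit 53040) (nat_lit 0) (nat_lit 0) (XT.nd (nat_lit 8346) (nat_lit 684) (nat_lit 0) (XT.nd (nat_lit 4134) (nat_lit 4864) (nat_lit 0) xc128 xc129) (XT.nd (nat_lit 40482) (nat_lit 0) (nat_lit 2508) xc130 xc131)) (XT.nd (nat_lit 44694) (nat_lit 0) (nat_lit 0) (XT.nd (nat_lit 40482) (nat_lit 0) (nat_lit 6156) xc132 xc133) (XT.nd (nat_lit 4212) (nat_lit 760) (nat_lit 0) xc134 xc135))) (XT.nd (nat_lit 53352) (nat_lit 0) (nat_lit 76) (XT.nd (nat_lit 44928) (nat_lit 0) (nat_lit 684) (XT.nd (nat_lit 4134) (nat_lit 2812) (nat_lit 0) xc136 xc137) (XT.nd (nat_lit 4212) (nat_lit 5092) (nat_lit 0) xc138 xc139)) (XT.nd (nat_lit 45084) (nat_lit 0) (nat_lit 76) (XT.nd (nat_lit 40872) (nat_lit 0) (nat_lit 2204) xc140 xc141) (XT.nd (nat_lit 40950) (nat_lit 0) (nat_lit 4560) xc142 xc143)))) (XT.nd (nat_lit 144378) (nat_lit 0) (nat_lit 152) (XT.nd (nat_lit 90480) (nat_lit 0) (nat_lit 76) (XT.nd (nat_lit 45162) (nat_lit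 0) (nat_lit 0) (XT.nd (nat_lit 4134) (nat_lit 228) (nat_lit 0) xc144 xc145) (XT.nd (nat_lit 4212) (nat_lit 1444) (nat_lit 0) xc146 xc147)) (XT.nd (nat_lit 45474) (nat_lit 0) (nat_lit 456) (XT.nd (nat_lit 4212) (nat_lit 3420) (nat_lit 0) xc148 xc149) (XT.nd (nat_lit 4212) (nat_lit 5396) (nat_lit 0) xc150 xc151))) (XT.nd (nat_lit 91104) (nat_lit 0) (nat_lit 76) (XT.nd (nat_lit 45474) (nat_lit 0) (nat_lit 76) (XT.nd (nat_lit 41262) (nat_lit 0) (nat_lit 1748) xc152 xc153) (XT.nd (nat_lit 41418) (nat_lit 0) (nat_lit 3268) xc154 xc155)) (XT.nd (nat_lit 45708) (nat_lit 0) (nat_lit 0) (XT.nd (nat_lit 41496) (nat_lit 0) (nat_lit 5320) xc156 xc157) (XT.nd (nat_lit 4212) (nat_lit 304) (nat_lit 0) xc158 xc159))))) (XT.nd (nat_lit 332124) (nat_lit 0) (nat_lit 456) (XT.nd (nat_lit 184236) (nat_lit 0) (nat_lit 228) (XT.nd (nat_lit 91884) (nat_lit 0) (nat_lit 152) (XT.nd (nat_lit 45864) (nat_lit 0) (nat_lit 76) (XT.nd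 (nat_lit 4134) (nat_lit 1140) (nat_lit 0) xc160 xc161) (XT.nd (nat_lit 4212) (nat_lit 2280) (nat_lit 0) xc162 xc163)) (XT.nd (nat_lit 46098) (nat_lit 0) (nat_lit 0) (XT.nd (nat_lit 4134) (nat_lit 3496) (nat_lit 0) xc164 xc165) (XT.nd (nat_lit 4212) (nat_lit 4864) (nat_lit 0) xc166 xc167))) (XT.nd (nat_lit 54756) (nat_lit 0) (nat_lit 0) (XT.nd (nat_lit 8346) (nat_lit 532) (nat_lit 0) (XT.nd (nat_lit 4134) (nat_lit 5776) (nat_lit 0) xc168 xc169) (XT.nd (nat_lit 42198) (nat_lit 0) (nat_lit 912) xc170 xc171)) (XT.nd (nat_lit 46488) (nat_lit 0) (nat_lit 228) (XT.nd (nat_lit 42276) (nat_lit 0) (nat_lit 1368) xc172 xc173) (XT.nd (nat_lit 42432) (nat_lit 0) (nat_lit 1520) xc174 xc175)))) (XT.nd (nat_lit 187512) (nat_lit 0) (nat_lit 304) (XT.nd (nat_lit 93522) (nat_lit 0) (nat_lit 76) (XT.nd (nat_lit 46644) (nat_lit 0) (nat_lit 76) (XT.nd (nat_lit 42432) (nat_lit 0) (nat_lit 1900) xc176 xc177) (XT.nd (nat_lit 42666)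 (nat_lit 0) (nat_lit 1824) xc178 xc179)) (XT.nd (nat_lit 46956) (nat_lit 0) (nat_lit 152) (XT.nd (nat_lit 42744) (nat_lit 0) (nat_lit 1824) xc180 xc181) (XT.nd (nat_lit 42822) (nat_lit 0) (nat_lit 1520) xc182 xc183))) (XT.nd (nat_lit 94380) (nat_lit 0) (nat_lit 380) (XT.nd (nat_lit 47034) (nat_lit 0) (nat_lit 304) (XT.nd (nat_lit 42822) (nat_lit 0) (nat_lit 1444) xc184 xc185) (XT.nd (nat_lit 43134) (nat_lit 0) (nat_lit 760) xc186 xc187)) (XT.nd (nat_lit 47424) (nat_lit 0) (nat_lit 0) (XT.nd (nat_lit 43212) (nat_lit 0) (nat_lit 152) xc188 xc189) (XT.nd (nat_lit 43290) (nat_lit 0) (nat_lit 152) xc190 xc191)))))) (XT.nd (nat_lit 940524) (nat_lit 0) (nat_lit 2584) (XT.nd (nat_lit 424788) (nat_lit 0) (nat_lit 912) (XT.nd (nat_lit 191490) (nat_lit 0) (nat_lit 380) (XT.nd (nat_lit 95550) (nat_lit 0) (nat_lit 152) (XT.nd (nat_lit 47658) (nat_lit 0) (nat_lit 152) (XT.nd (nat_lit 4134) (nat_lit 4180) (nat_lit 0)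 xc192 xc193) (XT.nd (nat_lit 4212) (nat_lit 2660) (nat_lit 0) xc194 xc195)) (XT.nd (nat_lit 47892) (nat_lit 0) (nat_lit 152) (XT.nd (nat_lit 4134) (nat_lit 1292) (nat_lit 0) xc196 xc197) (XT.nd (nat_lit 43836) (nat_lit 0) (nat_lit 4788) xc198 xc199))) (XT.nd (nat_lit 96330) (nat_lit 0) (nat_lit 152) (XT.nd (nat_lit 48048) (nat_lit 0) (nat_lit 152) (XT.nd (nat_lit 43836) (nat_lit 0) (nat_lit 2660) xc200 xc201) (XT.nd (nat_lit 44070) (nat_lit 0) (nat_lit 532) xc202 xc203)) (XT.nd (nat_lit 88374) (nat_lit 0) (nat_lit 380) (XT.nd (nat_lit 44148) (nat_lit 0) (nat_lit 228) xc204 xc205) (XT.nd (nat_lit 4212) (nat_lit 2128) (nat_lit 0) xc206 xc207)))) (XT.nd (nat_lit 235872) (nat_lit 0) (nat_lit 836) (XT.nd (nat_lit 97344) (nat_lit 0) (nat_lit 380) (XT.nd (nat_lit 48594) (nat_lit 0) (nat_lit 152) (XT.nd (nat_lit 44382) (nat_lit 0) (nat_lit 3800) xc208 xc209) (XT.nd (nat_lit 44538) (nat_lit 0) (nat_lit 684) xc210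 xc211)) (XT.nd (nat_lit 89466) (nat_lit 0) (nat_lit 152) (XT.nd (nat_lit 44694) (nat_lit 0) (nat_lit 0) xc212 xc213) (XT.nd (nat_lit 4212) (nat_lit 684) (nat_lit 0) xc214 xc215))) (XT.nd (nat_lit 139386) (nat_lit 0) (nat_lit 456) (XT.nd (nat_lit 49140) (nat_lit 0) (nat_lit 0) (XT.nd (nat_lit 44928) (nat_lit 0) (nat_lit 152) xc216 xc217) (XT.nd (nat_lit 45084) (nat_lit 0) (nat_lit 152) xc218 xc219)) (XT.nd (nat_lit 49530) (nat_lit 0) (nat_lit 152) (XT.nd (nat_lit 45318) (nat_lit 0) (nat_lit 1368) xc220 xc221) (XT.nd (nat_lit 45396) (nat_lit 0) (nat_lit 228) xc222 xc223))))) (XT.nd (nat_lit 656838) (nat_lit 0) (nat_lit 3116) (XT.nd (nat_lit 283686) (nat_lit 0) (nat_lit 988) (XT.nd (nat_lit 141336) (nat_lit 0) (nat_lit 456) (XT.nd (nat_lit 49764) (nat_lit 0) (nat_lit 228) (XT.nd (nat_lit 45552) (nat_lit 0) (nat_lit 1216) xc224 xc225) (XT.nd (nat_lit 45708) (nat_lit 0) (nat_lit 228) xc226 xc227)) (XT.nd (nat_lit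 91962) (nat_lit 0) (nat_lit 532) (XT.nd (nat_lit 45942) (nat_lit 0) (nat_lit 228) xc228 xc229) (XT.nd (nat_lit 4212) (nat_lit 608) (nat_lit 0) xc230 xc231))) (XT.nd (nat_lit 185640) (nat_lit 0) (nat_lit 1140) (XT.nd (nat_lit 92586) (nat_lit 0) (nat_lit 608) (XT.nd (nat_lit 46176) (nat_lit 0) (nat_lit 228) xc232 xc233) (XT.nd (nat_lit 46488) (nat_lit 0) (nat_lit 228) xc234 xc235)) (XT.nd (nat_lit 93522) (nat_lit 0) (nat_lit 380) (XT.nd (nat_lit 46722) (nat_lit 0) (nat_lit 0) xc236 xc237) (XT.nd (nat_lit 46956) (nat_lit 0) (nat_lit 304) xc238 xc239)))) (XT.nd (nat_lit 468312) (nat_lit 0) (nat_lit 3116) (XT.nd (nat_lit 189306) (nat_lit 0) (nat_lit 1064) (XT.nd (nat_lit 94380) (nat_lit 0) (nat_lit 684) (XT.nd (nat_lit 47112) (nat_lit 0) (nat_lit 0) xc240 xc241) (XT.nd (nat_lit 47424) (nat_lit 0) (nat_lit 0) xc242 xc243)) (XT.nd (nat_lit 138996) (nat_lit 0) (nat_lit 760) (XT.nd (nat_lit 91182) (nat_lit 0) (nat_lit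 380) xc244 xc245) (XT.nd (nat_lit 47970) (nat_lit 0) (nat_lit 380) xc246 xc247))) (XT.nd (nat_lit 283296) (nat_lit 0) (nat_lit 2508) (XT.nd (nat_lit 141102) (nat_lit 0) (nat_lit 912) (XT.nd (nat_lit 48282) (nat_lit 0) (nat_lit 456) xc248 xc249) (XT.nd (nat_lit 48672) (nat_lit 0) (nat_lit 608) xc250 xc251)) (XT.nd (nat_lit 233844) (nat_lit 0) (nat_lit 2432) (XT.nd (nat_lit 93990) (nat_lit 0) (nat_lit 532) xc252 xc253) (XT.nd (nat_lit 141024) (nat_lit 0) (nat_lit 608) xc254 xc255)))))))) XT.nil))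

set_option maxRecDepth 10000000 in
noncomputable def Te : XT := XT.nil

set_option maxRecDepth 10000000 in
noncomputable def Tz : ZL := (ZL.cons (nat_lit 76) (nat_lit 3) (nat_lit 132959296015141842644) (ZL.cons (nat_lit 152) (nat_lit 6) (nat_lit 262175388070233059178) (ZL.cons (nat_lit 304) (nat_lit 3) (nat_lit 129217398710008884283) (ZL.cons (nat_lit 380) (nat_lit 6) (nat_lit 254808461031007489326) (ZL.cons (nat_lit 456) (nat_lit 6) (nat_lit 251293210259755513442) (ZL.cons (nat_lit 532) (nat_lit 3) (nat_lit 125592448551200758757) (ZL.cons (nat_lit 608) (nat_lit 6) (nat_lit 247672501965365978284) (ZL.cons (nat_lit 684) (nat_lit 6) (nat_lit 244268206536771423106) (ZL.cons (nat_lit 760) (nat_lit 3) (nat_lit 122081524065786684403) (ZL.cons (nat_lit 836) (nat_lit 6) (nat_lit 240761782245319031272) (ZL.cons (nat_lit 912) (nat_lit 6) (nat_lit 237465732326702355096) (ZL.cons (nat_lit 988) (nat_lit 3) (nat_lit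 118681818393837558956) (ZL.cons (nat_lit 1064) (nat_lit 6) (nat_lit 234070800910527178634) (ZL.cons (nat_lit 1140) (nat_lit 6) (nat_lit 230880397378642754076) (ZL.cons (nat_lit 1216) (nat_lit 3) (nat_lit 115390637748046019182) (ZL.cons (nat_lit 1292) (nat_lit 6) (nat_lit 227594281740801796782) (ZL.cons (nat_lit 1368) (nat_lit 6) (nat_lit 224507034892831443002) (ZL.cons (nat_lit 1444) (nat_lit 3) (nat_lit 112205400027701781833) (ZL.cons (nat_lit 1520) (nat_lit 6) (nat_lit 221327170639421978604) (ZL.cons (nat_lit 1596) (nat_lit 6) (nat_lit 218340699059386766422) (ZL.cons (nat_lit 1672) (nat_lit 3) (nat_lit 109123633589194412662) (ZL.cons (nat_lit 1748) (nat_lit 6) (nat_lit 215264633331950497876) (ZL.cons (nat_lit 1824) (nat_lit 6) (nat_lit 212376662915192632678) (ZL.cons (nat_lit 1900) (nat_lit 3) (nat_lit 106142976175558480853) (ZL.cons (nat_lit 1976) (nat_lit 6) (nat_lit 209402053385932031522) (ZL.cons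 (nat_lit 2052) (nat_lit 6) (nat_lit 206610416524678555442) (ZL.cons (nat_lit 2128) (nat_lit 3) (nat_lit 103261174007933612202) (ZL.cons (nat_lit 2204) (nat_lit 6) (nat_lit 203735030557587475082) (ZL.cons (nat_lit 2280) (nat_lit 6) (nat_lit 201037665490983607078) (ZL.cons (nat_lit 2356) (nat_lit 3) (nat_lit 100476081042185332159) (ZL.cons (nat_lit 2432) (nat_lit 6) (nat_lit 198427895895123636428) (ZL.cons (nat_lit 2508) (nat_lit 6) (nat_lit 198259379472381623032) (ZL.cons (nat_lit 2584) (nat_lit 6) (nat_lit 195654329804774923902) (ZL.cons (nat_lit 2660) (nat_lit 3) (nat_lit 97785658394322926633) (ZL.cons (nat_lit 2736) (nat_lit 6) (nat_lit 193134736824559454276) (ZL.cons (nat_lit 2812) (nat_lit 6) (nat_lit 192971128647140023798) (ZL.cons (nat_lit 2888) (nat_lit 6) (nat_lit 190456543038808449926) (ZL.cons (nat_lit 2964) (nat_lit 3) (nat_lit 95187973938759045042) (ZL.cons (nat_lit 3040) (nat_lit 6) (nat_lit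 188025362752925405034) (ZL.cons (nat_lit 3116) (nat_lit 6) (nat_lit 187866519862226928838) (ZL.cons (nat_lit 3192) (nat_lit 6) (nat_lit 185440651897175508952) (ZL.cons (nat_lit 3268) (nat_lit 3) (nat_lit 92681202083883696299) (ZL.cons (nat_lit 3344) (nat_lit 6) (nat_lit 183096224291908931122) (ZL.cons (nat_lit 3420) (nat_lit 6) (nat_lit 182942007893172546468) (ZL.cons (nat_lit 3496) (nat_lit 6) (nat_lit 180603216129076239606) (ZL.cons (nat_lit 3572) (nat_lit 3) (nat_lit 90263623729873985653) (ZL.cons (nat_lit 3648) (nat_lit 6) (nat_lit 178343985271024407282) (ZL.cons (nat_lit 3724) (nat_lit 6) (nat_lit 178194260612057043540) (ZL.cons (nat_lit 3876) (nat_lit 6) (nat_lit 175941008817902751688) (ZL.cons (nat_lit 3952) (nat_lit 3) (nat_lit 87933626414131828123) (ZL.cons (nat_lit 4028) (nat_lit 6) (nat_lit 173765523216494087140) (ZL.cons (nat_lit 4104) (nat_lit 6) (nat_lit 173620159469923831076) (ZL.cons (nat_lit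 4180) (nat_lit 6) (nat_lit 171665902898082246210) (ZL.cons (nat_lit 4256) (nat_lit 6) (nat_lit 171451017057404067214) (ZL.cons (nat_lit 4332) (nat_lit 3) (nat_lit 85689704650236453296) (ZL.cons (nat_lit 4408) (nat_lit 6) (nat_lit 169357930223547793990) (ZL.cons (nat_lit 4484) (nat_lit 6) (nat_lit 169216800372508710436) (ZL.cons (nat_lit 4560) (nat_lit 6) (nat_lit 167339070057529311744) (ZL.cons (nat_lit 4636) (nat_lit 6) (nat_lit 167130443027744671946) (ZL.cons (nat_lit 4712) (nat_lit 3) (nat_lit 83530460466818374507) (ZL.cons (nat_lit 4788) (nat_lit 6) (nat_lit 165118514235491191480) (ZL.cons (nat_lit 4864) (nat_lit 6) (nat_lit 164981494962637712304) (ZL.cons (nat_lit 4940) (nat_lit 6) (nat_lit 163179255999716202892) (ZL.cons (nat_lit 5016) (nat_lit 6) (nat_lit 162976705485362183670) (ZL.cons (nat_lit 5092) (nat_lit 3) (nat_lit 81454604153308313713) (ZL.cons (nat_lit 5168) (nat_lit 6) (nat_lit 161310973822932135802)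 (ZL.cons (nat_lit 5244) (nat_lit 6) (nat_lit 161044800744014485468) (ZL.cons (nat_lit 5320) (nat_lit 6) (nat_lit 160911772323768389178) (ZL.cons (nat_lit 5396) (nat_lit 6) (nat_lit 159184092666490527478) (ZL.cons (nat_lit 5472) (nat_lit 6) (nat_lit 158987441681680800076) (ZL.cons (nat_lit 5548) (nat_lit 3) (nat_lit 79460955220090130015) (ZL.cons (nat_lit 5624) (nat_lit 6) (nat_lit 157392955391363347014) (ZL.cons (nat_lit 5700) (nat_lit 6) (nat_lit 157134534926394754456) (ZL.cons (nat_lit 5776) (nat_lit 6) (nat_lit 157005381120330583298) (ZL.cons (nat_lit 5852) (nat_lit 6) (nat_lit 155351433013172623734) (ZL.cons (nat_lit 5928) (nat_lit 6) (nat_lit 155160509726949587420) (ZL.cons (nat_lit 6004) (nat_lit 3) (nat_lit 77548443581192978154) (ZL.cons (nat_lit 6080) (nat_lit 6) (nat_lit 153636577891798971098) (ZL.cons (nat_lit 6156) (nat_lit 6) (nat_lit 153385684236489657934) (ZL.cons (nat_lit 6232) (nat_lit 6)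 (nat_lit 153260292191767161666) (ZL.cons (nat_lit 6308) (nat_lit 6) (nat_lit 151679353830561072568) (ZL.cons (nat_lit 6384) (nat_lit 6) (nat_lit 151493991416752299450) (ZL.cons (nat_lit 6460) (nat_lit 3) (nat_lit 75716110968296717147) (ZL.cons (nat_lit 6536) (nat_lit 6) (nat_lit 150040027540847971398) (ZL.cons (nat_lit 6612) (nat_lit 6) (nat_lit 149796441467732133376) (ZL.cons (nat_lit 6688) (nat_lit 6) (nat_lit 149674701618486991370) (ZL.cons (nat_lit 6764) (nat_lit 6) (nat_lit 148466272946320508022) (ZL.cons (nat_lit 6840) (nat_lit 6) (nat_lit 148166159048634704074) (ZL.cons (nat_lit 6916) (nat_lit 6) (nat_lit 147986195540082497164) (ZL.cons (nat_lit 6992) (nat_lit 3) (nat_lit 73963112585498110157) (ZL.cons (nat_lit 7068) (nat_lit 6) (nat_lit 146601719640841382722) (ZL.cons (nat_lit 7144) (nat_lit 6) (nat_lit 146365228307719209886) (ZL.cons (nat_lit 7220) (nat_lit 6) (nat_lit 146247034279325868132) (ZL.cons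 (nat_lit 7296) (nat_lit 6) (nat_lit 145101756258461864478) (ZL.cons (nat_lit 7372) (nat_lit 6) (nat_lit 144810383542262054820) (ZL.cons (nat_lit 7448) (nat_lit 6) (nat_lit 144635661689298747140) (ZL.cons (nat_lit 7524) (nat_lit 3) (nat_lit 72288719014995841118) (ZL.cons (nat_lit 7600) (nat_lit 6) (nat_lit 143664958253880477918) (ZL.cons (nat_lit 7676) (nat_lit 6) (nat_lit 143320302641488787850) (ZL.cons (nat_lit 7752) (nat_lit 6) (nat_lit 143090699405447843348) (ZL.cons (nat_lit 7828) (nat_lit 6) (nat_lit 142975947921570812518) (ZL.cons (nat_lit 7904) (nat_lit 6) (nat_lit 141893683592961840102) (ZL.cons (nat_lit 7980) (nat_lit 6) (nat_lit 141610797460729015190) (ZL.cons (nat_lit 8056) (nat_lit 6) (nat_lit 141441164593774347538) (ZL.cons (nat_lit 8132) (nat_lit 3) (nat_lit 70692318384602190806) (ZL.cons (nat_lit 8208) (nat_lit 6) (nat_lit 140529279836347547252) (ZL.cons (nat_lit 8284) (nat_lit 6) (nat_lit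 140194662736938139420) (ZL.cons (nat_lit 8360) (nat_lit 6) (nat_lit 139971746973791591358) (ZL.cons (nat_lit 8436) (nat_lit 6) (nat_lit 139860337766143988610) (ZL.cons (nat_lit 8588) (nat_lit 6) (nat_lit 138841057834802000704) (ZL.cons (nat_lit 8664) (nat_lit 6) (nat_lit 138566411104478869722) (ZL.cons (nat_lit 8740) (nat_lit 6) (nat_lit 138401719000639386564) (ZL.cons (nat_lit 8816) (nat_lit 3) (nat_lit 69173418808780874871) (ZL.cons (nat_lit 8892) (nat_lit 6) (nat_lit 137548799992755625720) (ZL.cons (nat_lit 8968) (nat_lit 6) (nat_lit 137223929022455229766) (ZL.cons (nat_lit 9044) (nat_lit 6) (nat_lit 137007505951439163688) (ZL.cons (nat_lit 9120) (nat_lit 6) (nat_lit 136899341672169646456) (ZL.cons (nat_lit 9196) (nat_lit 6) (nat_lit 136316760053461304044) (ZL.cons (nat_lit 9272) (nat_lit 6) (nat_lit 135943127685124728506) (ZL.cons (nat_lit 9348) (nat_lit 6) (nat_lit 135676480374131397456) (ZL.cons (nat_lit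 9424) (nat_lit 6) (nat_lit 135516585127685297304) (ZL.cons (nat_lit 9500) (nat_lit 3) (nat_lit 67731651115746708447) (ZL.cons (nat_lit 9576) (nat_lit 6) (nat_lit 134722887945687756764) (ZL.cons (nat_lit 9652) (nat_lit 6) (nat_lit 134407479236658246130) (ZL.cons (nat_lit 9728) (nat_lit 6) (nat_lit 134197359750234881006) (ZL.cons (nat_lit 9804) (nat_lit 6) (nat_lit 134092345886866417676) (ZL.cons (nat_lit 9880) (nat_lit 6) (nat_lit 133562143575245777382) (ZL.cons (nat_lit 9956) (nat_lit 6) (nat_lit 133199393703074344820) (ZL.cons (nat_lit 10032) (nat_lit 6) (nat_lit 132940512818614800112) (ZL.cons (nat_lit 10108) (nat_lit 6) (nat_lit 132785274715269071810) (ZL.cons (nat_lit 10184) (nat_lit 3) (nat_lit 66366771874046244445) (ZL.cons (nat_lit 10260) (nat_lit 6) (nat_lit 132459880331145006108) (ZL.cons (nat_lit 10336) (nat_lit 6) (nat_lit 132051168164661027984) (ZL.cons (nat_lit 10412) (nat_lit 6) (nat_lit 131744946117059561348)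 (ZL.cons (nat_lit 10488) (nat_lit 6) (nat_lit 131540946615677653462) (ZL.cons (nat_lit 10564) (nat_lit 6) (nat_lit 131438991408523805570) (ZL.cons (nat_lit 10640) (nat_lit 6) (nat_lit 130961799317549779132) (ZL.cons (nat_lit 10716) (nat_lit 6) (nat_lit 130609614975635766934) (ZL.cons (nat_lit 10792) (nat_lit 6) (nat_lit 130358274311111937120) (ZL.cons (nat_lit 10868) (nat_lit 6) (nat_lit 130207557705921909644) (ZL.cons (nat_lit 10944) (nat_lit 3) (nat_lit 65078666732972322336) (ZL.cons (nat_lit 11020) (nat_lit 6) (nat_lit 129930335286048947652) (ZL.cons (nat_lit 11096) (nat_lit 6) (nat_lit 129533527357423726176) (ZL.cons (nat_lit 11172) (nat_lit 6) (nat_lit 129236224398587350800) (ZL.cons (nat_lit 11248) (nat_lit 6) (nat_lit 129038166630255401396) (ZL.cons (nat_lit 11324) (nat_lit 6) (nat_lit 128939180992241956840) (ZL.cons (nat_lit 11400) (nat_lit 6) (nat_lit 128955874790907707582) (ZL.cons (nat_lit 11476)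 (nat_lit 6) (nat_lit 128515742991689079034) (ZL.cons (nat_lit 11552) (nat_lit 6) (nat_lit 128173816446141494380) (ZL.cons (nat_lit 11628) (nat_lit 6) (nat_lit 127929796383496999414) (ZL.cons (nat_lit 11704) (nat_lit 6) (nat_lit 127783469582341632930) (ZL.cons (nat_lit 11780) (nat_lit 3) (nat_lit 63867354092152726673) (ZL.cons (nat_lit 11856) (nat_lit 6) (nat_lit 128037566361790498612) (ZL.cons (nat_lit 11932) (nat_lit 6) (nat_lit 127555372552287008832) (ZL.cons (nat_lit 12008) (nat_lit 6) (nat_lit 127170122136146017106) (ZL.cons (nat_lit 12084) (nat_lit 6) (nat_lit 126881478486790312862) (ZL.cons (nat_lit 12160) (nat_lit 6) (nat_lit 126689189391322400816) (ZL.cons (nat_lit 12236) (nat_lit 6) (nat_lit 126593086830144299304) (ZL.cons (nat_lit 12312) (nat_lit 6) (nat_lit 126651576880581144824) (ZL.cons (nat_lit 12388) (nat_lit 6) (nat_lit 126224264454155291866) (ZL.cons (nat_lit 12464) (nat_lit 6) (nat_lit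 125892296934206180550) (ZL.cons (nat_lit 12540) (nat_lit 6) (nat_lit 125655384252027059226) (ZL.cons (nat_lit 12616) (nat_lit 6) (nat_lit 125513319396536412152) (ZL.cons (nat_lit 12692) (nat_lit 3) (nat_lit 62732989116697245112) (ZL.cons (nat_lit 12768) (nat_lit 6) (nat_lit 125803566252198151792) (ZL.cons (nat_lit 12844) (nat_lit 6) (nat_lit 125335416922583113172) (ZL.cons (nat_lit 12920) (nat_lit 6) (nat_lit 124961387392349140624) (ZL.cons (nat_lit 12996) (nat_lit 6) (nat_lit 124681150839576612228) (ZL.cons (nat_lit 13072) (nat_lit 6) (nat_lit 124494462397374755876) (ZL.cons (nat_lit 13148) (nat_lit 6) (nat_lit 124401158939920288386) (ZL.cons (nat_lit 13224) (nat_lit 6) (nat_lit 125010599686977306732) (ZL.cons (nat_lit 13300) (nat_lit 6) (nat_lit 124502802878537816010) (ZL.cons (nat_lit 13376) (nat_lit 6) (nat_lit 124087936445114657800) (ZL.cons (nat_lit 13452) (nat_lit 6) (nat_lit 123765637882057268172)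 (ZL.cons (nat_lit 13528) (nat_lit 6) (nat_lit 123535625569262004748) (ZL.cons (nat_lit 13604) (nat_lit 6) (nat_lit 123397698525096327980) (ZL.cons (nat_lit 13680) (nat_lit 3) (nat_lit 61675868115391891209) (ZL.cons (nat_lit 13756) (nat_lit 6) (nat_lit 124271984301512105990) (ZL.cons (nat_lit 13832) (nat_lit 6) (nat_lit 123725694795184797698) (ZL.cons (nat_lit 13908) (nat_lit 6) (nat_lit 123271180882937187386) (ZL.cons (nat_lit 13984) (nat_lit 6) (nat_lit 122908045416690612096) (ZL.cons (nat_lit 14060) (nat_lit 6) (nat_lit 122635971093610487440) (ZL.cons (nat_lit 14136) (nat_lit 6) (nat_lit 122454720178851403600) (ZL.cons (nat_lit 14212) (nat_lit 6) (nat_lit 122364134297827648760) (ZL.cons (nat_lit 14288) (nat_lit 6) (nat_lit 123003413646043458508) (ZL.cons (nat_lit 14364) (nat_lit 6) (nat_lit 122510407035908030626) (ZL.cons (nat_lit 14440) (nat_lit 6) (nat_lit 122107624090837003234) (ZL.cons (nat_lit 14516)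 (nat_lit 6) (nat_lit 121794712864567692916) (ZL.cons (nat_lit 14592) (nat_lit 6) (nat_lit 121571399939523747844) (ZL.cons (nat_lit 14668) (nat_lit 6) (nat_lit 121437490187906585932) (ZL.cons (nat_lit 14744) (nat_lit 3) (nat_lit 60696433300597688327) (ZL.cons (nat_lit 14820) (nat_lit 6) (nat_lit 122335328311663092414) (ZL.cons (nat_lit 14896) (nat_lit 6) (nat_lit 121804950150180268830) (ZL.cons (nat_lit 14972) (nat_lit 6) (nat_lit 121363674507221423868) (ZL.cons (nat_lit 15048) (nat_lit 6) (nat_lit 121011115802127661448) (ZL.cons (nat_lit 15124) (nat_lit 6) (nat_lit 120746965973894530714) (ZL.cons (nat_lit 15200) (nat_lit 6) (nat_lit 120570994211992507570) (ZL.cons (nat_lit 15276) (nat_lit 6) (nat_lit 120483046754687891220) (ZL.cons (nat_lit 15352) (nat_lit 6) (nat_lit 121720855028159289394) (ZL.cons (nat_lit 15428) (nat_lit 6) (nat_lit 121154193807115887458) (ZL.cons (nat_lit 15504) (nat_lit 6) (nat_lit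 120675546612809646794) (ZL.cons (nat_lit 15580) (nat_lit 6) (nat_lit 120284495209828066804) (ZL.cons (nat_lit 15656) (nat_lit 6) (nat_lit 119980697902770483968) (ZL.cons (nat_lit 15732) (nat_lit 6) (nat_lit 119763889237679275162) (ZL.cons (nat_lit 15808) (nat_lit 6) (nat_lit 119633879770089797580) (ZL.cons (nat_lit 15884) (nat_lit 3) (nat_lit 59795277949748195254) (ZL.cons (nat_lit 15960) (nat_lit 6) (nat_lit 121159456877128987866) (ZL.cons (nat_lit 16036) (nat_lit 6) (nat_lit 120557569384667548696) (ZL.cons (nat_lit 16112) (nat_lit 6) (nat_lit 120042639130800729680) (ZL.cons (nat_lit 16188) (nat_lit 6) (nat_lit 119614216176471753988) (ZL.cons (nat_lit 16264) (nat_lit 6) (nat_lit 119271926171526353582) (ZL.cons (nat_lit 16340) (nat_lit 6) (nat_lit 119015470027610692674) (ZL.cons (nat_lit 16416) (nat_lit 6) (nat_lit 118844623656832029430) (ZL.cons (nat_lit 16492) (nat_lit 6) (nat_lit 118759237775953761126)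 (ZL.cons (nat_lit 16568) (nat_lit 6) (nat_lit 120650643316498472036) (ZL.cons (nat_lit 16644) (nat_lit 6) (nat_lit 120014555560524375358) (ZL.cons (nat_lit 16720) (nat_lit 6) (nat_lit 119464399035239519108) (ZL.cons (nat_lit 16796) (nat_lit 6) (nat_lit 118999693021349965064) (ZL.cons (nat_lit 16872) (nat_lit 6) (nat_lit 118620031465057168956) (ZL.cons (nat_lit 16948) (nat_lit 6) (nat_lit 118325082623253690478) (ZL.cons (nat_lit 17024) (nat_lit 6) (nat_lit 118114588773650575132) (ZL.cons (nat_lit 17100) (nat_lit 6) (nat_lit 117988365989583121166) (ZL.cons (nat_lit 17176) (nat_lit 3) (nat_lit 58973151989649129967) (ZL.cons (nat_lit 17252) (nat_lit 6) (nat_lit 119524677856587601560) (ZL.cons (nat_lit 17328) (nat_lit 6) (nat_lit 118940321067790087802) (ZL.cons (nat_lit 17404) (nat_lit 6) (nat_lit 118440388782482496524) (ZL.cons (nat_lit 17480) (nat_lit 6) (nat_lit 118024444166629122064) (ZL.cons (nat_lit 17556)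 (nat_lit 6) (nat_lit 117692123773478247884) (ZL.cons (nat_lit 17632) (nat_lit 6) (nat_lit 117443137225987314968) (ZL.cons (nat_lit 17708) (nat_lit 6) (nat_lit 117277266963095408900) (ZL.cons (nat_lit 17784) (nat_lit 6) (nat_lit 117194368049621362006) (ZL.cons (nat_lit 17860) (nat_lit 3) (nat_lit 58725669225113491530) (ZL.cons (nat_lit 17936) (nat_lit 6) (nat_lit 117476786658194616008) (ZL.cons (nat_lit 18012) (nat_lit 6) (nat_lit 117553153518395739002) (ZL.cons (nat_lit 18088) (nat_lit 6) (nat_lit 117680505759154799622) (ZL.cons (nat_lit 18164) (nat_lit 6) (nat_lit 117858954659128771804) (ZL.cons (nat_lit 18240) (nat_lit 6) (nat_lit 118088656144540933782) (ZL.cons (nat_lit 18316) (nat_lit 6) (nat_lit 118369810925427082586) (ZL.cons (nat_lit 18392) (nat_lit 6) (nat_lit 118702664671013235236) (ZL.cons (nat_lit 18468) (nat_lit 6) (nat_lit 119087508224378059252) (ZL.cons (nat_lit 18544) (nat_lit 6) (nat_lit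 118469947296247868300) (ZL.cons (nat_lit 18620) (nat_lit 6) (nat_lit 117935814747427619514) (ZL.cons (nat_lit 18696) (nat_lit 6) (nat_lit 117484643860156207820) (ZL.cons (nat_lit 18772) (nat_lit 6) (nat_lit 117116040407444755288) (ZL.cons (nat_lit 18848) (nat_lit 6) (nat_lit 116829682308606426670) (ZL.cons (nat_lit 18924) (nat_lit 6) (nat_lit 116625319347826703032) (ZL.cons (nat_lit 19000) (nat_lit 6) (nat_lit 116502772955528204036) (ZL.cons (nat_lit 19076) (nat_lit 3) (nat_lit 58230968026169509187) (ZL.cons (nat_lit 19152) (nat_lit 6) (nat_lit 116600694684562950272) (ZL.cons (nat_lit 19228) (nat_lit 6) (nat_lit 116652354546737245160) (ZL.cons (nat_lit 19304) (nat_lit 6) (nat_lit 116755719410771229948) (ZL.cons (nat_lit 19380) (nat_lit 6) (nat_lit 116910879595478138218) (ZL.cons (nat_lit 19456) (nat_lit 6) (nat_lit 117117970677718393482) (ZL.cons (nat_lit 19532) (nat_lit 6) (nat_lit 117377173610864827030)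 (ZL.cons (nat_lit 19608) (nat_lit 6) (nat_lit 117688714882917275552) (ZL.cons (nat_lit 19684) (nat_lit 6) (nat_lit 118052866714404716914) (ZL.cons (nat_lit 19760) (nat_lit 6) (nat_lit 117485530026251790934) (ZL.cons (nat_lit 19836) (nat_lit 6) (nat_lit 117000158875467721732) (ZL.cons (nat_lit 19912) (nat_lit 6) (nat_lit 116596329151338231966) (ZL.cons (nat_lit 19988) (nat_lit 6) (nat_lit 116273687992939324996) (ZL.cons (nat_lit 20064) (nat_lit 6) (nat_lit 116031953480812205656) (ZL.cons (nat_lit 20140) (nat_lit 6) (nat_lit 115870914390625889090) (ZL.cons (nat_lit 20216) (nat_lit 6) (nat_lit 115790430008612251326) (ZL.cons (nat_lit 20292) (nat_lit 3) (nat_lit 57900137579438091228) (ZL.cons (nat_lit 20368) (nat_lit 6) (nat_lit 115826486813082844396) (ZL.cons (nat_lit 20444) (nat_lit 6) (nat_lit 115905144679090001078) (ZL.cons (nat_lit 20520) (nat_lit 6) (nat_lit 116036317487071833516) (ZL.cons (nat_lit 20596)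 (nat_lit 6) (nat_lit 116220119854045024868) (ZL.cons (nat_lit 20672) (nat_lit 6) (nat_lit 116456712384019551702) (ZL.cons (nat_lit 20748) (nat_lit 6) (nat_lit 116746301808332284968) (ZL.cons (nat_lit 20824) (nat_lit 6) (nat_lit 117089141166286022202) (ZL.cons (nat_lit 20900) (nat_lit 6) (nat_lit 116570565876169275806) (ZL.cons (nat_lit 20976) (nat_lit 6) (nat_lit 116132535888527128532) (ZL.cons (nat_lit 21052) (nat_lit 6) (nat_lit 115774668458710184328) (ZL.cons (nat_lit 21128) (nat_lit 6) (nat_lit 115496650887022486636) (ZL.cons (nat_lit 21204) (nat_lit 6) (nat_lit 115298240245488774368) (ZL.cons (nat_lit 21280) (nat_lit 6) (nat_lit 115179263165587319034) (ZL.cons (nat_lit 21356) (nat_lit 3) (nat_lit 57569807843381433466) (ZL.cons (nat_lit 21432) (nat_lit 6) (nat_lit 115074828685432256164) (ZL.cons (nat_lit 21508) (nat_lit 6) (nat_lit 115128038343471779898) (ZL.cons (nat_lit 21584) (nat_lit 6) (nat_lit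 115234504153426784230) (ZL.cons (nat_lit 21660) (nat_lit 6) (nat_lit 115394319143674899750) (ZL.cons (nat_lit 21736) (nat_lit 6) (nat_lit 115607622958382362672) (ZL.cons (nat_lit 21812) (nat_lit 6) (nat_lit 115874601979523189224) (ZL.cons (nat_lit 21888) (nat_lit 6) (nat_lit 116195489489737211202) (ZL.cons (nat_lit 21964) (nat_lit 6) (nat_lit 115724255362762386734) (ZL.cons (nat_lit 22040) (nat_lit 6) (nat_lit 115332187669432785022) (ZL.cons (nat_lit 22116) (nat_lit 6) (nat_lit 115018943826327050096) (ZL.cons (nat_lit 22192) (nat_lit 6) (nat_lit 114784250125232759476) (ZL.cons (nat_lit 22268) (nat_lit 6) (nat_lit 114627901493983908440) (ZL.cons (nat_lit 22344) (nat_lit 6) (nat_lit 114549761317271638768) (ZL.cons (nat_lit 22420) (nat_lit 3) (nat_lit 57198361687565125900) (ZL.cons (nat_lit 22496) (nat_lit 6) (nat_lit 114423721378963113594) (ZL.cons (nat_lit 22572) (nat_lit 6) (nat_lit 114504738980950484978)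 (ZL.cons (nat_lit 22648) (nat_lit 6) (nat_lit 114639846973171772392) (ZL.cons (nat_lit 22724) (nat_lit 6) (nat_lit 114829163411154159482) (ZL.cons (nat_lit 22800) (nat_lit 6) (nat_lit 115072853717027922122) (ZL.cons (nat_lit 22876) (nat_lit 6) (nat_lit 115371130824070037386) (ZL.cons (nat_lit 22952) (nat_lit 6) (nat_lit 114945858991407758480) (ZL.cons (nat_lit 23028) (nat_lit 6) (nat_lit 114598414884789366046) (ZL.cons (nat_lit 23104) (nat_lit 6) (nat_lit 114328494912277038192) (ZL.cons (nat_lit 23180) (nat_lit 6) (nat_lit 114135863221467608804) (ZL.cons (nat_lit 23256) (nat_lit 6) (nat_lit 114020351493407943430) (ZL.cons (nat_lit 23332) (nat_lit 3) (nat_lit 56990929397760062930) (ZL.cons (nat_lit 23408) (nat_lit 6) (nat_lit 113791578362973654792) (ZL.cons (nat_lit 23484) (nat_lit 6) (nat_lit 113846384310754364236) (ZL.cons (nat_lit 23560) (nat_lit 6) (nat_lit 113956044095008018702) (ZL.cons (nat_lit 23636)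 (nat_lit 6) (nat_lit 114120653534963577686) (ZL.cons (nat_lit 23712) (nat_lit 6) (nat_lit 114340356464112264494) (ZL.cons (nat_lit 23788) (nat_lit 6) (nat_lit 114615344855887315846) (ZL.cons (nat_lit 23864) (nat_lit 6) (nat_lit 114234696609936246218) (ZL.cons (nat_lit 23940) (nat_lit 6) (nat_lit 113930576373911260856) (ZL.cons (nat_lit 24016) (nat_lit 6) (nat_lit 113702718411683794234) (ZL.cons (nat_lit 24092) (nat_lit 6) (nat_lit 113550923624063550508) (ZL.cons (nat_lit 24168) (nat_lit 6) (nat_lit 113475059374828337236) (ZL.cons (nat_lit 24244) (nat_lit 3) (nat_lit 56615528468764133531) (ZL.cons (nat_lit 24320) (nat_lit 6) (nat_lit 113258864881476114712) (ZL.cons (nat_lit 24396) (nat_lit 6) (nat_lit 113342313011523107238) (ZL.cons (nat_lit 24472) (nat_lit 6) (nat_lit 113481474243511033274) (ZL.cons (nat_lit 24548) (nat_lit 6) (nat_lit 113676470174632891976) (ZL.cons (nat_lit 24624) (nat_lit 6) (nat_lit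 113927471189682867496) (ZL.cons (nat_lit 24700) (nat_lit 6) (nat_lit 113590146814325204940) (ZL.cons (nat_lit 24776) (nat_lit 6) (nat_lit 113328088588585080810) (ZL.cons (nat_lit 24852) (nat_lit 6) (nat_lit 113141067529546799850) (ZL.cons (nat_lit 24928) (nat_lit 6) (nat_lit 113028920220751008226) (ZL.cons (nat_lit 25004) (nat_lit 3) (nat_lit 56495774334701806262) (ZL.cons (nat_lit 25080) (nat_lit 6) (nat_lit 112741667326624134054) (ZL.cons (nat_lit 25156) (nat_lit 6) (nat_lit 112798117452838264786) (ZL.cons (nat_lit 25232) (nat_lit 6) (nat_lit 112911067030619528882) (ZL.cons (nat_lit 25308) (nat_lit 6) (nat_lit 113080614753773754636) (ZL.cons (nat_lit 25384) (nat_lit 6) (nat_lit 113306908770796902050) (ZL.cons (nat_lit 25460) (nat_lit 6) (nat_lit 113011646405724100726) (ZL.cons (nat_lit 25536) (nat_lit 6) (nat_lit 112790425083173162258) (ZL.cons (nat_lit 25612) (nat_lit 6) (nat_lit 112643051502959333400)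 (ZL.cons (nat_lit 25688) (nat_lit 6) (nat_lit 112569396892051359346) (ZL.cons (nat_lit 25764) (nat_lit 3) (nat_lit 56147169863002431139) (ZL.cons (nat_lit 25840) (nat_lit 6) (nat_lit 112322981908271145360) (ZL.cons (nat_lit 25916) (nat_lit 6) (nat_lit 112408933482219547662) (ZL.cons (nat_lit 25992) (nat_lit 6) (nat_lit 112552269551167111476) (ZL.cons (nat_lit 26068) (nat_lit 6) (nat_lit 112753115360222625942) (ZL.cons (nat_lit 26144) (nat_lit 6) (nat_lit 112498689898339010280) (ZL.cons (nat_lit 26220) (nat_lit 6) (nat_lit 112317116054612523914) (ZL.cons (nat_lit 26296) (nat_lit 6) (nat_lit 112208235172286512626) (ZL.cons (nat_lit 26372) (nat_lit 3) (nat_lit 56085976056362967137) (ZL.cons (nat_lit 26448) (nat_lit 6) (nat_lit 111916491210841059246) (ZL.cons (nat_lit 26524) (nat_lit 6) (nat_lit 111974634840841613898) (ZL.cons (nat_lit 26600) (nat_lit 6) (nat_lit 112090972905956315918) (ZL.cons (nat_lit 26676)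 (nat_lit 6) (nat_lit 112265607060805168444) (ZL.cons (nat_lit 26752) (nat_lit 6) (nat_lit 112050829077746004884) (ZL.cons (nat_lit 26828) (nat_lit 6) (nat_lit 111907747931907336088) (ZL.cons (nat_lit 26904) (nat_lit 6) (nat_lit 111836238600928720502) (ZL.cons (nat_lit 26980) (nat_lit 3) (nat_lit 55789145087250854158) (ZL.cons (nat_lit 27056) (nat_lit 6) (nat_lit 111607791622235979886) (ZL.cons (nat_lit 27132) (nat_lit 6) (nat_lit 111696321743402834256) (ZL.cons (nat_lit 27208) (nat_lit 6) (nat_lit 111843957894418824988) (ZL.cons (nat_lit 27284) (nat_lit 6) (nat_lit 111667672609247478998) (ZL.cons (nat_lit 27360) (nat_lit 6) (nat_lit 111561963014756205904) (ZL.cons (nat_lit 27436) (nat_lit 3) (nat_lit 55763368371669084335) (ZL.cons (nat_lit 27512) (nat_lit 6) (nat_lit 111308083283784446526) (ZL.cons (nat_lit 27588) (nat_lit 6) (nat_lit 111367971222685017814) (ZL.cons (nat_lit 27664) (nat_lit 6) (nat_lit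 111487799429753160896) (ZL.cons (nat_lit 27740) (nat_lit 6) (nat_lit 111348885695929210608) (ZL.cons (nat_lit 27816) (nat_lit 6) (nat_lit 111279459160998515866) (ZL.cons (nat_lit 27892) (nat_lit 3) (nat_lit 55537623972207290219) (ZL.cons (nat_lit 27968) (nat_lit 6) (nat_lit 111105634435580880156) (ZL.cons (nat_lit 28044) (nat_lit 6) (nat_lit 111196820460382740156) (ZL.cons (nat_lit 28120) (nat_lit 6) (nat_lit 111094189786119368220) (ZL.cons (nat_lit 28196) (nat_lit 3) (nat_lit 55529994761303355356) (ZL.cons (nat_lit 28272) (nat_lit 6) (nat_lit 110909082155771592420) (ZL.cons (nat_lit 28348) (nat_lit 6) (nat_lit 110970766732839180850) (ZL.cons (nat_lit 28424) (nat_lit 6) (nat_lit 110903362329993846148) (ZL.cons (nat_lit 28500) (nat_lit 3) (nat_lit 55389071319273320818) (ZL.cons (nat_lit 28576) (nat_lit 6) (nat_lit 110809440724447930348) (ZL.cons (nat_lit 28652) (nat_lit 3) (nat_lit 55388118292557626577)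 (ZL.cons (nat_lit 28728) (nat_lit 6) (nat_lit 110712701470735637072) (ZL.cons (nat_lit 28804) (nat_lit 1) (nat_lit 18446744073709551617) ZL.nil))))))))))))))))))))))))))))))))))))))))))))))))))))))))))))))))))))))))))))))))))))))))))))))))))))))))))))))))))))))))))))))))))))))))))))))))))))))))))))))))))))))))))))))))))))))))))))))))))))))))))))))))))))))))))))))))))))))))))))))))))))))))))))))))))))))))))))))))))))))))))))))))))))))))))))))))))))))))))))))))))))))))))))))))))))))))))))))))))))))))))))))))))))))))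

noncomputable def vl : XL := ⟨(nat_lit 0), (nat_lit 76), (nat_lit 373143869), (nat_lit 152), (nat_lit 37410741), (nat_lit 152), (nat_lit 37410741), (nat_lit 1), (nat_lit 4), (nat_lit 2), (nat_lit 5), (nat_lit 2), (nat_lit 4), (nat_lit 0), (nat_lit 0), (nat_lit 0)⟩

noncomputable def cp0 : Nat := (nat_lit 36282033097437714938825872723560214470476180498004559860286786762517794006688704367486891669082457415101041185995067337535963516127587281745095714144387647780022812614561163230383500032580290137001089704745270375011101157642581396219097627066808708389554158699472832772056024965387251463265182043911284916207614627412713465451515207268517394915771729060345151783044062312918525011606837547251951343537784518266082292042855374929566988053447486941769452229380736747082238690977337770380581847190877531272079270752192433070837371069809411763329827916124923695464787091172087066092136865408396902624052565346960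2784657863707525946214647995858659134417152869431560166726618663714638221429067081144644113799062319188430491848896532383376277704666152422320542121829689248185926071109868661457698238042020264168260037800501156422891658165853268512435209031175791684327986303478015180055277272942282960569304545014081751091661442056020610792709079285392259911792280738470583229333241429355245157268587639028097053639503944758104925846468029098498126737312993228296613432730128887946817529550737578257616978289038394088841069263902889191260469864746700238418255833474431282927270527353353209262713557785361458223630574333235368229077930372299730921602525252502097096210114877345633375556679166067515636855580518788140388456502278695161851268021238244623221930180075688661195855681019974082835619478280907759037568443001795318289340328173606372768036501095795823791263651723258895229854389863452156395835681182232420782528090581248418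1805948180756861631032960003096179380619481765255268286362642846135046467497354375614207847185292503234492738208783605613757900594143990416451254569109923269800012880456361194777058471481101454161809569833226239547618791242362308543453559418114770842126493289609898360749602128247304491991642976763713921253530694644203002115853616497895854280416982476497438581519338819019986896101905930779475318835789628568992510630101356474731180841560248649994157505257231176710497746890076364972756019183409777044005723622187831511629888841776826805517288779855119424707881281016498510851272519981406080675052084313976648994588465686235072730202693260228767340503205822903470650269175813980978812695271930786038701668130892296264854977203811415415400393091564399649029787470520922870115245264304897957873750853128765217273878662043861661275031165314617284149907248223472385387514950163875556219313916383519812300311607281015459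3714441828622180327151050975902065512897058568521269285176076811569284160431489544351382435739772202337021079764470931891867205713462025545394647204950977580836228182035002741737158023672924465138216418878122800811061133784255875279716789922264611686534299985036552607929304485918771709861370350551690296302392529695436103922916121894724204849786060118465487257251238334936495724166844776510386202395234422978891155347115987737007213330545168893611879514837383280049733874626088563198649781829671253649403948117455248909526867087231798343808007629949404421890313571892409377969027557830910655888672370591555814902591895333636324151995590091617782356922829717639812422100201132549644955474819891411913694999891030652675466028247683938249035748301103208029968666382631167788346167151259958336757962018840264199678261319626639467182347565880790998517758871572808429418645212085384954414125130513248614231968328679440132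2519881600243969999161875010660816375352713445893844234481123344418504603583036235038797529840901982953732330393942053012783739291119496876394017655082701638667476501791559518643623853943641920502693630009316307908260006957458558781178570682748492453958718197262394268291863234769741139642879750349341342176315427331191639193228580279717750919635266889480167809610527635411138610692692363106658564880659508542327440079863948472220764387832847571587291893234487805154001254712489726992794381155550128034320794018293219865607960704260717423969036133728432640881310940425264314297991550897021785421182407823763031789202746642086209501717243445283723065037526843083255361924216110579664973298626071376978121490368528270063829805294805321914056878297038137174354359301091230788054032438783304962827004781126782014255139435831155732717657306257958845525550671429501533739575963646779721524491782669240301756594730505045618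9771198308481935504869439992517660277847349773172239103541568364296364695038539645911011084469512713932995718605517033894597728039787712568892540801899846141486979758333704533971021282327993487407255279799630318721539477854703131813452252902087685800255333417265767027058122971408491098160999626643789013458795476443623563779679919568431132883558702754265595482626330379738412234527950785535571978342242285703974649713644530821451931880948469613897752904330352415229002712919164689025721482793731649025241952263223849947225457163099538575025009904566944070160449792161076688003316158260615831070983584450074107908727928148139314588186326286126288366901933344231081065136750656467136903268498655264470368927258134608663988716054752990488906981640023577905589268296145933512158083895500874866814201639463837433548799085394439596611017504206484583055845048859645782587262572744471679837167293309537614694148353482867123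2643438485311158098835254463050750205326326903572225764594447130801224599789920953662392411646133887952837843830479262175867740576954410871502653528841135870888668556908883256842211936766513440608046578913307466901046113100159522714053089751249274726287717934003410743632592684762764847129586102315281123685559150689126131651752758011485186825635833226844141613888120234896587673756230363119446493863024689482483940084544751262294395662737368131651220134236913572327505259042518843406119286496198488520714536834272495151097790686918276295559342057339778736722197377084163796327561545438864569836777110858814491221629319695479457756285565491335867801520712234556644276362362849090522133367120566908007291875948260572656283071892602716100807676760855424081184908508213144433012060401282333324319104083897677019916657330411919360434262452454248170712849942641187369715640839242519874671164771303945977505589603682087158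7373100607758498461824857247411591440696786667857239210113526559886609438817241350839043232383020553220892442114237521976501332683113884325984853642027834037879731651439333292078517651575887811888680841767016516649771872327601658723218622670589783783880273186647856056348987807427765907387453478153152793156714824948754149074855116727479117451664311463800001624046876815037779656442919744956733057260918882575377721406014807003983059274363537836880932904196216390353536278343815054781037081438302382765574011020455062115012367274175189355091130931478303398506528799846377713305541324649434948584672343611830280547191268231717503212238104889522880172422268243134824679037215260302020162214552924923173182336855996792410781299194721371052044153386683899824324126365875890351961322431723231084440738410288902902871323478946792400347855382758200739218041267170058336319096050666296843109082936078345410573756210801025216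0307488369104145064999454311133452165253637165818837154047081973833655167225951307789606000393592115776529891879041361035020462704167370082219626382172013575909684605550949488147232129996103912157664984839176160575182004219302778693117524607143164054563831253292676524269676877128800954122294162089995005363135441031177754060795183172083318322352124558439812079835968823402658398898064195099136268790852418293662937221981494244324378581571048523786761950435983179661419704180553247672510096042561227376527882294778291638440050990508003498284689981284821102067754123152712935080599918325551502994378343157611488390882923830227417634070365074968518996883683767271146556014228099459966756082551236899579602090263664820870858950716278043957577242029821976466330024938868752647304768849744257022742123984453363612243584273502671183760383688340031560793879633233486684263524442670624906379836002249375208226788239098688873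5816871496558012745246255807700551593801163537116088537343892782730279169207756853080388151919616656467512907229581990071546909062637715214488911112849060240763021787964888864390390012548620433069132236258218396371203285179840814945894817671762732937756888540909545702120832712077794971880656605595643005578343328745192352525252462909585480595958878049929729780418863899410508445906563253786864558263443731726629965662020655702126334429113829374228479163227498550322260820654410403200115693707213626305304022025228630522168188396491154431547857847431409868124402113802224756592734877891982713845984521581952211304429774896383116473950474471540294133922884235558247902283595366097069614057171493483490955889115790157352123583001248260625752284995025633280)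

noncomputable def cp1 : Nat := (nat_lit 4706287450939777331270147522801287080660825270030993484817578742400141328931731482579604564405408011113065824125636294854301389123142467809023138568706387370431220694103723794112103258646683809061862549670852587804180066015050579943834299057019863363421986875906212332969867713328597085179961704965230707445887998420115427831528989668160658296828266702195859879138759121232101265422362933467597029661592534516815545464515249822131059732655472985227903706180366718933349597463910905112869297228455846832606495814527604582885521952662578014235624624348380838397181189789639844356473764558018648199354096874082138291652947780930357807172151570011347638579405800874850970693555662982536710385540985354281765254929140557814191261205770306604449459014226234240102032061061291952141523859973639651971406599471525280696255412370515908466598935725974832750052768592360223200710735861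1460167134664400419848530397605660836963902714826489822561609470884957122119528558154928070169676630480408577280062354489204445001269845555462621163481855186753281079918974994238385220490906896867299430542953663192473304537892193551346042600357036913187488015062318535416945756524868856231668787969192820915769179999195626581602683274019074655807692609604010114139509810557828918776538745127960833269493509811202426935263064380110847593995324307167659819330005331149748562636607178263190976921927424173200868250032859987058453410931699542633776232577389179758233170068749266213515083016219017007666657265033322194659618469136258905241362456900477174209649695243430722076119940616898729139093985435646347016037766643890186867793803789906239142894785126453985902225247708460000025699128370481715745848663477906570223838424165792450386851504676108168849573934490254403139955426507674591272526246517732707807997287128720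4653842404080185510350637514933502939059906093066270330024559744387066014814315340813320989784843526032704823930610043042361809486486384818168091573636829528528155743790283331855501713813432922056167296763929411672474240201987103963639965076067264682815945516387506974320447893891949373693940050083725819473981157933367909076617952287052710211711641812307321833145115491410913244825488635824792272204290498653126455462281790895696365915222339044256245338167430635699288457130748757863049138448937494377339819064267808551653287668720805901857391950473611588096267497446468328707513288856536111070978940272663956650295992166836789681261989844743475736219583786792012131040124245630026639293310234913701302793372184524211879004869939077655779597113108912955215745585835590671116362118439111923676133445369509697170460919545455005124622287262915050293369990444960723498237306902601563207084457059048181128102500949347944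5239042711300516693214643360522015590848941106990774986712860898059806977276466050597657825464954007566173542415533983677347837576691083674484834231443349862674087094880921338097401964408928873132085822436180580792815103786670180181498962744368763512309750883698921791075502664373755632284025347295005068026940708670819742718165073192002164495439138210928607933080882874233404673165906182426782355640646279969507471768169961226937193320953331094240732681723327585689910196655925938662180253556328096202438195447211493993629448283211150865410258854150841370103592957972953546429724751016044312376283813489225500233088081190230335762672600186191525035177234485607744672865565947993526549142031811651883531323069661483958909375621128940961983446235978511639420649460668043589044628998670936295110482880894440910932640567192227473598377357764001757647245829852270942221442662781987453622261866332999262681596509555702789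4655281502569410927271191666433152621529949511706772080315158278942270707336268204896358671158487133909384831734726593840706019328358562590813025539487896556972417345072859797246826229642716386910220450829405384489329548428380731026805167868175579509348827530027395680571275730536316886345178797427687527382582721700431699553066679612380527163127138586687915553372338451111614672153689268837110619581581847011160283539235736324454416227076412082472854617667088346634904500896714860302296774350778897399863991672236309822378958630283083015005256748308567022218664023669754565175796087708039358065318861769718895808898024088554265563753571705354424031610492797581643843853503415424131720320249078011041884828883964864050246821820496680652412933401617992991999834312636873929536806204623781763221476749368781194010890439822414145676755779257481130613246671586706663607324025977931326484853759697384771971788165705947222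4304211526819000378402898586001913975525900298117125525345837821599353337074618242469540716080060799962221452906179836100913756754196007185940312262979136988383983418706328861786048091941925346112450300259433410766255330471064973780995209634079381891939287960481490125808624810622513680652584952429229754088328949301999946176435609477955552301959755696527003218436487666203804414159138592889881974316046955325220038963253683442349323597209337678909280943147153163710036369491732751883308564228547033242951321247796065437508724797244543508233007446189739151142284268545686648275012112263557891398566839219455702979387270974198807573711646040446750376635154219723091702158006786800735988610279655768889943421487689196237318786972292991731513551131148066154074739406661567827531904808999522448245321016692363591224803161086842181707386583036647073330803197832029830337733294623233898108439832299056674527794715075078803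0799186337635722712855288778289082453948581502355301628733969300632839969598161078721582347886317186631012018488325564725536207703579492197759305682474545939135804668481425802122466101535561953915118210209838557557701057098010529201954184636919439610968927332808482405417863018322699529688406124333617165875780584668007807304667607027518742449395038165329602433954551412728266068251566518134530718108057518348698111730586530353417293896734153525427786061575318102190549352526801895216483181895385196835357367410387535272157218592137146842214818800429934481981896970965501168734748689456295991818140106523305710342998632990063335412979519213265249211479212917678048544284484024381687414667354143729816795464494037383381612769492702756128879923908640443413258132024748921871636575223943125768695603007830729798737063169605223717900688841895444147572623393604709089990439355225933458807457988272480379375669119666904402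1032653365648222463724667981156232067649769303052921357875710154397523225429321482248887094254300882926739375981411151269820457176477029242051043638954041611279694140325131000884125862818055277834580903934297945778766010918865714298832047650836804273298826180529651145876007206241537036315678047265483023367433399149359352141608177189784993015727560403682490408588091985651138500447869966275556417789712927066913759251541583551327983876747137352471095129293715048897516462124297886388522308805152128075264503881054867860332843048761761495091359012206148300614952535768517108382493184632660251605828767966604549396161922480682613041723565122190049297959518009276037938669909125635301634889383617058954767198774611349380521518043547111091345124463991248794275777015829702808377786020911361871481987557482851791507610097376586857567680078539035683678606294058773574728998433821211850285121113582758986933615263968556898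7382355065191218824141270189657978702980752730358460045988932458598807012767480735351760188815736958341776453032294730949195380977900513702293772026329897255611888678289424337972650532967676148743520788733568797358048221772618390407739835163396958591951187433657715369986677051022228704753139048670312930384560038616721582784592839265167315781709737233367657272151943357886765477058371482047167113585653472598330465393998534539400666083961960423192181624346010301186093632002818123888297219291841576803694687135790118507568760739457925145730079196107676262351124605076478780711714940349430596201135616786857036114241271262411970388689814665351177697723200889320732401310949775764578674628944330343249937546278546467274456588008899489497850650446284702519788465031445575314765036855733252652581624831837854497181981278671644515631516815578595595126359149802448535604124583499331061304820832920882450018531492115899583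58512158747711242188700339308180216191633464538539888422628496364525209064605646303244550609776208744962389234018524898806728976714778881831753461953620156272662326522123053293968477124254819855879694146178440640074320974752425853811036589535419456365008306668549688161660842506906701936558352894321294227245223491104107162579798360190111306052570926661986647233312558950965834676666774619975090777932673384612052486777934402610981047576385775799063611214399922513945851540390924672565248)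

noncomputable def rc0 : Nat := (nat_lit 3570806641387293218560531843012823032764233269195719861785069520385807397944111070914324739654054162493744101044175341473002536592513555352536254600941168636313572283001580726751875718975534411996503657265991716392449595173635781368084001129280232910174579654442075592083840017402601730837608210710718077907258502249474908827692499470747816834305860065549601847267424126302125308040694384844889130208466291271732150927059421149433950162060038119581322016327679868650787376960013494230510650955825779922442743323699544331330843786839025564758666056364427087053847437641852353717098016089684124874064884925493172241915076482339105898722185712694862609714013224180670931224070029797464557287719252656970239030421581195115458494278937603385065251118203057112544307424762321638320487192535308938013275176172674618768439239547373744043147297166947690541414174236381199784215577000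5363759608400353560316785936359063215897424406233379477864715769486270348295513747007039161915339178231640997326242726704357490798997942365941174385400604445799224993419111164160639944729689381432674566363696183411720818509104850667731766526838543138724156350663340178098527174723906976549686049789862361031697479054412489733044092650717397337092871683429230766027793157790644467815275879579832679990534424192898859000103964581402950918647318168106655815806744537415676075651811343509341615439314342185709016568882864017822635659757026705056434895717486211256681271807863432508095150446208119530158161897851084436172895054050032405643537227707984601372252463638401684208908065418883381416079242251842214253629268782605030406924902300147689379440301775563572569709509228228686165108432155624718385212239822786660978217099381250195387751862320983987172046964997095069828874317660137316559711647341785967685381817341597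1432438828548303596871916338210861850930277836995526529503162654065456482304282939788289824603208433791922579924465691642705014145383495135192108844694659933702756762248710739458443785264109412060459384716530396808944371130548925130551881045524600135394161125846243369677335016250565168654516254489176398497900813451016283977603890830395895260233550177978568767994021570838780165954001970383546848910587696313429055490922862042052269480136992545380682779844142437572462877201291469298785150828142773792692871745648994527739694734036420866979234669545820666428841139150708035982206740676755137831430303034873783893305526152964464551542911453912028372433204797826102638872105786930467017386617155629198743329026626469488967104049983288797602078172450667107602591251989670528563670382749516552959989656630502884464507334808138444657549585164643179865610546784309684911140291629073137452634941231214881622530997392279232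9508429451906512763579562750811128014855691037280719062369803664271720167936727133303466650699514563069128824956448220216266045764298849337459658918082564966064437912312183768213635758155026201270241976588417468162677929109445983422214115812879532704404148946699967086166023012366407081748504136711264893124973601113853436835672225035386147410201403091330068217240214162460173108480343988725461603500025470669038119930611143987119908253694963506091239304664116547523503039917503796087333659207446666786972572066897220069758476536998512886664793123047940281396568889357942444560938180051127761816158429066542043257052658294056300998450098020908695594598221698002723160094276717639624022536132589629378850567167127669208274105058892460974491040789311413018453809331617039042475813736586755564170917637140241051134265742614796532110345225508688059104678503512703849098922422796100127199600662347501642384751142766385561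1448209424977711283263809480364038611351550113515041117864921210812911548156874368214416142191106589587181352046851994865549934944755634400570950543539944659148572470747654587471652927805523409663295373966545021882486981176939669994089946431491482765415199565052522907892895404508483349288792623860512864002818383836623916952635792968057150605150634900893106103987694273278741430231112709891632099764411618009335536019967095776536998249640664716551406879361922090207396325515833656031121750222113692326619398165134130390300958743387235174549639298499338491240318710935546088836525239861240335205756239844711763332599868064350555786531160875786973823279054959699199161134887497089987406016567567323110946277042140253368963678063454061981177078414607155070612757693648692014754087782924101527308808269283553996854587578207179232649447715149508002639805096610760529297199249271565257351153286926607725119692811532999180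8742259691859812140516966992133073190862622043054094782078023857174037768711441676993869889129914739570237588746623009094020719689015501231947608046240544498000177022700017322695613737407401468085157641566594625134630517103864614831801338177544808577657455384069703407582545817607484137276852847544924047433578140158474981224131340694512678904396661580148992656724389766919345286749063988517611001923249009935295391550703193975901217792315018812942739413494602794307657662172313876686358915496769849198550687414331736635066363259221244788582967748341945467135859874345926015764861064256282862281284208293737645360657003888913051227903944628878878392703211489855897378516594915627977732380935117454062931353839003119870268695503181641610473354656189516597925860086950148038640048225746008738753909450567731633890933947249782048523360530677333141175648944440366891239700623657392631246633207941526449495449878618308908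6184415390524590498123604902561887812492462820719878276593195576472232089338331628510840805703515222737465327408083755081256540563199240330154034211625048073551374267578755930579941368026202630186033572950425056571596044909191058383918667178852963305311027328553541799331954220941889735580078099302221703896883143820470291633930741056770801691126092688036070586949153912658486473831923867082499250803711887514390929802819698403892472864673308980631425221787373674069618414698140238050874573048424262907980901262097635163518959878743093264463352998702331624193658419421212506048338933870172827706839998637987717362950460998367836605515984250757397361031699450475092722289188084564278314827194686437926404214536589801941799429893128673486697136239309012283818092012719258901155542032504107091796836708084812187776475502322257143890549810380299368032777792537015568392693132405055480756958859993273112847968279854067134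7149570921284501816658107732797254459748885595583646839504898835680378442490340261509530251307584306846451810569624941213137841422229891569098806104593818228087062123211616427617725549213327884021422107246618388079988015804218060837538632540541144280529436669090996473129519979456435240003559522602426503345212804040547447672842092769861836778077098764895120269761788315375665536409685342307404793495239139749368344545862705094403278488552691318421273157098903510747835142713736877662885655838104592921012532412217692859040663001740691121761696810644459897478604588157257581171580993134322622918500382107330580467188925799239349375914505087638059573092556876459003993302409410671290084222783341982554607866637582301764608622651141698290688203878049639466134917019732243321931023277337931004212632312768230914031401583323768030193123871213655222366751564794207532997609814800529301249919948681428966103906284096087520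5354126993926456075630591192588418904706637884606358622984242812221977248175597315440712441989338765372243522188350962224011076440629126165864897420313238201351538874206417411911733215431138111053972578407747130303312643884584275286201376127923540889240217140287218995378922146679175638146174488941864662630723962986508478254990518420089190032387028050459704153068139198357916018266670200388984378065968884368595129502204480712911994865410571714121327200655038811230859330642336208890965557913837501491419961936646033883675784631920967659071286440597126746486937169346161424250689825575897028155800491118589134856230473428803694490784467587981720235348502149369267890238421100432334243114291350157107478445706637182409921116139423077135374808192184465525768522952210313829930982578974873277415686796709844272365837353162265979293559092997064914035317864289030521654969929098858520271965004002110517492306927164690831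10115126466772774409906062190558036132717845019183526117826454344519983877905112777664438386369732811647236906862321104310498600932302717405696175265312789813244025468028463365711670700779819925168789245504940350884930489243462259720053497138929017271024159155781643706191680535095958695447425540954655124900180807825307205579259015406523613560587323309327040887951615349838353290810664460606917847161560580490607667164316029393091007276398825461141558375916674906282612695447714500968448)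

noncomputable def rc1 : Nat := (nat_lit 3643195019162474109189540388240782395616600934105484298852978468401365844999999075003910456486428746767592531933041549231096359472504544489207214379757949624434864072493792137468788991001734237150137739011689901306498565577140852896424497165691771445380221632527287090274832791287253582446099028759144629860544005381883435965818239342755082376146815329484525844723109732683750771191942767085918360339765534553091452214685143540324430672022767900156717549655822796925369638062307797304215396836345829893507697337342088340417575462993240282441680578788181800556049125987464343587341532819111898743582364752502211225030363226416282208330480211591103618608488446217386408617047722789722674405428658275081678925167654357408671177305010679837923128727271972750436853857176088715768643415444405421732391796979599679143947009063889572199528164075272597312465577473838496209435198591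4985966125087736793784565384243040166885438269268450690596644259033914699875166771279794755966171345158008130339389787844231824610716402279694808147682512477072944854162539547557598768116331770986903513464735661703128812283897462674495047511642542442467508966768825282517006240500028642075358850073106471248831496351289046267542569614261673739422028443972182389856702178063584582997927315824571259447276270321985418764567234251574091719872502007027443009731751720845034245760223274500164037053793288705215139417933372003901261898282633689009516221737352409813311065298213313202607232812046378030825421191154794540429835347379674003263591962442127741274938272729586569273570837382692671731644853959067147146823992888845711369033088006742969551329178953194930879896015525088769536687511440943608566108610158444280760819668724653806164883326733608759473329731921761398538422398338188203064044151728584184924962313990763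3189679798912572516312922502149851099857191670200280712278344798274371175148492869239366804873629968514606292166834558139528005483739216521696453346578583592090629593736445752025051903701053971116762509233193897365200585498282126158859447955803653083117555072361578862908802246580058198379327613683820046421930019013724474853072163474359930205014855378287979046451981968098998986841110516227729896840902433555728908656205609651079575294444307516082430993318206770511155607720382449901491998383809609200103226057185129916513885782953640438547186069891186086167863337062902492559817862476671611786253208254939653062378476199223681101240770873758431019361707805189208301456097511878299720262282262587224937528342440463320261889517676452796802306797030171295719843345897132753870292307162549690048444998280214292221317983301593419664302822886469196367520067503815172414282946858075405970012388694086313009227924464536479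9677242844734421994105149209437321386207703539983327549783990333717330114321164495218948949993272788320369570532351982653426710502076788395181728857256578092291592105289871604585112232966102521646301988002991422969569192133244895810674275379038056877657953644881333201894531555939456080608129107212216987885211334668006009979575112617989393541538923464752824842704663869207059169282904442500037283779885522922723421548125327086496194505850498869833057605377157530194542648484668066271897562244574517929070846119824680675111863823892100778372589604541453231373196610873940245669334873754006615644950704320416014375313719866741081818256604054602928383271201676839234167655631139363653969613151065320983118140822542733377808541551088104899533797638300263508903104683943268020975155089022803665825775623516216371099366043637625939692236896124674104495714201347177568947657198529085865949990084874839192197354293997036532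5638423923080189197689059313265578496515691723723245282569948270946777522491067314532285153876633564697226261835591797992716157150836120665246383973276598359890808082505620541431098181948052323131023508169096091219044860100928836076993020973506680114129905303493928416448696217362662755137114504818819992907167857394621865395086758298809697558346221054534176072731787434420974457162648325170892076306001868084641096012831154028338216720351728785734541855363235005480512060171171062121811579004652201228407312784876185165492363402327547244359505273668378249465022641786531795706880295761983280418725566418496297792942981753111204420313955378557983597782361530021047180306216783674613044498730134581794828706522752502982267879573202139209007916530544808040414590636095870337360829906019330665058248914274329721967910648918945444560600643708643245247757370862588880407776756662477779638771624305732923257027025669608657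8239658188836221950928352772975084698277045772188709546379303127211029837109421724522095847566563451339516298336660926192617263359279231592608651673773878334964687406014768155682620158952315620261578540663861063163841363345699334121376944629403116154335378928124411227792245018109248997443027094796783118217478884186920801617831266561037121329323746133745267228997097698909091812643353396171394680080448294438503735013761206777085625577010266942936077221827117271343286700250869095945710856721535271888365679339922346277070007679991049313275812819532205653988917094232702186941804508808769620241005320857799006396271971594067203002743898888940216591927992676336126531561798632032297759305612165221940906605119951396622747143103330618170281048483164206848797538955858897671542744149692668544094203209111146741969848348039361717479994684503292640193570081015158268041857149745642997553099425412947906252978110850753173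4791967405362430539461010532345921810880216020317560326767905001926051676924717691970892015888496889000597511735820125142598057149123780247725618480597753218765867295971010209530120887820790730441418092007027670199888639311267243591523965752932616011569101599282143766601889702822531461246889765957300222055807206949896213983201766202579005844913751585285889713602525187560648827633217519161933273180394451324133445137889704772291072405351024188565771029333782752055513792973691340902481787099903843931308366111526923523652376646364095278063599063682707689975047063154394580064492191987955304575216356431005661851773748915621052507996094967654749023652747010665537598320088427431861505851126997942897673214008986968776150451376913729911979597859021110352438982426442909774438986254504303741413160345044148001301559754506079866401598796209181998538449014489222567387328156043434657781251084396882112155447304969000129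0367269255643153445551224528881797782949283840674595958732417288339578239319965919300201979643922110346097322391653812383248529352250124262994080416866875071075945868146803753365939871999428328103710084749528297427304841723183277649905872146306260932308218804340557331945441926446619489913832172470578432869870436870460551846163970176483529292957463870343557372117480087817517780428478599112571376514497923380497680997243358609733435148091523222118392277461461588467150340137200127661497190949782700450258148048002666923141596166155371323782262259698595851891661827484293438378275524968053851100391284652611433687554586459887975432263898891891890827151168986162268798091792304174959555060422844561031505874228771441467986671179331162692484420557740498420446074259912233370865354430958825986811007324426045704427403091430755308142580020734366004116141978485862729630014138157518763637117811137121792543803285204167377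9950768049052563801760491527108986392710466410331016104124448136510090461084784005481092824960116780701796224108039374246454688808018152934917588118471925879288121757665628756151463435323727592451370455130984912795174559627554516909216819826057173112787925248412833649449195997710600652717254807046763070024381710530397613758179277666415296569851207574226095711499897842064741105692568504630944918841801373165335025903544227919051376940781114446263744393125792232214551803310781014712106479541158776725983577221179399513821746682547797945781987622453537286171291584024350798061848424670206639080194132686406977651562319608544752158106466009814537225709439083643979080293051079180213107336771662758878800830911831072091483608911043596233381912199480904961532521860560014009247043510876654901597447596630900142408375377655572637880486050607222486002196070000491543922878746987275981394619675361280181470822523209279291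83232174420369560344332847910706131293157805860276428105827941607507543885575139318499802526544974314809652022685589497881388480858723247346713759452586091135415682817806257192645627701082131737772323394746420705465258700410944351524507662861748143599708965486370751397080389841010611914299573014560423555855464997157908830817124514031333314449074432200247602109633101367000566297710944189232386687258166464966701214474553466542629913526016543746421116166868581804997780796039807652331520)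

noncomputable def rc2 : Nat := (nat_lit 3718085708404982017023368499655234759076321383070738085914747209306609902352232731566078057872246132837102751526098236870472224437632447494907061319379297946421313935359428285940332594608426464591350999700845139327529849611932837567195015191439526750115326340985569793395611965502956230975296626115338647745177219604049346279789871077994952339117006339618303146673317570062807609176966613951721407772603487885249642640887062677051161335431494851652686961498917674344765430456948905716620383156920184152189209314357152049898967735912560771995295077530990828333121209688538484526921672593171620776193032828332470846418179682924381426200484242193705394571214372100258277681682900399197796710761731456197059726924968601268725559913872568982147897709900148914678831998039607448834703544156559562502569407456456091718234876528931966739037521242397324142885361222508295085873511776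6858593669644973594145464713639365503058105767543543065025398434945014881225242885838370002930168933624418860240853247892337385129536361476511195411954658831091767575947387266916197322603627108101318573438785466954188713515289531666481574680444508260095348705352204853323761007024588767072918094306089367856487472398033035196320098826195750786549139745788671836184002317297688814110782503874366264406560034165281009882739377148870418605823157989455888170375155555587419960067523713719573288656068729500887669665468474978054040720407416498189372622246958209071156114881147235590126298214857386715291373521269201024604942915987352519066603474837552126647879032421064390315440692783099187304132493289598918748002168343432970411746105832996283520481594882036557884651656606455502492786997286069221031651629907893921640847304011894413505815443165128102116393413655758007520017083906945993662781918029516856214915280358444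4145899292885746472261883652555899131647611681344024855041792591767781503400288650110340370973798064324558254360708159190652856079002863537549415243878165467085353748916324781612115766816875382242658165421424072334939334072979031859941039112616939990849301632631884630992705016341320070194289516854782553786511748855677172483061238120882924656388514408748822300523176997840953760142675285917520136084451424055302463629158581968722477612391571533977165080872055636892403036167878455239595692355512064403292132589085703261481382041359155037720412722775997102157976330075842124438744370299125908573404489055351899900357945785172858435691857511180794662286161991533459134363663580103347621034793047667827211718369641226022007512885520434747797123245793764002076123036149102741499149862059313682793688878335065049364894017278621255357505087371336187002419067623714630163647905200547755479953172829691924986610758868957329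2289040486976173165939634178302597757664990491335958312888444810438048561249828898233144059723138468271664835137008738405051559762722912609612232177031554811659778013432189813053326552823802709510685471105200389169482655717890255727542223164825198757299353602667118106642178980235116542176898219590870657839097468992292172364815761943577505526391285177097393664202450719200491853239765514368659725298943573329534199851281149606827048055754877910067872891763978209739827183372067931159184468476857178512957252884266924377127853707519373346258588162301780289136306077800797044117564540936050764087890527020289122916191885848443201808844501837835160168441131658257845285178989099264397584353804014580906586735797739113624905874135270015550751568821861779115677965107594897437191384756024147516303419609566670421999659472324596747662619904232884800651407890172390497638377126993820516021254192041150136761995255472573377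8432894635574350685295723873566034478638539415594523949225796406165013872534049538052763405861235497236154298317445532458482875104974025857147029849902422480870852631018741549734813909674024126778246550844163098127097229440020624429061963588916808920446916785475636742387880864433790435841980765635500465469179147141789254628227190649085813633868448683248706803704093203224088802980467203086203458288518152294645783803328796607616067100648333187186475700717559970942347145612091108216425653958245881525512914011087931196560802355605343774876024656243247111032800038600544370491611461398293244520416516769990313076024342865445744793996581433620535614860877802130673414662555161948927700054303494380377212227671542115255159263830057093583927048628413018042434922641915733099038158465376673238945191909229935725049469074093919610427618552120826498057293545017505714338057509578624949215145893084493624907069591498876998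1777508714767860740128468173014002852414610577513966118005792617483968660692828290749276431072934870367035741970250278071344351608876995792946116784533673343420563910627615219455035901158973102375334662163378724748400267382549592291722085862461823277092085358447996844832093061112376393162348920165204050920865030663005973120222744409571689549118118636501771842526132729043086033750279004973807725161775962208567454036855482207341647018377584605842302604114769960180589221564228298666803976490119871707853571190441161638396597838673440810905263752653867162826256395831608518056042395213115856723091271121265880333424555967017268328913998294452781806262707643009120427392832786602051155613461905893879072803405811096882290214980618702874896597257079347682445273379504410206933728776424091167231018009877682051966313949938345949908635059761663001892896643724304884897404380735108670942827736825939395836254621299628358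3498930602975235979234572251561548977041530159613961527490952437146857891521190269723737651717781178070161101898414568631957570043380252084578046065472191140402064365829046057961238842481336199245102286401105134612885992198838227059733776670258958099872881360079677731009553428264976429139238718065695927352178196807712889943301364841232900470179121692827833752539204302722526412169619932942490956315621307053053134015755851895815220893018446719270526977031137854916235327160407530523585046033215732071495625337849444896774982281218340785165937082879143027166989316769357075734053086448346153390303659980075483761550654323163765731753752728045662511883304872127016423018896782770689245137510656894265246156201243315508383837813275785802317073676433081423403901257593290242717498248099720781711095996503466924634267381776131116139093797728321438358462226551247466986222107044878313459562261281975534237457822150834294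8836633141495070813165686354631453214558852146654963479946037296955815705885100124976939373441797130219651652340073588698372290512709801072410251061509657364590591431612794974276374966661789619292052468071410715452631832404405016194858261518830473308305849811355339472921979510110033347398596057924631136770478677787896252181381400652444126282154720334905338194977147721453662438216356199390068409120288180927734962977215480726918282289210431814585178871329629863869394607427743364314203548693073588321474552099134736464258791662934482210186948865869039402663608497020800092226589999030561848965445345890408698168745938434915579340405029049124948316997504632421143421383494334812208454742511636807806967733425469936977511731990822987000079642911890554171943237612144184809302510845995760993488142233085654398184870715052942543628923968689154730895494359605906288180521083171500066161943165687947240401104424231308820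3336455861384735159614790403518914792013399981913656298611088460644327877468644542994809240195205361051992108737315992954977584924192709567688352093890181768269661226700972882789638131895073358488191571560443978207146241361525242981989535186079712165017443215960350085840476849373677656096028864695272174435352387432308072384379128533931631675178831509213071207689536717064076683068724335675969324054815356497213490574582556574567998311984309673540150882546149716838184590916235575896949290353937381067235254485926077581487456316091798093455463198380061010488911945124208395095239426351631590735336619355144090355376463463169333684777033857505963684364173986534335645639312552036002780898992737138733754461952671466439301397309541379685885453635375042289022199625358253010370354424398783288175851307658157896705395525497815759646608568321814344530145971974624372415493884030528651378025576374309134500236413210802738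67491935294558809991243613028895438117116870099490987615937182691408159928366430057156010082495583640487483031648021309309621512910361758861657231358424181188346057123520944978636186749587871482286972533059600303935081815401689612712800962596772793693894758316174297805353242862872597306365026158831742745729465272622184978575107729430928587155612662019926801505108859364842811709268065171564473271855350381143985227749123738283628120592753970482916187096189010398404269370184413053190144)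

noncomputable def rc3 : Nat := (nat_lit 3795541133732186003890317369116348864094919988365942471912646668659581258910791537085891681996401662872472535046279036165651121320199118848068989138982544608962101248413974595065894679581257721215851087696716947629126185256234349207476807946498565848753932907324982644303626775606911050905383622153014372854835437944188541824094484566168910303925327267901305154366183689008273736999886312668118226240510831187225464514842323753088193685545359481723478194805512854592892950555336664627918337376420343287655330625261442755683957861848371394940737384222114112717096721647292898748212810872772957146821869454841183199913385766956928371973190518853906719941962353701225920808465246340403475328363737369007781091773197450646100855658268932603893402384536208917194867680376267328534464938830717353339415504833236152129946872953994510359588641989383307480205990002782106071776119690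5896675606934163431052450179246715026864827353132664176984614470106108271104176163241946546114337123408757040566394347474913546701322101118606246160341844648806580496365866549521869068220393837930100755816718829658187383948696125357897443870437139959321749301248155094294806338737159730772090180223864270700894797540888444738525953158166770233545529515131829923854069176597061323657273821895822996901693199580930352697889261962602209338674322149547185237690416048304424725518554328034297756544790258706987077036159140573262792642365768553066889574261373169486885651418211879787001149481569027201595693992563485548003099710199334365280899394296219195107011764576497936686819407486408380659023050818515678189225129909713041988245013474124648610047273963190512973957738703696208161952658663134293981639505270278487592648058459845004342014524454081040298897690526208325952746811537206143663743097210689795030234359251330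0654872539732900105029135471033064701782107544295504335269768821091491494717404850448397531658972366944649207351469646348321990401031088646488783082594801552384589071509626711946393423511845480908936773512047555680580034782178065731312108377706318622905300369695927659647747280748257669406279995911504973693341356200079473813444803588579999485928710055355961820001639537977268414430409478404369842121615510683017183127524183355413898734835070176982643409849962596742126751987590979580417422036939245905672132691266671927593767049809987827059875172001574752830526612045596136057240504889564418896511142256278067056331080207790417174136497272677926792270069368252223210998275229309160297254722712083027240556479557966251410083435110139573397415176887920871544110630532911668715545139331612585100325437687504148614679337922400281273324686884872516433874787374222801620111806384066058315057163127703044040299238628132245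6620291355411425933847578960826645192480773556004176585987630989747365663426356092736256033373892784040771094213539500417443889764943270088694274362400840299110653451869860067749410819937522142494633120295458550309471224441009885961201832457497238189784224457709734040751099607698930267925949596642646849237494345204124511434835369595819291607052757739924094429038664586507703174561982200218467893322217060188972909378270909737057158255652609402772764324295709326168886588680398703858158910573354184474655652830244332475559401360669177445837596804911833925459937378139977714628994826992877972055638876301306353856941399922634369345921836455554880931590542460255655182186153243468708036962303694223681535017641431483147063597628157954402204229011014490057774417854614554001394572271381921558952047286736008395877647831891499436124121148249362088737691329953932445722221405350500451726340436199426750757430075472588223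1829734223593207033097873258966307847200413508107772564658570908915393712409585784758833740040092147479951896881026267139117692464788763696039107738615708999266105348161896339693999629039800220493117943972408107761804405546995733427731707229330420632840796942301315411376692327700668731014472455359316921201545561019390597519139904300340098585535496447992641293062887614172722521585023367530479574193672199763830950021091252331301202737343947100510685616633329640643632867535843981020629589887529009893800111756121641756435681845312731042301645658948643187689625917178558789708792268740621523362565121389274185081117513892523337211652387860493658240190105131609273838315832799705171560600249121328124481791650799127954744331734963551830950684844949455345224828993712264350920501867813061078108853273607322800451020655413349774965158925826462990016630657825968706850546901333474340822999486226076836216945210944662685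3831807329215537574594751600741662871237802951923716849475562303899811075384901301423293429900316335617328088674751031341774453822560579359605714189614617526310822317698075865051912493668078355759766575641476216947735042823219352473754206472991865510011660784581086497147782182708967929558935692952820790013514286613023245751586089276316191399919805750525546293147004972021337337760058529462122176277629661047304968743558824828119289985490814589694667916793137640042692351313753992300180042310934465703872484407554761883492331371623500139453589058862818070187869291235548317895883000322087159442471153553914474378399645157847513998130127717883903359664404244332534272535570159845669763312608276664564006683682518725064104195966957988779807276391571593320337052561486447964835497983899807296603525337250831357114541605447229096048196972224810088604762302746578138286850878219609019382145373662728002720444121076865117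4050640161681319029332264113681236464484100225787365641165070890860115394420599841123483577890555587351833407297790505435851886283650036277035698411169471354734373317170521382935689368969905612055767539177364721967549051099121492479874482639371034810755357788679099304104212211821521723515438586812354849521925400323353600841474809039954984995110800374024566128830952912708360666055746502286168319631750600459248252690846800495863295988950156059979167139744930388061231700929955986211890472069636082001115711164662520857384544210881772426735735530186470250883604146476048430796164023476543174394480828970193835192179212151581252705655600959443341814054090948411809244126190416468858429254353590745410335681647663400271382791577001278226109259207586284687122959434688670133064642420477710769985823131437539700361990767369414274448558026319292875201754484440484600694120148792258955552900240497607860704289122319720680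4424925356174390558617892853801443880630053336057897763241888742145733679348681350634173285311700296862438264810747528898500856582864259257604803122817583251049914829855062383189995980198732078053953582859129019488866543604753964825827187224304687865031920219699627570139564764843913223600987845566917592519458605764458049764524716772309431203094035143187094046641169194772561279242809089809241010200438153858967724803207685433774382554684735337453688579182913656462081501555650598480932457113252544258903098981493737337722885726958664181227045183049756418123620517777718057960915122248171837169446997194535495793383976738915098811488148044753978637490042706362242479396643494495339788471804359814621956124596112737899506164503012467970302533896976373494018884380215622917276602696217622077330680210553483464397185665027514047100600541044006789228210627149878672618554158125999983946870787058491631772447381101510076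7557099717532974031082179200681939978206087456157003969596840814029994077633386922283549995843011751542772744669922361633320524625992950097592595404731823447182187631067789213381297056879599265718885410104866398273869234399812344372105101400301152976925301315362185093665598674019823057050493977017074198475310951999689017377427887253473177203096273682897035503672998609293876274706650268368679045915555081087221929375201848247680365274966339392861493469541315050883200475717030810303580269771132943674055159945930947829675628355681924884883604877236532254987907214789760160601581762455572197832801526859399531375263690065541953862773378827736774584752831954338771243831477368957774455233241472307778032762719695653166740340174425163024415492125760420594915644353854885457020898740777213812060154054526071108253926414710702621512476256978883896014258353895134275001863336089729422064919080887363862307688131759609372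58672565588894586237186255800735327852813849699418975785214473197892484023434275964566960310627854605899178826335306491899270160259424585250664393074114363317375113299025257970030306319598721663278561320952465936119299119727905897270787315531783195761943489599108365748492743127287821088676405084038212086583789394626979445980069302531170760384869888713846021474593366133777192752630620198830641518996190606492766636422050839034019462044522436659260644743591616819446856279581301401452544)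

noncomputable def rc4 : Nat := (nat_lit 3874414590613130981669288950307683200060919894496782171546864676190338708230342221810640288931465137884027047006930818072343642677905043755404882266753706885224247530982135350098695406839466261201187422808744601202939804404175363766199286663631477912481817079337653653020021972219862319774315952384246687552263399827557844853563735204438461314945446070094240368063176016434540984947314903111003324262983208240354481507779886586037163374806137465390697117932851537170811546497196619964218227001869941427826385949617116899530003379543926995822192090399915665093614693576460382332496904119958994717814115894837261601654622006744777119728558601990141155473997337213464669414291406383989584495191725599630840640243371261443501370693919367102388953566027317204802354416196902971913423131240871493894785145075217927022236904937904014053672224472097511611851375190079686756990064197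6607582973509211120974022347818264443795531410593332097241107760917027678332705437600486163441553268357442206741963437586329730010227451541139472194603797957452300867122602909095617065567754701090512050510842778456338995816741086906465682141789924197560124813145528303597612390616855112948734922739862737708914707081263620949879379339128268976744275605204669848000239115807213040816144138070478457661571675692867014458532328853883985346013641801096566980836404388077670723299918820762606540792463634048535126220190051418103109059461602519719454021770455378109464572140999820554418319047163207458277060803875193828665020156571651314063513449705083922370256173445701258835840046688543650367172591260377173548693749092797885602140762212637541538028505106873474396163588367796276615150310747749082983156692074183330692959279604395356504087839789885718546389750096679761114028258117032057635713889987297313252537866385501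0838906281629606615929447823190208218515886723709953232029453870434716120943509173074433472941647281033328297880338444073206740349756176144341589265464126135909718337536485088298199659299552062164597774406730667077519710862045257309716089589962599066845134792844177110569942631362749843502114150395191082373868684575800311233348060444050737992523224269788743211377535256187395685117512398325326713054722733366655957371583184047007175488813925174459924194590247298206975243983772132727448273577627058828713565727165298023987937515214869821717858065900151447862609241792541071100455336570507658094197984708891469548229852965186585337060167030810899990575010810598881128212627856048317995569902718784000786176612369399403431935269897344008073304831308167657006562045900508799983133955380523695346448396503283031872570133644917769045545695387003911978195531012022444036948431604510258805466415998075412539752179485131185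7569384587645119978426418951559575995000185445053689627130945654648430254520917438160392408161682424267224656520140488695039814382300365985777592610508777957299471651268810775097597257891592603533007193639120941711368386652437980593661663179981946740379411330947418332226291988979891170416355178785329363985075359530387280996992441055981179512139499291000335162940501485171866514949956570530267382288399381783224395397055404385930735792208522887318292851904326580373308048261396451803106557504688502171938083090585203324784958243347471743025469453942692456533170557390550092768873055526920574518814697231545864235187212663363843950274594170780802035405350205977390599126912105862117231212589294184274083558661801250074600835234813425005407784834396005273600747955050047001446043407684186460818057664689711657988281014821242806535041409145665998682647120022482066590667629015615238389211976362398073665261537868154094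8893361900419482119333103899243508327093913996825352782197509676007580347512953953945931566039130030489470620346766295539763869011060944297184129252393538074596355538261110521380324406899690797416504925650096916179528782972785536193414551267393471663370175838733314223145928512023498706922555601520997625554151732452528155164702376519688157645047048898135123329365444540533361616592627526979811859335264138830195758219854880864159988359259363595516572757105415872407383646952158319370999152458396544543681574366632773816866690251703775372568740248082870637805677244372563334885246910869360938929974465626117965893404613760612436775757431876047433546666849963532815946741322787843750896604804651233105710930371020680483187450661183155822993464613290090732418764087204597371227984490689098305226066858863294680262698487421546035203932234558239042240820184359895979223418264072683416743070556313597713047537913981464463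2043855018375475802011250217300305051155797913099558481917614793195379447160304584823884393545527036699784353474017767260858510926268763816717758950928951995633488734876760631656957185248583455611579126032355240583218026731984137558448902346325138478485801494584320315836002790169970925493834399747775526901719236924936662248581817419127067112619003535054453114676449082419769344915861204231229029502085801969224169152249893207479753656292741213774753757992271010310942811742120498907925071432555437611542699029658989699068048064887012092459918360077262163468752282867067577354932796006733282517840501095519088853962510544833343512886243892368982826944986958903982579887146052360113283620843499133682825013129507799723042633098220842120695466807733210034572684842969832581787789446731036020196714275784766260078176933019553051687494574799306984804186558949388518738218694994884116771419569919172001576034048275758029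3009814249881327678740591922603303246024037724077885896394950255085171430428394803164883023655988614366763699277248772722316498596953974083551688516756905111185173989270191877756455133580823475544780489634085939948786732143045679037284966992876398226335557421581745479527284064520467741149956587588321886892377963824193647965353497354384780042897146213008998995072264278781050497748561831699346150230542366103873696520865115149757677263148697460890149784809791855218703524984234733646627972868303980148077006191615169165157721765000899446426360564617668298489633911977451249925429026634758919014706749207526188291690464653601741218471362580319728202233587409618339401706658491141322763616134031914932447392280650495034047273752167926745907065804436440909749722884374330722995150587591432943724692179072500588849920374919475275447517010401470868372406722202150611936225478859333978252535285883499933946387274580236580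4572995689593897375412827170498162942364314389155672967601574041403231079538542287981033456999794573557682774640795377945856178400457407881501675355978227591868527037456031408301959127004498091839909889317150675141953654206550748644352622266517359286288763597848084332045048752858267961032749398133253188624866964261968456428033969592259823649215586973098969819143385808263698960898636402687004715130404906615566730393183081845767230410404165285956433530813423662578918275284785618889455629480320781813850090200631358231505258172906222528043850611488435636764272242579652532313383312936648768630510613850268528318394596583674841597930134124675936216873139782053443781015064316892797158888401359514365001671540373747098575964438609017561350427911432905624498344597160072993657508198498998682060867213138920796017611629974808793114183512775476628487916430449229222579437393453246967964921053251336917413438336973118373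6509561998605896644726250796585228814257678031859411186335149382641250158326244433711309775332473481483530550812076332703524437199874091858902319698987171690794635567638573481108350322480315547653401529065185362284898059336895396026157890951638630842055642640845558607772535540185373279224916436054439047851149134346926118734085584758274389064288190570102387495022069561171949999987248554164834828254793661309941352840513317101025913858546197208423664738419012043198886862157440129547275875848512768162714947036661528822467527428388037562598673125902550112480324906688706527463520188045708917408186252448675853876755098183890975073968190042357506687985317134470548786874985164375883358329473871637396385121715890081019451325292048412648473403488435280720997402251974360463390460296218611193664413070009044927223882441454724169356283934938247210698439888144815845456280504933456437196146749919185671042449945023630452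75599367822987077615547829067421705373731674301850460613079890043034640147982558938993669208636098778860454006440759008348529624680951752206949226948279663792810967828392203706519086351214421147209511840530730660118773921426225787779579066733237394701198979524706890850100041971579300174690646237707731575146513143560684573614730348273252392868122332705813719615274068638254896621967144905978443298811139542419365879952515922513752893039761788873077473378034815165910751009578510299693056)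

noncomputable def rc5 : Nat := (nat_lit 3953808074475216821860311452772939787231320263031806089613466591870286285724294072329563307539557980613581004085875851839251519871244702355861613883183480170362304904165156572892950457693567221947943011664332809543705043199227238855905105524487771978568124298232690259204509410563191068611622359420816633925352975744116525111991789172348416415157563496426745819477513145832366945363863058452008256857676872101787750107215117576415588062176222008956788229842053475288987921182601180243083917896639478405897009296389163754355930230378460469342501177927308885099779955881037548218051149142000274768087935948186972041053057282047420350561096398539508208232403702949858202023113402602231351263102809594643417861240342801561502378127011356667848371015848206921839929215647387256952221709826742776734486753504529832010032545323222627058610663093046751533568367285889719051343663075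5243837922479885429882142431693732746928247898408302405440310431260256101003430617787978640231789866951804981863758194436983569104768661551138139584899975101133079878791238202972161076230369480076129475825066318282405867043316123166919077360889509656363001943168014738881850962734731821944679449952934089057308185498155890224341824940934270110898239337693374355087964840055893651338263120280698153792032602815248940529469446302252974025622608794981442765249369924755323547825570431206574265434239306289936100037489665081408112295144530303201550988028094324320583753687264639192196981735769677014362342293113343922744416126921716310881141350951065950213869322189333629863214496345345582489873236121641703256052134471055819179204875949771006830969489147676866504493662334814656537393609278745372337377872404733395228355019475467146599950006817077148215554723465313518139636416484421193987409936262038274355117758227891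9792947204744764197549970993351141937607131815202280653431943977630088350132842445701772884849873980587966435738603120838662701802191265010557161748906549622201969135793848094368528185237020638326290549459609723739155042527933639276800936083306125790463162075233350987079544213417518983329907369194374692870257896785288091508513942314739977204842180788821802059049676868264135084069698892105809266598721207499625721507669032138974941912884687497611570241756566807935541612402810838422233663054638008212772028754239674236123950195008530016643892186269534746607232580385107040874134566383727089102034466957536614500257801608235728699192379752795445109511041719495935737959702628859028388792329558506505873194231652808801446961820830820784244239195316723166215723718493499509637239237038181570668692310517567626334917684491131977839948312744740092881997403171740451691773985033402857282542123605841070414109368252589707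0135426939566741037514397654445537388722137700857979805759620155440934077625643823940740931089923572782765092132330881816658205531833113425906285862381185379548506047796493771499343935182364411948581825766604915418479881249109846766560524672274083643923360567401515041603831373278160744862037666954114039347066050391483375254277534794503623849054913709904281735348540550058240565654003442993800590493607879062318402220944555739356743844464006474093150372167922163595161906213998835509343848522146245756220541446046753732178369196769925793497031553621526976469825768430067066969199023481409806179054983379691600343439263514540299551894970680296180671334199571014383777847937667620823905070895641416323786880010331951535311399365772827968123716120360748245805622226951751725707169140421124970859088937090291400287583053835256005344496948464309165591033221130038057108063733279604577018992248025928940106687443865741392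1126681309898018721453184035781148723253226192034113341763061126172413889649839710126953147901839981028845857029728489166432101102381484928123010797470371392513386920554857746241323291588144529996978810502832563949354310114565896966658494366729314499325224670717345748219330354017937378353901857465207345911292029075774502997781249604110952112112056285794319777814665434161052820143030442601975042645068323553683593063558389070682366523741172729124203622223925717863480973244092372672566381726500680443615772457593452743550865448474526080717608292374493787538970401076864285036324043225023012241109068103342893839303265109484610025335947601986175797381529377444689350889676481927767321199441584391190095740790854978048786401155745072926795835026360266221777825266531585141349863820757291958033150375152875156591170711693109185362712237288722906307718892304582794849311462057714745478058653825313402637946449097093007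1880712334589477689342349772706139465690052535922807089322511321179620521609453975835986408449794144312419421110746527207353084503285493875823195425930439214748435684782609197581906578186009672846045530524248241263279064941551529098186936471107313245585116688886343029720354110369379146246137180961205429542854753597869021762783725479773121182040504317876766074795602914344843045392928509894165824041340890386870468615378789657537921839056754082826017683615659867535328127488695696709867137142915246666218357524012058977505028841773074540029087362195757137141909612907649100400456735706010384771633213209767778894476066430201393120651753513825958231583926220750852476905320313413693790235674218906809768890044204707262335823728428916957809979688215350437308664491587573408867115447667373858859866514640371444422365739958702662974374798678343151664367858403862450701484595607540655781647438949250733737977729535567055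5415387334389857462244335565451173523580978027585914783143732106903415549767466397487444919412949564859500546699519817319128422962702626990924227895735111995317823919033295509802126627451542427470753249998487499936027698161225228226961409825234635150980768087613923500917477547353971894763834345791268009324898181078183418538652541587382417868174920650997569922544849229343003186284325265416163323229987108255786285078813520843306211735689615175609022631562579245667009775367786355076570530241978692231600562499765696755622537555769276657681380355244448848137160004696529355505528348925716547799212914178197941855432989562311273357802051599783420842348771466888844373460386998913459298460226961689434543066536984526629089663305070201362056936489311195160631452198099001031073173843056492934009467539131854505199420163722950477631956220977038616846864761942775636567302136513273613339342003835960434801277559428769301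7333477783774720416571922571411796493718634716918813223269872640844328008430755143909616054067304895516281924398948227180287252262187286689771497597089963912201921832957424740326343937414890133561249179476473125446111935978939348337458686228412583429021063189324819849006800914348604804512680298604961828702013329231451182012260721963972070450838956449188892821039508739329651338565435103025798597114462576601237000527013647006139261109532260813555252199116067483671009897209121167857464841780303956609023128230574615082089142521098593684152835453625717554750830430169029350019039316757402342477915055640977113692175042564458797848620986375183510598398716282249804874700977640934109498047307524590586439234049215617619683875200475398345856392881230979876250719556000990237475282325347195890070028744771505775998566094387591621710111291794816246977867104157460904472659957723782785243620485541412431649644254708396088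5447518489028115163112601410388125699570271681395436975444043378906887724144294761443145879597909892932058617210154880314349985154655650251472459225159829899516341781243148736501249937130872470369052087840058810427479369865702535040169138650276500653347904741071498904175642840313089144989312050280959907396475309942880686470944255911225001476084998400791853907497171752348338231426837780937298669600774519162128131447673081398945349151262654057448995244828080831202261070511276814439812202009167339526017763688100962037782371709928567918582050995307337265361016264070123145382869672884731085454987950387616831759755218416051242082243670052633890089251039006946191629421156120494792714976896126558875271091463172123856266165869829938560970064045767278774994252692944336414942161012683363368329038316351729088974493327222209432809744931812330763954907112803007144087737019795984710349077669572901382319356579143607860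66054660331265849306949646469250969820748860932019181592841150481122557049900655467982074366685603979797377572068892067323395167965997581755499458007059731818335948455243506411621724478335033146868294200380832251544046595395282944165997898095973725155690010325286819685048952167395237874926867434128753384754396791335058330539395159035877342957701443812480597120031133905775009600233045582062529856890184764431813766398423562950307760543401108697909751586886946434661830786110843630125056)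

noncomputable def rc6 : Nat := (nat_lit 4033087816980377363152975002776475818280463015511944980582480699156850069119305462638639168258197798369308170733458787302523913563871338687478676964026961906157802591230343378478881233650456721213869877712316165918051988461245424550561024640743731201576092886356932917908124301538507465249426554175183817881836154099259883364767911504784718366777360043193593923151981109234020165364683742241647757352538257259608155893229346613306363905405269843820914065753987853213232152529224019921067219579747288894931953621831739615373277825647220241952535843120491283747077184241729914924949829690383649960278871853574124001622795798826506512259672977964593609583121087811308404472365767050362159276371157855366446328573077754415519774961293513305017816069352450393925729956560969078771962465912047772658428943229511006522139998313049145171301148435670903319673453188954486728062536123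2529141634056763224383841123960211629321610907833163966775639860340704989645842065563701781791732757379279039127323604038262388846227222486313706305238828155457458597781327737650471747648735096666274526965767367927832684419358201513788054933369130373028542299326713042376818031172188491140233409210159780824945309555129949190768981417503115283423782131016187368467130878991563320051481695978681819164540305592926659614036830495055151237233201068077108100091081031073058552158073121810019693224928824566272294893417998172381191376347606685795455197986631619694434160595069735619034835185762065597984159360963689016992557958238395207221807912079017232837511385756298350301177394185998931354990699279448575240862867536903829798114513779596515737827198319199076538634248011159987258707745368810018481264871019531686539719925194086836347538634295121381573127695783096809695106570832771274942847982909123324836891604540902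4702568041044756996393220312700259393418360234417284468824692161150001447718541686374321511439611043288954954350842885847610182876170507789735202945131318889158302156187114640574988851464392706349701688972631172137310002090058325162649363199775536532451277189885290972908533334004851523178176379193971450787840542872854801407010450040701723140868219449185258241414119624187727954416069744601924918498851611908870231866000274317391721219133365455155685102145001545822731067213818090433841669918477145978549292669681071611424374925548869639599492699806377489862578559248560426420337180221643072243759787350920412605388587185685755658284604617300290319743868106229672429013193348759035252818544749027121826223579199762698485056916886105890289060844272923578088682607421638748587022485553310255570769608386053978791267168829210791205824708227111268399478129454090529159025864061116428129273996760029358222906039697232114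9045051555436507286366309844289159764003468258074268113135447378922737631104739378884901679942397007519514639313222179974730064683472611589090781927741308112580968240518600043368541239310009798125383002710865045075501663159764109843986606782630336748663064638622356009018466081631088702876174024130645549984365633441248363361326704561835480110040832317803428764755351657568992315290917552640417583213181831968450120158561693108446932699505679771945302170572038826691932289187612808997794882947028211718103101915082177160109521735067634129684687462510271427151150334547391824314981381831415237954003062073941818470109598741469230874112283859801470563916468282582163873284610005037988570279123021029073440723652084106238336140272917353434455667348682885879564943124584926357857246067336118168496251944601197627248088262388971133223447338261712873333762715947318311727508153370781130732651525860382293048282877945824040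0469969064884413877318284461186738182649857072134915062594518845180447657706130660439786859347740111968509881768748009174029265808068145219633776188119139032497265078864761226906974763615846085120838618330903224989188129409760760945547570711760461457197854038710962109871961961351921273030010058377405033016087498214753907652651460565682749463745611308314119558609971082209268675363367111741304832730870407849818393590421230419615228200263009607786834187304393259417361458093550997578786991939661517754289827299725402817614608986643587938418934204898123499665960434635632953584778878311592609846190456942601030813908562273691848517603989379964059922220319421512177839030200831893716563824636595078066232573911310390859896230102690517799251347140657134646927526706331267666935647501832104456520754564533881038494150651003072533726136456137586562705112229867170199833821391732249599384553210959647181186295529682912636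4893974880589053667554104668052115343371979461009570816326441335388422367064512603451507265962223261096415697479638313224089332333346562581531345840445272780667844833965256356082760622864279002664779436332517041952834775037798089826394221833870316203170603948347662329710265530487289214549865485398753337721126906100523629621179482703259896551328302019922812774855514701245095011030054122625633936248869332328361782758761556460337305502962630798760927934940315823570997607027958069494730541371753161667082831994071054535227125407066132073010713685258407597330408918392173609928969507721236808839177432923838028632325912172041664517950525035093775413712591599739475152432762875461488440430427174590766319747767772344960850366779388627248179666743894526091419680634661226083168567032825406528413632108006018104565272140808312864905712627692623231645328887147881272657547583734261830882000366551064512794834437380170723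0258602730789782592605153702988824516016282542457788991136021044132886761701403640895514554360270380184150779989200521503774917706891860790517429532227002902204080719434020736709850659961512584034206900604298806869311598588563538467958827628114258047498280305813938573425992784783019972933730081210774622480095268748112882909638421287383374621415607446579303758433856660652446222784998674505558618344785147034682910075745941541759820537880073612253309550285561495054130327858091762910229171790556053618127321250821240594740799081943598172489501915328866034537493043389155447946952857166942629334287709077231852799368593191797242750473458222309359103782610119507336082171496311906040688688460427989555795302639471964402448216458551925922466783613053268835328460640951819828710119020698084589247780786850671954392291684596249132883122008362711066023292288049391288663679652227822051358656729422861969568739647482579540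6138538405364388917830543135880388990640736072434699641201936100199989070512403770441623630275129724860906015016336228865911239784027325954074582681143701957746408345198081741069373608789564887374696912624228046074099060753756754375596767099857463979482712250167181045698443799722094636406963467189518373157442715647257338726637358426474853654864560356484984455782570332838419112488092104437620010943684878393988213415403911842147381047261175169294443831647835462550883150272898155181978946114817692544374772873354285898557840078484514132790138903012693114250402180574179978631138343174302533276581558144675062983660397177135213269937104865422175681664842005759997814409852431649697514535130954878452137947305096593420740389716995884570300566940150963763886249283871056219698243852224839724183770164178670709425765059859898030064813422378805351994888941910197638053162240734162379269977797353174560638959447751112701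4681688251041572667609681365153275075976732626172753208199218581618516343945884207033675708667514658701254549788852776284524125727832612061921572689349966589870681426674788791086324802867526989796108504006875420862686001320536277852430641147496078981494049437218551018567769522850062968609317020421638474012467397181207132778051460712379451927947774200352747627334818517919152196894636441208549025027954489252775608124591706464508693079593438807852296320820336604659876985332317811300313412559984772997776852000723342809085563787129984496840159929276034074128021179246673488873161760343433279668674282469716620489926905193408498796842468983346079917431169207143061655594623302647211708919133007838803308639662193587331896725700962298963549384920153892018354271991108923671428695056433158891778998496461726186269539394185588364896905355269010153876083591443004060527885177074115431405873447079781771293865446925771428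47671386666280031692188203645005591617508770514842441168765962826572267656937041731322242899454504305123677936120507116182502382212138455259061900647233475975357145244188561684606978321359910219784306030921836254369380323556458157789638383918384654410008878683584567092829707613141551459710049334828526201174451904981012935829041657476251943934932299813903385697969977331453479667419129681729062285583256012260304726711618539053069994468649374263643143724930756372095287343210674044010496)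

noncomputable def rc7 : Nat := (nat_lit 4111769911044317274831368280910272324869537875212393016971790868621357311606534434928550227724242465568866791556338824893039655112503414854650260364607570577996303698367737425000916062048734370906713990422951241869124155347419274471587283874965415733866856173953382858845178788445809618454017181813423995652790450989265769045774708081396768260886922387881672129776467582401934819123783871477284180043761627019766794040079606839352672625660734408679068793172432371029816633739138598108777538543551306767314105430699811684743392778658471006753731275694357777040328986183387736328940171091158586718097154685280931587618808423865561158413166272868057477464347965759342495258074534875707636472501944444506283521069804762974778240670524964452317731402146465011083951272790647900375809253905781352877418475318211658257286282669493437704181429957786182212718188047141064899156725186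5923594553126812287826830912789464739970374124590285197410828541202579018858289193406760445888414859726460411545543267467865629482000384797924578480320890478682212731962312216955087181004627478730153646479923888883422065113505395764648324405594270933476905476570716634259138854081109099030742018029135390497061460609519377540131961410274116555629455838189193420017088364560907985333937669381506877179200736555683282639611947967044474905014440462201925938006064481458061732653609985736576055026154286705783731377450979172674455719916220245931088875362437039145200345320156086821977426961909538416896222196874197547550872887970725971880310060228278918303978133899774868135376942125988122053075782551517325005225911209636389661639134004664726423707494196135442564641482652454229471158296395198934239653663055442898029583700422434596653926763820916453057612180589085628649413403911122129367359599128783156855877226392172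1574953997841557429115891286903984055417365922779531199770261950386276206659848212276088968510243564346971056404783576295654199682957410934515549109716862050132334462291302081124733693060823739504121473864174244187525509476614026519215231371955053896049185741121639008812330751246391406279099542536719611044018372428357564924934457136842522870681458872081068810543294142133692841093355077801822019125440639195990264961664663418874194533969829023387425033885026156285621073805138212505445127467324233693480099950768176093045374453618251944422106553263880607316347635099688536403104264063469258691358868966867368655703904769194266776984884305906507177025452536888177646410351412724239096149213144890664696082212602952931475043933203774734454580241875382548150179260400495270356942170667923119898314767112836276633825300139789646901744842193224688712363938614078822138991680727130197932172641862933478680229306833820503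7437952551676995433979616114367922115739552194928745764628007408807918379508093025651455203293102048455620318612348055225918258392614731695457071827485373487171948517451972768378075380907681774620248531943497867778238990026750501655136758113022538058567611908964681297045216022388736005320069755777565466869120214163094583223676159158594338596425114540678723578345550295678452550446254154005725727896434286395703848785355361814346057738928260567004285897716080031454966414748425921522349232644304558105955485846290295666250692227115836338118594117885986496292547338358610989058761116071098929245569949364126980453037098171209226927324134631626585637989787925633310208244150465672525234230454624704538332857579401836542059940072074174066768343231212841556382879422368467843436883559771417559385639876230632586328666721959404467196332574521992914264355866468208787458334969825698735899445559057904932683106758080565505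1335272414574547821159764688723302402112825382828405423106187535742490512310696813462602848298193107679377267171526625558535481295603269381583016609784462158244349121486602396156933559349570830112988006242812859660393797945289766634916461900328863905404360780521914844260650487375694650914692348222426542725378533674102409169237971952883086762676096172882034724571420026461929827787990985670855605437358670190198175530124338688511715356820743288288440693340595593795372865016340519967042872367490762043285717896327359032260392347618349920279041527416972785719780530757313147132289305566604370910756089631438230135373607993545070403832208652949709485900882927145052876739151636978829816180250460602960122133172139540441112694434812881380828856094750362042406525136082835853028410136202192509450390876216319484188837128409605081476639897867552859167406659973813920853271440990625633460322384698649786375125560878911849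6559791281795198797807584524228714489420827387911672900917565776654435909566608570043357983405476708511272890517516830167240025414537963461090454103245156408505532694404997469367856900817100678098179145616599034148872639840267757955031452684153869868335589554985791250674256441293613747359057385652206027450832837946099083692235551070895822665043754513679687764987085216921849367961481002508430333149638665761679753959667364377973359664949138665249277875550111258315245392771933550951653717992891981813585279118984972849608554164314915361221466940415625109954563450035856896943991324784843217495320934414522699646372420806322502576890332007942366269597816263517553870016067587713213324394041849513416137380279383101712389468493166767452898089619812753702585537949321230797873650356159340037651293418762548852938153210074731632743436557106911226041459615610788954745614448254273753503460939960322301907070365551583441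9362347784166968032625142167669235800181755568406480793456137388347680485651277959283439818044265714097663316936353804999223225430276438371035314409909203129354477463585429819111645890908796976988735569220211782455464762143477967825111055518927464973545030531396019963661257229952813702053312067657183097618141829525231160731329546905376712058882332105967986434799958288985637960455855818396840924774504405164686653888271034090055114290114052947387486236502258070731215419623383263651791491057863215504286651473015934260737499316222091714881244961318035431513649765469872975725636575873166358328870808478943797333273516315828320108177201566586358506289529530441886501954158884799724546009010694539840029894482425826208433456052589685759205297973243621946499532809851190655039991629163409036580730859222295950550777856767361962382883205121457795076838787851430570960028130523142723492081678817713405779800350471661414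2173727787932548945900653524732789109874550220644035584424912665292472069872527903690719215266829078150235374646195555974466760279034544810262760567899518458671870122163735742986488795567128720228992779996946466763402706138792684287513429962541048465320883068780017054735656079870994887883001740521628692519538579087808998552926342163658175846226531270201153919586848885204772811829627773846585447282340939655684143464084407749795853205580387722568276305840132833726556743524511472308539682398758625044851765616785113451224858400519704249187628156944700504782573451786102839081125719019657253372920671315086878065070365303689625450024309022065286884736497086939450017446267886234564708012294890251525570414875980850737849962154953846111165760281374013936148453052594320128621754858942623317065462228416306289387373675185014504283932144310807066368797271033930089699047006274696223614988208173908278630304897445948110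0478076131634343394345383591862985561505297666181865753395638466143615868074284253382057214430236276119744185620407144370033184032148131595810267606596293444987498690021931140171535761674359907503388269650618733474630079014303535496115031782051924767309326465410090960903905765014966944763377310960405692029139027444993154889228161092606675886906884719983421681189890478313017360616642571987854138089413661385143010966559099746296131917603937654844624852383315715694304794956032945620599077615172851881392814604006536681667784183093947961041627456904892637476746229244047434398000829602881798502459389894535928972421898214231033936918093699229154431698185450337370198272757439931755908460422055801864259108584034273373595244562104165311134395326217031688097139360974557693222364638819941492761622344985118824661040974780067561180519998698867920290893281490107799946025776670986455026564606426939315771112540981334990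50649253776312316970558414220257368159856816460967723740154856852519875025960423246409309626233025002831163357813202905212208311678372564210822362441625932967474963180112931934042258456986086987540204148046795121409236711949938397215722099581452176212150760901488908539859338946235981157724591098486193934591918604218036448439269083224289296061316628615284803813072147967668981065341002359456694741013461737450126657309789694004225648822124500594821349129148859726851645401200300266618880)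

noncomputable def rc8 : Nat := (nat_lit 4189466932537022458406058248402577684201076322215802230282704726316306196141891968012696001955279648792651436221614310820872958671834128624558158822071508745037020905408684839704262140462410870006022130485770115376319455975643209754101390404889133526839641675031274686902179310510546890258803923708417003540489691641861104342722681429525646867539430851874470892103810812507877111306118546031015713168934358601722074096616260581907903185994957339645593741993262639331008031773279634747206157826583719380730136539615188414447347372656768767585371265935872571535142468123644693574670559385183714134518367726739942764657642794508045914030743992142948558063085893961362171778420850236662415790831225912974186211338446702049479206965859444784121184915830223532245715138538677172664171505792259672845578076686499129153550505420492031047532713725082948421272218076081049440776487502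1179154770976743352413252021425982300813166637689808365437653122535834685461545859696595934011917435369176098741584218765868770341487935129279238928819254397837433107107207209591531083669368457028924692439845049057482711245123862650963858360920292280001784692132956044746576021973956814126028447181502174693248692554950775638138976265104626630815846731302728814289758540424282572133304453822047480170969173498329394578717086775031636655908210885083351346498102119393270217450027940973562986972613916784276173721005162321123936787049784288636737644078538988067677081790192020201947212711920284371972755088718200788975256197282602741536155213126934362250776504967849651614828591000712113353629633441812811954291582283603327488714250411340547323942544158954699399963737018412286784069155291070620957081725916528869931691729280437716777793226843956419508128339949034519955378929160193908419196516876552053230013826456336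4974221366825356585201271992966933338127605420113766825047228062097255977239556618242297146208991829999734651938424674234702929052993655910261612533155874747193818701010700148399028914410591363539208157804078416425726015156335062300892299437540008184678564026358946941617160167492858571448819145978303775712178921006865138434859320234346559682870137830779670093611486075957096570682159675070550468999264120998697061994972199603133116867002038983832264071278718981574228142275002058341131495077685018674920030837030384543748233975345881789339294320143221337982439971462352581535888021529040277175873967381801689365698907279413821989262197286152999561185147138967814783212722839415483289777118512409186557364098834040113062480933658927079479320350013209319604423615324196966567829185356685320605037742180296670113017564773080179269227206174915629331715268392440983471104908853147506389792489219295280620628077813612229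9338215596744304150390842859422493150054273137230632978691572473983820575597050160266489416061303442154995969544456033396831184076742421585682525178851882863528330764936051964653191077555785685304697824585508532284728617861759860104428461883825800868815207837733842855231844608300334447899589901331199606926152037309094798970015687448508127395799523106983293489604135617291766017092497624764972857042273001802016383889302215753747216823427262084920180762157578145151021652208183074275888917922944269022602498844572252739784261162914551597782964709957315695484804305317808497290749248855089367301382903956467498416126936898665645064583995212978827283436586201717949181017715931049476771483783394915595098080958876797255326511208378202142455879201050106129914807058227777174919990826857224958504605974286139834763045411305492093222966515684351863715092564254319168471662101560082597269557034793733412846710623285132810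2805318555109117298850953224466884126362898528459159467954753962015360876083687134818869394395314311383788966921500274500256746302161590326854035776692690452846816726235685332356792419949408688516008768208737026787181017826626736480315490568880302079042339266999610675382889501121352956641709174917856398383557655105816746275344205170440209684698889127236795055507639165900994593770929679188602095636362413285562036927980749841488887857152673815527219300841244726461202789784610468235647605621940871688934555287320933936681985267601158328458939513771047980863344061929441488544169937564146289587167606275555454496884642124230870103533544534865353544728638428478229680170924534307275430830799370800288922676012185800983941437634545320051413325485869654139734099737616308641810565719920945200424604640063435059144225998634410448817083875338166011429465256485996504297962977481016011077569426690187673067732814785855307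5613089182784410090827229962246743940097963683429393953510057590006360534167510751576421261213719471936931913944644913446059912124193803982587639374186823705316334353398212574742602115697916064300210685912843657996651352230580889274783242311128143939418541648192114564576198809660173736840307509629735319019097825917155542076190061093370506430381977246880968811445705411644513794248882184884254331794515520405438847378159891523262848738499625211881406530478082318240443530129387920605074486017224130752633575929326594199588324769535456158619305669821056750814124085029035012157256200966361183679702066272836568184922005595082074396999371607872461607506681577895603144311840432009946034325456688233472947593563099526404150966830883596626499816831293764899188138122061572235829239418384834013695838966905876844896069267936949797165364681871629819260524054556447138139729409336338076713531438086556754222682790010724478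7264452435346988525576531457099639125400393932682052994892337033692990497641980290327409544136975204709369165885203755106124606739986234107222529538107223869584406760344802624166694444496230953279135235520264586329720045766362526960579908679088199518137425987852157726860450280225228793260814042688946183410992281565143868180566228075427573706106331181418144398573751910817943314512746151027467138248595104571978393970750330232752179259292437888220134235627973400202729297040614910132677928088135355129409642568934006559109909838764123073873251014346034636669991226168269055306883820363460924023207764766614050410563302743759630779947610613850453710516124923018849078636757221048230313921402056903088019917373412494410578228958967137514202283592289648680322966237369901781526006412175406352375634596302738938039584750786696057512003554473054813518104480410679221776397990894873678788819344591361638504540434888979897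1212324502584672304025009273071396628320324723397324281623598692405123779591785570319596771994977763808951705746279769551869379174169650088542209825854491956692020128445188257370176534280438270293998532175774259452895441360825825043401259495731820069323360744447604533645848223548588861818901575462372667158731866393406218831633949731223332719167583920112411372956004176358758080075266238290290842351215560667177722583901685055170741443670456920355915262253297923560609122740300809771648559781807518128858139944633493163114938457369360949031094003509555843720202600158479590143564128921004456373973091290110372449332302098713826705015968057602361696835207486497122447345165010191144665164680798286930806343845736493127455896615957501124704441162945211714670321988111161688181460382711352397687002293700844908501418402080240857634070718951049496161314910939942208629093727840962767807992147443439188720870589288389712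4191876017244270007602032337838822194140347341696850569854961855388236944453885155714424005958943066731703305913331847676725625337147296831782741558588322918500291877549985260598464962349686782730321877013264363415027798437073141237439039107183972532132943636521529837360930939482367573340014490556621221280798483864965398669812162002261867243289422112430823587041335866663763658727507608731468290764634672528336196402944170603012934736147778240927004404876194306099105361944158608980894741883059435531879579931275155272047636607711193565785107006758135466640699758288886327529077687355108621417925736046447696283871218387626825803083005126660276391238025854121156004393334770020093506865348822824315088074196214971255326167159737332319369262348983186202041070940369221597291266900058965720010825300668865575201144531215273020914037687264158144325484050046257382859638055736755188315114978747188915495320182537622131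87552818130255954209186612668474245708489313739979085515006972209676526437836041157022889522054651963186863882864622862389647585129369442025412247219470014503006659903919164451510963263550265220020101460102239989033219571206243552086257387700878794722565376875531829642797389928366941537114501868013488383473934239569798454562973885368754656883423388213248540031030963863556282878179904263618239891771213512444726766873230709032265868026522366190762776178585130623090131729867398631653376)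

noncomputable def rc9 : Nat := (nat_lit 4265861604802284191835994728040928405505137618262710718470413326877410438670811339686717407208479443657630259685341780499051869905670429504616068722077510633961950982868759304528389297543862500581233100188529952099970530719842472214054267968566106353732855742028253509179666068908079328464607327339102178005446488095034728966602848182816205608299941727852156710523968369118985032530308870624824508947335490764698768675566724374779157003574255906765148193036688867392202995057053428352594595380337203423851648101115239742134866276130495077770118154220685281149756121468109806823219619623913492130565459510413834003675319270133657689768346863842584319469223913431097119770990668387480556558082223046892507561450560902047856329992312082169344751160959703969454389206948516318491556048303166767149027958300478750071469597239712183117191091130296328150899882024905294342669428337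3097217187598654189458707177822837801399214665344312727141752352947121161877937930741579127524181544674859596411791573465822880768071213798636376981147521733096265570676494405876682858041461976977970546891003044477884416415691043515866204134374078505123556359262069819686620195370482590004676693381935504102669369081488127592072857995361081848622150142116049065044476721795094583103399760971585379725591596567269906293208422612775315418438769020562551249290297178161380225555672956061204610570738200318760727430823882794625882677804633416703525556555515794584016734475709301574326870580104287019763848012425339180000998582710794472008491770754818580849475278186315135109238911337559634541409133388972930042727244805209991633521939805075786303090283356322625650620962208167492884025938942311863022209392742391662043135298058854312686154839805893497515796256866317269662681145311931950797223557577239133165234562206905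0788646605084181159066078242726994907495557582489343257062891784280970760083174006282295669071227032037769624696176176016054495152603832351058333777484787391232961098926647262560238811866025916822445990254987454177182309208074408461243617240172871993940303256952554196138203690358927689806428482826851997277990324734241919653211959999825555760907416043028835602786960593631370262539780315201661387952305696772407772714672492570374119950078019262566550085382512107200261689962955621240876641723735217416751377123352954395902811079566277984861114010788614144723338540202721798039260895754926321418320421672827045892488275849270115556693112687499132155729888313806860393250431199701742947122716344218128200901801150017856486399795917063792301966357837736583718251047539137875045276759541447814967848597486326817891504935038701115433202052182638776266548490951242772832298989837058567793458228648159945140425362673443112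4215700986214758414480089597242914774923611870242720975903524487866490406776388962550744394505239555869275634625376069299817405078145843143093236773380007590308591031243424435520703678706620118932800561532070396073039909532932972393462447868554730802995891264162130203273018727788493410017891209427722705793461554650269227191105384435247596977339549804392073897964128974735091057340481866367278809776608065874276086169165906165331658899552226563619038359893533571602220234546133734646505091478509447785369598911353091224808348087563758400715838965885075867059809152326746891290900619955464084063951090986067106639033123752537422076289690257749089123377487369256794952247078880713974799597169277711438601922020960360265366246190209413624594691550330923860734979379022791013416492505122571984260585784608183312016389170943540416055860899914152688237284729454053171729879849815297868124763432714861937615514711924047648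3845357946422602670242140000548227273823346684585346169595805188428903343131888411756170343148549033346309198987788710801530503460793786461526053487137821265649766602321646109107358758306028519425073653960884737459273220976666935886915718681045902587371219975606505080762672259506530147168731616641469505331651611877699158708372914159327324156194418537957026822316489239779538078963243310071673000627557239767040580412679939369560781437334184690010332023858238128049465827862749000515127945391684282823474825263129857437891397803438030951158568345613233965888861258777085233486996095495839432081960451035113471657027618472385259498018627398641418241148394833361567640889856013094469637698091996397513449808757481730562120979377073077889203176259990405147222949288190206660854056694780808883000740332891840101622745330169258262562851752116747102853957772193840169160190357282145205201508802707107351029856151568015795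2939278757091547325443049929092497477425216639578294519778533475398802927110984209848383136325101570066707572914048413981675618972518191038381566590952189349889935469434922549348533541303269391283157526505920256264796172442178202047691239058044118037224849817747987371537130502452881603632430859273809216769334543942951136615566630955578803482345898744737530150140386438570328771346800457188894243517910394311200835510799610189260424185413881434319900154426106585495208163671344838227088045741350877108145449658716657077613954691738538692793077200148369677076582770531651478562818764950216866936042921331552160168066743458969290842668729700519010581711132498441391343310603450507050885073628901381695767429654497179278661380818865747326480670148943514318015500772147732818047459992234613750318294123861376961035429055834324854177253038926922190688703140157972728790627874138326315083131295618974399869757402527307569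9967330206568458661965246381631397962990325826799332381429504853033209253160988950645983160185476440820498303354336461882160518928604549429721296592621068094733931821564334472008735660259358169603471724963263103616530607108936149384118494321610855841176591244329770765311904182106473319678893452983041580540658221293990840165891501322814841008960345847609275543045282025369143620139744617544913085573966310281718716833563914144073032861683039899762287952882615066439949950034018603259316043419607668402031660302934413820595411548363193291463090673239809443620204105608017961645663993466816686477300147221571385629766550842797402214402018650709026200644788103720097289513674743435388074093597861618997435152702681183726427905887752847117607478180745927251996388820945017333910238719607459944762696588785955763653469283851468414484476340175702358474146417694438090584484952330539974828707775018252237667013299809534181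3780292614357718691742973174745583307688711611691052550146733792918138814053184899467779565587214115546053451366329962191249055574856482889120349022919806850977936731227080433194960208420742513832446032585978068977217346162472289394134752016137766946677327885465097658876214654258284115919272004375594095753220292591420313364342917450081792245258951204972763798480483579830076262051189277455659533550098154755761009532662390595465780073168196853335189478492082475954712836295854502675434214915979353756725794973932655913958589292024554695188013536856239983867944086153453344637610471187723919635794291843604411777037356548984517061682382505386926056276875297549367806806009929382696871945241413374192695275885485585983493815652278339691449501901953165821039020714169947763147414115573023496804552666205431065000549700548311018814166289573641472039824100407444184275532996843785364681670506438746317297302246984700352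6051695071575559054492501244578063354795375313668992653280772011609786553060758154364701513494500325540866628139702679952393869814793820826145045184913502619832149390511361264147703769478289890762386251897058697829533067212380079307802157685890805763584567393242883627900156103054401401146973280184638557765970891088163111636335351775494142413607556175016903881298387350232181202934676097935272905171026968828257579415555864213756953545669285023936285119030423761003277917853420652810786880307829767993693701415723712904916996656435020307186414865654912739754995815118259831487070407520298362155501205918232005791372952147191307932337963819933995646125480378278513149815192652478081559529904300650973022168734635968987095794989857316056754886163476971730103336511629467777248579325885162282691893311987969064512150594205985193781952334758972883257422633872578410544318858402146461150116440387913278932057462353559543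64015679749696037565011076454362821202746205584921711822471336409155821563464478578008193533458151458912626030651197896882615097286905609699888585637478988586022536554096145550379399742167311507982630702920153337660057544908694751889298043314088122566500835102186183148044633399045648538018363776698443280994047570063618387285831591909728306321289573746365933731919806783132950111674571201035979132283650666528933405588068381322408676685068942068771608474489543787768308007670263725424640)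

noncomputable def rc10 : Nat := (nat_lit 434069223168829889392722321426681716545323128925526435246312552115867787009798965376358612946655285290292999956871328480971789536339282612471730687653606056376520051729161968707024156825238072691615622748453622513407712778561784152038684831812464720340569255943299443740985001744617664305059085896623374810266929194405971576085201550816224005002890528732355380697328973690976668326332705295528938235481997290035765764876446164722943638747695459343808875407026864618665397968101712540508917879006008223630886078887844911304229151793594313372944260709165681582342735672154164712664078410889758368827776286591015001460538025657895144283094611243728691718269130321580583855652605918576507894980321061977447278227514742080406465193914112048665664675035050777290257181952505576011550128612936029512882826902410522903165250849162890917517611143529200091179674373002383978097295648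4717076591284803474910528092823056315328442323468668199875430238274487233165904714584021042793819025119523997280130727805032151128494421389278761522690610561643125065806033698509829405181245702638003336682402373598901231662694008534814771684701445663123066780884696687969406034007519530821086319927961903002987069951044912043560767079280818047854362502738475019950446037589573423270000405378199699139968327117325226498890326466373348389114014454618171769142978489182204438197361851087339433127332938491869765232544102639978605103759599952248244091247998897806676171831302691162365940977401385589018462790720456519523314606643619298165185343434128363794290366917855207934215290148970507289579193463864634747471828966735644951261589110601530741292583412922989588712604687470102611361055852211157986615672358361995320378460646529287380681100144242983873012603796197803437149833740128484607245330694596692580404029724925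9931844742216757506259812410496211771908107510470023257942828049783053011255339504250129418867746875073404361411503540952758016322351261351515877792958731023634365332496767965200117249457140606677711297729408802585000537676923010330424159765921369928189542680557518034265176122837482671208118366725637910466569600874434416422600806784283399285853103455849916227581180004731196592190527749248135439749814106544303935079639928791104804230180345491906016952544600967631125063031804078395791239819593878072788946830228665018461283341859900441925225777175923712769384625225400694364322740166075153815750564345090900033298241546332820165136024193451141909003676201749976577900812043215807522168414213885106846064159011303235506753408257399742872784366334781792189631816277779698999041329852912293252783222907258589028008522007923504339806449128930661983000420292252592732397607127484813354506939945641598837530648692272648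2641543317482093010795716939672950777454395487964409192395771375100259347697825336397973233473072502804893445146925642803736496281960767194591977450952647782066601804713474361432119727867927361775998869668707765728164745138489158931651601567299315067844041907921418733610324896325167006801524736313452899550979100608841710658415821048743730600597588965447427052750335212371842968213555385319374220136196442367344171184707672677349258791035056018915643001085438013753476661978398742706842146878340319465357055618719735502929990786765267417397374284464420391744022295377478543907280509340589983617820873612521309664953828532143745894405893443855567083608390269717149865831081710925679467933790039732316771830413096838979039674357576909829786629477012356232724624111946040446307725481668848992199137751304573386835127104928480778740421025358485986744613727755228106470488595965840844435489737781355009577190230496185382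8848781343400620812317477460787334396068869181852035906358499362587004998427452701735121855642721764794062380243139562508898993116793032664294439516444488438355358247822133524232113220278813888392119122872498840715283078292143727747674148906014738249088723071807572471738909283177916674267539656471240839681903704239959278605488413293143070425954017290492624123653753256022455622718487935954807907081437052168294103810471172849605379936865155914207562896796242017084288607651243607728958006855452416483022113860329831822727928802391608212555019783986158875743567117317855732661377814298242976608985565221825306932289471830552513595580209435176385169733224351160244755496294843434153531931290499525880081358522189509562337985847184499780326115925214261283161894943012827009312333815790463919417813902040149564633276001644320350646715136549415690939421910410442863593889558842101608597272231251074948357015845427830695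4888406376409525541929748692829285373520173580608137593388165347478773708466293418661193982643905181123063925068170657499172674730695171694657851525957218827761385180563070347460128698458766199340001921576771724833777225862572300707247993835644760715821688390371183925863917150635377558667728830908351677759291487578206639403490682383936939862875237648031707223849053341553447066515868152580253441120461674778987557690712613991454804988153319699965774782633744400625986575636753267061936356471158755729063208562056716168019140192300039713459249057183088868159114367824346685062644589699128388769423544689158438643500426180892549980236031219522895521746856282891320228880609309890661312428626859748017328934081818671717483074894107802605020149349690248597442455974599455547294699355247036178426729354742505021083977282613185004716908533739698988971250563498054683625869489126403891865724812796812209701512488946529318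4424486755799944272772936358992233564610191068018063509013548088390126540431246788222288589426676099318537065670791184594024939822282771247670897114855367438044815671655673870426400448907064512107423428832726012394409008334554058660698738649344471446677180181921656108641448672285423942729472657926202340285262536540929809159108175862601799043651839219005684883128490312391858233066627070718940633015266668471161534732837917885534659377897393500383196515264936445679864136022097244613759040597185316656195189654565013743416447011802859458414489153867474409972638049366282226013248724775418758653910994285000887549351806604462732090578969054053932939362254519434871327177205183754855721473080213818157674765629739480388660178785250074570034138526543379565760456320881014327301720986978167578206928191240888629179802691806264733515965082631986309020950576238811553263033437294116079342347547574775853979502794737118856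8353362440759152146359227044854187650611642816678650440529880895972412721304300246727204477828340774565191325804805311635285659280881723918761003251615737012380007392422960321584712472961243204157538940124047020830365328702276212826814169123124870992041821037022441928807355713553738408018572381370931151791813349123367564790408758941665477761819941217792684543128259813503987088261225519417911285994589706771804008087558051625564925449511699384622318231522100286850489862956972981651248826988839599315232839081591302242711828168118296089585423353501916164556533629540699872438962165248099461032308259801268223801658139202324000788952069301726561761272193420319874950351497433825163650494329572455851917610965511349674878514525264407392246601557573649919229246152576155298518663645079156385753168489042506950547498040558385969151920458410150338492998563655195798731016532820997126135182173718488438754186717384592618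9841631460743448521476773396472633129282574031877803684550580919810443822824592846670638245238397839017291134274552984333386890803414594374202116265406680025211681201350414460269397017744194032958463580062808779650879676698058308842346850912421912940200778716725820807695074475930470977921691284852382518383857952775573443134102122443416895788506371391562083002558049460904824351775919673591565094428654240842556443412368055094491156633604711293633269629506569324728514975780808083080855265186971224463026938969926467674077900343226185333863297776144919459564322584271577938990917954142053129634553257806832848131651180992105470287577197957488175639950429686281886710842181688669103420166216160993295229160183933011730710107266795861144784810315174721888162018071018563174094849966729690834192325970238646537902822364657364891706855971201345145088298711038599473870331515293283600859329177925110103819559403534077467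005437057151515304060997245709521792462135522975739288431938338899842100492320076217146328031830107770546707258155700722614688531425535422139107817010953795400105834111217546202835678127046394017086956023053027333252175244104732671811519062989614776592721527284453825284223601063776252807623926827320313455763938122001816554872992716531258562578116385285440540763779127595000056079261634108382310066111216527068895744793081137307222240287882375833699168379159958345961114500143378929287168)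

noncomputable def rc11 : Nat := (nat_lit 441374568121862478361802514973914034938249643228754096015413888310492656070869968616223936108439187368261094884699577018970076939370903283308965281519114925688523214908624149221978458005759243211677927771066591445382031567257570795271367378167860224197540496876050173600539550947994142249011712725657609734606813977383962569725572434938275658934039183021206852922542701383166343161023397481746171963067557829990912458012208540565537890544787920203087996731267265079567677820283715708226447411347758144721930059770988830976732605241621159188901945083236592208173729696326288792607160556817171156940459302850270830045445693751107636336855089120348751173700139645138992536289141960405052262176769368423774898094033249533775086425751765293918296857964653133226046657709780051498295784983411626857284463483073232274983808127457372777333357763002937147861275975154901208075912917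4441467289028518875651191924964441347879593828288258390270786228605825373383237053675037306329998887637748729594573192569934439634235403795724262700386953492393683118658605486918318658886382550575857998096351078914805816160790596720901556754245703252536829749642936990261210505439015485944039124058833913993635722090857554831044991778970329595522177982426853381390753378009436217651312545751190005568623330972579813036450010957287672869645436401588665237172365358320309528606472963771958896707622111510980037473470697200189735414202316514733202977431171143815156014730697807707219720462650305571352298837260055366947212085591475475683583810912773352707883727421432558696680929514753631358352361668880909061645900585794057688071639629544433996806114130228568088425612023452839448996981965672631543901481332705789439792818728105095922072067511112502578919560640571768689724161975279091852684263208463922543153823858913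1020922836933700994622259654582327765969781229992662369182179145351451262143228445289445804163857578897747269956760041936002724799717830198454674778667241950576263464498049685642543095538603887746932477025086545684272761480356210350578391796575740502575707239233651641429290276299937554526020852287578595816822063632988956638410665817626818303842545288303382187113490447754843562518005943462948505349849452498471540616770660474120537150834830463241159839615777125550801810946884137920428886667518501681083374791387009816784153106028890436194605801245957761259777730281234486308237879441011380769783415364219169852561409159940173922031746517655768687652446438653669678995682540378208581440168371116205161604003161900386490865135707671206924257980454050069351716106667744285565379065892888632301997495626130287182719104971272259888247562034430492784295001642166279473950325234877717067563760624123870833034717672502219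0366509593856467213733055814699034999918528266781932787291995803095261323972692698495279513494759237743386172143804014178234339494976214054611603449253742939204108664841507820424568190373377079627320792932715565888075973721426952573163477470523208262896517672057580195361543118929348332679221649988248889333252437668382663115916296026830900144603794586655893590371189878024865502969773940402572769800921956389942871757522456018833302264057110179456758673001203663173771943761345019779775468367058947009846050639305204121970824708976726486155095544736095846849567522254201604696442626730934035806072405703058561301285887622490156835243657272584474277437805314060980289947586653265267649387564376054775535694131783079151018977012632157906825578339425213889633299975198572907838423023783219687037260002833253834977078315338414399429286470696986466124018494617728126223556922423999364210049291723160390220409988953616287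7587575147950465961716483757688679763292113153428234263731592371702144723296962854035380830759514456138115020299855444127165748560325143014941328195298647273942290172702034658941534790732820972969377511348185930172262892737464004943938573051918619293987141843791584887685151074928640580929346770131302093134659988660308186274042631515977563854683239369955314785964932740905959533987041764346492276507711006857465983701270879792006329212781884205822815830559257417673872253589820274951950556208048338344668959916007794184209396262702956556165848561015257637471073856481055201441272836972822545281259524685171516908265388291997778247840770221105337394204184302876353614596406322648310942252837471771363141920858033089191579858632657417837705174991731961094360577907140630060920101397552334009928929374566195374676492675832965237361417469148131860707000559505064149287041389379005627743070142626251555944851531006617130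6585191059554339900430165538938304611086991331202690407504202014597622728146639514439188164729549422021891502994168045115626571433738056006189160858039340497797879661312222818414114831061234700607494738484955208642340617792221709359585119635459659098357778730741154103486838922128974048898502970325387425497945761199621916065016976578506971815782918289966807362028030596491031603797316430770447654603332498618807906180422520033772138940824402449861296846344728824008927513320339087295615351034622651990830996826674881935127807360547644782325240170645350817392244148190230594415603529674024628342802959418351552499258420217501896062123556767759807385966270528066951412032745432630061936560332071035612783238621438248860616383885570985693859656051592274953552316041840425144139077544907800137920079707014134011865025807307306450056288817675100550163433644191477040740348669298527080183700951301758724434615090435852686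1701785654245328178424543111662984972803556732757687883028413310917557588586877481471290014281620253808687504455307651357549033417278152388039358299775043801614441654306655173179153509374187083885179455464404344821765704364478841067732745013863751704413930202312890879282514018401249752106119908076305255050548891581538278836371068447268707132957883346288674620057766871437292494727246690987448571580334251072742147536869169838008501088776032731647589863130917597454045528280439707541113386310208042504657329942385210296903894561569301102069232506319527031483845326622546105799291144718424591896479834854787290609483891125493303334377996895879277972481663617906782557969798897448394826640698177938088458506774246541975657479507852234685012466874843820705908492592385319336626540176880595735228999226985018589377923638709306237959566317263522554495642033291929925312929161204641342497112837809797449589456476001470408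7760839549400055473357595759501349153410594990598771863274021397228151146364889303822071925735456812633133405991687130423658650861417581621969350215461549724490652225493937691478080090280919035955779195797549315868191643750086370685392394656213730449605806767283173874888298926400532378710784171801656599286078767140467371370980751081855325310773005032496163326442245645943391533687431547450359062256397779855680307394087966098049053065738287524182817891229764865109846048935268801434567064046770159004882018255680904694112559346457993730997819886978914125695049989690631393951404043297230968935544099104167335846054406095052637016230478681678245636248233204793303526786239145214824747632146728680449599281137715515399926296937963239719125034196755527814450336596940099703540417955999933193399846756862525446207147053488339890040357319758716176453300292208096763634457422257992528966412578581910120727258873833977604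1323010770545294271391562529338943945090804557823929141783584163662827319642741819318906053468948006621456778036432686932908142553454417641852759234831932121788395282247997502639038781259382174494290146257883094692518667223437009767017225207697899827278974669661593409042572604732756549565944456719041439644420669278056302228839803366328411450443413066393181138970581156344359915971354512817001814768115991412705777617364094861144361275386144368803113193139887314204898210931119632800338966236935452761160771413310919838050571586738586152280519829328667477806846591731246804375303983239771920822688736306183027905786786037133387437440292537079570403329411874287154831357924142177182106751589438645818317917580867220915973488999960156958728581220522919316544134806296702718341966152231037354576414736825956344056890342165934736745102541170588172956064790066723791162493043772629975458225605995656951894221580046492967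516635725197693480749610387347061360019678994037398466777173708609284995452764635667952016187657746194795757108213356109225662394830632304969761498128463322926674881979921778233291324984987887046840857823323306365198738249050714401624047600659030986098847566429367280982011991431348525332005077399454038491652752819159922513589227003552652213120390756149685396704353260032626027222960115007153112858813420743936398514300049039853734348500724382315770541323882532946898526878230074695352320)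

noncomputable def rc12 : Nat := (nat_lit 448485111064049809956897055424571973572250356562216651813267595508869108037627809181978431314924606184986502141830963281265812392050427016036802775734073671373448297999751459812348448798299981188563366556457477363199942307183467221779086375665352045365446167838044185088919992926217980973008745849567152461531458945271787644689339563708343434944127291195626435773672617462866553320955528674209280860892380892854361534369009124201760928762640571815187099621326949420835675345783288593836249804464446323966482164626682424552389749478694472049883189391532554473139288258493038351527727978499417994699352145579201771027082676563895503590819053062989340083358777804953117066520290143345275867126722838774792202635501437902713143411032228286679016330949725135368279082665304001871037885376280595264062182657298746911299133759501330791214261053811115748962598614469140454762750164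2079319497246151115980744986882840198933224772519798667374281518502466207603663130063354764460296939001666325826887780527511668276269169715602784113656042970279373560735698161942018812231954610603623434902592146811307039977267165219239349559896301836764045377777848401012004107807050378362811361691537715801745896638373952518253968665037481386578316721342092286676357788069230063723294949519256461458767353301780820315719947651541795194721510625857176557662627215900651667064724010788143201270855980342121713065922570915615279761476994239190443585852792239744794048127547758955924657598643679373732846638836057279020497937265216308256146326542318726949963755757313096416900328994786366989759503523191549722218859430210550499283465529759374334103545286739524197069258384931387043840917902033403810308740555260172446842335597417678501090857212506840495735876556094558225460221340266092941537855780406591847940199148196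8692414186439050431329611949229721065328146990686342305813768851497902576466125733592263497402532443401862250650055745418390077841453806270067008424027901211041086916409161810535575654521929503839183428369529855657304382230152068826893948885245569737253030660929609199767434902323736965423218788329224835050481005848239818140764892518795071295173536850937370063156975076062263767947927511803253928100185867599085384761375180476727083418880994014616284086521954639981080003589805109777155001388682365560228218490714054151397866780249935058020196286151958380731727311085016622146134198270235989668790523168417688829160587342488350238142409851812802624522366696748460083299825355373382020901544662478488139441144292051635752996407288858773008704106739250324660236098063168795114192519243598215722607773557304547480321740072654876558403050833427920977387628989046991608624637243275889770047705661851810927130365154942747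7443829167598067593337830567139236567913568107625000047156338894814671761236080166414296360329091327360753739707868010400940303693897825042575334439334521122142588301422670399083435790389922605358449212579599970890840773518818950425128198964770105506696394720334233226907946420964963300766812133428882024557763751809407505263540232804637307243325512935893839406033329961332876431964628314107937259491511200718821292647928658306611361158709054403323611737103039559287946414362899593218403760058731314278996813770305838872841106538286315319916591561831958490564405294500568336550193563434296000494999145074162185284733108444591159222639458469690127682846741832766170112860473070802704923637378993046838331874206091573657667896099758672676796192275290302915010903400773314804927468082665855159026864785672334205609521650500056777332180964888278541885163240625518359975798974699756119636592597744948047670390452521996321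3020231230655704880069799194128991465847008290463044374577422118646315922184606444368847490041913359925607022414045957865618317707238670362834816322173894685403679155156191844363960829560037658474737263826396898398318469330483606856764450741716055352811893646577876611185941586108790875508738489153245219432820382827742159541953683780916686047510913008341548329881406037808905673416667320656543292253119226370032474873166018274269820330764835479886830138881341854920749318069166817845591223686079178399717481281318140209935665714419962047046086422022171915298552338882506364127118045317338019750020507196016987327089291091147561514066349822833078992924664587749091320201404738846807679021317173446758380217917915820483657410674935793498678637629577351047785561886670432693131973274582700937939830917433970469742986047906038946586222775033628198909412397939884859264427515063307565997356527514003609544919072815957577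0217066739810963616234690280780966751841336210857973186303413900031133104533993485104803152535267387370316432940633560699276767919271790041820632639929436042807506368413646822993868607486888625634506961001660459016536425667253687320777902674776758927643090357459273619935675174438727046492382434747607673733884494558399302424216792691876871510386772822981330841577764474429386869247689805001333192411070267765276717815819104660175812490221381487354673150005921611607538557078204157670336627211543280311326293732892812171323955813178101254879129846364752877827358284869007581374612179893649311246141923773338083121203539898545430811957429258398215094236405795822052767447959384097666092170064516892438359034256705045532980470628575266907940234247421610210904741047327986454124536105519798212254087174928299523106507712144557207442621817043485542476072265260235571006151183983179872398977215566561461297072719052564600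0999241248212311354840898297163296701875505060469838778138268947296386339910727951252954694625685258806156468343652072394635128205321806700777402163852385618865930037369734537006868268736212927957590584838062553434006991601277854541794908286255163984592675816627668177958584877948305318126875300566203170170142364249025062750887600773025839611816864797206148094514384884982797689629419972601709013340304145992261565407492010754855183827125302967320077518791499535569072888372317671094320399389311673587330342898070636732971064017711590320306009510915718700050319648658049494226954247184690330571232802670849121992925123399417518551913355148205152376951141544984189225468600280164181151415581282741379829034875398896735061692915424659714291661277678987124353282835606124099547279464182850662749314936565471863323815849566929074594535465259538685496817211604698080374319966425933282709217615163075793986938431007249184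5421981990913669159445287583099584474229903597008581461556260316060357715605352093171471600823723009940677648913242796151338196055226424038556122285791310499899133546013669824276952095159827496498792748009690537830581018960050866950320647377665679291016005148570805145664971690165133468947180986927150810681277356813144217428259459588112121834490761771698109028703066601186162067638790233614718878288126178245227893571033834613535018612251230612058617528818292017443369982410207948211334809432381698992372964424861207438770063440408321157519408594922342697532984737935780897664296243645594849896420906504891449179722342231658916835455177056585898918587386088677471694803638284206711203242303090637601614742989702472570593717327977311407176232806858503177411134073025376488799443044445477490827442700892566697982058198769940208404831344114399602487097740586920966616865718463985178103776514465528912504976260978297878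5909931118439050912464425943056295252339730292864241920797586258270715848874388272470573082344833222910727195504088449197297224805172356339206985572011573151625249729054856795274576108809175891256418678237672109197855667649707735921541454772215378402979199054696537975797047136423742908640169029064972239248450817875889821081125604796243139598291711775118095472342832096748369538257456189635360350137911610979880686709285120410167905420951919893217824625185837714213045769193369396527325926277409899575904879872728206268248864459205566056991672727504952551398694639954830135951343548197018570387630342209371509341013905243246476001995008333410279776553234862680498633362031277129284786396652656731170112300224063648278504116015886958204909405729859655762935355427506768093109955024347426050852255982036095747124922034263114308657849451257818579611251286192732803599817930336205902648908411632433496579932993261547404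695524131788992675986114706545192002458394945576676222953174316368373686334644659768416553042809043001861195763373708195040945017979243806601308127196123354382726364699278416159302100194073503293945270155305374080441534407024327562107969303986837135794845029719150404247104408795158342051453224922127435158530153705434725844054576964484279997892454838422473810039298949230327735700016691358497018523042522609558932497567146967722867702471260876541932983474603213025801147663626867922960384)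

noncomputable def rc13 : Nat := (nat_lit 455387273364639551350878774223160406717543503934485352073599903477782700903807248799863391294581753735829320745634452632324425430251551402191785052451829841320592075116925436157252364958712183021159823456762326128212983692958075474645257536425921794568019378519145285977116675624289657833098681980175500734658072762370292587773403059973046014564847489110824614014310633217016322738944122252575619091771462538813193431463172078756603981714709271668412136279218386140597599594311492500548794637372661722008562714833517848611435952741670197991212651164278568593192769477078161693035003544339225783070686788775631905655391308742260707871351951600543834196116388708827476207968697249522196281395280986856188241550441919510671666468367755479706964684679672370603144604642632954437578174456784777033829976163877474484480045857090764153965407878337072289761700368302938209233976930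7138837919536366778444307839032771361590323133175556316421548567188614992785200599648930376929905110157883764919841606656129718221401172066825769919854175912939865521603857348817685372889156732885110593559096614165001300197554429361025167876393997373828119637021656352952183588528196550629996236428306800095721352522172721200638907108209913870720910482150403776219774971568206186952318070321129891549288345357788990910911237432125747501473827184722728287977990332169128091191064752077971215884645800061424789222847168098057683153745030776350275505150871648373064438838894318890627273322770911282390985247861814171974736677586671768103839438754577669068967582451844814134452309699779850960198659486765516535233000181992600018043844136103466578857121772674983313003885844211004168222204549047478170853063508505510727782054580361645766706672675677346551335009497338207465332769106002734690664548128242377868182260370061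2616903453367074136232076105333176512032440844525446362607712527133814470556281430198016848699228352948819750233567320980317868890275986414073829780568950242956880354301860898132109131650513309391110037463193695983246561451103259210357962177565167658077908156864572337613984836017472804686091887245657578492202208262059869110971656318963658581269541384389849535706804885202405396202906520200580916527127959881755405576306315478886212145341561677742923920307139500108813845226284382701650590559944461454184611263286192753070338617888236253984195458834634953389842013025406568273846531537614026822114461073742062586162405567991541061549152625659872504516923448543157132711248935279041430379277303991945083954388030385359756417938742787795095934754336721463135485013252893106782274560259059562007984062125244177601761526391633299351010551530554103816912848937219746093805964974568960922130257517131578822438323487613839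2024327002573467605419129435582074316134244118198364827157697588403795971874354415234062017435307285023999700301020101194466674767439081632469149717914155559907315570002547135003095910089853388867566311403568365404012692321650174035038239836672642683950857511566443033724418729690083492150419702249263490794657677075080756426144735286082837626515633378626520308353283807131153429056159557173433572835416842601658738871104086456950757885480445403504816252525992396766153997757236662351759866734302558632393021674998235936155135327101642418943872625677227273628951020291455073417546660755388270328673159481001713952641408776771308348587724353907564864148043715718824241673737010532611497600941409327776382307665294232879705178777564775035059860182940893778934814181380199812267254201449003424659206998893254923710623647617257436098158592645479132244271213334771822126554759740564441571603618600062881358605606119529911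3170685242787772396031717938252984154601788613643875522430131519072898642333070953297131009897123050376553304404388229154865486009698197808197983455590171507002376647146346814210274596665984977072704980953734668634251727992450789408173095795406502684367299844060576724309848921741324258741009939009215303829717428943299765357276859004896529694340302147252176821406375264671209460893117960697792252027759804879673448438130784363033017269347440241582149404959962697857180183892681920023161564573561576922295854675081985198955827696708384680416668532504998416197495230258950181968270320181301999991626211763553958140356769570982951545021975049058116155454733900715875623125567192514584301553481291175529236992098010005468233572045859404764141578007946340134859476293663766747688801845355609952045287707083212267953708543120564912600568989427670281318619928502880526887066712380059197719344616049711833694509959485742988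3001925740685083697190634801867531738016907911497550573522355664586312625633559486195037778420553388181897292250575795146706677743748659144018473717176224891682861627712187088712093425898176786932554755855271389500303574687943478917000027823356542178345620407044846426844621786684167196657209119900570640793698439810017752774673419115420938080291674758777453649076084045789531624456519869020172944446819224111086364618318499154151619989090639857462556755700073586173824757762068833347780420110527008220845685214444108662053445719557121544149676293597233978432602210419893385988174114910532716505403183031584817579586633893821043780955550013317491383745589672907121736094578197220507338110483467527401690304852621847822573937911138749223572518737782214610878539970146094540146551149806484393617150446195272079407124554874943337304605863195553533212760711211531660920201482685755597236991010511362800397440911749600601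8339460799481986138881037834770007392589220669354652895616905049251180365219010583650540813256446516960305723029121611829005441379624174385134967978987631487072672848019737211318243194425613749528473956795886755452468604878058909720106239355566281640952273663877239473900135666647758184450928499888289265984547864663650106997220581114636892647120202249479100187059406019984304589474322930413842343182878467706543856787265082947099298157641312841401399693569587356626721809112347573241186005645477879250624364876696861022884364995854422040511448633793148297115497195783741248138170233131416607251892424021714416018139890765244686236549756232464662642548101847295084454761611419420534538276162803437101788921658831025551017215578378734662170086120689345874737914722205662458116273424382670548575770447790425333130063855530220006090857221486401427815574977361552051167326401529458285358482309420515965542816531338562817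3599206719442170178644693102402791247935796440655274117614233142266127777960500400872986305436089580400190192716203564754910417560193818639089578887802806581225793861785209487454528288146217629683645053218608903627061824549065627933613127929232374274636582657184673841475944767812968937807395200949625489228023504892048923393003745054495629395458037562991699953428695579787109883385602299079081352883243215189267043284753667244357917548932992653453103531787273703741836630137228992277447914882996812630587274586044879583781434287273053485787810416753295587030423266561592733091819343919774373759266282988174692622435522814229106891791296974107018229070298170414054157744915476267518289571041259482078627056153341003902749387755849898123860656103824121096053808650625580041868708433482343464346250745522325426465738793886253024408185251700678979025399437387998988627843574278831460986727125907982917747260628618348174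3037932301829562979512756262859343153472608103333681285823357862015159773624134562780267824177409661047622457495201420311945017376207243976455723485321254661630244838831103794375337520406155681258769046373965966717471225709642829198923125082935510823714679058111871148903560186518789337459772101324311444964989160783497801843167491300426279767164805767152413479649972332941757338292052679197256083557429395540720399356013204804948518014976651025263350770422603996615269547907058593758317025503363081547707492657353775348295061475331999467269063495717674273029331332484940021975375999951885240510004013491844304524595503426172428945348288057110870946138605764961485912461934915699886206361195059997791230862341927549043401047506734564674420268906766380354373524052097490365487850548596586262552362377708568172036354373136861630228371915669747274929041113922068794377898871568930302364970608695209437407131472782791789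049198131174965489571470262228157367547085604613415925561223388429591208658987167420840868801800749768301289789200447391314056419201781115271005680403981789197915513498032149393060266109175068612545200937737922722849346377072396535499011048144849869712968031841137889642243562678045932805446718973169703529755964259954580684124660164331462831981441034392692138495072322620841916152127812371547311852889836846895084988957689006045592634528892168255603582864287030043315153564942118357565440)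

noncomputable def rc14 : Nat := (nat_lit 462070709991825052847386182143822532087471558663710538407435186847714412798045246052241606757269237235030831820502314677678945005385261229481453862540465230396953116501232554345164237496646247342236558604168706447734211943409718312463993939820199853764530411128057851649158102705743424066734999029455949914095818930710512167176290344523612516965122904724513915744681371350876041988469131008605737639738106995446324997401528043298602397417243562621991503781178984123403956891117154351358426660117568221639220994970055823138698854805934549973714513991707271957396466623112995388782220984091415130272760595247141526260442022564150508628399350951904175955071575452356295263709141135431973548220008470763027450132016776384815738971643722401348601346643616837231909364714897615962286812984792444836875078754521268174935089368168255450206001061371356151563056181993743703639971581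3816860155520406805896969194981672146101656010701379004455087919990928444164952990588868638780499088808933039187601754502065808569698752716156721674756836168744486539244971860323212399475818651433116717661948903394624510944199555302518048288650751212653558637362616085701303692902366127931767377471767566720732750263317207744198406518064299768557439405356077266620028134478923309804111925334702228654704598302829918830009908926793906963883211115386279477940210638176571709777763031487973284749857738491144049239602927098969543366406224250809564943914533710305766790088259252441938100013312786385565783335802087784024995322397507785248808069696132108403196084852770967078014338188746538377853356369559662117425640853860218251524936538321511604786343457932745970188526966191051015677855364487567634703459214550880488424907712281797834526279311776483697686165405490301351138863345211532434044746913124509447718344250129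2023861660668328707040558418006128619247354197035913177830693952806527163319871262497187372197345093568463413518758276011090493566880139633271887977209717587162317295394890619127027979357426440384020895984483682168620914974633781152571736540963757198536162113990050860585934477182758019525199278412791730941590595663621485488698621063638162704021196464390906709777618661033905043647284023087388651083628041720859811172654194630007279096777239555743534284071813962238896745051640364257311040843309753338175376943490110396336535115755802062620490045813606791423269689003381222436381760683458067472497305014357650207427631492278360962457289468751689643344085981761801509096687984962941152478371830922019095524124025038145121389584383708658481705281983775951699230475961482509821042945085466645430625284092516298493238867854747800454231429340726883883943251194337210185277907840750045262160582367741182803147857222593254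8713379243409596646301685738833909570416596143648536516300155899333370399477060561296795253610553235974797391307415598880997722180732141104730504798157304650737984853679042070648314776840272681603145604307221427277242689515189085159374773230698224436068207673712785786384735726379690732215488377229006822392621401231650789387164222599693220686882834152632311232344991179966119933057008858163415133831045683159079593115793192386993829127206173298964347745031026676709291403741011288501852823702210660598132296194355522432446451101656551091027340664335813212521371452244686798822628426293578093301291264957354301991367032779990448000033208255948796403009452708869550059742657710952223786716890805036639416619165403050843657163889352293056360977818983779581219330106144117308535029264044665945982562821315371994425272763480234275341266809231193757305217669532346463765020846767355637631662927154301076272584639310247616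9778004064408816999863407718489390757068053636034682212685968758707783594101408257553217150413440263156577477879409125508979832686915985178114665234953839065052150425971522220140402858581616962832517434739577664434893471246471775982647996996218113312265586122283088814683523265656390905083892661652686423494503518594849237815205017780573622804315503433451461101722744147801021271171822862870775560496900024161760885312289712625100599048463109712985549216140304350805971346044105689653504356932669931149004774002413091908927515475524009103694529161813921753938449968823029054594437886763330651881825674521859023601933448408387741889049017788559211744568900618883140632211088182510155585076634172935266630518116038499443541010501909942437373784277170831421357804934332615117354362982958299458148884185272942698982889649817833408997849707320880898025871390677875523784475726926070991151635015228885320478808662468157609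2309061170174199459799405380990755845154817397454972238161133317960091673399472254609628519532575090062030445783359943479690986692926554960097917548789220563007562924784247510844591010597138026009344819634720815221391284609557283539987520506976368227719250898348119973381604884564894847800963414299295168390473203178439407424249434280421445641613487305455922486226593163205039197340077092103884896472210647740183804910704457901081165102011438859328703080105321373899857469862826533503743488399747502515716810872589420840531267603239693707061520147681889865628070581912295984550337223982679482561056255361640120504391722733049302445790764208395876851955173155606804984830598148475213177112422246664809888025601966637725733774265819949116207035978573406635297778178680427003630737708838872070875577290859282963009336336737214249977338827417422245858820371544415446571272202305609836528061111526237480201202076779461521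9290395324583018648225295947562102816904394784670924388281065458443808212849345834618925459829278052094256511633632705051747746977946168332546569256092759662397391308175199843653333510088290923463445861365263169747479317503480898890621128309656956497193819875707521626700921074869847262344941344776954778182548244575760009010438874260977923596266147334745250557676582944005289051671506286016813952418354576376226883480962811656412458500459286971210694150085310261085990594419701961139437966081476734808874133206862258819538369798196944104650167533752013135045039357331661233672543821303849538985140438975641344288971585032107801275529757709495202263134540857771614812832529070624899853356564719684815085009112824646512008491634800449813436364871774617460600844046086570425504364056670515334612678512685788514603032087414338351399544191021881937013669963746433962840002184039859184683076855410772399330201526938188440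5193905906570972094077803249776448584080944726390657867053572657819504480439713923376002672381354145993406141643299109785483271612254498582934392803126216462579795391225693987145685825093016290031936540694854281183656293402278985798147880351015137142096467604209411935626855890245359605442815063404276912554662090682166209816214856980275822772255917792368774368725369791351936630809245925792912445704901159767394838801655356270283502163294575088102627317619555614385028966052934120966304716858737507689400012276705961746968160497509529574039039779256448573067411835021219234101421148059553609581497955365394461496936517141584500604970293251090513056348640165154552151659071804552631715373279230365472754927753208982202054144471255885798877942272962639957123533919792709937499356146231622028069518120069234039094388142296886953112038255347572579172321427671722250782886877402112244769868977913210082139147090960885074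9101550574119736350186816239142599242059818635962408121970441958301782739752662317102287225433511727377119546495342881461673196210968481421330615524182508340109183832919854118639934355748212213338003846864625277905337021395067183812536359858407103976133788211263013567618020721975520774451066412549728452773220537805577011891989542568795639800117545788668979882663858208150108638032728585408098740135665148356656448532538599157321575086048235270635225472130420791571546140331899775611281417722410632113798951271010339799807421230965203968314569933902222878673742595175925624613431888862225602672777872979670182663031477490332065644342591257772441043262711318889201759478984266330892764143817422715431314559510161168213630265855547521600493917950101868478168801034091838712246821836618623322194754004056749490737945328932436193676548758175341810084584447436279545786492536829120245947556670843922673577195143172741434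136378566716087218246702762526129558959449288261303230520043511347308306782312178866129850677172044473323373895798995876554271905444185728000355153186408420971824790572592715761625545719703308772987140052803127058801546608070495427462944072416504006515730514675316458994589509050038131968584612863609983308337405364521614645917661609692591536530422584237939795303536802774454433304678474444988147728492681962993109390756813851080702594859034513653390035499690475240875050611325997477265408)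

noncomputable def rc15 : Nat := (nat_lit 468527684917266397851476875533311974588608608900942252568306337424425623280451678443942661330647525715865763167791402907991405418932477930606680218716055962796465703699552170189643825969517805874431094538857947563372528705458757512625450525576258642888740463020662887003959260792648698387375881766658881670929919511662678296750914588745994672102330509757311173560434064660883498633986716952110668614350923133083365711483741307649599183315556407522517784321223814123685927208114232647380239342116499973560737616367342502426569715168386377250569219853067608423681648475383923975112609108850432959848174399224972260472451564110143324838518258209539484804076595490797883015127082250401137289114368686234429301774146457224341531980778570093134707179231773510010139881632940436668234872866094469693081016948566697842025915661749830746785547956642119831237070089360555265573080821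6481693195973936329136129344006862271944825675061409986578053017529804192860355381101787678615870916882498849796771568154728947811057275056628930153404727248588506876314660932336294491862048036973133391448601120289976745056613676204404677309951727704200452045530758046218097237745242126957879227868321755008819919906545540855931279688588324745331723861951377192781622064683348419391105911932686008435660096949271892720898188445585387576069481936374188014902690820422136364469516707520638076035329744078576680429507958962771088084444359072073235614143224313209785555218150434630182422570859799879051075980103471926417434317586560789931799738505291785856975544773302511530481893219456324178353757488027899840932955664229020850219097405911774358984967841510804537330946264264697647971677937027858120931289452112223286153533425863721136396843923852487513887934973872528576877488635373809971311340872046298809002101636866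0019920472919811471008542416747490286185214172034137706956579045018610674800498394807968780164699016254222571364655124449746161776438631428411863773173380108068990497883692433558345271296411754456976351017237686007113049448959487656491996333603726408729239295799091675426141125965929968579882069391020934306658304272231432747032264505949290074141674676785161975565076298337919758374064234123995461276772452781334381611397360563549584138341670528808238483983488006098975716785652356603070860640485322650804445464519972185415276535939231836162005173151835268844781150312121197022994448616216157398571193381309224437198512168019899527136858501484623289436754131753458969550264713752902867519964105534629407942627842801539501777959489129742477940051068923777357940161140422493863680810328577034161162431696974995150553492161537278261350050536240173588552996762756345400513877660293865955988516677084183941182933856380580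3062943815308892159381681606799261569620975643402260944620949557292377824836827660156350170821599562441185553069148076269426434882708674394441556743657284801068947480684381701033423061921066544174383463366071922598161827975853775060279137279126777034449491259717375648429448991792729293431254396541603292669958344561438201552733973443974702309221129264843583238473969852464053976846979778528417552150359843212206677315996908697067153531764171460970348336431794031676154404420822458522421639216328888342892235877125778226745033662265787848614255336122844905907385591455587945549246446870046516280254356446990569068902578531409915334237523016679524744237191462079266664885340789593759460902938789825747028046089238382584397307084242125605014972995005713763503517650961057659782126327497581109394385895394169644360946361588743946977996371246120437425106245328800280082816007779154361227569810970062118806963508046001186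6996213711647225190359074419569141972692942937885650809079788707081247047287104159482492224142246940329373644880514018020484644040810250225757268193577146427387701026905791300607715802758790904730099216977634257768330441710954058895563952084125872510163346415954867510260443142196071825246160663148471630061539766516990895708610004835162132041895504372786936496288887181830173180199727053670621544563455687220560815019062105235351518556233904155635042295773048344675947855450272352400970934206030895657875465702463032032790117291732345991944626737120481844282480525384930466183564502995742998775670129034407448158683409420181574857107561567358062821146730580658457308709045583237231187900314012322670420202995883092053070408400970073546317018055665545511309994383960417689470705978553494981671022706038864860912519018091172642091325370462620977154280306023193145691964122433481184878150131323954395622538291185211152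4426148196204266303517311669136886205328721864896041934079607912624966500295431545810613223310352912028251577181100252072136158054447253216667923382331015629268464292305482689363652526738726487251257561891403113262746573102586464382259920343251416546998748607455502686701599465714697510040465234175607694068162004467212188732391242358352066554049137784322441707709644082882512156246835949972382170083040039922018532245937101415773048050296788049159562209443069457063978924914445280930745341467632929021016666250159859412832102888870865291302924534210567330038047397775515250985458222358437195285393497701885868189825910801296519086792843627629970865445871809476400525022946778342121256195499044380366166799151075613188458307140154007543309305948225142071672235638015789762563043367328702071828891591097685228895510645472334133860182749938605101592415586363130662557437887863308764020127341708904583143509721760550729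9988830153971351616751818638769915784757796844295215321571947812433047111114338680681928728685305124306540277417054000233049661540682438798602870176009209690260741631381102394579597420237109256702819009432510264375968216962432511087384064021745871629127798519555260892643355747590264608653742949851063954221285541903843673902992313049473766598217281938148985396325394707243489709869204443549834973111159257219170631762556942463878942678112672897521969530593856326905416111139930912540906989643473203283039488553773212810422655709101190705717248308430073160384356764837077923980892389803266114281989506380208653077070616785089653043286100580975363696174066443497936546963460726102370116746985211216899210278717855118599804659828042035563627474876244827477494548586047916066411506922899156584905645359752284793822106557931934029052120792616419744465703662427385341079602752491902065124899591033828676773391906842099393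8335028089545432688270347016824985571136794502258247650779512703506276085944630828404740243587298939341554569977157129661728692888255327811665285232300559339328804931995397973263386105653140194350032310363095522992194546175746367732192401901732676171694236342849539327786789530024773987057256986276603681167014341869506953902396367910817629379792644958883809090885483621107949055119228047293911467808578716673370738560556483760696485329068075968986850882596029650390239634394853233716461643137309170176162064511899483853018662576392341255517132862361388641041898128635881080179286432675539410170521582514765460835593432644127661899392067802688537056008071055031009945152524328729729230795149550693793800571835685761518030486948894668021145172138151901275688685611127692910940438419919665350714482500340323158914114344013276728369675597494595341888240496062471027790471089608750851025393457634049839227694345469041418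2060705836246945879902599603964286277063887010202495914307958497982252645997945789895608147453568684327236260376098683377569427039022868947946207730495595571637412413512351187343824358716013691810168528190612679380300531720853030821170415166487284738530515103658919096860582976566983652730196988010882624445955461428776446498461288144413644976077456476185889359835321128023886532287591588625479985341911418546514687313051796560537001114559973972826721474075890732555924822965943731775063111658611887373097158320988465832789590677164310126274864206182490097429749488495326191040733925692299682298565478151619812049753562489636983596446728000221482815836793085203451316441713685301863983232246993521225722113541435072295858618968576047665023604418953144269692305061133830417420410829406172760680329483773493842829697339244009971470869482643512380240376070337092402807064890433844380314286399381908504855745698459768107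835429328231925179157074353432440877944915331057172601158951795603656385900184148866809657947399226372001608539317892311798931043910448671758520855734971669590886955804671730490621856715976607650350724173062434843192038539146702424617296527508227044436908983639918139240858377482948229659157553775064368025998004403532508549777499061451947346924204550663559472354070563588240638394623727294132229966033427450098603066361755122255886473514056061172702395503685663411988401458976345869516800)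

noncomputable def rc16 : Nat := (nat_lit 470628745093977733127014752280128708066082527003099348481757874240014132893173148257960456440540801111306582412563629485430138912314246780902313856870638737043122069410372379411210325864668380906186254967085258780418006601505057994383429905701986336342198687590621233296986771332859708517996170496523070744588799842011542783152898966816065829682826670219585987913875912123210126542236293346759702966159253451681554546451524982213105973265547298522790370618036671893334959746391090511286929722845584683260649581452760458288552195266257801423562462434838083839718118978963984435647376455801864819935409687408213829165294778093035780717215157001134763857940580087485097069355566298253671038554098535428176525492914055781419126120577030660444945901422623424010203206106129195214152385997363965197140659947152528069625541237051590846659893572597483275005276859236022320071073586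1146016713466440041984853039760566083696390271482648982256160947088495712211952855815492807016967663048040857728006235448920444500126984555546262116348185518675328107991897499423838522049090689686729943054295366319247330453789219355134604260035703691318748801506231853541694575652486885623166878796919282091576917999919562658160268327401907465580769260960401011413950981055782891877653874512796083326949350981120242693526306438011084759399532430716765981933000533114974856263660717826319097692192742417320086825003285998705845341093169954263377623257738917975823317006874926621351508301621901700766665726503332219465961846913625890524136245690047717420964969524343072207611994061689872913909398543564634701603776664389018686779380378990623914289478512645398590222524770846000002569912837048171574584866347790657022383842416579245038685150467610816884957393449025440313995542650767459127252624651773270780799728712872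0465384240408018551035063751493350293905990609306627033002455974438706601481431534081332098978484352603270482393061004304236180948648638481816809157363682952852815574379028333185550171381343292205616729676392941167247424020198710396363996507606726468281594551638750697432044789389194937369394005008372581947398115793336790907661795228705271021171164181230732183314511549141091324482548863582479227220429049865312645546228179089569636591522233904425624533816743063569928845713074875786304913844893749437733981906426780855165328766872080590185739195047361158809626749744646832870751328885653611107097894027266395665029599216683678968126198984474347573621958378679201213104012424563002663929331023491370130279337218452421187900486993907765577959711310891295521574558583559067111636211843911192367613344536950969717046091954545500512462228726291505029336999044496072349823730690260156320708445705904818112810250094934794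4523904271130051669321464336052201559084894110699077498671286089805980697727646605059765782546495400756617354241553398367734783757669108367448483423144334986267408709488092133809740196440892887313208582243618058079281510378667018018149896274436876351230975088369892179107550266437375563228402534729500506802694070867081974271816507319200216449543913821092860793308088287423340467316590618242678235564064627996950747176816996122693719332095333109424073268172332758568991019665592593866218025355632809620243819544721149399362944828321115086541025885415084137010359295797295354642972475101604431237628381348922550023308808119023033576267260018619152503517723448560774467286556594799352654914203181165188353132306966148395890937562112894096198344623597851163942064946066804358904462899867093629511048288089444091093264056719222747359837735776400175764724582985227094222144266278198745362226186633299926268159650955570278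9465528150256941092727119166643315262152994951170677208031515827894227070733626820489635867115848713390938483173472659384070601932835856259081302553948789655697241734507285979724682622964271638691022045082940538448932954842838073102680516786817557950934882753002739568057127573053631688634517879742768752738258272170043169955306667961238052716312713858668791555337233845111161467215368926883711061958158184701116028353923573632445441622707641208247285461766708834663490450089671486030229677435077889739986399167223630982237895863028308301500525674830856702221866402366975456517579608770803935806531886176971889580889802408855426556375357170535442403161049279758164384385350341542413172032024907801104188482888396486405024682182049668065241293340161799299199983431263687392953680620462378176322147674936878119401089043982241414567675577925748113061324667158670666360732402597793132648485375969738477197178816570594722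2430421152681900037840289858600191397552590029811712552534583782159935333707461824246954071608006079996222145290617983610091375675419600718594031226297913698838398341870632886178604809194192534611245030025943341076625533047106497378099520963407938189193928796048149012580862481062251368065258495242922975408832894930199994617643560947795555230195975569652700321843648766620380441415913859288988197431604695532522003896325368344234932359720933767890928094314715316371003636949173275188330856422854703324295132124779606543750872479724454350823300744618973915114228426854568664827501211226355789139856683921945570297938727097419880757371164604044675037663515421972309170215800678680073598861027965576888994342148768919623731878697229299173151355113114806615407473940666156782753190480899952244824532101669236359122480316108684218170738658303664707333080319783202983033773329462323389810843983229905667452779471507507880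3079918633763572271285528877828908245394858150235530162873396930063283996959816107872158234788631718663101201848832556472553620770357949219775930568247454593913580466848142580212246610153556195391511821020983855755770105709801052920195418463691943961096892733280848240541786301832269952968840612433361716587578058466800780730466760702751874244939503816532960243395455141272826606825156651813453071810805751834869811173058653035341729389673415352542778606157531810219054935252680189521648318189538519683535736741038753527215721859213714684221481880042993448198189697096550116873474868945629599181814010652330571034299863299006333541297951921326524921147921291767804854428448402438168741466735414372981679546449403738338161276949270275612887992390864044341325813202474892187163657522394312576869560300783072979873706316960522371790068884189544414757262339360470908999043935522593345880745798827248037937566911966690440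2103265336564822246372466798115623206764976930305292135787571015439752322542932148224888709425430088292673937598141115126982045717647702924205104363895404161127969414032513100088412586281805527783458090393429794577876601091886571429883204765083680427329882618052965114587600720624153703631567804726548302336743339914935935214160817718978499301572756040368249040858809198565113850044786996627555641778971292706691375925154158355132798387674713735247109512929371504889751646212429788638852230880515212807526450388105486786033284304876176149509135901220614830061495253576851710838249318463266025160582876796660454939616192248068261304172356512219004929795951800927603793866990912563530163488938361705895476719877461134938052151804354711109134512446399124879427577701582970280837778602091136187148198755748285179150761009737658685756768007853903568367860629405877357472899843382121185028512111358275898693361526396855689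8738235506519121882414127018965797870298075273035846004598893245859880701276748073535176018881573695834177645303229473094919538097790051370229377202632989725561188867828942433797265053296767614874352078873356879735804822177261839040773983516339695859195118743365771536998667705102222870475313904867031293038456003861672158278459283926516731578170973723336765727215194335788676547705837148204716711358565347259833046539399853453940066608396196042319218162434601030118609363200281812388829721929184157680369468713579011850756876073945792514573007919610767626235112460507647878071171494034943059620113561678685703611424127126241197038868981466535117769772320088932073240131094977576457867462894433034324993754627854646727445658800889948949785065044628470251978846503144557531476503685573325265258162483183785449718198127867164451563151681557859559512635914980244853560412458349933106130482083292088245001853149211589958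358512158747711242188700339308180216191633464538539888422628496364525209064605646303244550609776208744962389234018524898806728976714778881831753461953620156272662326522123053293968477124254819855879694146178440640074320974752425853811036589535419456365008306668549688161660842506906701936558352894321294227245223491104107162579798360190111306052570926661986647233312558950965834676666774619975090777932673384612052486777934402610981047576385775799063611214399922513945851540390924672565248)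

end Vale.Agent.Lib.P154.PChain.BH.S6
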