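import Vale.Agent.Lib.P154.PChain.BH.R6_2

set_option linter.all false

namespace Vale.Agent.Lib.P154.PChain.BH.S7

open Vale.Agent.Lib.P154.Chain

noncomputable def pc0 : PT := (PT.nd (nat_lit 4467372) (PT.nd (nat_lit 4279860) (PT.nd (nat_lit 4139382) (PT.nd (nat_lit 4045704) (PT.nd (nat_lit 3062046) (PT.nd (nat_lit 3015246) PT.nil (PT.lf (nat_lit 76) (nat_lit 3) (nat_lit 1) (nat_lit 1) (nat_lit 193) (nat_lit 64) (nat_lit 193))) (PT.nd (nat_lit 78) (PT.lf (nat_lit 152) (nat_lit 6) (nat_lit 2) (nat_lit 3) (nat_lit 192) (nat_lit 65) (nat_lit 193)) (PT.lf (nat_lit 152) (nat_lit 6) (nat_lit 2) (nat_lit 1) (nat_lit 193) (nat_lit 65) (nat_lit 192)))) (PT.nd (nat_lit 46878) (PT.nd (nat_lit 46800) (PT.lf (nat_lit 2660) (nat_lit 3) (nat_lit 35) (nat_lit 1) (nat_lit 182) (nat_lit 86) (nat_lit 182)) (PT.lf (nat_lit 2812) (nat_lit 6) (nat_lit 37) (nat_lit 3) (nat_lit 181) (nat_lit 87) (nat_lit 182))) (PT.nd (nat_lit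 46722) (PT.lf (nat_lit 2812) (nat_lit 6) (nat_lit 37) (nat_lit 1) (nat_lit 182) (nat_lit 87) (nat_lit 181)) (PT.lf (nat_lit 2888) (nat_lit 6) (nat_lit 38) (nat_lit 3) (nat_lit 180) (nat_lit 88) (nat_lit 182))))) (PT.nd (nat_lit 46878) (PT.nd (nat_lit 78) (PT.lf (nat_lit 2964) (nat_lit 3) (nat_lit 39) (nat_lit 1) (nat_lit 181) (nat_lit 88) (nat_lit 181)) (PT.nd (nat_lit 46722) (PT.lf (nat_lit 2888) (nat_lit 6) (nat_lit 38) (nat_lit 1) (nat_lit 182) (nat_lit 88) (nat_lit 180)) (PT.lf (nat_lit 3116) (nat_lit 6) (nat_lit 41) (nat_lit 3) (nat_lit 180) (nat_lit 89) (nat_lit 181)))) (PT.nd (nat_lit 46800) (PT.nd (nat_lit 46722) (PT.lf (nat_lit 3116) (nat_lit 6) (nat_lit 41) (nat_lit 1) (nat_lit 181) (nat_lit 89) (nat_lit 180)) (PT.lf (nat_lit 3192) (nat_lit 6) (nat_lit 42) (nat_lit 3) (nat_lit 179) (nat_lit 90) (nat_lit 181))) (PT.nd (nat_lit 78) (PT.lf (nat_lit 3268) (nat_lit 3) (nat_lit 43) (nat_lit 1)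 (nat_lit 180) (nat_lit 90) (nat_lit 180)) (PT.lf (nat_lit 3192) (nat_lit 6) (nat_lit 42) (nat_lit 1) (nat_lit 181) (nat_lit 90) (nat_lit 179)))))) (PT.nd (nat_lit 93756) (PT.nd (nat_lit 46878) (PT.nd (nat_lit 78) (PT.lf (nat_lit 3420) (nat_lit 6) (nat_lit 45) (nat_lit 3) (nat_lit 179) (nat_lit 91) (nat_lit 180)) (PT.nd (nat_lit 46722) (PT.lf (nat_lit 3420) (nat_lit 6) (nat_lit 45) (nat_lit 1) (nat_lit 180) (nat_lit 91) (nat_lit 179)) (PT.lf (nat_lit 3496) (nat_lit 6) (nat_lit 46) (nat_lit 3) (nat_lit 178) (nat_lit 92) (nat_lit 180)))) (PT.nd (nat_lit 46722) (PT.nd (nat_lit 78) (PT.lf (nat_lit 3572) (nat_lit 3) (nat_lit 47) (nat_lit 1) (nat_lit 179) (nat_lit 92) (nat_lit 179)) (PT.lf (nat_lit 3496) (nat_lit 6) (nat_lit 46) (nat_lit 1) (nat_lit 180) (nat_lit 92) (nat_lit 178))) (PT.nd (nat_lit 78) (PT.lf (nat_lit 3648) (nat_lit 6) (nat_lit 48) (nat_lit 3) (nat_lit 177) (nat_lit 93) (nat_lit 180)) (PT.lf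 (nat_lit 3724) (nat_lit 6) (nat_lit 49) (nat_lit 3) (nat_lit 178) (nat_lit 93) (nat_lit 179))))) (PT.nd (nat_lit 46878) (PT.nd (nat_lit 46722) (PT.nd (nat_lit 78) (PT.lf (nat_lit 3724) (nat_lit 6) (nat_lit 49) (nat_lit 1) (nat_lit 179) (nat_lit 93) (nat_lit 178)) (PT.lf (nat_lit 3648) (nat_lit 6) (nat_lit 48) (nat_lit 1) (nat_lit 180) (nat_lit 93) (nat_lit 177))) (PT.nd (nat_lit 78) (PT.lf (nat_lit 3876) (nat_lit 6) (nat_lit 51) (nat_lit 3) (nat_lit 177) (nat_lit 94) (nat_lit 179)) (PT.lf (nat_lit 3952) (nat_lit 3) (nat_lit 52) (nat_lit 1) (nat_lit 178) (nat_lit 94) (nat_lit 178)))) (PT.nd (nat_lit 46722) (PT.nd (nat_lit 46644) (PT.lf (nat_lit 3876) (nat_lit 6) (nat_lit 51) (nat_lit 1) (nat_lit 179) (nat_lit 94) (nat_lit 177)) (PT.lf (nat_lit 4028) (nat_lit 6) (nat_lit 53) (nat_lit 3) (nat_lit 176) (nat_lit 95) (nat_lit 179))) (PT.nd (nat_lit 78) (PT.lf (nat_lit 4104) (nat_lit 6) (nat_lit 54) (nat_lit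 3) (nat_lit 177) (nat_lit 95) (nat_lit 178)) (PT.lf (nat_lit 4104) (nat_lit 6) (nat_lit 54) (nat_lit 1) (nat_lit 178) (nat_lit 95) (nat_lit 177))))))) (PT.nd (nat_lit 187278) (PT.nd (nat_lit 93678) (PT.nd (nat_lit 46800) (PT.nd (nat_lit 46644) (PT.lf (nat_lit 4028) (nat_lit 6) (nat_lit 53) (nat_lit 1) (nat_lit 179) (nat_lit 95) (nat_lit 176)) (PT.nd (nat_lit 78) (PT.lf (nat_lit 4256) (nat_lit 6) (nat_lit 56) (nat_lit 3) (nat_lit 176) (nat_lit 96) (nat_lit 178)) (PT.lf (nat_lit 4332) (nat_lit 3) (nat_lit 57) (nat_lit 1) (nat_lit 177) (nat_lit 96) (nat_lit 177)))) (PT.nd (nat_lit 46722) (PT.nd (nat_lit 46644) (PT.lf (nat_lit 4256) (nat_lit 6) (nat_lit 56) (nat_lit 1) (nat_lit 178) (nat_lit 96) (nat_lit 176)) (PT.lf (nat_lit 4408) (nat_lit 6) (nat_lit 58) (nat_lit 3) (nat_lit 175) (nat_lit 97) (nat_lit 178))) (PT.nd (nat_lit 78) (PT.lf (nat_lit 4484) (nat_lit 6) (nat_lit 59) (nat_lit 3) (nat_lit 176)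 (nat_lit 97) (nat_lit 177)) (PT.lf (nat_lit 4484) (nat_lit 6) (nat_lit 59) (nat_lit 1) (nat_lit 177) (nat_lit 97) (nat_lit 176))))) (PT.nd (nat_lit 46800) (PT.nd (nat_lit 46644) (PT.nd (nat_lit 46566) (PT.lf (nat_lit 4408) (nat_lit 6) (nat_lit 58) (nat_lit 1) (nat_lit 178) (nat_lit 97) (nat_lit 175)) (PT.lf (nat_lit 4560) (nat_lit 6) (nat_lit 60) (nat_lit 3) (nat_lit 174) (nat_lit 98) (nat_lit 178))) (PT.nd (nat_lit 78) (PT.lf (nat_lit 4636) (nat_lit 6) (nat_lit 61) (nat_lit 3) (nat_lit 175) (nat_lit 98) (nat_lit 177)) (PT.lf (nat_lit 4712) (nat_lit 3) (nat_lit 62) (nat_lit 1) (nat_lit 176) (nat_lit 98) (nat_lit 176)))) (PT.nd (nat_lit 46644) (PT.nd (nat_lit 78) (PT.lf (nat_lit 4636) (nat_lit 6) (nat_lit 61) (nat_lit 1) (nat_lit 177) (nat_lit 98) (nat_lit 175)) (PT.lf (nat_lit 4560) (nat_lit 6) (nat_lit 60) (nat_lit 1) (nat_lit 178) (nat_lit 98) (nat_lit 174))) (PT.nd (nat_lit 78) (PT.lf (nat_lit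 4788) (nat_lit 6) (nat_lit 63) (nat_lit 3) (nat_lit 174) (nat_lit 99) (nat_lit 177)) (PT.lf (nat_lit 4864) (nat_lit 6) (nat_lit 64) (nat_lit 3) (nat_lit 175) (nat_lit 99) (nat_lit 176)))))) (PT.nd (nat_lit 93522) (PT.nd (nat_lit 46722) (PT.nd (nat_lit 78) (PT.lf (nat_lit 4864) (nat_lit 6) (nat_lit 64) (nat_lit 1) (nat_lit 176) (nat_lit 99) (nat_lit 175)) (PT.nd (nat_lit 46566) (PT.lf (nat_lit 4788) (nat_lit 6) (nat_lit 63) (nat_lit 1) (nat_lit 177) (nat_lit 99) (nat_lit 174)) (PT.lf (nat_lit 4940) (nat_lit 6) (nat_lit 65) (nat_lit 3) (nat_lit 173) (nat_lit 100) (nat_lit 177)))) (PT.nd (nat_lit 156) (PT.nd (nat_lit 78) (PT.lf (nat_lit 5016) (nat_lit 6) (nat_lit 66) (nat_lit 3) (nat_lit 174) (nat_lit 100) (nat_lit 176)) (PT.lf (nat_lit 5092) (nat_lit 3) (nat_lit 67) (nat_lit 1) (nat_lit 175) (nat_lit 100) (nat_lit 175))) (PT.nd (nat_lit 78) (PT.lf (nat_lit 5016) (nat_lit 6) (nat_lit 66) (nat_lit 1)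 (nat_lit 176) (nat_lit 100) (nat_lit 174)) (PT.lf (nat_lit 4940) (nat_lit 6) (nat_lit 65) (nat_lit 1) (nat_lit 177) (nat_lit 100) (nat_lit 173))))) (PT.nd (nat_lit 46800) (PT.nd (nat_lit 156) (PT.nd (nat_lit 78) (PT.lf (nat_lit 5244) (nat_lit 6) (nat_lit 69) (nat_lit 3) (nat_lit 173) (nat_lit 101) (nat_lit 176)) (PT.lf (nat_lit 5320) (nat_lit 6) (nat_lit 70) (nat_lit 3) (nat_lit 174) (nat_lit 101) (nat_lit 175))) (PT.nd (nat_lit 78) (PT.lf (nat_lit 5320) (nat_lit 6) (nat_lit 70) (nat_lit 1) (nat_lit 175) (nat_lit 101) (nat_lit 174)) (PT.lf (nat_lit 5244) (nat_lit 6) (nat_lit 69) (nat_lit 1) (nat_lit 176) (nat_lit 101) (nat_lit 173)))) (PT.nd (nat_lit 156) (PT.nd (nat_lit 78) (PT.lf (nat_lit 5396) (nat_lit 6) (nat_lit 71) (nat_lit 3) (nat_lit 172) (nat_lit 102) (nat_lit 176)) (PT.lf (nat_lit 5472) (nat_lit 6) (nat_lit 72) (nat_lit 3) (nat_lit 173) (nat_lit 102) (nat_lit 175))) (PT.nd (nat_lit 78) (PT.lf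 (nat_lit 5548) (nat_lit 3) (nat_lit 73) (nat_lit 1) (nat_lit 174) (nat_lit 102) (nat_lit 174)) (PT.lf (nat_lit 5472) (nat_lit 6) (nat_lit 72) (nat_lit 1) (nat_lit 175) (nat_lit 102) (nat_lit 173))))))))
noncomputable def pc1 : PT := (PT.nd (nat_lit 280800) (PT.nd (nat_lit 140478) (PT.nd (nat_lit 93522) (PT.nd (nat_lit 46722) (PT.nd (nat_lit 46566) (PT.lf (nat_lit 5396) (nat_lit 6) (nat_lit 71) (nat_lit 1) (nat_lit 176) (nat_lit 102) (nat_lit 172)) (PT.nd (nat_lit 78) (PT.lf (nat_lit 5700) (nat_lit 6) (nat_lit 75) (nat_lit 3) (nat_lit 172) (nat_lit 103) (nat_lit 175)) (PT.lf (nat_lit 5776) (nat_lit 6) (nat_lit 76) (nat_lit 3) (nat_lit 173) (nat_lit 103) (nat_lit 174)))) (PT.nd (nat_lit 46644) (PT.nd (nat_lit 78) (PT.lf (nat_lit 5776) (nat_lit 6) (nat_lit 76) (nat_lit 1) (nat_lit 174) (nat_lit 103) (nat_lit 173)) (PT.lf (nat_lit 5700) (nat_lit 6) (nat_lit 75) (nat_lit 1) (nat_lit 175) (nat_lit 103)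 (nat_lit 172))) (PT.nd (nat_lit 78) (PT.lf (nat_lit 5852) (nat_lit 6) (nat_lit 77) (nat_lit 3) (nat_lit 171) (nat_lit 104) (nat_lit 175)) (PT.lf (nat_lit 5928) (nat_lit 6) (nat_lit 78) (nat_lit 3) (nat_lit 172) (nat_lit 104) (nat_lit 174))))) (PT.nd (nat_lit 46644) (PT.nd (nat_lit 78) (PT.lf (nat_lit 6004) (nat_lit 3) (nat_lit 79) (nat_lit 1) (nat_lit 173) (nat_lit 104) (nat_lit 173)) (PT.nd (nat_lit 78) (PT.lf (nat_lit 5928) (nat_lit 6) (nat_lit 78) (nat_lit 1) (nat_lit 174) (nat_lit 104) (nat_lit 172)) (PT.lf (nat_lit 5852) (nat_lit 6) (nat_lit 77) (nat_lit 1) (nat_lit 175) (nat_lit 104) (nat_lit 171)))) (PT.nd (nat_lit 156) (PT.nd (nat_lit 78) (PT.lf (nat_lit 6080) (nat_lit 6) (nat_lit 80) (nat_lit 3) (nat_lit 170) (nat_lit 105) (nat_lit 175)) (PT.lf (nat_lit 6156) (nat_lit 6) (nat_lit 81) (nat_lit 3) (nat_lit 171) (nat_lit 105) (nat_lit 174))) (PT.nd (nat_lit 78) (PT.lf (nat_lit 6232) (nat_lit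 6) (nat_lit 82) (nat_lit 3) (nat_lit 172) (nat_lit 105) (nat_lit 173)) (PT.lf (nat_lit 6232) (nat_lit 6) (nat_lit 82) (nat_lit 1) (nat_lit 173) (nat_lit 105) (nat_lit 172)))))) (PT.nd (nat_lit 93366) (PT.nd (nat_lit 46644) (PT.nd (nat_lit 78) (PT.lf (nat_lit 6156) (nat_lit 6) (nat_lit 81) (nat_lit 1) (nat_lit 174) (nat_lit 105) (nat_lit 171)) (PT.nd (nat_lit 46488) (PT.lf (nat_lit 6080) (nat_lit 6) (nat_lit 80) (nat_lit 1) (nat_lit 175) (nat_lit 105) (nat_lit 170)) (PT.lf (nat_lit 6308) (nat_lit 6) (nat_lit 83) (nat_lit 3) (nat_lit 170) (nat_lit 106) (nat_lit 174)))) (PT.nd (nat_lit 156) (PT.nd (nat_lit 78) (PT.lf (nat_lit 6384) (nat_lit 6) (nat_lit 84) (nat_lit 3) (nat_lit 171) (nat_lit 106) (nat_lit 173)) (PT.lf (nat_lit 6460) (nat_lit 3) (nat_lit 85) (nat_lit 1) (nat_lit 172) (nat_lit 106) (nat_lit 172))) (PT.nd (nat_lit 78) (PT.lf (nat_lit 6384) (nat_lit 6) (nat_lit 84) (nat_lit 1) (nat_lit 173)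 (nat_lit 106) (nat_lit 171)) (PT.lf (nat_lit 6308) (nat_lit 6) (nat_lit 83) (nat_lit 1) (nat_lit 174) (nat_lit 106) (nat_lit 170))))) (PT.nd (nat_lit 312) (PT.nd (nat_lit 156) (PT.nd (nat_lit 78) (PT.lf (nat_lit 6536) (nat_lit 6) (nat_lit 86) (nat_lit 3) (nat_lit 169) (nat_lit 107) (nat_lit 174)) (PT.lf (nat_lit 6612) (nat_lit 6) (nat_lit 87) (nat_lit 3) (nat_lit 170) (nat_lit 107) (nat_lit 173))) (PT.nd (nat_lit 78) (PT.lf (nat_lit 6688) (nat_lit 6) (nat_lit 88) (nat_lit 3) (nat_lit 171) (nat_lit 107) (nat_lit 172)) (PT.lf (nat_lit 6688) (nat_lit 6) (nat_lit 88) (nat_lit 1) (nat_lit 172) (nat_lit 107) (nat_lit 171)))) (PT.nd (nat_lit 46488) (PT.nd (nat_lit 78) (PT.lf (nat_lit 6612) (nat_lit 6) (nat_lit 87) (nat_lit 1) (nat_lit 173) (nat_lit 107) (nat_lit 170)) (PT.lf (nat_lit 6536) (nat_lit 6) (nat_lit 86) (nat_lit 1) (nat_lit 174) (nat_lit 107) (nat_lit 169))) (PT.nd (nat_lit 78) (PT.lf (nat_lit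 6764) (nat_lit 6) (nat_lit 89) (nat_lit 3) (nat_lit 168) (nat_lit 108) (nat_lit 174)) (PT.lf (nat_lit 6840) (nat_lit 6) (nat_lit 90) (nat_lit 3) (nat_lit 169) (nat_lit 108) (nat_lit 173))))))) (PT.nd (nat_lit 93834) (PT.nd (nat_lit 46878) (PT.nd (nat_lit 234) (PT.nd (nat_lit 78) (PT.lf (nat_lit 6916) (nat_lit 6) (nat_lit 91) (nat_lit 3) (nat_lit 170) (nat_lit 108) (nat_lit 172)) (PT.nd (nat_lit 78) (PT.lf (nat_lit 6992) (nat_lit 3) (nat_lit 92) (nat_lit 1) (nat_lit 171) (nat_lit 108) (nat_lit 171)) (PT.lf (nat_lit 6916) (nat_lit 6) (nat_lit 91) (nat_lit 1) (nat_lit 172) (nat_lit 108) (nat_lit 170)))) (PT.nd (nat_lit 46488) (PT.nd (nat_lit 78) (PT.lf (nat_lit 6840) (nat_lit 6) (nat_lit 90) (nat_lit 1) (nat_lit 173) (nat_lit 108) (nat_lit 169)) (PT.lf (nat_lit 6764) (nat_lit 6) (nat_lit 89) (nat_lit 1) (nat_lit 174) (nat_lit 108) (nat_lit 168))) (PT.nd (nat_lit 78) (PT.lf (nat_lit 7068) (nat_lit 6)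 (nat_lit 93) (nat_lit 3) (nat_lit 168) (nat_lit 109) (nat_lit 173)) (PT.lf (nat_lit 7144) (nat_lit 6) (nat_lit 94) (nat_lit 3) (nat_lit 169) (nat_lit 109) (nat_lit 172))))) (PT.nd (nat_lit 46644) (PT.nd (nat_lit 156) (PT.nd (nat_lit 78) (PT.lf (nat_lit 7220) (nat_lit 6) (nat_lit 95) (nat_lit 3) (nat_lit 170) (nat_lit 109) (nat_lit 171)) (PT.lf (nat_lit 7220) (nat_lit 6) (nat_lit 95) (nat_lit 1) (nat_lit 171) (nat_lit 109) (nat_lit 170))) (PT.nd (nat_lit 78) (PT.lf (nat_lit 7144) (nat_lit 6) (nat_lit 94) (nat_lit 1) (nat_lit 172) (nat_lit 109) (nat_lit 169)) (PT.lf (nat_lit 7068) (nat_lit 6) (nat_lit 93) (nat_lit 1) (nat_lit 173) (nat_lit 109) (nat_lit 168)))) (PT.nd (nat_lit 156) (PT.nd (nat_lit 78) (PT.lf (nat_lit 7296) (nat_lit 6) (nat_lit 96) (nat_lit 3) (nat_lit 167) (nat_lit 110) (nat_lit 173)) (PT.lf (nat_lit 7372) (nat_lit 6) (nat_lit 97) (nat_lit 3) (nat_lit 168) (nat_lit 110) (nat_lit 172)))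 (PT.nd (nat_lit 78) (PT.lf (nat_lit 7448) (nat_lit 6) (nat_lit 98) (nat_lit 3) (nat_lit 169) (nat_lit 110) (nat_lit 171)) (PT.lf (nat_lit 7524) (nat_lit 3) (nat_lit 99) (nat_lit 1) (nat_lit 170) (nat_lit 110) (nat_lit 170)))))) (PT.nd (nat_lit 46878) (PT.nd (nat_lit 46566) (PT.nd (nat_lit 78) (PT.lf (nat_lit 7448) (nat_lit 6) (nat_lit 98) (nat_lit 1) (nat_lit 171) (nat_lit 110) (nat_lit 169)) (PT.nd (nat_lit 78) (PT.lf (nat_lit 7372) (nat_lit 6) (nat_lit 97) (nat_lit 1) (nat_lit 172) (nat_lit 110) (nat_lit 168)) (PT.lf (nat_lit 7296) (nat_lit 6) (nat_lit 96) (nat_lit 1) (nat_lit 173) (nat_lit 110) (nat_lit 167)))) (PT.nd (nat_lit 156) (PT.nd (nat_lit 78) (PT.lf (nat_lit 7676) (nat_lit 6) (nat_lit 101) (nat_lit 3) (nat_lit 167) (nat_lit 111) (nat_lit 172)) (PT.lf (nat_lit 7752) (nat_lit 6) (nat_lit 102) (nat_lit 3) (nat_lit 168) (nat_lit 111) (nat_lit 171))) (PT.nd (nat_lit 78) (PT.lf (nat_lit 7828)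 (nat_lit 6) (nat_lit 103) (nat_lit 3) (nat_lit 169) (nat_lit 111) (nat_lit 170)) (PT.lf (nat_lit 7828) (nat_lit 6) (nat_lit 103) (nat_lit 1) (nat_lit 170) (nat_lit 111) (nat_lit 169))))) (PT.nd (nat_lit 46644) (PT.nd (nat_lit 46488) (PT.nd (nat_lit 78) (PT.lf (nat_lit 7752) (nat_lit 6) (nat_lit 102) (nat_lit 1) (nat_lit 171) (nat_lit 111) (nat_lit 168)) (PT.lf (nat_lit 7676) (nat_lit 6) (nat_lit 101) (nat_lit 1) (nat_lit 172) (nat_lit 111) (nat_lit 167))) (PT.nd (nat_lit 78) (PT.lf (nat_lit 7904) (nat_lit 6) (nat_lit 104) (nat_lit 3) (nat_lit 166) (nat_lit 112) (nat_lit 172)) (PT.lf (nat_lit 7980) (nat_lit 6) (nat_lit 105) (nat_lit 3) (nat_lit 167) (nat_lit 112) (nat_lit 171)))) (PT.nd (nat_lit 156) (PT.nd (nat_lit 78) (PT.lf (nat_lit 8056) (nat_lit 6) (nat_lit 106) (nat_lit 3) (nat_lit 168) (nat_lit 112) (nat_lit 170)) (PT.lf (nat_lit 8132) (nat_lit 3) (nat_lit 107) (nat_lit 1) (nat_lit 169) (nat_lit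 112) (nat_lit 169))) (PT.nd (nat_lit 78) (PT.lf (nat_lit 8056) (nat_lit 6) (nat_lit 106) (nat_lit 1) (nat_lit 170) (nat_lit 112) (nat_lit 168)) (PT.lf (nat_lit 7980) (nat_lit 6) (nat_lit 105) (nat_lit 1) (nat_lit 171) (nat_lit 112) (nat_lit 167))))))))
noncomputable def pc2 : PT := (PT.nd (nat_lit 187200) (PT.nd (nat_lit 93600) (PT.nd (nat_lit 46800) (PT.nd (nat_lit 46488) (PT.nd (nat_lit 46332) (PT.lf (nat_lit 7904) (nat_lit 6) (nat_lit 104) (nat_lit 1) (nat_lit 172) (nat_lit 112) (nat_lit 166)) (PT.nd (nat_lit 78) (PT.lf (nat_lit 8208) (nat_lit 6) (nat_lit 108) (nat_lit 3) (nat_lit 165) (nat_lit 113) (nat_lit 172)) (PT.lf (nat_lit 8284) (nat_lit 6) (nat_lit 109) (nat_lit 3) (nat_lit 166) (nat_lit 113) (nat_lit 171)))) (PT.nd (nat_lit 156) (PT.nd (nat_lit 78) (PT.lf (nat_lit 8360) (nat_lit 6) (nat_lit 110) (nat_lit 3) (nat_lit 167) (nat_lit 113) (nat_lit 170)) (PT.lf (nat_lit 8436) (nat_lit 6) (nat_lit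 111) (nat_lit 3) (nat_lit 168) (nat_lit 113) (nat_lit 169))) (PT.nd (nat_lit 78) (PT.lf (nat_lit 8436) (nat_lit 6) (nat_lit 111) (nat_lit 1) (nat_lit 169) (nat_lit 113) (nat_lit 168)) (PT.lf (nat_lit 8360) (nat_lit 6) (nat_lit 110) (nat_lit 1) (nat_lit 170) (nat_lit 113) (nat_lit 167))))) (PT.nd (nat_lit 46488) (PT.nd (nat_lit 78) (PT.lf (nat_lit 8284) (nat_lit 6) (nat_lit 109) (nat_lit 1) (nat_lit 171) (nat_lit 113) (nat_lit 166)) (PT.nd (nat_lit 46332) (PT.lf (nat_lit 8208) (nat_lit 6) (nat_lit 108) (nat_lit 1) (nat_lit 172) (nat_lit 113) (nat_lit 165)) (PT.lf (nat_lit 8588) (nat_lit 6) (nat_lit 113) (nat_lit 3) (nat_lit 165) (nat_lit 114) (nat_lit 171)))) (PT.nd (nat_lit 156) (PT.nd (nat_lit 78) (PT.lf (nat_lit 8664) (nat_lit 6) (nat_lit 114) (nat_lit 3) (nat_lit 166) (nat_lit 114) (nat_lit 170)) (PT.lf (nat_lit 8740) (nat_lit 6) (nat_lit 115) (nat_lit 3) (nat_lit 167) (nat_lit 114) (nat_lit 169)))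 (PT.nd (nat_lit 78) (PT.lf (nat_lit 8816) (nat_lit 3) (nat_lit 116) (nat_lit 1) (nat_lit 168) (nat_lit 114) (nat_lit 168)) (PT.lf (nat_lit 8740) (nat_lit 6) (nat_lit 115) (nat_lit 1) (nat_lit 169) (nat_lit 114) (nat_lit 167)))))) (PT.nd (nat_lit 46800) (PT.nd (nat_lit 46488) (PT.nd (nat_lit 78) (PT.lf (nat_lit 8664) (nat_lit 6) (nat_lit 114) (nat_lit 1) (nat_lit 170) (nat_lit 114) (nat_lit 166)) (PT.nd (nat_lit 46332) (PT.lf (nat_lit 8588) (nat_lit 6) (nat_lit 113) (nat_lit 1) (nat_lit 171) (nat_lit 114) (nat_lit 165)) (PT.lf (nat_lit 8892) (nat_lit 6) (nat_lit 117) (nat_lit 3) (nat_lit 164) (nat_lit 115) (nat_lit 171)))) (PT.nd (nat_lit 156) (PT.nd (nat_lit 78) (PT.lf (nat_lit 8968) (nat_lit 6) (nat_lit 118) (nat_lit 3) (nat_lit 165) (nat_lit 115) (nat_lit 170)) (PT.lf (nat_lit 9044) (nat_lit 6) (nat_lit 119) (nat_lit 3) (nat_lit 166) (nat_lit 115) (nat_lit 169))) (PT.nd (nat_lit 78) (PT.lf (nat_lit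 9120) (nat_lit 6) (nat_lit 120) (nat_lit 3) (nat_lit 167) (nat_lit 115) (nat_lit 168)) (PT.lf (nat_lit 9120) (nat_lit 6) (nat_lit 120) (nat_lit 1) (nat_lit 168) (nat_lit 115) (nat_lit 167))))) (PT.nd (nat_lit 46488) (PT.nd (nat_lit 156) (PT.nd (nat_lit 78) (PT.lf (nat_lit 9044) (nat_lit 6) (nat_lit 119) (nat_lit 1) (nat_lit 169) (nat_lit 115) (nat_lit 166)) (PT.lf (nat_lit 8968) (nat_lit 6) (nat_lit 118) (nat_lit 1) (nat_lit 170) (nat_lit 115) (nat_lit 165))) (PT.nd (nat_lit 46254) (PT.lf (nat_lit 8892) (nat_lit 6) (nat_lit 117) (nat_lit 1) (nat_lit 171) (nat_lit 115) (nat_lit 164)) (PT.lf (nat_lit 9196) (nat_lit 6) (nat_lit 121) (nat_lit 3) (nat_lit 163) (nat_lit 116) (nat_lit 171)))) (PT.nd (nat_lit 156) (PT.nd (nat_lit 78) (PT.lf (nat_lit 9272) (nat_lit 6) (nat_lit 122) (nat_lit 3) (nat_lit 164) (nat_lit 116) (nat_lit 170)) (PT.lf (nat_lit 9348) (nat_lit 6) (nat_lit 123) (nat_lit 3) (nat_lit 165)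 (nat_lit 116) (nat_lit 169))) (PT.nd (nat_lit 78) (PT.lf (nat_lit 9424) (nat_lit 6) (nat_lit 124) (nat_lit 3) (nat_lit 166) (nat_lit 116) (nat_lit 168)) (PT.lf (nat_lit 9500) (nat_lit 3) (nat_lit 125) (nat_lit 1) (nat_lit 167) (nat_lit 116) (nat_lit 167))))))) (PT.nd (nat_lit 93522) (PT.nd (nat_lit 46722) (PT.nd (nat_lit 234) (PT.nd (nat_lit 78) (PT.lf (nat_lit 9424) (nat_lit 6) (nat_lit 124) (nat_lit 1) (nat_lit 168) (nat_lit 116) (nat_lit 166)) (PT.nd (nat_lit 78) (PT.lf (nat_lit 9348) (nat_lit 6) (nat_lit 123) (nat_lit 1) (nat_lit 169) (nat_lit 116) (nat_lit 165)) (PT.lf (nat_lit 9272) (nat_lit 6) (nat_lit 122) (nat_lit 1) (nat_lit 170) (nat_lit 116) (nat_lit 164)))) (PT.nd (nat_lit 46332) (PT.nd (nat_lit 46254) (PT.lf (nat_lit 9196) (nat_lit 6) (nat_lit 121) (nat_lit 1) (nat_lit 171) (nat_lit 116) (nat_lit 163)) (PT.lf (nat_lit 9576) (nat_lit 6) (nat_lit 126) (nat_lit 3) (nat_lit 163) (nat_lit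 117) (nat_lit 170))) (PT.nd (nat_lit 78) (PT.lf (nat_lit 9652) (nat_lit 6) (nat_lit 127) (nat_lit 3) (nat_lit 164) (nat_lit 117) (nat_lit 169)) (PT.lf (nat_lit 9728) (nat_lit 6) (nat_lit 128) (nat_lit 3) (nat_lit 165) (nat_lit 117) (nat_lit 168))))) (PT.nd (nat_lit 312) (PT.nd (nat_lit 156) (PT.nd (nat_lit 78) (PT.lf (nat_lit 9804) (nat_lit 6) (nat_lit 129) (nat_lit 3) (nat_lit 166) (nat_lit 117) (nat_lit 167)) (PT.lf (nat_lit 9804) (nat_lit 6) (nat_lit 129) (nat_lit 1) (nat_lit 167) (nat_lit 117) (nat_lit 166))) (PT.nd (nat_lit 78) (PT.lf (nat_lit 9728) (nat_lit 6) (nat_lit 128) (nat_lit 1) (nat_lit 168) (nat_lit 117) (nat_lit 165)) (PT.lf (nat_lit 9652) (nat_lit 6) (nat_lit 127) (nat_lit 1) (nat_lit 169) (nat_lit 117) (nat_lit 164)))) (PT.nd (nat_lit 46332) (PT.nd (nat_lit 46254) (PT.lf (nat_lit 9576) (nat_lit 6) (nat_lit 126) (nat_lit 1) (nat_lit 170) (nat_lit 117) (nat_lit 163)) (PT.lf (nat_lit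 9880) (nat_lit 6) (nat_lit 130) (nat_lit 3) (nat_lit 162) (nat_lit 118) (nat_lit 170))) (PT.nd (nat_lit 78) (PT.lf (nat_lit 9956) (nat_lit 6) (nat_lit 131) (nat_lit 3) (nat_lit 163) (nat_lit 118) (nat_lit 169)) (PT.lf (nat_lit 10032) (nat_lit 6) (nat_lit 132) (nat_lit 3) (nat_lit 164) (nat_lit 118) (nat_lit 168)))))) (PT.nd (nat_lit 46644) (PT.nd (nat_lit 234) (PT.nd (nat_lit 78) (PT.lf (nat_lit 10108) (nat_lit 6) (nat_lit 133) (nat_lit 3) (nat_lit 165) (nat_lit 118) (nat_lit 167)) (PT.nd (nat_lit 78) (PT.lf (nat_lit 10184) (nat_lit 3) (nat_lit 134) (nat_lit 1) (nat_lit 166) (nat_lit 118) (nat_lit 166)) (PT.lf (nat_lit 10108) (nat_lit 6) (nat_lit 133) (nat_lit 1) (nat_lit 167) (nat_lit 118) (nat_lit 165)))) (PT.nd (nat_lit 156) (PT.nd (nat_lit 78) (PT.lf (nat_lit 10032) (nat_lit 6) (nat_lit 132) (nat_lit 1) (nat_lit 168) (nat_lit 118) (nat_lit 164)) (PT.lf (nat_lit 9956) (nat_lit 6) (nat_lit 131)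 (nat_lit 1) (nat_lit 169) (nat_lit 118) (nat_lit 163))) (PT.nd (nat_lit 46176) (PT.lf (nat_lit 9880) (nat_lit 6) (nat_lit 130) (nat_lit 1) (nat_lit 170) (nat_lit 118) (nat_lit 162)) (PT.lf (nat_lit 10260) (nat_lit 6) (nat_lit 135) (nat_lit 3) (nat_lit 161) (nat_lit 119) (nat_lit 170))))) (PT.nd (nat_lit 312) (PT.nd (nat_lit 156) (PT.nd (nat_lit 78) (PT.lf (nat_lit 10336) (nat_lit 6) (nat_lit 136) (nat_lit 3) (nat_lit 162) (nat_lit 119) (nat_lit 169)) (PT.lf (nat_lit 10412) (nat_lit 6) (nat_lit 137) (nat_lit 3) (nat_lit 163) (nat_lit 119) (nat_lit 168))) (PT.nd (nat_lit 78) (PT.lf (nat_lit 10488) (nat_lit 6) (nat_lit 138) (nat_lit 3) (nat_lit 164) (nat_lit 119) (nat_lit 167)) (PT.lf (nat_lit 10564) (nat_lit 6) (nat_lit 139) (nat_lit 3) (nat_lit 165) (nat_lit 119) (nat_lit 166)))) (PT.nd (nat_lit 156) (PT.nd (nat_lit 78) (PT.lf (nat_lit 10564) (nat_lit 6) (nat_lit 139) (nat_lit 1) (nat_lit 166) (nat_lit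 119) (nat_lit 165)) (PT.lf (nat_lit 10488) (nat_lit 6) (nat_lit 138) (nat_lit 1) (nat_lit 167) (nat_lit 119) (nat_lit 164))) (PT.nd (nat_lit 78) (PT.lf (nat_lit 10412) (nat_lit 6) (nat_lit 137) (nat_lit 1) (nat_lit 168) (nat_lit 119) (nat_lit 163)) (PT.lf (nat_lit 10336) (nat_lit 6) (nat_lit 136) (nat_lit 1) (nat_lit 169) (nat_lit 119) (nat_lit 162))))))))
noncomputable def pc3 : PT := (PT.nd (nat_lit 140478) (PT.nd (nat_lit 93288) (PT.nd (nat_lit 46644) (PT.nd (nat_lit 46332) (PT.nd (nat_lit 46176) (PT.lf (nat_lit 10260) (nat_lit 6) (nat_lit 135) (nat_lit 1) (nat_lit 170) (nat_lit 119) (nat_lit 161)) (PT.nd (nat_lit 78) (PT.lf (nat_lit 10640) (nat_lit 6) (nat_lit 140) (nat_lit 3) (nat_lit 161) (nat_lit 120) (nat_lit 169)) (PT.lf (nat_lit 10716) (nat_lit 6) (nat_lit 141) (nat_lit 3) (nat_lit 162) (nat_lit 120) (nat_lit 168)))) (PT.nd (nat_lit 156) (PT.nd (nat_lit 78) (PT.lf (nat_lit 10792) (nat_lit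 6) (nat_lit 142) (nat_lit 3) (nat_lit 163) (nat_lit 120) (nat_lit 167)) (PT.lf (nat_lit 10868) (nat_lit 6) (nat_lit 143) (nat_lit 3) (nat_lit 164) (nat_lit 120) (nat_lit 166))) (PT.nd (nat_lit 78) (PT.lf (nat_lit 10944) (nat_lit 3) (nat_lit 144) (nat_lit 1) (nat_lit 165) (nat_lit 120) (nat_lit 165)) (PT.lf (nat_lit 10868) (nat_lit 6) (nat_lit 143) (nat_lit 1) (nat_lit 166) (nat_lit 120) (nat_lit 164))))) (PT.nd (nat_lit 46332) (PT.nd (nat_lit 78) (PT.lf (nat_lit 10792) (nat_lit 6) (nat_lit 142) (nat_lit 1) (nat_lit 167) (nat_lit 120) (nat_lit 163)) (PT.nd (nat_lit 78) (PT.lf (nat_lit 10716) (nat_lit 6) (nat_lit 141) (nat_lit 1) (nat_lit 168) (nat_lit 120) (nat_lit 162)) (PT.lf (nat_lit 10640) (nat_lit 6) (nat_lit 140) (nat_lit 1) (nat_lit 169) (nat_lit 120) (nat_lit 161)))) (PT.nd (nat_lit 156) (PT.nd (nat_lit 78) (PT.lf (nat_lit 11020) (nat_lit 6) (nat_lit 145) (nat_lit 3) (nat_lit 160) (nat_lit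 121) (nat_lit 169)) (PT.lf (nat_lit 11096) (nat_lit 6) (nat_lit 146) (nat_lit 3) (nat_lit 161) (nat_lit 121) (nat_lit 168))) (PT.nd (nat_lit 78) (PT.lf (nat_lit 11172) (nat_lit 6) (nat_lit 147) (nat_lit 3) (nat_lit 162) (nat_lit 121) (nat_lit 167)) (PT.lf (nat_lit 11248) (nat_lit 6) (nat_lit 148) (nat_lit 3) (nat_lit 163) (nat_lit 121) (nat_lit 166)))))) (PT.nd (nat_lit 46566) (PT.nd (nat_lit 234) (PT.nd (nat_lit 78) (PT.lf (nat_lit 11324) (nat_lit 6) (nat_lit 149) (nat_lit 3) (nat_lit 164) (nat_lit 121) (nat_lit 165)) (PT.nd (nat_lit 78) (PT.lf (nat_lit 11324) (nat_lit 6) (nat_lit 149) (nat_lit 1) (nat_lit 165) (nat_lit 121) (nat_lit 164)) (PT.lf (nat_lit 11248) (nat_lit 6) (nat_lit 148) (nat_lit 1) (nat_lit 166) (nat_lit 121) (nat_lit 163)))) (PT.nd (nat_lit 156) (PT.nd (nat_lit 78) (PT.lf (nat_lit 11172) (nat_lit 6) (nat_lit 147) (nat_lit 1) (nat_lit 167) (nat_lit 121) (nat_lit 162)) (PT.lf (nat_lit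 11096) (nat_lit 6) (nat_lit 146) (nat_lit 1) (nat_lit 168) (nat_lit 121) (nat_lit 161))) (PT.nd (nat_lit 46098) (PT.lf (nat_lit 11020) (nat_lit 6) (nat_lit 145) (nat_lit 1) (nat_lit 169) (nat_lit 121) (nat_lit 160)) (PT.lf (nat_lit 11400) (nat_lit 6) (nat_lit 150) (nat_lit 3) (nat_lit 159) (nat_lit 122) (nat_lit 169))))) (PT.nd (nat_lit 312) (PT.nd (nat_lit 156) (PT.nd (nat_lit 78) (PT.lf (nat_lit 11476) (nat_lit 6) (nat_lit 151) (nat_lit 3) (nat_lit 160) (nat_lit 122) (nat_lit 168)) (PT.lf (nat_lit 11552) (nat_lit 6) (nat_lit 152) (nat_lit 3) (nat_lit 161) (nat_lit 122) (nat_lit 167))) (PT.nd (nat_lit 78) (PT.lf (nat_lit 11628) (nat_lit 6) (nat_lit 153) (nat_lit 3) (nat_lit 162) (nat_lit 122) (nat_lit 166)) (PT.lf (nat_lit 11704) (nat_lit 6) (nat_lit 154) (nat_lit 3) (nat_lit 163) (nat_lit 122) (nat_lit 165)))) (PT.nd (nat_lit 156) (PT.nd (nat_lit 78) (PT.lf (nat_lit 11780) (nat_lit 3) (nat_lit 155)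 (nat_lit 1) (nat_lit 164) (nat_lit 122) (nat_lit 164)) (PT.lf (nat_lit 11704) (nat_lit 6) (nat_lit 154) (nat_lit 1) (nat_lit 165) (nat_lit 122) (nat_lit 163))) (PT.nd (nat_lit 78) (PT.lf (nat_lit 11628) (nat_lit 6) (nat_lit 153) (nat_lit 1) (nat_lit 166) (nat_lit 122) (nat_lit 162)) (PT.lf (nat_lit 11552) (nat_lit 6) (nat_lit 152) (nat_lit 1) (nat_lit 167) (nat_lit 122) (nat_lit 161))))))) (PT.nd (nat_lit 93054) (PT.nd (nat_lit 46488) (PT.nd (nat_lit 46176) (PT.nd (nat_lit 78) (PT.lf (nat_lit 11476) (nat_lit 6) (nat_lit 151) (nat_lit 1) (nat_lit 168) (nat_lit 122) (nat_lit 160)) (PT.nd (nat_lit 46020) (PT.lf (nat_lit 11400) (nat_lit 6) (nat_lit 150) (nat_lit 1) (nat_lit 169) (nat_lit 122) (nat_lit 159)) (PT.lf (nat_lit 11856) (nat_lit 6) (nat_lit 156) (nat_lit 3) (nat_lit 158) (nat_lit 123) (nat_lit 169)))) (PT.nd (nat_lit 156) (PT.nd (nat_lit 78) (PT.lf (nat_lit 11932) (nat_lit 6) (nat_lit 157) (nat_lit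 3) (nat_lit 159) (nat_lit 123) (nat_lit 168)) (PT.lf (nat_lit 12008) (nat_lit 6) (nat_lit 158) (nat_lit 3) (nat_lit 160) (nat_lit 123) (nat_lit 167))) (PT.nd (nat_lit 78) (PT.lf (nat_lit 12084) (nat_lit 6) (nat_lit 159) (nat_lit 3) (nat_lit 161) (nat_lit 123) (nat_lit 166)) (PT.lf (nat_lit 12160) (nat_lit 6) (nat_lit 160) (nat_lit 3) (nat_lit 162) (nat_lit 123) (nat_lit 165))))) (PT.nd (nat_lit 312) (PT.nd (nat_lit 156) (PT.nd (nat_lit 78) (PT.lf (nat_lit 12236) (nat_lit 6) (nat_lit 161) (nat_lit 3) (nat_lit 163) (nat_lit 123) (nat_lit 164)) (PT.lf (nat_lit 12236) (nat_lit 6) (nat_lit 161) (nat_lit 1) (nat_lit 164) (nat_lit 123) (nat_lit 163))) (PT.nd (nat_lit 78) (PT.lf (nat_lit 12160) (nat_lit 6) (nat_lit 160) (nat_lit 1) (nat_lit 165) (nat_lit 123) (nat_lit 162)) (PT.lf (nat_lit 12084) (nat_lit 6) (nat_lit 159) (nat_lit 1) (nat_lit 166) (nat_lit 123) (nat_lit 161)))) (PT.nd (nat_lit 156) (PT.nd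 (nat_lit 78) (PT.lf (nat_lit 12008) (nat_lit 6) (nat_lit 158) (nat_lit 1) (nat_lit 167) (nat_lit 123) (nat_lit 160)) (PT.lf (nat_lit 11932) (nat_lit 6) (nat_lit 157) (nat_lit 1) (nat_lit 168) (nat_lit 123) (nat_lit 159))) (PT.nd (nat_lit 46020) (PT.lf (nat_lit 11856) (nat_lit 6) (nat_lit 156) (nat_lit 1) (nat_lit 169) (nat_lit 123) (nat_lit 158)) (PT.lf (nat_lit 12312) (nat_lit 6) (nat_lit 162) (nat_lit 3) (nat_lit 158) (nat_lit 124) (nat_lit 168)))))) (PT.nd (nat_lit 546) (PT.nd (nat_lit 234) (PT.nd (nat_lit 78) (PT.lf (nat_lit 12388) (nat_lit 6) (nat_lit 163) (nat_lit 3) (nat_lit 159) (nat_lit 124) (nat_lit 167)) (PT.nd (nat_lit 78) (PT.lf (nat_lit 12464) (nat_lit 6) (nat_lit 164) (nat_lit 3) (nat_lit 160) (nat_lit 124) (nat_lit 166)) (PT.lf (nat_lit 12540) (nat_lit 6) (nat_lit 165) (nat_lit 3) (nat_lit 161) (nat_lit 124) (nat_lit 165)))) (PT.nd (nat_lit 156) (PT.nd (nat_lit 78) (PT.lf (nat_lit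 12616) (nat_lit 6) (nat_lit 166) (nat_lit 3) (nat_lit 162) (nat_lit 124) (nat_lit 164)) (PT.lf (nat_lit 12692) (nat_lit 3) (nat_lit 167) (nat_lit 1) (nat_lit 163) (nat_lit 124) (nat_lit 163))) (PT.nd (nat_lit 78) (PT.lf (nat_lit 12616) (nat_lit 6) (nat_lit 166) (nat_lit 1) (nat_lit 164) (nat_lit 124) (nat_lit 162)) (PT.lf (nat_lit 12540) (nat_lit 6) (nat_lit 165) (nat_lit 1) (nat_lit 165) (nat_lit 124) (nat_lit 161))))) (PT.nd (nat_lit 46254) (PT.nd (nat_lit 156) (PT.nd (nat_lit 78) (PT.lf (nat_lit 12464) (nat_lit 6) (nat_lit 164) (nat_lit 1) (nat_lit 166) (nat_lit 124) (nat_lit 160)) (PT.lf (nat_lit 12388) (nat_lit 6) (nat_lit 163) (nat_lit 1) (nat_lit 167) (nat_lit 124) (nat_lit 159))) (PT.nd (nat_lit 46020) (PT.lf (nat_lit 12312) (nat_lit 6) (nat_lit 162) (nat_lit 1) (nat_lit 168) (nat_lit 124) (nat_lit 158)) (PT.lf (nat_lit 12768) (nat_lit 6) (nat_lit 168) (nat_lit 3) (nat_lit 157) (nat_lit 125)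 (nat_lit 168)))) (PT.nd (nat_lit 156) (PT.nd (nat_lit 78) (PT.lf (nat_lit 12844) (nat_lit 6) (nat_lit 169) (nat_lit 3) (nat_lit 158) (nat_lit 125) (nat_lit 167)) (PT.lf (nat_lit 12920) (nat_lit 6) (nat_lit 170) (nat_lit 3) (nat_lit 159) (nat_lit 125) (nat_lit 166))) (PT.nd (nat_lit 78) (PT.lf (nat_lit 12996) (nat_lit 6) (nat_lit 171) (nat_lit 3) (nat_lit 160) (nat_lit 125) (nat_lit 165)) (PT.lf (nat_lit 13072) (nat_lit 6) (nat_lit 172) (nat_lit 3) (nat_lit 161) (nat_lit 125) (nat_lit 164))))))))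
noncomputable def pc4 : PT := (PT.nd (nat_lit 93990) (PT.nd (nat_lit 46956) (PT.nd (nat_lit 46410) (PT.nd (nat_lit 234) (PT.nd (nat_lit 78) (PT.lf (nat_lit 13148) (nat_lit 6) (nat_lit 173) (nat_lit 3) (nat_lit 162) (nat_lit 125) (nat_lit 163)) (PT.nd (nat_lit 78) (PT.lf (nat_lit 13148) (nat_lit 6) (nat_lit 173) (nat_lit 1) (nat_lit 163) (nat_lit 125) (nat_lit 162)) (PT.lf (nat_lit 13072) (nat_lit 6) (nat_lit 172) (nat_lit 1) (nat_lit 164) (nat_lit 125) (nat_lit 161)))) (PT.nd (nat_lit 156) (PT.nd (nat_lit 78) (PT.lf (nat_lit 12996) (nat_lit 6) (nat_lit 171) (nat_lit 1) (nat_lit 165) (nat_lit 125) (nat_lit 160)) (PT.lf (nat_lit 12920) (nat_lit 6) (nat_lit 170) (nat_lit 1) (nat_lit 166) (nat_lit 125) (nat_lit 159))) (PT.nd (nat_lit 78) (PT.lf (nat_lit 12844) (nat_lit 6) (nat_lit 169) (nat_lit 1) (nat_lit 167) (nat_lit 125) (nat_lit 158)) (PT.lf (nat_lit 12768) (nat_lit 6) (nat_lit 168) (nat_lit 1) (nat_lit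 168) (nat_lit 125) (nat_lit 157))))) (PT.nd (nat_lit 234) (PT.nd (nat_lit 78) (PT.lf (nat_lit 13224) (nat_lit 6) (nat_lit 174) (nat_lit 3) (nat_lit 156) (nat_lit 126) (nat_lit 168)) (PT.nd (nat_lit 78) (PT.lf (nat_lit 13300) (nat_lit 6) (nat_lit 175) (nat_lit 3) (nat_lit 157) (nat_lit 126) (nat_lit 167)) (PT.lf (nat_lit 13376) (nat_lit 6) (nat_lit 176) (nat_lit 3) (nat_lit 158) (nat_lit 126) (nat_lit 166)))) (PT.nd (nat_lit 156) (PT.nd (nat_lit 78) (PT.lf (nat_lit 13452) (nat_lit 6) (nat_lit 177) (nat_lit 3) (nat_lit 159) (nat_lit 126) (nat_lit 165)) (PT.lf (nat_lit 13528) (nat_lit 6) (nat_lit 178) (nat_lit 3) (nat_lit 160) (nat_lit 126) (nat_lit 164))) (PT.nd (nat_lit 78) (PT.lf (nat_lit 13604) (nat_lit 6) (nat_lit 179) (nat_lit 3) (nat_lit 161) (nat_lit 126) (nat_lit 163)) (PT.lf (nat_lit 13680) (nat_lit 3) (nat_lit 180) (nat_lit 1) (nat_lit 162) (nat_lit 126) (nat_lit 162)))))) (PT.nd (nat_lit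 46410) (PT.nd (nat_lit 234) (PT.nd (nat_lit 78) (PT.lf (nat_lit 13604) (nat_lit 6) (nat_lit 179) (nat_lit 1) (nat_lit 163) (nat_lit 126) (nat_lit 161)) (PT.nd (nat_lit 78) (PT.lf (nat_lit 13528) (nat_lit 6) (nat_lit 178) (nat_lit 1) (nat_lit 164) (nat_lit 126) (nat_lit 160)) (PT.lf (nat_lit 13452) (nat_lit 6) (nat_lit 177) (nat_lit 1) (nat_lit 165) (nat_lit 126) (nat_lit 159)))) (PT.nd (nat_lit 156) (PT.nd (nat_lit 78) (PT.lf (nat_lit 13376) (nat_lit 6) (nat_lit 176) (nat_lit 1) (nat_lit 166) (nat_lit 126) (nat_lit 158)) (PT.lf (nat_lit 13300) (nat_lit 6) (nat_lit 175) (nat_lit 1) (nat_lit 167) (nat_lit 126) (nat_lit 157))) (PT.nd (nat_lit 45942) (PT.lf (nat_lit 13224) (nat_lit 6) (nat_lit 174) (nat_lit 1) (nat_lit 168) (nat_lit 126) (nat_lit 156)) (PT.lf (nat_lit 13832) (nat_lit 6) (nat_lit 182) (nat_lit 3) (nat_lit 156) (nat_lit 127) (nat_lit 167))))) (PT.nd (nat_lit 312) (PT.nd (nat_lit 156) (PT.nd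 (nat_lit 78) (PT.lf (nat_lit 13908) (nat_lit 6) (nat_lit 183) (nat_lit 3) (nat_lit 157) (nat_lit 127) (nat_lit 166)) (PT.lf (nat_lit 13984) (nat_lit 6) (nat_lit 184) (nat_lit 3) (nat_lit 158) (nat_lit 127) (nat_lit 165))) (PT.nd (nat_lit 78) (PT.lf (nat_lit 14060) (nat_lit 6) (nat_lit 185) (nat_lit 3) (nat_lit 159) (nat_lit 127) (nat_lit 164)) (PT.lf (nat_lit 14136) (nat_lit 6) (nat_lit 186) (nat_lit 3) (nat_lit 160) (nat_lit 127) (nat_lit 163)))) (PT.nd (nat_lit 156) (PT.nd (nat_lit 78) (PT.lf (nat_lit 14212) (nat_lit 6) (nat_lit 187) (nat_lit 3) (nat_lit 161) (nat_lit 127) (nat_lit 162)) (PT.lf (nat_lit 14212) (nat_lit 6) (nat_lit 187) (nat_lit 1) (nat_lit 162) (nat_lit 127) (nat_lit 161))) (PT.nd (nat_lit 78) (PT.lf (nat_lit 14136) (nat_lit 6) (nat_lit 186) (nat_lit 1) (nat_lit 163) (nat_lit 127) (nat_lit 160)) (PT.lf (nat_lit 14060) (nat_lit 6) (nat_lit 185) (nat_lit 1) (nat_lit 164) (nat_lit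 127) (nat_lit 159))))))) (PT.nd (nat_lit 47034) (PT.nd (nat_lit 46410) (PT.nd (nat_lit 46098) (PT.nd (nat_lit 78) (PT.lf (nat_lit 13984) (nat_lit 6) (nat_lit 184) (nat_lit 1) (nat_lit 165) (nat_lit 127) (nat_lit 158)) (PT.nd (nat_lit 78) (PT.lf (nat_lit 13908) (nat_lit 6) (nat_lit 183) (nat_lit 1) (nat_lit 166) (nat_lit 127) (nat_lit 157)) (PT.lf (nat_lit 13832) (nat_lit 6) (nat_lit 182) (nat_lit 1) (nat_lit 167) (nat_lit 127) (nat_lit 156)))) (PT.nd (nat_lit 156) (PT.nd (nat_lit 78) (PT.lf (nat_lit 14288) (nat_lit 6) (nat_lit 188) (nat_lit 3) (nat_lit 155) (nat_lit 128) (nat_lit 167)) (PT.lf (nat_lit 14364) (nat_lit 6) (nat_lit 189) (nat_lit 3) (nat_lit 156) (nat_lit 128) (nat_lit 166))) (PT.nd (nat_lit 78) (PT.lf (nat_lit 14440) (nat_lit 6) (nat_lit 190) (nat_lit 3) (nat_lit 157) (nat_lit 128) (nat_lit 165)) (PT.lf (nat_lit 14516) (nat_lit 6) (nat_lit 191) (nat_lit 3) (nat_lit 158) (nat_lit 128)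 (nat_lit 164))))) (PT.nd (nat_lit 312) (PT.nd (nat_lit 156) (PT.nd (nat_lit 78) (PT.lf (nat_lit 14592) (nat_lit 6) (nat_lit 192) (nat_lit 3) (nat_lit 159) (nat_lit 128) (nat_lit 163)) (PT.lf (nat_lit 14668) (nat_lit 6) (nat_lit 193) (nat_lit 3) (nat_lit 160) (nat_lit 128) (nat_lit 162))) (PT.nd (nat_lit 78) (PT.lf (nat_lit 14744) (nat_lit 3) (nat_lit 194) (nat_lit 1) (nat_lit 161) (nat_lit 128) (nat_lit 161)) (PT.lf (nat_lit 14668) (nat_lit 6) (nat_lit 193) (nat_lit 1) (nat_lit 162) (nat_lit 128) (nat_lit 160)))) (PT.nd (nat_lit 156) (PT.nd (nat_lit 78) (PT.lf (nat_lit 14592) (nat_lit 6) (nat_lit 192) (nat_lit 1) (nat_lit 163) (nat_lit 128) (nat_lit 159)) (PT.lf (nat_lit 14516) (nat_lit 6) (nat_lit 191) (nat_lit 1) (nat_lit 164) (nat_lit 128) (nat_lit 158))) (PT.nd (nat_lit 78) (PT.lf (nat_lit 14440) (nat_lit 6) (nat_lit 190) (nat_lit 1) (nat_lit 165) (nat_lit 128) (nat_lit 157)) (PT.lf (nat_lit 14364)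 (nat_lit 6) (nat_lit 189) (nat_lit 1) (nat_lit 166) (nat_lit 128) (nat_lit 156)))))) (PT.nd (nat_lit 46332) (PT.nd (nat_lit 46020) (PT.nd (nat_lit 45864) (PT.lf (nat_lit 14288) (nat_lit 6) (nat_lit 188) (nat_lit 1) (nat_lit 167) (nat_lit 128) (nat_lit 155)) (PT.nd (nat_lit 78) (PT.lf (nat_lit 14820) (nat_lit 6) (nat_lit 195) (nat_lit 3) (nat_lit 154) (nat_lit 129) (nat_lit 167)) (PT.lf (nat_lit 14896) (nat_lit 6) (nat_lit 196) (nat_lit 3) (nat_lit 155) (nat_lit 129) (nat_lit 166)))) (PT.nd (nat_lit 156) (PT.nd (nat_lit 78) (PT.lf (nat_lit 14972) (nat_lit 6) (nat_lit 197) (nat_lit 3) (nat_lit 156) (nat_lit 129) (nat_lit 165)) (PT.lf (nat_lit 15048) (nat_lit 6) (nat_lit 198) (nat_lit 3) (nat_lit 157) (nat_lit 129) (nat_lit 164))) (PT.nd (nat_lit 78) (PT.lf (nat_lit 15124) (nat_lit 6) (nat_lit 199) (nat_lit 3) (nat_lit 158) (nat_lit 129) (nat_lit 163)) (PT.lf (nat_lit 15200) (nat_lit 6) (nat_lit 200)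 (nat_lit 3) (nat_lit 159) (nat_lit 129) (nat_lit 162))))) (PT.nd (nat_lit 312) (PT.nd (nat_lit 156) (PT.nd (nat_lit 78) (PT.lf (nat_lit 15276) (nat_lit 6) (nat_lit 201) (nat_lit 3) (nat_lit 160) (nat_lit 129) (nat_lit 161)) (PT.lf (nat_lit 15276) (nat_lit 6) (nat_lit 201) (nat_lit 1) (nat_lit 161) (nat_lit 129) (nat_lit 160))) (PT.nd (nat_lit 78) (PT.lf (nat_lit 15200) (nat_lit 6) (nat_lit 200) (nat_lit 1) (nat_lit 162) (nat_lit 129) (nat_lit 159)) (PT.lf (nat_lit 15124) (nat_lit 6) (nat_lit 199) (nat_lit 1) (nat_lit 163) (nat_lit 129) (nat_lit 158)))) (PT.nd (nat_lit 156) (PT.nd (nat_lit 78) (PT.lf (nat_lit 15048) (nat_lit 6) (nat_lit 198) (nat_lit 1) (nat_lit 164) (nat_lit 129) (nat_lit 157)) (PT.lf (nat_lit 14972) (nat_lit 6) (nat_lit 197) (nat_lit 1) (nat_lit 165) (nat_lit 129) (nat_lit 156))) (PT.nd (nat_lit 78) (PT.lf (nat_lit 14896) (nat_lit 6) (nat_lit 196) (nat_lit 1) (nat_lit 166) (nat_lit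 129) (nat_lit 155)) (PT.lf (nat_lit 14820) (nat_lit 6) (nat_lit 195) (nat_lit 1) (nat_lit 167) (nat_lit 129) (nat_lit 154))))))))
noncomputable def pc5 : PT := (PT.nd (nat_lit 47892) (PT.nd (nat_lit 1092) (PT.nd (nat_lit 546) (PT.nd (nat_lit 234) (PT.nd (nat_lit 78) (PT.lf (nat_lit 15352) (nat_lit 6) (nat_lit 202) (nat_lit 3) (nat_lit 153) (nat_lit 130) (nat_lit 167)) (PT.nd (nat_lit 78) (PT.lf (nat_lit 15428) (nat_lit 6) (nat_lit 203) (nat_lit 3) (nat_lit 154) (nat_lit 130) (nat_lit 166)) (PT.lf (nat_lit 15504) (nat_lit 6) (nat_lit 204) (nat_lit 3) (nat_lit 155) (nat_lit 130) (nat_lit 165)))) (PT.nd (nat_lit 156) (PT.nd (nat_lit 78) (PT.lf (nat_lit 15580) (nat_lit 6) (nat_lit 205) (nat_lit 3) (nat_lit 156) (nat_lit 130) (nat_lit 164)) (PT.lf (nat_lit 15656) (nat_lit 6) (nat_lit 206) (nat_lit 3) (nat_lit 157) (nat_lit 130) (nat_lit 163))) (PT.nd (nat_lit 78) (PT.lf (nat_lit 15732) (nat_lit 6) (nat_lit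 207) (nat_lit 3) (nat_lit 158) (nat_lit 130) (nat_lit 162)) (PT.lf (nat_lit 15808) (nat_lit 6) (nat_lit 208) (nat_lit 3) (nat_lit 159) (nat_lit 130) (nat_lit 161))))) (PT.nd (nat_lit 234) (PT.nd (nat_lit 78) (PT.lf (nat_lit 15884) (nat_lit 3) (nat_lit 209) (nat_lit 1) (nat_lit 160) (nat_lit 130) (nat_lit 160)) (PT.nd (nat_lit 78) (PT.lf (nat_lit 15808) (nat_lit 6) (nat_lit 208) (nat_lit 1) (nat_lit 161) (nat_lit 130) (nat_lit 159)) (PT.lf (nat_lit 15732) (nat_lit 6) (nat_lit 207) (nat_lit 1) (nat_lit 162) (nat_lit 130) (nat_lit 158)))) (PT.nd (nat_lit 156) (PT.nd (nat_lit 78) (PT.lf (nat_lit 15656) (nat_lit 6) (nat_lit 206) (nat_lit 1) (nat_lit 163) (nat_lit 130) (nat_lit 157)) (PT.lf (nat_lit 15580) (nat_lit 6) (nat_lit 205) (nat_lit 1) (nat_lit 164) (nat_lit 130) (nat_lit 156))) (PT.nd (nat_lit 78) (PT.lf (nat_lit 15504) (nat_lit 6) (nat_lit 204) (nat_lit 1) (nat_lit 165) (nat_lit 130) (nat_lit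 155)) (PT.lf (nat_lit 15428) (nat_lit 6) (nat_lit 203) (nat_lit 1) (nat_lit 166) (nat_lit 130) (nat_lit 154)))))) (PT.nd (nat_lit 46176) (PT.nd (nat_lit 45864) (PT.nd (nat_lit 45708) (PT.lf (nat_lit 15352) (nat_lit 6) (nat_lit 202) (nat_lit 1) (nat_lit 167) (nat_lit 130) (nat_lit 153)) (PT.nd (nat_lit 78) (PT.lf (nat_lit 15960) (nat_lit 6) (nat_lit 210) (nat_lit 3) (nat_lit 152) (nat_lit 131) (nat_lit 167)) (PT.lf (nat_lit 16036) (nat_lit 6) (nat_lit 211) (nat_lit 3) (nat_lit 153) (nat_lit 131) (nat_lit 166)))) (PT.nd (nat_lit 156) (PT.nd (nat_lit 78) (PT.lf (nat_lit 16112) (nat_lit 6) (nat_lit 212) (nat_lit 3) (nat_lit 154) (nat_lit 131) (nat_lit 165)) (PT.lf (nat_lit 16188) (nat_lit 6) (nat_lit 213) (nat_lit 3) (nat_lit 155) (nat_lit 131) (nat_lit 164))) (PT.nd (nat_lit 78) (PT.lf (nat_lit 16264) (nat_lit 6) (nat_lit 214) (nat_lit 3) (nat_lit 156) (nat_lit 131) (nat_lit 163)) (PT.lf (nat_lit 16340)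 (nat_lit 6) (nat_lit 215) (nat_lit 3) (nat_lit 157) (nat_lit 131) (nat_lit 162))))) (PT.nd (nat_lit 312) (PT.nd (nat_lit 156) (PT.nd (nat_lit 78) (PT.lf (nat_lit 16416) (nat_lit 6) (nat_lit 216) (nat_lit 3) (nat_lit 158) (nat_lit 131) (nat_lit 161)) (PT.lf (nat_lit 16492) (nat_lit 6) (nat_lit 217) (nat_lit 3) (nat_lit 159) (nat_lit 131) (nat_lit 160))) (PT.nd (nat_lit 78) (PT.lf (nat_lit 16492) (nat_lit 6) (nat_lit 217) (nat_lit 1) (nat_lit 160) (nat_lit 131) (nat_lit 159)) (PT.lf (nat_lit 16416) (nat_lit 6) (nat_lit 216) (nat_lit 1) (nat_lit 161) (nat_lit 131) (nat_lit 158)))) (PT.nd (nat_lit 156) (PT.nd (nat_lit 78) (PT.lf (nat_lit 16340) (nat_lit 6) (nat_lit 215) (nat_lit 1) (nat_lit 162) (nat_lit 131) (nat_lit 157)) (PT.lf (nat_lit 16264) (nat_lit 6) (nat_lit 214) (nat_lit 1) (nat_lit 163) (nat_lit 131) (nat_lit 156))) (PT.nd (nat_lit 78) (PT.lf (nat_lit 16188) (nat_lit 6) (nat_lit 213) (nat_lit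 1) (nat_lit 164) (nat_lit 131) (nat_lit 155)) (PT.lf (nat_lit 16112) (nat_lit 6) (nat_lit 212) (nat_lit 1) (nat_lit 165) (nat_lit 131) (nat_lit 154))))))) (PT.nd (nat_lit 46722) (PT.nd (nat_lit 46098) (PT.nd (nat_lit 45786) (PT.nd (nat_lit 78) (PT.lf (nat_lit 16036) (nat_lit 6) (nat_lit 211) (nat_lit 1) (nat_lit 166) (nat_lit 131) (nat_lit 153)) (PT.nd (nat_lit 45630) (PT.lf (nat_lit 15960) (nat_lit 6) (nat_lit 210) (nat_lit 1) (nat_lit 167) (nat_lit 131) (nat_lit 152)) (PT.lf (nat_lit 16568) (nat_lit 6) (nat_lit 218) (nat_lit 3) (nat_lit 151) (nat_lit 132) (nat_lit 167)))) (PT.nd (nat_lit 156) (PT.nd (nat_lit 78) (PT.lf (nat_lit 16644) (nat_lit 6) (nat_lit 219) (nat_lit 3) (nat_lit 152) (nat_lit 132) (nat_lit 166)) (PT.lf (nat_lit 16720) (nat_lit 6) (nat_lit 220) (nat_lit 3) (nat_lit 153) (nat_lit 132) (nat_lit 165))) (PT.nd (nat_lit 78) (PT.lf (nat_lit 16796) (nat_lit 6) (nat_lit 221) (nat_lit 3)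 (nat_lit 154) (nat_lit 132) (nat_lit 164)) (PT.lf (nat_lit 16872) (nat_lit 6) (nat_lit 222) (nat_lit 3) (nat_lit 155) (nat_lit 132) (nat_lit 163))))) (PT.nd (nat_lit 312) (PT.nd (nat_lit 156) (PT.nd (nat_lit 78) (PT.lf (nat_lit 16948) (nat_lit 6) (nat_lit 223) (nat_lit 3) (nat_lit 156) (nat_lit 132) (nat_lit 162)) (PT.lf (nat_lit 17024) (nat_lit 6) (nat_lit 224) (nat_lit 3) (nat_lit 157) (nat_lit 132) (nat_lit 161))) (PT.nd (nat_lit 78) (PT.lf (nat_lit 17100) (nat_lit 6) (nat_lit 225) (nat_lit 3) (nat_lit 158) (nat_lit 132) (nat_lit 160)) (PT.lf (nat_lit 17176) (nat_lit 3) (nat_lit 226) (nat_lit 1) (nat_lit 159) (nat_lit 132) (nat_lit 159)))) (PT.nd (nat_lit 156) (PT.nd (nat_lit 78) (PT.lf (nat_lit 17100) (nat_lit 6) (nat_lit 225) (nat_lit 1) (nat_lit 160) (nat_lit 132) (nat_lit 158)) (PT.lf (nat_lit 17024) (nat_lit 6) (nat_lit 224) (nat_lit 1) (nat_lit 161) (nat_lit 132) (nat_lit 157))) (PT.nd (nat_lit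 78) (PT.lf (nat_lit 16948) (nat_lit 6) (nat_lit 223) (nat_lit 1) (nat_lit 162) (nat_lit 132) (nat_lit 156)) (PT.lf (nat_lit 16872) (nat_lit 6) (nat_lit 222) (nat_lit 1) (nat_lit 163) (nat_lit 132) (nat_lit 155)))))) (PT.nd (nat_lit 46098) (PT.nd (nat_lit 234) (PT.nd (nat_lit 78) (PT.lf (nat_lit 16796) (nat_lit 6) (nat_lit 221) (nat_lit 1) (nat_lit 164) (nat_lit 132) (nat_lit 154)) (PT.nd (nat_lit 78) (PT.lf (nat_lit 16720) (nat_lit 6) (nat_lit 220) (nat_lit 1) (nat_lit 165) (nat_lit 132) (nat_lit 153)) (PT.lf (nat_lit 16644) (nat_lit 6) (nat_lit 219) (nat_lit 1) (nat_lit 166) (nat_lit 132) (nat_lit 152)))) (PT.nd (nat_lit 45708) (PT.nd (nat_lit 45630) (PT.lf (nat_lit 16568) (nat_lit 6) (nat_lit 218) (nat_lit 1) (nat_lit 167) (nat_lit 132) (nat_lit 151)) (PT.lf (nat_lit 17252) (nat_lit 6) (nat_lit 227) (nat_lit 3) (nat_lit 151) (nat_lit 133) (nat_lit 166))) (PT.nd (nat_lit 78) (PT.lf (nat_lit 17328)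 (nat_lit 6) (nat_lit 228) (nat_lit 3) (nat_lit 152) (nat_lit 133) (nat_lit 165)) (PT.lf (nat_lit 17404) (nat_lit 6) (nat_lit 229) (nat_lit 3) (nat_lit 153) (nat_lit 133) (nat_lit 164))))) (PT.nd (nat_lit 312) (PT.nd (nat_lit 156) (PT.nd (nat_lit 78) (PT.lf (nat_lit 17480) (nat_lit 6) (nat_lit 230) (nat_lit 3) (nat_lit 154) (nat_lit 133) (nat_lit 163)) (PT.lf (nat_lit 17556) (nat_lit 6) (nat_lit 231) (nat_lit 3) (nat_lit 155) (nat_lit 133) (nat_lit 162))) (PT.nd (nat_lit 78) (PT.lf (nat_lit 17632) (nat_lit 6) (nat_lit 232) (nat_lit 3) (nat_lit 156) (nat_lit 133) (nat_lit 161)) (PT.lf (nat_lit 17708) (nat_lit 6) (nat_lit 233) (nat_lit 3) (nat_lit 157) (nat_lit 133) (nat_lit 160)))) (PT.nd (nat_lit 156) (PT.nd (nat_lit 78) (PT.lf (nat_lit 17784) (nat_lit 6) (nat_lit 234) (nat_lit 3) (nat_lit 158) (nat_lit 133) (nat_lit 159)) (PT.lf (nat_lit 17784) (nat_lit 6) (nat_lit 234) (nat_lit 1) (nat_lit 159) (nat_lit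 133) (nat_lit 158))) (PT.nd (nat_lit 78) (PT.lf (nat_lit 17708) (nat_lit 6) (nat_lit 233) (nat_lit 1) (nat_lit 160) (nat_lit 133) (nat_lit 157)) (PT.lf (nat_lit 17632) (nat_lit 6) (nat_lit 232) (nat_lit 1) (nat_lit 161) (nat_lit 133) (nat_lit 156))))))))
noncomputable def pc6 : PT := (PT.nd (nat_lit 93288) (PT.nd (nat_lit 46644) (PT.nd (nat_lit 46098) (PT.nd (nat_lit 234) (PT.nd (nat_lit 78) (PT.lf (nat_lit 17556) (nat_lit 6) (nat_lit 231) (nat_lit 1) (nat_lit 162) (nat_lit 133) (nat_lit 155)) (PT.nd (nat_lit 78) (PT.lf (nat_lit 17480) (nat_lit 6) (nat_lit 230) (nat_lit 1) (nat_lit 163) (nat_lit 133) (nat_lit 154)) (PT.lf (nat_lit 17404) (nat_lit 6) (nat_lit 229) (nat_lit 1) (nat_lit 164) (nat_lit 133) (nat_lit 153)))) (PT.nd (nat_lit 45708) (PT.nd (nat_lit 78) (PT.lf (nat_lit 17328) (nat_lit 6) (nat_lit 228) (nat_lit 1) (nat_lit 165) (nat_lit 133) (nat_lit 152)) (PT.lf (nat_lit 17252) (nat_lit 6)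 (nat_lit 227) (nat_lit 1) (nat_lit 166) (nat_lit 133) (nat_lit 151))) (PT.nd (nat_lit 78) (PT.lf (nat_lit 18468) (nat_lit 6) (nat_lit 243) (nat_lit 3) (nat_lit 150) (nat_lit 134) (nat_lit 166)) (PT.lf (nat_lit 18544) (nat_lit 6) (nat_lit 244) (nat_lit 3) (nat_lit 151) (nat_lit 134) (nat_lit 165))))) (PT.nd (nat_lit 234) (PT.nd (nat_lit 78) (PT.lf (nat_lit 18620) (nat_lit 6) (nat_lit 245) (nat_lit 3) (nat_lit 152) (nat_lit 134) (nat_lit 164)) (PT.nd (nat_lit 78) (PT.lf (nat_lit 18696) (nat_lit 6) (nat_lit 246) (nat_lit 3) (nat_lit 153) (nat_lit 134) (nat_lit 163)) (PT.lf (nat_lit 18772) (nat_lit 6) (nat_lit 247) (nat_lit 3) (nat_lit 154) (nat_lit 134) (nat_lit 162)))) (PT.nd (nat_lit 156) (PT.nd (nat_lit 78) (PT.lf (nat_lit 18848) (nat_lit 6) (nat_lit 248) (nat_lit 3) (nat_lit 155) (nat_lit 134) (nat_lit 161)) (PT.lf (nat_lit 18924) (nat_lit 6) (nat_lit 249) (nat_lit 3) (nat_lit 156) (nat_lit 134)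 (nat_lit 160))) (PT.nd (nat_lit 78) (PT.lf (nat_lit 19000) (nat_lit 6) (nat_lit 250) (nat_lit 3) (nat_lit 157) (nat_lit 134) (nat_lit 159)) (PT.lf (nat_lit 19076) (nat_lit 3) (nat_lit 251) (nat_lit 1) (nat_lit 158) (nat_lit 134) (nat_lit 158)))))) (PT.nd (nat_lit 546) (PT.nd (nat_lit 234) (PT.nd (nat_lit 78) (PT.lf (nat_lit 19000) (nat_lit 6) (nat_lit 250) (nat_lit 1) (nat_lit 159) (nat_lit 134) (nat_lit 157)) (PT.nd (nat_lit 78) (PT.lf (nat_lit 18924) (nat_lit 6) (nat_lit 249) (nat_lit 1) (nat_lit 160) (nat_lit 134) (nat_lit 156)) (PT.lf (nat_lit 18848) (nat_lit 6) (nat_lit 248) (nat_lit 1) (nat_lit 161) (nat_lit 134) (nat_lit 155)))) (PT.nd (nat_lit 156) (PT.nd (nat_lit 78) (PT.lf (nat_lit 18772) (nat_lit 6) (nat_lit 247) (nat_lit 1) (nat_lit 162) (nat_lit 134) (nat_lit 154)) (PT.lf (nat_lit 18696) (nat_lit 6) (nat_lit 246) (nat_lit 1) (nat_lit 163) (nat_lit 134) (nat_lit 153))) (PT.nd (nat_lit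 78) (PT.lf (nat_lit 18620) (nat_lit 6) (nat_lit 245) (nat_lit 1) (nat_lit 164) (nat_lit 134) (nat_lit 152)) (PT.lf (nat_lit 18544) (nat_lit 6) (nat_lit 244) (nat_lit 1) (nat_lit 165) (nat_lit 134) (nat_lit 151))))) (PT.nd (nat_lit 45786) (PT.nd (nat_lit 45630) (PT.nd (nat_lit 45552) (PT.lf (nat_lit 18468) (nat_lit 6) (nat_lit 243) (nat_lit 1) (nat_lit 166) (nat_lit 134) (nat_lit 150)) (PT.lf (nat_lit 18392) (nat_lit 6) (nat_lit 242) (nat_lit 3) (nat_lit 149) (nat_lit 135) (nat_lit 166))) (PT.nd (nat_lit 78) (PT.lf (nat_lit 19684) (nat_lit 6) (nat_lit 259) (nat_lit 3) (nat_lit 150) (nat_lit 135) (nat_lit 165)) (PT.lf (nat_lit 19760) (nat_lit 6) (nat_lit 260) (nat_lit 3) (nat_lit 151) (nat_lit 135) (nat_lit 164)))) (PT.nd (nat_lit 156) (PT.nd (nat_lit 78) (PT.lf (nat_lit 19836) (nat_lit 6) (nat_lit 261) (nat_lit 3) (nat_lit 152) (nat_lit 135) (nat_lit 163)) (PT.lf (nat_lit 19912) (nat_lit 6) (nat_lit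 262) (nat_lit 3) (nat_lit 153) (nat_lit 135) (nat_lit 162))) (PT.nd (nat_lit 78) (PT.lf (nat_lit 19988) (nat_lit 6) (nat_lit 263) (nat_lit 3) (nat_lit 154) (nat_lit 135) (nat_lit 161)) (PT.lf (nat_lit 20064) (nat_lit 6) (nat_lit 264) (nat_lit 3) (nat_lit 155) (nat_lit 135) (nat_lit 160))))))) (PT.nd (nat_lit 46566) (PT.nd (nat_lit 546) (PT.nd (nat_lit 234) (PT.nd (nat_lit 78) (PT.lf (nat_lit 20140) (nat_lit 6) (nat_lit 265) (nat_lit 3) (nat_lit 156) (nat_lit 135) (nat_lit 159)) (PT.nd (nat_lit 78) (PT.lf (nat_lit 20216) (nat_lit 6) (nat_lit 266) (nat_lit 3) (nat_lit 157) (nat_lit 135) (nat_lit 158)) (PT.lf (nat_lit 20216) (nat_lit 6) (nat_lit 266) (nat_lit 1) (nat_lit 158) (nat_lit 135) (nat_lit 157)))) (PT.nd (nat_lit 156) (PT.nd (nat_lit 78) (PT.lf (nat_lit 20140) (nat_lit 6) (nat_lit 265) (nat_lit 1) (nat_lit 159) (nat_lit 135) (nat_lit 156)) (PT.lf (nat_lit 20064) (nat_lit 6) (nat_lit 264) (nat_lit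 1) (nat_lit 160) (nat_lit 135) (nat_lit 155))) (PT.nd (nat_lit 78) (PT.lf (nat_lit 19988) (nat_lit 6) (nat_lit 263) (nat_lit 1) (nat_lit 161) (nat_lit 135) (nat_lit 154)) (PT.lf (nat_lit 19912) (nat_lit 6) (nat_lit 262) (nat_lit 1) (nat_lit 162) (nat_lit 135) (nat_lit 153))))) (PT.nd (nat_lit 45708) (PT.nd (nat_lit 156) (PT.nd (nat_lit 78) (PT.lf (nat_lit 19836) (nat_lit 6) (nat_lit 261) (nat_lit 1) (nat_lit 163) (nat_lit 135) (nat_lit 152)) (PT.lf (nat_lit 19760) (nat_lit 6) (nat_lit 260) (nat_lit 1) (nat_lit 164) (nat_lit 135) (nat_lit 151))) (PT.nd (nat_lit 78) (PT.lf (nat_lit 19684) (nat_lit 6) (nat_lit 259) (nat_lit 1) (nat_lit 165) (nat_lit 135) (nat_lit 150)) (PT.lf (nat_lit 18392) (nat_lit 6) (nat_lit 242) (nat_lit 1) (nat_lit 166) (nat_lit 135) (nat_lit 149)))) (PT.nd (nat_lit 156) (PT.nd (nat_lit 78) (PT.lf (nat_lit 18316) (nat_lit 6) (nat_lit 241) (nat_lit 3) (nat_lit 148) (nat_lit 136)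 (nat_lit 166)) (PT.lf (nat_lit 19608) (nat_lit 6) (nat_lit 258) (nat_lit 3) (nat_lit 149) (nat_lit 136) (nat_lit 165))) (PT.nd (nat_lit 78) (PT.lf (nat_lit 20824) (nat_lit 6) (nat_lit 274) (nat_lit 3) (nat_lit 150) (nat_lit 136) (nat_lit 164)) (PT.lf (nat_lit 20900) (nat_lit 6) (nat_lit 275) (nat_lit 3) (nat_lit 151) (nat_lit 136) (nat_lit 163)))))) (PT.nd (nat_lit 546) (PT.nd (nat_lit 234) (PT.nd (nat_lit 78) (PT.lf (nat_lit 20976) (nat_lit 6) (nat_lit 276) (nat_lit 3) (nat_lit 152) (nat_lit 136) (nat_lit 162)) (PT.nd (nat_lit 78) (PT.lf (nat_lit 21052) (nat_lit 6) (nat_lit 277) (nat_lit 3) (nat_lit 153) (nat_lit 136) (nat_lit 161)) (PT.lf (nat_lit 21128) (nat_lit 6) (nat_lit 278) (nat_lit 3) (nat_lit 154) (nat_lit 136) (nat_lit 160)))) (PT.nd (nat_lit 156) (PT.nd (nat_lit 78) (PT.lf (nat_lit 21204) (nat_lit 6) (nat_lit 279) (nat_lit 3) (nat_lit 155) (nat_lit 136) (nat_lit 159)) (PT.lf (nat_lit 21280)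 (nat_lit 6) (nat_lit 280) (nat_lit 3) (nat_lit 156) (nat_lit 136) (nat_lit 158))) (PT.nd (nat_lit 78) (PT.lf (nat_lit 21356) (nat_lit 3) (nat_lit 281) (nat_lit 1) (nat_lit 157) (nat_lit 136) (nat_lit 157)) (PT.lf (nat_lit 21280) (nat_lit 6) (nat_lit 280) (nat_lit 1) (nat_lit 158) (nat_lit 136) (nat_lit 156))))) (PT.nd (nat_lit 312) (PT.nd (nat_lit 156) (PT.nd (nat_lit 78) (PT.lf (nat_lit 21204) (nat_lit 6) (nat_lit 279) (nat_lit 1) (nat_lit 159) (nat_lit 136) (nat_lit 155)) (PT.lf (nat_lit 21128) (nat_lit 6) (nat_lit 278) (nat_lit 1) (nat_lit 160) (nat_lit 136) (nat_lit 154))) (PT.nd (nat_lit 78) (PT.lf (nat_lit 21052) (nat_lit 6) (nat_lit 277) (nat_lit 1) (nat_lit 161) (nat_lit 136) (nat_lit 153)) (PT.lf (nat_lit 20976) (nat_lit 6) (nat_lit 276) (nat_lit 1) (nat_lit 162) (nat_lit 136) (nat_lit 152)))) (PT.nd (nat_lit 156) (PT.nd (nat_lit 78) (PT.lf (nat_lit 20900) (nat_lit 6) (nat_lit 275) (nat_lit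 1) (nat_lit 163) (nat_lit 136) (nat_lit 151)) (PT.lf (nat_lit 20824) (nat_lit 6) (nat_lit 274) (nat_lit 1) (nat_lit 164) (nat_lit 136) (nat_lit 150))) (PT.nd (nat_lit 78) (PT.lf (nat_lit 19608) (nat_lit 6) (nat_lit 258) (nat_lit 1) (nat_lit 165) (nat_lit 136) (nat_lit 149)) (PT.lf (nat_lit 18316) (nat_lit 6) (nat_lit 241) (nat_lit 1) (nat_lit 166) (nat_lit 136) (nat_lit 148))))))))
noncomputable def pc7 : PT := (PT.nd (nat_lit 47580) (PT.nd (nat_lit 1170) (PT.nd (nat_lit 546) (PT.nd (nat_lit 234) (PT.nd (nat_lit 78) (PT.lf (nat_lit 18240) (nat_lit 6) (nat_lit 240) (nat_lit 3) (nat_lit 147) (nat_lit 137) (nat_lit 166)) (PT.nd (nat_lit 78) (PT.lf (nat_lit 19532) (nat_lit 6) (nat_lit 257) (nat_lit 3) (nat_lit 148) (nat_lit 137) (nat_lit 165)) (PT.lf (nat_lit 20748) (nat_lit 6) (nat_lit 273) (nat_lit 3) (nat_lit 149) (nat_lit 137) (nat_lit 164)))) (PT.nd (nat_lit 156) (PT.nd (nat_lit 78) (PT.lf (nat_lit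 21888) (nat_lit 6) (nat_lit 288) (nat_lit 3) (nat_lit 150) (nat_lit 137) (nat_lit 163)) (PT.lf (nat_lit 21964) (nat_lit 6) (nat_lit 289) (nat_lit 3) (nat_lit 151) (nat_lit 137) (nat_lit 162))) (PT.nd (nat_lit 78) (PT.lf (nat_lit 22040) (nat_lit 6) (nat_lit 290) (nat_lit 3) (nat_lit 152) (nat_lit 137) (nat_lit 161)) (PT.lf (nat_lit 22116) (nat_lit 6) (nat_lit 291) (nat_lit 3) (nat_lit 153) (nat_lit 137) (nat_lit 160))))) (PT.nd (nat_lit 312) (PT.nd (nat_lit 156) (PT.nd (nat_lit 78) (PT.lf (nat_lit 22192) (nat_lit 6) (nat_lit 292) (nat_lit 3) (nat_lit 154) (nat_lit 137) (nat_lit 159)) (PT.lf (nat_lit 22268) (nat_lit 6) (nat_lit 293) (nat_lit 3) (nat_lit 155) (nat_lit 137) (nat_lit 158))) (PT.nd (nat_lit 78) (PT.lf (nat_lit 22344) (nat_lit 6) (nat_lit 294) (nat_lit 3) (nat_lit 156) (nat_lit 137) (nat_lit 157)) (PT.lf (nat_lit 22344) (nat_lit 6) (nat_lit 294) (nat_lit 1) (nat_lit 157) (nat_lit 137) (nat_lit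 156)))) (PT.nd (nat_lit 156) (PT.nd (nat_lit 78) (PT.lf (nat_lit 22268) (nat_lit 6) (nat_lit 293) (nat_lit 1) (nat_lit 158) (nat_lit 137) (nat_lit 155)) (PT.lf (nat_lit 22192) (nat_lit 6) (nat_lit 292) (nat_lit 1) (nat_lit 159) (nat_lit 137) (nat_lit 154))) (PT.nd (nat_lit 78) (PT.lf (nat_lit 22116) (nat_lit 6) (nat_lit 291) (nat_lit 1) (nat_lit 160) (nat_lit 137) (nat_lit 153)) (PT.lf (nat_lit 22040) (nat_lit 6) (nat_lit 290) (nat_lit 1) (nat_lit 161) (nat_lit 137) (nat_lit 152)))))) (PT.nd (nat_lit 45786) (PT.nd (nat_lit 234) (PT.nd (nat_lit 78) (PT.lf (nat_lit 21964) (nat_lit 6) (nat_lit 289) (nat_lit 1) (nat_lit 162) (nat_lit 137) (nat_lit 151)) (PT.nd (nat_lit 78) (PT.lf (nat_lit 21888) (nat_lit 6) (nat_lit 288) (nat_lit 1) (nat_lit 163) (nat_lit 137) (nat_lit 150)) (PT.lf (nat_lit 20748) (nat_lit 6) (nat_lit 273) (nat_lit 1) (nat_lit 164) (nat_lit 137) (nat_lit 149)))) (PT.nd (nat_lit 45396)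 (PT.nd (nat_lit 78) (PT.lf (nat_lit 19532) (nat_lit 6) (nat_lit 257) (nat_lit 1) (nat_lit 165) (nat_lit 137) (nat_lit 148)) (PT.lf (nat_lit 18240) (nat_lit 6) (nat_lit 240) (nat_lit 1) (nat_lit 166) (nat_lit 137) (nat_lit 147))) (PT.nd (nat_lit 78) (PT.lf (nat_lit 18164) (nat_lit 6) (nat_lit 239) (nat_lit 3) (nat_lit 146) (nat_lit 138) (nat_lit 166)) (PT.lf (nat_lit 19456) (nat_lit 6) (nat_lit 256) (nat_lit 3) (nat_lit 147) (nat_lit 138) (nat_lit 165))))) (PT.nd (nat_lit 312) (PT.nd (nat_lit 156) (PT.nd (nat_lit 78) (PT.lf (nat_lit 20672) (nat_lit 6) (nat_lit 272) (nat_lit 3) (nat_lit 148) (nat_lit 138) (nat_lit 164)) (PT.lf (nat_lit 21812) (nat_lit 6) (nat_lit 287) (nat_lit 3) (nat_lit 149) (nat_lit 138) (nat_lit 163))) (PT.nd (nat_lit 78) (PT.lf (nat_lit 22876) (nat_lit 6) (nat_lit 301) (nat_lit 3) (nat_lit 150) (nat_lit 138) (nat_lit 162)) (PT.lf (nat_lit 22952) (nat_lit 6) (nat_lit 302) (nat_lit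 3) (nat_lit 151) (nat_lit 138) (nat_lit 161)))) (PT.nd (nat_lit 156) (PT.nd (nat_lit 78) (PT.lf (nat_lit 23028) (nat_lit 6) (nat_lit 303) (nat_lit 3) (nat_lit 152) (nat_lit 138) (nat_lit 160)) (PT.lf (nat_lit 23104) (nat_lit 6) (nat_lit 304) (nat_lit 3) (nat_lit 153) (nat_lit 138) (nat_lit 159))) (PT.nd (nat_lit 78) (PT.lf (nat_lit 23180) (nat_lit 6) (nat_lit 305) (nat_lit 3) (nat_lit 154) (nat_lit 138) (nat_lit 158)) (PT.lf (nat_lit 23256) (nat_lit 6) (nat_lit 306) (nat_lit 3) (nat_lit 155) (nat_lit 138) (nat_lit 157))))))) (PT.nd (nat_lit 46332) (PT.nd (nat_lit 546) (PT.nd (nat_lit 234) (PT.nd (nat_lit 78) (PT.lf (nat_lit 23332) (nat_lit 3) (nat_lit 307) (nat_lit 1) (nat_lit 156) (nat_lit 138) (nat_lit 156)) (PT.nd (nat_lit 78) (PT.lf (nat_lit 23256) (nat_lit 6) (nat_lit 306) (nat_lit 1) (nat_lit 157) (nat_lit 138) (nat_lit 155)) (PT.lf (nat_lit 23180) (nat_lit 6) (nat_lit 305) (nat_lit 1) (nat_lit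 158) (nat_lit 138) (nat_lit 154)))) (PT.nd (nat_lit 156) (PT.nd (nat_lit 78) (PT.lf (nat_lit 23104) (nat_lit 6) (nat_lit 304) (nat_lit 1) (nat_lit 159) (nat_lit 138) (nat_lit 153)) (PT.lf (nat_lit 23028) (nat_lit 6) (nat_lit 303) (nat_lit 1) (nat_lit 160) (nat_lit 138) (nat_lit 152))) (PT.nd (nat_lit 78) (PT.lf (nat_lit 22952) (nat_lit 6) (nat_lit 302) (nat_lit 1) (nat_lit 161) (nat_lit 138) (nat_lit 151)) (PT.lf (nat_lit 22876) (nat_lit 6) (nat_lit 301) (nat_lit 1) (nat_lit 162) (nat_lit 138) (nat_lit 150))))) (PT.nd (nat_lit 45474) (PT.nd (nat_lit 156) (PT.nd (nat_lit 78) (PT.lf (nat_lit 21812) (nat_lit 6) (nat_lit 287) (nat_lit 1) (nat_lit 163) (nat_lit 138) (nat_lit 149)) (PT.lf (nat_lit 20672) (nat_lit 6) (nat_lit 272) (nat_lit 1) (nat_lit 164) (nat_lit 138) (nat_lit 148))) (PT.nd (nat_lit 78) (PT.lf (nat_lit 19456) (nat_lit 6) (nat_lit 256) (nat_lit 1) (nat_lit 165) (nat_lit 138) (nat_lit 147))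 (PT.lf (nat_lit 18164) (nat_lit 6) (nat_lit 239) (nat_lit 1) (nat_lit 166) (nat_lit 138) (nat_lit 146)))) (PT.nd (nat_lit 156) (PT.nd (nat_lit 78) (PT.lf (nat_lit 18088) (nat_lit 6) (nat_lit 238) (nat_lit 3) (nat_lit 145) (nat_lit 139) (nat_lit 166)) (PT.lf (nat_lit 19380) (nat_lit 6) (nat_lit 255) (nat_lit 3) (nat_lit 146) (nat_lit 139) (nat_lit 165))) (PT.nd (nat_lit 78) (PT.lf (nat_lit 20596) (nat_lit 6) (nat_lit 271) (nat_lit 3) (nat_lit 147) (nat_lit 139) (nat_lit 164)) (PT.lf (nat_lit 21736) (nat_lit 6) (nat_lit 286) (nat_lit 3) (nat_lit 148) (nat_lit 139) (nat_lit 163)))))) (PT.nd (nat_lit 546) (PT.nd (nat_lit 234) (PT.nd (nat_lit 78) (PT.lf (nat_lit 22800) (nat_lit 6) (nat_lit 300) (nat_lit 3) (nat_lit 149) (nat_lit 139) (nat_lit 162)) (PT.nd (nat_lit 78) (PT.lf (nat_lit 23788) (nat_lit 6) (nat_lit 313) (nat_lit 3) (nat_lit 150) (nat_lit 139) (nat_lit 161)) (PT.lf (nat_lit 23864) (nat_lit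 6) (nat_lit 314) (nat_lit 3) (nat_lit 151) (nat_lit 139) (nat_lit 160)))) (PT.nd (nat_lit 156) (PT.nd (nat_lit 78) (PT.lf (nat_lit 23940) (nat_lit 6) (nat_lit 315) (nat_lit 3) (nat_lit 152) (nat_lit 139) (nat_lit 159)) (PT.lf (nat_lit 24016) (nat_lit 6) (nat_lit 316) (nat_lit 3) (nat_lit 153) (nat_lit 139) (nat_lit 158))) (PT.nd (nat_lit 78) (PT.lf (nat_lit 24092) (nat_lit 6) (nat_lit 317) (nat_lit 3) (nat_lit 154) (nat_lit 139) (nat_lit 157)) (PT.lf (nat_lit 24168) (nat_lit 6) (nat_lit 318) (nat_lit 3) (nat_lit 155) (nat_lit 139) (nat_lit 156))))) (PT.nd (nat_lit 312) (PT.nd (nat_lit 156) (PT.nd (nat_lit 78) (PT.lf (nat_lit 24168) (nat_lit 6) (nat_lit 318) (nat_lit 1) (nat_lit 156) (nat_lit 139) (nat_lit 155)) (PT.lf (nat_lit 24092) (nat_lit 6) (nat_lit 317) (nat_lit 1) (nat_lit 157) (nat_lit 139) (nat_lit 154))) (PT.nd (nat_lit 78) (PT.lf (nat_lit 24016) (nat_lit 6) (nat_lit 316) (nat_lit 1) (nat_lit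 158) (nat_lit 139) (nat_lit 153)) (PT.lf (nat_lit 23940) (nat_lit 6) (nat_lit 315) (nat_lit 1) (nat_lit 159) (nat_lit 139) (nat_lit 152)))) (PT.nd (nat_lit 156) (PT.nd (nat_lit 78) (PT.lf (nat_lit 23864) (nat_lit 6) (nat_lit 314) (nat_lit 1) (nat_lit 160) (nat_lit 139) (nat_lit 151)) (PT.lf (nat_lit 23788) (nat_lit 6) (nat_lit 313) (nat_lit 1) (nat_lit 161) (nat_lit 139) (nat_lit 150))) (PT.nd (nat_lit 78) (PT.lf (nat_lit 22800) (nat_lit 6) (nat_lit 300) (nat_lit 1) (nat_lit 162) (nat_lit 139) (nat_lit 149)) (PT.lf (nat_lit 21736) (nat_lit 6) (nat_lit 286) (nat_lit 1) (nat_lit 163) (nat_lit 139) (nat_lit 148))))))))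
noncomputable def pc8 : PT := (PT.nd (nat_lit 92352) (PT.nd (nat_lit 46176) (PT.nd (nat_lit 45630) (PT.nd (nat_lit 45318) (PT.nd (nat_lit 78) (PT.lf (nat_lit 20596) (nat_lit 6) (nat_lit 271) (nat_lit 1) (nat_lit 164) (nat_lit 139) (nat_lit 147)) (PT.nd (nat_lit 78) (PT.lf (nat_lit 19380) (nat_lit 6) (nat_lit 255) (nat_lit 1) (nat_lit 165) (nat_lit 139) (nat_lit 146)) (PT.lf (nat_lit 18088) (nat_lit 6) (nat_lit 238) (nat_lit 1) (nat_lit 166) (nat_lit 139) (nat_lit 145)))) (PT.nd (nat_lit 156) (PT.nd (nat_lit 78) (PT.lf (nat_lit 18012) (nat_lit 6) (nat_lit 237) (nat_lit 3) (nat_lit 144) (nat_lit 140) (nat_lit 166)) (PT.lf (nat_lit 19304) (nat_lit 6) (nat_lit 254) (nat_lit 3) (nat_lit 145) (nat_lit 140) (nat_lit 165))) (PT.nd (nat_lit 78) (PT.lf (nat_lit 20520) (nat_lit 6) (nat_lit 270) (nat_lit 3) (nat_lit 146) (nat_lit 140) (nat_lit 164)) (PT.lf (nat_lit 21660) (nat_lit 6) (nat_lit 285) (nat_lit 3)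 (nat_lit 147) (nat_lit 140) (nat_lit 163))))) (PT.nd (nat_lit 234) (PT.nd (nat_lit 78) (PT.lf (nat_lit 22724) (nat_lit 6) (nat_lit 299) (nat_lit 3) (nat_lit 148) (nat_lit 140) (nat_lit 162)) (PT.nd (nat_lit 78) (PT.lf (nat_lit 23712) (nat_lit 6) (nat_lit 312) (nat_lit 3) (nat_lit 149) (nat_lit 140) (nat_lit 161)) (PT.lf (nat_lit 24624) (nat_lit 6) (nat_lit 324) (nat_lit 3) (nat_lit 150) (nat_lit 140) (nat_lit 160)))) (PT.nd (nat_lit 156) (PT.nd (nat_lit 78) (PT.lf (nat_lit 24700) (nat_lit 6) (nat_lit 325) (nat_lit 3) (nat_lit 151) (nat_lit 140) (nat_lit 159)) (PT.lf (nat_lit 24776) (nat_lit 6) (nat_lit 326) (nat_lit 3) (nat_lit 152) (nat_lit 140) (nat_lit 158))) (PT.nd (nat_lit 78) (PT.lf (nat_lit 24852) (nat_lit 6) (nat_lit 327) (nat_lit 3) (nat_lit 153) (nat_lit 140) (nat_lit 157)) (PT.lf (nat_lit 24928) (nat_lit 6) (nat_lit 328) (nat_lit 3) (nat_lit 154) (nat_lit 140) (nat_lit 156)))))) (PT.nd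 (nat_lit 546) (PT.nd (nat_lit 234) (PT.nd (nat_lit 78) (PT.lf (nat_lit 25004) (nat_lit 3) (nat_lit 329) (nat_lit 1) (nat_lit 155) (nat_lit 140) (nat_lit 155)) (PT.nd (nat_lit 78) (PT.lf (nat_lit 24928) (nat_lit 6) (nat_lit 328) (nat_lit 1) (nat_lit 156) (nat_lit 140) (nat_lit 154)) (PT.lf (nat_lit 24852) (nat_lit 6) (nat_lit 327) (nat_lit 1) (nat_lit 157) (nat_lit 140) (nat_lit 153)))) (PT.nd (nat_lit 156) (PT.nd (nat_lit 78) (PT.lf (nat_lit 24776) (nat_lit 6) (nat_lit 326) (nat_lit 1) (nat_lit 158) (nat_lit 140) (nat_lit 152)) (PT.lf (nat_lit 24700) (nat_lit 6) (nat_lit 325) (nat_lit 1) (nat_lit 159) (nat_lit 140) (nat_lit 151))) (PT.nd (nat_lit 78) (PT.lf (nat_lit 24624) (nat_lit 6) (nat_lit 324) (nat_lit 1) (nat_lit 160) (nat_lit 140) (nat_lit 150)) (PT.lf (nat_lit 23712) (nat_lit 6) (nat_lit 312) (nat_lit 1) (nat_lit 161) (nat_lit 140) (nat_lit 149))))) (PT.nd (nat_lit 312) (PT.nd (nat_lit 156)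 (PT.nd (nat_lit 78) (PT.lf (nat_lit 22724) (nat_lit 6) (nat_lit 299) (nat_lit 1) (nat_lit 162) (nat_lit 140) (nat_lit 148)) (PT.lf (nat_lit 21660) (nat_lit 6) (nat_lit 285) (nat_lit 1) (nat_lit 163) (nat_lit 140) (nat_lit 147))) (PT.nd (nat_lit 78) (PT.lf (nat_lit 20520) (nat_lit 6) (nat_lit 270) (nat_lit 1) (nat_lit 164) (nat_lit 140) (nat_lit 146)) (PT.lf (nat_lit 19304) (nat_lit 6) (nat_lit 254) (nat_lit 1) (nat_lit 165) (nat_lit 140) (nat_lit 145)))) (PT.nd (nat_lit 45162) (PT.nd (nat_lit 45084) (PT.lf (nat_lit 18012) (nat_lit 6) (nat_lit 237) (nat_lit 1) (nat_lit 166) (nat_lit 140) (nat_lit 144)) (PT.lf (nat_lit 17936) (nat_lit 6) (nat_lit 236) (nat_lit 3) (nat_lit 143) (nat_lit 141) (nat_lit 166))) (PT.nd (nat_lit 78) (PT.lf (nat_lit 19228) (nat_lit 6) (nat_lit 253) (nat_lit 3) (nat_lit 144) (nat_lit 141) (nat_lit 165)) (PT.lf (nat_lit 20444) (nat_lit 6) (nat_lit 269) (nat_lit 3) (nat_lit 145)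 (nat_lit 141) (nat_lit 164))))))) (PT.nd (nat_lit 1170) (PT.nd (nat_lit 546) (PT.nd (nat_lit 234) (PT.nd (nat_lit 78) (PT.lf (nat_lit 21584) (nat_lit 6) (nat_lit 284) (nat_lit 3) (nat_lit 146) (nat_lit 141) (nat_lit 163)) (PT.nd (nat_lit 78) (PT.lf (nat_lit 22648) (nat_lit 6) (nat_lit 298) (nat_lit 3) (nat_lit 147) (nat_lit 141) (nat_lit 162)) (PT.lf (nat_lit 23636) (nat_lit 6) (nat_lit 311) (nat_lit 3) (nat_lit 148) (nat_lit 141) (nat_lit 161)))) (PT.nd (nat_lit 156) (PT.nd (nat_lit 78) (PT.lf (nat_lit 24548) (nat_lit 6) (nat_lit 323) (nat_lit 3) (nat_lit 149) (nat_lit 141) (nat_lit 160)) (PT.lf (nat_lit 25384) (nat_lit 6) (nat_lit 334) (nat_lit 3) (nat_lit 150) (nat_lit 141) (nat_lit 159))) (PT.nd (nat_lit 78) (PT.lf (nat_lit 25460) (nat_lit 6) (nat_lit 335) (nat_lit 3) (nat_lit 151) (nat_lit 141) (nat_lit 158)) (PT.lf (nat_lit 25536) (nat_lit 6) (nat_lit 336) (nat_lit 3) (nat_lit 152) (nat_lit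 141) (nat_lit 157))))) (PT.nd (nat_lit 312) (PT.nd (nat_lit 156) (PT.nd (nat_lit 78) (PT.lf (nat_lit 25612) (nat_lit 6) (nat_lit 337) (nat_lit 3) (nat_lit 153) (nat_lit 141) (nat_lit 156)) (PT.lf (nat_lit 25688) (nat_lit 6) (nat_lit 338) (nat_lit 3) (nat_lit 154) (nat_lit 141) (nat_lit 155))) (PT.nd (nat_lit 78) (PT.lf (nat_lit 25688) (nat_lit 6) (nat_lit 338) (nat_lit 1) (nat_lit 155) (nat_lit 141) (nat_lit 154)) (PT.lf (nat_lit 25612) (nat_lit 6) (nat_lit 337) (nat_lit 1) (nat_lit 156) (nat_lit 141) (nat_lit 153)))) (PT.nd (nat_lit 156) (PT.nd (nat_lit 78) (PT.lf (nat_lit 25536) (nat_lit 6) (nat_lit 336) (nat_lit 1) (nat_lit 157) (nat_lit 141) (nat_lit 152)) (PT.lf (nat_lit 25460) (nat_lit 6) (nat_lit 335) (nat_lit 1) (nat_lit 158) (nat_lit 141) (nat_lit 151))) (PT.nd (nat_lit 78) (PT.lf (nat_lit 25384) (nat_lit 6) (nat_lit 334) (nat_lit 1) (nat_lit 159) (nat_lit 141) (nat_lit 150)) (PT.lf (nat_lit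 24548) (nat_lit 6) (nat_lit 323) (nat_lit 1) (nat_lit 160) (nat_lit 141) (nat_lit 149)))))) (PT.nd (nat_lit 45474) (PT.nd (nat_lit 234) (PT.nd (nat_lit 78) (PT.lf (nat_lit 23636) (nat_lit 6) (nat_lit 311) (nat_lit 1) (nat_lit 161) (nat_lit 141) (nat_lit 148)) (PT.nd (nat_lit 78) (PT.lf (nat_lit 22648) (nat_lit 6) (nat_lit 298) (nat_lit 1) (nat_lit 162) (nat_lit 141) (nat_lit 147)) (PT.lf (nat_lit 21584) (nat_lit 6) (nat_lit 284) (nat_lit 1) (nat_lit 163) (nat_lit 141) (nat_lit 146)))) (PT.nd (nat_lit 156) (PT.nd (nat_lit 78) (PT.lf (nat_lit 20444) (nat_lit 6) (nat_lit 269) (nat_lit 1) (nat_lit 164) (nat_lit 141) (nat_lit 145)) (PT.lf (nat_lit 19228) (nat_lit 6) (nat_lit 253) (nat_lit 1) (nat_lit 165) (nat_lit 141) (nat_lit 144))) (PT.nd (nat_lit 45006) (PT.lf (nat_lit 17936) (nat_lit 6) (nat_lit 236) (nat_lit 1) (nat_lit 166) (nat_lit 141) (nat_lit 143)) (PT.lf (nat_lit 17860) (nat_lit 3) (nat_lit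 235) (nat_lit 3) (nat_lit 142) (nat_lit 142) (nat_lit 166))))) (PT.nd (nat_lit 312) (PT.nd (nat_lit 156) (PT.nd (nat_lit 78) (PT.lf (nat_lit 19152) (nat_lit 6) (nat_lit 252) (nat_lit 3) (nat_lit 143) (nat_lit 142) (nat_lit 165)) (PT.lf (nat_lit 20368) (nat_lit 6) (nat_lit 268) (nat_lit 3) (nat_lit 144) (nat_lit 142) (nat_lit 164))) (PT.nd (nat_lit 78) (PT.lf (nat_lit 21508) (nat_lit 6) (nat_lit 283) (nat_lit 3) (nat_lit 145) (nat_lit 142) (nat_lit 163)) (PT.lf (nat_lit 22572) (nat_lit 6) (nat_lit 297) (nat_lit 3) (nat_lit 146) (nat_lit 142) (nat_lit 162)))) (PT.nd (nat_lit 156) (PT.nd (nat_lit 78) (PT.lf (nat_lit 23560) (nat_lit 6) (nat_lit 310) (nat_lit 3) (nat_lit 147) (nat_lit 142) (nat_lit 161)) (PT.lf (nat_lit 24472) (nat_lit 6) (nat_lit 322) (nat_lit 3) (nat_lit 148) (nat_lit 142) (nat_lit 160))) (PT.nd (nat_lit 78) (PT.lf (nat_lit 25308) (nat_lit 6) (nat_lit 333) (nat_lit 3) (nat_lit 149) (nat_lit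 142) (nat_lit 159)) (PT.lf (nat_lit 26068) (nat_lit 6) (nat_lit 343) (nat_lit 3) (nat_lit 150) (nat_lit 142) (nat_lit 158))))))))
noncomputable def pc9 : PT := (PT.nd (nat_lit 47112) (PT.nd (nat_lit 1092) (PT.nd (nat_lit 546) (PT.nd (nat_lit 234) (PT.nd (nat_lit 78) (PT.lf (nat_lit 26144) (nat_lit 6) (nat_lit 344) (nat_lit 3) (nat_lit 151) (nat_lit 142) (nat_lit 157)) (PT.nd (nat_lit 78) (PT.lf (nat_lit 26220) (nat_lit 6) (nat_lit 345) (nat_lit 3) (nat_lit 152) (nat_lit 142) (nat_lit 156)) (PT.lf (nat_lit 26296) (nat_lit 6) (nat_lit 346) (nat_lit 3) (nat_lit 153) (nat_lit 142) (nat_lit 155)))) (PT.nd (nat_lit 156) (PT.nd (nat_lit 78) (PT.lf (nat_lit 26372) (nat_lit 3) (nat_lit 347) (nat_lit 1) (nat_lit 154) (nat_lit 142) (nat_lit 154)) (PT.lf (nat_lit 26296) (nat_lit 6) (nat_lit 346) (nat_lit 1) (nat_lit 155) (nat_lit 142) (nat_lit 153))) (PT.nd (nat_lit 78) (PT.lf (nat_lit 26220) (nat_lit 6) (nat_lit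 345) (nat_lit 1) (nat_lit 156) (nat_lit 142) (nat_lit 152)) (PT.lf (nat_lit 26144) (nat_lit 6) (nat_lit 344) (nat_lit 1) (nat_lit 157) (nat_lit 142) (nat_lit 151))))) (PT.nd (nat_lit 234) (PT.nd (nat_lit 78) (PT.lf (nat_lit 26068) (nat_lit 6) (nat_lit 343) (nat_lit 1) (nat_lit 158) (nat_lit 142) (nat_lit 150)) (PT.nd (nat_lit 78) (PT.lf (nat_lit 25308) (nat_lit 6) (nat_lit 333) (nat_lit 1) (nat_lit 159) (nat_lit 142) (nat_lit 149)) (PT.lf (nat_lit 24472) (nat_lit 6) (nat_lit 322) (nat_lit 1) (nat_lit 160) (nat_lit 142) (nat_lit 148)))) (PT.nd (nat_lit 156) (PT.nd (nat_lit 78) (PT.lf (nat_lit 23560) (nat_lit 6) (nat_lit 310) (nat_lit 1) (nat_lit 161) (nat_lit 142) (nat_lit 147)) (PT.lf (nat_lit 22572) (nat_lit 6) (nat_lit 297) (nat_lit 1) (nat_lit 162) (nat_lit 142) (nat_lit 146))) (PT.nd (nat_lit 78) (PT.lf (nat_lit 21508) (nat_lit 6) (nat_lit 283) (nat_lit 1) (nat_lit 163) (nat_lit 142) (nat_lit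 145)) (PT.lf (nat_lit 20368) (nat_lit 6) (nat_lit 268) (nat_lit 1) (nat_lit 164) (nat_lit 142) (nat_lit 144)))))) (PT.nd (nat_lit 45396) (PT.nd (nat_lit 45084) (PT.nd (nat_lit 78) (PT.lf (nat_lit 19152) (nat_lit 6) (nat_lit 252) (nat_lit 1) (nat_lit 165) (nat_lit 142) (nat_lit 143)) (PT.nd (nat_lit 44928) (PT.lf (nat_lit 17860) (nat_lit 3) (nat_lit 235) (nat_lit 0) (nat_lit 166) (nat_lit 142) (nat_lit 142)) (PT.lf (nat_lit 17936) (nat_lit 6) (nat_lit 236) (nat_lit 5) (nat_lit 141) (nat_lit 143) (nat_lit 166)))) (PT.nd (nat_lit 156) (PT.nd (nat_lit 78) (PT.lf (nat_lit 19152) (nat_lit 6) (nat_lit 252) (nat_lit 5) (nat_lit 142) (nat_lit 143) (nat_lit 165)) (PT.lf (nat_lit 20292) (nat_lit 3) (nat_lit 267) (nat_lit 3) (nat_lit 143) (nat_lit 143) (nat_lit 164))) (PT.nd (nat_lit 78) (PT.lf (nat_lit 21432) (nat_lit 6) (nat_lit 282) (nat_lit 3) (nat_lit 144) (nat_lit 143) (nat_lit 163)) (PT.lf (nat_lit 22496)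 (nat_lit 6) (nat_lit 296) (nat_lit 3) (nat_lit 145) (nat_lit 143) (nat_lit 162))))) (PT.nd (nat_lit 312) (PT.nd (nat_lit 156) (PT.nd (nat_lit 78) (PT.lf (nat_lit 23484) (nat_lit 6) (nat_lit 309) (nat_lit 3) (nat_lit 146) (nat_lit 143) (nat_lit 161)) (PT.lf (nat_lit 24396) (nat_lit 6) (nat_lit 321) (nat_lit 3) (nat_lit 147) (nat_lit 143) (nat_lit 160))) (PT.nd (nat_lit 78) (PT.lf (nat_lit 25232) (nat_lit 6) (nat_lit 332) (nat_lit 3) (nat_lit 148) (nat_lit 143) (nat_lit 159)) (PT.lf (nat_lit 25992) (nat_lit 6) (nat_lit 342) (nat_lit 3) (nat_lit 149) (nat_lit 143) (nat_lit 158)))) (PT.nd (nat_lit 156) (PT.nd (nat_lit 78) (PT.lf (nat_lit 26676) (nat_lit 6) (nat_lit 351) (nat_lit 3) (nat_lit 150) (nat_lit 143) (nat_lit 157)) (PT.lf (nat_lit 26752) (nat_lit 6) (nat_lit 352) (nat_lit 3) (nat_lit 151) (nat_lit 143) (nat_lit 156))) (PT.nd (nat_lit 78) (PT.lf (nat_lit 26828) (nat_lit 6) (nat_lit 353) (nat_lit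 3) (nat_lit 152) (nat_lit 143) (nat_lit 155)) (PT.lf (nat_lit 26904) (nat_lit 6) (nat_lit 354) (nat_lit 3) (nat_lit 153) (nat_lit 143) (nat_lit 154))))))) (PT.nd (nat_lit 45942) (PT.nd (nat_lit 546) (PT.nd (nat_lit 234) (PT.nd (nat_lit 78) (PT.lf (nat_lit 26904) (nat_lit 6) (nat_lit 354) (nat_lit 1) (nat_lit 154) (nat_lit 143) (nat_lit 153)) (PT.nd (nat_lit 78) (PT.lf (nat_lit 26828) (nat_lit 6) (nat_lit 353) (nat_lit 1) (nat_lit 155) (nat_lit 143) (nat_lit 152)) (PT.lf (nat_lit 26752) (nat_lit 6) (nat_lit 352) (nat_lit 1) (nat_lit 156) (nat_lit 143) (nat_lit 151)))) (PT.nd (nat_lit 156) (PT.nd (nat_lit 78) (PT.lf (nat_lit 26676) (nat_lit 6) (nat_lit 351) (nat_lit 1) (nat_lit 157) (nat_lit 143) (nat_lit 150)) (PT.lf (nat_lit 25992) (nat_lit 6) (nat_lit 342) (nat_lit 1) (nat_lit 158) (nat_lit 143) (nat_lit 149))) (PT.nd (nat_lit 78) (PT.lf (nat_lit 25232) (nat_lit 6) (nat_lit 332) (nat_lit 1) (nat_lit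 159) (nat_lit 143) (nat_lit 148)) (PT.lf (nat_lit 24396) (nat_lit 6) (nat_lit 321) (nat_lit 1) (nat_lit 160) (nat_lit 143) (nat_lit 147))))) (PT.nd (nat_lit 312) (PT.nd (nat_lit 156) (PT.nd (nat_lit 78) (PT.lf (nat_lit 23484) (nat_lit 6) (nat_lit 309) (nat_lit 1) (nat_lit 161) (nat_lit 143) (nat_lit 146)) (PT.lf (nat_lit 22496) (nat_lit 6) (nat_lit 296) (nat_lit 1) (nat_lit 162) (nat_lit 143) (nat_lit 145))) (PT.nd (nat_lit 78) (PT.lf (nat_lit 21432) (nat_lit 6) (nat_lit 282) (nat_lit 1) (nat_lit 163) (nat_lit 143) (nat_lit 144)) (PT.lf (nat_lit 20292) (nat_lit 3) (nat_lit 267) (nat_lit 0) (nat_lit 164) (nat_lit 143) (nat_lit 143)))) (PT.nd (nat_lit 44928) (PT.nd (nat_lit 78) (PT.lf (nat_lit 19152) (nat_lit 6) (nat_lit 252) (nat_lit 0) (nat_lit 165) (nat_lit 143) (nat_lit 142)) (PT.lf (nat_lit 17936) (nat_lit 6) (nat_lit 236) (nat_lit 0) (nat_lit 166) (nat_lit 143) (nat_lit 141))) (PT.nd (nat_lit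 78) (PT.lf (nat_lit 18012) (nat_lit 6) (nat_lit 237) (nat_lit 5) (nat_lit 140) (nat_lit 144) (nat_lit 166)) (PT.lf (nat_lit 19228) (nat_lit 6) (nat_lit 253) (nat_lit 5) (nat_lit 141) (nat_lit 144) (nat_lit 165)))))) (PT.nd (nat_lit 546) (PT.nd (nat_lit 234) (PT.nd (nat_lit 78) (PT.lf (nat_lit 20368) (nat_lit 6) (nat_lit 268) (nat_lit 5) (nat_lit 142) (nat_lit 144) (nat_lit 164)) (PT.nd (nat_lit 78) (PT.lf (nat_lit 21432) (nat_lit 6) (nat_lit 282) (nat_lit 5) (nat_lit 143) (nat_lit 144) (nat_lit 163)) (PT.lf (nat_lit 22420) (nat_lit 3) (nat_lit 295) (nat_lit 3) (nat_lit 144) (nat_lit 144) (nat_lit 162)))) (PT.nd (nat_lit 156) (PT.nd (nat_lit 78) (PT.lf (nat_lit 23408) (nat_lit 6) (nat_lit 308) (nat_lit 3) (nat_lit 145) (nat_lit 144) (nat_lit 161)) (PT.lf (nat_lit 24320) (nat_lit 6) (nat_lit 320) (nat_lit 3) (nat_lit 146) (nat_lit 144) (nat_lit 160))) (PT.nd (nat_lit 78) (PT.lf (nat_lit 25156) (nat_lit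 6) (nat_lit 331) (nat_lit 3) (nat_lit 147) (nat_lit 144) (nat_lit 159)) (PT.lf (nat_lit 25916) (nat_lit 6) (nat_lit 341) (nat_lit 3) (nat_lit 148) (nat_lit 144) (nat_lit 158))))) (PT.nd (nat_lit 312) (PT.nd (nat_lit 156) (PT.nd (nat_lit 78) (PT.lf (nat_lit 26600) (nat_lit 6) (nat_lit 350) (nat_lit 3) (nat_lit 149) (nat_lit 144) (nat_lit 157)) (PT.lf (nat_lit 27208) (nat_lit 6) (nat_lit 358) (nat_lit 3) (nat_lit 150) (nat_lit 144) (nat_lit 156))) (PT.nd (nat_lit 78) (PT.lf (nat_lit 27284) (nat_lit 6) (nat_lit 359) (nat_lit 3) (nat_lit 151) (nat_lit 144) (nat_lit 155)) (PT.lf (nat_lit 27360) (nat_lit 6) (nat_lit 360) (nat_lit 3) (nat_lit 152) (nat_lit 144) (nat_lit 154)))) (PT.nd (nat_lit 156) (PT.nd (nat_lit 78) (PT.lf (nat_lit 27436) (nat_lit 3) (nat_lit 361) (nat_lit 1) (nat_lit 153) (nat_lit 144) (nat_lit 153)) (PT.lf (nat_lit 27360) (nat_lit 6) (nat_lit 360) (nat_lit 1) (nat_lit 154) (nat_lit 144)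 (nat_lit 152))) (PT.nd (nat_lit 78) (PT.lf (nat_lit 27284) (nat_lit 6) (nat_lit 359) (nat_lit 1) (nat_lit 155) (nat_lit 144) (nat_lit 151)) (PT.lf (nat_lit 27208) (nat_lit 6) (nat_lit 358) (nat_lit 1) (nat_lit 156) (nat_lit 144) (nat_lit 150))))))))
noncomputable def pc10 : PT := (PT.nd (nat_lit 46956) (PT.nd (nat_lit 45786) (PT.nd (nat_lit 546) (PT.nd (nat_lit 234) (PT.nd (nat_lit 78) (PT.lf (nat_lit 26600) (nat_lit 6) (nat_lit 350) (nat_lit 1) (nat_lit 157) (nat_lit 144) (nat_lit 149)) (PT.nd (nat_lit 78) (PT.lf (nat_lit 25916) (nat_lit 6) (nat_lit 341) (nat_lit 1) (nat_lit 158) (nat_lit 144) (nat_lit 148)) (PT.lf (nat_lit 25156) (nat_lit 6) (nat_lit 331) (nat_lit 1) (nat_lit 159) (nat_lit 144) (nat_lit 147)))) (PT.nd (nat_lit 156) (PT.nd (nat_lit 78) (PT.lf (nat_lit 24320) (nat_lit 6) (nat_lit 320) (nat_lit 1) (nat_lit 160) (nat_lit 144) (nat_lit 146)) (PT.lf (nat_lit 23408) (nat_lit 6) (nat_lit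 308) (nat_lit 1) (nat_lit 161) (nat_lit 144) (nat_lit 145))) (PT.nd (nat_lit 78) (PT.lf (nat_lit 22420) (nat_lit 3) (nat_lit 295) (nat_lit 0) (nat_lit 162) (nat_lit 144) (nat_lit 144)) (PT.lf (nat_lit 21432) (nat_lit 6) (nat_lit 282) (nat_lit 0) (nat_lit 163) (nat_lit 144) (nat_lit 143))))) (PT.nd (nat_lit 44928) (PT.nd (nat_lit 78) (PT.lf (nat_lit 20368) (nat_lit 6) (nat_lit 268) (nat_lit 0) (nat_lit 164) (nat_lit 144) (nat_lit 142)) (PT.nd (nat_lit 78) (PT.lf (nat_lit 19228) (nat_lit 6) (nat_lit 253) (nat_lit 0) (nat_lit 165) (nat_lit 144) (nat_lit 141)) (PT.lf (nat_lit 18012) (nat_lit 6) (nat_lit 237) (nat_lit 0) (nat_lit 166) (nat_lit 144) (nat_lit 140)))) (PT.nd (nat_lit 156) (PT.nd (nat_lit 78) (PT.lf (nat_lit 18088) (nat_lit 6) (nat_lit 238) (nat_lit 5) (nat_lit 139) (nat_lit 145) (nat_lit 166)) (PT.lf (nat_lit 19304) (nat_lit 6) (nat_lit 254) (nat_lit 5) (nat_lit 140) (nat_lit 145) (nat_lit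 165))) (PT.nd (nat_lit 78) (PT.lf (nat_lit 20444) (nat_lit 6) (nat_lit 269) (nat_lit 5) (nat_lit 141) (nat_lit 145) (nat_lit 164)) (PT.lf (nat_lit 21508) (nat_lit 6) (nat_lit 283) (nat_lit 5) (nat_lit 142) (nat_lit 145) (nat_lit 163)))))) (PT.nd (nat_lit 546) (PT.nd (nat_lit 234) (PT.nd (nat_lit 78) (PT.lf (nat_lit 22496) (nat_lit 6) (nat_lit 296) (nat_lit 5) (nat_lit 143) (nat_lit 145) (nat_lit 162)) (PT.nd (nat_lit 78) (PT.lf (nat_lit 23408) (nat_lit 6) (nat_lit 308) (nat_lit 5) (nat_lit 144) (nat_lit 145) (nat_lit 161)) (PT.lf (nat_lit 24244) (nat_lit 3) (nat_lit 319) (nat_lit 3) (nat_lit 145) (nat_lit 145) (nat_lit 160)))) (PT.nd (nat_lit 156) (PT.nd (nat_lit 78) (PT.lf (nat_lit 25080) (nat_lit 6) (nat_lit 330) (nat_lit 3) (nat_lit 146) (nat_lit 145) (nat_lit 159)) (PT.lf (nat_lit 25840) (nat_lit 6) (nat_lit 340) (nat_lit 3) (nat_lit 147) (nat_lit 145) (nat_lit 158))) (PT.nd (nat_lit 78) (PT.lf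 (nat_lit 26524) (nat_lit 6) (nat_lit 349) (nat_lit 3) (nat_lit 148) (nat_lit 145) (nat_lit 157)) (PT.lf (nat_lit 27132) (nat_lit 6) (nat_lit 357) (nat_lit 3) (nat_lit 149) (nat_lit 145) (nat_lit 156))))) (PT.nd (nat_lit 312) (PT.nd (nat_lit 156) (PT.nd (nat_lit 78) (PT.lf (nat_lit 27664) (nat_lit 6) (nat_lit 364) (nat_lit 3) (nat_lit 150) (nat_lit 145) (nat_lit 155)) (PT.lf (nat_lit 27740) (nat_lit 6) (nat_lit 365) (nat_lit 3) (nat_lit 151) (nat_lit 145) (nat_lit 154))) (PT.nd (nat_lit 78) (PT.lf (nat_lit 27816) (nat_lit 6) (nat_lit 366) (nat_lit 3) (nat_lit 152) (nat_lit 145) (nat_lit 153)) (PT.lf (nat_lit 27816) (nat_lit 6) (nat_lit 366) (nat_lit 1) (nat_lit 153) (nat_lit 145) (nat_lit 152)))) (PT.nd (nat_lit 156) (PT.nd (nat_lit 78) (PT.lf (nat_lit 27740) (nat_lit 6) (nat_lit 365) (nat_lit 1) (nat_lit 154) (nat_lit 145) (nat_lit 151)) (PT.lf (nat_lit 27664) (nat_lit 6) (nat_lit 364) (nat_lit 1)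 (nat_lit 155) (nat_lit 145) (nat_lit 150))) (PT.nd (nat_lit 78) (PT.lf (nat_lit 27132) (nat_lit 6) (nat_lit 357) (nat_lit 1) (nat_lit 156) (nat_lit 145) (nat_lit 149)) (PT.lf (nat_lit 26524) (nat_lit 6) (nat_lit 349) (nat_lit 1) (nat_lit 157) (nat_lit 145) (nat_lit 148))))))) (PT.nd (nat_lit 45786) (PT.nd (nat_lit 546) (PT.nd (nat_lit 234) (PT.nd (nat_lit 78) (PT.lf (nat_lit 25840) (nat_lit 6) (nat_lit 340) (nat_lit 1) (nat_lit 158) (nat_lit 145) (nat_lit 147)) (PT.nd (nat_lit 78) (PT.lf (nat_lit 25080) (nat_lit 6) (nat_lit 330) (nat_lit 1) (nat_lit 159) (nat_lit 145) (nat_lit 146)) (PT.lf (nat_lit 24244) (nat_lit 3) (nat_lit 319) (nat_lit 0) (nat_lit 160) (nat_lit 145) (nat_lit 145)))) (PT.nd (nat_lit 156) (PT.nd (nat_lit 78) (PT.lf (nat_lit 23408) (nat_lit 6) (nat_lit 308) (nat_lit 0) (nat_lit 161) (nat_lit 145) (nat_lit 144)) (PT.lf (nat_lit 22496) (nat_lit 6) (nat_lit 296) (nat_lit 0) (nat_lit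 162) (nat_lit 145) (nat_lit 143))) (PT.nd (nat_lit 78) (PT.lf (nat_lit 21508) (nat_lit 6) (nat_lit 283) (nat_lit 0) (nat_lit 163) (nat_lit 145) (nat_lit 142)) (PT.lf (nat_lit 20444) (nat_lit 6) (nat_lit 269) (nat_lit 0) (nat_lit 164) (nat_lit 145) (nat_lit 141))))) (PT.nd (nat_lit 44928) (PT.nd (nat_lit 44772) (PT.nd (nat_lit 78) (PT.lf (nat_lit 19304) (nat_lit 6) (nat_lit 254) (nat_lit 0) (nat_lit 165) (nat_lit 145) (nat_lit 140)) (PT.lf (nat_lit 18088) (nat_lit 6) (nat_lit 238) (nat_lit 0) (nat_lit 166) (nat_lit 145) (nat_lit 139))) (PT.nd (nat_lit 78) (PT.lf (nat_lit 18164) (nat_lit 6) (nat_lit 239) (nat_lit 5) (nat_lit 138) (nat_lit 146) (nat_lit 166)) (PT.lf (nat_lit 19380) (nat_lit 6) (nat_lit 255) (nat_lit 5) (nat_lit 139) (nat_lit 146) (nat_lit 165)))) (PT.nd (nat_lit 156) (PT.nd (nat_lit 78) (PT.lf (nat_lit 20520) (nat_lit 6) (nat_lit 270) (nat_lit 5) (nat_lit 140) (nat_lit 146) (nat_lit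 164)) (PT.lf (nat_lit 21584) (nat_lit 6) (nat_lit 284) (nat_lit 5) (nat_lit 141) (nat_lit 146) (nat_lit 163))) (PT.nd (nat_lit 78) (PT.lf (nat_lit 22572) (nat_lit 6) (nat_lit 297) (nat_lit 5) (nat_lit 142) (nat_lit 146) (nat_lit 162)) (PT.lf (nat_lit 23484) (nat_lit 6) (nat_lit 309) (nat_lit 5) (nat_lit 143) (nat_lit 146) (nat_lit 161)))))) (PT.nd (nat_lit 546) (PT.nd (nat_lit 234) (PT.nd (nat_lit 78) (PT.lf (nat_lit 24320) (nat_lit 6) (nat_lit 320) (nat_lit 5) (nat_lit 144) (nat_lit 146) (nat_lit 160)) (PT.nd (nat_lit 78) (PT.lf (nat_lit 25080) (nat_lit 6) (nat_lit 330) (nat_lit 5) (nat_lit 145) (nat_lit 146) (nat_lit 159)) (PT.lf (nat_lit 25764) (nat_lit 3) (nat_lit 339) (nat_lit 3) (nat_lit 146) (nat_lit 146) (nat_lit 158)))) (PT.nd (nat_lit 156) (PT.nd (nat_lit 78) (PT.lf (nat_lit 26448) (nat_lit 6) (nat_lit 348) (nat_lit 3) (nat_lit 147) (nat_lit 146) (nat_lit 157)) (PT.lf (nat_lit 27056) (nat_lit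 6) (nat_lit 356) (nat_lit 3) (nat_lit 148) (nat_lit 146) (nat_lit 156))) (PT.nd (nat_lit 78) (PT.lf (nat_lit 27588) (nat_lit 6) (nat_lit 363) (nat_lit 3) (nat_lit 149) (nat_lit 146) (nat_lit 155)) (PT.lf (nat_lit 28044) (nat_lit 6) (nat_lit 369) (nat_lit 3) (nat_lit 150) (nat_lit 146) (nat_lit 154))))) (PT.nd (nat_lit 312) (PT.nd (nat_lit 156) (PT.nd (nat_lit 78) (PT.lf (nat_lit 28120) (nat_lit 6) (nat_lit 370) (nat_lit 3) (nat_lit 151) (nat_lit 146) (nat_lit 153)) (PT.lf (nat_lit 28196) (nat_lit 3) (nat_lit 371) (nat_lit 1) (nat_lit 152) (nat_lit 146) (nat_lit 152))) (PT.nd (nat_lit 78) (PT.lf (nat_lit 28120) (nat_lit 6) (nat_lit 370) (nat_lit 1) (nat_lit 153) (nat_lit 146) (nat_lit 151)) (PT.lf (nat_lit 28044) (nat_lit 6) (nat_lit 369) (nat_lit 1) (nat_lit 154) (nat_lit 146) (nat_lit 150)))) (PT.nd (nat_lit 156) (PT.nd (nat_lit 78) (PT.lf (nat_lit 27588) (nat_lit 6) (nat_lit 363) (nat_lit 1) (nat_lit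 155) (nat_lit 146) (nat_lit 149)) (PT.lf (nat_lit 27056) (nat_lit 6) (nat_lit 356) (nat_lit 1) (nat_lit 156) (nat_lit 146) (nat_lit 148))) (PT.nd (nat_lit 78) (PT.lf (nat_lit 26448) (nat_lit 6) (nat_lit 348) (nat_lit 1) (nat_lit 157) (nat_lit 146) (nat_lit 147)) (PT.lf (nat_lit 25764) (nat_lit 3) (nat_lit 339) (nat_lit 0) (nat_lit 158) (nat_lit 146) (nat_lit 146))))))))
noncomputable def pc11 : PT := (PT.nd (nat_lit 46878) (PT.nd (nat_lit 45708) (PT.nd (nat_lit 546) (PT.nd (nat_lit 234) (PT.nd (nat_lit 78) (PT.lf (nat_lit 25080) (nat_lit 6) (nat_lit 330) (nat_lit 0) (nat_lit 159) (nat_lit 146) (nat_lit 145)) (PT.nd (nat_lit 78) (PT.lf (nat_lit 24320) (nat_lit 6) (nat_lit 320) (nat_lit 0) (nat_lit 160) (nat_lit 146) (nat_lit 144)) (PT.lf (nat_lit 23484) (nat_lit 6) (nat_lit 309) (nat_lit 0) (nat_lit 161) (nat_lit 146) (nat_lit 143)))) (PT.nd (nat_lit 156) (PT.nd (nat_lit 78) (PT.lf (nat_lit 22572)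 (nat_lit 6) (nat_lit 297) (nat_lit 0) (nat_lit 162) (nat_lit 146) (nat_lit 142)) (PT.lf (nat_lit 21584) (nat_lit 6) (nat_lit 284) (nat_lit 0) (nat_lit 163) (nat_lit 146) (nat_lit 141))) (PT.nd (nat_lit 78) (PT.lf (nat_lit 20520) (nat_lit 6) (nat_lit 270) (nat_lit 0) (nat_lit 164) (nat_lit 146) (nat_lit 140)) (PT.lf (nat_lit 19380) (nat_lit 6) (nat_lit 255) (nat_lit 0) (nat_lit 165) (nat_lit 146) (nat_lit 139))))) (PT.nd (nat_lit 44850) (PT.nd (nat_lit 44694) (PT.nd (nat_lit 44616) (PT.lf (nat_lit 18164) (nat_lit 6) (nat_lit 239) (nat_lit 0) (nat_lit 166) (nat_lit 146) (nat_lit 138)) (PT.lf (nat_lit 18240) (nat_lit 6) (nat_lit 240) (nat_lit 5) (nat_lit 137) (nat_lit 147) (nat_lit 166))) (PT.nd (nat_lit 78) (PT.lf (nat_lit 19456) (nat_lit 6) (nat_lit 256) (nat_lit 5) (nat_lit 138) (nat_lit 147) (nat_lit 165)) (PT.lf (nat_lit 20596) (nat_lit 6) (nat_lit 271) (nat_lit 5) (nat_lit 139) (nat_lit 147) (nat_lit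 164)))) (PT.nd (nat_lit 156) (PT.nd (nat_lit 78) (PT.lf (nat_lit 21660) (nat_lit 6) (nat_lit 285) (nat_lit 5) (nat_lit 140) (nat_lit 147) (nat_lit 163)) (PT.lf (nat_lit 22648) (nat_lit 6) (nat_lit 298) (nat_lit 5) (nat_lit 141) (nat_lit 147) (nat_lit 162))) (PT.nd (nat_lit 78) (PT.lf (nat_lit 23560) (nat_lit 6) (nat_lit 310) (nat_lit 5) (nat_lit 142) (nat_lit 147) (nat_lit 161)) (PT.lf (nat_lit 24396) (nat_lit 6) (nat_lit 321) (nat_lit 5) (nat_lit 143) (nat_lit 147) (nat_lit 160)))))) (PT.nd (nat_lit 546) (PT.nd (nat_lit 234) (PT.nd (nat_lit 78) (PT.lf (nat_lit 25156) (nat_lit 6) (nat_lit 331) (nat_lit 5) (nat_lit 144) (nat_lit 147) (nat_lit 159)) (PT.nd (nat_lit 78) (PT.lf (nat_lit 25840) (nat_lit 6) (nat_lit 340) (nat_lit 5) (nat_lit 145) (nat_lit 147) (nat_lit 158)) (PT.lf (nat_lit 26448) (nat_lit 6) (nat_lit 348) (nat_lit 5) (nat_lit 146) (nat_lit 147) (nat_lit 157)))) (PT.nd (nat_lit 156) (PT.nd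 (nat_lit 78) (PT.lf (nat_lit 26980) (nat_lit 3) (nat_lit 355) (nat_lit 3) (nat_lit 147) (nat_lit 147) (nat_lit 156)) (PT.lf (nat_lit 27512) (nat_lit 6) (nat_lit 362) (nat_lit 3) (nat_lit 148) (nat_lit 147) (nat_lit 155))) (PT.nd (nat_lit 78) (PT.lf (nat_lit 27968) (nat_lit 6) (nat_lit 368) (nat_lit 3) (nat_lit 149) (nat_lit 147) (nat_lit 154)) (PT.lf (nat_lit 28348) (nat_lit 6) (nat_lit 373) (nat_lit 3) (nat_lit 150) (nat_lit 147) (nat_lit 153))))) (PT.nd (nat_lit 312) (PT.nd (nat_lit 156) (PT.nd (nat_lit 78) (PT.lf (nat_lit 28424) (nat_lit 6) (nat_lit 374) (nat_lit 3) (nat_lit 151) (nat_lit 147) (nat_lit 152)) (PT.lf (nat_lit 28424) (nat_lit 6) (nat_lit 374) (nat_lit 1) (nat_lit 152) (nat_lit 147) (nat_lit 151))) (PT.nd (nat_lit 78) (PT.lf (nat_lit 28348) (nat_lit 6) (nat_lit 373) (nat_lit 1) (nat_lit 153) (nat_lit 147) (nat_lit 150)) (PT.lf (nat_lit 27968) (nat_lit 6) (nat_lit 368) (nat_lit 1) (nat_lit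 154) (nat_lit 147) (nat_lit 149)))) (PT.nd (nat_lit 156) (PT.nd (nat_lit 78) (PT.lf (nat_lit 27512) (nat_lit 6) (nat_lit 362) (nat_lit 1) (nat_lit 155) (nat_lit 147) (nat_lit 148)) (PT.lf (nat_lit 26980) (nat_lit 3) (nat_lit 355) (nat_lit 0) (nat_lit 156) (nat_lit 147) (nat_lit 147))) (PT.nd (nat_lit 78) (PT.lf (nat_lit 26448) (nat_lit 6) (nat_lit 348) (nat_lit 0) (nat_lit 157) (nat_lit 147) (nat_lit 146)) (PT.lf (nat_lit 25840) (nat_lit 6) (nat_lit 340) (nat_lit 0) (nat_lit 158) (nat_lit 147) (nat_lit 145))))))) (PT.nd (nat_lit 45630) (PT.nd (nat_lit 546) (PT.nd (nat_lit 234) (PT.nd (nat_lit 78) (PT.lf (nat_lit 25156) (nat_lit 6) (nat_lit 331) (nat_lit 0) (nat_lit 159) (nat_lit 147) (nat_lit 144)) (PT.nd (nat_lit 78) (PT.lf (nat_lit 24396) (nat_lit 6) (nat_lit 321) (nat_lit 0) (nat_lit 160) (nat_lit 147) (nat_lit 143)) (PT.lf (nat_lit 23560) (nat_lit 6) (nat_lit 310) (nat_lit 0) (nat_lit 161) (nat_lit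 147) (nat_lit 142)))) (PT.nd (nat_lit 156) (PT.nd (nat_lit 78) (PT.lf (nat_lit 22648) (nat_lit 6) (nat_lit 298) (nat_lit 0) (nat_lit 162) (nat_lit 147) (nat_lit 141)) (PT.lf (nat_lit 21660) (nat_lit 6) (nat_lit 285) (nat_lit 0) (nat_lit 163) (nat_lit 147) (nat_lit 140))) (PT.nd (nat_lit 78) (PT.lf (nat_lit 20596) (nat_lit 6) (nat_lit 271) (nat_lit 0) (nat_lit 164) (nat_lit 147) (nat_lit 139)) (PT.lf (nat_lit 19456) (nat_lit 6) (nat_lit 256) (nat_lit 0) (nat_lit 165) (nat_lit 147) (nat_lit 138))))) (PT.nd (nat_lit 44772) (PT.nd (nat_lit 44616) (PT.nd (nat_lit 44538) (PT.lf (nat_lit 18240) (nat_lit 6) (nat_lit 240) (nat_lit 0) (nat_lit 166) (nat_lit 147) (nat_lit 137)) (PT.lf (nat_lit 18316) (nat_lit 6) (nat_lit 241) (nat_lit 5) (nat_lit 136) (nat_lit 148) (nat_lit 166))) (PT.nd (nat_lit 78) (PT.lf (nat_lit 19532) (nat_lit 6) (nat_lit 257) (nat_lit 5) (nat_lit 137) (nat_lit 148) (nat_lit 165)) (PT.lf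 (nat_lit 20672) (nat_lit 6) (nat_lit 272) (nat_lit 5) (nat_lit 138) (nat_lit 148) (nat_lit 164)))) (PT.nd (nat_lit 156) (PT.nd (nat_lit 78) (PT.lf (nat_lit 21736) (nat_lit 6) (nat_lit 286) (nat_lit 5) (nat_lit 139) (nat_lit 148) (nat_lit 163)) (PT.lf (nat_lit 22724) (nat_lit 6) (nat_lit 299) (nat_lit 5) (nat_lit 140) (nat_lit 148) (nat_lit 162))) (PT.nd (nat_lit 78) (PT.lf (nat_lit 23636) (nat_lit 6) (nat_lit 311) (nat_lit 5) (nat_lit 141) (nat_lit 148) (nat_lit 161)) (PT.lf (nat_lit 24472) (nat_lit 6) (nat_lit 322) (nat_lit 5) (nat_lit 142) (nat_lit 148) (nat_lit 160)))))) (PT.nd (nat_lit 546) (PT.nd (nat_lit 234) (PT.nd (nat_lit 78) (PT.lf (nat_lit 25232) (nat_lit 6) (nat_lit 332) (nat_lit 5) (nat_lit 143) (nat_lit 148) (nat_lit 159)) (PT.nd (nat_lit 78) (PT.lf (nat_lit 25916) (nat_lit 6) (nat_lit 341) (nat_lit 5) (nat_lit 144) (nat_lit 148) (nat_lit 158)) (PT.lf (nat_lit 26524) (nat_lit 6) (nat_lit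 349) (nat_lit 5) (nat_lit 145) (nat_lit 148) (nat_lit 157)))) (PT.nd (nat_lit 156) (PT.nd (nat_lit 78) (PT.lf (nat_lit 27056) (nat_lit 6) (nat_lit 356) (nat_lit 5) (nat_lit 146) (nat_lit 148) (nat_lit 156)) (PT.lf (nat_lit 27512) (nat_lit 6) (nat_lit 362) (nat_lit 5) (nat_lit 147) (nat_lit 148) (nat_lit 155))) (PT.nd (nat_lit 78) (PT.lf (nat_lit 27892) (nat_lit 3) (nat_lit 367) (nat_lit 3) (nat_lit 148) (nat_lit 148) (nat_lit 154)) (PT.lf (nat_lit 28272) (nat_lit 6) (nat_lit 372) (nat_lit 3) (nat_lit 149) (nat_lit 148) (nat_lit 153))))) (PT.nd (nat_lit 312) (PT.nd (nat_lit 156) (PT.nd (nat_lit 78) (PT.lf (nat_lit 28576) (nat_lit 6) (nat_lit 376) (nat_lit 3) (nat_lit 150) (nat_lit 148) (nat_lit 152)) (PT.lf (nat_lit 28652) (nat_lit 3) (nat_lit 377) (nat_lit 1) (nat_lit 151) (nat_lit 148) (nat_lit 151))) (PT.nd (nat_lit 78) (PT.lf (nat_lit 28576) (nat_lit 6) (nat_lit 376) (nat_lit 1) (nat_lit 152) (nat_lit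 148) (nat_lit 150)) (PT.lf (nat_lit 28272) (nat_lit 6) (nat_lit 372) (nat_lit 1) (nat_lit 153) (nat_lit 148) (nat_lit 149)))) (PT.nd (nat_lit 156) (PT.nd (nat_lit 78) (PT.lf (nat_lit 27892) (nat_lit 3) (nat_lit 367) (nat_lit 0) (nat_lit 154) (nat_lit 148) (nat_lit 148)) (PT.lf (nat_lit 27512) (nat_lit 6) (nat_lit 362) (nat_lit 0) (nat_lit 155) (nat_lit 148) (nat_lit 147))) (PT.nd (nat_lit 78) (PT.lf (nat_lit 27056) (nat_lit 6) (nat_lit 356) (nat_lit 0) (nat_lit 156) (nat_lit 148) (nat_lit 146)) (PT.lf (nat_lit 26524) (nat_lit 6) (nat_lit 349) (nat_lit 0) (nat_lit 157) (nat_lit 148) (nat_lit 145))))))))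
noncomputable def pc12 : PT := (PT.nd (nat_lit 46644) (PT.nd (nat_lit 45474) (PT.nd (nat_lit 546) (PT.nd (nat_lit 234) (PT.nd (nat_lit 78) (PT.lf (nat_lit 25916) (nat_lit 6) (nat_lit 341) (nat_lit 0) (nat_lit 158) (nat_lit 148) (nat_lit 144)) (PT.nd (nat_lit 78) (PT.lf (nat_lit 25232) (nat_lit 6) (nat_lit 332) (nat_lit 0) (nat_lit 159) (nat_lit 148) (nat_lit 143)) (PT.lf (nat_lit 24472) (nat_lit 6) (nat_lit 322) (nat_lit 0) (nat_lit 160) (nat_lit 148) (nat_lit 142)))) (PT.nd (nat_lit 156) (PT.nd (nat_lit 78) (PT.lf (nat_lit 23636) (nat_lit 6) (nat_lit 311) (nat_lit 0) (nat_lit 161) (nat_lit 148) (nat_lit 141)) (PT.lf (nat_lit 22724) (nat_lit 6) (nat_lit 299) (nat_lit 0) (nat_lit 162) (nat_lit 148) (nat_lit 140))) (PT.nd (nat_lit 78) (PT.lf (nat_lit 21736) (nat_lit 6) (nat_lit 286) (nat_lit 0) (nat_lit 163) (nat_lit 148) (nat_lit 139)) (PT.lf (nat_lit 20672) (nat_lit 6) (nat_lit 272) (nat_lit 0) (nat_lit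 164) (nat_lit 148) (nat_lit 138))))) (PT.nd (nat_lit 44616) (PT.nd (nat_lit 78) (PT.lf (nat_lit 19532) (nat_lit 6) (nat_lit 257) (nat_lit 0) (nat_lit 165) (nat_lit 148) (nat_lit 137)) (PT.nd (nat_lit 44460) (PT.lf (nat_lit 18316) (nat_lit 6) (nat_lit 241) (nat_lit 0) (nat_lit 166) (nat_lit 148) (nat_lit 136)) (PT.lf (nat_lit 18392) (nat_lit 6) (nat_lit 242) (nat_lit 5) (nat_lit 135) (nat_lit 149) (nat_lit 166)))) (PT.nd (nat_lit 156) (PT.nd (nat_lit 78) (PT.lf (nat_lit 19608) (nat_lit 6) (nat_lit 258) (nat_lit 5) (nat_lit 136) (nat_lit 149) (nat_lit 165)) (PT.lf (nat_lit 20748) (nat_lit 6) (nat_lit 273) (nat_lit 5) (nat_lit 137) (nat_lit 149) (nat_lit 164))) (PT.nd (nat_lit 78) (PT.lf (nat_lit 21812) (nat_lit 6) (nat_lit 287) (nat_lit 5) (nat_lit 138) (nat_lit 149) (nat_lit 163)) (PT.lf (nat_lit 22800) (nat_lit 6) (nat_lit 300) (nat_lit 5) (nat_lit 139) (nat_lit 149) (nat_lit 162)))))) (PT.nd (nat_lit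 546) (PT.nd (nat_lit 234) (PT.nd (nat_lit 78) (PT.lf (nat_lit 23712) (nat_lit 6) (nat_lit 312) (nat_lit 5) (nat_lit 140) (nat_lit 149) (nat_lit 161)) (PT.nd (nat_lit 78) (PT.lf (nat_lit 24548) (nat_lit 6) (nat_lit 323) (nat_lit 5) (nat_lit 141) (nat_lit 149) (nat_lit 160)) (PT.lf (nat_lit 25308) (nat_lit 6) (nat_lit 333) (nat_lit 5) (nat_lit 142) (nat_lit 149) (nat_lit 159)))) (PT.nd (nat_lit 156) (PT.nd (nat_lit 78) (PT.lf (nat_lit 25992) (nat_lit 6) (nat_lit 342) (nat_lit 5) (nat_lit 143) (nat_lit 149) (nat_lit 158)) (PT.lf (nat_lit 26600) (nat_lit 6) (nat_lit 350) (nat_lit 5) (nat_lit 144) (nat_lit 149) (nat_lit 157))) (PT.nd (nat_lit 78) (PT.lf (nat_lit 27132) (nat_lit 6) (nat_lit 357) (nat_lit 5) (nat_lit 145) (nat_lit 149) (nat_lit 156)) (PT.lf (nat_lit 27588) (nat_lit 6) (nat_lit 363) (nat_lit 5) (nat_lit 146) (nat_lit 149) (nat_lit 155))))) (PT.nd (nat_lit 312) (PT.nd (nat_lit 156) (PT.nd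 (nat_lit 78) (PT.lf (nat_lit 27968) (nat_lit 6) (nat_lit 368) (nat_lit 5) (nat_lit 147) (nat_lit 149) (nat_lit 154)) (PT.lf (nat_lit 28272) (nat_lit 6) (nat_lit 372) (nat_lit 5) (nat_lit 148) (nat_lit 149) (nat_lit 153))) (PT.nd (nat_lit 78) (PT.lf (nat_lit 28500) (nat_lit 3) (nat_lit 375) (nat_lit 3) (nat_lit 149) (nat_lit 149) (nat_lit 152)) (PT.lf (nat_lit 28728) (nat_lit 6) (nat_lit 378) (nat_lit 3) (nat_lit 150) (nat_lit 149) (nat_lit 151)))) (PT.nd (nat_lit 156) (PT.nd (nat_lit 78) (PT.lf (nat_lit 28728) (nat_lit 6) (nat_lit 378) (nat_lit 1) (nat_lit 151) (nat_lit 149) (nat_lit 150)) (PT.lf (nat_lit 28500) (nat_lit 3) (nat_lit 375) (nat_lit 0) (nat_lit 152) (nat_lit 149) (nat_lit 149))) (PT.nd (nat_lit 78) (PT.lf (nat_lit 28272) (nat_lit 6) (nat_lit 372) (nat_lit 0) (nat_lit 153) (nat_lit 149) (nat_lit 148)) (PT.lf (nat_lit 27968) (nat_lit 6) (nat_lit 368) (nat_lit 0) (nat_lit 154) (nat_lit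 149) (nat_lit 147))))))) (PT.nd (nat_lit 45474) (PT.nd (nat_lit 546) (PT.nd (nat_lit 234) (PT.nd (nat_lit 78) (PT.lf (nat_lit 27588) (nat_lit 6) (nat_lit 363) (nat_lit 0) (nat_lit 155) (nat_lit 149) (nat_lit 146)) (PT.nd (nat_lit 78) (PT.lf (nat_lit 27132) (nat_lit 6) (nat_lit 357) (nat_lit 0) (nat_lit 156) (nat_lit 149) (nat_lit 145)) (PT.lf (nat_lit 26600) (nat_lit 6) (nat_lit 350) (nat_lit 0) (nat_lit 157) (nat_lit 149) (nat_lit 144)))) (PT.nd (nat_lit 156) (PT.nd (nat_lit 78) (PT.lf (nat_lit 25992) (nat_lit 6) (nat_lit 342) (nat_lit 0) (nat_lit 158) (nat_lit 149) (nat_lit 143)) (PT.lf (nat_lit 25308) (nat_lit 6) (nat_lit 333) (nat_lit 0) (nat_lit 159) (nat_lit 149) (nat_lit 142))) (PT.nd (nat_lit 78) (PT.lf (nat_lit 24548) (nat_lit 6) (nat_lit 323) (nat_lit 0) (nat_lit 160) (nat_lit 149) (nat_lit 141)) (PT.lf (nat_lit 23712) (nat_lit 6) (nat_lit 312) (nat_lit 0) (nat_lit 161) (nat_lit 149) (nat_lit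 140))))) (PT.nd (nat_lit 312) (PT.nd (nat_lit 156) (PT.nd (nat_lit 78) (PT.lf (nat_lit 22800) (nat_lit 6) (nat_lit 300) (nat_lit 0) (nat_lit 162) (nat_lit 149) (nat_lit 139)) (PT.lf (nat_lit 21812) (nat_lit 6) (nat_lit 287) (nat_lit 0) (nat_lit 163) (nat_lit 149) (nat_lit 138))) (PT.nd (nat_lit 78) (PT.lf (nat_lit 20748) (nat_lit 6) (nat_lit 273) (nat_lit 0) (nat_lit 164) (nat_lit 149) (nat_lit 137)) (PT.lf (nat_lit 19608) (nat_lit 6) (nat_lit 258) (nat_lit 0) (nat_lit 165) (nat_lit 149) (nat_lit 136)))) (PT.nd (nat_lit 44460) (PT.nd (nat_lit 44382) (PT.lf (nat_lit 18392) (nat_lit 6) (nat_lit 242) (nat_lit 0) (nat_lit 166) (nat_lit 149) (nat_lit 135)) (PT.lf (nat_lit 18468) (nat_lit 6) (nat_lit 243) (nat_lit 5) (nat_lit 134) (nat_lit 150) (nat_lit 166))) (PT.nd (nat_lit 78) (PT.lf (nat_lit 19684) (nat_lit 6) (nat_lit 259) (nat_lit 5) (nat_lit 135) (nat_lit 150) (nat_lit 165)) (PT.lf (nat_lit 20824)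 (nat_lit 6) (nat_lit 274) (nat_lit 5) (nat_lit 136) (nat_lit 150) (nat_lit 164)))))) (PT.nd (nat_lit 546) (PT.nd (nat_lit 234) (PT.nd (nat_lit 78) (PT.lf (nat_lit 21888) (nat_lit 6) (nat_lit 288) (nat_lit 5) (nat_lit 137) (nat_lit 150) (nat_lit 163)) (PT.nd (nat_lit 78) (PT.lf (nat_lit 22876) (nat_lit 6) (nat_lit 301) (nat_lit 5) (nat_lit 138) (nat_lit 150) (nat_lit 162)) (PT.lf (nat_lit 23788) (nat_lit 6) (nat_lit 313) (nat_lit 5) (nat_lit 139) (nat_lit 150) (nat_lit 161)))) (PT.nd (nat_lit 156) (PT.nd (nat_lit 78) (PT.lf (nat_lit 24624) (nat_lit 6) (nat_lit 324) (nat_lit 5) (nat_lit 140) (nat_lit 150) (nat_lit 160)) (PT.lf (nat_lit 25384) (nat_lit 6) (nat_lit 334) (nat_lit 5) (nat_lit 141) (nat_lit 150) (nat_lit 159))) (PT.nd (nat_lit 78) (PT.lf (nat_lit 26068) (nat_lit 6) (nat_lit 343) (nat_lit 5) (nat_lit 142) (nat_lit 150) (nat_lit 158)) (PT.lf (nat_lit 26676) (nat_lit 6) (nat_lit 351) (nat_lit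 5) (nat_lit 143) (nat_lit 150) (nat_lit 157))))) (PT.nd (nat_lit 312) (PT.nd (nat_lit 156) (PT.nd (nat_lit 78) (PT.lf (nat_lit 27208) (nat_lit 6) (nat_lit 358) (nat_lit 5) (nat_lit 144) (nat_lit 150) (nat_lit 156)) (PT.lf (nat_lit 27664) (nat_lit 6) (nat_lit 364) (nat_lit 5) (nat_lit 145) (nat_lit 150) (nat_lit 155))) (PT.nd (nat_lit 78) (PT.lf (nat_lit 28044) (nat_lit 6) (nat_lit 369) (nat_lit 5) (nat_lit 146) (nat_lit 150) (nat_lit 154)) (PT.lf (nat_lit 28348) (nat_lit 6) (nat_lit 373) (nat_lit 5) (nat_lit 147) (nat_lit 150) (nat_lit 153)))) (PT.nd (nat_lit 156) (PT.nd (nat_lit 78) (PT.lf (nat_lit 28576) (nat_lit 6) (nat_lit 376) (nat_lit 5) (nat_lit 148) (nat_lit 150) (nat_lit 152)) (PT.lf (nat_lit 28728) (nat_lit 6) (nat_lit 378) (nat_lit 5) (nat_lit 149) (nat_lit 150) (nat_lit 151))) (PT.nd (nat_lit 78) (PT.lf (nat_lit 28804) (nat_lit 1) (nat_lit 379) (nat_lit 0) (nat_lit 150) (nat_lit 150) (nat_lit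 150)) (PT.lf (nat_lit 28728) (nat_lit 6) (nat_lit 378) (nat_lit 0) (nat_lit 151) (nat_lit 150) (nat_lit 149))))))))
noncomputable def pc13 : PT := (PT.nd (nat_lit 46410) (PT.nd (nat_lit 1092) (PT.nd (nat_lit 546) (PT.nd (nat_lit 234) (PT.nd (nat_lit 78) (PT.lf (nat_lit 28576) (nat_lit 6) (nat_lit 376) (nat_lit 0) (nat_lit 152) (nat_lit 150) (nat_lit 148)) (PT.nd (nat_lit 78) (PT.lf (nat_lit 28348) (nat_lit 6) (nat_lit 373) (nat_lit 0) (nat_lit 153) (nat_lit 150) (nat_lit 147)) (PT.lf (nat_lit 28044) (nat_lit 6) (nat_lit 369) (nat_lit 0) (nat_lit 154) (nat_lit 150) (nat_lit 146)))) (PT.nd (nat_lit 156) (PT.nd (nat_lit 78) (PT.lf (nat_lit 27664) (nat_lit 6) (nat_lit 364) (nat_lit 0) (nat_lit 155) (nat_lit 150) (nat_lit 145)) (PT.lf (nat_lit 27208) (nat_lit 6) (nat_lit 358) (nat_lit 0) (nat_lit 156) (nat_lit 150) (nat_lit 144))) (PT.nd (nat_lit 78) (PT.lf (nat_lit 26676) (nat_lit 6) (nat_lit 351) (nat_lit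 0) (nat_lit 157) (nat_lit 150) (nat_lit 143)) (PT.lf (nat_lit 26068) (nat_lit 6) (nat_lit 343) (nat_lit 0) (nat_lit 158) (nat_lit 150) (nat_lit 142))))) (PT.nd (nat_lit 234) (PT.nd (nat_lit 78) (PT.lf (nat_lit 25384) (nat_lit 6) (nat_lit 334) (nat_lit 0) (nat_lit 159) (nat_lit 150) (nat_lit 141)) (PT.nd (nat_lit 78) (PT.lf (nat_lit 24624) (nat_lit 6) (nat_lit 324) (nat_lit 0) (nat_lit 160) (nat_lit 150) (nat_lit 140)) (PT.lf (nat_lit 23788) (nat_lit 6) (nat_lit 313) (nat_lit 0) (nat_lit 161) (nat_lit 150) (nat_lit 139)))) (PT.nd (nat_lit 156) (PT.nd (nat_lit 78) (PT.lf (nat_lit 22876) (nat_lit 6) (nat_lit 301) (nat_lit 0) (nat_lit 162) (nat_lit 150) (nat_lit 138)) (PT.lf (nat_lit 21888) (nat_lit 6) (nat_lit 288) (nat_lit 0) (nat_lit 163) (nat_lit 150) (nat_lit 137))) (PT.nd (nat_lit 78) (PT.lf (nat_lit 20824) (nat_lit 6) (nat_lit 274) (nat_lit 0) (nat_lit 164) (nat_lit 150) (nat_lit 136)) (PT.lf (nat_lit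 19684) (nat_lit 6) (nat_lit 259) (nat_lit 0) (nat_lit 165) (nat_lit 150) (nat_lit 135)))))) (PT.nd (nat_lit 44694) (PT.nd (nat_lit 44382) (PT.nd (nat_lit 44226) (PT.lf (nat_lit 18468) (nat_lit 6) (nat_lit 243) (nat_lit 0) (nat_lit 166) (nat_lit 150) (nat_lit 134)) (PT.nd (nat_lit 78) (PT.lf (nat_lit 16568) (nat_lit 6) (nat_lit 218) (nat_lit 5) (nat_lit 132) (nat_lit 151) (nat_lit 167)) (PT.lf (nat_lit 17252) (nat_lit 6) (nat_lit 227) (nat_lit 5) (nat_lit 133) (nat_lit 151) (nat_lit 166)))) (PT.nd (nat_lit 156) (PT.nd (nat_lit 78) (PT.lf (nat_lit 18544) (nat_lit 6) (nat_lit 244) (nat_lit 5) (nat_lit 134) (nat_lit 151) (nat_lit 165)) (PT.lf (nat_lit 19760) (nat_lit 6) (nat_lit 260) (nat_lit 5) (nat_lit 135) (nat_lit 151) (nat_lit 164))) (PT.nd (nat_lit 78) (PT.lf (nat_lit 20900) (nat_lit 6) (nat_lit 275) (nat_lit 5) (nat_lit 136) (nat_lit 151) (nat_lit 163)) (PT.lf (nat_lit 21964) (nat_lit 6) (nat_lit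 289) (nat_lit 5) (nat_lit 137) (nat_lit 151) (nat_lit 162))))) (PT.nd (nat_lit 312) (PT.nd (nat_lit 156) (PT.nd (nat_lit 78) (PT.lf (nat_lit 22952) (nat_lit 6) (nat_lit 302) (nat_lit 5) (nat_lit 138) (nat_lit 151) (nat_lit 161)) (PT.lf (nat_lit 23864) (nat_lit 6) (nat_lit 314) (nat_lit 5) (nat_lit 139) (nat_lit 151) (nat_lit 160))) (PT.nd (nat_lit 78) (PT.lf (nat_lit 24700) (nat_lit 6) (nat_lit 325) (nat_lit 5) (nat_lit 140) (nat_lit 151) (nat_lit 159)) (PT.lf (nat_lit 25460) (nat_lit 6) (nat_lit 335) (nat_lit 5) (nat_lit 141) (nat_lit 151) (nat_lit 158)))) (PT.nd (nat_lit 156) (PT.nd (nat_lit 78) (PT.lf (nat_lit 26144) (nat_lit 6) (nat_lit 344) (nat_lit 5) (nat_lit 142) (nat_lit 151) (nat_lit 157)) (PT.lf (nat_lit 26752) (nat_lit 6) (nat_lit 352) (nat_lit 5) (nat_lit 143) (nat_lit 151) (nat_lit 156))) (PT.nd (nat_lit 78) (PT.lf (nat_lit 27284) (nat_lit 6) (nat_lit 359) (nat_lit 5) (nat_lit 144) (nat_lit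 151) (nat_lit 155)) (PT.lf (nat_lit 27740) (nat_lit 6) (nat_lit 365) (nat_lit 5) (nat_lit 145) (nat_lit 151) (nat_lit 154))))))) (PT.nd (nat_lit 1170) (PT.nd (nat_lit 546) (PT.nd (nat_lit 234) (PT.nd (nat_lit 78) (PT.lf (nat_lit 28120) (nat_lit 6) (nat_lit 370) (nat_lit 5) (nat_lit 146) (nat_lit 151) (nat_lit 153)) (PT.nd (nat_lit 78) (PT.lf (nat_lit 28424) (nat_lit 6) (nat_lit 374) (nat_lit 5) (nat_lit 147) (nat_lit 151) (nat_lit 152)) (PT.lf (nat_lit 28652) (nat_lit 3) (nat_lit 377) (nat_lit 4) (nat_lit 148) (nat_lit 151) (nat_lit 151)))) (PT.nd (nat_lit 156) (PT.nd (nat_lit 78) (PT.lf (nat_lit 28728) (nat_lit 6) (nat_lit 378) (nat_lit 4) (nat_lit 149) (nat_lit 151) (nat_lit 150)) (PT.lf (nat_lit 28728) (nat_lit 6) (nat_lit 378) (nat_lit 2) (nat_lit 150) (nat_lit 151) (nat_lit 149))) (PT.nd (nat_lit 78) (PT.lf (nat_lit 28652) (nat_lit 3) (nat_lit 377) (nat_lit 0) (nat_lit 151) (nat_lit 151) (nat_lit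 148)) (PT.lf (nat_lit 28424) (nat_lit 6) (nat_lit 374) (nat_lit 0) (nat_lit 152) (nat_lit 151) (nat_lit 147))))) (PT.nd (nat_lit 312) (PT.nd (nat_lit 156) (PT.nd (nat_lit 78) (PT.lf (nat_lit 28120) (nat_lit 6) (nat_lit 370) (nat_lit 0) (nat_lit 153) (nat_lit 151) (nat_lit 146)) (PT.lf (nat_lit 27740) (nat_lit 6) (nat_lit 365) (nat_lit 0) (nat_lit 154) (nat_lit 151) (nat_lit 145))) (PT.nd (nat_lit 78) (PT.lf (nat_lit 27284) (nat_lit 6) (nat_lit 359) (nat_lit 0) (nat_lit 155) (nat_lit 151) (nat_lit 144)) (PT.lf (nat_lit 26752) (nat_lit 6) (nat_lit 352) (nat_lit 0) (nat_lit 156) (nat_lit 151) (nat_lit 143)))) (PT.nd (nat_lit 156) (PT.nd (nat_lit 78) (PT.lf (nat_lit 26144) (nat_lit 6) (nat_lit 344) (nat_lit 0) (nat_lit 157) (nat_lit 151) (nat_lit 142)) (PT.lf (nat_lit 25460) (nat_lit 6) (nat_lit 335) (nat_lit 0) (nat_lit 158) (nat_lit 151) (nat_lit 141))) (PT.nd (nat_lit 78) (PT.lf (nat_lit 24700) (nat_lit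 6) (nat_lit 325) (nat_lit 0) (nat_lit 159) (nat_lit 151) (nat_lit 140)) (PT.lf (nat_lit 23864) (nat_lit 6) (nat_lit 314) (nat_lit 0) (nat_lit 160) (nat_lit 151) (nat_lit 139)))))) (PT.nd (nat_lit 44538) (PT.nd (nat_lit 234) (PT.nd (nat_lit 78) (PT.lf (nat_lit 22952) (nat_lit 6) (nat_lit 302) (nat_lit 0) (nat_lit 161) (nat_lit 151) (nat_lit 138)) (PT.nd (nat_lit 78) (PT.lf (nat_lit 21964) (nat_lit 6) (nat_lit 289) (nat_lit 0) (nat_lit 162) (nat_lit 151) (nat_lit 137)) (PT.lf (nat_lit 20900) (nat_lit 6) (nat_lit 275) (nat_lit 0) (nat_lit 163) (nat_lit 151) (nat_lit 136)))) (PT.nd (nat_lit 156) (PT.nd (nat_lit 78) (PT.lf (nat_lit 19760) (nat_lit 6) (nat_lit 260) (nat_lit 0) (nat_lit 164) (nat_lit 151) (nat_lit 135)) (PT.lf (nat_lit 18544) (nat_lit 6) (nat_lit 244) (nat_lit 0) (nat_lit 165) (nat_lit 151) (nat_lit 134))) (PT.nd (nat_lit 78) (PT.lf (nat_lit 17252) (nat_lit 6) (nat_lit 227) (nat_lit 0) (nat_lit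 166) (nat_lit 151) (nat_lit 133)) (PT.lf (nat_lit 16568) (nat_lit 6) (nat_lit 218) (nat_lit 0) (nat_lit 167) (nat_lit 151) (nat_lit 132))))) (PT.nd (nat_lit 312) (PT.nd (nat_lit 156) (PT.nd (nat_lit 78) (PT.lf (nat_lit 15960) (nat_lit 6) (nat_lit 210) (nat_lit 5) (nat_lit 131) (nat_lit 152) (nat_lit 167)) (PT.lf (nat_lit 16644) (nat_lit 6) (nat_lit 219) (nat_lit 5) (nat_lit 132) (nat_lit 152) (nat_lit 166))) (PT.nd (nat_lit 78) (PT.lf (nat_lit 17328) (nat_lit 6) (nat_lit 228) (nat_lit 5) (nat_lit 133) (nat_lit 152) (nat_lit 165)) (PT.lf (nat_lit 18620) (nat_lit 6) (nat_lit 245) (nat_lit 5) (nat_lit 134) (nat_lit 152) (nat_lit 164)))) (PT.nd (nat_lit 156) (PT.nd (nat_lit 78) (PT.lf (nat_lit 19836) (nat_lit 6) (nat_lit 261) (nat_lit 5) (nat_lit 135) (nat_lit 152) (nat_lit 163)) (PT.lf (nat_lit 20976) (nat_lit 6) (nat_lit 276) (nat_lit 5) (nat_lit 136) (nat_lit 152) (nat_lit 162))) (PT.nd (nat_lit 78)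 (PT.lf (nat_lit 22040) (nat_lit 6) (nat_lit 290) (nat_lit 5) (nat_lit 137) (nat_lit 152) (nat_lit 161)) (PT.lf (nat_lit 23028) (nat_lit 6) (nat_lit 303) (nat_lit 5) (nat_lit 138) (nat_lit 152) (nat_lit 160))))))))
noncomputable def pc14 : PT := (PT.nd (nat_lit 46176) (PT.nd (nat_lit 1092) (PT.nd (nat_lit 546) (PT.nd (nat_lit 234) (PT.nd (nat_lit 78) (PT.lf (nat_lit 23940) (nat_lit 6) (nat_lit 315) (nat_lit 5) (nat_lit 139) (nat_lit 152) (nat_lit 159)) (PT.nd (nat_lit 78) (PT.lf (nat_lit 24776) (nat_lit 6) (nat_lit 326) (nat_lit 5) (nat_lit 140) (nat_lit 152) (nat_lit 158)) (PT.lf (nat_lit 25536) (nat_lit 6) (nat_lit 336) (nat_lit 5) (nat_lit 141) (nat_lit 152) (nat_lit 157)))) (PT.nd (nat_lit 156) (PT.nd (nat_lit 78) (PT.lf (nat_lit 26220) (nat_lit 6) (nat_lit 345) (nat_lit 5) (nat_lit 142) (nat_lit 152) (nat_lit 156)) (PT.lf (nat_lit 26828) (nat_lit 6) (nat_lit 353) (nat_lit 5) (nat_lit 143) (nat_lit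 152) (nat_lit 155))) (PT.nd (nat_lit 78) (PT.lf (nat_lit 27360) (nat_lit 6) (nat_lit 360) (nat_lit 5) (nat_lit 144) (nat_lit 152) (nat_lit 154)) (PT.lf (nat_lit 27816) (nat_lit 6) (nat_lit 366) (nat_lit 5) (nat_lit 145) (nat_lit 152) (nat_lit 153))))) (PT.nd (nat_lit 234) (PT.nd (nat_lit 78) (PT.lf (nat_lit 28196) (nat_lit 3) (nat_lit 371) (nat_lit 4) (nat_lit 146) (nat_lit 152) (nat_lit 152)) (PT.nd (nat_lit 78) (PT.lf (nat_lit 28424) (nat_lit 6) (nat_lit 374) (nat_lit 4) (nat_lit 147) (nat_lit 152) (nat_lit 151)) (PT.lf (nat_lit 28576) (nat_lit 6) (nat_lit 376) (nat_lit 4) (nat_lit 148) (nat_lit 152) (nat_lit 150)))) (PT.nd (nat_lit 156) (PT.nd (nat_lit 78) (PT.lf (nat_lit 28500) (nat_lit 3) (nat_lit 375) (nat_lit 2) (nat_lit 149) (nat_lit 152) (nat_lit 149)) (PT.lf (nat_lit 28576) (nat_lit 6) (nat_lit 376) (nat_lit 2) (nat_lit 150) (nat_lit 152) (nat_lit 148))) (PT.nd (nat_lit 78) (PT.lf (nat_lit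 28424) (nat_lit 6) (nat_lit 374) (nat_lit 2) (nat_lit 151) (nat_lit 152) (nat_lit 147)) (PT.lf (nat_lit 28196) (nat_lit 3) (nat_lit 371) (nat_lit 0) (nat_lit 152) (nat_lit 152) (nat_lit 146)))))) (PT.nd (nat_lit 546) (PT.nd (nat_lit 234) (PT.nd (nat_lit 78) (PT.lf (nat_lit 27816) (nat_lit 6) (nat_lit 366) (nat_lit 0) (nat_lit 153) (nat_lit 152) (nat_lit 145)) (PT.nd (nat_lit 78) (PT.lf (nat_lit 27360) (nat_lit 6) (nat_lit 360) (nat_lit 0) (nat_lit 154) (nat_lit 152) (nat_lit 144)) (PT.lf (nat_lit 26828) (nat_lit 6) (nat_lit 353) (nat_lit 0) (nat_lit 155) (nat_lit 152) (nat_lit 143)))) (PT.nd (nat_lit 156) (PT.nd (nat_lit 78) (PT.lf (nat_lit 26220) (nat_lit 6) (nat_lit 345) (nat_lit 0) (nat_lit 156) (nat_lit 152) (nat_lit 142)) (PT.lf (nat_lit 25536) (nat_lit 6) (nat_lit 336) (nat_lit 0) (nat_lit 157) (nat_lit 152) (nat_lit 141))) (PT.nd (nat_lit 78) (PT.lf (nat_lit 24776) (nat_lit 6) (nat_lit 326)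 (nat_lit 0) (nat_lit 158) (nat_lit 152) (nat_lit 140)) (PT.lf (nat_lit 23940) (nat_lit 6) (nat_lit 315) (nat_lit 0) (nat_lit 159) (nat_lit 152) (nat_lit 139))))) (PT.nd (nat_lit 312) (PT.nd (nat_lit 156) (PT.nd (nat_lit 78) (PT.lf (nat_lit 23028) (nat_lit 6) (nat_lit 303) (nat_lit 0) (nat_lit 160) (nat_lit 152) (nat_lit 138)) (PT.lf (nat_lit 22040) (nat_lit 6) (nat_lit 290) (nat_lit 0) (nat_lit 161) (nat_lit 152) (nat_lit 137))) (PT.nd (nat_lit 78) (PT.lf (nat_lit 20976) (nat_lit 6) (nat_lit 276) (nat_lit 0) (nat_lit 162) (nat_lit 152) (nat_lit 136)) (PT.lf (nat_lit 19836) (nat_lit 6) (nat_lit 261) (nat_lit 0) (nat_lit 163) (nat_lit 152) (nat_lit 135)))) (PT.nd (nat_lit 156) (PT.nd (nat_lit 78) (PT.lf (nat_lit 18620) (nat_lit 6) (nat_lit 245) (nat_lit 0) (nat_lit 164) (nat_lit 152) (nat_lit 134)) (PT.lf (nat_lit 17328) (nat_lit 6) (nat_lit 228) (nat_lit 0) (nat_lit 165) (nat_lit 152) (nat_lit 133)))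 (PT.nd (nat_lit 78) (PT.lf (nat_lit 16644) (nat_lit 6) (nat_lit 219) (nat_lit 0) (nat_lit 166) (nat_lit 152) (nat_lit 132)) (PT.lf (nat_lit 15960) (nat_lit 6) (nat_lit 210) (nat_lit 0) (nat_lit 167) (nat_lit 152) (nat_lit 131))))))) (PT.nd (nat_lit 1170) (PT.nd (nat_lit 546) (PT.nd (nat_lit 234) (PT.nd (nat_lit 78) (PT.lf (nat_lit 15352) (nat_lit 6) (nat_lit 202) (nat_lit 5) (nat_lit 130) (nat_lit 153) (nat_lit 167)) (PT.nd (nat_lit 78) (PT.lf (nat_lit 16036) (nat_lit 6) (nat_lit 211) (nat_lit 5) (nat_lit 131) (nat_lit 153) (nat_lit 166)) (PT.lf (nat_lit 16720) (nat_lit 6) (nat_lit 220) (nat_lit 5) (nat_lit 132) (nat_lit 153) (nat_lit 165)))) (PT.nd (nat_lit 156) (PT.nd (nat_lit 78) (PT.lf (nat_lit 17404) (nat_lit 6) (nat_lit 229) (nat_lit 5) (nat_lit 133) (nat_lit 153) (nat_lit 164)) (PT.lf (nat_lit 18696) (nat_lit 6) (nat_lit 246) (nat_lit 5) (nat_lit 134) (nat_lit 153) (nat_lit 163))) (PT.nd (nat_lit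 78) (PT.lf (nat_lit 19912) (nat_lit 6) (nat_lit 262) (nat_lit 5) (nat_lit 135) (nat_lit 153) (nat_lit 162)) (PT.lf (nat_lit 21052) (nat_lit 6) (nat_lit 277) (nat_lit 5) (nat_lit 136) (nat_lit 153) (nat_lit 161))))) (PT.nd (nat_lit 312) (PT.nd (nat_lit 156) (PT.nd (nat_lit 78) (PT.lf (nat_lit 22116) (nat_lit 6) (nat_lit 291) (nat_lit 5) (nat_lit 137) (nat_lit 153) (nat_lit 160)) (PT.lf (nat_lit 23104) (nat_lit 6) (nat_lit 304) (nat_lit 5) (nat_lit 138) (nat_lit 153) (nat_lit 159))) (PT.nd (nat_lit 78) (PT.lf (nat_lit 24016) (nat_lit 6) (nat_lit 316) (nat_lit 5) (nat_lit 139) (nat_lit 153) (nat_lit 158)) (PT.lf (nat_lit 24852) (nat_lit 6) (nat_lit 327) (nat_lit 5) (nat_lit 140) (nat_lit 153) (nat_lit 157)))) (PT.nd (nat_lit 156) (PT.nd (nat_lit 78) (PT.lf (nat_lit 25612) (nat_lit 6) (nat_lit 337) (nat_lit 5) (nat_lit 141) (nat_lit 153) (nat_lit 156)) (PT.lf (nat_lit 26296) (nat_lit 6) (nat_lit 346)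 (nat_lit 5) (nat_lit 142) (nat_lit 153) (nat_lit 155))) (PT.nd (nat_lit 78) (PT.lf (nat_lit 26904) (nat_lit 6) (nat_lit 354) (nat_lit 5) (nat_lit 143) (nat_lit 153) (nat_lit 154)) (PT.lf (nat_lit 27436) (nat_lit 3) (nat_lit 361) (nat_lit 4) (nat_lit 144) (nat_lit 153) (nat_lit 153)))))) (PT.nd (nat_lit 546) (PT.nd (nat_lit 234) (PT.nd (nat_lit 78) (PT.lf (nat_lit 27816) (nat_lit 6) (nat_lit 366) (nat_lit 4) (nat_lit 145) (nat_lit 153) (nat_lit 152)) (PT.nd (nat_lit 78) (PT.lf (nat_lit 28120) (nat_lit 6) (nat_lit 370) (nat_lit 4) (nat_lit 146) (nat_lit 153) (nat_lit 151)) (PT.lf (nat_lit 28348) (nat_lit 6) (nat_lit 373) (nat_lit 4) (nat_lit 147) (nat_lit 153) (nat_lit 150)))) (PT.nd (nat_lit 156) (PT.nd (nat_lit 78) (PT.lf (nat_lit 28272) (nat_lit 6) (nat_lit 372) (nat_lit 4) (nat_lit 148) (nat_lit 153) (nat_lit 149)) (PT.lf (nat_lit 28272) (nat_lit 6) (nat_lit 372) (nat_lit 2) (nat_lit 149) (nat_lit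 153) (nat_lit 148))) (PT.nd (nat_lit 78) (PT.lf (nat_lit 28348) (nat_lit 6) (nat_lit 373) (nat_lit 2) (nat_lit 150) (nat_lit 153) (nat_lit 147)) (PT.lf (nat_lit 28120) (nat_lit 6) (nat_lit 370) (nat_lit 2) (nat_lit 151) (nat_lit 153) (nat_lit 146))))) (PT.nd (nat_lit 312) (PT.nd (nat_lit 156) (PT.nd (nat_lit 78) (PT.lf (nat_lit 27816) (nat_lit 6) (nat_lit 366) (nat_lit 2) (nat_lit 152) (nat_lit 153) (nat_lit 145)) (PT.lf (nat_lit 27436) (nat_lit 3) (nat_lit 361) (nat_lit 0) (nat_lit 153) (nat_lit 153) (nat_lit 144))) (PT.nd (nat_lit 78) (PT.lf (nat_lit 26904) (nat_lit 6) (nat_lit 354) (nat_lit 0) (nat_lit 154) (nat_lit 153) (nat_lit 143)) (PT.lf (nat_lit 26296) (nat_lit 6) (nat_lit 346) (nat_lit 0) (nat_lit 155) (nat_lit 153) (nat_lit 142)))) (PT.nd (nat_lit 156) (PT.nd (nat_lit 78) (PT.lf (nat_lit 25612) (nat_lit 6) (nat_lit 337) (nat_lit 0) (nat_lit 156) (nat_lit 153) (nat_lit 141)) (PT.lf (nat_lit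 24852) (nat_lit 6) (nat_lit 327) (nat_lit 0) (nat_lit 157) (nat_lit 153) (nat_lit 140))) (PT.nd (nat_lit 78) (PT.lf (nat_lit 24016) (nat_lit 6) (nat_lit 316) (nat_lit 0) (nat_lit 158) (nat_lit 153) (nat_lit 139)) (PT.lf (nat_lit 23104) (nat_lit 6) (nat_lit 304) (nat_lit 0) (nat_lit 159) (nat_lit 153) (nat_lit 138))))))))
noncomputable def pc15 : PT := (PT.nd (nat_lit 46176) (PT.nd (nat_lit 45006) (PT.nd (nat_lit 546) (PT.nd (nat_lit 234) (PT.nd (nat_lit 78) (PT.lf (nat_lit 22116) (nat_lit 6) (nat_lit 291) (nat_lit 0) (nat_lit 160) (nat_lit 153) (nat_lit 137)) (PT.nd (nat_lit 78) (PT.lf (nat_lit 21052) (nat_lit 6) (nat_lit 277) (nat_lit 0) (nat_lit 161) (nat_lit 153) (nat_lit 136)) (PT.lf (nat_lit 19912) (nat_lit 6) (nat_lit 262) (nat_lit 0) (nat_lit 162) (nat_lit 153) (nat_lit 135)))) (PT.nd (nat_lit 156) (PT.nd (nat_lit 78) (PT.lf (nat_lit 18696) (nat_lit 6) (nat_lit 246) (nat_lit 0) (nat_lit 163)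 (nat_lit 153) (nat_lit 134)) (PT.lf (nat_lit 17404) (nat_lit 6) (nat_lit 229) (nat_lit 0) (nat_lit 164) (nat_lit 153) (nat_lit 133))) (PT.nd (nat_lit 78) (PT.lf (nat_lit 16720) (nat_lit 6) (nat_lit 220) (nat_lit 0) (nat_lit 165) (nat_lit 153) (nat_lit 132)) (PT.lf (nat_lit 16036) (nat_lit 6) (nat_lit 211) (nat_lit 0) (nat_lit 166) (nat_lit 153) (nat_lit 131))))) (PT.nd (nat_lit 44148) (PT.nd (nat_lit 43992) (PT.nd (nat_lit 43914) (PT.lf (nat_lit 15352) (nat_lit 6) (nat_lit 202) (nat_lit 0) (nat_lit 167) (nat_lit 153) (nat_lit 130)) (PT.lf (nat_lit 14820) (nat_lit 6) (nat_lit 195) (nat_lit 5) (nat_lit 129) (nat_lit 154) (nat_lit 167))) (PT.nd (nat_lit 78) (PT.lf (nat_lit 15428) (nat_lit 6) (nat_lit 203) (nat_lit 5) (nat_lit 130) (nat_lit 154) (nat_lit 166)) (PT.lf (nat_lit 16112) (nat_lit 6) (nat_lit 212) (nat_lit 5) (nat_lit 131) (nat_lit 154) (nat_lit 165)))) (PT.nd (nat_lit 156) (PT.nd (nat_lit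 78) (PT.lf (nat_lit 16796) (nat_lit 6) (nat_lit 221) (nat_lit 5) (nat_lit 132) (nat_lit 154) (nat_lit 164)) (PT.lf (nat_lit 17480) (nat_lit 6) (nat_lit 230) (nat_lit 5) (nat_lit 133) (nat_lit 154) (nat_lit 163))) (PT.nd (nat_lit 78) (PT.lf (nat_lit 18772) (nat_lit 6) (nat_lit 247) (nat_lit 5) (nat_lit 134) (nat_lit 154) (nat_lit 162)) (PT.lf (nat_lit 19988) (nat_lit 6) (nat_lit 263) (nat_lit 5) (nat_lit 135) (nat_lit 154) (nat_lit 161)))))) (PT.nd (nat_lit 546) (PT.nd (nat_lit 234) (PT.nd (nat_lit 78) (PT.lf (nat_lit 21128) (nat_lit 6) (nat_lit 278) (nat_lit 5) (nat_lit 136) (nat_lit 154) (nat_lit 160)) (PT.nd (nat_lit 78) (PT.lf (nat_lit 22192) (nat_lit 6) (nat_lit 292) (nat_lit 5) (nat_lit 137) (nat_lit 154) (nat_lit 159)) (PT.lf (nat_lit 23180) (nat_lit 6) (nat_lit 305) (nat_lit 5) (nat_lit 138) (nat_lit 154) (nat_lit 158)))) (PT.nd (nat_lit 156) (PT.nd (nat_lit 78) (PT.lf (nat_lit 24092) (nat_lit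 6) (nat_lit 317) (nat_lit 5) (nat_lit 139) (nat_lit 154) (nat_lit 157)) (PT.lf (nat_lit 24928) (nat_lit 6) (nat_lit 328) (nat_lit 5) (nat_lit 140) (nat_lit 154) (nat_lit 156))) (PT.nd (nat_lit 78) (PT.lf (nat_lit 25688) (nat_lit 6) (nat_lit 338) (nat_lit 5) (nat_lit 141) (nat_lit 154) (nat_lit 155)) (PT.lf (nat_lit 26372) (nat_lit 3) (nat_lit 347) (nat_lit 4) (nat_lit 142) (nat_lit 154) (nat_lit 154))))) (PT.nd (nat_lit 312) (PT.nd (nat_lit 156) (PT.nd (nat_lit 78) (PT.lf (nat_lit 26904) (nat_lit 6) (nat_lit 354) (nat_lit 4) (nat_lit 143) (nat_lit 154) (nat_lit 153)) (PT.lf (nat_lit 27360) (nat_lit 6) (nat_lit 360) (nat_lit 4) (nat_lit 144) (nat_lit 154) (nat_lit 152))) (PT.nd (nat_lit 78) (PT.lf (nat_lit 27740) (nat_lit 6) (nat_lit 365) (nat_lit 4) (nat_lit 145) (nat_lit 154) (nat_lit 151)) (PT.lf (nat_lit 28044) (nat_lit 6) (nat_lit 369) (nat_lit 4) (nat_lit 146) (nat_lit 154) (nat_lit 150)))) (PT.nd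 (nat_lit 156) (PT.nd (nat_lit 78) (PT.lf (nat_lit 27968) (nat_lit 6) (nat_lit 368) (nat_lit 4) (nat_lit 147) (nat_lit 154) (nat_lit 149)) (PT.lf (nat_lit 27892) (nat_lit 3) (nat_lit 367) (nat_lit 2) (nat_lit 148) (nat_lit 154) (nat_lit 148))) (PT.nd (nat_lit 78) (PT.lf (nat_lit 27968) (nat_lit 6) (nat_lit 368) (nat_lit 2) (nat_lit 149) (nat_lit 154) (nat_lit 147)) (PT.lf (nat_lit 28044) (nat_lit 6) (nat_lit 369) (nat_lit 2) (nat_lit 150) (nat_lit 154) (nat_lit 146))))))) (PT.nd (nat_lit 1170) (PT.nd (nat_lit 546) (PT.nd (nat_lit 234) (PT.nd (nat_lit 78) (PT.lf (nat_lit 27740) (nat_lit 6) (nat_lit 365) (nat_lit 2) (nat_lit 151) (nat_lit 154) (nat_lit 145)) (PT.nd (nat_lit 78) (PT.lf (nat_lit 27360) (nat_lit 6) (nat_lit 360) (nat_lit 2) (nat_lit 152) (nat_lit 154) (nat_lit 144)) (PT.lf (nat_lit 26904) (nat_lit 6) (nat_lit 354) (nat_lit 2) (nat_lit 153) (nat_lit 154) (nat_lit 143)))) (PT.nd (nat_lit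 156) (PT.nd (nat_lit 78) (PT.lf (nat_lit 26372) (nat_lit 3) (nat_lit 347) (nat_lit 0) (nat_lit 154) (nat_lit 154) (nat_lit 142)) (PT.lf (nat_lit 25688) (nat_lit 6) (nat_lit 338) (nat_lit 0) (nat_lit 155) (nat_lit 154) (nat_lit 141))) (PT.nd (nat_lit 78) (PT.lf (nat_lit 24928) (nat_lit 6) (nat_lit 328) (nat_lit 0) (nat_lit 156) (nat_lit 154) (nat_lit 140)) (PT.lf (nat_lit 24092) (nat_lit 6) (nat_lit 317) (nat_lit 0) (nat_lit 157) (nat_lit 154) (nat_lit 139))))) (PT.nd (nat_lit 312) (PT.nd (nat_lit 156) (PT.nd (nat_lit 78) (PT.lf (nat_lit 23180) (nat_lit 6) (nat_lit 305) (nat_lit 0) (nat_lit 158) (nat_lit 154) (nat_lit 138)) (PT.lf (nat_lit 22192) (nat_lit 6) (nat_lit 292) (nat_lit 0) (nat_lit 159) (nat_lit 154) (nat_lit 137))) (PT.nd (nat_lit 78) (PT.lf (nat_lit 21128) (nat_lit 6) (nat_lit 278) (nat_lit 0) (nat_lit 160) (nat_lit 154) (nat_lit 136)) (PT.lf (nat_lit 19988) (nat_lit 6) (nat_lit 263) (nat_lit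 0) (nat_lit 161) (nat_lit 154) (nat_lit 135)))) (PT.nd (nat_lit 156) (PT.nd (nat_lit 78) (PT.lf (nat_lit 18772) (nat_lit 6) (nat_lit 247) (nat_lit 0) (nat_lit 162) (nat_lit 154) (nat_lit 134)) (PT.lf (nat_lit 17480) (nat_lit 6) (nat_lit 230) (nat_lit 0) (nat_lit 163) (nat_lit 154) (nat_lit 133))) (PT.nd (nat_lit 78) (PT.lf (nat_lit 16796) (nat_lit 6) (nat_lit 221) (nat_lit 0) (nat_lit 164) (nat_lit 154) (nat_lit 132)) (PT.lf (nat_lit 16112) (nat_lit 6) (nat_lit 212) (nat_lit 0) (nat_lit 165) (nat_lit 154) (nat_lit 131)))))) (PT.nd (nat_lit 44304) (PT.nd (nat_lit 43992) (PT.nd (nat_lit 78) (PT.lf (nat_lit 15428) (nat_lit 6) (nat_lit 203) (nat_lit 0) (nat_lit 166) (nat_lit 154) (nat_lit 130)) (PT.nd (nat_lit 43836) (PT.lf (nat_lit 14820) (nat_lit 6) (nat_lit 195) (nat_lit 0) (nat_lit 167) (nat_lit 154) (nat_lit 129)) (PT.lf (nat_lit 14288) (nat_lit 6) (nat_lit 188) (nat_lit 5) (nat_lit 128) (nat_lit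 155) (nat_lit 167)))) (PT.nd (nat_lit 156) (PT.nd (nat_lit 78) (PT.lf (nat_lit 14896) (nat_lit 6) (nat_lit 196) (nat_lit 5) (nat_lit 129) (nat_lit 155) (nat_lit 166)) (PT.lf (nat_lit 15504) (nat_lit 6) (nat_lit 204) (nat_lit 5) (nat_lit 130) (nat_lit 155) (nat_lit 165))) (PT.nd (nat_lit 78) (PT.lf (nat_lit 16188) (nat_lit 6) (nat_lit 213) (nat_lit 5) (nat_lit 131) (nat_lit 155) (nat_lit 164)) (PT.lf (nat_lit 16872) (nat_lit 6) (nat_lit 222) (nat_lit 5) (nat_lit 132) (nat_lit 155) (nat_lit 163))))) (PT.nd (nat_lit 312) (PT.nd (nat_lit 156) (PT.nd (nat_lit 78) (PT.lf (nat_lit 17556) (nat_lit 6) (nat_lit 231) (nat_lit 5) (nat_lit 133) (nat_lit 155) (nat_lit 162)) (PT.lf (nat_lit 18848) (nat_lit 6) (nat_lit 248) (nat_lit 5) (nat_lit 134) (nat_lit 155) (nat_lit 161))) (PT.nd (nat_lit 78) (PT.lf (nat_lit 20064) (nat_lit 6) (nat_lit 264) (nat_lit 5) (nat_lit 135) (nat_lit 155) (nat_lit 160)) (PT.lf (nat_lit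 21204) (nat_lit 6) (nat_lit 279) (nat_lit 5) (nat_lit 136) (nat_lit 155) (nat_lit 159)))) (PT.nd (nat_lit 156) (PT.nd (nat_lit 78) (PT.lf (nat_lit 22268) (nat_lit 6) (nat_lit 293) (nat_lit 5) (nat_lit 137) (nat_lit 155) (nat_lit 158)) (PT.lf (nat_lit 23256) (nat_lit 6) (nat_lit 306) (nat_lit 5) (nat_lit 138) (nat_lit 155) (nat_lit 157))) (PT.nd (nat_lit 78) (PT.lf (nat_lit 24168) (nat_lit 6) (nat_lit 318) (nat_lit 5) (nat_lit 139) (nat_lit 155) (nat_lit 156)) (PT.lf (nat_lit 25004) (nat_lit 3) (nat_lit 329) (nat_lit 4) (nat_lit 140) (nat_lit 155) (nat_lit 155))))))))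
noncomputable def pc16 : PT := (PT.nd (nat_lit 45864) (PT.nd (nat_lit 1092) (PT.nd (nat_lit 546) (PT.nd (nat_lit 234) (PT.nd (nat_lit 78) (PT.lf (nat_lit 25688) (nat_lit 6) (nat_lit 338) (nat_lit 4) (nat_lit 141) (nat_lit 155) (nat_lit 154)) (PT.nd (nat_lit 78) (PT.lf (nat_lit 26296) (nat_lit 6) (nat_lit 346) (nat_lit 4) (nat_lit 142) (nat_lit 155) (nat_lit 153)) (PT.lf (nat_lit 26828) (nat_lit 6) (nat_lit 353) (nat_lit 4) (nat_lit 143) (nat_lit 155) (nat_lit 152)))) (PT.nd (nat_lit 156) (PT.nd (nat_lit 78) (PT.lf (nat_lit 27284) (nat_lit 6) (nat_lit 359) (nat_lit 4) (nat_lit 144) (nat_lit 155) (nat_lit 151)) (PT.lf (nat_lit 27664) (nat_lit 6) (nat_lit 364) (nat_lit 4) (nat_lit 145) (nat_lit 155) (nat_lit 150))) (PT.nd (nat_lit 78) (PT.lf (nat_lit 27588) (nat_lit 6) (nat_lit 363) (nat_lit 4) (nat_lit 146) (nat_lit 155) (nat_lit 149)) (PT.lf (nat_lit 27512) (nat_lit 6) (nat_lit 362) (nat_lit 4) (nat_lit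 147) (nat_lit 155) (nat_lit 148))))) (PT.nd (nat_lit 234) (PT.nd (nat_lit 78) (PT.lf (nat_lit 27512) (nat_lit 6) (nat_lit 362) (nat_lit 2) (nat_lit 148) (nat_lit 155) (nat_lit 147)) (PT.nd (nat_lit 78) (PT.lf (nat_lit 27588) (nat_lit 6) (nat_lit 363) (nat_lit 2) (nat_lit 149) (nat_lit 155) (nat_lit 146)) (PT.lf (nat_lit 27664) (nat_lit 6) (nat_lit 364) (nat_lit 2) (nat_lit 150) (nat_lit 155) (nat_lit 145)))) (PT.nd (nat_lit 156) (PT.nd (nat_lit 78) (PT.lf (nat_lit 27284) (nat_lit 6) (nat_lit 359) (nat_lit 2) (nat_lit 151) (nat_lit 155) (nat_lit 144)) (PT.lf (nat_lit 26828) (nat_lit 6) (nat_lit 353) (nat_lit 2) (nat_lit 152) (nat_lit 155) (nat_lit 143))) (PT.nd (nat_lit 78) (PT.lf (nat_lit 26296) (nat_lit 6) (nat_lit 346) (nat_lit 2) (nat_lit 153) (nat_lit 155) (nat_lit 142)) (PT.lf (nat_lit 25688) (nat_lit 6) (nat_lit 338) (nat_lit 2) (nat_lit 154) (nat_lit 155) (nat_lit 141)))))) (PT.nd (nat_lit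 546) (PT.nd (nat_lit 234) (PT.nd (nat_lit 78) (PT.lf (nat_lit 25004) (nat_lit 3) (nat_lit 329) (nat_lit 0) (nat_lit 155) (nat_lit 155) (nat_lit 140)) (PT.nd (nat_lit 78) (PT.lf (nat_lit 24168) (nat_lit 6) (nat_lit 318) (nat_lit 0) (nat_lit 156) (nat_lit 155) (nat_lit 139)) (PT.lf (nat_lit 23256) (nat_lit 6) (nat_lit 306) (nat_lit 0) (nat_lit 157) (nat_lit 155) (nat_lit 138)))) (PT.nd (nat_lit 156) (PT.nd (nat_lit 78) (PT.lf (nat_lit 22268) (nat_lit 6) (nat_lit 293) (nat_lit 0) (nat_lit 158) (nat_lit 155) (nat_lit 137)) (PT.lf (nat_lit 21204) (nat_lit 6) (nat_lit 279) (nat_lit 0) (nat_lit 159) (nat_lit 155) (nat_lit 136))) (PT.nd (nat_lit 78) (PT.lf (nat_lit 20064) (nat_lit 6) (nat_lit 264) (nat_lit 0) (nat_lit 160) (nat_lit 155) (nat_lit 135)) (PT.lf (nat_lit 18848) (nat_lit 6) (nat_lit 248) (nat_lit 0) (nat_lit 161) (nat_lit 155) (nat_lit 134))))) (PT.nd (nat_lit 312) (PT.nd (nat_lit 156) (PT.nd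 (nat_lit 78) (PT.lf (nat_lit 17556) (nat_lit 6) (nat_lit 231) (nat_lit 0) (nat_lit 162) (nat_lit 155) (nat_lit 133)) (PT.lf (nat_lit 16872) (nat_lit 6) (nat_lit 222) (nat_lit 0) (nat_lit 163) (nat_lit 155) (nat_lit 132))) (PT.nd (nat_lit 78) (PT.lf (nat_lit 16188) (nat_lit 6) (nat_lit 213) (nat_lit 0) (nat_lit 164) (nat_lit 155) (nat_lit 131)) (PT.lf (nat_lit 15504) (nat_lit 6) (nat_lit 204) (nat_lit 0) (nat_lit 165) (nat_lit 155) (nat_lit 130)))) (PT.nd (nat_lit 43758) (PT.nd (nat_lit 78) (PT.lf (nat_lit 14896) (nat_lit 6) (nat_lit 196) (nat_lit 0) (nat_lit 166) (nat_lit 155) (nat_lit 129)) (PT.lf (nat_lit 14288) (nat_lit 6) (nat_lit 188) (nat_lit 0) (nat_lit 167) (nat_lit 155) (nat_lit 128))) (PT.nd (nat_lit 78) (PT.lf (nat_lit 13224) (nat_lit 6) (nat_lit 174) (nat_lit 5) (nat_lit 126) (nat_lit 156) (nat_lit 168)) (PT.lf (nat_lit 13832) (nat_lit 6) (nat_lit 182) (nat_lit 5) (nat_lit 127) (nat_lit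 156) (nat_lit 167))))))) (PT.nd (nat_lit 1170) (PT.nd (nat_lit 546) (PT.nd (nat_lit 234) (PT.nd (nat_lit 78) (PT.lf (nat_lit 14364) (nat_lit 6) (nat_lit 189) (nat_lit 5) (nat_lit 128) (nat_lit 156) (nat_lit 166)) (PT.nd (nat_lit 78) (PT.lf (nat_lit 14972) (nat_lit 6) (nat_lit 197) (nat_lit 5) (nat_lit 129) (nat_lit 156) (nat_lit 165)) (PT.lf (nat_lit 15580) (nat_lit 6) (nat_lit 205) (nat_lit 5) (nat_lit 130) (nat_lit 156) (nat_lit 164)))) (PT.nd (nat_lit 156) (PT.nd (nat_lit 78) (PT.lf (nat_lit 16264) (nat_lit 6) (nat_lit 214) (nat_lit 5) (nat_lit 131) (nat_lit 156) (nat_lit 163)) (PT.lf (nat_lit 16948) (nat_lit 6) (nat_lit 223) (nat_lit 5) (nat_lit 132) (nat_lit 156) (nat_lit 162))) (PT.nd (nat_lit 78) (PT.lf (nat_lit 17632) (nat_lit 6) (nat_lit 232) (nat_lit 5) (nat_lit 133) (nat_lit 156) (nat_lit 161)) (PT.lf (nat_lit 18924) (nat_lit 6) (nat_lit 249) (nat_lit 5) (nat_lit 134) (nat_lit 156) (nat_lit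 160))))) (PT.nd (nat_lit 312) (PT.nd (nat_lit 156) (PT.nd (nat_lit 78) (PT.lf (nat_lit 20140) (nat_lit 6) (nat_lit 265) (nat_lit 5) (nat_lit 135) (nat_lit 156) (nat_lit 159)) (PT.lf (nat_lit 21280) (nat_lit 6) (nat_lit 280) (nat_lit 5) (nat_lit 136) (nat_lit 156) (nat_lit 158))) (PT.nd (nat_lit 78) (PT.lf (nat_lit 22344) (nat_lit 6) (nat_lit 294) (nat_lit 5) (nat_lit 137) (nat_lit 156) (nat_lit 157)) (PT.lf (nat_lit 23332) (nat_lit 3) (nat_lit 307) (nat_lit 4) (nat_lit 138) (nat_lit 156) (nat_lit 156)))) (PT.nd (nat_lit 156) (PT.nd (nat_lit 78) (PT.lf (nat_lit 24168) (nat_lit 6) (nat_lit 318) (nat_lit 4) (nat_lit 139) (nat_lit 156) (nat_lit 155)) (PT.lf (nat_lit 24928) (nat_lit 6) (nat_lit 328) (nat_lit 4) (nat_lit 140) (nat_lit 156) (nat_lit 154))) (PT.nd (nat_lit 78) (PT.lf (nat_lit 25612) (nat_lit 6) (nat_lit 337) (nat_lit 4) (nat_lit 141) (nat_lit 156) (nat_lit 153)) (PT.lf (nat_lit 26220) (nat_lit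 6) (nat_lit 345) (nat_lit 4) (nat_lit 142) (nat_lit 156) (nat_lit 152)))))) (PT.nd (nat_lit 546) (PT.nd (nat_lit 234) (PT.nd (nat_lit 78) (PT.lf (nat_lit 26752) (nat_lit 6) (nat_lit 352) (nat_lit 4) (nat_lit 143) (nat_lit 156) (nat_lit 151)) (PT.nd (nat_lit 78) (PT.lf (nat_lit 27208) (nat_lit 6) (nat_lit 358) (nat_lit 4) (nat_lit 144) (nat_lit 156) (nat_lit 150)) (PT.lf (nat_lit 27132) (nat_lit 6) (nat_lit 357) (nat_lit 4) (nat_lit 145) (nat_lit 156) (nat_lit 149)))) (PT.nd (nat_lit 156) (PT.nd (nat_lit 78) (PT.lf (nat_lit 27056) (nat_lit 6) (nat_lit 356) (nat_lit 4) (nat_lit 146) (nat_lit 156) (nat_lit 148)) (PT.lf (nat_lit 26980) (nat_lit 3) (nat_lit 355) (nat_lit 2) (nat_lit 147) (nat_lit 156) (nat_lit 147))) (PT.nd (nat_lit 78) (PT.lf (nat_lit 27056) (nat_lit 6) (nat_lit 356) (nat_lit 2) (nat_lit 148) (nat_lit 156) (nat_lit 146)) (PT.lf (nat_lit 27132) (nat_lit 6) (nat_lit 357) (nat_lit 2) (nat_lit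 149) (nat_lit 156) (nat_lit 145))))) (PT.nd (nat_lit 312) (PT.nd (nat_lit 156) (PT.nd (nat_lit 78) (PT.lf (nat_lit 27208) (nat_lit 6) (nat_lit 358) (nat_lit 2) (nat_lit 150) (nat_lit 156) (nat_lit 144)) (PT.lf (nat_lit 26752) (nat_lit 6) (nat_lit 352) (nat_lit 2) (nat_lit 151) (nat_lit 156) (nat_lit 143))) (PT.nd (nat_lit 78) (PT.lf (nat_lit 26220) (nat_lit 6) (nat_lit 345) (nat_lit 2) (nat_lit 152) (nat_lit 156) (nat_lit 142)) (PT.lf (nat_lit 25612) (nat_lit 6) (nat_lit 337) (nat_lit 2) (nat_lit 153) (nat_lit 156) (nat_lit 141)))) (PT.nd (nat_lit 156) (PT.nd (nat_lit 78) (PT.lf (nat_lit 24928) (nat_lit 6) (nat_lit 328) (nat_lit 2) (nat_lit 154) (nat_lit 156) (nat_lit 140)) (PT.lf (nat_lit 24168) (nat_lit 6) (nat_lit 318) (nat_lit 2) (nat_lit 155) (nat_lit 156) (nat_lit 139))) (PT.nd (nat_lit 78) (PT.lf (nat_lit 23332) (nat_lit 3) (nat_lit 307) (nat_lit 0) (nat_lit 156) (nat_lit 156) (nat_lit 138))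 (PT.lf (nat_lit 22344) (nat_lit 6) (nat_lit 294) (nat_lit 0) (nat_lit 157) (nat_lit 156) (nat_lit 137))))))))
noncomputable def pc17 : PT := (PT.nd (nat_lit 45708) (PT.nd (nat_lit 44538) (PT.nd (nat_lit 546) (PT.nd (nat_lit 234) (PT.nd (nat_lit 78) (PT.lf (nat_lit 21280) (nat_lit 6) (nat_lit 280) (nat_lit 0) (nat_lit 158) (nat_lit 156) (nat_lit 136)) (PT.nd (nat_lit 78) (PT.lf (nat_lit 20140) (nat_lit 6) (nat_lit 265) (nat_lit 0) (nat_lit 159) (nat_lit 156) (nat_lit 135)) (PT.lf (nat_lit 18924) (nat_lit 6) (nat_lit 249) (nat_lit 0) (nat_lit 160) (nat_lit 156) (nat_lit 134)))) (PT.nd (nat_lit 156) (PT.nd (nat_lit 78) (PT.lf (nat_lit 17632) (nat_lit 6) (nat_lit 232) (nat_lit 0) (nat_lit 161) (nat_lit 156) (nat_lit 133)) (PT.lf (nat_lit 16948) (nat_lit 6) (nat_lit 223) (nat_lit 0) (nat_lit 162) (nat_lit 156) (nat_lit 132))) (PT.nd (nat_lit 78) (PT.lf (nat_lit 16264) (nat_lit 6) (nat_lit 214) (nat_lit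 0) (nat_lit 163) (nat_lit 156) (nat_lit 131)) (PT.lf (nat_lit 15580) (nat_lit 6) (nat_lit 205) (nat_lit 0) (nat_lit 164) (nat_lit 156) (nat_lit 130))))) (PT.nd (nat_lit 234) (PT.nd (nat_lit 78) (PT.lf (nat_lit 14972) (nat_lit 6) (nat_lit 197) (nat_lit 0) (nat_lit 165) (nat_lit 156) (nat_lit 129)) (PT.nd (nat_lit 78) (PT.lf (nat_lit 14364) (nat_lit 6) (nat_lit 189) (nat_lit 0) (nat_lit 166) (nat_lit 156) (nat_lit 128)) (PT.lf (nat_lit 13832) (nat_lit 6) (nat_lit 182) (nat_lit 0) (nat_lit 167) (nat_lit 156) (nat_lit 127)))) (PT.nd (nat_lit 43602) (PT.nd (nat_lit 43524) (PT.lf (nat_lit 13224) (nat_lit 6) (nat_lit 174) (nat_lit 0) (nat_lit 168) (nat_lit 156) (nat_lit 126)) (PT.lf (nat_lit 12768) (nat_lit 6) (nat_lit 168) (nat_lit 5) (nat_lit 125) (nat_lit 157) (nat_lit 168))) (PT.nd (nat_lit 78) (PT.lf (nat_lit 13300) (nat_lit 6) (nat_lit 175) (nat_lit 5) (nat_lit 126) (nat_lit 157) (nat_lit 167)) (PT.lf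 (nat_lit 13908) (nat_lit 6) (nat_lit 183) (nat_lit 5) (nat_lit 127) (nat_lit 157) (nat_lit 166)))))) (PT.nd (nat_lit 546) (PT.nd (nat_lit 234) (PT.nd (nat_lit 78) (PT.lf (nat_lit 14440) (nat_lit 6) (nat_lit 190) (nat_lit 5) (nat_lit 128) (nat_lit 157) (nat_lit 165)) (PT.nd (nat_lit 78) (PT.lf (nat_lit 15048) (nat_lit 6) (nat_lit 198) (nat_lit 5) (nat_lit 129) (nat_lit 157) (nat_lit 164)) (PT.lf (nat_lit 15656) (nat_lit 6) (nat_lit 206) (nat_lit 5) (nat_lit 130) (nat_lit 157) (nat_lit 163)))) (PT.nd (nat_lit 156) (PT.nd (nat_lit 78) (PT.lf (nat_lit 16340) (nat_lit 6) (nat_lit 215) (nat_lit 5) (nat_lit 131) (nat_lit 157) (nat_lit 162)) (PT.lf (nat_lit 17024) (nat_lit 6) (nat_lit 224) (nat_lit 5) (nat_lit 132) (nat_lit 157) (nat_lit 161))) (PT.nd (nat_lit 78) (PT.lf (nat_lit 17708) (nat_lit 6) (nat_lit 233) (nat_lit 5) (nat_lit 133) (nat_lit 157) (nat_lit 160)) (PT.lf (nat_lit 19000) (nat_lit 6) (nat_lit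 250) (nat_lit 5) (nat_lit 134) (nat_lit 157) (nat_lit 159))))) (PT.nd (nat_lit 312) (PT.nd (nat_lit 156) (PT.nd (nat_lit 78) (PT.lf (nat_lit 20216) (nat_lit 6) (nat_lit 266) (nat_lit 5) (nat_lit 135) (nat_lit 157) (nat_lit 158)) (PT.lf (nat_lit 21356) (nat_lit 3) (nat_lit 281) (nat_lit 4) (nat_lit 136) (nat_lit 157) (nat_lit 157))) (PT.nd (nat_lit 78) (PT.lf (nat_lit 22344) (nat_lit 6) (nat_lit 294) (nat_lit 4) (nat_lit 137) (nat_lit 157) (nat_lit 156)) (PT.lf (nat_lit 23256) (nat_lit 6) (nat_lit 306) (nat_lit 4) (nat_lit 138) (nat_lit 157) (nat_lit 155)))) (PT.nd (nat_lit 156) (PT.nd (nat_lit 78) (PT.lf (nat_lit 24092) (nat_lit 6) (nat_lit 317) (nat_lit 4) (nat_lit 139) (nat_lit 157) (nat_lit 154)) (PT.lf (nat_lit 24852) (nat_lit 6) (nat_lit 327) (nat_lit 4) (nat_lit 140) (nat_lit 157) (nat_lit 153))) (PT.nd (nat_lit 78) (PT.lf (nat_lit 25536) (nat_lit 6) (nat_lit 336) (nat_lit 4) (nat_lit 141) (nat_lit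 157) (nat_lit 152)) (PT.lf (nat_lit 26144) (nat_lit 6) (nat_lit 344) (nat_lit 4) (nat_lit 142) (nat_lit 157) (nat_lit 151))))))) (PT.nd (nat_lit 1170) (PT.nd (nat_lit 546) (PT.nd (nat_lit 234) (PT.nd (nat_lit 78) (PT.lf (nat_lit 26676) (nat_lit 6) (nat_lit 351) (nat_lit 4) (nat_lit 143) (nat_lit 157) (nat_lit 150)) (PT.nd (nat_lit 78) (PT.lf (nat_lit 26600) (nat_lit 6) (nat_lit 350) (nat_lit 4) (nat_lit 144) (nat_lit 157) (nat_lit 149)) (PT.lf (nat_lit 26524) (nat_lit 6) (nat_lit 349) (nat_lit 4) (nat_lit 145) (nat_lit 157) (nat_lit 148)))) (PT.nd (nat_lit 156) (PT.nd (nat_lit 78) (PT.lf (nat_lit 26448) (nat_lit 6) (nat_lit 348) (nat_lit 4) (nat_lit 146) (nat_lit 157) (nat_lit 147)) (PT.lf (nat_lit 26448) (nat_lit 6) (nat_lit 348) (nat_lit 2) (nat_lit 147) (nat_lit 157) (nat_lit 146))) (PT.nd (nat_lit 78) (PT.lf (nat_lit 26524) (nat_lit 6) (nat_lit 349) (nat_lit 2) (nat_lit 148) (nat_lit 157) (nat_lit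 145)) (PT.lf (nat_lit 26600) (nat_lit 6) (nat_lit 350) (nat_lit 2) (nat_lit 149) (nat_lit 157) (nat_lit 144))))) (PT.nd (nat_lit 312) (PT.nd (nat_lit 156) (PT.nd (nat_lit 78) (PT.lf (nat_lit 26676) (nat_lit 6) (nat_lit 351) (nat_lit 2) (nat_lit 150) (nat_lit 157) (nat_lit 143)) (PT.lf (nat_lit 26144) (nat_lit 6) (nat_lit 344) (nat_lit 2) (nat_lit 151) (nat_lit 157) (nat_lit 142))) (PT.nd (nat_lit 78) (PT.lf (nat_lit 25536) (nat_lit 6) (nat_lit 336) (nat_lit 2) (nat_lit 152) (nat_lit 157) (nat_lit 141)) (PT.lf (nat_lit 24852) (nat_lit 6) (nat_lit 327) (nat_lit 2) (nat_lit 153) (nat_lit 157) (nat_lit 140)))) (PT.nd (nat_lit 156) (PT.nd (nat_lit 78) (PT.lf (nat_lit 24092) (nat_lit 6) (nat_lit 317) (nat_lit 2) (nat_lit 154) (nat_lit 157) (nat_lit 139)) (PT.lf (nat_lit 23256) (nat_lit 6) (nat_lit 306) (nat_lit 2) (nat_lit 155) (nat_lit 157) (nat_lit 138))) (PT.nd (nat_lit 78) (PT.lf (nat_lit 22344) (nat_lit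 6) (nat_lit 294) (nat_lit 2) (nat_lit 156) (nat_lit 157) (nat_lit 137)) (PT.lf (nat_lit 21356) (nat_lit 3) (nat_lit 281) (nat_lit 0) (nat_lit 157) (nat_lit 157) (nat_lit 136)))))) (PT.nd (nat_lit 546) (PT.nd (nat_lit 234) (PT.nd (nat_lit 78) (PT.lf (nat_lit 20216) (nat_lit 6) (nat_lit 266) (nat_lit 0) (nat_lit 158) (nat_lit 157) (nat_lit 135)) (PT.nd (nat_lit 78) (PT.lf (nat_lit 19000) (nat_lit 6) (nat_lit 250) (nat_lit 0) (nat_lit 159) (nat_lit 157) (nat_lit 134)) (PT.lf (nat_lit 17708) (nat_lit 6) (nat_lit 233) (nat_lit 0) (nat_lit 160) (nat_lit 157) (nat_lit 133)))) (PT.nd (nat_lit 156) (PT.nd (nat_lit 78) (PT.lf (nat_lit 17024) (nat_lit 6) (nat_lit 224) (nat_lit 0) (nat_lit 161) (nat_lit 157) (nat_lit 132)) (PT.lf (nat_lit 16340) (nat_lit 6) (nat_lit 215) (nat_lit 0) (nat_lit 162) (nat_lit 157) (nat_lit 131))) (PT.nd (nat_lit 78) (PT.lf (nat_lit 15656) (nat_lit 6) (nat_lit 206) (nat_lit 0) (nat_lit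 163) (nat_lit 157) (nat_lit 130)) (PT.lf (nat_lit 15048) (nat_lit 6) (nat_lit 198) (nat_lit 0) (nat_lit 164) (nat_lit 157) (nat_lit 129))))) (PT.nd (nat_lit 43602) (PT.nd (nat_lit 156) (PT.nd (nat_lit 78) (PT.lf (nat_lit 14440) (nat_lit 6) (nat_lit 190) (nat_lit 0) (nat_lit 165) (nat_lit 157) (nat_lit 128)) (PT.lf (nat_lit 13908) (nat_lit 6) (nat_lit 183) (nat_lit 0) (nat_lit 166) (nat_lit 157) (nat_lit 127))) (PT.nd (nat_lit 78) (PT.lf (nat_lit 13300) (nat_lit 6) (nat_lit 175) (nat_lit 0) (nat_lit 167) (nat_lit 157) (nat_lit 126)) (PT.lf (nat_lit 12768) (nat_lit 6) (nat_lit 168) (nat_lit 0) (nat_lit 168) (nat_lit 157) (nat_lit 125)))) (PT.nd (nat_lit 156) (PT.nd (nat_lit 78) (PT.lf (nat_lit 11856) (nat_lit 6) (nat_lit 156) (nat_lit 5) (nat_lit 123) (nat_lit 158) (nat_lit 169)) (PT.lf (nat_lit 12312) (nat_lit 6) (nat_lit 162) (nat_lit 5) (nat_lit 124) (nat_lit 158) (nat_lit 168))) (PT.nd (nat_lit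 78) (PT.lf (nat_lit 12844) (nat_lit 6) (nat_lit 169) (nat_lit 5) (nat_lit 125) (nat_lit 158) (nat_lit 167)) (PT.lf (nat_lit 13376) (nat_lit 6) (nat_lit 176) (nat_lit 5) (nat_lit 126) (nat_lit 158) (nat_lit 166))))))))
noncomputable def pc18 : PT := (PT.nd (nat_lit 2262) (PT.nd (nat_lit 1092) (PT.nd (nat_lit 546) (PT.nd (nat_lit 234) (PT.nd (nat_lit 78) (PT.lf (nat_lit 13984) (nat_lit 6) (nat_lit 184) (nat_lit 5) (nat_lit 127) (nat_lit 158) (nat_lit 165)) (PT.nd (nat_lit 78) (PT.lf (nat_lit 14516) (nat_lit 6) (nat_lit 191) (nat_lit 5) (nat_lit 128) (nat_lit 158) (nat_lit 164)) (PT.lf (nat_lit 15124) (nat_lit 6) (nat_lit 199) (nat_lit 5) (nat_lit 129) (nat_lit 158) (nat_lit 163)))) (PT.nd (nat_lit 156) (PT.nd (nat_lit 78) (PT.lf (nat_lit 15732) (nat_lit 6) (nat_lit 207) (nat_lit 5) (nat_lit 130) (nat_lit 158) (nat_lit 162)) (PT.lf (nat_lit 16416) (nat_lit 6) (nat_lit 216) (nat_lit 5) (nat_lit 131) (nat_lit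 158) (nat_lit 161))) (PT.nd (nat_lit 78) (PT.lf (nat_lit 17100) (nat_lit 6) (nat_lit 225) (nat_lit 5) (nat_lit 132) (nat_lit 158) (nat_lit 160)) (PT.lf (nat_lit 17784) (nat_lit 6) (nat_lit 234) (nat_lit 5) (nat_lit 133) (nat_lit 158) (nat_lit 159))))) (PT.nd (nat_lit 234) (PT.nd (nat_lit 78) (PT.lf (nat_lit 19076) (nat_lit 3) (nat_lit 251) (nat_lit 4) (nat_lit 134) (nat_lit 158) (nat_lit 158)) (PT.nd (nat_lit 78) (PT.lf (nat_lit 20216) (nat_lit 6) (nat_lit 266) (nat_lit 4) (nat_lit 135) (nat_lit 158) (nat_lit 157)) (PT.lf (nat_lit 21280) (nat_lit 6) (nat_lit 280) (nat_lit 4) (nat_lit 136) (nat_lit 158) (nat_lit 156)))) (PT.nd (nat_lit 156) (PT.nd (nat_lit 78) (PT.lf (nat_lit 22268) (nat_lit 6) (nat_lit 293) (nat_lit 4) (nat_lit 137) (nat_lit 158) (nat_lit 155)) (PT.lf (nat_lit 23180) (nat_lit 6) (nat_lit 305) (nat_lit 4) (nat_lit 138) (nat_lit 158) (nat_lit 154))) (PT.nd (nat_lit 78) (PT.lf (nat_lit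 24016) (nat_lit 6) (nat_lit 316) (nat_lit 4) (nat_lit 139) (nat_lit 158) (nat_lit 153)) (PT.lf (nat_lit 24776) (nat_lit 6) (nat_lit 326) (nat_lit 4) (nat_lit 140) (nat_lit 158) (nat_lit 152)))))) (PT.nd (nat_lit 546) (PT.nd (nat_lit 234) (PT.nd (nat_lit 78) (PT.lf (nat_lit 25460) (nat_lit 6) (nat_lit 335) (nat_lit 4) (nat_lit 141) (nat_lit 158) (nat_lit 151)) (PT.nd (nat_lit 78) (PT.lf (nat_lit 26068) (nat_lit 6) (nat_lit 343) (nat_lit 4) (nat_lit 142) (nat_lit 158) (nat_lit 150)) (PT.lf (nat_lit 25992) (nat_lit 6) (nat_lit 342) (nat_lit 4) (nat_lit 143) (nat_lit 158) (nat_lit 149)))) (PT.nd (nat_lit 156) (PT.nd (nat_lit 78) (PT.lf (nat_lit 25916) (nat_lit 6) (nat_lit 341) (nat_lit 4) (nat_lit 144) (nat_lit 158) (nat_lit 148)) (PT.lf (nat_lit 25840) (nat_lit 6) (nat_lit 340) (nat_lit 4) (nat_lit 145) (nat_lit 158) (nat_lit 147))) (PT.nd (nat_lit 78) (PT.lf (nat_lit 25764) (nat_lit 3) (nat_lit 339)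 (nat_lit 2) (nat_lit 146) (nat_lit 158) (nat_lit 146)) (PT.lf (nat_lit 25840) (nat_lit 6) (nat_lit 340) (nat_lit 2) (nat_lit 147) (nat_lit 158) (nat_lit 145))))) (PT.nd (nat_lit 312) (PT.nd (nat_lit 156) (PT.nd (nat_lit 78) (PT.lf (nat_lit 25916) (nat_lit 6) (nat_lit 341) (nat_lit 2) (nat_lit 148) (nat_lit 158) (nat_lit 144)) (PT.lf (nat_lit 25992) (nat_lit 6) (nat_lit 342) (nat_lit 2) (nat_lit 149) (nat_lit 158) (nat_lit 143))) (PT.nd (nat_lit 78) (PT.lf (nat_lit 26068) (nat_lit 6) (nat_lit 343) (nat_lit 2) (nat_lit 150) (nat_lit 158) (nat_lit 142)) (PT.lf (nat_lit 25460) (nat_lit 6) (nat_lit 335) (nat_lit 2) (nat_lit 151) (nat_lit 158) (nat_lit 141)))) (PT.nd (nat_lit 156) (PT.nd (nat_lit 78) (PT.lf (nat_lit 24776) (nat_lit 6) (nat_lit 326) (nat_lit 2) (nat_lit 152) (nat_lit 158) (nat_lit 140)) (PT.lf (nat_lit 24016) (nat_lit 6) (nat_lit 316) (nat_lit 2) (nat_lit 153) (nat_lit 158) (nat_lit 139)))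 (PT.nd (nat_lit 78) (PT.lf (nat_lit 23180) (nat_lit 6) (nat_lit 305) (nat_lit 2) (nat_lit 154) (nat_lit 158) (nat_lit 138)) (PT.lf (nat_lit 22268) (nat_lit 6) (nat_lit 293) (nat_lit 2) (nat_lit 155) (nat_lit 158) (nat_lit 137))))))) (PT.nd (nat_lit 44304) (PT.nd (nat_lit 546) (PT.nd (nat_lit 234) (PT.nd (nat_lit 78) (PT.lf (nat_lit 21280) (nat_lit 6) (nat_lit 280) (nat_lit 2) (nat_lit 156) (nat_lit 158) (nat_lit 136)) (PT.nd (nat_lit 78) (PT.lf (nat_lit 20216) (nat_lit 6) (nat_lit 266) (nat_lit 2) (nat_lit 157) (nat_lit 158) (nat_lit 135)) (PT.lf (nat_lit 19076) (nat_lit 3) (nat_lit 251) (nat_lit 0) (nat_lit 158) (nat_lit 158) (nat_lit 134)))) (PT.nd (nat_lit 156) (PT.nd (nat_lit 78) (PT.lf (nat_lit 17784) (nat_lit 6) (nat_lit 234) (nat_lit 0) (nat_lit 159) (nat_lit 158) (nat_lit 133)) (PT.lf (nat_lit 17100) (nat_lit 6) (nat_lit 225) (nat_lit 0) (nat_lit 160) (nat_lit 158) (nat_lit 132))) (PT.nd (nat_lit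 78) (PT.lf (nat_lit 16416) (nat_lit 6) (nat_lit 216) (nat_lit 0) (nat_lit 161) (nat_lit 158) (nat_lit 131)) (PT.lf (nat_lit 15732) (nat_lit 6) (nat_lit 207) (nat_lit 0) (nat_lit 162) (nat_lit 158) (nat_lit 130))))) (PT.nd (nat_lit 312) (PT.nd (nat_lit 156) (PT.nd (nat_lit 78) (PT.lf (nat_lit 15124) (nat_lit 6) (nat_lit 199) (nat_lit 0) (nat_lit 163) (nat_lit 158) (nat_lit 129)) (PT.lf (nat_lit 14516) (nat_lit 6) (nat_lit 191) (nat_lit 0) (nat_lit 164) (nat_lit 158) (nat_lit 128))) (PT.nd (nat_lit 78) (PT.lf (nat_lit 13984) (nat_lit 6) (nat_lit 184) (nat_lit 0) (nat_lit 165) (nat_lit 158) (nat_lit 127)) (PT.lf (nat_lit 13376) (nat_lit 6) (nat_lit 176) (nat_lit 0) (nat_lit 166) (nat_lit 158) (nat_lit 126)))) (PT.nd (nat_lit 156) (PT.nd (nat_lit 78) (PT.lf (nat_lit 12844) (nat_lit 6) (nat_lit 169) (nat_lit 0) (nat_lit 167) (nat_lit 158) (nat_lit 125)) (PT.lf (nat_lit 12312) (nat_lit 6) (nat_lit 162)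 (nat_lit 0) (nat_lit 168) (nat_lit 158) (nat_lit 124))) (PT.nd (nat_lit 43212) (PT.lf (nat_lit 11856) (nat_lit 6) (nat_lit 156) (nat_lit 0) (nat_lit 169) (nat_lit 158) (nat_lit 123)) (PT.lf (nat_lit 11400) (nat_lit 6) (nat_lit 150) (nat_lit 5) (nat_lit 122) (nat_lit 159) (nat_lit 169)))))) (PT.nd (nat_lit 546) (PT.nd (nat_lit 234) (PT.nd (nat_lit 78) (PT.lf (nat_lit 11932) (nat_lit 6) (nat_lit 157) (nat_lit 5) (nat_lit 123) (nat_lit 159) (nat_lit 168)) (PT.nd (nat_lit 78) (PT.lf (nat_lit 12388) (nat_lit 6) (nat_lit 163) (nat_lit 5) (nat_lit 124) (nat_lit 159) (nat_lit 167)) (PT.lf (nat_lit 12920) (nat_lit 6) (nat_lit 170) (nat_lit 5) (nat_lit 125) (nat_lit 159) (nat_lit 166)))) (PT.nd (nat_lit 156) (PT.nd (nat_lit 78) (PT.lf (nat_lit 13452) (nat_lit 6) (nat_lit 177) (nat_lit 5) (nat_lit 126) (nat_lit 159) (nat_lit 165)) (PT.lf (nat_lit 14060) (nat_lit 6) (nat_lit 185) (nat_lit 5) (nat_lit 127) (nat_lit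 159) (nat_lit 164))) (PT.nd (nat_lit 78) (PT.lf (nat_lit 14592) (nat_lit 6) (nat_lit 192) (nat_lit 5) (nat_lit 128) (nat_lit 159) (nat_lit 163)) (PT.lf (nat_lit 15200) (nat_lit 6) (nat_lit 200) (nat_lit 5) (nat_lit 129) (nat_lit 159) (nat_lit 162))))) (PT.nd (nat_lit 312) (PT.nd (nat_lit 156) (PT.nd (nat_lit 78) (PT.lf (nat_lit 15808) (nat_lit 6) (nat_lit 208) (nat_lit 5) (nat_lit 130) (nat_lit 159) (nat_lit 161)) (PT.lf (nat_lit 16492) (nat_lit 6) (nat_lit 217) (nat_lit 5) (nat_lit 131) (nat_lit 159) (nat_lit 160))) (PT.nd (nat_lit 78) (PT.lf (nat_lit 17176) (nat_lit 3) (nat_lit 226) (nat_lit 4) (nat_lit 132) (nat_lit 159) (nat_lit 159)) (PT.lf (nat_lit 17784) (nat_lit 6) (nat_lit 234) (nat_lit 4) (nat_lit 133) (nat_lit 159) (nat_lit 158)))) (PT.nd (nat_lit 156) (PT.nd (nat_lit 78) (PT.lf (nat_lit 19000) (nat_lit 6) (nat_lit 250) (nat_lit 4) (nat_lit 134) (nat_lit 159) (nat_lit 157)) (PT.lf (nat_lit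 20140) (nat_lit 6) (nat_lit 265) (nat_lit 4) (nat_lit 135) (nat_lit 159) (nat_lit 156))) (PT.nd (nat_lit 78) (PT.lf (nat_lit 21204) (nat_lit 6) (nat_lit 279) (nat_lit 4) (nat_lit 136) (nat_lit 159) (nat_lit 155)) (PT.lf (nat_lit 22192) (nat_lit 6) (nat_lit 292) (nat_lit 4) (nat_lit 137) (nat_lit 159) (nat_lit 154))))))))
noncomputable def pc19 : PT := (PT.nd (nat_lit 2262) (PT.nd (nat_lit 1092) (PT.nd (nat_lit 546) (PT.nd (nat_lit 234) (PT.nd (nat_lit 78) (PT.lf (nat_lit 23104) (nat_lit 6) (nat_lit 304) (nat_lit 4) (nat_lit 138) (nat_lit 159) (nat_lit 153)) (PT.nd (nat_lit 78) (PT.lf (nat_lit 23940) (nat_lit 6) (nat_lit 315) (nat_lit 4) (nat_lit 139) (nat_lit 159) (nat_lit 152)) (PT.lf (nat_lit 24700) (nat_lit 6) (nat_lit 325) (nat_lit 4) (nat_lit 140) (nat_lit 159) (nat_lit 151)))) (PT.nd (nat_lit 156) (PT.nd (nat_lit 78) (PT.lf (nat_lit 25384) (nat_lit 6) (nat_lit 334) (nat_lit 4) (nat_lit 141)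 (nat_lit 159) (nat_lit 150)) (PT.lf (nat_lit 25308) (nat_lit 6) (nat_lit 333) (nat_lit 4) (nat_lit 142) (nat_lit 159) (nat_lit 149))) (PT.nd (nat_lit 78) (PT.lf (nat_lit 25232) (nat_lit 6) (nat_lit 332) (nat_lit 4) (nat_lit 143) (nat_lit 159) (nat_lit 148)) (PT.lf (nat_lit 25156) (nat_lit 6) (nat_lit 331) (nat_lit 4) (nat_lit 144) (nat_lit 159) (nat_lit 147))))) (PT.nd (nat_lit 234) (PT.nd (nat_lit 78) (PT.lf (nat_lit 25080) (nat_lit 6) (nat_lit 330) (nat_lit 4) (nat_lit 145) (nat_lit 159) (nat_lit 146)) (PT.nd (nat_lit 78) (PT.lf (nat_lit 25080) (nat_lit 6) (nat_lit 330) (nat_lit 2) (nat_lit 146) (nat_lit 159) (nat_lit 145)) (PT.lf (nat_lit 25156) (nat_lit 6) (nat_lit 331) (nat_lit 2) (nat_lit 147) (nat_lit 159) (nat_lit 144)))) (PT.nd (nat_lit 156) (PT.nd (nat_lit 78) (PT.lf (nat_lit 25232) (nat_lit 6) (nat_lit 332) (nat_lit 2) (nat_lit 148) (nat_lit 159) (nat_lit 143)) (PT.lf (nat_lit 25308) (nat_lit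 6) (nat_lit 333) (nat_lit 2) (nat_lit 149) (nat_lit 159) (nat_lit 142))) (PT.nd (nat_lit 78) (PT.lf (nat_lit 25384) (nat_lit 6) (nat_lit 334) (nat_lit 2) (nat_lit 150) (nat_lit 159) (nat_lit 141)) (PT.lf (nat_lit 24700) (nat_lit 6) (nat_lit 325) (nat_lit 2) (nat_lit 151) (nat_lit 159) (nat_lit 140)))))) (PT.nd (nat_lit 546) (PT.nd (nat_lit 234) (PT.nd (nat_lit 78) (PT.lf (nat_lit 23940) (nat_lit 6) (nat_lit 315) (nat_lit 2) (nat_lit 152) (nat_lit 159) (nat_lit 139)) (PT.nd (nat_lit 78) (PT.lf (nat_lit 23104) (nat_lit 6) (nat_lit 304) (nat_lit 2) (nat_lit 153) (nat_lit 159) (nat_lit 138)) (PT.lf (nat_lit 22192) (nat_lit 6) (nat_lit 292) (nat_lit 2) (nat_lit 154) (nat_lit 159) (nat_lit 137)))) (PT.nd (nat_lit 156) (PT.nd (nat_lit 78) (PT.lf (nat_lit 21204) (nat_lit 6) (nat_lit 279) (nat_lit 2) (nat_lit 155) (nat_lit 159) (nat_lit 136)) (PT.lf (nat_lit 20140) (nat_lit 6) (nat_lit 265) (nat_lit 2) (nat_lit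 156) (nat_lit 159) (nat_lit 135))) (PT.nd (nat_lit 78) (PT.lf (nat_lit 19000) (nat_lit 6) (nat_lit 250) (nat_lit 2) (nat_lit 157) (nat_lit 159) (nat_lit 134)) (PT.lf (nat_lit 17784) (nat_lit 6) (nat_lit 234) (nat_lit 2) (nat_lit 158) (nat_lit 159) (nat_lit 133))))) (PT.nd (nat_lit 312) (PT.nd (nat_lit 156) (PT.nd (nat_lit 78) (PT.lf (nat_lit 17176) (nat_lit 3) (nat_lit 226) (nat_lit 0) (nat_lit 159) (nat_lit 159) (nat_lit 132)) (PT.lf (nat_lit 16492) (nat_lit 6) (nat_lit 217) (nat_lit 0) (nat_lit 160) (nat_lit 159) (nat_lit 131))) (PT.nd (nat_lit 78) (PT.lf (nat_lit 15808) (nat_lit 6) (nat_lit 208) (nat_lit 0) (nat_lit 161) (nat_lit 159) (nat_lit 130)) (PT.lf (nat_lit 15200) (nat_lit 6) (nat_lit 200) (nat_lit 0) (nat_lit 162) (nat_lit 159) (nat_lit 129)))) (PT.nd (nat_lit 156) (PT.nd (nat_lit 78) (PT.lf (nat_lit 14592) (nat_lit 6) (nat_lit 192) (nat_lit 0) (nat_lit 163) (nat_lit 159) (nat_lit 128))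 (PT.lf (nat_lit 14060) (nat_lit 6) (nat_lit 185) (nat_lit 0) (nat_lit 164) (nat_lit 159) (nat_lit 127))) (PT.nd (nat_lit 78) (PT.lf (nat_lit 13452) (nat_lit 6) (nat_lit 177) (nat_lit 0) (nat_lit 165) (nat_lit 159) (nat_lit 126)) (PT.lf (nat_lit 12920) (nat_lit 6) (nat_lit 170) (nat_lit 0) (nat_lit 166) (nat_lit 159) (nat_lit 125))))))) (PT.nd (nat_lit 44226) (PT.nd (nat_lit 43602) (PT.nd (nat_lit 43290) (PT.nd (nat_lit 78) (PT.lf (nat_lit 12388) (nat_lit 6) (nat_lit 163) (nat_lit 0) (nat_lit 167) (nat_lit 159) (nat_lit 124)) (PT.nd (nat_lit 78) (PT.lf (nat_lit 11932) (nat_lit 6) (nat_lit 157) (nat_lit 0) (nat_lit 168) (nat_lit 159) (nat_lit 123)) (PT.lf (nat_lit 11400) (nat_lit 6) (nat_lit 150) (nat_lit 0) (nat_lit 169) (nat_lit 159) (nat_lit 122)))) (PT.nd (nat_lit 156) (PT.nd (nat_lit 78) (PT.lf (nat_lit 11020) (nat_lit 6) (nat_lit 145) (nat_lit 5) (nat_lit 121) (nat_lit 160) (nat_lit 169)) (PT.lf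 (nat_lit 11476) (nat_lit 6) (nat_lit 151) (nat_lit 5) (nat_lit 122) (nat_lit 160) (nat_lit 168))) (PT.nd (nat_lit 78) (PT.lf (nat_lit 12008) (nat_lit 6) (nat_lit 158) (nat_lit 5) (nat_lit 123) (nat_lit 160) (nat_lit 167)) (PT.lf (nat_lit 12464) (nat_lit 6) (nat_lit 164) (nat_lit 5) (nat_lit 124) (nat_lit 160) (nat_lit 166))))) (PT.nd (nat_lit 312) (PT.nd (nat_lit 156) (PT.nd (nat_lit 78) (PT.lf (nat_lit 12996) (nat_lit 6) (nat_lit 171) (nat_lit 5) (nat_lit 125) (nat_lit 160) (nat_lit 165)) (PT.lf (nat_lit 13528) (nat_lit 6) (nat_lit 178) (nat_lit 5) (nat_lit 126) (nat_lit 160) (nat_lit 164))) (PT.nd (nat_lit 78) (PT.lf (nat_lit 14136) (nat_lit 6) (nat_lit 186) (nat_lit 5) (nat_lit 127) (nat_lit 160) (nat_lit 163)) (PT.lf (nat_lit 14668) (nat_lit 6) (nat_lit 193) (nat_lit 5) (nat_lit 128) (nat_lit 160) (nat_lit 162)))) (PT.nd (nat_lit 156) (PT.nd (nat_lit 78) (PT.lf (nat_lit 15276) (nat_lit 6) (nat_lit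 201) (nat_lit 5) (nat_lit 129) (nat_lit 160) (nat_lit 161)) (PT.lf (nat_lit 15884) (nat_lit 3) (nat_lit 209) (nat_lit 4) (nat_lit 130) (nat_lit 160) (nat_lit 160))) (PT.nd (nat_lit 78) (PT.lf (nat_lit 16492) (nat_lit 6) (nat_lit 217) (nat_lit 4) (nat_lit 131) (nat_lit 160) (nat_lit 159)) (PT.lf (nat_lit 17100) (nat_lit 6) (nat_lit 225) (nat_lit 4) (nat_lit 132) (nat_lit 160) (nat_lit 158)))))) (PT.nd (nat_lit 546) (PT.nd (nat_lit 234) (PT.nd (nat_lit 78) (PT.lf (nat_lit 17708) (nat_lit 6) (nat_lit 233) (nat_lit 4) (nat_lit 133) (nat_lit 160) (nat_lit 157)) (PT.nd (nat_lit 78) (PT.lf (nat_lit 18924) (nat_lit 6) (nat_lit 249) (nat_lit 4) (nat_lit 134) (nat_lit 160) (nat_lit 156)) (PT.lf (nat_lit 20064) (nat_lit 6) (nat_lit 264) (nat_lit 4) (nat_lit 135) (nat_lit 160) (nat_lit 155)))) (PT.nd (nat_lit 156) (PT.nd (nat_lit 78) (PT.lf (nat_lit 21128) (nat_lit 6) (nat_lit 278) (nat_lit 4) (nat_lit 136) (nat_lit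 160) (nat_lit 154)) (PT.lf (nat_lit 22116) (nat_lit 6) (nat_lit 291) (nat_lit 4) (nat_lit 137) (nat_lit 160) (nat_lit 153))) (PT.nd (nat_lit 78) (PT.lf (nat_lit 23028) (nat_lit 6) (nat_lit 303) (nat_lit 4) (nat_lit 138) (nat_lit 160) (nat_lit 152)) (PT.lf (nat_lit 23864) (nat_lit 6) (nat_lit 314) (nat_lit 4) (nat_lit 139) (nat_lit 160) (nat_lit 151))))) (PT.nd (nat_lit 312) (PT.nd (nat_lit 156) (PT.nd (nat_lit 78) (PT.lf (nat_lit 24624) (nat_lit 6) (nat_lit 324) (nat_lit 4) (nat_lit 140) (nat_lit 160) (nat_lit 150)) (PT.lf (nat_lit 24548) (nat_lit 6) (nat_lit 323) (nat_lit 4) (nat_lit 141) (nat_lit 160) (nat_lit 149))) (PT.nd (nat_lit 78) (PT.lf (nat_lit 24472) (nat_lit 6) (nat_lit 322) (nat_lit 4) (nat_lit 142) (nat_lit 160) (nat_lit 148)) (PT.lf (nat_lit 24396) (nat_lit 6) (nat_lit 321) (nat_lit 4) (nat_lit 143) (nat_lit 160) (nat_lit 147)))) (PT.nd (nat_lit 156) (PT.nd (nat_lit 78) (PT.lf (nat_lit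 24320) (nat_lit 6) (nat_lit 320) (nat_lit 4) (nat_lit 144) (nat_lit 160) (nat_lit 146)) (PT.lf (nat_lit 24244) (nat_lit 3) (nat_lit 319) (nat_lit 2) (nat_lit 145) (nat_lit 160) (nat_lit 145))) (PT.nd (nat_lit 78) (PT.lf (nat_lit 24320) (nat_lit 6) (nat_lit 320) (nat_lit 2) (nat_lit 146) (nat_lit 160) (nat_lit 144)) (PT.lf (nat_lit 24396) (nat_lit 6) (nat_lit 321) (nat_lit 2) (nat_lit 147) (nat_lit 160) (nat_lit 143))))))))
noncomputable def pc20 : PT := (PT.nd (nat_lit 45162) (PT.nd (nat_lit 1092) (PT.nd (nat_lit 546) (PT.nd (nat_lit 234) (PT.nd (nat_lit 78) (PT.lf (nat_lit 24472) (nat_lit 6) (nat_lit 322) (nat_lit 2) (nat_lit 148) (nat_lit 160) (nat_lit 142)) (PT.nd (nat_lit 78) (PT.lf (nat_lit 24548) (nat_lit 6) (nat_lit 323) (nat_lit 2) (nat_lit 149) (nat_lit 160) (nat_lit 141)) (PT.lf (nat_lit 24624) (nat_lit 6) (nat_lit 324) (nat_lit 2) (nat_lit 150) (nat_lit 160) (nat_lit 140)))) (PT.nd (nat_lit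 156) (PT.nd (nat_lit 78) (PT.lf (nat_lit 23864) (nat_lit 6) (nat_lit 314) (nat_lit 2) (nat_lit 151) (nat_lit 160) (nat_lit 139)) (PT.lf (nat_lit 23028) (nat_lit 6) (nat_lit 303) (nat_lit 2) (nat_lit 152) (nat_lit 160) (nat_lit 138))) (PT.nd (nat_lit 78) (PT.lf (nat_lit 22116) (nat_lit 6) (nat_lit 291) (nat_lit 2) (nat_lit 153) (nat_lit 160) (nat_lit 137)) (PT.lf (nat_lit 21128) (nat_lit 6) (nat_lit 278) (nat_lit 2) (nat_lit 154) (nat_lit 160) (nat_lit 136))))) (PT.nd (nat_lit 234) (PT.nd (nat_lit 78) (PT.lf (nat_lit 20064) (nat_lit 6) (nat_lit 264) (nat_lit 2) (nat_lit 155) (nat_lit 160) (nat_lit 135)) (PT.nd (nat_lit 78) (PT.lf (nat_lit 18924) (nat_lit 6) (nat_lit 249) (nat_lit 2) (nat_lit 156) (nat_lit 160) (nat_lit 134)) (PT.lf (nat_lit 17708) (nat_lit 6) (nat_lit 233) (nat_lit 2) (nat_lit 157) (nat_lit 160) (nat_lit 133)))) (PT.nd (nat_lit 156) (PT.nd (nat_lit 78) (PT.lf (nat_lit 17100) (nat_lit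 6) (nat_lit 225) (nat_lit 2) (nat_lit 158) (nat_lit 160) (nat_lit 132)) (PT.lf (nat_lit 16492) (nat_lit 6) (nat_lit 217) (nat_lit 2) (nat_lit 159) (nat_lit 160) (nat_lit 131))) (PT.nd (nat_lit 78) (PT.lf (nat_lit 15884) (nat_lit 3) (nat_lit 209) (nat_lit 0) (nat_lit 160) (nat_lit 160) (nat_lit 130)) (PT.lf (nat_lit 15276) (nat_lit 6) (nat_lit 201) (nat_lit 0) (nat_lit 161) (nat_lit 160) (nat_lit 129)))))) (PT.nd (nat_lit 546) (PT.nd (nat_lit 234) (PT.nd (nat_lit 78) (PT.lf (nat_lit 14668) (nat_lit 6) (nat_lit 193) (nat_lit 0) (nat_lit 162) (nat_lit 160) (nat_lit 128)) (PT.nd (nat_lit 78) (PT.lf (nat_lit 14136) (nat_lit 6) (nat_lit 186) (nat_lit 0) (nat_lit 163) (nat_lit 160) (nat_lit 127)) (PT.lf (nat_lit 13528) (nat_lit 6) (nat_lit 178) (nat_lit 0) (nat_lit 164) (nat_lit 160) (nat_lit 126)))) (PT.nd (nat_lit 156) (PT.nd (nat_lit 78) (PT.lf (nat_lit 12996) (nat_lit 6) (nat_lit 171) (nat_lit 0) (nat_lit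 165) (nat_lit 160) (nat_lit 125)) (PT.lf (nat_lit 12464) (nat_lit 6) (nat_lit 164) (nat_lit 0) (nat_lit 166) (nat_lit 160) (nat_lit 124))) (PT.nd (nat_lit 78) (PT.lf (nat_lit 12008) (nat_lit 6) (nat_lit 158) (nat_lit 0) (nat_lit 167) (nat_lit 160) (nat_lit 123)) (PT.lf (nat_lit 11476) (nat_lit 6) (nat_lit 151) (nat_lit 0) (nat_lit 168) (nat_lit 160) (nat_lit 122))))) (PT.nd (nat_lit 43212) (PT.nd (nat_lit 43056) (PT.nd (nat_lit 42978) (PT.lf (nat_lit 11020) (nat_lit 6) (nat_lit 145) (nat_lit 0) (nat_lit 169) (nat_lit 160) (nat_lit 121)) (PT.lf (nat_lit 10260) (nat_lit 6) (nat_lit 135) (nat_lit 5) (nat_lit 119) (nat_lit 161) (nat_lit 170))) (PT.nd (nat_lit 78) (PT.lf (nat_lit 10640) (nat_lit 6) (nat_lit 140) (nat_lit 5) (nat_lit 120) (nat_lit 161) (nat_lit 169)) (PT.lf (nat_lit 11096) (nat_lit 6) (nat_lit 146) (nat_lit 5) (nat_lit 121) (nat_lit 161) (nat_lit 168)))) (PT.nd (nat_lit 156) (PT.nd (nat_lit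 78) (PT.lf (nat_lit 11552) (nat_lit 6) (nat_lit 152) (nat_lit 5) (nat_lit 122) (nat_lit 161) (nat_lit 167)) (PT.lf (nat_lit 12084) (nat_lit 6) (nat_lit 159) (nat_lit 5) (nat_lit 123) (nat_lit 161) (nat_lit 166))) (PT.nd (nat_lit 78) (PT.lf (nat_lit 12540) (nat_lit 6) (nat_lit 165) (nat_lit 5) (nat_lit 124) (nat_lit 161) (nat_lit 165)) (PT.lf (nat_lit 13072) (nat_lit 6) (nat_lit 172) (nat_lit 5) (nat_lit 125) (nat_lit 161) (nat_lit 164))))))) (PT.nd (nat_lit 1170) (PT.nd (nat_lit 546) (PT.nd (nat_lit 234) (PT.nd (nat_lit 78) (PT.lf (nat_lit 13604) (nat_lit 6) (nat_lit 179) (nat_lit 5) (nat_lit 126) (nat_lit 161) (nat_lit 163)) (PT.nd (nat_lit 78) (PT.lf (nat_lit 14212) (nat_lit 6) (nat_lit 187) (nat_lit 5) (nat_lit 127) (nat_lit 161) (nat_lit 162)) (PT.lf (nat_lit 14744) (nat_lit 3) (nat_lit 194) (nat_lit 4) (nat_lit 128) (nat_lit 161) (nat_lit 161)))) (PT.nd (nat_lit 156) (PT.nd (nat_lit 78) (PT.lf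 (nat_lit 15276) (nat_lit 6) (nat_lit 201) (nat_lit 4) (nat_lit 129) (nat_lit 161) (nat_lit 160)) (PT.lf (nat_lit 15808) (nat_lit 6) (nat_lit 208) (nat_lit 4) (nat_lit 130) (nat_lit 161) (nat_lit 159))) (PT.nd (nat_lit 78) (PT.lf (nat_lit 16416) (nat_lit 6) (nat_lit 216) (nat_lit 4) (nat_lit 131) (nat_lit 161) (nat_lit 158)) (PT.lf (nat_lit 17024) (nat_lit 6) (nat_lit 224) (nat_lit 4) (nat_lit 132) (nat_lit 161) (nat_lit 157))))) (PT.nd (nat_lit 312) (PT.nd (nat_lit 156) (PT.nd (nat_lit 78) (PT.lf (nat_lit 17632) (nat_lit 6) (nat_lit 232) (nat_lit 4) (nat_lit 133) (nat_lit 161) (nat_lit 156)) (PT.lf (nat_lit 18848) (nat_lit 6) (nat_lit 248) (nat_lit 4) (nat_lit 134) (nat_lit 161) (nat_lit 155))) (PT.nd (nat_lit 78) (PT.lf (nat_lit 19988) (nat_lit 6) (nat_lit 263) (nat_lit 4) (nat_lit 135) (nat_lit 161) (nat_lit 154)) (PT.lf (nat_lit 21052) (nat_lit 6) (nat_lit 277) (nat_lit 4) (nat_lit 136) (nat_lit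 161) (nat_lit 153)))) (PT.nd (nat_lit 156) (PT.nd (nat_lit 78) (PT.lf (nat_lit 22040) (nat_lit 6) (nat_lit 290) (nat_lit 4) (nat_lit 137) (nat_lit 161) (nat_lit 152)) (PT.lf (nat_lit 22952) (nat_lit 6) (nat_lit 302) (nat_lit 4) (nat_lit 138) (nat_lit 161) (nat_lit 151))) (PT.nd (nat_lit 78) (PT.lf (nat_lit 23788) (nat_lit 6) (nat_lit 313) (nat_lit 4) (nat_lit 139) (nat_lit 161) (nat_lit 150)) (PT.lf (nat_lit 23712) (nat_lit 6) (nat_lit 312) (nat_lit 4) (nat_lit 140) (nat_lit 161) (nat_lit 149)))))) (PT.nd (nat_lit 546) (PT.nd (nat_lit 234) (PT.nd (nat_lit 78) (PT.lf (nat_lit 23636) (nat_lit 6) (nat_lit 311) (nat_lit 4) (nat_lit 141) (nat_lit 161) (nat_lit 148)) (PT.nd (nat_lit 78) (PT.lf (nat_lit 23560) (nat_lit 6) (nat_lit 310) (nat_lit 4) (nat_lit 142) (nat_lit 161) (nat_lit 147)) (PT.lf (nat_lit 23484) (nat_lit 6) (nat_lit 309) (nat_lit 4) (nat_lit 143) (nat_lit 161) (nat_lit 146)))) (PT.nd (nat_lit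 156) (PT.nd (nat_lit 78) (PT.lf (nat_lit 23408) (nat_lit 6) (nat_lit 308) (nat_lit 4) (nat_lit 144) (nat_lit 161) (nat_lit 145)) (PT.lf (nat_lit 23408) (nat_lit 6) (nat_lit 308) (nat_lit 2) (nat_lit 145) (nat_lit 161) (nat_lit 144))) (PT.nd (nat_lit 78) (PT.lf (nat_lit 23484) (nat_lit 6) (nat_lit 309) (nat_lit 2) (nat_lit 146) (nat_lit 161) (nat_lit 143)) (PT.lf (nat_lit 23560) (nat_lit 6) (nat_lit 310) (nat_lit 2) (nat_lit 147) (nat_lit 161) (nat_lit 142))))) (PT.nd (nat_lit 312) (PT.nd (nat_lit 156) (PT.nd (nat_lit 78) (PT.lf (nat_lit 23636) (nat_lit 6) (nat_lit 311) (nat_lit 2) (nat_lit 148) (nat_lit 161) (nat_lit 141)) (PT.lf (nat_lit 23712) (nat_lit 6) (nat_lit 312) (nat_lit 2) (nat_lit 149) (nat_lit 161) (nat_lit 140))) (PT.nd (nat_lit 78) (PT.lf (nat_lit 23788) (nat_lit 6) (nat_lit 313) (nat_lit 2) (nat_lit 150) (nat_lit 161) (nat_lit 139)) (PT.lf (nat_lit 22952) (nat_lit 6) (nat_lit 302) (nat_lit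 2) (nat_lit 151) (nat_lit 161) (nat_lit 138)))) (PT.nd (nat_lit 156) (PT.nd (nat_lit 78) (PT.lf (nat_lit 22040) (nat_lit 6) (nat_lit 290) (nat_lit 2) (nat_lit 152) (nat_lit 161) (nat_lit 137)) (PT.lf (nat_lit 21052) (nat_lit 6) (nat_lit 277) (nat_lit 2) (nat_lit 153) (nat_lit 161) (nat_lit 136))) (PT.nd (nat_lit 78) (PT.lf (nat_lit 19988) (nat_lit 6) (nat_lit 263) (nat_lit 2) (nat_lit 154) (nat_lit 161) (nat_lit 135)) (PT.lf (nat_lit 18848) (nat_lit 6) (nat_lit 248) (nat_lit 2) (nat_lit 155) (nat_lit 161) (nat_lit 134))))))))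
noncomputable def pc21 : PT := (PT.nd (nat_lit 45006) (PT.nd (nat_lit 1092) (PT.nd (nat_lit 546) (PT.nd (nat_lit 234) (PT.nd (nat_lit 78) (PT.lf (nat_lit 17632) (nat_lit 6) (nat_lit 232) (nat_lit 2) (nat_lit 156) (nat_lit 161) (nat_lit 133)) (PT.nd (nat_lit 78) (PT.lf (nat_lit 17024) (nat_lit 6) (nat_lit 224) (nat_lit 2) (nat_lit 157) (nat_lit 161) (nat_lit 132)) (PT.lf (nat_lit 16416) (nat_lit 6) (nat_lit 216) (nat_lit 2) (nat_lit 158) (nat_lit 161) (nat_lit 131)))) (PT.nd (nat_lit 156) (PT.nd (nat_lit 78) (PT.lf (nat_lit 15808) (nat_lit 6) (nat_lit 208) (nat_lit 2) (nat_lit 159) (nat_lit 161) (nat_lit 130)) (PT.lf (nat_lit 15276) (nat_lit 6) (nat_lit 201) (nat_lit 2) (nat_lit 160) (nat_lit 161) (nat_lit 129))) (PT.nd (nat_lit 78) (PT.lf (nat_lit 14744) (nat_lit 3) (nat_lit 194) (nat_lit 0) (nat_lit 161) (nat_lit 161) (nat_lit 128)) (PT.lf (nat_lit 14212) (nat_lit 6) (nat_lit 187) (nat_lit 0) (nat_lit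 162) (nat_lit 161) (nat_lit 127))))) (PT.nd (nat_lit 234) (PT.nd (nat_lit 78) (PT.lf (nat_lit 13604) (nat_lit 6) (nat_lit 179) (nat_lit 0) (nat_lit 163) (nat_lit 161) (nat_lit 126)) (PT.nd (nat_lit 78) (PT.lf (nat_lit 13072) (nat_lit 6) (nat_lit 172) (nat_lit 0) (nat_lit 164) (nat_lit 161) (nat_lit 125)) (PT.lf (nat_lit 12540) (nat_lit 6) (nat_lit 165) (nat_lit 0) (nat_lit 165) (nat_lit 161) (nat_lit 124)))) (PT.nd (nat_lit 156) (PT.nd (nat_lit 78) (PT.lf (nat_lit 12084) (nat_lit 6) (nat_lit 159) (nat_lit 0) (nat_lit 166) (nat_lit 161) (nat_lit 123)) (PT.lf (nat_lit 11552) (nat_lit 6) (nat_lit 152) (nat_lit 0) (nat_lit 167) (nat_lit 161) (nat_lit 122))) (PT.nd (nat_lit 78) (PT.lf (nat_lit 11096) (nat_lit 6) (nat_lit 146) (nat_lit 0) (nat_lit 168) (nat_lit 161) (nat_lit 121)) (PT.lf (nat_lit 10640) (nat_lit 6) (nat_lit 140) (nat_lit 0) (nat_lit 169) (nat_lit 161) (nat_lit 120)))))) (PT.nd (nat_lit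 43290) (PT.nd (nat_lit 42978) (PT.nd (nat_lit 42822) (PT.lf (nat_lit 10260) (nat_lit 6) (nat_lit 135) (nat_lit 0) (nat_lit 170) (nat_lit 161) (nat_lit 119)) (PT.nd (nat_lit 78) (PT.lf (nat_lit 9880) (nat_lit 6) (nat_lit 130) (nat_lit 5) (nat_lit 118) (nat_lit 162) (nat_lit 170)) (PT.lf (nat_lit 10336) (nat_lit 6) (nat_lit 136) (nat_lit 5) (nat_lit 119) (nat_lit 162) (nat_lit 169)))) (PT.nd (nat_lit 156) (PT.nd (nat_lit 78) (PT.lf (nat_lit 10716) (nat_lit 6) (nat_lit 141) (nat_lit 5) (nat_lit 120) (nat_lit 162) (nat_lit 168)) (PT.lf (nat_lit 11172) (nat_lit 6) (nat_lit 147) (nat_lit 5) (nat_lit 121) (nat_lit 162) (nat_lit 167))) (PT.nd (nat_lit 78) (PT.lf (nat_lit 11628) (nat_lit 6) (nat_lit 153) (nat_lit 5) (nat_lit 122) (nat_lit 162) (nat_lit 166)) (PT.lf (nat_lit 12160) (nat_lit 6) (nat_lit 160) (nat_lit 5) (nat_lit 123) (nat_lit 162) (nat_lit 165))))) (PT.nd (nat_lit 312) (PT.nd (nat_lit 156) (PT.nd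 (nat_lit 78) (PT.lf (nat_lit 12616) (nat_lit 6) (nat_lit 166) (nat_lit 5) (nat_lit 124) (nat_lit 162) (nat_lit 164)) (PT.lf (nat_lit 13148) (nat_lit 6) (nat_lit 173) (nat_lit 5) (nat_lit 125) (nat_lit 162) (nat_lit 163))) (PT.nd (nat_lit 78) (PT.lf (nat_lit 13680) (nat_lit 3) (nat_lit 180) (nat_lit 4) (nat_lit 126) (nat_lit 162) (nat_lit 162)) (PT.lf (nat_lit 14212) (nat_lit 6) (nat_lit 187) (nat_lit 4) (nat_lit 127) (nat_lit 162) (nat_lit 161)))) (PT.nd (nat_lit 156) (PT.nd (nat_lit 78) (PT.lf (nat_lit 14668) (nat_lit 6) (nat_lit 193) (nat_lit 4) (nat_lit 128) (nat_lit 162) (nat_lit 160)) (PT.lf (nat_lit 15200) (nat_lit 6) (nat_lit 200) (nat_lit 4) (nat_lit 129) (nat_lit 162) (nat_lit 159))) (PT.nd (nat_lit 78) (PT.lf (nat_lit 15732) (nat_lit 6) (nat_lit 207) (nat_lit 4) (nat_lit 130) (nat_lit 162) (nat_lit 158)) (PT.lf (nat_lit 16340) (nat_lit 6) (nat_lit 215) (nat_lit 4) (nat_lit 131) (nat_lit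 162) (nat_lit 157))))))) (PT.nd (nat_lit 1170) (PT.nd (nat_lit 546) (PT.nd (nat_lit 234) (PT.nd (nat_lit 78) (PT.lf (nat_lit 16948) (nat_lit 6) (nat_lit 223) (nat_lit 4) (nat_lit 132) (nat_lit 162) (nat_lit 156)) (PT.nd (nat_lit 78) (PT.lf (nat_lit 17556) (nat_lit 6) (nat_lit 231) (nat_lit 4) (nat_lit 133) (nat_lit 162) (nat_lit 155)) (PT.lf (nat_lit 18772) (nat_lit 6) (nat_lit 247) (nat_lit 4) (nat_lit 134) (nat_lit 162) (nat_lit 154)))) (PT.nd (nat_lit 156) (PT.nd (nat_lit 78) (PT.lf (nat_lit 19912) (nat_lit 6) (nat_lit 262) (nat_lit 4) (nat_lit 135) (nat_lit 162) (nat_lit 153)) (PT.lf (nat_lit 20976) (nat_lit 6) (nat_lit 276) (nat_lit 4) (nat_lit 136) (nat_lit 162) (nat_lit 152))) (PT.nd (nat_lit 78) (PT.lf (nat_lit 21964) (nat_lit 6) (nat_lit 289) (nat_lit 4) (nat_lit 137) (nat_lit 162) (nat_lit 151)) (PT.lf (nat_lit 22876) (nat_lit 6) (nat_lit 301) (nat_lit 4) (nat_lit 138) (nat_lit 162) (nat_lit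 150))))) (PT.nd (nat_lit 312) (PT.nd (nat_lit 156) (PT.nd (nat_lit 78) (PT.lf (nat_lit 22800) (nat_lit 6) (nat_lit 300) (nat_lit 4) (nat_lit 139) (nat_lit 162) (nat_lit 149)) (PT.lf (nat_lit 22724) (nat_lit 6) (nat_lit 299) (nat_lit 4) (nat_lit 140) (nat_lit 162) (nat_lit 148))) (PT.nd (nat_lit 78) (PT.lf (nat_lit 22648) (nat_lit 6) (nat_lit 298) (nat_lit 4) (nat_lit 141) (nat_lit 162) (nat_lit 147)) (PT.lf (nat_lit 22572) (nat_lit 6) (nat_lit 297) (nat_lit 4) (nat_lit 142) (nat_lit 162) (nat_lit 146)))) (PT.nd (nat_lit 156) (PT.nd (nat_lit 78) (PT.lf (nat_lit 22496) (nat_lit 6) (nat_lit 296) (nat_lit 4) (nat_lit 143) (nat_lit 162) (nat_lit 145)) (PT.lf (nat_lit 22420) (nat_lit 3) (nat_lit 295) (nat_lit 2) (nat_lit 144) (nat_lit 162) (nat_lit 144))) (PT.nd (nat_lit 78) (PT.lf (nat_lit 22496) (nat_lit 6) (nat_lit 296) (nat_lit 2) (nat_lit 145) (nat_lit 162) (nat_lit 143)) (PT.lf (nat_lit 22572) (nat_lit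 6) (nat_lit 297) (nat_lit 2) (nat_lit 146) (nat_lit 162) (nat_lit 142)))))) (PT.nd (nat_lit 546) (PT.nd (nat_lit 234) (PT.nd (nat_lit 78) (PT.lf (nat_lit 22648) (nat_lit 6) (nat_lit 298) (nat_lit 2) (nat_lit 147) (nat_lit 162) (nat_lit 141)) (PT.nd (nat_lit 78) (PT.lf (nat_lit 22724) (nat_lit 6) (nat_lit 299) (nat_lit 2) (nat_lit 148) (nat_lit 162) (nat_lit 140)) (PT.lf (nat_lit 22800) (nat_lit 6) (nat_lit 300) (nat_lit 2) (nat_lit 149) (nat_lit 162) (nat_lit 139)))) (PT.nd (nat_lit 156) (PT.nd (nat_lit 78) (PT.lf (nat_lit 22876) (nat_lit 6) (nat_lit 301) (nat_lit 2) (nat_lit 150) (nat_lit 162) (nat_lit 138)) (PT.lf (nat_lit 21964) (nat_lit 6) (nat_lit 289) (nat_lit 2) (nat_lit 151) (nat_lit 162) (nat_lit 137))) (PT.nd (nat_lit 78) (PT.lf (nat_lit 20976) (nat_lit 6) (nat_lit 276) (nat_lit 2) (nat_lit 152) (nat_lit 162) (nat_lit 136)) (PT.lf (nat_lit 19912) (nat_lit 6) (nat_lit 262) (nat_lit 2) (nat_lit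 153) (nat_lit 162) (nat_lit 135))))) (PT.nd (nat_lit 312) (PT.nd (nat_lit 156) (PT.nd (nat_lit 78) (PT.lf (nat_lit 18772) (nat_lit 6) (nat_lit 247) (nat_lit 2) (nat_lit 154) (nat_lit 162) (nat_lit 134)) (PT.lf (nat_lit 17556) (nat_lit 6) (nat_lit 231) (nat_lit 2) (nat_lit 155) (nat_lit 162) (nat_lit 133))) (PT.nd (nat_lit 78) (PT.lf (nat_lit 16948) (nat_lit 6) (nat_lit 223) (nat_lit 2) (nat_lit 156) (nat_lit 162) (nat_lit 132)) (PT.lf (nat_lit 16340) (nat_lit 6) (nat_lit 215) (nat_lit 2) (nat_lit 157) (nat_lit 162) (nat_lit 131)))) (PT.nd (nat_lit 156) (PT.nd (nat_lit 78) (PT.lf (nat_lit 15732) (nat_lit 6) (nat_lit 207) (nat_lit 2) (nat_lit 158) (nat_lit 162) (nat_lit 130)) (PT.lf (nat_lit 15200) (nat_lit 6) (nat_lit 200) (nat_lit 2) (nat_lit 159) (nat_lit 162) (nat_lit 129))) (PT.nd (nat_lit 78) (PT.lf (nat_lit 14668) (nat_lit 6) (nat_lit 193) (nat_lit 2) (nat_lit 160) (nat_lit 162) (nat_lit 128))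 (PT.lf (nat_lit 14212) (nat_lit 6) (nat_lit 187) (nat_lit 2) (nat_lit 161) (nat_lit 162) (nat_lit 127))))))))
noncomputable def pc22 : PT := (PT.nd (nat_lit 44850) (PT.nd (nat_lit 43680) (PT.nd (nat_lit 546) (PT.nd (nat_lit 234) (PT.nd (nat_lit 78) (PT.lf (nat_lit 13680) (nat_lit 3) (nat_lit 180) (nat_lit 0) (nat_lit 162) (nat_lit 162) (nat_lit 126)) (PT.nd (nat_lit 78) (PT.lf (nat_lit 13148) (nat_lit 6) (nat_lit 173) (nat_lit 0) (nat_lit 163) (nat_lit 162) (nat_lit 125)) (PT.lf (nat_lit 12616) (nat_lit 6) (nat_lit 166) (nat_lit 0) (nat_lit 164) (nat_lit 162) (nat_lit 124)))) (PT.nd (nat_lit 156) (PT.nd (nat_lit 78) (PT.lf (nat_lit 12160) (nat_lit 6) (nat_lit 160) (nat_lit 0) (nat_lit 165) (nat_lit 162) (nat_lit 123)) (PT.lf (nat_lit 11628) (nat_lit 6) (nat_lit 153) (nat_lit 0) (nat_lit 166) (nat_lit 162) (nat_lit 122))) (PT.nd (nat_lit 78) (PT.lf (nat_lit 11172) (nat_lit 6) (nat_lit 147) (nat_lit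 0) (nat_lit 167) (nat_lit 162) (nat_lit 121)) (PT.lf (nat_lit 10716) (nat_lit 6) (nat_lit 141) (nat_lit 0) (nat_lit 168) (nat_lit 162) (nat_lit 120))))) (PT.nd (nat_lit 42822) (PT.nd (nat_lit 78) (PT.lf (nat_lit 10336) (nat_lit 6) (nat_lit 136) (nat_lit 0) (nat_lit 169) (nat_lit 162) (nat_lit 119)) (PT.nd (nat_lit 42666) (PT.lf (nat_lit 9880) (nat_lit 6) (nat_lit 130) (nat_lit 0) (nat_lit 170) (nat_lit 162) (nat_lit 118)) (PT.lf (nat_lit 9196) (nat_lit 6) (nat_lit 121) (nat_lit 5) (nat_lit 116) (nat_lit 163) (nat_lit 171)))) (PT.nd (nat_lit 156) (PT.nd (nat_lit 78) (PT.lf (nat_lit 9576) (nat_lit 6) (nat_lit 126) (nat_lit 5) (nat_lit 117) (nat_lit 163) (nat_lit 170)) (PT.lf (nat_lit 9956) (nat_lit 6) (nat_lit 131) (nat_lit 5) (nat_lit 118) (nat_lit 163) (nat_lit 169))) (PT.nd (nat_lit 78) (PT.lf (nat_lit 10412) (nat_lit 6) (nat_lit 137) (nat_lit 5) (nat_lit 119) (nat_lit 163) (nat_lit 168)) (PT.lf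 (nat_lit 10792) (nat_lit 6) (nat_lit 142) (nat_lit 5) (nat_lit 120) (nat_lit 163) (nat_lit 167)))))) (PT.nd (nat_lit 546) (PT.nd (nat_lit 234) (PT.nd (nat_lit 78) (PT.lf (nat_lit 11248) (nat_lit 6) (nat_lit 148) (nat_lit 5) (nat_lit 121) (nat_lit 163) (nat_lit 166)) (PT.nd (nat_lit 78) (PT.lf (nat_lit 11704) (nat_lit 6) (nat_lit 154) (nat_lit 5) (nat_lit 122) (nat_lit 163) (nat_lit 165)) (PT.lf (nat_lit 12236) (nat_lit 6) (nat_lit 161) (nat_lit 5) (nat_lit 123) (nat_lit 163) (nat_lit 164)))) (PT.nd (nat_lit 156) (PT.nd (nat_lit 78) (PT.lf (nat_lit 12692) (nat_lit 3) (nat_lit 167) (nat_lit 4) (nat_lit 124) (nat_lit 163) (nat_lit 163)) (PT.lf (nat_lit 13148) (nat_lit 6) (nat_lit 173) (nat_lit 4) (nat_lit 125) (nat_lit 163) (nat_lit 162))) (PT.nd (nat_lit 78) (PT.lf (nat_lit 13604) (nat_lit 6) (nat_lit 179) (nat_lit 4) (nat_lit 126) (nat_lit 163) (nat_lit 161)) (PT.lf (nat_lit 14136) (nat_lit 6) (nat_lit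 186) (nat_lit 4) (nat_lit 127) (nat_lit 163) (nat_lit 160))))) (PT.nd (nat_lit 312) (PT.nd (nat_lit 156) (PT.nd (nat_lit 78) (PT.lf (nat_lit 14592) (nat_lit 6) (nat_lit 192) (nat_lit 4) (nat_lit 128) (nat_lit 163) (nat_lit 159)) (PT.lf (nat_lit 15124) (nat_lit 6) (nat_lit 199) (nat_lit 4) (nat_lit 129) (nat_lit 163) (nat_lit 158))) (PT.nd (nat_lit 78) (PT.lf (nat_lit 15656) (nat_lit 6) (nat_lit 206) (nat_lit 4) (nat_lit 130) (nat_lit 163) (nat_lit 157)) (PT.lf (nat_lit 16264) (nat_lit 6) (nat_lit 214) (nat_lit 4) (nat_lit 131) (nat_lit 163) (nat_lit 156)))) (PT.nd (nat_lit 156) (PT.nd (nat_lit 78) (PT.lf (nat_lit 16872) (nat_lit 6) (nat_lit 222) (nat_lit 4) (nat_lit 132) (nat_lit 163) (nat_lit 155)) (PT.lf (nat_lit 17480) (nat_lit 6) (nat_lit 230) (nat_lit 4) (nat_lit 133) (nat_lit 163) (nat_lit 154))) (PT.nd (nat_lit 78) (PT.lf (nat_lit 18696) (nat_lit 6) (nat_lit 246) (nat_lit 4) (nat_lit 134) (nat_lit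 163) (nat_lit 153)) (PT.lf (nat_lit 19836) (nat_lit 6) (nat_lit 261) (nat_lit 4) (nat_lit 135) (nat_lit 163) (nat_lit 152))))))) (PT.nd (nat_lit 1170) (PT.nd (nat_lit 546) (PT.nd (nat_lit 234) (PT.nd (nat_lit 78) (PT.lf (nat_lit 20900) (nat_lit 6) (nat_lit 275) (nat_lit 4) (nat_lit 136) (nat_lit 163) (nat_lit 151)) (PT.nd (nat_lit 78) (PT.lf (nat_lit 21888) (nat_lit 6) (nat_lit 288) (nat_lit 4) (nat_lit 137) (nat_lit 163) (nat_lit 150)) (PT.lf (nat_lit 21812) (nat_lit 6) (nat_lit 287) (nat_lit 4) (nat_lit 138) (nat_lit 163) (nat_lit 149)))) (PT.nd (nat_lit 156) (PT.nd (nat_lit 78) (PT.lf (nat_lit 21736) (nat_lit 6) (nat_lit 286) (nat_lit 4) (nat_lit 139) (nat_lit 163) (nat_lit 148)) (PT.lf (nat_lit 21660) (nat_lit 6) (nat_lit 285) (nat_lit 4) (nat_lit 140) (nat_lit 163) (nat_lit 147))) (PT.nd (nat_lit 78) (PT.lf (nat_lit 21584) (nat_lit 6) (nat_lit 284) (nat_lit 4) (nat_lit 141) (nat_lit 163) (nat_lit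 146)) (PT.lf (nat_lit 21508) (nat_lit 6) (nat_lit 283) (nat_lit 4) (nat_lit 142) (nat_lit 163) (nat_lit 145))))) (PT.nd (nat_lit 312) (PT.nd (nat_lit 156) (PT.nd (nat_lit 78) (PT.lf (nat_lit 21432) (nat_lit 6) (nat_lit 282) (nat_lit 4) (nat_lit 143) (nat_lit 163) (nat_lit 144)) (PT.lf (nat_lit 21432) (nat_lit 6) (nat_lit 282) (nat_lit 2) (nat_lit 144) (nat_lit 163) (nat_lit 143))) (PT.nd (nat_lit 78) (PT.lf (nat_lit 21508) (nat_lit 6) (nat_lit 283) (nat_lit 2) (nat_lit 145) (nat_lit 163) (nat_lit 142)) (PT.lf (nat_lit 21584) (nat_lit 6) (nat_lit 284) (nat_lit 2) (nat_lit 146) (nat_lit 163) (nat_lit 141)))) (PT.nd (nat_lit 156) (PT.nd (nat_lit 78) (PT.lf (nat_lit 21660) (nat_lit 6) (nat_lit 285) (nat_lit 2) (nat_lit 147) (nat_lit 163) (nat_lit 140)) (PT.lf (nat_lit 21736) (nat_lit 6) (nat_lit 286) (nat_lit 2) (nat_lit 148) (nat_lit 163) (nat_lit 139))) (PT.nd (nat_lit 78) (PT.lf (nat_lit 21812) (nat_lit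 6) (nat_lit 287) (nat_lit 2) (nat_lit 149) (nat_lit 163) (nat_lit 138)) (PT.lf (nat_lit 21888) (nat_lit 6) (nat_lit 288) (nat_lit 2) (nat_lit 150) (nat_lit 163) (nat_lit 137)))))) (PT.nd (nat_lit 546) (PT.nd (nat_lit 234) (PT.nd (nat_lit 78) (PT.lf (nat_lit 20900) (nat_lit 6) (nat_lit 275) (nat_lit 2) (nat_lit 151) (nat_lit 163) (nat_lit 136)) (PT.nd (nat_lit 78) (PT.lf (nat_lit 19836) (nat_lit 6) (nat_lit 261) (nat_lit 2) (nat_lit 152) (nat_lit 163) (nat_lit 135)) (PT.lf (nat_lit 18696) (nat_lit 6) (nat_lit 246) (nat_lit 2) (nat_lit 153) (nat_lit 163) (nat_lit 134)))) (PT.nd (nat_lit 156) (PT.nd (nat_lit 78) (PT.lf (nat_lit 17480) (nat_lit 6) (nat_lit 230) (nat_lit 2) (nat_lit 154) (nat_lit 163) (nat_lit 133)) (PT.lf (nat_lit 16872) (nat_lit 6) (nat_lit 222) (nat_lit 2) (nat_lit 155) (nat_lit 163) (nat_lit 132))) (PT.nd (nat_lit 78) (PT.lf (nat_lit 16264) (nat_lit 6) (nat_lit 214) (nat_lit 2) (nat_lit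 156) (nat_lit 163) (nat_lit 131)) (PT.lf (nat_lit 15656) (nat_lit 6) (nat_lit 206) (nat_lit 2) (nat_lit 157) (nat_lit 163) (nat_lit 130))))) (PT.nd (nat_lit 312) (PT.nd (nat_lit 156) (PT.nd (nat_lit 78) (PT.lf (nat_lit 15124) (nat_lit 6) (nat_lit 199) (nat_lit 2) (nat_lit 158) (nat_lit 163) (nat_lit 129)) (PT.lf (nat_lit 14592) (nat_lit 6) (nat_lit 192) (nat_lit 2) (nat_lit 159) (nat_lit 163) (nat_lit 128))) (PT.nd (nat_lit 78) (PT.lf (nat_lit 14136) (nat_lit 6) (nat_lit 186) (nat_lit 2) (nat_lit 160) (nat_lit 163) (nat_lit 127)) (PT.lf (nat_lit 13604) (nat_lit 6) (nat_lit 179) (nat_lit 2) (nat_lit 161) (nat_lit 163) (nat_lit 126)))) (PT.nd (nat_lit 156) (PT.nd (nat_lit 78) (PT.lf (nat_lit 13148) (nat_lit 6) (nat_lit 173) (nat_lit 2) (nat_lit 162) (nat_lit 163) (nat_lit 125)) (PT.lf (nat_lit 12692) (nat_lit 3) (nat_lit 167) (nat_lit 0) (nat_lit 163) (nat_lit 163) (nat_lit 124))) (PT.nd (nat_lit 78)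 (PT.lf (nat_lit 12236) (nat_lit 6) (nat_lit 161) (nat_lit 0) (nat_lit 164) (nat_lit 163) (nat_lit 123)) (PT.lf (nat_lit 11704) (nat_lit 6) (nat_lit 154) (nat_lit 0) (nat_lit 165) (nat_lit 163) (nat_lit 122))))))))
noncomputable def pc23 : PT := (PT.nd (nat_lit 44772) (PT.nd (nat_lit 43602) (PT.nd (nat_lit 42978) (PT.nd (nat_lit 234) (PT.nd (nat_lit 78) (PT.lf (nat_lit 11248) (nat_lit 6) (nat_lit 148) (nat_lit 0) (nat_lit 166) (nat_lit 163) (nat_lit 121)) (PT.nd (nat_lit 78) (PT.lf (nat_lit 10792) (nat_lit 6) (nat_lit 142) (nat_lit 0) (nat_lit 167) (nat_lit 163) (nat_lit 120)) (PT.lf (nat_lit 10412) (nat_lit 6) (nat_lit 137) (nat_lit 0) (nat_lit 168) (nat_lit 163) (nat_lit 119)))) (PT.nd (nat_lit 156) (PT.nd (nat_lit 78) (PT.lf (nat_lit 9956) (nat_lit 6) (nat_lit 131) (nat_lit 0) (nat_lit 169) (nat_lit 163) (nat_lit 118)) (PT.lf (nat_lit 9576) (nat_lit 6) (nat_lit 126) (nat_lit 0) (nat_lit 170) (nat_lit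 163) (nat_lit 117))) (PT.nd (nat_lit 42510) (PT.lf (nat_lit 9196) (nat_lit 6) (nat_lit 121) (nat_lit 0) (nat_lit 171) (nat_lit 163) (nat_lit 116)) (PT.lf (nat_lit 8892) (nat_lit 6) (nat_lit 117) (nat_lit 5) (nat_lit 115) (nat_lit 164) (nat_lit 171))))) (PT.nd (nat_lit 312) (PT.nd (nat_lit 156) (PT.nd (nat_lit 78) (PT.lf (nat_lit 9272) (nat_lit 6) (nat_lit 122) (nat_lit 5) (nat_lit 116) (nat_lit 164) (nat_lit 170)) (PT.lf (nat_lit 9652) (nat_lit 6) (nat_lit 127) (nat_lit 5) (nat_lit 117) (nat_lit 164) (nat_lit 169))) (PT.nd (nat_lit 78) (PT.lf (nat_lit 10032) (nat_lit 6) (nat_lit 132) (nat_lit 5) (nat_lit 118) (nat_lit 164) (nat_lit 168)) (PT.lf (nat_lit 10488) (nat_lit 6) (nat_lit 138) (nat_lit 5) (nat_lit 119) (nat_lit 164) (nat_lit 167)))) (PT.nd (nat_lit 156) (PT.nd (nat_lit 78) (PT.lf (nat_lit 10868) (nat_lit 6) (nat_lit 143) (nat_lit 5) (nat_lit 120) (nat_lit 164) (nat_lit 166)) (PT.lf (nat_lit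 11324) (nat_lit 6) (nat_lit 149) (nat_lit 5) (nat_lit 121) (nat_lit 164) (nat_lit 165))) (PT.nd (nat_lit 78) (PT.lf (nat_lit 11780) (nat_lit 3) (nat_lit 155) (nat_lit 4) (nat_lit 122) (nat_lit 164) (nat_lit 164)) (PT.lf (nat_lit 12236) (nat_lit 6) (nat_lit 161) (nat_lit 4) (nat_lit 123) (nat_lit 164) (nat_lit 163)))))) (PT.nd (nat_lit 546) (PT.nd (nat_lit 234) (PT.nd (nat_lit 78) (PT.lf (nat_lit 12616) (nat_lit 6) (nat_lit 166) (nat_lit 4) (nat_lit 124) (nat_lit 164) (nat_lit 162)) (PT.nd (nat_lit 78) (PT.lf (nat_lit 13072) (nat_lit 6) (nat_lit 172) (nat_lit 4) (nat_lit 125) (nat_lit 164) (nat_lit 161)) (PT.lf (nat_lit 13528) (nat_lit 6) (nat_lit 178) (nat_lit 4) (nat_lit 126) (nat_lit 164) (nat_lit 160)))) (PT.nd (nat_lit 156) (PT.nd (nat_lit 78) (PT.lf (nat_lit 14060) (nat_lit 6) (nat_lit 185) (nat_lit 4) (nat_lit 127) (nat_lit 164) (nat_lit 159)) (PT.lf (nat_lit 14516) (nat_lit 6) (nat_lit 191)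 (nat_lit 4) (nat_lit 128) (nat_lit 164) (nat_lit 158))) (PT.nd (nat_lit 78) (PT.lf (nat_lit 15048) (nat_lit 6) (nat_lit 198) (nat_lit 4) (nat_lit 129) (nat_lit 164) (nat_lit 157)) (PT.lf (nat_lit 15580) (nat_lit 6) (nat_lit 205) (nat_lit 4) (nat_lit 130) (nat_lit 164) (nat_lit 156))))) (PT.nd (nat_lit 312) (PT.nd (nat_lit 156) (PT.nd (nat_lit 78) (PT.lf (nat_lit 16188) (nat_lit 6) (nat_lit 213) (nat_lit 4) (nat_lit 131) (nat_lit 164) (nat_lit 155)) (PT.lf (nat_lit 16796) (nat_lit 6) (nat_lit 221) (nat_lit 4) (nat_lit 132) (nat_lit 164) (nat_lit 154))) (PT.nd (nat_lit 78) (PT.lf (nat_lit 17404) (nat_lit 6) (nat_lit 229) (nat_lit 4) (nat_lit 133) (nat_lit 164) (nat_lit 153)) (PT.lf (nat_lit 18620) (nat_lit 6) (nat_lit 245) (nat_lit 4) (nat_lit 134) (nat_lit 164) (nat_lit 152)))) (PT.nd (nat_lit 156) (PT.nd (nat_lit 78) (PT.lf (nat_lit 19760) (nat_lit 6) (nat_lit 260) (nat_lit 4) (nat_lit 135) (nat_lit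 164) (nat_lit 151)) (PT.lf (nat_lit 20824) (nat_lit 6) (nat_lit 274) (nat_lit 4) (nat_lit 136) (nat_lit 164) (nat_lit 150))) (PT.nd (nat_lit 78) (PT.lf (nat_lit 20748) (nat_lit 6) (nat_lit 273) (nat_lit 4) (nat_lit 137) (nat_lit 164) (nat_lit 149)) (PT.lf (nat_lit 20672) (nat_lit 6) (nat_lit 272) (nat_lit 4) (nat_lit 138) (nat_lit 164) (nat_lit 148))))))) (PT.nd (nat_lit 1170) (PT.nd (nat_lit 546) (PT.nd (nat_lit 234) (PT.nd (nat_lit 78) (PT.lf (nat_lit 20596) (nat_lit 6) (nat_lit 271) (nat_lit 4) (nat_lit 139) (nat_lit 164) (nat_lit 147)) (PT.nd (nat_lit 78) (PT.lf (nat_lit 20520) (nat_lit 6) (nat_lit 270) (nat_lit 4) (nat_lit 140) (nat_lit 164) (nat_lit 146)) (PT.lf (nat_lit 20444) (nat_lit 6) (nat_lit 269) (nat_lit 4) (nat_lit 141) (nat_lit 164) (nat_lit 145)))) (PT.nd (nat_lit 156) (PT.nd (nat_lit 78) (PT.lf (nat_lit 20368) (nat_lit 6) (nat_lit 268) (nat_lit 4) (nat_lit 142) (nat_lit 164) (nat_lit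 144)) (PT.lf (nat_lit 20292) (nat_lit 3) (nat_lit 267) (nat_lit 2) (nat_lit 143) (nat_lit 164) (nat_lit 143))) (PT.nd (nat_lit 78) (PT.lf (nat_lit 20368) (nat_lit 6) (nat_lit 268) (nat_lit 2) (nat_lit 144) (nat_lit 164) (nat_lit 142)) (PT.lf (nat_lit 20444) (nat_lit 6) (nat_lit 269) (nat_lit 2) (nat_lit 145) (nat_lit 164) (nat_lit 141))))) (PT.nd (nat_lit 312) (PT.nd (nat_lit 156) (PT.nd (nat_lit 78) (PT.lf (nat_lit 20520) (nat_lit 6) (nat_lit 270) (nat_lit 2) (nat_lit 146) (nat_lit 164) (nat_lit 140)) (PT.lf (nat_lit 20596) (nat_lit 6) (nat_lit 271) (nat_lit 2) (nat_lit 147) (nat_lit 164) (nat_lit 139))) (PT.nd (nat_lit 78) (PT.lf (nat_lit 20672) (nat_lit 6) (nat_lit 272) (nat_lit 2) (nat_lit 148) (nat_lit 164) (nat_lit 138)) (PT.lf (nat_lit 20748) (nat_lit 6) (nat_lit 273) (nat_lit 2) (nat_lit 149) (nat_lit 164) (nat_lit 137)))) (PT.nd (nat_lit 156) (PT.nd (nat_lit 78) (PT.lf (nat_lit 20824) (nat_lit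 6) (nat_lit 274) (nat_lit 2) (nat_lit 150) (nat_lit 164) (nat_lit 136)) (PT.lf (nat_lit 19760) (nat_lit 6) (nat_lit 260) (nat_lit 2) (nat_lit 151) (nat_lit 164) (nat_lit 135))) (PT.nd (nat_lit 78) (PT.lf (nat_lit 18620) (nat_lit 6) (nat_lit 245) (nat_lit 2) (nat_lit 152) (nat_lit 164) (nat_lit 134)) (PT.lf (nat_lit 17404) (nat_lit 6) (nat_lit 229) (nat_lit 2) (nat_lit 153) (nat_lit 164) (nat_lit 133)))))) (PT.nd (nat_lit 546) (PT.nd (nat_lit 234) (PT.nd (nat_lit 78) (PT.lf (nat_lit 16796) (nat_lit 6) (nat_lit 221) (nat_lit 2) (nat_lit 154) (nat_lit 164) (nat_lit 132)) (PT.nd (nat_lit 78) (PT.lf (nat_lit 16188) (nat_lit 6) (nat_lit 213) (nat_lit 2) (nat_lit 155) (nat_lit 164) (nat_lit 131)) (PT.lf (nat_lit 15580) (nat_lit 6) (nat_lit 205) (nat_lit 2) (nat_lit 156) (nat_lit 164) (nat_lit 130)))) (PT.nd (nat_lit 156) (PT.nd (nat_lit 78) (PT.lf (nat_lit 15048) (nat_lit 6) (nat_lit 198) (nat_lit 2) (nat_lit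 157) (nat_lit 164) (nat_lit 129)) (PT.lf (nat_lit 14516) (nat_lit 6) (nat_lit 191) (nat_lit 2) (nat_lit 158) (nat_lit 164) (nat_lit 128))) (PT.nd (nat_lit 78) (PT.lf (nat_lit 14060) (nat_lit 6) (nat_lit 185) (nat_lit 2) (nat_lit 159) (nat_lit 164) (nat_lit 127)) (PT.lf (nat_lit 13528) (nat_lit 6) (nat_lit 178) (nat_lit 2) (nat_lit 160) (nat_lit 164) (nat_lit 126))))) (PT.nd (nat_lit 312) (PT.nd (nat_lit 156) (PT.nd (nat_lit 78) (PT.lf (nat_lit 13072) (nat_lit 6) (nat_lit 172) (nat_lit 2) (nat_lit 161) (nat_lit 164) (nat_lit 125)) (PT.lf (nat_lit 12616) (nat_lit 6) (nat_lit 166) (nat_lit 2) (nat_lit 162) (nat_lit 164) (nat_lit 124))) (PT.nd (nat_lit 78) (PT.lf (nat_lit 12236) (nat_lit 6) (nat_lit 161) (nat_lit 2) (nat_lit 163) (nat_lit 164) (nat_lit 123)) (PT.lf (nat_lit 11780) (nat_lit 3) (nat_lit 155) (nat_lit 0) (nat_lit 164) (nat_lit 164) (nat_lit 122)))) (PT.nd (nat_lit 156) (PT.nd (nat_lit 78)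 (PT.lf (nat_lit 11324) (nat_lit 6) (nat_lit 149) (nat_lit 0) (nat_lit 165) (nat_lit 164) (nat_lit 121)) (PT.lf (nat_lit 10868) (nat_lit 6) (nat_lit 143) (nat_lit 0) (nat_lit 166) (nat_lit 164) (nat_lit 120))) (PT.nd (nat_lit 78) (PT.lf (nat_lit 10488) (nat_lit 6) (nat_lit 138) (nat_lit 0) (nat_lit 167) (nat_lit 164) (nat_lit 119)) (PT.lf (nat_lit 10032) (nat_lit 6) (nat_lit 132) (nat_lit 0) (nat_lit 168) (nat_lit 164) (nat_lit 118))))))))
noncomputable def pc24 : PT := (PT.nd (nat_lit 44538) (PT.nd (nat_lit 43368) (PT.nd (nat_lit 42822) (PT.nd (nat_lit 42510) (PT.nd (nat_lit 78) (PT.lf (nat_lit 9652) (nat_lit 6) (nat_lit 127) (nat_lit 0) (nat_lit 169) (nat_lit 164) (nat_lit 117)) (PT.nd (nat_lit 78) (PT.lf (nat_lit 9272) (nat_lit 6) (nat_lit 122) (nat_lit 0) (nat_lit 170) (nat_lit 164) (nat_lit 116)) (PT.lf (nat_lit 8892) (nat_lit 6) (nat_lit 117) (nat_lit 0) (nat_lit 171) (nat_lit 164) (nat_lit 115))))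 (PT.nd (nat_lit 156) (PT.nd (nat_lit 78) (PT.lf (nat_lit 8208) (nat_lit 6) (nat_lit 108) (nat_lit 5) (nat_lit 113) (nat_lit 165) (nat_lit 172)) (PT.lf (nat_lit 8588) (nat_lit 6) (nat_lit 113) (nat_lit 5) (nat_lit 114) (nat_lit 165) (nat_lit 171))) (PT.nd (nat_lit 78) (PT.lf (nat_lit 8968) (nat_lit 6) (nat_lit 118) (nat_lit 5) (nat_lit 115) (nat_lit 165) (nat_lit 170)) (PT.lf (nat_lit 9348) (nat_lit 6) (nat_lit 123) (nat_lit 5) (nat_lit 116) (nat_lit 165) (nat_lit 169))))) (PT.nd (nat_lit 234) (PT.nd (nat_lit 78) (PT.lf (nat_lit 9728) (nat_lit 6) (nat_lit 128) (nat_lit 5) (nat_lit 117) (nat_lit 165) (nat_lit 168)) (PT.nd (nat_lit 78) (PT.lf (nat_lit 10108) (nat_lit 6) (nat_lit 133) (nat_lit 5) (nat_lit 118) (nat_lit 165) (nat_lit 167)) (PT.lf (nat_lit 10564) (nat_lit 6) (nat_lit 139) (nat_lit 5) (nat_lit 119) (nat_lit 165) (nat_lit 166)))) (PT.nd (nat_lit 156) (PT.nd (nat_lit 78) (PT.lf (nat_lit 10944)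 (nat_lit 3) (nat_lit 144) (nat_lit 4) (nat_lit 120) (nat_lit 165) (nat_lit 165)) (PT.lf (nat_lit 11324) (nat_lit 6) (nat_lit 149) (nat_lit 4) (nat_lit 121) (nat_lit 165) (nat_lit 164))) (PT.nd (nat_lit 78) (PT.lf (nat_lit 11704) (nat_lit 6) (nat_lit 154) (nat_lit 4) (nat_lit 122) (nat_lit 165) (nat_lit 163)) (PT.lf (nat_lit 12160) (nat_lit 6) (nat_lit 160) (nat_lit 4) (nat_lit 123) (nat_lit 165) (nat_lit 162)))))) (PT.nd (nat_lit 546) (PT.nd (nat_lit 234) (PT.nd (nat_lit 78) (PT.lf (nat_lit 12540) (nat_lit 6) (nat_lit 165) (nat_lit 4) (nat_lit 124) (nat_lit 165) (nat_lit 161)) (PT.nd (nat_lit 78) (PT.lf (nat_lit 12996) (nat_lit 6) (nat_lit 171) (nat_lit 4) (nat_lit 125) (nat_lit 165) (nat_lit 160)) (PT.lf (nat_lit 13452) (nat_lit 6) (nat_lit 177) (nat_lit 4) (nat_lit 126) (nat_lit 165) (nat_lit 159)))) (PT.nd (nat_lit 156) (PT.nd (nat_lit 78) (PT.lf (nat_lit 13984) (nat_lit 6) (nat_lit 184) (nat_lit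 4) (nat_lit 127) (nat_lit 165) (nat_lit 158)) (PT.lf (nat_lit 14440) (nat_lit 6) (nat_lit 190) (nat_lit 4) (nat_lit 128) (nat_lit 165) (nat_lit 157))) (PT.nd (nat_lit 78) (PT.lf (nat_lit 14972) (nat_lit 6) (nat_lit 197) (nat_lit 4) (nat_lit 129) (nat_lit 165) (nat_lit 156)) (PT.lf (nat_lit 15504) (nat_lit 6) (nat_lit 204) (nat_lit 4) (nat_lit 130) (nat_lit 165) (nat_lit 155))))) (PT.nd (nat_lit 312) (PT.nd (nat_lit 156) (PT.nd (nat_lit 78) (PT.lf (nat_lit 16112) (nat_lit 6) (nat_lit 212) (nat_lit 4) (nat_lit 131) (nat_lit 165) (nat_lit 154)) (PT.lf (nat_lit 16720) (nat_lit 6) (nat_lit 220) (nat_lit 4) (nat_lit 132) (nat_lit 165) (nat_lit 153))) (PT.nd (nat_lit 78) (PT.lf (nat_lit 17328) (nat_lit 6) (nat_lit 228) (nat_lit 4) (nat_lit 133) (nat_lit 165) (nat_lit 152)) (PT.lf (nat_lit 18544) (nat_lit 6) (nat_lit 244) (nat_lit 4) (nat_lit 134) (nat_lit 165) (nat_lit 151)))) (PT.nd (nat_lit 156) (PT.nd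 (nat_lit 78) (PT.lf (nat_lit 19684) (nat_lit 6) (nat_lit 259) (nat_lit 4) (nat_lit 135) (nat_lit 165) (nat_lit 150)) (PT.lf (nat_lit 19608) (nat_lit 6) (nat_lit 258) (nat_lit 4) (nat_lit 136) (nat_lit 165) (nat_lit 149))) (PT.nd (nat_lit 78) (PT.lf (nat_lit 19532) (nat_lit 6) (nat_lit 257) (nat_lit 4) (nat_lit 137) (nat_lit 165) (nat_lit 148)) (PT.lf (nat_lit 19456) (nat_lit 6) (nat_lit 256) (nat_lit 4) (nat_lit 138) (nat_lit 165) (nat_lit 147))))))) (PT.nd (nat_lit 1170) (PT.nd (nat_lit 546) (PT.nd (nat_lit 234) (PT.nd (nat_lit 78) (PT.lf (nat_lit 19380) (nat_lit 6) (nat_lit 255) (nat_lit 4) (nat_lit 139) (nat_lit 165) (nat_lit 146)) (PT.nd (nat_lit 78) (PT.lf (nat_lit 19304) (nat_lit 6) (nat_lit 254) (nat_lit 4) (nat_lit 140) (nat_lit 165) (nat_lit 145)) (PT.lf (nat_lit 19228) (nat_lit 6) (nat_lit 253) (nat_lit 4) (nat_lit 141) (nat_lit 165) (nat_lit 144)))) (PT.nd (nat_lit 156) (PT.nd (nat_lit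 78) (PT.lf (nat_lit 19152) (nat_lit 6) (nat_lit 252) (nat_lit 4) (nat_lit 142) (nat_lit 165) (nat_lit 143)) (PT.lf (nat_lit 19152) (nat_lit 6) (nat_lit 252) (nat_lit 2) (nat_lit 143) (nat_lit 165) (nat_lit 142))) (PT.nd (nat_lit 78) (PT.lf (nat_lit 19228) (nat_lit 6) (nat_lit 253) (nat_lit 2) (nat_lit 144) (nat_lit 165) (nat_lit 141)) (PT.lf (nat_lit 19304) (nat_lit 6) (nat_lit 254) (nat_lit 2) (nat_lit 145) (nat_lit 165) (nat_lit 140))))) (PT.nd (nat_lit 312) (PT.nd (nat_lit 156) (PT.nd (nat_lit 78) (PT.lf (nat_lit 19380) (nat_lit 6) (nat_lit 255) (nat_lit 2) (nat_lit 146) (nat_lit 165) (nat_lit 139)) (PT.lf (nat_lit 19456) (nat_lit 6) (nat_lit 256) (nat_lit 2) (nat_lit 147) (nat_lit 165) (nat_lit 138))) (PT.nd (nat_lit 78) (PT.lf (nat_lit 19532) (nat_lit 6) (nat_lit 257) (nat_lit 2) (nat_lit 148) (nat_lit 165) (nat_lit 137)) (PT.lf (nat_lit 19608) (nat_lit 6) (nat_lit 258) (nat_lit 2) (nat_lit 149)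 (nat_lit 165) (nat_lit 136)))) (PT.nd (nat_lit 156) (PT.nd (nat_lit 78) (PT.lf (nat_lit 19684) (nat_lit 6) (nat_lit 259) (nat_lit 2) (nat_lit 150) (nat_lit 165) (nat_lit 135)) (PT.lf (nat_lit 18544) (nat_lit 6) (nat_lit 244) (nat_lit 2) (nat_lit 151) (nat_lit 165) (nat_lit 134))) (PT.nd (nat_lit 78) (PT.lf (nat_lit 17328) (nat_lit 6) (nat_lit 228) (nat_lit 2) (nat_lit 152) (nat_lit 165) (nat_lit 133)) (PT.lf (nat_lit 16720) (nat_lit 6) (nat_lit 220) (nat_lit 2) (nat_lit 153) (nat_lit 165) (nat_lit 132)))))) (PT.nd (nat_lit 546) (PT.nd (nat_lit 234) (PT.nd (nat_lit 78) (PT.lf (nat_lit 16112) (nat_lit 6) (nat_lit 212) (nat_lit 2) (nat_lit 154) (nat_lit 165) (nat_lit 131)) (PT.nd (nat_lit 78) (PT.lf (nat_lit 15504) (nat_lit 6) (nat_lit 204) (nat_lit 2) (nat_lit 155) (nat_lit 165) (nat_lit 130)) (PT.lf (nat_lit 14972) (nat_lit 6) (nat_lit 197) (nat_lit 2) (nat_lit 156) (nat_lit 165) (nat_lit 129)))) (PT.nd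 (nat_lit 156) (PT.nd (nat_lit 78) (PT.lf (nat_lit 14440) (nat_lit 6) (nat_lit 190) (nat_lit 2) (nat_lit 157) (nat_lit 165) (nat_lit 128)) (PT.lf (nat_lit 13984) (nat_lit 6) (nat_lit 184) (nat_lit 2) (nat_lit 158) (nat_lit 165) (nat_lit 127))) (PT.nd (nat_lit 78) (PT.lf (nat_lit 13452) (nat_lit 6) (nat_lit 177) (nat_lit 2) (nat_lit 159) (nat_lit 165) (nat_lit 126)) (PT.lf (nat_lit 12996) (nat_lit 6) (nat_lit 171) (nat_lit 2) (nat_lit 160) (nat_lit 165) (nat_lit 125))))) (PT.nd (nat_lit 312) (PT.nd (nat_lit 156) (PT.nd (nat_lit 78) (PT.lf (nat_lit 12540) (nat_lit 6) (nat_lit 165) (nat_lit 2) (nat_lit 161) (nat_lit 165) (nat_lit 124)) (PT.lf (nat_lit 12160) (nat_lit 6) (nat_lit 160) (nat_lit 2) (nat_lit 162) (nat_lit 165) (nat_lit 123))) (PT.nd (nat_lit 78) (PT.lf (nat_lit 11704) (nat_lit 6) (nat_lit 154) (nat_lit 2) (nat_lit 163) (nat_lit 165) (nat_lit 122)) (PT.lf (nat_lit 11324) (nat_lit 6) (nat_lit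 149) (nat_lit 2) (nat_lit 164) (nat_lit 165) (nat_lit 121)))) (PT.nd (nat_lit 156) (PT.nd (nat_lit 78) (PT.lf (nat_lit 10944) (nat_lit 3) (nat_lit 144) (nat_lit 0) (nat_lit 165) (nat_lit 165) (nat_lit 120)) (PT.lf (nat_lit 10564) (nat_lit 6) (nat_lit 139) (nat_lit 0) (nat_lit 166) (nat_lit 165) (nat_lit 119))) (PT.nd (nat_lit 78) (PT.lf (nat_lit 10108) (nat_lit 6) (nat_lit 133) (nat_lit 0) (nat_lit 167) (nat_lit 165) (nat_lit 118)) (PT.lf (nat_lit 9728) (nat_lit 6) (nat_lit 128) (nat_lit 0) (nat_lit 168) (nat_lit 165) (nat_lit 117))))))))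
noncomputable def pc25 : PT := (PT.nd (nat_lit 44382) (PT.nd (nat_lit 43212) (PT.nd (nat_lit 42666) (PT.nd (nat_lit 234) (PT.nd (nat_lit 78) (PT.lf (nat_lit 9348) (nat_lit 6) (nat_lit 123) (nat_lit 0) (nat_lit 169) (nat_lit 165) (nat_lit 116)) (PT.nd (nat_lit 78) (PT.lf (nat_lit 8968) (nat_lit 6) (nat_lit 118) (nat_lit 0) (nat_lit 170) (nat_lit 165) (nat_lit 115)) (PT.lf (nat_lit 8588) (nat_lit 6) (nat_lit 113) (nat_lit 0) (nat_lit 171) (nat_lit 165) (nat_lit 114)))) (PT.nd (nat_lit 42276) (PT.nd (nat_lit 42198) (PT.lf (nat_lit 8208) (nat_lit 6) (nat_lit 108) (nat_lit 0) (nat_lit 172) (nat_lit 165) (nat_lit 113)) (PT.lf (nat_lit 7904) (nat_lit 6) (nat_lit 104) (nat_lit 5) (nat_lit 112) (nat_lit 166) (nat_lit 172))) (PT.nd (nat_lit 78) (PT.lf (nat_lit 8284) (nat_lit 6) (nat_lit 109) (nat_lit 5) (nat_lit 113) (nat_lit 166) (nat_lit 171)) (PT.lf (nat_lit 8664) (nat_lit 6) (nat_lit 114) (nat_lit 5) (nat_lit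 114) (nat_lit 166) (nat_lit 170))))) (PT.nd (nat_lit 234) (PT.nd (nat_lit 78) (PT.lf (nat_lit 9044) (nat_lit 6) (nat_lit 119) (nat_lit 5) (nat_lit 115) (nat_lit 166) (nat_lit 169)) (PT.nd (nat_lit 78) (PT.lf (nat_lit 9424) (nat_lit 6) (nat_lit 124) (nat_lit 5) (nat_lit 116) (nat_lit 166) (nat_lit 168)) (PT.lf (nat_lit 9804) (nat_lit 6) (nat_lit 129) (nat_lit 5) (nat_lit 117) (nat_lit 166) (nat_lit 167)))) (PT.nd (nat_lit 156) (PT.nd (nat_lit 78) (PT.lf (nat_lit 10184) (nat_lit 3) (nat_lit 134) (nat_lit 4) (nat_lit 118) (nat_lit 166) (nat_lit 166)) (PT.lf (nat_lit 10564) (nat_lit 6) (nat_lit 139) (nat_lit 4) (nat_lit 119) (nat_lit 166) (nat_lit 165))) (PT.nd (nat_lit 78) (PT.lf (nat_lit 10868) (nat_lit 6) (nat_lit 143) (nat_lit 4) (nat_lit 120) (nat_lit 166) (nat_lit 164)) (PT.lf (nat_lit 11248) (nat_lit 6) (nat_lit 148) (nat_lit 4) (nat_lit 121) (nat_lit 166) (nat_lit 163)))))) (PT.nd (nat_lit 546)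 (PT.nd (nat_lit 234) (PT.nd (nat_lit 78) (PT.lf (nat_lit 11628) (nat_lit 6) (nat_lit 153) (nat_lit 4) (nat_lit 122) (nat_lit 166) (nat_lit 162)) (PT.nd (nat_lit 78) (PT.lf (nat_lit 12084) (nat_lit 6) (nat_lit 159) (nat_lit 4) (nat_lit 123) (nat_lit 166) (nat_lit 161)) (PT.lf (nat_lit 12464) (nat_lit 6) (nat_lit 164) (nat_lit 4) (nat_lit 124) (nat_lit 166) (nat_lit 160)))) (PT.nd (nat_lit 156) (PT.nd (nat_lit 78) (PT.lf (nat_lit 12920) (nat_lit 6) (nat_lit 170) (nat_lit 4) (nat_lit 125) (nat_lit 166) (nat_lit 159)) (PT.lf (nat_lit 13376) (nat_lit 6) (nat_lit 176) (nat_lit 4) (nat_lit 126) (nat_lit 166) (nat_lit 158))) (PT.nd (nat_lit 78) (PT.lf (nat_lit 13908) (nat_lit 6) (nat_lit 183) (nat_lit 4) (nat_lit 127) (nat_lit 166) (nat_lit 157)) (PT.lf (nat_lit 14364) (nat_lit 6) (nat_lit 189) (nat_lit 4) (nat_lit 128) (nat_lit 166) (nat_lit 156))))) (PT.nd (nat_lit 312) (PT.nd (nat_lit 156) (PT.nd (nat_lit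 78) (PT.lf (nat_lit 14896) (nat_lit 6) (nat_lit 196) (nat_lit 4) (nat_lit 129) (nat_lit 166) (nat_lit 155)) (PT.lf (nat_lit 15428) (nat_lit 6) (nat_lit 203) (nat_lit 4) (nat_lit 130) (nat_lit 166) (nat_lit 154))) (PT.nd (nat_lit 78) (PT.lf (nat_lit 16036) (nat_lit 6) (nat_lit 211) (nat_lit 4) (nat_lit 131) (nat_lit 166) (nat_lit 153)) (PT.lf (nat_lit 16644) (nat_lit 6) (nat_lit 219) (nat_lit 4) (nat_lit 132) (nat_lit 166) (nat_lit 152)))) (PT.nd (nat_lit 156) (PT.nd (nat_lit 78) (PT.lf (nat_lit 17252) (nat_lit 6) (nat_lit 227) (nat_lit 4) (nat_lit 133) (nat_lit 166) (nat_lit 151)) (PT.lf (nat_lit 18468) (nat_lit 6) (nat_lit 243) (nat_lit 4) (nat_lit 134) (nat_lit 166) (nat_lit 150))) (PT.nd (nat_lit 78) (PT.lf (nat_lit 18392) (nat_lit 6) (nat_lit 242) (nat_lit 4) (nat_lit 135) (nat_lit 166) (nat_lit 149)) (PT.lf (nat_lit 18316) (nat_lit 6) (nat_lit 241) (nat_lit 4) (nat_lit 136) (nat_lit 166) (nat_lit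 148))))))) (PT.nd (nat_lit 1170) (PT.nd (nat_lit 546) (PT.nd (nat_lit 234) (PT.nd (nat_lit 78) (PT.lf (nat_lit 18240) (nat_lit 6) (nat_lit 240) (nat_lit 4) (nat_lit 137) (nat_lit 166) (nat_lit 147)) (PT.nd (nat_lit 78) (PT.lf (nat_lit 18164) (nat_lit 6) (nat_lit 239) (nat_lit 4) (nat_lit 138) (nat_lit 166) (nat_lit 146)) (PT.lf (nat_lit 18088) (nat_lit 6) (nat_lit 238) (nat_lit 4) (nat_lit 139) (nat_lit 166) (nat_lit 145)))) (PT.nd (nat_lit 156) (PT.nd (nat_lit 78) (PT.lf (nat_lit 18012) (nat_lit 6) (nat_lit 237) (nat_lit 4) (nat_lit 140) (nat_lit 166) (nat_lit 144)) (PT.lf (nat_lit 17936) (nat_lit 6) (nat_lit 236) (nat_lit 4) (nat_lit 141) (nat_lit 166) (nat_lit 143))) (PT.nd (nat_lit 78) (PT.lf (nat_lit 17860) (nat_lit 3) (nat_lit 235) (nat_lit 2) (nat_lit 142) (nat_lit 166) (nat_lit 142)) (PT.lf (nat_lit 17936) (nat_lit 6) (nat_lit 236) (nat_lit 2) (nat_lit 143) (nat_lit 166) (nat_lit 141)))))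 (PT.nd (nat_lit 312) (PT.nd (nat_lit 156) (PT.nd (nat_lit 78) (PT.lf (nat_lit 18012) (nat_lit 6) (nat_lit 237) (nat_lit 2) (nat_lit 144) (nat_lit 166) (nat_lit 140)) (PT.lf (nat_lit 18088) (nat_lit 6) (nat_lit 238) (nat_lit 2) (nat_lit 145) (nat_lit 166) (nat_lit 139))) (PT.nd (nat_lit 78) (PT.lf (nat_lit 18164) (nat_lit 6) (nat_lit 239) (nat_lit 2) (nat_lit 146) (nat_lit 166) (nat_lit 138)) (PT.lf (nat_lit 18240) (nat_lit 6) (nat_lit 240) (nat_lit 2) (nat_lit 147) (nat_lit 166) (nat_lit 137)))) (PT.nd (nat_lit 156) (PT.nd (nat_lit 78) (PT.lf (nat_lit 18316) (nat_lit 6) (nat_lit 241) (nat_lit 2) (nat_lit 148) (nat_lit 166) (nat_lit 136)) (PT.lf (nat_lit 18392) (nat_lit 6) (nat_lit 242) (nat_lit 2) (nat_lit 149) (nat_lit 166) (nat_lit 135))) (PT.nd (nat_lit 78) (PT.lf (nat_lit 18468) (nat_lit 6) (nat_lit 243) (nat_lit 2) (nat_lit 150) (nat_lit 166) (nat_lit 134)) (PT.lf (nat_lit 17252) (nat_lit 6)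 (nat_lit 227) (nat_lit 2) (nat_lit 151) (nat_lit 166) (nat_lit 133)))))) (PT.nd (nat_lit 546) (PT.nd (nat_lit 234) (PT.nd (nat_lit 78) (PT.lf (nat_lit 16644) (nat_lit 6) (nat_lit 219) (nat_lit 2) (nat_lit 152) (nat_lit 166) (nat_lit 132)) (PT.nd (nat_lit 78) (PT.lf (nat_lit 16036) (nat_lit 6) (nat_lit 211) (nat_lit 2) (nat_lit 153) (nat_lit 166) (nat_lit 131)) (PT.lf (nat_lit 15428) (nat_lit 6) (nat_lit 203) (nat_lit 2) (nat_lit 154) (nat_lit 166) (nat_lit 130)))) (PT.nd (nat_lit 156) (PT.nd (nat_lit 78) (PT.lf (nat_lit 14896) (nat_lit 6) (nat_lit 196) (nat_lit 2) (nat_lit 155) (nat_lit 166) (nat_lit 129)) (PT.lf (nat_lit 14364) (nat_lit 6) (nat_lit 189) (nat_lit 2) (nat_lit 156) (nat_lit 166) (nat_lit 128))) (PT.nd (nat_lit 78) (PT.lf (nat_lit 13908) (nat_lit 6) (nat_lit 183) (nat_lit 2) (nat_lit 157) (nat_lit 166) (nat_lit 127)) (PT.lf (nat_lit 13376) (nat_lit 6) (nat_lit 176) (nat_lit 2) (nat_lit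 158) (nat_lit 166) (nat_lit 126))))) (PT.nd (nat_lit 312) (PT.nd (nat_lit 156) (PT.nd (nat_lit 78) (PT.lf (nat_lit 12920) (nat_lit 6) (nat_lit 170) (nat_lit 2) (nat_lit 159) (nat_lit 166) (nat_lit 125)) (PT.lf (nat_lit 12464) (nat_lit 6) (nat_lit 164) (nat_lit 2) (nat_lit 160) (nat_lit 166) (nat_lit 124))) (PT.nd (nat_lit 78) (PT.lf (nat_lit 12084) (nat_lit 6) (nat_lit 159) (nat_lit 2) (nat_lit 161) (nat_lit 166) (nat_lit 123)) (PT.lf (nat_lit 11628) (nat_lit 6) (nat_lit 153) (nat_lit 2) (nat_lit 162) (nat_lit 166) (nat_lit 122)))) (PT.nd (nat_lit 156) (PT.nd (nat_lit 78) (PT.lf (nat_lit 11248) (nat_lit 6) (nat_lit 148) (nat_lit 2) (nat_lit 163) (nat_lit 166) (nat_lit 121)) (PT.lf (nat_lit 10868) (nat_lit 6) (nat_lit 143) (nat_lit 2) (nat_lit 164) (nat_lit 166) (nat_lit 120))) (PT.nd (nat_lit 78) (PT.lf (nat_lit 10564) (nat_lit 6) (nat_lit 139) (nat_lit 2) (nat_lit 165) (nat_lit 166) (nat_lit 119))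 (PT.lf (nat_lit 10184) (nat_lit 3) (nat_lit 134) (nat_lit 0) (nat_lit 166) (nat_lit 166) (nat_lit 118))))))))
noncomputable def pc26 : PT := (PT.nd (nat_lit 45630) (PT.nd (nat_lit 43056) (PT.nd (nat_lit 42510) (PT.nd (nat_lit 234) (PT.nd (nat_lit 78) (PT.lf (nat_lit 9804) (nat_lit 6) (nat_lit 129) (nat_lit 0) (nat_lit 167) (nat_lit 166) (nat_lit 117)) (PT.nd (nat_lit 78) (PT.lf (nat_lit 9424) (nat_lit 6) (nat_lit 124) (nat_lit 0) (nat_lit 168) (nat_lit 166) (nat_lit 116)) (PT.lf (nat_lit 9044) (nat_lit 6) (nat_lit 119) (nat_lit 0) (nat_lit 169) (nat_lit 166) (nat_lit 115)))) (PT.nd (nat_lit 156) (PT.nd (nat_lit 78) (PT.lf (nat_lit 8664) (nat_lit 6) (nat_lit 114) (nat_lit 0) (nat_lit 170) (nat_lit 166) (nat_lit 114)) (PT.lf (nat_lit 8284) (nat_lit 6) (nat_lit 109) (nat_lit 0) (nat_lit 171) (nat_lit 166) (nat_lit 113))) (PT.nd (nat_lit 42042) (PT.lf (nat_lit 7904) (nat_lit 6) (nat_lit 104) (nat_lit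 0) (nat_lit 172) (nat_lit 166) (nat_lit 112)) (PT.lf (nat_lit 7296) (nat_lit 6) (nat_lit 96) (nat_lit 5) (nat_lit 110) (nat_lit 167) (nat_lit 173))))) (PT.nd (nat_lit 234) (PT.nd (nat_lit 78) (PT.lf (nat_lit 7676) (nat_lit 6) (nat_lit 101) (nat_lit 5) (nat_lit 111) (nat_lit 167) (nat_lit 172)) (PT.nd (nat_lit 78) (PT.lf (nat_lit 7980) (nat_lit 6) (nat_lit 105) (nat_lit 5) (nat_lit 112) (nat_lit 167) (nat_lit 171)) (PT.lf (nat_lit 8360) (nat_lit 6) (nat_lit 110) (nat_lit 5) (nat_lit 113) (nat_lit 167) (nat_lit 170)))) (PT.nd (nat_lit 156) (PT.nd (nat_lit 78) (PT.lf (nat_lit 8740) (nat_lit 6) (nat_lit 115) (nat_lit 5) (nat_lit 114) (nat_lit 167) (nat_lit 169)) (PT.lf (nat_lit 9120) (nat_lit 6) (nat_lit 120) (nat_lit 5) (nat_lit 115) (nat_lit 167) (nat_lit 168))) (PT.nd (nat_lit 78) (PT.lf (nat_lit 9500) (nat_lit 3) (nat_lit 125) (nat_lit 4) (nat_lit 116) (nat_lit 167) (nat_lit 167)) (PT.lf (nat_lit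 9804) (nat_lit 6) (nat_lit 129) (nat_lit 4) (nat_lit 117) (nat_lit 167) (nat_lit 166)))))) (PT.nd (nat_lit 546) (PT.nd (nat_lit 234) (PT.nd (nat_lit 78) (PT.lf (nat_lit 10108) (nat_lit 6) (nat_lit 133) (nat_lit 4) (nat_lit 118) (nat_lit 167) (nat_lit 165)) (PT.nd (nat_lit 78) (PT.lf (nat_lit 10488) (nat_lit 6) (nat_lit 138) (nat_lit 4) (nat_lit 119) (nat_lit 167) (nat_lit 164)) (PT.lf (nat_lit 10792) (nat_lit 6) (nat_lit 142) (nat_lit 4) (nat_lit 120) (nat_lit 167) (nat_lit 163)))) (PT.nd (nat_lit 156) (PT.nd (nat_lit 78) (PT.lf (nat_lit 11172) (nat_lit 6) (nat_lit 147) (nat_lit 4) (nat_lit 121) (nat_lit 167) (nat_lit 162)) (PT.lf (nat_lit 11552) (nat_lit 6) (nat_lit 152) (nat_lit 4) (nat_lit 122) (nat_lit 167) (nat_lit 161))) (PT.nd (nat_lit 78) (PT.lf (nat_lit 12008) (nat_lit 6) (nat_lit 158) (nat_lit 4) (nat_lit 123) (nat_lit 167) (nat_lit 160)) (PT.lf (nat_lit 12388) (nat_lit 6) (nat_lit 163)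 (nat_lit 4) (nat_lit 124) (nat_lit 167) (nat_lit 159))))) (PT.nd (nat_lit 312) (PT.nd (nat_lit 156) (PT.nd (nat_lit 78) (PT.lf (nat_lit 12844) (nat_lit 6) (nat_lit 169) (nat_lit 4) (nat_lit 125) (nat_lit 167) (nat_lit 158)) (PT.lf (nat_lit 13300) (nat_lit 6) (nat_lit 175) (nat_lit 4) (nat_lit 126) (nat_lit 167) (nat_lit 157))) (PT.nd (nat_lit 78) (PT.lf (nat_lit 13832) (nat_lit 6) (nat_lit 182) (nat_lit 4) (nat_lit 127) (nat_lit 167) (nat_lit 156)) (PT.lf (nat_lit 14288) (nat_lit 6) (nat_lit 188) (nat_lit 4) (nat_lit 128) (nat_lit 167) (nat_lit 155)))) (PT.nd (nat_lit 156) (PT.nd (nat_lit 78) (PT.lf (nat_lit 14820) (nat_lit 6) (nat_lit 195) (nat_lit 4) (nat_lit 129) (nat_lit 167) (nat_lit 154)) (PT.lf (nat_lit 15352) (nat_lit 6) (nat_lit 202) (nat_lit 4) (nat_lit 130) (nat_lit 167) (nat_lit 153))) (PT.nd (nat_lit 78) (PT.lf (nat_lit 15960) (nat_lit 6) (nat_lit 210) (nat_lit 4) (nat_lit 131) (nat_lit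 167) (nat_lit 152)) (PT.lf (nat_lit 16568) (nat_lit 6) (nat_lit 218) (nat_lit 4) (nat_lit 132) (nat_lit 167) (nat_lit 151))))))) (PT.nd (nat_lit 1170) (PT.nd (nat_lit 546) (PT.nd (nat_lit 234) (PT.nd (nat_lit 78) (PT.lf (nat_lit 16568) (nat_lit 6) (nat_lit 218) (nat_lit 2) (nat_lit 151) (nat_lit 167) (nat_lit 132)) (PT.nd (nat_lit 78) (PT.lf (nat_lit 15960) (nat_lit 6) (nat_lit 210) (nat_lit 2) (nat_lit 152) (nat_lit 167) (nat_lit 131)) (PT.lf (nat_lit 15352) (nat_lit 6) (nat_lit 202) (nat_lit 2) (nat_lit 153) (nat_lit 167) (nat_lit 130)))) (PT.nd (nat_lit 156) (PT.nd (nat_lit 78) (PT.lf (nat_lit 14820) (nat_lit 6) (nat_lit 195) (nat_lit 2) (nat_lit 154) (nat_lit 167) (nat_lit 129)) (PT.lf (nat_lit 14288) (nat_lit 6) (nat_lit 188) (nat_lit 2) (nat_lit 155) (nat_lit 167) (nat_lit 128))) (PT.nd (nat_lit 78) (PT.lf (nat_lit 13832) (nat_lit 6) (nat_lit 182) (nat_lit 2) (nat_lit 156) (nat_lit 167) (nat_lit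 127)) (PT.lf (nat_lit 13300) (nat_lit 6) (nat_lit 175) (nat_lit 2) (nat_lit 157) (nat_lit 167) (nat_lit 126))))) (PT.nd (nat_lit 312) (PT.nd (nat_lit 156) (PT.nd (nat_lit 78) (PT.lf (nat_lit 12844) (nat_lit 6) (nat_lit 169) (nat_lit 2) (nat_lit 158) (nat_lit 167) (nat_lit 125)) (PT.lf (nat_lit 12388) (nat_lit 6) (nat_lit 163) (nat_lit 2) (nat_lit 159) (nat_lit 167) (nat_lit 124))) (PT.nd (nat_lit 78) (PT.lf (nat_lit 12008) (nat_lit 6) (nat_lit 158) (nat_lit 2) (nat_lit 160) (nat_lit 167) (nat_lit 123)) (PT.lf (nat_lit 11552) (nat_lit 6) (nat_lit 152) (nat_lit 2) (nat_lit 161) (nat_lit 167) (nat_lit 122)))) (PT.nd (nat_lit 156) (PT.nd (nat_lit 78) (PT.lf (nat_lit 11172) (nat_lit 6) (nat_lit 147) (nat_lit 2) (nat_lit 162) (nat_lit 167) (nat_lit 121)) (PT.lf (nat_lit 10792) (nat_lit 6) (nat_lit 142) (nat_lit 2) (nat_lit 163) (nat_lit 167) (nat_lit 120))) (PT.nd (nat_lit 78) (PT.lf (nat_lit 10488) (nat_lit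 6) (nat_lit 138) (nat_lit 2) (nat_lit 164) (nat_lit 167) (nat_lit 119)) (PT.lf (nat_lit 10108) (nat_lit 6) (nat_lit 133) (nat_lit 2) (nat_lit 165) (nat_lit 167) (nat_lit 118)))))) (PT.nd (nat_lit 546) (PT.nd (nat_lit 234) (PT.nd (nat_lit 78) (PT.lf (nat_lit 9804) (nat_lit 6) (nat_lit 129) (nat_lit 2) (nat_lit 166) (nat_lit 167) (nat_lit 117)) (PT.nd (nat_lit 78) (PT.lf (nat_lit 9500) (nat_lit 3) (nat_lit 125) (nat_lit 0) (nat_lit 167) (nat_lit 167) (nat_lit 116)) (PT.lf (nat_lit 9120) (nat_lit 6) (nat_lit 120) (nat_lit 0) (nat_lit 168) (nat_lit 167) (nat_lit 115)))) (PT.nd (nat_lit 156) (PT.nd (nat_lit 78) (PT.lf (nat_lit 8740) (nat_lit 6) (nat_lit 115) (nat_lit 0) (nat_lit 169) (nat_lit 167) (nat_lit 114)) (PT.lf (nat_lit 8360) (nat_lit 6) (nat_lit 110) (nat_lit 0) (nat_lit 170) (nat_lit 167) (nat_lit 113))) (PT.nd (nat_lit 78) (PT.lf (nat_lit 7980) (nat_lit 6) (nat_lit 105) (nat_lit 0) (nat_lit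 171) (nat_lit 167) (nat_lit 112)) (PT.lf (nat_lit 7676) (nat_lit 6) (nat_lit 101) (nat_lit 0) (nat_lit 172) (nat_lit 167) (nat_lit 111))))) (PT.nd (nat_lit 42042) (PT.nd (nat_lit 41886) (PT.nd (nat_lit 41808) (PT.lf (nat_lit 7296) (nat_lit 6) (nat_lit 96) (nat_lit 0) (nat_lit 173) (nat_lit 167) (nat_lit 110)) (PT.lf (nat_lit 6764) (nat_lit 6) (nat_lit 89) (nat_lit 5) (nat_lit 108) (nat_lit 168) (nat_lit 174))) (PT.nd (nat_lit 78) (PT.lf (nat_lit 7068) (nat_lit 6) (nat_lit 93) (nat_lit 5) (nat_lit 109) (nat_lit 168) (nat_lit 173)) (PT.lf (nat_lit 7372) (nat_lit 6) (nat_lit 97) (nat_lit 5) (nat_lit 110) (nat_lit 168) (nat_lit 172)))) (PT.nd (nat_lit 156) (PT.nd (nat_lit 78) (PT.lf (nat_lit 7752) (nat_lit 6) (nat_lit 102) (nat_lit 5) (nat_lit 111) (nat_lit 168) (nat_lit 171)) (PT.lf (nat_lit 8056) (nat_lit 6) (nat_lit 106) (nat_lit 5) (nat_lit 112) (nat_lit 168) (nat_lit 170))) (PT.nd (nat_lit 78) (PT.lf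 (nat_lit 8436) (nat_lit 6) (nat_lit 111) (nat_lit 5) (nat_lit 113) (nat_lit 168) (nat_lit 169)) (PT.lf (nat_lit 8816) (nat_lit 3) (nat_lit 116) (nat_lit 4) (nat_lit 114) (nat_lit 168) (nat_lit 168))))))))
noncomputable def pc27 : PT := (PT.nd (nat_lit 4602) (PT.nd (nat_lit 3432) (PT.nd (nat_lit 546) (PT.nd (nat_lit 234) (PT.nd (nat_lit 78) (PT.lf (nat_lit 9120) (nat_lit 6) (nat_lit 120) (nat_lit 4) (nat_lit 115) (nat_lit 168) (nat_lit 167)) (PT.nd (nat_lit 78) (PT.lf (nat_lit 9424) (nat_lit 6) (nat_lit 124) (nat_lit 4) (nat_lit 116) (nat_lit 168) (nat_lit 166)) (PT.lf (nat_lit 9728) (nat_lit 6) (nat_lit 128) (nat_lit 4) (nat_lit 117) (nat_lit 168) (nat_lit 165)))) (PT.nd (nat_lit 156) (PT.nd (nat_lit 78) (PT.lf (nat_lit 10032) (nat_lit 6) (nat_lit 132) (nat_lit 4) (nat_lit 118) (nat_lit 168) (nat_lit 164)) (PT.lf (nat_lit 10412) (nat_lit 6) (nat_lit 137) (nat_lit 4) (nat_lit 119) (nat_lit 168) (nat_lit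 163))) (PT.nd (nat_lit 78) (PT.lf (nat_lit 10716) (nat_lit 6) (nat_lit 141) (nat_lit 4) (nat_lit 120) (nat_lit 168) (nat_lit 162)) (PT.lf (nat_lit 11096) (nat_lit 6) (nat_lit 146) (nat_lit 4) (nat_lit 121) (nat_lit 168) (nat_lit 161))))) (PT.nd (nat_lit 312) (PT.nd (nat_lit 156) (PT.nd (nat_lit 78) (PT.lf (nat_lit 11476) (nat_lit 6) (nat_lit 151) (nat_lit 4) (nat_lit 122) (nat_lit 168) (nat_lit 160)) (PT.lf (nat_lit 11932) (nat_lit 6) (nat_lit 157) (nat_lit 4) (nat_lit 123) (nat_lit 168) (nat_lit 159))) (PT.nd (nat_lit 78) (PT.lf (nat_lit 12312) (nat_lit 6) (nat_lit 162) (nat_lit 4) (nat_lit 124) (nat_lit 168) (nat_lit 158)) (PT.lf (nat_lit 12768) (nat_lit 6) (nat_lit 168) (nat_lit 4) (nat_lit 125) (nat_lit 168) (nat_lit 157)))) (PT.nd (nat_lit 2418) (PT.nd (nat_lit 2340) (PT.lf (nat_lit 13224) (nat_lit 6) (nat_lit 174) (nat_lit 4) (nat_lit 126) (nat_lit 168) (nat_lit 156)) (PT.lf (nat_lit 13224)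 (nat_lit 6) (nat_lit 174) (nat_lit 2) (nat_lit 156) (nat_lit 168) (nat_lit 126))) (PT.nd (nat_lit 78) (PT.lf (nat_lit 12768) (nat_lit 6) (nat_lit 168) (nat_lit 2) (nat_lit 157) (nat_lit 168) (nat_lit 125)) (PT.lf (nat_lit 12312) (nat_lit 6) (nat_lit 162) (nat_lit 2) (nat_lit 158) (nat_lit 168) (nat_lit 124)))))) (PT.nd (nat_lit 546) (PT.nd (nat_lit 234) (PT.nd (nat_lit 78) (PT.lf (nat_lit 11932) (nat_lit 6) (nat_lit 157) (nat_lit 2) (nat_lit 159) (nat_lit 168) (nat_lit 123)) (PT.nd (nat_lit 78) (PT.lf (nat_lit 11476) (nat_lit 6) (nat_lit 151) (nat_lit 2) (nat_lit 160) (nat_lit 168) (nat_lit 122)) (PT.lf (nat_lit 11096) (nat_lit 6) (nat_lit 146) (nat_lit 2) (nat_lit 161) (nat_lit 168) (nat_lit 121)))) (PT.nd (nat_lit 156) (PT.nd (nat_lit 78) (PT.lf (nat_lit 10716) (nat_lit 6) (nat_lit 141) (nat_lit 2) (nat_lit 162) (nat_lit 168) (nat_lit 120)) (PT.lf (nat_lit 10412) (nat_lit 6) (nat_lit 137) (nat_lit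 2) (nat_lit 163) (nat_lit 168) (nat_lit 119))) (PT.nd (nat_lit 78) (PT.lf (nat_lit 10032) (nat_lit 6) (nat_lit 132) (nat_lit 2) (nat_lit 164) (nat_lit 168) (nat_lit 118)) (PT.lf (nat_lit 9728) (nat_lit 6) (nat_lit 128) (nat_lit 2) (nat_lit 165) (nat_lit 168) (nat_lit 117))))) (PT.nd (nat_lit 312) (PT.nd (nat_lit 156) (PT.nd (nat_lit 78) (PT.lf (nat_lit 9424) (nat_lit 6) (nat_lit 124) (nat_lit 2) (nat_lit 166) (nat_lit 168) (nat_lit 116)) (PT.lf (nat_lit 9120) (nat_lit 6) (nat_lit 120) (nat_lit 2) (nat_lit 167) (nat_lit 168) (nat_lit 115))) (PT.nd (nat_lit 78) (PT.lf (nat_lit 8816) (nat_lit 3) (nat_lit 116) (nat_lit 0) (nat_lit 168) (nat_lit 168) (nat_lit 114)) (PT.lf (nat_lit 8436) (nat_lit 6) (nat_lit 111) (nat_lit 0) (nat_lit 169) (nat_lit 168) (nat_lit 113)))) (PT.nd (nat_lit 156) (PT.nd (nat_lit 78) (PT.lf (nat_lit 8056) (nat_lit 6) (nat_lit 106) (nat_lit 0) (nat_lit 170) (nat_lit 168) (nat_lit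 112)) (PT.lf (nat_lit 7752) (nat_lit 6) (nat_lit 102) (nat_lit 0) (nat_lit 171) (nat_lit 168) (nat_lit 111))) (PT.nd (nat_lit 78) (PT.lf (nat_lit 7372) (nat_lit 6) (nat_lit 97) (nat_lit 0) (nat_lit 172) (nat_lit 168) (nat_lit 110)) (PT.lf (nat_lit 7068) (nat_lit 6) (nat_lit 93) (nat_lit 0) (nat_lit 173) (nat_lit 168) (nat_lit 109))))))) (PT.nd (nat_lit 42744) (PT.nd (nat_lit 42120) (PT.nd (nat_lit 41808) (PT.nd (nat_lit 41652) (PT.lf (nat_lit 6764) (nat_lit 6) (nat_lit 89) (nat_lit 0) (nat_lit 174) (nat_lit 168) (nat_lit 108)) (PT.nd (nat_lit 78) (PT.lf (nat_lit 6536) (nat_lit 6) (nat_lit 86) (nat_lit 5) (nat_lit 107) (nat_lit 169) (nat_lit 174)) (PT.lf (nat_lit 6840) (nat_lit 6) (nat_lit 90) (nat_lit 5) (nat_lit 108) (nat_lit 169) (nat_lit 173)))) (PT.nd (nat_lit 156) (PT.nd (nat_lit 78) (PT.lf (nat_lit 7144) (nat_lit 6) (nat_lit 94) (nat_lit 5) (nat_lit 109) (nat_lit 169) (nat_lit 172)) (PT.lf (nat_lit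 7448) (nat_lit 6) (nat_lit 98) (nat_lit 5) (nat_lit 110) (nat_lit 169) (nat_lit 171))) (PT.nd (nat_lit 78) (PT.lf (nat_lit 7828) (nat_lit 6) (nat_lit 103) (nat_lit 5) (nat_lit 111) (nat_lit 169) (nat_lit 170)) (PT.lf (nat_lit 8132) (nat_lit 3) (nat_lit 107) (nat_lit 4) (nat_lit 112) (nat_lit 169) (nat_lit 169))))) (PT.nd (nat_lit 312) (PT.nd (nat_lit 156) (PT.nd (nat_lit 78) (PT.lf (nat_lit 8436) (nat_lit 6) (nat_lit 111) (nat_lit 4) (nat_lit 113) (nat_lit 169) (nat_lit 168)) (PT.lf (nat_lit 8740) (nat_lit 6) (nat_lit 115) (nat_lit 4) (nat_lit 114) (nat_lit 169) (nat_lit 167))) (PT.nd (nat_lit 78) (PT.lf (nat_lit 9044) (nat_lit 6) (nat_lit 119) (nat_lit 4) (nat_lit 115) (nat_lit 169) (nat_lit 166)) (PT.lf (nat_lit 9348) (nat_lit 6) (nat_lit 123) (nat_lit 4) (nat_lit 116) (nat_lit 169) (nat_lit 165)))) (PT.nd (nat_lit 156) (PT.nd (nat_lit 78) (PT.lf (nat_lit 9652) (nat_lit 6) (nat_lit 127) (nat_lit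 4) (nat_lit 117) (nat_lit 169) (nat_lit 164)) (PT.lf (nat_lit 9956) (nat_lit 6) (nat_lit 131) (nat_lit 4) (nat_lit 118) (nat_lit 169) (nat_lit 163))) (PT.nd (nat_lit 78) (PT.lf (nat_lit 10336) (nat_lit 6) (nat_lit 136) (nat_lit 4) (nat_lit 119) (nat_lit 169) (nat_lit 162)) (PT.lf (nat_lit 10640) (nat_lit 6) (nat_lit 140) (nat_lit 4) (nat_lit 120) (nat_lit 169) (nat_lit 161)))))) (PT.nd (nat_lit 3198) (PT.nd (nat_lit 2886) (PT.nd (nat_lit 78) (PT.lf (nat_lit 11020) (nat_lit 6) (nat_lit 145) (nat_lit 4) (nat_lit 121) (nat_lit 169) (nat_lit 160)) (PT.nd (nat_lit 78) (PT.lf (nat_lit 11400) (nat_lit 6) (nat_lit 150) (nat_lit 4) (nat_lit 122) (nat_lit 169) (nat_lit 159)) (PT.lf (nat_lit 11856) (nat_lit 6) (nat_lit 156) (nat_lit 4) (nat_lit 123) (nat_lit 169) (nat_lit 158)))) (PT.nd (nat_lit 156) (PT.nd (nat_lit 78) (PT.lf (nat_lit 11856) (nat_lit 6) (nat_lit 156) (nat_lit 2) (nat_lit 158) (nat_lit 169)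 (nat_lit 123)) (PT.lf (nat_lit 11400) (nat_lit 6) (nat_lit 150) (nat_lit 2) (nat_lit 159) (nat_lit 169) (nat_lit 122))) (PT.nd (nat_lit 78) (PT.lf (nat_lit 11020) (nat_lit 6) (nat_lit 145) (nat_lit 2) (nat_lit 160) (nat_lit 169) (nat_lit 121)) (PT.lf (nat_lit 10640) (nat_lit 6) (nat_lit 140) (nat_lit 2) (nat_lit 161) (nat_lit 169) (nat_lit 120))))) (PT.nd (nat_lit 312) (PT.nd (nat_lit 156) (PT.nd (nat_lit 78) (PT.lf (nat_lit 10336) (nat_lit 6) (nat_lit 136) (nat_lit 2) (nat_lit 162) (nat_lit 169) (nat_lit 119)) (PT.lf (nat_lit 9956) (nat_lit 6) (nat_lit 131) (nat_lit 2) (nat_lit 163) (nat_lit 169) (nat_lit 118))) (PT.nd (nat_lit 78) (PT.lf (nat_lit 9652) (nat_lit 6) (nat_lit 127) (nat_lit 2) (nat_lit 164) (nat_lit 169) (nat_lit 117)) (PT.lf (nat_lit 9348) (nat_lit 6) (nat_lit 123) (nat_lit 2) (nat_lit 165) (nat_lit 169) (nat_lit 116)))) (PT.nd (nat_lit 156) (PT.nd (nat_lit 78) (PT.lf (nat_lit 9044)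 (nat_lit 6) (nat_lit 119) (nat_lit 2) (nat_lit 166) (nat_lit 169) (nat_lit 115)) (PT.lf (nat_lit 8740) (nat_lit 6) (nat_lit 115) (nat_lit 2) (nat_lit 167) (nat_lit 169) (nat_lit 114))) (PT.nd (nat_lit 78) (PT.lf (nat_lit 8436) (nat_lit 6) (nat_lit 111) (nat_lit 2) (nat_lit 168) (nat_lit 169) (nat_lit 113)) (PT.lf (nat_lit 8132) (nat_lit 3) (nat_lit 107) (nat_lit 0) (nat_lit 169) (nat_lit 169) (nat_lit 112))))))))
noncomputable def pc28 : PT := (PT.nd (nat_lit 46878) (PT.nd (nat_lit 42510) (PT.nd (nat_lit 41964) (PT.nd (nat_lit 234) (PT.nd (nat_lit 78) (PT.lf (nat_lit 7828) (nat_lit 6) (nat_lit 103) (nat_lit 0) (nat_lit 170) (nat_lit 169) (nat_lit 111)) (PT.nd (nat_lit 78) (PT.lf (nat_lit 7448) (nat_lit 6) (nat_lit 98) (nat_lit 0) (nat_lit 171) (nat_lit 169) (nat_lit 110)) (PT.lf (nat_lit 7144) (nat_lit 6) (nat_lit 94) (nat_lit 0) (nat_lit 172) (nat_lit 169) (nat_lit 109)))) (PT.nd (nat_lit 41574)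 (PT.nd (nat_lit 78) (PT.lf (nat_lit 6840) (nat_lit 6) (nat_lit 90) (nat_lit 0) (nat_lit 173) (nat_lit 169) (nat_lit 108)) (PT.lf (nat_lit 6536) (nat_lit 6) (nat_lit 86) (nat_lit 0) (nat_lit 174) (nat_lit 169) (nat_lit 107))) (PT.nd (nat_lit 78) (PT.lf (nat_lit 6080) (nat_lit 6) (nat_lit 80) (nat_lit 5) (nat_lit 105) (nat_lit 170) (nat_lit 175)) (PT.lf (nat_lit 6308) (nat_lit 6) (nat_lit 83) (nat_lit 5) (nat_lit 106) (nat_lit 170) (nat_lit 174))))) (PT.nd (nat_lit 234) (PT.nd (nat_lit 78) (PT.lf (nat_lit 6612) (nat_lit 6) (nat_lit 87) (nat_lit 5) (nat_lit 107) (nat_lit 170) (nat_lit 173)) (PT.nd (nat_lit 78) (PT.lf (nat_lit 6916) (nat_lit 6) (nat_lit 91) (nat_lit 5) (nat_lit 108) (nat_lit 170) (nat_lit 172)) (PT.lf (nat_lit 7220) (nat_lit 6) (nat_lit 95) (nat_lit 5) (nat_lit 109) (nat_lit 170) (nat_lit 171)))) (PT.nd (nat_lit 156) (PT.nd (nat_lit 78) (PT.lf (nat_lit 7524) (nat_lit 3) (nat_lit 99) (nat_lit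 4) (nat_lit 110) (nat_lit 170) (nat_lit 170)) (PT.lf (nat_lit 7828) (nat_lit 6) (nat_lit 103) (nat_lit 4) (nat_lit 111) (nat_lit 170) (nat_lit 169))) (PT.nd (nat_lit 78) (PT.lf (nat_lit 8056) (nat_lit 6) (nat_lit 106) (nat_lit 4) (nat_lit 112) (nat_lit 170) (nat_lit 168)) (PT.lf (nat_lit 8360) (nat_lit 6) (nat_lit 110) (nat_lit 4) (nat_lit 113) (nat_lit 170) (nat_lit 167)))))) (PT.nd (nat_lit 3744) (PT.nd (nat_lit 234) (PT.nd (nat_lit 78) (PT.lf (nat_lit 8664) (nat_lit 6) (nat_lit 114) (nat_lit 4) (nat_lit 114) (nat_lit 170) (nat_lit 166)) (PT.nd (nat_lit 78) (PT.lf (nat_lit 8968) (nat_lit 6) (nat_lit 118) (nat_lit 4) (nat_lit 115) (nat_lit 170) (nat_lit 165)) (PT.lf (nat_lit 9272) (nat_lit 6) (nat_lit 122) (nat_lit 4) (nat_lit 116) (nat_lit 170) (nat_lit 164)))) (PT.nd (nat_lit 156) (PT.nd (nat_lit 78) (PT.lf (nat_lit 9576) (nat_lit 6) (nat_lit 126) (nat_lit 4) (nat_lit 117) (nat_lit 170) (nat_lit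 163)) (PT.lf (nat_lit 9880) (nat_lit 6) (nat_lit 130) (nat_lit 4) (nat_lit 118) (nat_lit 170) (nat_lit 162))) (PT.nd (nat_lit 3276) (PT.lf (nat_lit 10260) (nat_lit 6) (nat_lit 135) (nat_lit 4) (nat_lit 119) (nat_lit 170) (nat_lit 161)) (PT.lf (nat_lit 10260) (nat_lit 6) (nat_lit 135) (nat_lit 2) (nat_lit 161) (nat_lit 170) (nat_lit 119))))) (PT.nd (nat_lit 312) (PT.nd (nat_lit 156) (PT.nd (nat_lit 78) (PT.lf (nat_lit 9880) (nat_lit 6) (nat_lit 130) (nat_lit 2) (nat_lit 162) (nat_lit 170) (nat_lit 118)) (PT.lf (nat_lit 9576) (nat_lit 6) (nat_lit 126) (nat_lit 2) (nat_lit 163) (nat_lit 170) (nat_lit 117))) (PT.nd (nat_lit 78) (PT.lf (nat_lit 9272) (nat_lit 6) (nat_lit 122) (nat_lit 2) (nat_lit 164) (nat_lit 170) (nat_lit 116)) (PT.lf (nat_lit 8968) (nat_lit 6) (nat_lit 118) (nat_lit 2) (nat_lit 165) (nat_lit 170) (nat_lit 115)))) (PT.nd (nat_lit 156) (PT.nd (nat_lit 78) (PT.lf (nat_lit 8664) (nat_lit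 6) (nat_lit 114) (nat_lit 2) (nat_lit 166) (nat_lit 170) (nat_lit 114)) (PT.lf (nat_lit 8360) (nat_lit 6) (nat_lit 110) (nat_lit 2) (nat_lit 167) (nat_lit 170) (nat_lit 113))) (PT.nd (nat_lit 78) (PT.lf (nat_lit 8056) (nat_lit 6) (nat_lit 106) (nat_lit 2) (nat_lit 168) (nat_lit 170) (nat_lit 112)) (PT.lf (nat_lit 7828) (nat_lit 6) (nat_lit 103) (nat_lit 2) (nat_lit 169) (nat_lit 170) (nat_lit 111))))))) (PT.nd (nat_lit 42432) (PT.nd (nat_lit 41808) (PT.nd (nat_lit 234) (PT.nd (nat_lit 78) (PT.lf (nat_lit 7524) (nat_lit 3) (nat_lit 99) (nat_lit 0) (nat_lit 170) (nat_lit 170) (nat_lit 110)) (PT.nd (nat_lit 78) (PT.lf (nat_lit 7220) (nat_lit 6) (nat_lit 95) (nat_lit 0) (nat_lit 171) (nat_lit 170) (nat_lit 109)) (PT.lf (nat_lit 6916) (nat_lit 6) (nat_lit 91) (nat_lit 0) (nat_lit 172) (nat_lit 170) (nat_lit 108)))) (PT.nd (nat_lit 156) (PT.nd (nat_lit 78) (PT.lf (nat_lit 6612) (nat_lit 6) (nat_lit 87)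 (nat_lit 0) (nat_lit 173) (nat_lit 170) (nat_lit 107)) (PT.lf (nat_lit 6308) (nat_lit 6) (nat_lit 83) (nat_lit 0) (nat_lit 174) (nat_lit 170) (nat_lit 106))) (PT.nd (nat_lit 41340) (PT.lf (nat_lit 6080) (nat_lit 6) (nat_lit 80) (nat_lit 0) (nat_lit 175) (nat_lit 170) (nat_lit 105)) (PT.lf (nat_lit 5852) (nat_lit 6) (nat_lit 77) (nat_lit 5) (nat_lit 104) (nat_lit 171) (nat_lit 175))))) (PT.nd (nat_lit 312) (PT.nd (nat_lit 156) (PT.nd (nat_lit 78) (PT.lf (nat_lit 6156) (nat_lit 6) (nat_lit 81) (nat_lit 5) (nat_lit 105) (nat_lit 171) (nat_lit 174)) (PT.lf (nat_lit 6384) (nat_lit 6) (nat_lit 84) (nat_lit 5) (nat_lit 106) (nat_lit 171) (nat_lit 173))) (PT.nd (nat_lit 78) (PT.lf (nat_lit 6688) (nat_lit 6) (nat_lit 88) (nat_lit 5) (nat_lit 107) (nat_lit 171) (nat_lit 172)) (PT.lf (nat_lit 6992) (nat_lit 3) (nat_lit 92) (nat_lit 4) (nat_lit 108) (nat_lit 171) (nat_lit 171)))) (PT.nd (nat_lit 156) (PT.nd (nat_lit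 78) (PT.lf (nat_lit 7220) (nat_lit 6) (nat_lit 95) (nat_lit 4) (nat_lit 109) (nat_lit 171) (nat_lit 170)) (PT.lf (nat_lit 7448) (nat_lit 6) (nat_lit 98) (nat_lit 4) (nat_lit 110) (nat_lit 171) (nat_lit 169))) (PT.nd (nat_lit 78) (PT.lf (nat_lit 7752) (nat_lit 6) (nat_lit 102) (nat_lit 4) (nat_lit 111) (nat_lit 171) (nat_lit 168)) (PT.lf (nat_lit 7980) (nat_lit 6) (nat_lit 105) (nat_lit 4) (nat_lit 112) (nat_lit 171) (nat_lit 167)))))) (PT.nd (nat_lit 4134) (PT.nd (nat_lit 234) (PT.nd (nat_lit 78) (PT.lf (nat_lit 8284) (nat_lit 6) (nat_lit 109) (nat_lit 4) (nat_lit 113) (nat_lit 171) (nat_lit 166)) (PT.nd (nat_lit 78) (PT.lf (nat_lit 8588) (nat_lit 6) (nat_lit 113) (nat_lit 4) (nat_lit 114) (nat_lit 171) (nat_lit 165)) (PT.lf (nat_lit 8892) (nat_lit 6) (nat_lit 117) (nat_lit 4) (nat_lit 115) (nat_lit 171) (nat_lit 164)))) (PT.nd (nat_lit 3744) (PT.nd (nat_lit 3666) (PT.lf (nat_lit 9196) (nat_lit 6)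 (nat_lit 121) (nat_lit 4) (nat_lit 116) (nat_lit 171) (nat_lit 163)) (PT.lf (nat_lit 9196) (nat_lit 6) (nat_lit 121) (nat_lit 2) (nat_lit 163) (nat_lit 171) (nat_lit 116))) (PT.nd (nat_lit 78) (PT.lf (nat_lit 8892) (nat_lit 6) (nat_lit 117) (nat_lit 2) (nat_lit 164) (nat_lit 171) (nat_lit 115)) (PT.lf (nat_lit 8588) (nat_lit 6) (nat_lit 113) (nat_lit 2) (nat_lit 165) (nat_lit 171) (nat_lit 114))))) (PT.nd (nat_lit 312) (PT.nd (nat_lit 156) (PT.nd (nat_lit 78) (PT.lf (nat_lit 8284) (nat_lit 6) (nat_lit 109) (nat_lit 2) (nat_lit 166) (nat_lit 171) (nat_lit 113)) (PT.lf (nat_lit 7980) (nat_lit 6) (nat_lit 105) (nat_lit 2) (nat_lit 167) (nat_lit 171) (nat_lit 112))) (PT.nd (nat_lit 78) (PT.lf (nat_lit 7752) (nat_lit 6) (nat_lit 102) (nat_lit 2) (nat_lit 168) (nat_lit 171) (nat_lit 111)) (PT.lf (nat_lit 7448) (nat_lit 6) (nat_lit 98) (nat_lit 2) (nat_lit 169) (nat_lit 171) (nat_lit 110)))) (PT.nd (nat_lit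 156) (PT.nd (nat_lit 78) (PT.lf (nat_lit 7220) (nat_lit 6) (nat_lit 95) (nat_lit 2) (nat_lit 170) (nat_lit 171) (nat_lit 109)) (PT.lf (nat_lit 6992) (nat_lit 3) (nat_lit 92) (nat_lit 0) (nat_lit 171) (nat_lit 171) (nat_lit 108))) (PT.nd (nat_lit 78) (PT.lf (nat_lit 6688) (nat_lit 6) (nat_lit 88) (nat_lit 0) (nat_lit 172) (nat_lit 171) (nat_lit 107)) (PT.lf (nat_lit 6384) (nat_lit 6) (nat_lit 84) (nat_lit 0) (nat_lit 173) (nat_lit 171) (nat_lit 106))))))))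
noncomputable def pc29 : PT := (PT.nd (nat_lit 88218) (PT.nd (nat_lit 46176) (PT.nd (nat_lit 41652) (PT.nd (nat_lit 41340) (PT.nd (nat_lit 78) (PT.lf (nat_lit 6156) (nat_lit 6) (nat_lit 81) (nat_lit 0) (nat_lit 174) (nat_lit 171) (nat_lit 105)) (PT.nd (nat_lit 41184) (PT.lf (nat_lit 5852) (nat_lit 6) (nat_lit 77) (nat_lit 0) (nat_lit 175) (nat_lit 171) (nat_lit 104)) (PT.lf (nat_lit 5396) (nat_lit 6) (nat_lit 71) (nat_lit 5) (nat_lit 102) (nat_lit 172) (nat_lit 176)))) (PT.nd (nat_lit 156) (PT.nd (nat_lit 78) (PT.lf (nat_lit 5700) (nat_lit 6) (nat_lit 75) (nat_lit 5) (nat_lit 103) (nat_lit 172) (nat_lit 175)) (PT.lf (nat_lit 5928) (nat_lit 6) (nat_lit 78) (nat_lit 5) (nat_lit 104) (nat_lit 172) (nat_lit 174))) (PT.nd (nat_lit 78) (PT.lf (nat_lit 6232) (nat_lit 6) (nat_lit 82) (nat_lit 5) (nat_lit 105) (nat_lit 172) (nat_lit 173)) (PT.lf (nat_lit 6460) (nat_lit 3) (nat_lit 85) (nat_lit 4) (nat_lit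 106) (nat_lit 172) (nat_lit 172))))) (PT.nd (nat_lit 234) (PT.nd (nat_lit 78) (PT.lf (nat_lit 6688) (nat_lit 6) (nat_lit 88) (nat_lit 4) (nat_lit 107) (nat_lit 172) (nat_lit 171)) (PT.nd (nat_lit 78) (PT.lf (nat_lit 6916) (nat_lit 6) (nat_lit 91) (nat_lit 4) (nat_lit 108) (nat_lit 172) (nat_lit 170)) (PT.lf (nat_lit 7144) (nat_lit 6) (nat_lit 94) (nat_lit 4) (nat_lit 109) (nat_lit 172) (nat_lit 169)))) (PT.nd (nat_lit 156) (PT.nd (nat_lit 78) (PT.lf (nat_lit 7372) (nat_lit 6) (nat_lit 97) (nat_lit 4) (nat_lit 110) (nat_lit 172) (nat_lit 168)) (PT.lf (nat_lit 7676) (nat_lit 6) (nat_lit 101) (nat_lit 4) (nat_lit 111) (nat_lit 172) (nat_lit 167))) (PT.nd (nat_lit 78) (PT.lf (nat_lit 7904) (nat_lit 6) (nat_lit 104) (nat_lit 4) (nat_lit 112) (nat_lit 172) (nat_lit 166)) (PT.lf (nat_lit 8208) (nat_lit 6) (nat_lit 108) (nat_lit 4) (nat_lit 113) (nat_lit 172) (nat_lit 165)))))) (PT.nd (nat_lit 546) (PT.nd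 (nat_lit 234) (PT.nd (nat_lit 78) (PT.lf (nat_lit 8208) (nat_lit 6) (nat_lit 108) (nat_lit 2) (nat_lit 165) (nat_lit 172) (nat_lit 113)) (PT.nd (nat_lit 78) (PT.lf (nat_lit 7904) (nat_lit 6) (nat_lit 104) (nat_lit 2) (nat_lit 166) (nat_lit 172) (nat_lit 112)) (PT.lf (nat_lit 7676) (nat_lit 6) (nat_lit 101) (nat_lit 2) (nat_lit 167) (nat_lit 172) (nat_lit 111)))) (PT.nd (nat_lit 156) (PT.nd (nat_lit 78) (PT.lf (nat_lit 7372) (nat_lit 6) (nat_lit 97) (nat_lit 2) (nat_lit 168) (nat_lit 172) (nat_lit 110)) (PT.lf (nat_lit 7144) (nat_lit 6) (nat_lit 94) (nat_lit 2) (nat_lit 169) (nat_lit 172) (nat_lit 109))) (PT.nd (nat_lit 78) (PT.lf (nat_lit 6916) (nat_lit 6) (nat_lit 91) (nat_lit 2) (nat_lit 170) (nat_lit 172) (nat_lit 108)) (PT.lf (nat_lit 6688) (nat_lit 6) (nat_lit 88) (nat_lit 2) (nat_lit 171) (nat_lit 172) (nat_lit 107))))) (PT.nd (nat_lit 312) (PT.nd (nat_lit 156) (PT.nd (nat_lit 78) (PT.lf (nat_lit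 6460) (nat_lit 3) (nat_lit 85) (nat_lit 0) (nat_lit 172) (nat_lit 172) (nat_lit 106)) (PT.lf (nat_lit 6232) (nat_lit 6) (nat_lit 82) (nat_lit 0) (nat_lit 173) (nat_lit 172) (nat_lit 105))) (PT.nd (nat_lit 78) (PT.lf (nat_lit 5928) (nat_lit 6) (nat_lit 78) (nat_lit 0) (nat_lit 174) (nat_lit 172) (nat_lit 104)) (PT.lf (nat_lit 5700) (nat_lit 6) (nat_lit 75) (nat_lit 0) (nat_lit 175) (nat_lit 172) (nat_lit 103)))) (PT.nd (nat_lit 41028) (PT.nd (nat_lit 40950) (PT.lf (nat_lit 5396) (nat_lit 6) (nat_lit 71) (nat_lit 0) (nat_lit 176) (nat_lit 172) (nat_lit 102)) (PT.lf (nat_lit 4940) (nat_lit 6) (nat_lit 65) (nat_lit 5) (nat_lit 100) (nat_lit 173) (nat_lit 177))) (PT.nd (nat_lit 78) (PT.lf (nat_lit 5244) (nat_lit 6) (nat_lit 69) (nat_lit 5) (nat_lit 101) (nat_lit 173) (nat_lit 176)) (PT.lf (nat_lit 5472) (nat_lit 6) (nat_lit 72) (nat_lit 5) (nat_lit 102) (nat_lit 173) (nat_lit 175))))))) (PT.nd (nat_lit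 5538) (PT.nd (nat_lit 546) (PT.nd (nat_lit 234) (PT.nd (nat_lit 78) (PT.lf (nat_lit 5776) (nat_lit 6) (nat_lit 76) (nat_lit 5) (nat_lit 103) (nat_lit 173) (nat_lit 174)) (PT.nd (nat_lit 78) (PT.lf (nat_lit 6004) (nat_lit 3) (nat_lit 79) (nat_lit 4) (nat_lit 104) (nat_lit 173) (nat_lit 173)) (PT.lf (nat_lit 6232) (nat_lit 6) (nat_lit 82) (nat_lit 4) (nat_lit 105) (nat_lit 173) (nat_lit 172)))) (PT.nd (nat_lit 156) (PT.nd (nat_lit 78) (PT.lf (nat_lit 6384) (nat_lit 6) (nat_lit 84) (nat_lit 4) (nat_lit 106) (nat_lit 173) (nat_lit 171)) (PT.lf (nat_lit 6612) (nat_lit 6) (nat_lit 87) (nat_lit 4) (nat_lit 107) (nat_lit 173) (nat_lit 170))) (PT.nd (nat_lit 78) (PT.lf (nat_lit 6840) (nat_lit 6) (nat_lit 90) (nat_lit 4) (nat_lit 108) (nat_lit 173) (nat_lit 169)) (PT.lf (nat_lit 7068) (nat_lit 6) (nat_lit 93) (nat_lit 4) (nat_lit 109) (nat_lit 173) (nat_lit 168))))) (PT.nd (nat_lit 4680) (PT.nd (nat_lit 4524)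 (PT.nd (nat_lit 4446) (PT.lf (nat_lit 7296) (nat_lit 6) (nat_lit 96) (nat_lit 4) (nat_lit 110) (nat_lit 173) (nat_lit 167)) (PT.lf (nat_lit 7296) (nat_lit 6) (nat_lit 96) (nat_lit 2) (nat_lit 167) (nat_lit 173) (nat_lit 110))) (PT.nd (nat_lit 78) (PT.lf (nat_lit 7068) (nat_lit 6) (nat_lit 93) (nat_lit 2) (nat_lit 168) (nat_lit 173) (nat_lit 109)) (PT.lf (nat_lit 6840) (nat_lit 6) (nat_lit 90) (nat_lit 2) (nat_lit 169) (nat_lit 173) (nat_lit 108)))) (PT.nd (nat_lit 156) (PT.nd (nat_lit 78) (PT.lf (nat_lit 6612) (nat_lit 6) (nat_lit 87) (nat_lit 2) (nat_lit 170) (nat_lit 173) (nat_lit 107)) (PT.lf (nat_lit 6384) (nat_lit 6) (nat_lit 84) (nat_lit 2) (nat_lit 171) (nat_lit 173) (nat_lit 106))) (PT.nd (nat_lit 78) (PT.lf (nat_lit 6232) (nat_lit 6) (nat_lit 82) (nat_lit 2) (nat_lit 172) (nat_lit 173) (nat_lit 105)) (PT.lf (nat_lit 6004) (nat_lit 3) (nat_lit 79) (nat_lit 0) (nat_lit 173) (nat_lit 173) (nat_lit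 104)))))) (PT.nd (nat_lit 41184) (PT.nd (nat_lit 234) (PT.nd (nat_lit 78) (PT.lf (nat_lit 5776) (nat_lit 6) (nat_lit 76) (nat_lit 0) (nat_lit 174) (nat_lit 173) (nat_lit 103)) (PT.nd (nat_lit 78) (PT.lf (nat_lit 5472) (nat_lit 6) (nat_lit 72) (nat_lit 0) (nat_lit 175) (nat_lit 173) (nat_lit 102)) (PT.lf (nat_lit 5244) (nat_lit 6) (nat_lit 69) (nat_lit 0) (nat_lit 176) (nat_lit 173) (nat_lit 101)))) (PT.nd (nat_lit 40794) (PT.nd (nat_lit 40716) (PT.lf (nat_lit 4940) (nat_lit 6) (nat_lit 65) (nat_lit 0) (nat_lit 177) (nat_lit 173) (nat_lit 100)) (PT.lf (nat_lit 4560) (nat_lit 6) (nat_lit 60) (nat_lit 5) (nat_lit 98) (nat_lit 174) (nat_lit 178))) (PT.nd (nat_lit 78) (PT.lf (nat_lit 4788) (nat_lit 6) (nat_lit 63) (nat_lit 5) (nat_lit 99) (nat_lit 174) (nat_lit 177)) (PT.lf (nat_lit 5016) (nat_lit 6) (nat_lit 66) (nat_lit 5) (nat_lit 100) (nat_lit 174) (nat_lit 176))))) (PT.nd (nat_lit 312) (PT.nd (nat_lit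 156) (PT.nd (nat_lit 78) (PT.lf (nat_lit 5320) (nat_lit 6) (nat_lit 70) (nat_lit 5) (nat_lit 101) (nat_lit 174) (nat_lit 175)) (PT.lf (nat_lit 5548) (nat_lit 3) (nat_lit 73) (nat_lit 4) (nat_lit 102) (nat_lit 174) (nat_lit 174))) (PT.nd (nat_lit 78) (PT.lf (nat_lit 5776) (nat_lit 6) (nat_lit 76) (nat_lit 4) (nat_lit 103) (nat_lit 174) (nat_lit 173)) (PT.lf (nat_lit 5928) (nat_lit 6) (nat_lit 78) (nat_lit 4) (nat_lit 104) (nat_lit 174) (nat_lit 172)))) (PT.nd (nat_lit 156) (PT.nd (nat_lit 78) (PT.lf (nat_lit 6156) (nat_lit 6) (nat_lit 81) (nat_lit 4) (nat_lit 105) (nat_lit 174) (nat_lit 171)) (PT.lf (nat_lit 6308) (nat_lit 6) (nat_lit 83) (nat_lit 4) (nat_lit 106) (nat_lit 174) (nat_lit 170))) (PT.nd (nat_lit 78) (PT.lf (nat_lit 6536) (nat_lit 6) (nat_lit 86) (nat_lit 4) (nat_lit 107) (nat_lit 174) (nat_lit 169)) (PT.lf (nat_lit 6764) (nat_lit 6) (nat_lit 89) (nat_lit 4) (nat_lit 108) (nat_lit 174)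 (nat_lit 168))))))))
noncomputable def pc30 : PT := (PT.nd (nat_lit 88062) (PT.nd (nat_lit 41574) (PT.nd (nat_lit 546) (PT.nd (nat_lit 234) (PT.nd (nat_lit 78) (PT.lf (nat_lit 6764) (nat_lit 6) (nat_lit 89) (nat_lit 2) (nat_lit 168) (nat_lit 174) (nat_lit 108)) (PT.nd (nat_lit 78) (PT.lf (nat_lit 6536) (nat_lit 6) (nat_lit 86) (nat_lit 2) (nat_lit 169) (nat_lit 174) (nat_lit 107)) (PT.lf (nat_lit 6308) (nat_lit 6) (nat_lit 83) (nat_lit 2) (nat_lit 170) (nat_lit 174) (nat_lit 106)))) (PT.nd (nat_lit 156) (PT.nd (nat_lit 78) (PT.lf (nat_lit 6156) (nat_lit 6) (nat_lit 81) (nat_lit 2) (nat_lit 171) (nat_lit 174) (nat_lit 105)) (PT.lf (nat_lit 5928) (nat_lit 6) (nat_lit 78) (nat_lit 2) (nat_lit 172) (nat_lit 174) (nat_lit 104))) (PT.nd (nat_lit 78) (PT.lf (nat_lit 5776) (nat_lit 6) (nat_lit 76) (nat_lit 2) (nat_lit 173) (nat_lit 174) (nat_lit 103)) (PT.lf (nat_lit 5548) (nat_lit 3) (nat_lit 73) (nat_lit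 0) (nat_lit 174) (nat_lit 174) (nat_lit 102))))) (PT.nd (nat_lit 234) (PT.nd (nat_lit 78) (PT.lf (nat_lit 5320) (nat_lit 6) (nat_lit 70) (nat_lit 0) (nat_lit 175) (nat_lit 174) (nat_lit 101)) (PT.nd (nat_lit 78) (PT.lf (nat_lit 5016) (nat_lit 6) (nat_lit 66) (nat_lit 0) (nat_lit 176) (nat_lit 174) (nat_lit 100)) (PT.lf (nat_lit 4788) (nat_lit 6) (nat_lit 63) (nat_lit 0) (nat_lit 177) (nat_lit 174) (nat_lit 99)))) (PT.nd (nat_lit 40638) (PT.nd (nat_lit 40560) (PT.lf (nat_lit 4560) (nat_lit 6) (nat_lit 60) (nat_lit 0) (nat_lit 178) (nat_lit 174) (nat_lit 98)) (PT.lf (nat_lit 4408) (nat_lit 6) (nat_lit 58) (nat_lit 5) (nat_lit 97) (nat_lit 175) (nat_lit 178))) (PT.nd (nat_lit 78) (PT.lf (nat_lit 4636) (nat_lit 6) (nat_lit 61) (nat_lit 5) (nat_lit 98) (nat_lit 175) (nat_lit 177)) (PT.lf (nat_lit 4864) (nat_lit 6) (nat_lit 64) (nat_lit 5) (nat_lit 99) (nat_lit 175) (nat_lit 176)))))) (PT.nd (nat_lit 5538)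 (PT.nd (nat_lit 234) (PT.nd (nat_lit 78) (PT.lf (nat_lit 5092) (nat_lit 3) (nat_lit 67) (nat_lit 4) (nat_lit 100) (nat_lit 175) (nat_lit 175)) (PT.nd (nat_lit 78) (PT.lf (nat_lit 5320) (nat_lit 6) (nat_lit 70) (nat_lit 4) (nat_lit 101) (nat_lit 175) (nat_lit 174)) (PT.lf (nat_lit 5472) (nat_lit 6) (nat_lit 72) (nat_lit 4) (nat_lit 102) (nat_lit 175) (nat_lit 173)))) (PT.nd (nat_lit 156) (PT.nd (nat_lit 78) (PT.lf (nat_lit 5700) (nat_lit 6) (nat_lit 75) (nat_lit 4) (nat_lit 103) (nat_lit 175) (nat_lit 172)) (PT.lf (nat_lit 5852) (nat_lit 6) (nat_lit 77) (nat_lit 4) (nat_lit 104) (nat_lit 175) (nat_lit 171))) (PT.nd (nat_lit 5070) (PT.lf (nat_lit 6080) (nat_lit 6) (nat_lit 80) (nat_lit 4) (nat_lit 105) (nat_lit 175) (nat_lit 170)) (PT.lf (nat_lit 6080) (nat_lit 6) (nat_lit 80) (nat_lit 2) (nat_lit 170) (nat_lit 175) (nat_lit 105))))) (PT.nd (nat_lit 312) (PT.nd (nat_lit 156) (PT.nd (nat_lit 78) (PT.lf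 (nat_lit 5852) (nat_lit 6) (nat_lit 77) (nat_lit 2) (nat_lit 171) (nat_lit 175) (nat_lit 104)) (PT.lf (nat_lit 5700) (nat_lit 6) (nat_lit 75) (nat_lit 2) (nat_lit 172) (nat_lit 175) (nat_lit 103))) (PT.nd (nat_lit 78) (PT.lf (nat_lit 5472) (nat_lit 6) (nat_lit 72) (nat_lit 2) (nat_lit 173) (nat_lit 175) (nat_lit 102)) (PT.lf (nat_lit 5320) (nat_lit 6) (nat_lit 70) (nat_lit 2) (nat_lit 174) (nat_lit 175) (nat_lit 101)))) (PT.nd (nat_lit 156) (PT.nd (nat_lit 78) (PT.lf (nat_lit 5092) (nat_lit 3) (nat_lit 67) (nat_lit 0) (nat_lit 175) (nat_lit 175) (nat_lit 100)) (PT.lf (nat_lit 4864) (nat_lit 6) (nat_lit 64) (nat_lit 0) (nat_lit 176) (nat_lit 175) (nat_lit 99))) (PT.nd (nat_lit 78) (PT.lf (nat_lit 4636) (nat_lit 6) (nat_lit 61) (nat_lit 0) (nat_lit 177) (nat_lit 175) (nat_lit 98)) (PT.lf (nat_lit 4408) (nat_lit 6) (nat_lit 58) (nat_lit 0) (nat_lit 178) (nat_lit 175) (nat_lit 97))))))) (PT.nd (nat_lit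 6552) (PT.nd (nat_lit 546) (PT.nd (nat_lit 234) (PT.nd (nat_lit 78) (PT.lf (nat_lit 4028) (nat_lit 6) (nat_lit 53) (nat_lit 5) (nat_lit 95) (nat_lit 176) (nat_lit 179)) (PT.nd (nat_lit 78) (PT.lf (nat_lit 4256) (nat_lit 6) (nat_lit 56) (nat_lit 5) (nat_lit 96) (nat_lit 176) (nat_lit 178)) (PT.lf (nat_lit 4484) (nat_lit 6) (nat_lit 59) (nat_lit 5) (nat_lit 97) (nat_lit 176) (nat_lit 177)))) (PT.nd (nat_lit 156) (PT.nd (nat_lit 78) (PT.lf (nat_lit 4712) (nat_lit 3) (nat_lit 62) (nat_lit 4) (nat_lit 98) (nat_lit 176) (nat_lit 176)) (PT.lf (nat_lit 4864) (nat_lit 6) (nat_lit 64) (nat_lit 4) (nat_lit 99) (nat_lit 176) (nat_lit 175))) (PT.nd (nat_lit 78) (PT.lf (nat_lit 5016) (nat_lit 6) (nat_lit 66) (nat_lit 4) (nat_lit 100) (nat_lit 176) (nat_lit 174)) (PT.lf (nat_lit 5244) (nat_lit 6) (nat_lit 69) (nat_lit 4) (nat_lit 101) (nat_lit 176) (nat_lit 173))))) (PT.nd (nat_lit 5694) (PT.nd (nat_lit 5538) (PT.nd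 (nat_lit 5460) (PT.lf (nat_lit 5396) (nat_lit 6) (nat_lit 71) (nat_lit 4) (nat_lit 102) (nat_lit 176) (nat_lit 172)) (PT.lf (nat_lit 5396) (nat_lit 6) (nat_lit 71) (nat_lit 2) (nat_lit 172) (nat_lit 176) (nat_lit 102))) (PT.nd (nat_lit 78) (PT.lf (nat_lit 5244) (nat_lit 6) (nat_lit 69) (nat_lit 2) (nat_lit 173) (nat_lit 176) (nat_lit 101)) (PT.lf (nat_lit 5016) (nat_lit 6) (nat_lit 66) (nat_lit 2) (nat_lit 174) (nat_lit 176) (nat_lit 100)))) (PT.nd (nat_lit 156) (PT.nd (nat_lit 78) (PT.lf (nat_lit 4864) (nat_lit 6) (nat_lit 64) (nat_lit 2) (nat_lit 175) (nat_lit 176) (nat_lit 99)) (PT.lf (nat_lit 4712) (nat_lit 3) (nat_lit 62) (nat_lit 0) (nat_lit 176) (nat_lit 176) (nat_lit 98))) (PT.nd (nat_lit 78) (PT.lf (nat_lit 4484) (nat_lit 6) (nat_lit 59) (nat_lit 0) (nat_lit 177) (nat_lit 176) (nat_lit 97)) (PT.lf (nat_lit 4256) (nat_lit 6) (nat_lit 56) (nat_lit 0) (nat_lit 178) (nat_lit 176) (nat_lit 96))))))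 (PT.nd (nat_lit 40638) (PT.nd (nat_lit 40326) (PT.nd (nat_lit 40170) (PT.lf (nat_lit 4028) (nat_lit 6) (nat_lit 53) (nat_lit 0) (nat_lit 179) (nat_lit 176) (nat_lit 95)) (PT.nd (nat_lit 78) (PT.lf (nat_lit 3648) (nat_lit 6) (nat_lit 48) (nat_lit 5) (nat_lit 93) (nat_lit 177) (nat_lit 180)) (PT.lf (nat_lit 3876) (nat_lit 6) (nat_lit 51) (nat_lit 5) (nat_lit 94) (nat_lit 177) (nat_lit 179)))) (PT.nd (nat_lit 156) (PT.nd (nat_lit 78) (PT.lf (nat_lit 4104) (nat_lit 6) (nat_lit 54) (nat_lit 5) (nat_lit 95) (nat_lit 177) (nat_lit 178)) (PT.lf (nat_lit 4332) (nat_lit 3) (nat_lit 57) (nat_lit 4) (nat_lit 96) (nat_lit 177) (nat_lit 177))) (PT.nd (nat_lit 78) (PT.lf (nat_lit 4484) (nat_lit 6) (nat_lit 59) (nat_lit 4) (nat_lit 97) (nat_lit 177) (nat_lit 176)) (PT.lf (nat_lit 4636) (nat_lit 6) (nat_lit 61) (nat_lit 4) (nat_lit 98) (nat_lit 177) (nat_lit 175))))) (PT.nd (nat_lit 5928) (PT.nd (nat_lit 5772) (PT.nd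 (nat_lit 78) (PT.lf (nat_lit 4788) (nat_lit 6) (nat_lit 63) (nat_lit 4) (nat_lit 99) (nat_lit 177) (nat_lit 174)) (PT.lf (nat_lit 4940) (nat_lit 6) (nat_lit 65) (nat_lit 4) (nat_lit 100) (nat_lit 177) (nat_lit 173))) (PT.nd (nat_lit 78) (PT.lf (nat_lit 4940) (nat_lit 6) (nat_lit 65) (nat_lit 2) (nat_lit 173) (nat_lit 177) (nat_lit 100)) (PT.lf (nat_lit 4788) (nat_lit 6) (nat_lit 63) (nat_lit 2) (nat_lit 174) (nat_lit 177) (nat_lit 99)))) (PT.nd (nat_lit 156) (PT.nd (nat_lit 78) (PT.lf (nat_lit 4636) (nat_lit 6) (nat_lit 61) (nat_lit 2) (nat_lit 175) (nat_lit 177) (nat_lit 98)) (PT.lf (nat_lit 4484) (nat_lit 6) (nat_lit 59) (nat_lit 2) (nat_lit 176) (nat_lit 177) (nat_lit 97))) (PT.nd (nat_lit 78) (PT.lf (nat_lit 4332) (nat_lit 3) (nat_lit 57) (nat_lit 0) (nat_lit 177) (nat_lit 177) (nat_lit 96)) (PT.lf (nat_lit 4104) (nat_lit 6) (nat_lit 54) (nat_lit 0) (nat_lit 178) (nat_lit 177) (nat_lit 95))))))))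
noncomputable def pc31 : PT := (PT.nd (nat_lit 133692) (PT.nd (nat_lit 46956) (PT.nd (nat_lit 40482) (PT.nd (nat_lit 40170) (PT.nd (nat_lit 78) (PT.lf (nat_lit 3876) (nat_lit 6) (nat_lit 51) (nat_lit 0) (nat_lit 179) (nat_lit 177) (nat_lit 94)) (PT.nd (nat_lit 40014) (PT.lf (nat_lit 3648) (nat_lit 6) (nat_lit 48) (nat_lit 0) (nat_lit 180) (nat_lit 177) (nat_lit 93)) (PT.lf (nat_lit 3496) (nat_lit 6) (nat_lit 46) (nat_lit 5) (nat_lit 92) (nat_lit 178) (nat_lit 180)))) (PT.nd (nat_lit 156) (PT.nd (nat_lit 78) (PT.lf (nat_lit 3724) (nat_lit 6) (nat_lit 49) (nat_lit 5) (nat_lit 93) (nat_lit 178) (nat_lit 179)) (PT.lf (nat_lit 3952) (nat_lit 3) (nat_lit 52) (nat_lit 4) (nat_lit 94) (nat_lit 178) (nat_lit 178))) (PT.nd (nat_lit 78) (PT.lf (nat_lit 4104) (nat_lit 6) (nat_lit 54) (nat_lit 4) (nat_lit 95) (nat_lit 178) (nat_lit 177)) (PT.lf (nat_lit 4256) (nat_lit 6) (nat_lit 56) (nat_lit 4) (nat_lit 96) (nat_lit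 178) (nat_lit 176))))) (PT.nd (nat_lit 6162) (PT.nd (nat_lit 6006) (PT.nd (nat_lit 78) (PT.lf (nat_lit 4408) (nat_lit 6) (nat_lit 58) (nat_lit 4) (nat_lit 97) (nat_lit 178) (nat_lit 175)) (PT.lf (nat_lit 4560) (nat_lit 6) (nat_lit 60) (nat_lit 4) (nat_lit 98) (nat_lit 178) (nat_lit 174))) (PT.nd (nat_lit 78) (PT.lf (nat_lit 4560) (nat_lit 6) (nat_lit 60) (nat_lit 2) (nat_lit 174) (nat_lit 178) (nat_lit 98)) (PT.lf (nat_lit 4408) (nat_lit 6) (nat_lit 58) (nat_lit 2) (nat_lit 175) (nat_lit 178) (nat_lit 97)))) (PT.nd (nat_lit 156) (PT.nd (nat_lit 78) (PT.lf (nat_lit 4256) (nat_lit 6) (nat_lit 56) (nat_lit 2) (nat_lit 176) (nat_lit 178) (nat_lit 96)) (PT.lf (nat_lit 4104) (nat_lit 6) (nat_lit 54) (nat_lit 2) (nat_lit 177) (nat_lit 178) (nat_lit 95))) (PT.nd (nat_lit 78) (PT.lf (nat_lit 3952) (nat_lit 3) (nat_lit 52) (nat_lit 0) (nat_lit 178) (nat_lit 178) (nat_lit 94)) (PT.lf (nat_lit 3724) (nat_lit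 6) (nat_lit 49) (nat_lit 0) (nat_lit 179) (nat_lit 178) (nat_lit 93)))))) (PT.nd (nat_lit 46566) (PT.nd (nat_lit 40014) (PT.nd (nat_lit 39858) (PT.lf (nat_lit 3496) (nat_lit 6) (nat_lit 46) (nat_lit 0) (nat_lit 180) (nat_lit 178) (nat_lit 92)) (PT.nd (nat_lit 78) (PT.lf (nat_lit 3192) (nat_lit 6) (nat_lit 42) (nat_lit 5) (nat_lit 90) (nat_lit 179) (nat_lit 181)) (PT.lf (nat_lit 3420) (nat_lit 6) (nat_lit 45) (nat_lit 5) (nat_lit 91) (nat_lit 179) (nat_lit 180)))) (PT.nd (nat_lit 156) (PT.nd (nat_lit 78) (PT.lf (nat_lit 3572) (nat_lit 3) (nat_lit 47) (nat_lit 4) (nat_lit 92) (nat_lit 179) (nat_lit 179)) (PT.lf (nat_lit 3724) (nat_lit 6) (nat_lit 49) (nat_lit 4) (nat_lit 93) (nat_lit 179) (nat_lit 178))) (PT.nd (nat_lit 78) (PT.lf (nat_lit 3876) (nat_lit 6) (nat_lit 51) (nat_lit 4) (nat_lit 94) (nat_lit 179) (nat_lit 177)) (PT.lf (nat_lit 4028) (nat_lit 6) (nat_lit 53) (nat_lit 4) (nat_lit 95) (nat_lit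 179) (nat_lit 176))))) (PT.nd (nat_lit 312) (PT.nd (nat_lit 156) (PT.nd (nat_lit 78) (PT.lf (nat_lit 4028) (nat_lit 6) (nat_lit 53) (nat_lit 2) (nat_lit 176) (nat_lit 179) (nat_lit 95)) (PT.lf (nat_lit 3876) (nat_lit 6) (nat_lit 51) (nat_lit 2) (nat_lit 177) (nat_lit 179) (nat_lit 94))) (PT.nd (nat_lit 78) (PT.lf (nat_lit 3724) (nat_lit 6) (nat_lit 49) (nat_lit 2) (nat_lit 178) (nat_lit 179) (nat_lit 93)) (PT.lf (nat_lit 3572) (nat_lit 3) (nat_lit 47) (nat_lit 0) (nat_lit 179) (nat_lit 179) (nat_lit 92)))) (PT.nd (nat_lit 39702) (PT.nd (nat_lit 78) (PT.lf (nat_lit 3420) (nat_lit 6) (nat_lit 45) (nat_lit 0) (nat_lit 180) (nat_lit 179) (nat_lit 91)) (PT.lf (nat_lit 3192) (nat_lit 6) (nat_lit 42) (nat_lit 0) (nat_lit 181) (nat_lit 179) (nat_lit 90))) (PT.nd (nat_lit 78) (PT.lf (nat_lit 2888) (nat_lit 6) (nat_lit 38) (nat_lit 5) (nat_lit 88) (nat_lit 180) (nat_lit 182)) (PT.lf (nat_lit 3116) (nat_lit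 6) (nat_lit 41) (nat_lit 5) (nat_lit 89) (nat_lit 180) (nat_lit 181))))))) (PT.nd (nat_lit 53898) (PT.nd (nat_lit 7020) (PT.nd (nat_lit 234) (PT.nd (nat_lit 78) (PT.lf (nat_lit 3268) (nat_lit 3) (nat_lit 43) (nat_lit 4) (nat_lit 90) (nat_lit 180) (nat_lit 180)) (PT.nd (nat_lit 78) (PT.lf (nat_lit 3420) (nat_lit 6) (nat_lit 45) (nat_lit 4) (nat_lit 91) (nat_lit 180) (nat_lit 179)) (PT.lf (nat_lit 3496) (nat_lit 6) (nat_lit 46) (nat_lit 4) (nat_lit 92) (nat_lit 180) (nat_lit 178)))) (PT.nd (nat_lit 6630) (PT.nd (nat_lit 6552) (PT.lf (nat_lit 3648) (nat_lit 6) (nat_lit 48) (nat_lit 4) (nat_lit 93) (nat_lit 180) (nat_lit 177)) (PT.lf (nat_lit 3648) (nat_lit 6) (nat_lit 48) (nat_lit 2) (nat_lit 177) (nat_lit 180) (nat_lit 93))) (PT.nd (nat_lit 78) (PT.lf (nat_lit 3496) (nat_lit 6) (nat_lit 46) (nat_lit 2) (nat_lit 178) (nat_lit 180) (nat_lit 92)) (PT.lf (nat_lit 3420) (nat_lit 6) (nat_lit 45) (nat_lit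 2) (nat_lit 179) (nat_lit 180) (nat_lit 91))))) (PT.nd (nat_lit 39702) (PT.nd (nat_lit 156) (PT.nd (nat_lit 78) (PT.lf (nat_lit 3268) (nat_lit 3) (nat_lit 43) (nat_lit 0) (nat_lit 180) (nat_lit 180) (nat_lit 90)) (PT.lf (nat_lit 3116) (nat_lit 6) (nat_lit 41) (nat_lit 0) (nat_lit 181) (nat_lit 180) (nat_lit 89))) (PT.nd (nat_lit 39468) (PT.lf (nat_lit 2888) (nat_lit 6) (nat_lit 38) (nat_lit 0) (nat_lit 182) (nat_lit 180) (nat_lit 88)) (PT.lf (nat_lit 2812) (nat_lit 6) (nat_lit 37) (nat_lit 5) (nat_lit 87) (nat_lit 181) (nat_lit 182)))) (PT.nd (nat_lit 156) (PT.nd (nat_lit 78) (PT.lf (nat_lit 2964) (nat_lit 3) (nat_lit 39) (nat_lit 4) (nat_lit 88) (nat_lit 181) (nat_lit 181)) (PT.lf (nat_lit 3116) (nat_lit 6) (nat_lit 41) (nat_lit 4) (nat_lit 89) (nat_lit 181) (nat_lit 180))) (PT.nd (nat_lit 6942) (PT.lf (nat_lit 3192) (nat_lit 6) (nat_lit 42) (nat_lit 4) (nat_lit 90) (nat_lit 181) (nat_lit 179)) (PT.lf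 (nat_lit 3192) (nat_lit 6) (nat_lit 42) (nat_lit 2) (nat_lit 179) (nat_lit 181) (nat_lit 90)))))) (PT.nd (nat_lit 46956) (PT.nd (nat_lit 39546) (PT.nd (nat_lit 78) (PT.lf (nat_lit 3116) (nat_lit 6) (nat_lit 41) (nat_lit 2) (nat_lit 180) (nat_lit 181) (nat_lit 89)) (PT.nd (nat_lit 78) (PT.lf (nat_lit 2964) (nat_lit 3) (nat_lit 39) (nat_lit 0) (nat_lit 181) (nat_lit 181) (nat_lit 88)) (PT.lf (nat_lit 2812) (nat_lit 6) (nat_lit 37) (nat_lit 0) (nat_lit 182) (nat_lit 181) (nat_lit 87)))) (PT.nd (nat_lit 156) (PT.nd (nat_lit 78) (PT.lf (nat_lit 2660) (nat_lit 3) (nat_lit 35) (nat_lit 4) (nat_lit 86) (nat_lit 182) (nat_lit 182)) (PT.lf (nat_lit 2812) (nat_lit 6) (nat_lit 37) (nat_lit 4) (nat_lit 87) (nat_lit 182) (nat_lit 181))) (PT.nd (nat_lit 7176) (PT.lf (nat_lit 2888) (nat_lit 6) (nat_lit 38) (nat_lit 4) (nat_lit 88) (nat_lit 182) (nat_lit 180)) (PT.lf (nat_lit 2888) (nat_lit 6) (nat_lit 38) (nat_lit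 2) (nat_lit 180) (nat_lit 182) (nat_lit 88))))) (PT.nd (nat_lit 506532) (PT.nd (nat_lit 459732) (PT.nd (nat_lit 78) (PT.lf (nat_lit 2812) (nat_lit 6) (nat_lit 37) (nat_lit 2) (nat_lit 181) (nat_lit 182) (nat_lit 87)) (PT.lf (nat_lit 2660) (nat_lit 3) (nat_lit 35) (nat_lit 0) (nat_lit 182) (nat_lit 182) (nat_lit 86))) (PT.nd (nat_lit 9984) (PT.lf (nat_lit 152) (nat_lit 6) (nat_lit 2) (nat_lit 5) (nat_lit 65) (nat_lit 192) (nat_lit 193)) (PT.lf (nat_lit 152) (nat_lit 6) (nat_lit 2) (nat_lit 0) (nat_lit 193) (nat_lit 192) (nat_lit 65)))) (PT.nd (nat_lit 9984) (PT.nd (nat_lit 78) (PT.lf (nat_lit 76) (nat_lit 3) (nat_lit 1) (nat_lit 4) (nat_lit 64) (nat_lit 193) (nat_lit 193)) (PT.lf (nat_lit 152) (nat_lit 6) (nat_lit 2) (nat_lit 4) (nat_lit 65) (nat_lit 193) (nat_lit 192))) (PT.nd (nat_lit 78) (PT.lf (nat_lit 152) (nat_lit 6) (nat_lit 2) (nat_lit 2) (nat_lit 192) (nat_lit 193) (nat_lit 65)) (PT.lf (nat_lit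 76) (nat_lit 3) (nat_lit 1) (nat_lit 0) (nat_lit 193) (nat_lit 193) (nat_lit 64))))))))
noncomputable def xc0 : XT := (XT.nd (nat_lit 140556) (nat_lit 0) (nat_lit 0) (XT.nd (nat_lit 93600) (nat_lit 0) (nat_lit 0) (XT.nd (nat_lit 46878) (nat_lit 76) (nat_lit 0) (XT.nd (nat_lit 156) (nat_lit 0) (nat_lit 0) (XT.nd (nat_lit 78) (nat_lit 152) (nat_lit 0) (XT.lf (nat_lit 0) (nat_lit 217233587) (nat_lit 152) (nat_lit 7884082124) (nat_lit 0) (nat_lit 217233587) (nat_lit 11) (nat_lit 5) (nat_lit 13) (nat_lit 4) (nat_lit 11) (nat_lit 4) (nat_lit 386) (nat_lit 257) (nat_lit 257)) (XT.lf (nat_lit 0) (nat_lit 18544458) (nat_lit 152) (nat_lit 8726129820) (nat_lit 152) (nat_lit 8214338319) (nat_lit 9) (nat_lit 4) (nat_lit 11) (nat_lit 5) (nat_lit 11) (nat_lit 4) (nat_lit 387) (nat_lit 257) (nat_lit 256))) (XT.nd (nat_lit 46566) (nat_lit 0) (nat_lit 304) (XT.lf (nat_lit 0) (nat_lit 16176345374) (nat_lit 152) (nat_lit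 1062121639) (nat_lit 152) (nat_lit 53445185) (nat_lit 9) (nat_lit 4) (nat_lit 11) (nat_lit 5) (nat_lit 11) (nat_lit 4) (nat_lit 388) (nat_lit 257) (nat_lit 255)) (XT.nd (nat_lit 78) (nat_lit 152) (nat_lit 0) (XT.lf (nat_lit 0) (nat_lit 427386335) (nat_lit 152) (nat_lit 7155086107) (nat_lit 0) (nat_lit 427386335) (nat_lit 15) (nat_lit 5) (nat_lit 17) (nat_lit 4) (nat_lit 15) (nat_lit 4) (nat_lit 384) (nat_lit 258) (nat_lit 258)) (XT.lf (nat_lit 0) (nat_lit 1342251142) (nat_lit 152) (nat_lit 7759744734) (nat_lit 152) (nat_lit 7222056583) (nat_lit 13) (nat_lit 4) (nat_lit 15) (nat_lit 5) (nat_lit 15) (nat_lit 4) (nat_lit 385) (nat_lit 258) (nat_lit 257))))) (XT.nd (nat_lit 156) (nat_lit 228) (nat_lit 0) (XT.nd (nat_lit 78) (nat_lit 0) (nat_lit 0) (XT.lf (nat_lit 0) (nat_lit 710165179) (nat_lit 76) (nat_lit 166013365) (nat_lit 152) (nat_lit 15762635717) (nat_lit 11) (nat_lit 5) (nat_lit 12) (nat_lit 5)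 (nat_lit 13) (nat_lit 4) (nat_lit 386) (nat_lit 258) (nat_lit 256)) (XT.lf (nat_lit 0) (nat_lit 9101195393) (nat_lit 152) (nat_lit 295869763) (nat_lit 0) (nat_lit 7565373693) (nat_lit 11) (nat_lit 5) (nat_lit 13) (nat_lit 4) (nat_lit 11) (nat_lit 4) (nat_lit 387) (nat_lit 258) (nat_lit 255))) (XT.nd (nat_lit 46410) (nat_lit 0) (nat_lit 684) (XT.lf (nat_lit 0) (nat_lit 210673087) (nat_lit 228) (nat_lit 1592674638) (nat_lit 76) (nat_lit 15493659202) (nat_lit 8) (nat_lit 5) (nat_lit 11) (nat_lit 5) (nat_lit 9) (nat_lit 4) (nat_lit 388) (nat_lit 258) (nat_lit 254)) (XT.nd (nat_lit 78) (nat_lit 152) (nat_lit 0) (XT.lf (nat_lit 0) (nat_lit 425005304) (nat_lit 152) (nat_lit 6867975715) (nat_lit 0) (nat_lit 425005304) (nat_lit 19) (nat_lit 5) (nat_lit 21) (nat_lit 4) (nat_lit 19) (nat_lit 4) (nat_lit 382) (nat_lit 259) (nat_lit 259)) (XT.lf (nat_lit 0) (nat_lit 1743870837) (nat_lit 152) (nat_lit 7272418610)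 (nat_lit 152) (nat_lit 6707523438) (nat_lit 17) (nat_lit 4) (nat_lit 19) (nat_lit 5) (nat_lit 19) (nat_lit 4) (nat_lit 383) (nat_lit 259) (nat_lit 258)))))) (XT.nd (nat_lit 46566) (nat_lit 0) (nat_lit 532) (XT.nd (nat_lit 156) (nat_lit 380) (nat_lit 0) (XT.nd (nat_lit 78) (nat_lit 152) (nat_lit 0) (XT.lf (nat_lit 0) (nat_lit 1322643584) (nat_lit 152) (nat_lit 14467663633) (nat_lit 0) (nat_lit 231136638) (nat_lit 15) (nat_lit 5) (nat_lit 17) (nat_lit 4) (nat_lit 15) (nat_lit 4) (nat_lit 384) (nat_lit 259) (nat_lit 257)) (XT.lf (nat_lit 0) (nat_lit 1027730438) (nat_lit 152) (nat_lit 8456649727) (nat_lit 152) (nat_lit 6843115449) (nat_lit 13) (nat_lit 4) (nat_lit 15) (nat_lit 5) (nat_lit 15) (nat_lit 4) (nat_lit 385) (nat_lit 259) (nat_lit 256))) (XT.nd (nat_lit 78) (nat_lit 228) (nat_lit 0) (XT.lf (nat_lit 0) (nat_lit 231941693) (nat_lit 76) (nat_lit 932562575) (nat_lit 152) (nat_lit 15479423636) (nat_lit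 11) (nat_lit 5) (nat_lit 12) (nat_lit 5) (nat_lit 13) (nat_lit 4) (nat_lit 386) (nat_lit 259) (nat_lit 255)) (XT.nd (nat_lit 78) (nat_lit 228) (nat_lit 0) (XT.lf (nat_lit 0) (nat_lit 9302998554) (nat_lit 152) (nat_lit 924486299) (nat_lit 0) (nat_lit 6741804675) (nat_lit 11) (nat_lit 5) (nat_lit 13) (nat_lit 4) (nat_lit 11) (nat_lit 4) (nat_lit 387) (nat_lit 259) (nat_lit 254)) (XT.lf (nat_lit 0) (nat_lit 318238498) (nat_lit 228) (nat_lit 2386713835) (nat_lit 76) (nat_lit 14600582830) (nat_lit 8) (nat_lit 5) (nat_lit 11) (nat_lit 5) (nat_lit 9) (nat_lit 4) (nat_lit 388) (nat_lit 259) (nat_lit 253))))) (XT.nd (nat_lit 156) (nat_lit 456) (nat_lit 0) (XT.nd (nat_lit 78) (nat_lit 152) (nat_lit 0) (XT.lf (nat_lit 0) (nat_lit 241763792) (nat_lit 228) (nat_lit 6958328316) (nat_lit 0) (nat_lit 241763792) (nat_lit 23) (nat_lit 5) (nat_lit 26) (nat_lit 4) (nat_lit 23) (nat_lit 4) (nat_lit 380) (nat_lit 260)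 (nat_lit 260)) (XT.lf (nat_lit 0) (nat_lit 1357789639) (nat_lit 152) (nat_lit 7195873894) (nat_lit 152) (nat_lit 6602395027) (nat_lit 21) (nat_lit 4) (nat_lit 23) (nat_lit 5) (nat_lit 23) (nat_lit 4) (nat_lit 381) (nat_lit 260) (nat_lit 259))) (XT.nd (nat_lit 78) (nat_lit 304) (nat_lit 0) (XT.lf (nat_lit 0) (nat_lit 1346447751) (nat_lit 152) (nat_lit 13891530152) (nat_lit 0) (nat_lit 199710553) (nat_lit 19) (nat_lit 5) (nat_lit 21) (nat_lit 4) (nat_lit 19) (nat_lit 4) (nat_lit 382) (nat_lit 260) (nat_lit 258)) (XT.nd (nat_lit 78) (nat_lit 152) (nat_lit 0) (XT.lf (nat_lit 0) (nat_lit 1433169914) (nat_lit 152) (nat_lit 7994622036) (nat_lit 152) (nat_lit 6299442923) (nat_lit 17) (nat_lit 4) (nat_lit 19) (nat_lit 5) (nat_lit 19) (nat_lit 4) (nat_lit 383) (nat_lit 260) (nat_lit 257)) (XT.lf (nat_lit 0) (nat_lit 1082665954) (nat_lit 76) (nat_lit 556102829) (nat_lit 152) (nat_lit 14387783260) (nat_lit 15)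 (nat_lit 5) (nat_lit 16) (nat_lit 5) (nat_lit 17) (nat_lit 4) (nat_lit 384) (nat_lit 260) (nat_lit 256))))))) (XT.nd (nat_lit 46800) (nat_lit 0) (nat_lit 0) (XT.nd (nat_lit 46410) (nat_lit 0) (nat_lit 684) (XT.nd (nat_lit 156) (nat_lit 304) (nat_lit 0) (XT.nd (nat_lit 78) (nat_lit 76) (nat_lit 0) (XT.lf (nat_lit 0) (nat_lit 398414208) (nat_lit 152) (nat_lit 9313380508) (nat_lit 152) (nat_lit 6622590219) (nat_lit 13) (nat_lit 4) (nat_lit 15) (nat_lit 5) (nat_lit 15) (nat_lit 4) (nat_lit 385) (nat_lit 260) (nat_lit 255)) (XT.lf (nat_lit 0) (nat_lit 1300494861) (nat_lit 228) (nat_lit 555851496) (nat_lit 76) (nat_lit 14796081664) (nat_lit 12) (nat_lit 5) (nat_lit 15) (nat_lit 5) (nat_lit 13) (nat_lit 4) (nat_lit 386) (nat_lit 260) (nat_lit 254))) (XT.nd (nat_lit 78) (nat_lit 228) (nat_lit 0) (XT.lf (nat_lit 0) (nat_lit 9350139692) (nat_lit 152) (nat_lit 1868097638) (nat_lit 0) (nat_lit 5761335698) (nat_lit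 11) (nat_lit 5) (nat_lit 13) (nat_lit 4) (nat_lit 11) (nat_lit 4) (nat_lit 387) (nat_lit 260) (nat_lit 253)) (XT.nd (nat_lit 46098) (nat_lit 0) (nat_lit 1748) (XT.lf (nat_lit 0) (nat_lit 270045979) (nat_lit 228) (nat_lit 3498031235) (nat_lit 76) (nat_lit 13549434084) (nat_lit 8) (nat_lit 5) (nat_lit 11) (nat_lit 5) (nat_lit 9) (nat_lit 4) (nat_lit 388) (nat_lit 260) (nat_lit 252)) (XT.lf (nat_lit 0) (nat_lit 6993639294) (nat_lit 152) (nat_lit 93394669) (nat_lit 152) (nat_lit 93394669) (nat_lit 31) (nat_lit 4) (nat_lit 33) (nat_lit 5) (nat_lit 33) (nat_lit 4) (nat_lit 378) (nat_lit 261) (nat_lit 261))))) (XT.nd (nat_lit 156) (nat_lit 456) (nat_lit 0) (XT.nd (nat_lit 78) (nat_lit 228) (nat_lit 0) (XT.lf (nat_lit 0) (nat_lit 304232160) (nat_lit 152) (nat_lit 7469005070) (nat_lit 152) (nat_lit 6845496172) (nat_lit 26) (nat_lit 4) (nat_lit 28) (nat_lit 5) (nat_lit 28) (nat_lit 4) (nat_lit 379) (nat_lit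 261) (nat_lit 260)) (XT.lf (nat_lit 0) (nat_lit 813785471) (nat_lit 152) (nat_lit 197423842) (nat_lit 228) (nat_lit 13874182620) (nat_lit 23) (nat_lit 5) (nat_lit 25) (nat_lit 5) (nat_lit 26) (nat_lit 4) (nat_lit 380) (nat_lit 261) (nat_lit 259))) (XT.nd (nat_lit 78) (nat_lit 304) (nat_lit 0) (XT.lf (nat_lit 0) (nat_lit 1050904508) (nat_lit 152) (nat_lit 7944755465) (nat_lit 152) (nat_lit 6163800290) (nat_lit 21) (nat_lit 4) (nat_lit 23) (nat_lit 5) (nat_lit 23) (nat_lit 4) (nat_lit 381) (nat_lit 261) (nat_lit 258)) (XT.nd (nat_lit 78) (nat_lit 152) (nat_lit 0) (XT.lf (nat_lit 0) (nat_lit 1080375115) (nat_lit 76) (nat_lit 613061044) (nat_lit 152) (nat_lit 13749321614) (nat_lit 19) (nat_lit 5) (nat_lit 20) (nat_lit 5) (nat_lit 21) (nat_lit 4) (nat_lit 382) (nat_lit 261) (nat_lit 257)) (XT.lf (nat_lit 0) (nat_lit 811496581) (nat_lit 152) (nat_lit 8874764768) (nat_lit 152) (nat_lit 6047820490) (nat_lit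 17) (nat_lit 4) (nat_lit 19) (nat_lit 5) (nat_lit 19) (nat_lit 4) (nat_lit 383) (nat_lit 261) (nat_lit 256)))))) (XT.nd (nat_lit 46254) (nat_lit 0) (nat_lit 988) (XT.nd (nat_lit 156) (nat_lit 532) (nat_lit 0) (XT.nd (nat_lit 78) (nat_lit 0) (nat_lit 0) (XT.lf (nat_lit 0) (nat_lit 296872359) (nat_lit 76) (nat_lit 1505491869) (nat_lit 152) (nat_lit 14232703565) (nat_lit 15) (nat_lit 5) (nat_lit 16) (nat_lit 5) (nat_lit 17) (nat_lit 4) (nat_lit 384) (nat_lit 261) (nat_lit 255)) (XT.lf (nat_lit 0) (nat_lit 9787984840) (nat_lit 152) (nat_lit 539083304) (nat_lit 0) (nat_lit 6017587363) (nat_lit 15) (nat_lit 5) (nat_lit 17) (nat_lit 4) (nat_lit 15) (nat_lit 4) (nat_lit 385) (nat_lit 261) (nat_lit 254))) (XT.nd (nat_lit 78) (nat_lit 304) (nat_lit 0) (XT.lf (nat_lit 0) (nat_lit 1284177359) (nat_lit 228) (nat_lit 1654088168) (nat_lit 76) (nat_lit 13726058350) (nat_lit 12) (nat_lit 5) (nat_lit 15) (nat_lit 5)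 (nat_lit 13) (nat_lit 4) (nat_lit 386) (nat_lit 261) (nat_lit 253)) (XT.nd (nat_lit 78) (nat_lit 228) (nat_lit 0) (XT.lf (nat_lit 0) (nat_lit 9242659999) (nat_lit 152) (nat_lit 3127528295) (nat_lit 0) (nat_lit 4623110041) (nat_lit 11) (nat_lit 5) (nat_lit 13) (nat_lit 4) (nat_lit 11) (nat_lit 4) (nat_lit 387) (nat_lit 261) (nat_lit 252)) (XT.lf (nat_lit 0) (nat_lit 66053421) (nat_lit 228) (nat_lit 4927597891) (nat_lit 76) (nat_lit 12339294484) (nat_lit 8) (nat_lit 5) (nat_lit 11) (nat_lit 5) (nat_lit 9) (nat_lit 4) (nat_lit 388) (nat_lit 261) (nat_lit 251))))) (XT.nd (nat_lit 234) (nat_lit 684) (nat_lit 0) (XT.nd (nat_lit 78) (nat_lit 456) (nat_lit 0) (XT.lf (nat_lit 0) (nat_lit 5825950498) (nat_lit 152) (nat_lit 553349831) (nat_lit 152) (nat_lit 553349831) (nat_lit 36) (nat_lit 4) (nat_lit 38) (nat_lit 5) (nat_lit 38) (nat_lit 4) (nat_lit 376) (nat_lit 262) (nat_lit 262)) (XT.nd (nat_lit 78) (nat_lit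 228) (nat_lit 0) (XT.lf (nat_lit 0) (nat_lit 6736339348) (nat_lit 228) (nat_lit 1292155027) (nat_lit 0) (nat_lit 6081280900) (nat_lit 33) (nat_lit 5) (nat_lit 36) (nat_lit 4) (nat_lit 33) (nat_lit 4) (nat_lit 377) (nat_lit 262) (nat_lit 261)) (XT.lf (nat_lit 0) (nat_lit 379153178) (nat_lit 228) (nat_lit 525148103) (nat_lit 76) (nat_lit 13458163180) (nat_lit 30) (nat_lit 5) (nat_lit 33) (nat_lit 5) (nat_lit 31) (nat_lit 4) (nat_lit 378) (nat_lit 262) (nat_lit 260)))) (XT.nd (nat_lit 78) (nat_lit 380) (nat_lit 0) (XT.lf (nat_lit 0) (nat_lit 1160602) (nat_lit 152) (nat_lit 8246013316) (nat_lit 152) (nat_lit 6374941809) (nat_lit 26) (nat_lit 4) (nat_lit 28) (nat_lit 5) (nat_lit 28) (nat_lit 4) (nat_lit 379) (nat_lit 262) (nat_lit 259)) (XT.nd (nat_lit 78) (nat_lit 152) (nat_lit 0) (XT.lf (nat_lit 0) (nat_lit 352190032) (nat_lit 152) (nat_lit 1039383470) (nat_lit 228) (nat_lit 13498827893) (nat_lit 23)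 (nat_lit 5) (nat_lit 25) (nat_lit 5) (nat_lit 26) (nat_lit 4) (nat_lit 380) (nat_lit 262) (nat_lit 258)) (XT.lf (nat_lit 0) (nat_lit 436866093) (nat_lit 152) (nat_lit 8849694103) (nat_lit 152) (nat_lit 5879706445) (nat_lit 21) (nat_lit 4) (nat_lit 23) (nat_lit 5) (nat_lit 23) (nat_lit 4) (nat_lit 381) (nat_lit 262) (nat_lit 257))))))))
noncomputable def xc1 : XT := (XT.nd (nat_lit 47268) (nat_lit 0) (nat_lit 0) (XT.nd (nat_lit 46488) (nat_lit 0) (nat_lit 228) (XT.nd (nat_lit 390) (nat_lit 228) (nat_lit 0) (XT.nd (nat_lit 156) (nat_lit 532) (nat_lit 0) (XT.nd (nat_lit 78) (nat_lit 0) (nat_lit 0) (XT.lf (nat_lit 0) (nat_lit 303947013) (nat_lit 76) (nat_lit 1585682643) (nat_lit 152) (nat_lit 13561588361) (nat_lit 19) (nat_lit 5) (nat_lit 20) (nat_lit 5) (nat_lit 21) (nat_lit 4) (nat_lit 382) (nat_lit 262) (nat_lit 256)) (XT.lf (nat_lit 0) (nat_lit 9792713600) (nat_lit 152) (nat_lit 120096352) (nat_lit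 0) (nat_lit 5831534012) (nat_lit 19) (nat_lit 5) (nat_lit 21) (nat_lit 4) (nat_lit 19) (nat_lit 4) (nat_lit 383) (nat_lit 262) (nat_lit 255))) (XT.nd (nat_lit 78) (nat_lit 304) (nat_lit 0) (XT.lf (nat_lit 0) (nat_lit 1817264124) (nat_lit 228) (nat_lit 792208100) (nat_lit 76) (nat_lit 13437452493) (nat_lit 16) (nat_lit 5) (nat_lit 19) (nat_lit 5) (nat_lit 17) (nat_lit 4) (nat_lit 384) (nat_lit 262) (nat_lit 254)) (XT.nd (nat_lit 78) (nat_lit 228) (nat_lit 0) (XT.lf (nat_lit 0) (nat_lit 9714106971) (nat_lit 152) (nat_lit 1783379752) (nat_lit 0) (nat_lit 4860807785) (nat_lit 15) (nat_lit 5) (nat_lit 17) (nat_lit 4) (nat_lit 15) (nat_lit 4) (nat_lit 385) (nat_lit 262) (nat_lit 253)) (XT.lf (nat_lit 0) (nat_lit 1114031586) (nat_lit 228) (nat_lit 3066769902) (nat_lit 76) (nat_lit 12498854495) (nat_lit 12) (nat_lit 5) (nat_lit 15) (nat_lit 5) (nat_lit 13) (nat_lit 4) (nat_lit 386) (nat_lit 262) (nat_lit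 252))))) (XT.nd (nat_lit 45864) (nat_lit 0) (nat_lit 2052) (XT.nd (nat_lit 78) (nat_lit 152) (nat_lit 0) (XT.lf (nat_lit 0) (nat_lit 8980465559) (nat_lit 152) (nat_lit 4703878743) (nat_lit 0) (nat_lit 3326133138) (nat_lit 11) (nat_lit 5) (nat_lit 13) (nat_lit 4) (nat_lit 11) (nat_lit 4) (nat_lit 387) (nat_lit 262) (nat_lit 251)) (XT.lf (nat_lit 0) (nat_lit 10673216862) (nat_lit 152) (nat_lit 6380773176) (nat_lit 152) (nat_lit 297823430) (nat_lit 9) (nat_lit 4) (nat_lit 11) (nat_lit 5) (nat_lit 11) (nat_lit 4) (nat_lit 388) (nat_lit 262) (nat_lit 250))) (XT.nd (nat_lit 78) (nat_lit 380) (nat_lit 0) (XT.lf (nat_lit 0) (nat_lit 4463337335) (nat_lit 228) (nat_lit 1117241020) (nat_lit 228) (nat_lit 1117241020) (nat_lit 41) (nat_lit 4) (nat_lit 44) (nat_lit 5) (nat_lit 44) (nat_lit 4) (nat_lit 374) (nat_lit 263) (nat_lit 263)) (XT.nd (nat_lit 78) (nat_lit 152) (nat_lit 0) (XT.lf (nat_lit 0) (nat_lit 5486624695)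 (nat_lit 228) (nat_lit 3342467431) (nat_lit 0) (nat_lit 4798420289) (nat_lit 38) (nat_lit 5) (nat_lit 41) (nat_lit 4) (nat_lit 38) (nat_lit 4) (nat_lit 375) (nat_lit 263) (nat_lit 262)) (XT.lf (nat_lit 0) (nat_lit 11506362260) (nat_lit 152) (nat_lit 1858475276) (nat_lit 152) (nat_lit 502111254) (nat_lit 36) (nat_lit 4) (nat_lit 38) (nat_lit 5) (nat_lit 38) (nat_lit 4) (nat_lit 376) (nat_lit 263) (nat_lit 261)))))) (XT.nd (nat_lit 390) (nat_lit 836) (nat_lit 0) (XT.nd (nat_lit 156) (nat_lit 532) (nat_lit 0) (XT.nd (nat_lit 78) (nat_lit 228) (nat_lit 0) (XT.lf (nat_lit 0) (nat_lit 7245679729) (nat_lit 228) (nat_lit 1587488563) (nat_lit 0) (nat_lit 5279932003) (nat_lit 33) (nat_lit 5) (nat_lit 36) (nat_lit 4) (nat_lit 33) (nat_lit 4) (nat_lit 377) (nat_lit 263) (nat_lit 260)) (XT.lf (nat_lit 0) (nat_lit 796018441) (nat_lit 228) (nat_lit 975245887) (nat_lit 76) (nat_lit 12596117980) (nat_lit 30) (nat_lit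 5) (nat_lit 33) (nat_lit 5) (nat_lit 31) (nat_lit 4) (nat_lit 378) (nat_lit 263) (nat_lit 259))) (XT.nd (nat_lit 78) (nat_lit 380) (nat_lit 0) (XT.lf (nat_lit 0) (nat_lit 8575882183) (nat_lit 228) (nat_lit 597309405) (nat_lit 0) (nat_lit 5455613149) (nat_lit 28) (nat_lit 5) (nat_lit 31) (nat_lit 4) (nat_lit 28) (nat_lit 4) (nat_lit 379) (nat_lit 263) (nat_lit 258)) (XT.nd (nat_lit 78) (nat_lit 152) (nat_lit 0) (XT.lf (nat_lit 0) (nat_lit 1624465145) (nat_lit 228) (nat_lit 409448407) (nat_lit 76) (nat_lit 12864840760) (nat_lit 25) (nat_lit 5) (nat_lit 28) (nat_lit 5) (nat_lit 26) (nat_lit 4) (nat_lit 380) (nat_lit 263) (nat_lit 257)) (XT.lf (nat_lit 0) (nat_lit 9429766433) (nat_lit 228) (nat_lit 478503089) (nat_lit 0) (nat_lit 5268151157) (nat_lit 23) (nat_lit 5) (nat_lit 26) (nat_lit 4) (nat_lit 23) (nat_lit 4) (nat_lit 381) (nat_lit 263) (nat_lit 256))))) (XT.nd (nat_lit 156) (nat_lit 532) (nat_lit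 0) (XT.nd (nat_lit 78) (nat_lit 76) (nat_lit 0) (XT.lf (nat_lit 0) (nat_lit 1938966064) (nat_lit 228) (nat_lit 772202111) (nat_lit 76) (nat_lit 12751833075) (nat_lit 20) (nat_lit 5) (nat_lit 23) (nat_lit 5) (nat_lit 21) (nat_lit 4) (nat_lit 382) (nat_lit 263) (nat_lit 255)) (XT.lf (nat_lit 0) (nat_lit 9753747555) (nat_lit 152) (nat_lit 1349281112) (nat_lit 0) (nat_lit 4654871431) (nat_lit 19) (nat_lit 5) (nat_lit 21) (nat_lit 4) (nat_lit 19) (nat_lit 4) (nat_lit 383) (nat_lit 263) (nat_lit 254))) (XT.nd (nat_lit 78) (nat_lit 304) (nat_lit 0) (XT.lf (nat_lit 0) (nat_lit 1682236266) (nat_lit 228) (nat_lit 2188042404) (nat_lit 76) (nat_lit 12191879414) (nat_lit 16) (nat_lit 5) (nat_lit 19) (nat_lit 5) (nat_lit 17) (nat_lit 4) (nat_lit 384) (nat_lit 263) (nat_lit 253)) (XT.nd (nat_lit 78) (nat_lit 228) (nat_lit 0) (XT.lf (nat_lit 0) (nat_lit 9487509786) (nat_lit 152) (nat_lit 3340787661) (nat_lit 0) (nat_lit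 3547068145) (nat_lit 15) (nat_lit 5) (nat_lit 17) (nat_lit 4) (nat_lit 15) (nat_lit 4) (nat_lit 385) (nat_lit 263) (nat_lit 252)) (XT.lf (nat_lit 0) (nat_lit 789908871) (nat_lit 228) (nat_lit 4795131082) (nat_lit 76) (nat_lit 11113397785) (nat_lit 12) (nat_lit 5) (nat_lit 15) (nat_lit 5) (nat_lit 13) (nat_lit 4) (nat_lit 386) (nat_lit 263) (nat_lit 251))))))) (XT.nd (nat_lit 46332) (nat_lit 0) (nat_lit 0) (XT.nd (nat_lit 45942) (nat_lit 0) (nat_lit 1444) (XT.nd (nat_lit 45708) (nat_lit 0) (nat_lit 2432) (XT.nd (nat_lit 78) (nat_lit 152) (nat_lit 0) (XT.lf (nat_lit 0) (nat_lit 8563327272) (nat_lit 152) (nat_lit 6598526377) (nat_lit 0) (nat_lit 1869271709) (nat_lit 11) (nat_lit 5) (nat_lit 13) (nat_lit 4) (nat_lit 11) (nat_lit 4) (nat_lit 387) (nat_lit 263) (nat_lit 250)) (XT.lf (nat_lit 0) (nat_lit 8622055427) (nat_lit 152) (nat_lit 7931136859) (nat_lit 152) (nat_lit 820947970) (nat_lit 9) (nat_lit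 4) (nat_lit 11) (nat_lit 5) (nat_lit 11) (nat_lit 4) (nat_lit 388) (nat_lit 263) (nat_lit 249))) (XT.nd (nat_lit 78) (nat_lit 456) (nat_lit 0) (XT.lf (nat_lit 0) (nat_lit 2945096709) (nat_lit 228) (nat_lit 1765038664) (nat_lit 228) (nat_lit 1765038664) (nat_lit 47) (nat_lit 4) (nat_lit 50) (nat_lit 5) (nat_lit 50) (nat_lit 4) (nat_lit 372) (nat_lit 264) (nat_lit 264)) (XT.nd (nat_lit 78) (nat_lit 228) (nat_lit 0) (XT.lf (nat_lit 0) (nat_lit 4063640931) (nat_lit 228) (nat_lit 5766136596) (nat_lit 0) (nat_lit 3340613383) (nat_lit 44) (nat_lit 5) (nat_lit 47) (nat_lit 4) (nat_lit 44) (nat_lit 4) (nat_lit 373) (nat_lit 264) (nat_lit 263)) (XT.lf (nat_lit 0) (nat_lit 8783016850) (nat_lit 228) (nat_lit 3019629146) (nat_lit 228) (nat_lit 1594633104) (nat_lit 41) (nat_lit 4) (nat_lit 44) (nat_lit 5) (nat_lit 44) (nat_lit 4) (nat_lit 374) (nat_lit 264) (nat_lit 262))))) (XT.nd (nat_lit 156) (nat_lit 608) (nat_lit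 0) (XT.nd (nat_lit 78) (nat_lit 152) (nat_lit 0) (XT.lf (nat_lit 0) (nat_lit 6030999370) (nat_lit 228) (nat_lit 3634036268) (nat_lit 0) (nat_lit 3965784809) (nat_lit 38) (nat_lit 5) (nat_lit 41) (nat_lit 4) (nat_lit 38) (nat_lit 4) (nat_lit 375) (nat_lit 264) (nat_lit 261)) (XT.lf (nat_lit 0) (nat_lit 11069618884) (nat_lit 152) (nat_lit 2758094989) (nat_lit 152) (nat_lit 44181771) (nat_lit 36) (nat_lit 4) (nat_lit 38) (nat_lit 5) (nat_lit 38) (nat_lit 4) (nat_lit 376) (nat_lit 264) (nat_lit 260))) (XT.nd (nat_lit 78) (nat_lit 380) (nat_lit 0) (XT.lf (nat_lit 0) (nat_lit 7609747097) (nat_lit 228) (nat_lit 2178413694) (nat_lit 0) (nat_lit 4331592450) (nat_lit 33) (nat_lit 5) (nat_lit 36) (nat_lit 4) (nat_lit 33) (nat_lit 4) (nat_lit 377) (nat_lit 264) (nat_lit 259)) (XT.nd (nat_lit 78) (nat_lit 152) (nat_lit 0) (XT.lf (nat_lit 0) (nat_lit 1066620477) (nat_lit 228) (nat_lit 1723052558) (nat_lit 76) (nat_lit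 11585966326) (nat_lit 30) (nat_lit 5) (nat_lit 33) (nat_lit 5) (nat_lit 31) (nat_lit 4) (nat_lit 378) (nat_lit 264) (nat_lit 258)) (XT.lf (nat_lit 0) (nat_lit 8757696579) (nat_lit 228) (nat_lit 1495645181) (nat_lit 0) (nat_lit 4385503571) (nat_lit 28) (nat_lit 5) (nat_lit 31) (nat_lit 4) (nat_lit 28) (nat_lit 4) (nat_lit 379) (nat_lit 264) (nat_lit 257)))))) (XT.nd (nat_lit 390) (nat_lit 532) (nat_lit 0) (XT.nd (nat_lit 156) (nat_lit 532) (nat_lit 0) (XT.nd (nat_lit 78) (nat_lit 152) (nat_lit 0) (XT.lf (nat_lit 0) (nat_lit 1711666056) (nat_lit 228) (nat_lit 1468607155) (nat_lit 76) (nat_lit 11730153205) (nat_lit 25) (nat_lit 5) (nat_lit 28) (nat_lit 5) (nat_lit 26) (nat_lit 4) (nat_lit 380) (nat_lit 264) (nat_lit 256)) (XT.lf (nat_lit 0) (nat_lit 9427092398) (nat_lit 228) (nat_lit 1692591940) (nat_lit 0) (nat_lit 4070213141) (nat_lit 23) (nat_lit 5) (nat_lit 26) (nat_lit 4) (nat_lit 23) (nat_lit 4)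 (nat_lit 381) (nat_lit 264) (nat_lit 255))) (XT.nd (nat_lit 78) (nat_lit 304) (nat_lit 0) (XT.lf (nat_lit 0) (nat_lit 1840395983) (nat_lit 228) (nat_lit 2151219454) (nat_lit 76) (nat_lit 11486524184) (nat_lit 20) (nat_lit 5) (nat_lit 23) (nat_lit 5) (nat_lit 21) (nat_lit 4) (nat_lit 382) (nat_lit 264) (nat_lit 254)) (XT.nd (nat_lit 78) (nat_lit 228) (nat_lit 0) (XT.lf (nat_lit 0) (nat_lit 9564060392) (nat_lit 152) (nat_lit 2887774666) (nat_lit 0) (nat_lit 3323032403) (nat_lit 19) (nat_lit 5) (nat_lit 21) (nat_lit 4) (nat_lit 19) (nat_lit 4) (nat_lit 383) (nat_lit 264) (nat_lit 253)) (XT.lf (nat_lit 0) (nat_lit 1395235176) (nat_lit 228) (nat_lit 3895743745) (nat_lit 76) (nat_lit 10789840829) (nat_lit 16) (nat_lit 5) (nat_lit 19) (nat_lit 5) (nat_lit 17) (nat_lit 4) (nat_lit 384) (nat_lit 264) (nat_lit 252))))) (XT.nd (nat_lit 234) (nat_lit 152) (nat_lit 0) (XT.nd (nat_lit 78) (nat_lit 304) (nat_lit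 0) (XT.lf (nat_lit 0) (nat_lit 9107995289) (nat_lit 152) (nat_lit 5212667870) (nat_lit 0) (nat_lit 2075220514) (nat_lit 15) (nat_lit 5) (nat_lit 17) (nat_lit 4) (nat_lit 15) (nat_lit 4) (nat_lit 385) (nat_lit 264) (nat_lit 251)) (XT.nd (nat_lit 78) (nat_lit 76) (nat_lit 0) (XT.lf (nat_lit 0) (nat_lit 311525999) (nat_lit 228) (nat_lit 6840681926) (nat_lit 76) (nat_lit 9568477627) (nat_lit 12) (nat_lit 5) (nat_lit 15) (nat_lit 5) (nat_lit 13) (nat_lit 4) (nat_lit 386) (nat_lit 264) (nat_lit 250)) (XT.lf (nat_lit 0) (nat_lit 7990880647) (nat_lit 152) (nat_lit 8813126714) (nat_lit 0) (nat_lit 251252767) (nat_lit 11) (nat_lit 5) (nat_lit 13) (nat_lit 4) (nat_lit 11) (nat_lit 4) (nat_lit 387) (nat_lit 264) (nat_lit 249)))) (XT.nd (nat_lit 45474) (nat_lit 0) (nat_lit 3116) (XT.lf (nat_lit 0) (nat_lit 6250514576) (nat_lit 152) (nat_lit 9646540299) (nat_lit 152) (nat_lit 1502899482) (nat_lit 9) (nat_lit 4)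 (nat_lit 11) (nat_lit 5) (nat_lit 11) (nat_lit 4) (nat_lit 388) (nat_lit 264) (nat_lit 248)) (XT.nd (nat_lit 78) (nat_lit 228) (nat_lit 0) (XT.lf (nat_lit 0) (nat_lit 1306233375) (nat_lit 228) (nat_lit 2478889012) (nat_lit 228) (nat_lit 2478889012) (nat_lit 53) (nat_lit 4) (nat_lit 56) (nat_lit 5) (nat_lit 56) (nat_lit 4) (nat_lit 370) (nat_lit 265) (nat_lit 265)) (XT.lf (nat_lit 0) (nat_lit 2504399036) (nat_lit 228) (nat_lit 8487756831) (nat_lit 0) (nat_lit 1744786294) (nat_lit 50) (nat_lit 5) (nat_lit 53) (nat_lit 4) (nat_lit 50) (nat_lit 4) (nat_lit 371) (nat_lit 265) (nat_lit 264))))))))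
noncomputable def xc2 : XT := (XT.nd (nat_lit 46800) (nat_lit 0) (nat_lit 0) (XT.nd (nat_lit 780) (nat_lit 1064) (nat_lit 0) (XT.nd (nat_lit 390) (nat_lit 912) (nat_lit 0) (XT.nd (nat_lit 156) (nat_lit 684) (nat_lit 0) (XT.nd (nat_lit 78) (nat_lit 228) (nat_lit 0) (XT.lf (nat_lit 0) (nat_lit 5748419271) (nat_lit 228) (nat_lit 4350331188) (nat_lit 228) (nat_lit 2853230346) (nat_lit 47) (nat_lit 4) (nat_lit 50) (nat_lit 5) (nat_lit 50) (nat_lit 4) (nat_lit 372) (nat_lit 265) (nat_lit 263)) (XT.lf (nat_lit 0) (nat_lit 4644730055) (nat_lit 228) (nat_lit 6053937254) (nat_lit 0) (nat_lit 2475015638) (nat_lit 44) (nat_lit 5) (nat_lit 47) (nat_lit 4) (nat_lit 44) (nat_lit 4) (nat_lit 373) (nat_lit 265) (nat_lit 262))) (XT.nd (nat_lit 78) (nat_lit 456) (nat_lit 0) (XT.lf (nat_lit 0) (nat_lit 8351917859) (nat_lit 228) (nat_lit 3950760471) (nat_lit 228) (nat_lit 1099523244) (nat_lit 41) (nat_lit 4) (nat_lit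 44) (nat_lit 5) (nat_lit 44) (nat_lit 4) (nat_lit 374) (nat_lit 265) (nat_lit 261)) (XT.nd (nat_lit 78) (nat_lit 228) (nat_lit 0) (XT.lf (nat_lit 0) (nat_lit 6432019982) (nat_lit 228) (nat_lit 4217428711) (nat_lit 0) (nat_lit 2987990710) (nat_lit 38) (nat_lit 5) (nat_lit 41) (nat_lit 4) (nat_lit 38) (nat_lit 4) (nat_lit 375) (nat_lit 265) (nat_lit 260)) (XT.lf (nat_lit 0) (nat_lit 263980751) (nat_lit 228) (nat_lit 3540592675) (nat_lit 76) (nat_lit 10075537044) (nat_lit 35) (nat_lit 5) (nat_lit 38) (nat_lit 5) (nat_lit 36) (nat_lit 4) (nat_lit 376) (nat_lit 265) (nat_lit 259))))) (XT.nd (nat_lit 156) (nat_lit 532) (nat_lit 0) (XT.nd (nat_lit 78) (nat_lit 228) (nat_lit 0) (XT.lf (nat_lit 0) (nat_lit 7828859568) (nat_lit 228) (nat_lit 3065446761) (nat_lit 0) (nat_lit 3235433593) (nat_lit 33) (nat_lit 5) (nat_lit 36) (nat_lit 4) (nat_lit 33) (nat_lit 4) (nat_lit 377) (nat_lit 265) (nat_lit 258)) (XT.lf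 (nat_lit 0) (nat_lit 1191195733) (nat_lit 228) (nat_lit 2769221540) (nat_lit 76) (nat_lit 10426825561) (nat_lit 30) (nat_lit 5) (nat_lit 33) (nat_lit 5) (nat_lit 31) (nat_lit 4) (nat_lit 378) (nat_lit 265) (nat_lit 257))) (XT.nd (nat_lit 78) (nat_lit 380) (nat_lit 0) (XT.lf (nat_lit 0) (nat_lit 8792768441) (nat_lit 228) (nat_lit 2694646899) (nat_lit 0) (nat_lit 3164831094) (nat_lit 28) (nat_lit 5) (nat_lit 31) (nat_lit 4) (nat_lit 28) (nat_lit 4) (nat_lit 379) (nat_lit 265) (nat_lit 256)) (XT.nd (nat_lit 78) (nat_lit 152) (nat_lit 0) (XT.lf (nat_lit 0) (nat_lit 1650965778) (nat_lit 228) (nat_lit 2830830725) (nat_lit 76) (nat_lit 10443677134) (nat_lit 25) (nat_lit 5) (nat_lit 28) (nat_lit 5) (nat_lit 26) (nat_lit 4) (nat_lit 380) (nat_lit 265) (nat_lit 255)) (XT.lf (nat_lit 0) (nat_lit 9275699330) (nat_lit 228) (nat_lit 3212190890) (nat_lit 0) (nat_lit 2718875325) (nat_lit 23) (nat_lit 5) (nat_lit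 26) (nat_lit 4) (nat_lit 23) (nat_lit 4) (nat_lit 381) (nat_lit 265) (nat_lit 254)))))) (XT.nd (nat_lit 390) (nat_lit 304) (nat_lit 0) (XT.nd (nat_lit 156) (nat_lit 456) (nat_lit 0) (XT.nd (nat_lit 78) (nat_lit 76) (nat_lit 0) (XT.lf (nat_lit 0) (nat_lit 1591859856) (nat_lit 228) (nat_lit 3838296302) (nat_lit 76) (nat_lit 10066529665) (nat_lit 20) (nat_lit 5) (nat_lit 23) (nat_lit 5) (nat_lit 21) (nat_lit 4) (nat_lit 382) (nat_lit 265) (nat_lit 253)) (XT.lf (nat_lit 0) (nat_lit 9223486365) (nat_lit 152) (nat_lit 4736921330) (nat_lit 0) (nat_lit 1834853186) (nat_lit 19) (nat_lit 5) (nat_lit 21) (nat_lit 4) (nat_lit 19) (nat_lit 4) (nat_lit 383) (nat_lit 265) (nat_lit 252))) (XT.nd (nat_lit 78) (nat_lit 228) (nat_lit 0) (XT.lf (nat_lit 0) (nat_lit 956010077) (nat_lit 228) (nat_lit 5916804290) (nat_lit 76) (nat_lit 9230111657) (nat_lit 16) (nat_lit 5) (nat_lit 19) (nat_lit 5) (nat_lit 17) (nat_lit 4)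 (nat_lit 384) (nat_lit 265) (nat_lit 251)) (XT.nd (nat_lit 78) (nat_lit 152) (nat_lit 0) (XT.lf (nat_lit 0) (nat_lit 8575231865) (nat_lit 152) (nat_lit 7400656005) (nat_lit 0) (nat_lit 443978814) (nat_lit 15) (nat_lit 5) (nat_lit 17) (nat_lit 4) (nat_lit 15) (nat_lit 4) (nat_lit 385) (nat_lit 265) (nat_lit 250)) (XT.lf (nat_lit 0) (nat_lit 7539051389) (nat_lit 152) (nat_lit 8881517106) (nat_lit 152) (nat_lit 325808063) (nat_lit 13) (nat_lit 4) (nat_lit 15) (nat_lit 5) (nat_lit 15) (nat_lit 4) (nat_lit 386) (nat_lit 265) (nat_lit 249))))) (XT.nd (nat_lit 45396) (nat_lit 0) (nat_lit 3344) (XT.nd (nat_lit 78) (nat_lit 152) (nat_lit 0) (XT.lf (nat_lit 0) (nat_lit 5723025339) (nat_lit 76) (nat_lit 1549661580) (nat_lit 152) (nat_lit 9810014691) (nat_lit 11) (nat_lit 5) (nat_lit 12) (nat_lit 5) (nat_lit 13) (nat_lit 4) (nat_lit 387) (nat_lit 265) (nat_lit 248)) (XT.lf (nat_lit 0) (nat_lit 3556522088) (nat_lit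 152) (nat_lit 11528482394) (nat_lit 152) (nat_lit 2344273845) (nat_lit 9) (nat_lit 4) (nat_lit 11) (nat_lit 5) (nat_lit 11) (nat_lit 4) (nat_lit 388) (nat_lit 265) (nat_lit 247))) (XT.nd (nat_lit 78) (nat_lit 684) (nat_lit 0) (XT.lf (nat_lit 0) (nat_lit 2823532065) (nat_lit 304) (nat_lit 416564382) (nat_lit 0) (nat_lit 2823532065) (nat_lit 62) (nat_lit 5) (nat_lit 66) (nat_lit 4) (nat_lit 62) (nat_lit 4) (nat_lit 368) (nat_lit 266) (nat_lit 266)) (XT.nd (nat_lit 78) (nat_lit 228) (nat_lit 0) (XT.lf (nat_lit 0) (nat_lit 841859027) (nat_lit 228) (nat_lit 11440143193) (nat_lit 0) (nat_lit 43809879) (nat_lit 56) (nat_lit 5) (nat_lit 59) (nat_lit 4) (nat_lit 56) (nat_lit 4) (nat_lit 369) (nat_lit 266) (nat_lit 265)) (XT.lf (nat_lit 0) (nat_lit 2472580096) (nat_lit 228) (nat_lit 5814961238) (nat_lit 228) (nat_lit 4242107093) (nat_lit 53) (nat_lit 4) (nat_lit 56) (nat_lit 5) (nat_lit 56) (nat_lit 4) (nat_lit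 370) (nat_lit 266) (nat_lit 264))))))) (XT.nd (nat_lit 780) (nat_lit 1216) (nat_lit 0) (XT.nd (nat_lit 390) (nat_lit 988) (nat_lit 0) (XT.nd (nat_lit 156) (nat_lit 684) (nat_lit 0) (XT.nd (nat_lit 78) (nat_lit 228) (nat_lit 0) (XT.lf (nat_lit 0) (nat_lit 3123968704) (nat_lit 228) (nat_lit 8771783784) (nat_lit 0) (nat_lit 844466737) (nat_lit 50) (nat_lit 5) (nat_lit 53) (nat_lit 4) (nat_lit 50) (nat_lit 4) (nat_lit 371) (nat_lit 266) (nat_lit 263)) (XT.lf (nat_lit 0) (nat_lit 5322972943) (nat_lit 228) (nat_lit 5314708651) (nat_lit 228) (nat_lit 2319198821) (nat_lit 47) (nat_lit 4) (nat_lit 50) (nat_lit 5) (nat_lit 50) (nat_lit 4) (nat_lit 372) (nat_lit 266) (nat_lit 262))) (XT.nd (nat_lit 78) (nat_lit 456) (nat_lit 0) (XT.lf (nat_lit 0) (nat_lit 5084388502) (nat_lit 228) (nat_lit 6629790046) (nat_lit 0) (nat_lit 1466091349) (nat_lit 44) (nat_lit 5) (nat_lit 47) (nat_lit 4) (nat_lit 44) (nat_lit 4)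 (nat_lit 373) (nat_lit 266) (nat_lit 261)) (XT.nd (nat_lit 78) (nat_lit 228) (nat_lit 0) (XT.lf (nat_lit 0) (nat_lit 7633001012) (nat_lit 228) (nat_lit 5028689626) (nat_lit 228) (nat_lit 748719842) (nat_lit 41) (nat_lit 4) (nat_lit 44) (nat_lit 5) (nat_lit 44) (nat_lit 4) (nat_lit 374) (nat_lit 266) (nat_lit 260)) (XT.lf (nat_lit 0) (nat_lit 6690036936) (nat_lit 228) (nat_lit 5093154521) (nat_lit 0) (nat_lit 1864183607) (nat_lit 38) (nat_lit 5) (nat_lit 41) (nat_lit 4) (nat_lit 38) (nat_lit 4) (nat_lit 375) (nat_lit 266) (nat_lit 259))))) (XT.nd (nat_lit 156) (nat_lit 608) (nat_lit 0) (XT.nd (nat_lit 78) (nat_lit 152) (nat_lit 0) (XT.lf (nat_lit 0) (nat_lit 427492002) (nat_lit 228) (nat_lit 4573780184) (nat_lit 76) (nat_lit 8890376242) (nat_lit 35) (nat_lit 5) (nat_lit 38) (nat_lit 5) (nat_lit 36) (nat_lit 4) (nat_lit 376) (nat_lit 266) (nat_lit 258)) (XT.lf (nat_lit 0) (nat_lit 7903208602) (nat_lit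 228) (nat_lit 4249362843) (nat_lit 0) (nat_lit 1990497625) (nat_lit 33) (nat_lit 5) (nat_lit 36) (nat_lit 4) (nat_lit 33) (nat_lit 4) (nat_lit 377) (nat_lit 266) (nat_lit 257))) (XT.nd (nat_lit 78) (nat_lit 380) (nat_lit 0) (XT.lf (nat_lit 0) (nat_lit 1169853062) (nat_lit 228) (nat_lit 4114666960) (nat_lit 76) (nat_lit 9117682842) (nat_lit 30) (nat_lit 5) (nat_lit 33) (nat_lit 5) (nat_lit 31) (nat_lit 4) (nat_lit 378) (nat_lit 266) (nat_lit 256)) (XT.nd (nat_lit 78) (nat_lit 228) (nat_lit 0) (XT.lf (nat_lit 0) (nat_lit 8681128412) (nat_lit 228) (nat_lit 4195362230) (nat_lit 0) (nat_lit 1792529112) (nat_lit 28) (nat_lit 5) (nat_lit 31) (nat_lit 4) (nat_lit 28) (nat_lit 4) (nat_lit 379) (nat_lit 266) (nat_lit 255)) (XT.lf (nat_lit 0) (nat_lit 1442311274) (nat_lit 228) (nat_lit 4497309411) (nat_lit 76) (nat_lit 9004288443) (nat_lit 25) (nat_lit 5) (nat_lit 28) (nat_lit 5) (nat_lit 26) (nat_lit 4) (nat_lit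 380) (nat_lit 266) (nat_lit 254)))))) (XT.nd (nat_lit 390) (nat_lit 456) (nat_lit 0) (XT.nd (nat_lit 156) (nat_lit 380) (nat_lit 0) (XT.nd (nat_lit 78) (nat_lit 228) (nat_lit 0) (XT.lf (nat_lit 0) (nat_lit 8975454945) (nat_lit 228) (nat_lit 5038627745) (nat_lit 0) (nat_lit 1212956928) (nat_lit 23) (nat_lit 5) (nat_lit 26) (nat_lit 4) (nat_lit 23) (nat_lit 4) (nat_lit 381) (nat_lit 266) (nat_lit 253)) (XT.lf (nat_lit 0) (nat_lit 1193140517) (nat_lit 228) (nat_lit 5834906800) (nat_lit 76) (nat_lit 8490608748) (nat_lit 20) (nat_lit 5) (nat_lit 23) (nat_lit 5) (nat_lit 21) (nat_lit 4) (nat_lit 382) (nat_lit 266) (nat_lit 252))) (XT.nd (nat_lit 78) (nat_lit 304) (nat_lit 0) (XT.lf (nat_lit 0) (nat_lit 8731727884) (nat_lit 152) (nat_lit 6898336861) (nat_lit 0) (nat_lit 189033429) (nat_lit 19) (nat_lit 5) (nat_lit 21) (nat_lit 4) (nat_lit 19) (nat_lit 4) (nat_lit 383) (nat_lit 266) (nat_lit 251)) (XT.nd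 (nat_lit 78) (nat_lit 76) (nat_lit 0) (XT.lf (nat_lit 0) (nat_lit 364177180) (nat_lit 228) (nat_lit 8252990015) (nat_lit 76) (nat_lit 7511329028) (nat_lit 16) (nat_lit 5) (nat_lit 19) (nat_lit 5) (nat_lit 17) (nat_lit 4) (nat_lit 384) (nat_lit 266) (nat_lit 250)) (XT.lf (nat_lit 0) (nat_lit 6531625335) (nat_lit 76) (nat_lit 1365997618) (nat_lit 152) (nat_lit 8549535242) (nat_lit 15) (nat_lit 5) (nat_lit 16) (nat_lit 5) (nat_lit 17) (nat_lit 4) (nat_lit 385) (nat_lit 266) (nat_lit 249))))) (XT.nd (nat_lit 45318) (nat_lit 0) (nat_lit 4028) (XT.nd (nat_lit 78) (nat_lit 304) (nat_lit 0) (XT.lf (nat_lit 0) (nat_lit 4877431818) (nat_lit 152) (nat_lit 10773505909) (nat_lit 152) (nat_lit 1124576407) (nat_lit 13) (nat_lit 4) (nat_lit 15) (nat_lit 5) (nat_lit 15) (nat_lit 4) (nat_lit 386) (nat_lit 266) (nat_lit 248)) (XT.nd (nat_lit 78) (nat_lit 152) (nat_lit 0) (XT.lf (nat_lit 0) (nat_lit 2880557801) (nat_lit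 76) (nat_lit 3520223279) (nat_lit 152) (nat_lit 10712839451) (nat_lit 11) (nat_lit 5) (nat_lit 12) (nat_lit 5) (nat_lit 13) (nat_lit 4) (nat_lit 387) (nat_lit 266) (nat_lit 247)) (XT.lf (nat_lit 0) (nat_lit 537723989) (nat_lit 152) (nat_lit 13578607558) (nat_lit 152) (nat_lit 3345806241) (nat_lit 9) (nat_lit 4) (nat_lit 11) (nat_lit 5) (nat_lit 11) (nat_lit 4) (nat_lit 388) (nat_lit 266) (nat_lit 246)))) (XT.nd (nat_lit 78) (nat_lit 532) (nat_lit 0) (XT.lf (nat_lit 0) (nat_lit 1845055700) (nat_lit 304) (nat_lit 2183193201) (nat_lit 0) (nat_lit 1845055700) (nat_lit 69) (nat_lit 5) (nat_lit 73) (nat_lit 4) (nat_lit 69) (nat_lit 4) (nat_lit 366) (nat_lit 267) (nat_lit 267)) (XT.nd (nat_lit 78) (nat_lit 304) (nat_lit 0) (XT.lf (nat_lit 0) (nat_lit 9324618108) (nat_lit 228) (nat_lit 1732824015) (nat_lit 228) (nat_lit 877624973) (nat_lit 66) (nat_lit 4) (nat_lit 69) (nat_lit 5) (nat_lit 69) (nat_lit 4)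 (nat_lit 367) (nat_lit 267) (nat_lit 266)) (XT.lf (nat_lit 0) (nat_lit 6405992781) (nat_lit 304) (nat_lit 969313176) (nat_lit 0) (nat_lit 4753552217) (nat_lit 62) (nat_lit 5) (nat_lit 66) (nat_lit 4) (nat_lit 62) (nat_lit 4) (nat_lit 368) (nat_lit 267) (nat_lit 265))))))))
noncomputable def xc3 : XT := (XT.nd (nat_lit 46488) (nat_lit 0) (nat_lit 456) (XT.nd (nat_lit 780) (nat_lit 1444) (nat_lit 0) (XT.nd (nat_lit 390) (nat_lit 1064) (nat_lit 0) (XT.nd (nat_lit 156) (nat_lit 684) (nat_lit 0) (XT.nd (nat_lit 78) (nat_lit 228) (nat_lit 0) (XT.lf (nat_lit 0) (nat_lit 602693433) (nat_lit 152) (nat_lit 904947702) (nat_lit 228) (nat_lit 10821316604) (nat_lit 56) (nat_lit 5) (nat_lit 58) (nat_lit 5) (nat_lit 59) (nat_lit 4) (nat_lit 369) (nat_lit 267) (nat_lit 264)) (XT.lf (nat_lit 0) (nat_lit 2052797899) (nat_lit 228) (nat_lit 6814405730) (nat_lit 228) (nat_lit 3667323102) (nat_lit 53) (nat_lit 4) (nat_lit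 56) (nat_lit 5) (nat_lit 56) (nat_lit 4) (nat_lit 370) (nat_lit 267) (nat_lit 263))) (XT.nd (nat_lit 78) (nat_lit 456) (nat_lit 0) (XT.lf (nat_lit 0) (nat_lit 3405366052) (nat_lit 152) (nat_lit 199968947) (nat_lit 228) (nat_lit 9141415254) (nat_lit 50) (nat_lit 5) (nat_lit 52) (nat_lit 5) (nat_lit 53) (nat_lit 4) (nat_lit 371) (nat_lit 267) (nat_lit 262)) (XT.nd (nat_lit 78) (nat_lit 228) (nat_lit 0) (XT.lf (nat_lit 0) (nat_lit 4613482689) (nat_lit 228) (nat_lit 6424052377) (nat_lit 228) (nat_lit 1927516122) (nat_lit 47) (nat_lit 4) (nat_lit 50) (nat_lit 5) (nat_lit 50) (nat_lit 4) (nat_lit 372) (nat_lit 267) (nat_lit 261)) (XT.lf (nat_lit 0) (nat_lit 5383000439) (nat_lit 228) (nat_lit 7494198145) (nat_lit 0) (nat_lit 312958932) (nat_lit 44) (nat_lit 5) (nat_lit 47) (nat_lit 4) (nat_lit 44) (nat_lit 4) (nat_lit 373) (nat_lit 267) (nat_lit 260))))) (XT.nd (nat_lit 156) (nat_lit 608) (nat_lit 0) (XT.nd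 (nat_lit 78) (nat_lit 228) (nat_lit 0) (XT.lf (nat_lit 0) (nat_lit 6625638127) (nat_lit 228) (nat_lit 6254358490) (nat_lit 228) (nat_lit 541916370) (nat_lit 41) (nat_lit 4) (nat_lit 44) (nat_lit 5) (nat_lit 44) (nat_lit 4) (nat_lit 374) (nat_lit 267) (nat_lit 259)) (XT.lf (nat_lit 0) (nat_lit 6805275686) (nat_lit 228) (nat_lit 6261978894) (nat_lit 0) (nat_lit 593381534) (nat_lit 38) (nat_lit 5) (nat_lit 41) (nat_lit 4) (nat_lit 38) (nat_lit 4) (nat_lit 375) (nat_lit 267) (nat_lit 258))) (XT.nd (nat_lit 78) (nat_lit 380) (nat_lit 0) (XT.lf (nat_lit 0) (nat_lit 447074306) (nat_lit 228) (nat_lit 5902455218) (nat_lit 76) (nat_lit 7556995815) (nat_lit 35) (nat_lit 5) (nat_lit 38) (nat_lit 5) (nat_lit 36) (nat_lit 4) (nat_lit 376) (nat_lit 267) (nat_lit 257)) (XT.nd (nat_lit 78) (nat_lit 228) (nat_lit 0) (XT.lf (nat_lit 0) (nat_lit 7832859162) (nat_lit 228) (nat_lit 5731196430) (nat_lit 0) (nat_lit 595696738)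 (nat_lit 33) (nat_lit 5) (nat_lit 36) (nat_lit 4) (nat_lit 33) (nat_lit 4) (nat_lit 377) (nat_lit 267) (nat_lit 256)) (XT.lf (nat_lit 0) (nat_lit 1002573816) (nat_lit 228) (nat_lit 5760564452) (nat_lit 76) (nat_lit 7657394259) (nat_lit 30) (nat_lit 5) (nat_lit 33) (nat_lit 5) (nat_lit 31) (nat_lit 4) (nat_lit 378) (nat_lit 267) (nat_lit 255)))))) (XT.nd (nat_lit 390) (nat_lit 608) (nat_lit 0) (XT.nd (nat_lit 156) (nat_lit 456) (nat_lit 0) (XT.nd (nat_lit 78) (nat_lit 228) (nat_lit 0) (XT.lf (nat_lit 0) (nat_lit 8422678943) (nat_lit 228) (nat_lit 5999102479) (nat_lit 0) (nat_lit 267398526) (nat_lit 28) (nat_lit 5) (nat_lit 31) (nat_lit 4) (nat_lit 28) (nat_lit 4) (nat_lit 379) (nat_lit 267) (nat_lit 254)) (XT.lf (nat_lit 0) (nat_lit 1085520222) (nat_lit 228) (nat_lit 6469499358) (nat_lit 76) (nat_lit 7410729413) (nat_lit 25) (nat_lit 5) (nat_lit 28) (nat_lit 5) (nat_lit 26) (nat_lit 4) (nat_lit 380)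 (nat_lit 267) (nat_lit 253))) (XT.nd (nat_lit 78) (nat_lit 304) (nat_lit 0) (XT.lf (nat_lit 0) (nat_lit 8074226918) (nat_lit 152) (nat_lit 454822987) (nat_lit 228) (nat_lit 6721628446) (nat_lit 23) (nat_lit 5) (nat_lit 25) (nat_lit 5) (nat_lit 26) (nat_lit 4) (nat_lit 381) (nat_lit 267) (nat_lit 252)) (XT.nd (nat_lit 78) (nat_lit 76) (nat_lit 0) (XT.lf (nat_lit 0) (nat_lit 643889571) (nat_lit 228) (nat_lit 8142795558) (nat_lit 76) (nat_lit 6757384412) (nat_lit 20) (nat_lit 5) (nat_lit 23) (nat_lit 5) (nat_lit 21) (nat_lit 4) (nat_lit 382) (nat_lit 267) (nat_lit 251)) (XT.lf (nat_lit 0) (nat_lit 6461646992) (nat_lit 76) (nat_lit 1637338958) (nat_lit 152) (nat_lit 7747201609) (nat_lit 19) (nat_lit 5) (nat_lit 20) (nat_lit 5) (nat_lit 21) (nat_lit 4) (nat_lit 383) (nat_lit 267) (nat_lit 250))))) (XT.nd (nat_lit 156) (nat_lit 304) (nat_lit 0) (XT.nd (nat_lit 78) (nat_lit 152) (nat_lit 0) (XT.lf (nat_lit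 0) (nat_lit 5248655204) (nat_lit 152) (nat_lit 10523006358) (nat_lit 152) (nat_lit 385841024) (nat_lit 17) (nat_lit 4) (nat_lit 19) (nat_lit 5) (nat_lit 19) (nat_lit 4) (nat_lit 384) (nat_lit 267) (nat_lit 249)) (XT.lf (nat_lit 0) (nat_lit 3723271380) (nat_lit 76) (nat_lit 3346417616) (nat_lit 152) (nat_lit 9408190813) (nat_lit 15) (nat_lit 5) (nat_lit 16) (nat_lit 5) (nat_lit 17) (nat_lit 4) (nat_lit 385) (nat_lit 267) (nat_lit 248))) (XT.nd (nat_lit 78) (nat_lit 152) (nat_lit 0) (XT.lf (nat_lit 0) (nat_lit 1894909730) (nat_lit 152) (nat_lit 12831918031) (nat_lit 152) (nat_lit 2081336967) (nat_lit 13) (nat_lit 4) (nat_lit 15) (nat_lit 5) (nat_lit 15) (nat_lit 4) (nat_lit 386) (nat_lit 267) (nat_lit 247)) (XT.nd (nat_lit 78) (nat_lit 76) (nat_lit 0) (XT.lf (nat_lit 0) (nat_lit 5374605630) (nat_lit 228) (nat_lit 282315050) (nat_lit 76) (nat_lit 11491119143) (nat_lit 12) (nat_lit 5) (nat_lit 15) (nat_lit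 5) (nat_lit 13) (nat_lit 4) (nat_lit 387) (nat_lit 267) (nat_lit 246)) (XT.lf (nat_lit 0) (nat_lit 13008424418) (nat_lit 152) (nat_lit 2771683291) (nat_lit 0) (nat_lit 1718089050) (nat_lit 11) (nat_lit 5) (nat_lit 13) (nat_lit 4) (nat_lit 11) (nat_lit 4) (nat_lit 388) (nat_lit 267) (nat_lit 245))))))) (XT.nd (nat_lit 780) (nat_lit 2052) (nat_lit 0) (XT.nd (nat_lit 390) (nat_lit 1368) (nat_lit 0) (XT.nd (nat_lit 156) (nat_lit 836) (nat_lit 0) (XT.nd (nat_lit 78) (nat_lit 228) (nat_lit 0) (XT.lf (nat_lit 0) (nat_lit 853077971) (nat_lit 304) (nat_lit 3986504735) (nat_lit 0) (nat_lit 853077971) (nat_lit 76) (nat_lit 5) (nat_lit 80) (nat_lit 4) (nat_lit 76) (nat_lit 4) (nat_lit 364) (nat_lit 268) (nat_lit 268)) (XT.lf (nat_lit 0) (nat_lit 5366037138) (nat_lit 228) (nat_lit 3548209174) (nat_lit 228) (nat_lit 2649737060) (nat_lit 73) (nat_lit 4) (nat_lit 76) (nat_lit 5) (nat_lit 76) (nat_lit 4) (nat_lit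 365) (nat_lit 268) (nat_lit 267))) (XT.nd (nat_lit 78) (nat_lit 532) (nat_lit 0) (XT.lf (nat_lit 0) (nat_lit 4491780720) (nat_lit 304) (nat_lit 4500697206) (nat_lit 0) (nat_lit 2755726663) (nat_lit 69) (nat_lit 5) (nat_lit 73) (nat_lit 4) (nat_lit 69) (nat_lit 4) (nat_lit 366) (nat_lit 268) (nat_lit 266)) (XT.nd (nat_lit 78) (nat_lit 304) (nat_lit 0) (XT.lf (nat_lit 0) (nat_lit 9056390612) (nat_lit 228) (nat_lit 2724100006) (nat_lit 228) (nat_lit 157755616) (nat_lit 66) (nat_lit 4) (nat_lit 69) (nat_lit 5) (nat_lit 69) (nat_lit 4) (nat_lit 367) (nat_lit 268) (nat_lit 265)) (XT.lf (nat_lit 0) (nat_lit 7031001307) (nat_lit 304) (nat_lit 1377985410) (nat_lit 0) (nat_lit 3724676298) (nat_lit 62) (nat_lit 5) (nat_lit 66) (nat_lit 4) (nat_lit 62) (nat_lit 4) (nat_lit 368) (nat_lit 268) (nat_lit 264))))) (XT.nd (nat_lit 156) (nat_lit 684) (nat_lit 0) (XT.nd (nat_lit 78) (nat_lit 228) (nat_lit 0) (XT.lf (nat_lit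 0) (nat_lit 41262323) (nat_lit 152) (nat_lit 1995802008) (nat_lit 228) (nat_lit 10298280910) (nat_lit 56) (nat_lit 5) (nat_lit 58) (nat_lit 5) (nat_lit 59) (nat_lit 4) (nat_lit 369) (nat_lit 268) (nat_lit 263)) (XT.lf (nat_lit 0) (nat_lit 1352753362) (nat_lit 228) (nat_lit 7956984802) (nat_lit 228) (nat_lit 3232923813) (nat_lit 53) (nat_lit 4) (nat_lit 56) (nat_lit 5) (nat_lit 56) (nat_lit 4) (nat_lit 370) (nat_lit 268) (nat_lit 262))) (XT.nd (nat_lit 78) (nat_lit 456) (nat_lit 0) (XT.lf (nat_lit 0) (nat_lit 2554188193) (nat_lit 152) (nat_lit 1399923447) (nat_lit 228) (nat_lit 8802325448) (nat_lit 50) (nat_lit 5) (nat_lit 52) (nat_lit 5) (nat_lit 53) (nat_lit 4) (nat_lit 371) (nat_lit 268) (nat_lit 261)) (XT.nd (nat_lit 78) (nat_lit 228) (nat_lit 0) (XT.lf (nat_lit 0) (nat_lit 3619328564) (nat_lit 228) (nat_lit 7679331695) (nat_lit 228) (nat_lit 1677840004) (nat_lit 47) (nat_lit 4) (nat_lit 50) (nat_lit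 5) (nat_lit 50) (nat_lit 4) (nat_lit 372) (nat_lit 268) (nat_lit 260)) (XT.lf (nat_lit 0) (nat_lit 4548825106) (nat_lit 152) (nat_lit 998484508) (nat_lit 228) (nat_lit 7655915174) (nat_lit 44) (nat_lit 5) (nat_lit 46) (nat_lit 5) (nat_lit 47) (nat_lit 4) (nat_lit 373) (nat_lit 268) (nat_lit 259)))))) (XT.nd (nat_lit 390) (nat_lit 988) (nat_lit 0) (XT.nd (nat_lit 156) (nat_lit 608) (nat_lit 0) (XT.nd (nat_lit 78) (nat_lit 228) (nat_lit 0) (XT.lf (nat_lit 0) (nat_lit 5328948985) (nat_lit 228) (nat_lit 7628838037) (nat_lit 228) (nat_lit 478932126) (nat_lit 41) (nat_lit 4) (nat_lit 44) (nat_lit 5) (nat_lit 44) (nat_lit 4) (nat_lit 374) (nat_lit 268) (nat_lit 258)) (XT.lf (nat_lit 0) (nat_lit 5946771292) (nat_lit 152) (nat_lit 836496723) (nat_lit 228) (nat_lit 6893857501) (nat_lit 38) (nat_lit 5) (nat_lit 40) (nat_lit 5) (nat_lit 41) (nat_lit 4) (nat_lit 375) (nat_lit 268) (nat_lit 257))) (XT.nd (nat_lit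 78) (nat_lit 380) (nat_lit 0) (XT.lf (nat_lit 0) (nat_lit 322744774) (nat_lit 228) (nat_lit 7527778754) (nat_lit 76) (nat_lit 6074230674) (nat_lit 35) (nat_lit 5) (nat_lit 38) (nat_lit 5) (nat_lit 36) (nat_lit 4) (nat_lit 376) (nat_lit 268) (nat_lit 256)) (XT.nd (nat_lit 78) (nat_lit 228) (nat_lit 0) (XT.lf (nat_lit 0) (nat_lit 6661185692) (nat_lit 152) (nat_lit 962815322) (nat_lit 228) (nat_lit 6555678239) (nat_lit 33) (nat_lit 5) (nat_lit 35) (nat_lit 5) (nat_lit 36) (nat_lit 4) (nat_lit 377) (nat_lit 268) (nat_lit 255)) (XT.lf (nat_lit 0) (nat_lit 689211827) (nat_lit 228) (nat_lit 7708352177) (nat_lit 76) (nat_lit 6044683831) (nat_lit 30) (nat_lit 5) (nat_lit 33) (nat_lit 5) (nat_lit 31) (nat_lit 4) (nat_lit 378) (nat_lit 268) (nat_lit 254))))) (XT.nd (nat_lit 234) (nat_lit 456) (nat_lit 0) (XT.nd (nat_lit 78) (nat_lit 380) (nat_lit 0) (XT.lf (nat_lit 0) (nat_lit 6595826356) (nat_lit 152) (nat_lit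 1430656620) (nat_lit 228) (nat_lit 6686075882) (nat_lit 28) (nat_lit 5) (nat_lit 30) (nat_lit 5) (nat_lit 31) (nat_lit 4) (nat_lit 379) (nat_lit 268) (nat_lit 253)) (XT.nd (nat_lit 78) (nat_lit 152) (nat_lit 0) (XT.lf (nat_lit 0) (nat_lit 580280865) (nat_lit 228) (nat_lit 8749123840) (nat_lit 76) (nat_lit 5661607613) (nat_lit 25) (nat_lit 5) (nat_lit 28) (nat_lit 5) (nat_lit 26) (nat_lit 4) (nat_lit 380) (nat_lit 268) (nat_lit 252)) (XT.lf (nat_lit 0) (nat_lit 5643991678) (nat_lit 152) (nat_lit 2298162043) (nat_lit 228) (nat_lit 7335427485) (nat_lit 23) (nat_lit 5) (nat_lit 25) (nat_lit 5) (nat_lit 26) (nat_lit 4) (nat_lit 381) (nat_lit 268) (nat_lit 251)))) (XT.nd (nat_lit 78) (nat_lit 304) (nat_lit 0) (XT.lf (nat_lit 0) (nat_lit 4808590989) (nat_lit 152) (nat_lit 10707227977) (nat_lit 152) (nat_lit 57122076) (nat_lit 21) (nat_lit 4) (nat_lit 23) (nat_lit 5) (nat_lit 23) (nat_lit 4) (nat_lit 382)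 (nat_lit 268) (nat_lit 250)) (XT.nd (nat_lit 78) (nat_lit 152) (nat_lit 0) (XT.lf (nat_lit 0) (nat_lit 3687354025) (nat_lit 76) (nat_lit 3629014261) (nat_lit 152) (nat_lit 8560351204) (nat_lit 19) (nat_lit 5) (nat_lit 20) (nat_lit 5) (nat_lit 21) (nat_lit 4) (nat_lit 383) (nat_lit 268) (nat_lit 249)) (XT.lf (nat_lit 0) (nat_lit 2302355147) (nat_lit 152) (nat_lit 12591078885) (nat_lit 152) (nat_lit 1296518420) (nat_lit 17) (nat_lit 4) (nat_lit 19) (nat_lit 5) (nat_lit 19) (nat_lit 4) (nat_lit 384) (nat_lit 268) (nat_lit 248))))))))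
noncomputable def xc4 : XT := (XT.nd (nat_lit 46332) (nat_lit 0) (nat_lit 0) (XT.nd (nat_lit 45552) (nat_lit 0) (nat_lit 1672) (XT.nd (nat_lit 45162) (nat_lit 0) (nat_lit 4104) (XT.nd (nat_lit 156) (nat_lit 304) (nat_lit 0) (XT.nd (nat_lit 78) (nat_lit 0) (nat_lit 0) (XT.lf (nat_lit 0) (nat_lit 594674242) (nat_lit 76) (nat_lit 5493111400) (nat_lit 152) (nat_lit 10424331142) (nat_lit 15) (nat_lit 5) (nat_lit 16) (nat_lit 5) (nat_lit 17) (nat_lit 4) (nat_lit 385) (nat_lit 268) (nat_lit 247)) (XT.lf (nat_lit 0) (nat_lit 13656593058) (nat_lit 152) (nat_lit 1392613856) (nat_lit 0) (nat_lit 1794966720) (nat_lit 15) (nat_lit 5) (nat_lit 17) (nat_lit 4) (nat_lit 15) (nat_lit 4) (nat_lit 386) (nat_lit 268) (nat_lit 246))) (XT.nd (nat_lit 78) (nat_lit 76) (nat_lit 0) (XT.lf (nat_lit 0) (nat_lit 4212230049) (nat_lit 228) (nat_lit 3730045287) (nat_lit 76) (nat_lit 9243334899) (nat_lit 12) (nat_lit 5) (nat_lit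 15) (nat_lit 5) (nat_lit 13) (nat_lit 4) (nat_lit 387) (nat_lit 268) (nat_lit 245)) (XT.nd (nat_lit 44850) (nat_lit 0) (nat_lit 5852) (XT.lf (nat_lit 0) (nat_lit 11133572693) (nat_lit 76) (nat_lit 618141241) (nat_lit 152) (nat_lit 5785944836) (nat_lit 11) (nat_lit 5) (nat_lit 12) (nat_lit 5) (nat_lit 13) (nat_lit 4) (nat_lit 388) (nat_lit 268) (nat_lit 244)) (XT.lf (nat_lit 0) (nat_lit 5239220643) (nat_lit 304) (nat_lit 140947842) (nat_lit 304) (nat_lit 140947842) (nat_lit 88) (nat_lit 4) (nat_lit 92) (nat_lit 5) (nat_lit 92) (nat_lit 4) (nat_lit 362) (nat_lit 269) (nat_lit 269))))) (XT.nd (nat_lit 156) (nat_lit 836) (nat_lit 0) (XT.nd (nat_lit 78) (nat_lit 304) (nat_lit 0) (XT.lf (nat_lit 0) (nat_lit 1374988949) (nat_lit 304) (nat_lit 5390343159) (nat_lit 304) (nat_lit 4446408355) (nat_lit 80) (nat_lit 4) (nat_lit 84) (nat_lit 5) (nat_lit 84) (nat_lit 4) (nat_lit 363) (nat_lit 269) (nat_lit 268))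 (XT.lf (nat_lit 0) (nat_lit 2552685239) (nat_lit 304) (nat_lit 8105439475) (nat_lit 0) (nat_lit 728786847) (nat_lit 76) (nat_lit 5) (nat_lit 80) (nat_lit 4) (nat_lit 76) (nat_lit 4) (nat_lit 364) (nat_lit 269) (nat_lit 267))) (XT.nd (nat_lit 78) (nat_lit 608) (nat_lit 0) (XT.lf (nat_lit 0) (nat_lit 5101565725) (nat_lit 228) (nat_lit 4580893749) (nat_lit 228) (nat_lit 1884692333) (nat_lit 73) (nat_lit 4) (nat_lit 76) (nat_lit 5) (nat_lit 76) (nat_lit 4) (nat_lit 365) (nat_lit 269) (nat_lit 266)) (XT.nd (nat_lit 78) (nat_lit 304) (nat_lit 0) (XT.lf (nat_lit 0) (nat_lit 5161435111) (nat_lit 304) (nat_lit 4903746979) (nat_lit 0) (nat_lit 1687810057) (nat_lit 69) (nat_lit 5) (nat_lit 73) (nat_lit 4) (nat_lit 69) (nat_lit 4) (nat_lit 366) (nat_lit 269) (nat_lit 265)) (XT.lf (nat_lit 0) (nat_lit 421807466) (nat_lit 304) (nat_lit 3427681091) (nat_lit 76) (nat_lit 8095063231) (nat_lit 65) (nat_lit 5) (nat_lit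 69) (nat_lit 5) (nat_lit 66) (nat_lit 4) (nat_lit 367) (nat_lit 269) (nat_lit 264)))))) (XT.nd (nat_lit 390) (nat_lit 1064) (nat_lit 0) (XT.nd (nat_lit 156) (nat_lit 836) (nat_lit 0) (XT.nd (nat_lit 78) (nat_lit 304) (nat_lit 0) (XT.lf (nat_lit 0) (nat_lit 7522635832) (nat_lit 304) (nat_lit 2059502558) (nat_lit 0) (nat_lit 2559537357) (nat_lit 62) (nat_lit 5) (nat_lit 66) (nat_lit 4) (nat_lit 62) (nat_lit 4) (nat_lit 368) (nat_lit 269) (nat_lit 263)) (XT.lf (nat_lit 0) (nat_lit 2435489472) (nat_lit 304) (nat_lit 788344323) (nat_lit 76) (nat_lit 9121048427) (nat_lit 58) (nat_lit 5) (nat_lit 62) (nat_lit 5) (nat_lit 59) (nat_lit 4) (nat_lit 369) (nat_lit 269) (nat_lit 262))) (XT.nd (nat_lit 78) (nat_lit 456) (nat_lit 0) (XT.lf (nat_lit 0) (nat_lit 371834794) (nat_lit 228) (nat_lit 9243696823) (nat_lit 228) (nat_lit 2938529652) (nat_lit 53) (nat_lit 4) (nat_lit 56) (nat_lit 5) (nat_lit 56) (nat_lit 4)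 (nat_lit 370) (nat_lit 269) (nat_lit 261)) (XT.nd (nat_lit 78) (nat_lit 228) (nat_lit 0) (XT.lf (nat_lit 0) (nat_lit 1419824932) (nat_lit 152) (nat_lit 2745222744) (nat_lit 228) (nat_lit 8604351630) (nat_lit 50) (nat_lit 5) (nat_lit 52) (nat_lit 5) (nat_lit 53) (nat_lit 4) (nat_lit 371) (nat_lit 269) (nat_lit 260)) (XT.lf (nat_lit 0) (nat_lit 2339641891) (nat_lit 228) (nat_lit 9081643453) (nat_lit 228) (nat_lit 1569952303) (nat_lit 47) (nat_lit 4) (nat_lit 50) (nat_lit 5) (nat_lit 50) (nat_lit 4) (nat_lit 372) (nat_lit 269) (nat_lit 259))))) (XT.nd (nat_lit 156) (nat_lit 608) (nat_lit 0) (XT.nd (nat_lit 78) (nat_lit 228) (nat_lit 0) (XT.lf (nat_lit 0) (nat_lit 3111610755) (nat_lit 152) (nat_lit 2462382124) (nat_lit 228) (nat_lit 7645559584) (nat_lit 44) (nat_lit 5) (nat_lit 46) (nat_lit 5) (nat_lit 47) (nat_lit 4) (nat_lit 373) (nat_lit 269) (nat_lit 258)) (XT.lf (nat_lit 0) (nat_lit 3741800557) (nat_lit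 228) (nat_lit 9153329267) (nat_lit 228) (nat_lit 559712075) (nat_lit 41) (nat_lit 4) (nat_lit 44) (nat_lit 5) (nat_lit 44) (nat_lit 4) (nat_lit 374) (nat_lit 269) (nat_lit 257))) (XT.nd (nat_lit 78) (nat_lit 380) (nat_lit 0) (XT.lf (nat_lit 0) (nat_lit 4197854587) (nat_lit 152) (nat_lit 2425590630) (nat_lit 228) (nat_lit 7073423452) (nat_lit 38) (nat_lit 5) (nat_lit 40) (nat_lit 5) (nat_lit 41) (nat_lit 4) (nat_lit 375) (nat_lit 269) (nat_lit 256)) (XT.nd (nat_lit 78) (nat_lit 152) (nat_lit 0) (XT.lf (nat_lit 0) (nat_lit 54394767) (nat_lit 228) (nat_lit 9451170977) (nat_lit 76) (nat_lit 4440785198) (nat_lit 35) (nat_lit 5) (nat_lit 38) (nat_lit 5) (nat_lit 36) (nat_lit 4) (nat_lit 376) (nat_lit 269) (nat_lit 255)) (XT.lf (nat_lit 0) (nat_lit 4591412775) (nat_lit 152) (nat_lit 2683704104) (nat_lit 228) (nat_lit 6927777069) (nat_lit 33) (nat_lit 5) (nat_lit 35) (nat_lit 5) (nat_lit 36) (nat_lit 4) (nat_lit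 377) (nat_lit 269) (nat_lit 254))))))) (XT.nd (nat_lit 780) (nat_lit 76) (nat_lit 0) (XT.nd (nat_lit 390) (nat_lit 684) (nat_lit 0) (XT.nd (nat_lit 156) (nat_lit 532) (nat_lit 0) (XT.nd (nat_lit 78) (nat_lit 152) (nat_lit 0) (XT.lf (nat_lit 0) (nat_lit 229493285) (nat_lit 228) (nat_lit 9959732087) (nat_lit 76) (nat_lit 4278142395) (nat_lit 30) (nat_lit 5) (nat_lit 33) (nat_lit 5) (nat_lit 31) (nat_lit 4) (nat_lit 378) (nat_lit 269) (nat_lit 253)) (XT.lf (nat_lit 0) (nat_lit 4195718346) (nat_lit 152) (nat_lit 3289962161) (nat_lit 228) (nat_lit 7253626679) (nat_lit 28) (nat_lit 5) (nat_lit 30) (nat_lit 5) (nat_lit 31) (nat_lit 4) (nat_lit 379) (nat_lit 269) (nat_lit 252))) (XT.nd (nat_lit 78) (nat_lit 380) (nat_lit 0) (XT.lf (nat_lit 0) (nat_lit 3681050856) (nat_lit 152) (nat_lit 11263830932) (nat_lit 152) (nat_lit 74829673) (nat_lit 26) (nat_lit 4) (nat_lit 28) (nat_lit 5) (nat_lit 28) (nat_lit 4)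 (nat_lit 380) (nat_lit 269) (nat_lit 251)) (XT.nd (nat_lit 78) (nat_lit 152) (nat_lit 0) (XT.lf (nat_lit 0) (nat_lit 2903722227) (nat_lit 152) (nat_lit 4302551367) (nat_lit 228) (nat_lit 8101657700) (nat_lit 23) (nat_lit 5) (nat_lit 25) (nat_lit 5) (nat_lit 26) (nat_lit 4) (nat_lit 381) (nat_lit 269) (nat_lit 250)) (XT.lf (nat_lit 0) (nat_lit 1898475142) (nat_lit 152) (nat_lit 12786394314) (nat_lit 152) (nat_lit 920329089) (nat_lit 21) (nat_lit 4) (nat_lit 23) (nat_lit 5) (nat_lit 23) (nat_lit 4) (nat_lit 382) (nat_lit 269) (nat_lit 249))))) (XT.nd (nat_lit 156) (nat_lit 532) (nat_lit 0) (XT.nd (nat_lit 78) (nat_lit 0) (nat_lit 0) (XT.lf (nat_lit 0) (nat_lit 596726789) (nat_lit 76) (nat_lit 5785220624) (nat_lit 152) (nat_lit 9528798108) (nat_lit 19) (nat_lit 5) (nat_lit 20) (nat_lit 5) (nat_lit 21) (nat_lit 4) (nat_lit 383) (nat_lit 269) (nat_lit 248)) (XT.lf (nat_lit 0) (nat_lit 13868366916) (nat_lit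 152) (nat_lit 950887778) (nat_lit 0) (nat_lit 1406542285) (nat_lit 19) (nat_lit 5) (nat_lit 21) (nat_lit 4) (nat_lit 19) (nat_lit 4) (nat_lit 384) (nat_lit 269) (nat_lit 247))) (XT.nd (nat_lit 78) (nat_lit 304) (nat_lit 0) (XT.lf (nat_lit 0) (nat_lit 4969603806) (nat_lit 228) (nat_lit 2819431048) (nat_lit 76) (nat_lit 8760493207) (nat_lit 16) (nat_lit 5) (nat_lit 19) (nat_lit 5) (nat_lit 17) (nat_lit 4) (nat_lit 385) (nat_lit 269) (nat_lit 246)) (XT.nd (nat_lit 78) (nat_lit 228) (nat_lit 0) (XT.lf (nat_lit 0) (nat_lit 11902451779) (nat_lit 76) (nat_lit 545641607) (nat_lit 152) (nat_lit 4435303029) (nat_lit 15) (nat_lit 5) (nat_lit 16) (nat_lit 5) (nat_lit 17) (nat_lit 4) (nat_lit 386) (nat_lit 269) (nat_lit 245)) (XT.lf (nat_lit 0) (nat_lit 2893936179) (nat_lit 228) (nat_lit 7503424523) (nat_lit 76) (nat_lit 6829377946) (nat_lit 12) (nat_lit 5) (nat_lit 15) (nat_lit 5) (nat_lit 13) (nat_lit 4) (nat_lit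 387) (nat_lit 269) (nat_lit 244)))))) (XT.nd (nat_lit 45006) (nat_lit 0) (nat_lit 3572) (XT.nd (nat_lit 44772) (nat_lit 0) (nat_lit 5244) (XT.nd (nat_lit 44694) (nat_lit 0) (nat_lit 6536) (XT.lf (nat_lit 0) (nat_lit 7202356650) (nat_lit 76) (nat_lit 3147647046) (nat_lit 152) (nat_lit 7230456572) (nat_lit 11) (nat_lit 5) (nat_lit 12) (nat_lit 5) (nat_lit 13) (nat_lit 4) (nat_lit 388) (nat_lit 269) (nat_lit 243)) (XT.lf (nat_lit 0) (nat_lit 3111702601) (nat_lit 304) (nat_lit 1123066983) (nat_lit 304) (nat_lit 1123066983) (nat_lit 97) (nat_lit 4) (nat_lit 101) (nat_lit 5) (nat_lit 101) (nat_lit 4) (nat_lit 360) (nat_lit 270) (nat_lit 270))) (XT.nd (nat_lit 78) (nat_lit 912) (nat_lit 0) (XT.lf (nat_lit 0) (nat_lit 4647077900) (nat_lit 380) (nat_lit 2574571013) (nat_lit 0) (nat_lit 3655379995) (nat_lit 92) (nat_lit 5) (nat_lit 97) (nat_lit 4) (nat_lit 92) (nat_lit 4) (nat_lit 361) (nat_lit 270) (nat_lit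 269)) (XT.nd (nat_lit 78) (nat_lit 532) (nat_lit 0) (XT.lf (nat_lit 0) (nat_lit 623026935) (nat_lit 380) (nat_lit 695996994) (nat_lit 76) (nat_lit 9724678763) (nat_lit 87) (nat_lit 5) (nat_lit 92) (nat_lit 5) (nat_lit 88) (nat_lit 4) (nat_lit 362) (nat_lit 270) (nat_lit 268)) (XT.lf (nat_lit 0) (nat_lit 1114290460) (nat_lit 304) (nat_lit 6466619057) (nat_lit 304) (nat_lit 3633989849) (nat_lit 80) (nat_lit 4) (nat_lit 84) (nat_lit 5) (nat_lit 84) (nat_lit 4) (nat_lit 363) (nat_lit 270) (nat_lit 267))))) (XT.nd (nat_lit 234) (nat_lit 836) (nat_lit 0) (XT.nd (nat_lit 78) (nat_lit 532) (nat_lit 0) (XT.lf (nat_lit 0) (nat_lit 2886286510) (nat_lit 228) (nat_lit 385329728) (nat_lit 304) (nat_lit 8120017289) (nat_lit 76) (nat_lit 5) (nat_lit 79) (nat_lit 5) (nat_lit 80) (nat_lit 4) (nat_lit 364) (nat_lit 270) (nat_lit 266)) (XT.nd (nat_lit 78) (nat_lit 304) (nat_lit 0) (XT.lf (nat_lit 0) (nat_lit 4572391809)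 (nat_lit 228) (nat_lit 5748693128) (nat_lit 228) (nat_lit 1252406506) (nat_lit 73) (nat_lit 4) (nat_lit 76) (nat_lit 5) (nat_lit 76) (nat_lit 4) (nat_lit 365) (nat_lit 270) (nat_lit 265)) (XT.lf (nat_lit 0) (nat_lit 5699659708) (nat_lit 304) (nat_lit 5575887899) (nat_lit 0) (nat_lit 485428450) (nat_lit 69) (nat_lit 5) (nat_lit 73) (nat_lit 4) (nat_lit 69) (nat_lit 4) (nat_lit 366) (nat_lit 270) (nat_lit 264)))) (XT.nd (nat_lit 78) (nat_lit 532) (nat_lit 0) (XT.lf (nat_lit 0) (nat_lit 866872112) (nat_lit 304) (nat_lit 4245777862) (nat_lit 76) (nat_lit 6841391781) (nat_lit 65) (nat_lit 5) (nat_lit 69) (nat_lit 5) (nat_lit 66) (nat_lit 4) (nat_lit 367) (nat_lit 270) (nat_lit 263)) (XT.nd (nat_lit 78) (nat_lit 304) (nat_lit 0) (XT.lf (nat_lit 0) (nat_lit 7881325942) (nat_lit 304) (nat_lit 3014460120) (nat_lit 0) (nat_lit 1257117312) (nat_lit 62) (nat_lit 5) (nat_lit 66) (nat_lit 4) (nat_lit 62) (nat_lit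 4) (nat_lit 368) (nat_lit 270) (nat_lit 262)) (XT.lf (nat_lit 0) (nat_lit 2700155548) (nat_lit 304) (nat_lit 1893131878) (nat_lit 76) (nat_lit 7764351768) (nat_lit 58) (nat_lit 5) (nat_lit 62) (nat_lit 5) (nat_lit 59) (nat_lit 4) (nat_lit 369) (nat_lit 270) (nat_lit 261))))))))
noncomputable def xc5 : XT := (XT.nd (nat_lit 46020) (nat_lit 0) (nat_lit 1444) (XT.nd (nat_lit 780) (nat_lit 1292) (nat_lit 0) (XT.nd (nat_lit 390) (nat_lit 988) (nat_lit 0) (XT.nd (nat_lit 156) (nat_lit 684) (nat_lit 0) (XT.nd (nat_lit 78) (nat_lit 456) (nat_lit 0) (XT.lf (nat_lit 0) (nat_lit 9790634949) (nat_lit 228) (nat_lit 879131719) (nat_lit 0) (nat_lit 1898852227) (nat_lit 56) (nat_lit 5) (nat_lit 59) (nat_lit 4) (nat_lit 56) (nat_lit 4) (nat_lit 370) (nat_lit 270) (nat_lit 260)) (XT.lf (nat_lit 0) (nat_lit 1285079) (nat_lit 152) (nat_lit 4237042345) (nat_lit 228) (nat_lit 8547320813) (nat_lit 50) (nat_lit 5) (nat_lit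 52) (nat_lit 5) (nat_lit 53) (nat_lit 4) (nat_lit 371) (nat_lit 270) (nat_lit 259))) (XT.nd (nat_lit 78) (nat_lit 456) (nat_lit 0) (XT.lf (nat_lit 0) (nat_lit 773304496) (nat_lit 228) (nat_lit 10632212970) (nat_lit 228) (nat_lit 1603758748) (nat_lit 47) (nat_lit 4) (nat_lit 50) (nat_lit 5) (nat_lit 50) (nat_lit 4) (nat_lit 372) (nat_lit 270) (nat_lit 258)) (XT.nd (nat_lit 78) (nat_lit 228) (nat_lit 0) (XT.lf (nat_lit 0) (nat_lit 1385160621) (nat_lit 152) (nat_lit 4075853990) (nat_lit 228) (nat_lit 7778181379) (nat_lit 44) (nat_lit 5) (nat_lit 46) (nat_lit 5) (nat_lit 47) (nat_lit 4) (nat_lit 373) (nat_lit 270) (nat_lit 257)) (XT.lf (nat_lit 0) (nat_lit 1862806013) (nat_lit 228) (nat_lit 10829164261) (nat_lit 228) (nat_lit 784326802) (nat_lit 41) (nat_lit 4) (nat_lit 44) (nat_lit 5) (nat_lit 44) (nat_lit 4) (nat_lit 374) (nat_lit 270) (nat_lit 256))))) (XT.nd (nat_lit 156) (nat_lit 608) (nat_lit 0)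 (XT.nd (nat_lit 78) (nat_lit 152) (nat_lit 0) (XT.lf (nat_lit 0) (nat_lit 2154360830) (nat_lit 152) (nat_lit 4167402987) (nat_lit 228) (nat_lit 7398197086) (nat_lit 38) (nat_lit 5) (nat_lit 40) (nat_lit 5) (nat_lit 41) (nat_lit 4) (nat_lit 375) (nat_lit 270) (nat_lit 255)) (XT.lf (nat_lit 0) (nat_lit 2294618134) (nat_lit 152) (nat_lit 11313698552) (nat_lit 152) (nat_lit 362970617) (nat_lit 36) (nat_lit 4) (nat_lit 38) (nat_lit 5) (nat_lit 38) (nat_lit 4) (nat_lit 376) (nat_lit 270) (nat_lit 254))) (XT.nd (nat_lit 78) (nat_lit 380) (nat_lit 0) (XT.lf (nat_lit 0) (nat_lit 2221426050) (nat_lit 152) (nat_lit 4560556799) (nat_lit 228) (nat_lit 7447512231) (nat_lit 33) (nat_lit 5) (nat_lit 35) (nat_lit 5) (nat_lit 36) (nat_lit 4) (nat_lit 377) (nat_lit 270) (nat_lit 253)) (XT.nd (nat_lit 78) (nat_lit 228) (nat_lit 0) (XT.lf (nat_lit 0) (nat_lit 1976713105) (nat_lit 152) (nat_lit 12137158141) (nat_lit 152)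 (nat_lit 381993419) (nat_lit 31) (nat_lit 4) (nat_lit 33) (nat_lit 5) (nat_lit 33) (nat_lit 4) (nat_lit 378) (nat_lit 270) (nat_lit 252)) (XT.lf (nat_lit 0) (nat_lit 1489450643) (nat_lit 152) (nat_lit 5308589144) (nat_lit 228) (nat_lit 7971443702) (nat_lit 28) (nat_lit 5) (nat_lit 30) (nat_lit 5) (nat_lit 31) (nat_lit 4) (nat_lit 379) (nat_lit 270) (nat_lit 251)))))) (XT.nd (nat_lit 390) (nat_lit 608) (nat_lit 0) (XT.nd (nat_lit 156) (nat_lit 456) (nat_lit 0) (XT.nd (nat_lit 78) (nat_lit 76) (nat_lit 0) (XT.lf (nat_lit 0) (nat_lit 807098182) (nat_lit 152) (nat_lit 13355587574) (nat_lit 152) (nat_lit 889099448) (nat_lit 26) (nat_lit 4) (nat_lit 28) (nat_lit 5) (nat_lit 28) (nat_lit 4) (nat_lit 380) (nat_lit 270) (nat_lit 250)) (XT.lf (nat_lit 0) (nat_lit 6321733771) (nat_lit 228) (nat_lit 147022000) (nat_lit 76) (nat_lit 8872980017) (nat_lit 25) (nat_lit 5) (nat_lit 28) (nat_lit 5) (nat_lit 26) (nat_lit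 4) (nat_lit 381) (nat_lit 270) (nat_lit 249))) (XT.nd (nat_lit 78) (nat_lit 304) (nat_lit 0) (XT.lf (nat_lit 0) (nat_lit 13711643872) (nat_lit 228) (nat_lit 1309887819) (nat_lit 0) (nat_lit 619250916) (nat_lit 23) (nat_lit 5) (nat_lit 26) (nat_lit 4) (nat_lit 23) (nat_lit 4) (nat_lit 382) (nat_lit 270) (nat_lit 248)) (XT.nd (nat_lit 78) (nat_lit 76) (nat_lit 0) (XT.lf (nat_lit 0) (nat_lit 5313170286) (nat_lit 228) (nat_lit 2776043113) (nat_lit 76) (nat_lit 7858716714) (nat_lit 20) (nat_lit 5) (nat_lit 23) (nat_lit 5) (nat_lit 21) (nat_lit 4) (nat_lit 383) (nat_lit 270) (nat_lit 247)) (XT.lf (nat_lit 0) (nat_lit 11766447228) (nat_lit 76) (nat_lit 946040173) (nat_lit 152) (nat_lit 3552241627) (nat_lit 19) (nat_lit 5) (nat_lit 20) (nat_lit 5) (nat_lit 21) (nat_lit 4) (nat_lit 384) (nat_lit 270) (nat_lit 246))))) (XT.nd (nat_lit 156) (nat_lit 304) (nat_lit 0) (XT.nd (nat_lit 78) (nat_lit 76) (nat_lit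 0) (XT.lf (nat_lit 0) (nat_lit 3701578921) (nat_lit 228) (nat_lit 6547454470) (nat_lit 76) (nat_lit 6341364687) (nat_lit 16) (nat_lit 5) (nat_lit 19) (nat_lit 5) (nat_lit 17) (nat_lit 4) (nat_lit 385) (nat_lit 270) (nat_lit 245)) (XT.lf (nat_lit 0) (nat_lit 8018497387) (nat_lit 76) (nat_lit 3078831095) (nat_lit 152) (nat_lit 5828597748) (nat_lit 15) (nat_lit 5) (nat_lit 16) (nat_lit 5) (nat_lit 17) (nat_lit 4) (nat_lit 386) (nat_lit 270) (nat_lit 244))) (XT.nd (nat_lit 78) (nat_lit 76) (nat_lit 0) (XT.lf (nat_lit 0) (nat_lit 1418572112) (nat_lit 228) (nat_lit 11605749885) (nat_lit 76) (nat_lit 4247139001) (nat_lit 12) (nat_lit 5) (nat_lit 15) (nat_lit 5) (nat_lit 13) (nat_lit 4) (nat_lit 387) (nat_lit 270) (nat_lit 243)) (XT.nd (nat_lit 44538) (nat_lit 0) (nat_lit 7220) (XT.lf (nat_lit 0) (nat_lit 2940959579) (nat_lit 76) (nat_lit 5849806111) (nat_lit 152) (nat_lit 8836099025) (nat_lit 11) (nat_lit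 5) (nat_lit 12) (nat_lit 5) (nat_lit 13) (nat_lit 4) (nat_lit 388) (nat_lit 270) (nat_lit 242)) (XT.lf (nat_lit 0) (nat_lit 1021436139) (nat_lit 304) (nat_lit 2090701173) (nat_lit 304) (nat_lit 2090701173) (nat_lit 106) (nat_lit 4) (nat_lit 110) (nat_lit 5) (nat_lit 110) (nat_lit 4) (nat_lit 358) (nat_lit 271) (nat_lit 271))))))) (XT.nd (nat_lit 780) (nat_lit 2432) (nat_lit 0) (XT.nd (nat_lit 390) (nat_lit 1368) (nat_lit 0) (XT.nd (nat_lit 156) (nat_lit 1292) (nat_lit 0) (XT.nd (nat_lit 78) (nat_lit 304) (nat_lit 0) (XT.lf (nat_lit 0) (nat_lit 2568398444) (nat_lit 380) (nat_lit 6464198973) (nat_lit 0) (nat_lit 1526520625) (nat_lit 101) (nat_lit 5) (nat_lit 106) (nat_lit 4) (nat_lit 101) (nat_lit 4) (nat_lit 359) (nat_lit 271) (nat_lit 270)) (XT.lf (nat_lit 0) (nat_lit 6098729502) (nat_lit 304) (nat_lit 3335950926) (nat_lit 304) (nat_lit 1282541245) (nat_lit 97) (nat_lit 4) (nat_lit 101) (nat_lit 5)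 (nat_lit 101) (nat_lit 4) (nat_lit 360) (nat_lit 271) (nat_lit 269))) (XT.nd (nat_lit 78) (nat_lit 912) (nat_lit 0) (XT.lf (nat_lit 0) (nat_lit 5513999299) (nat_lit 380) (nat_lit 2828107783) (nat_lit 0) (nat_lit 2538039054) (nat_lit 92) (nat_lit 5) (nat_lit 97) (nat_lit 4) (nat_lit 92) (nat_lit 4) (nat_lit 361) (nat_lit 271) (nat_lit 268)) (XT.nd (nat_lit 78) (nat_lit 532) (nat_lit 0) (XT.lf (nat_lit 0) (nat_lit 1398613301) (nat_lit 380) (nat_lit 1085531764) (nat_lit 76) (nat_lit 8564112975) (nat_lit 87) (nat_lit 5) (nat_lit 92) (nat_lit 5) (nat_lit 88) (nat_lit 4) (nat_lit 362) (nat_lit 271) (nat_lit 267)) (XT.lf (nat_lit 0) (nat_lit 592665688) (nat_lit 304) (nat_lit 7676176486) (nat_lit 304) (nat_lit 2952377761) (nat_lit 80) (nat_lit 4) (nat_lit 84) (nat_lit 5) (nat_lit 84) (nat_lit 4) (nat_lit 363) (nat_lit 271) (nat_lit 266))))) (XT.nd (nat_lit 156) (nat_lit 836) (nat_lit 0) (XT.nd (nat_lit 78)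 (nat_lit 228) (nat_lit 0) (XT.lf (nat_lit 0) (nat_lit 2223183150) (nat_lit 228) (nat_lit 1643557412) (nat_lit 304) (nat_lit 7532687549) (nat_lit 76) (nat_lit 5) (nat_lit 79) (nat_lit 5) (nat_lit 80) (nat_lit 4) (nat_lit 364) (nat_lit 271) (nat_lit 265)) (XT.lf (nat_lit 0) (nat_lit 3778053003) (nat_lit 228) (nat_lit 7052627720) (nat_lit 228) (nat_lit 752327099) (nat_lit 73) (nat_lit 4) (nat_lit 76) (nat_lit 5) (nat_lit 76) (nat_lit 4) (nat_lit 365) (nat_lit 271) (nat_lit 264))) (XT.nd (nat_lit 78) (nat_lit 532) (nat_lit 0) (XT.lf (nat_lit 0) (nat_lit 5248735509) (nat_lit 228) (nat_lit 863797642) (nat_lit 304) (nat_lit 5659517978) (nat_lit 69) (nat_lit 5) (nat_lit 72) (nat_lit 5) (nat_lit 73) (nat_lit 4) (nat_lit 366) (nat_lit 271) (nat_lit 263)) (XT.nd (nat_lit 78) (nat_lit 228) (nat_lit 0) (XT.lf (nat_lit 0) (nat_lit 1179896205) (nat_lit 304) (nat_lit 5335836524) (nat_lit 76) (nat_lit 5451012184)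 (nat_lit 65) (nat_lit 5) (nat_lit 69) (nat_lit 5) (nat_lit 66) (nat_lit 4) (nat_lit 367) (nat_lit 271) (nat_lit 262)) (XT.lf (nat_lit 0) (nat_lit 7922430310) (nat_lit 228) (nat_lit 186163440) (nat_lit 304) (nat_lit 4058737781) (nat_lit 62) (nat_lit 5) (nat_lit 65) (nat_lit 5) (nat_lit 66) (nat_lit 4) (nat_lit 368) (nat_lit 271) (nat_lit 261)))))) (XT.nd (nat_lit 390) (nat_lit 1216) (nat_lit 0) (XT.nd (nat_lit 156) (nat_lit 760) (nat_lit 0) (XT.nd (nat_lit 78) (nat_lit 152) (nat_lit 0) (XT.lf (nat_lit 0) (nat_lit 2831025922) (nat_lit 304) (nat_lit 3274606853) (nat_lit 76) (nat_lit 6267999893) (nat_lit 58) (nat_lit 5) (nat_lit 62) (nat_lit 5) (nat_lit 59) (nat_lit 4) (nat_lit 369) (nat_lit 271) (nat_lit 260)) (XT.lf (nat_lit 0) (nat_lit 9833662893) (nat_lit 228) (nat_lit 2404346559) (nat_lit 0) (nat_lit 348368888) (nat_lit 56) (nat_lit 5) (nat_lit 59) (nat_lit 4) (nat_lit 56) (nat_lit 4) (nat_lit 370)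 (nat_lit 271) (nat_lit 259))) (XT.nd (nat_lit 78) (nat_lit 456) (nat_lit 0) (XT.lf (nat_lit 0) (nat_lit 4185069782) (nat_lit 304) (nat_lit 1680340032) (nat_lit 76) (nat_lit 6939567165) (nat_lit 52) (nat_lit 5) (nat_lit 56) (nat_lit 5) (nat_lit 53) (nat_lit 4) (nat_lit 371) (nat_lit 271) (nat_lit 258)) (XT.nd (nat_lit 78) (nat_lit 304) (nat_lit 0) (XT.lf (nat_lit 0) (nat_lit 11258361756) (nat_lit 228) (nat_lit 1066874069) (nat_lit 0) (nat_lit 705255522) (nat_lit 50) (nat_lit 5) (nat_lit 53) (nat_lit 4) (nat_lit 50) (nat_lit 4) (nat_lit 372) (nat_lit 271) (nat_lit 257)) (XT.lf (nat_lit 0) (nat_lit 5212379673) (nat_lit 304) (nat_lit 623744607) (nat_lit 76) (nat_lit 7425966180) (nat_lit 46) (nat_lit 5) (nat_lit 50) (nat_lit 5) (nat_lit 47) (nat_lit 4) (nat_lit 373) (nat_lit 271) (nat_lit 256))))) (XT.nd (nat_lit 234) (nat_lit 608) (nat_lit 0) (XT.nd (nat_lit 78) (nat_lit 456) (nat_lit 0) (XT.lf (nat_lit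 0) (nat_lit 12350141480) (nat_lit 228) (nat_lit 305615022) (nat_lit 0) (nat_lit 845306712) (nat_lit 44) (nat_lit 5) (nat_lit 47) (nat_lit 4) (nat_lit 44) (nat_lit 4) (nat_lit 374) (nat_lit 271) (nat_lit 255)) (XT.nd (nat_lit 78) (nat_lit 152) (nat_lit 0) (XT.lf (nat_lit 0) (nat_lit 5879164568) (nat_lit 304) (nat_lit 183062750) (nat_lit 76) (nat_lit 7684170987) (nat_lit 40) (nat_lit 5) (nat_lit 44) (nat_lit 5) (nat_lit 41) (nat_lit 4) (nat_lit 375) (nat_lit 271) (nat_lit 254)) (XT.lf (nat_lit 0) (nat_lit 13073344478) (nat_lit 228) (nat_lit 202866465) (nat_lit 0) (nat_lit 723368421) (nat_lit 38) (nat_lit 5) (nat_lit 41) (nat_lit 4) (nat_lit 38) (nat_lit 4) (nat_lit 376) (nat_lit 271) (nat_lit 253)))) (XT.nd (nat_lit 78) (nat_lit 380) (nat_lit 0) (XT.lf (nat_lit 0) (nat_lit 6147095217) (nat_lit 228) (nat_lit 444932427) (nat_lit 76) (nat_lit 7667419705) (nat_lit 35) (nat_lit 5) (nat_lit 38) (nat_lit 5)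 (nat_lit 36) (nat_lit 4) (nat_lit 377) (nat_lit 271) (nat_lit 252)) (XT.nd (nat_lit 78) (nat_lit 228) (nat_lit 0) (XT.lf (nat_lit 0) (nat_lit 13387578673) (nat_lit 228) (nat_lit 849786766) (nat_lit 0) (nat_lit 290286249) (nat_lit 33) (nat_lit 5) (nat_lit 36) (nat_lit 4) (nat_lit 33) (nat_lit 4) (nat_lit 378) (nat_lit 271) (nat_lit 251)) (XT.lf (nat_lit 0) (nat_lit 5972863495) (nat_lit 228) (nat_lit 1505336324) (nat_lit 76) (nat_lit 7324716246) (nat_lit 30) (nat_lit 5) (nat_lit 33) (nat_lit 5) (nat_lit 31) (nat_lit 4) (nat_lit 379) (nat_lit 271) (nat_lit 250))))))))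
noncomputable def xc6 : XT := (XT.nd (nat_lit 45864) (nat_lit 0) (nat_lit 228) (XT.nd (nat_lit 45084) (nat_lit 0) (nat_lit 4332) (XT.nd (nat_lit 390) (nat_lit 532) (nat_lit 0) (XT.nd (nat_lit 156) (nat_lit 456) (nat_lit 0) (XT.nd (nat_lit 78) (nat_lit 228) (nat_lit 0) (XT.lf (nat_lit 0) (nat_lit 12736231512) (nat_lit 152) (nat_lit 514361018) (nat_lit 228) (nat_lit 1836369735) (nat_lit 28) (nat_lit 5) (nat_lit 30) (nat_lit 5) (nat_lit 31) (nat_lit 4) (nat_lit 380) (nat_lit 271) (nat_lit 249)) (XT.lf (nat_lit 0) (nat_lit 5307691960) (nat_lit 228) (nat_lit 3470646875) (nat_lit 76) (nat_lit 6600286777) (nat_lit 25) (nat_lit 5) (nat_lit 28) (nat_lit 5) (nat_lit 26) (nat_lit 4) (nat_lit 381) (nat_lit 271) (nat_lit 248))) (XT.nd (nat_lit 78) (nat_lit 304) (nat_lit 0) (XT.lf (nat_lit 0) (nat_lit 10860357203) (nat_lit 152) (nat_lit 1752078964) (nat_lit 228) (nat_lit 3066945264) (nat_lit 23) (nat_lit 5) (nat_lit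 25) (nat_lit 5) (nat_lit 26) (nat_lit 4) (nat_lit 382) (nat_lit 271) (nat_lit 247)) (XT.nd (nat_lit 78) (nat_lit 76) (nat_lit 0) (XT.lf (nat_lit 0) (nat_lit 4096788700) (nat_lit 228) (nat_lit 6458777698) (nat_lit 76) (nat_lit 5432985649) (nat_lit 20) (nat_lit 5) (nat_lit 23) (nat_lit 5) (nat_lit 21) (nat_lit 4) (nat_lit 383) (nat_lit 271) (nat_lit 246)) (XT.lf (nat_lit 0) (nat_lit 7929685060) (nat_lit 76) (nat_lit 3484342355) (nat_lit 152) (nat_lit 4892970365) (nat_lit 19) (nat_lit 5) (nat_lit 20) (nat_lit 5) (nat_lit 21) (nat_lit 4) (nat_lit 384) (nat_lit 271) (nat_lit 245))))) (XT.nd (nat_lit 156) (nat_lit 228) (nat_lit 0) (XT.nd (nat_lit 78) (nat_lit 76) (nat_lit 0) (XT.lf (nat_lit 0) (nat_lit 2278741984) (nat_lit 228) (nat_lit 10600452781) (nat_lit 76) (nat_lit 3755645003) (nat_lit 16) (nat_lit 5) (nat_lit 19) (nat_lit 5) (nat_lit 17) (nat_lit 4) (nat_lit 385) (nat_lit 271) (nat_lit 244)) (XT.lf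 (nat_lit 0) (nat_lit 3808348027) (nat_lit 76) (nat_lit 5782961047) (nat_lit 152) (nat_lit 7380727348) (nat_lit 15) (nat_lit 5) (nat_lit 16) (nat_lit 5) (nat_lit 17) (nat_lit 4) (nat_lit 386) (nat_lit 271) (nat_lit 243))) (XT.nd (nat_lit 78) (nat_lit 76) (nat_lit 0) (XT.lf (nat_lit 0) (nat_lit 1277766655) (nat_lit 152) (nat_lit 15824010846) (nat_lit 152) (nat_lit 218010552) (nat_lit 13) (nat_lit 4) (nat_lit 15) (nat_lit 5) (nat_lit 15) (nat_lit 4) (nat_lit 387) (nat_lit 271) (nat_lit 242)) (XT.nd (nat_lit 44382) (nat_lit 0) (nat_lit 8208) (XT.lf (nat_lit 0) (nat_lit 7083378562) (nat_lit 228) (nat_lit 1632645075) (nat_lit 76) (nat_lit 8960674200) (nat_lit 12) (nat_lit 5) (nat_lit 15) (nat_lit 5) (nat_lit 13) (nat_lit 4) (nat_lit 388) (nat_lit 271) (nat_lit 241)) (XT.lf (nat_lit 0) (nat_lit 2025724566) (nat_lit 380) (nat_lit 1004145948) (nat_lit 0) (nat_lit 2025724566) (nat_lit 120) (nat_lit 5) (nat_lit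 125) (nat_lit 4) (nat_lit 120) (nat_lit 4) (nat_lit 356) (nat_lit 272) (nat_lit 272)))))) (XT.nd (nat_lit 390) (nat_lit 1748) (nat_lit 0) (XT.nd (nat_lit 156) (nat_lit 1064) (nat_lit 0) (XT.nd (nat_lit 78) (nat_lit 608) (nat_lit 0) (XT.lf (nat_lit 0) (nat_lit 539229149) (nat_lit 456) (nat_lit 27245891) (nat_lit 76) (nat_lit 9690810486) (nat_lit 114) (nat_lit 5) (nat_lit 120) (nat_lit 5) (nat_lit 115) (nat_lit 4) (nat_lit 357) (nat_lit 272) (nat_lit 271)) (XT.lf (nat_lit 0) (nat_lit 1920087910) (nat_lit 304) (nat_lit 5322223489) (nat_lit 304) (nat_lit 3164911278) (nat_lit 106) (nat_lit 4) (nat_lit 110) (nat_lit 5) (nat_lit 110) (nat_lit 4) (nat_lit 358) (nat_lit 272) (nat_lit 270))) (XT.nd (nat_lit 78) (nat_lit 684) (nat_lit 0) (XT.lf (nat_lit 0) (nat_lit 3487400621) (nat_lit 380) (nat_lit 6713971302) (nat_lit 0) (nat_lit 360856788) (nat_lit 101) (nat_lit 5) (nat_lit 106) (nat_lit 4) (nat_lit 101)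 (nat_lit 4) (nat_lit 359) (nat_lit 272) (nat_lit 269)) (XT.nd (nat_lit 78) (nat_lit 380) (nat_lit 0) (XT.lf (nat_lit 0) (nat_lit 5724593461) (nat_lit 304) (nat_lit 4552944393) (nat_lit 304) (nat_lit 444330790) (nat_lit 97) (nat_lit 4) (nat_lit 101) (nat_lit 5) (nat_lit 101) (nat_lit 4) (nat_lit 360) (nat_lit 272) (nat_lit 268)) (XT.lf (nat_lit 0) (nat_lit 6256901698) (nat_lit 380) (nat_lit 3335402862) (nat_lit 0) (nat_lit 1294078758) (nat_lit 92) (nat_lit 5) (nat_lit 97) (nat_lit 4) (nat_lit 92) (nat_lit 4) (nat_lit 361) (nat_lit 272) (nat_lit 267))))) (XT.nd (nat_lit 156) (nat_lit 1140) (nat_lit 0) (XT.nd (nat_lit 78) (nat_lit 228) (nat_lit 0) (XT.lf (nat_lit 0) (nat_lit 2049238222) (nat_lit 380) (nat_lit 1730905796) (nat_lit 76) (nat_lit 7275795266) (nat_lit 87) (nat_lit 5) (nat_lit 92) (nat_lit 5) (nat_lit 88) (nat_lit 4) (nat_lit 362) (nat_lit 272) (nat_lit 266)) (XT.lf (nat_lit 0) (nat_lit 8830967004)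 (nat_lit 304) (nat_lit 187844798) (nat_lit 0) (nat_lit 2211871171) (nat_lit 84) (nat_lit 5) (nat_lit 88) (nat_lit 4) (nat_lit 84) (nat_lit 4) (nat_lit 363) (nat_lit 272) (nat_lit 265))) (XT.nd (nat_lit 78) (nat_lit 532) (nat_lit 0) (XT.lf (nat_lit 0) (nat_lit 1296473139) (nat_lit 228) (nat_lit 3037310434) (nat_lit 304) (nat_lit 7076614446) (nat_lit 76) (nat_lit 5) (nat_lit 79) (nat_lit 5) (nat_lit 80) (nat_lit 4) (nat_lit 364) (nat_lit 272) (nat_lit 264)) (XT.nd (nat_lit 78) (nat_lit 304) (nat_lit 0) (XT.lf (nat_lit 0) (nat_lit 2717855226) (nat_lit 228) (nat_lit 8493836886) (nat_lit 228) (nat_lit 384017147) (nat_lit 73) (nat_lit 4) (nat_lit 76) (nat_lit 5) (nat_lit 76) (nat_lit 4) (nat_lit 365) (nat_lit 272) (nat_lit 263)) (XT.lf (nat_lit 0) (nat_lit 4040919853) (nat_lit 228) (nat_lit 2357975953) (nat_lit 304) (nat_lit 5387361643) (nat_lit 69) (nat_lit 5) (nat_lit 72) (nat_lit 5) (nat_lit 73) (nat_lit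 4) (nat_lit 366) (nat_lit 272) (nat_lit 262))))))) (XT.nd (nat_lit 780) (nat_lit 1748) (nat_lit 0) (XT.nd (nat_lit 390) (nat_lit 1064) (nat_lit 0) (XT.nd (nat_lit 156) (nat_lit 760) (nat_lit 0) (XT.nd (nat_lit 78) (nat_lit 228) (nat_lit 0) (XT.lf (nat_lit 0) (nat_lit 1361153262) (nat_lit 304) (nat_lit 6698809555) (nat_lit 76) (nat_lit 3922709546) (nat_lit 65) (nat_lit 5) (nat_lit 69) (nat_lit 5) (nat_lit 66) (nat_lit 4) (nat_lit 367) (nat_lit 272) (nat_lit 261)) (XT.lf (nat_lit 0) (nat_lit 6424932535) (nat_lit 228) (nat_lit 1787684996) (nat_lit 304) (nat_lit 3972195700) (nat_lit 62) (nat_lit 5) (nat_lit 65) (nat_lit 5) (nat_lit 66) (nat_lit 4) (nat_lit 368) (nat_lit 272) (nat_lit 260))) (XT.nd (nat_lit 78) (nat_lit 456) (nat_lit 0) (XT.lf (nat_lit 0) (nat_lit 2828214944) (nat_lit 304) (nat_lit 4933976362) (nat_lit 76) (nat_lit 4630685308) (nat_lit 58) (nat_lit 5) (nat_lit 62) (nat_lit 5) (nat_lit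 59) (nat_lit 4) (nat_lit 369) (nat_lit 272) (nat_lit 259)) (XT.nd (nat_lit 78) (nat_lit 304) (nat_lit 0) (XT.lf (nat_lit 0) (nat_lit 8388359608) (nat_lit 152) (nat_lit 1362726968) (nat_lit 228) (nat_lit 2856139874) (nat_lit 56) (nat_lit 5) (nat_lit 58) (nat_lit 5) (nat_lit 59) (nat_lit 4) (nat_lit 370) (nat_lit 272) (nat_lit 258)) (XT.lf (nat_lit 0) (nat_lit 3996034806) (nat_lit 304) (nat_lit 3645090466) (nat_lit 76) (nat_lit 5186461018) (nat_lit 52) (nat_lit 5) (nat_lit 56) (nat_lit 5) (nat_lit 53) (nat_lit 4) (nat_lit 371) (nat_lit 272) (nat_lit 257))))) (XT.nd (nat_lit 156) (nat_lit 608) (nat_lit 0) (XT.nd (nat_lit 78) (nat_lit 304) (nat_lit 0) (XT.lf (nat_lit 0) (nat_lit 9864721127) (nat_lit 152) (nat_lit 1122130418) (nat_lit 228) (nat_lit 2067906805) (nat_lit 50) (nat_lit 5) (nat_lit 52) (nat_lit 5) (nat_lit 53) (nat_lit 4) (nat_lit 372) (nat_lit 272) (nat_lit 256)) (XT.lf (nat_lit 0) (nat_lit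 4834656172) (nat_lit 304) (nat_lit 2903153854) (nat_lit 76) (nat_lit 5550310143) (nat_lit 46) (nat_lit 5) (nat_lit 50) (nat_lit 5) (nat_lit 47) (nat_lit 4) (nat_lit 373) (nat_lit 272) (nat_lit 255))) (XT.nd (nat_lit 78) (nat_lit 456) (nat_lit 0) (XT.lf (nat_lit 0) (nat_lit 10780466504) (nat_lit 152) (nat_lit 1108072627) (nat_lit 228) (nat_lit 1640238933) (nat_lit 44) (nat_lit 5) (nat_lit 46) (nat_lit 5) (nat_lit 47) (nat_lit 4) (nat_lit 374) (nat_lit 272) (nat_lit 254)) (XT.nd (nat_lit 78) (nat_lit 152) (nat_lit 0) (XT.lf (nat_lit 0) (nat_lit 5309980317) (nat_lit 304) (nat_lit 2786725003) (nat_lit 76) (nat_lit 5679204267) (nat_lit 40) (nat_lit 5) (nat_lit 44) (nat_lit 5) (nat_lit 41) (nat_lit 4) (nat_lit 375) (nat_lit 272) (nat_lit 253)) (XT.lf (nat_lit 0) (nat_lit 11054158437) (nat_lit 152) (nat_lit 1366323823) (nat_lit 228) (nat_lit 1610288934) (nat_lit 38) (nat_lit 5) (nat_lit 40) (nat_lit 5) (nat_lit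 41) (nat_lit 4) (nat_lit 376) (nat_lit 272) (nat_lit 252)))))) (XT.nd (nat_lit 390) (nat_lit 760) (nat_lit 0) (XT.nd (nat_lit 156) (nat_lit 608) (nat_lit 0) (XT.nd (nat_lit 78) (nat_lit 152) (nat_lit 0) (XT.lf (nat_lit 0) (nat_lit 5383370247) (nat_lit 228) (nat_lit 3382781027) (nat_lit 76) (nat_lit 5526356236) (nat_lit 35) (nat_lit 5) (nat_lit 38) (nat_lit 5) (nat_lit 36) (nat_lit 4) (nat_lit 377) (nat_lit 272) (nat_lit 251)) (XT.lf (nat_lit 0) (nat_lit 10595574987) (nat_lit 152) (nat_lit 1946730278) (nat_lit 228) (nat_lit 2020044010) (nat_lit 33) (nat_lit 5) (nat_lit 35) (nat_lit 5) (nat_lit 36) (nat_lit 4) (nat_lit 378) (nat_lit 272) (nat_lit 250))) (XT.nd (nat_lit 78) (nat_lit 380) (nat_lit 0) (XT.lf (nat_lit 0) (nat_lit 5011209170) (nat_lit 228) (nat_lit 4787666655) (nat_lit 76) (nat_lit 5040722730) (nat_lit 30) (nat_lit 5) (nat_lit 33) (nat_lit 5) (nat_lit 31) (nat_lit 4) (nat_lit 379) (nat_lit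 272) (nat_lit 249)) (XT.nd (nat_lit 78) (nat_lit 228) (nat_lit 0) (XT.lf (nat_lit 0) (nat_lit 9304720974) (nat_lit 152) (nat_lit 2903740947) (nat_lit 228) (nat_lit 2916798330) (nat_lit 28) (nat_lit 5) (nat_lit 30) (nat_lit 5) (nat_lit 31) (nat_lit 4) (nat_lit 380) (nat_lit 272) (nat_lit 248)) (XT.lf (nat_lit 0) (nat_lit 4144409215) (nat_lit 228) (nat_lit 7108139376) (nat_lit 76) (nat_lit 4166461469) (nat_lit 25) (nat_lit 5) (nat_lit 28) (nat_lit 5) (nat_lit 26) (nat_lit 4) (nat_lit 381) (nat_lit 272) (nat_lit 247))))) (XT.nd (nat_lit 234) (nat_lit 304) (nat_lit 0) (XT.nd (nat_lit 78) (nat_lit 304) (nat_lit 0) (XT.lf (nat_lit 0) (nat_lit 7070738920) (nat_lit 152) (nat_lit 4296982735) (nat_lit 228) (nat_lit 4353678375) (nat_lit 23) (nat_lit 5) (nat_lit 25) (nat_lit 5) (nat_lit 26) (nat_lit 4) (nat_lit 382) (nat_lit 272) (nat_lit 246)) (XT.nd (nat_lit 78) (nat_lit 76) (nat_lit 0) (XT.lf (nat_lit 0) (nat_lit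 2727865449) (nat_lit 228) (nat_lit 10462521067) (nat_lit 76) (nat_lit 2842337784) (nat_lit 20) (nat_lit 5) (nat_lit 23) (nat_lit 5) (nat_lit 21) (nat_lit 4) (nat_lit 383) (nat_lit 272) (nat_lit 245)) (XT.lf (nat_lit 0) (nat_lit 3770708826) (nat_lit 76) (nat_lit 6191889986) (nat_lit 152) (nat_lit 6390226426) (nat_lit 19) (nat_lit 5) (nat_lit 20) (nat_lit 5) (nat_lit 21) (nat_lit 4) (nat_lit 384) (nat_lit 272) (nat_lit 244)))) (XT.nd (nat_lit 78) (nat_lit 76) (nat_lit 0) (XT.lf (nat_lit 0) (nat_lit 699849739) (nat_lit 228) (nat_lit 14981967433) (nat_lit 76) (nat_lit 1001074789) (nat_lit 16) (nat_lit 5) (nat_lit 19) (nat_lit 5) (nat_lit 17) (nat_lit 4) (nat_lit 385) (nat_lit 272) (nat_lit 243)) (XT.nd (nat_lit 78) (nat_lit 76) (nat_lit 0) (XT.lf (nat_lit 0) (nat_lit 7933469743) (nat_lit 228) (nat_lit 722079021) (nat_lit 76) (nat_lit 8366123505) (nat_lit 16) (nat_lit 5) (nat_lit 19) (nat_lit 5) (nat_lit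 17) (nat_lit 4) (nat_lit 386) (nat_lit 272) (nat_lit 242)) (XT.lf (nat_lit 0) (nat_lit 13953561539) (nat_lit 76) (nat_lit 1414270297) (nat_lit 152) (nat_lit 2003118764) (nat_lit 15) (nat_lit 5) (nat_lit 16) (nat_lit 5) (nat_lit 17) (nat_lit 4) (nat_lit 387) (nat_lit 272) (nat_lit 241))))))))
noncomputable def xc7 : XT := (XT.nd (nat_lit 45786) (nat_lit 0) (nat_lit 0) (XT.nd (nat_lit 44928) (nat_lit 0) (nat_lit 2584) (XT.nd (nat_lit 44538) (nat_lit 0) (nat_lit 5700) (XT.nd (nat_lit 44304) (nat_lit 0) (nat_lit 7752) (XT.nd (nat_lit 44226) (nat_lit 0) (nat_lit 8968) (XT.lf (nat_lit 0) (nat_lit 5236888609) (nat_lit 228) (nat_lit 6501166528) (nat_lit 76) (nat_lit 5991737279) (nat_lit 12) (nat_lit 5) (nat_lit 15) (nat_lit 5) (nat_lit 13) (nat_lit 4) (nat_lit 388) (nat_lit 272) (nat_lit 240)) (XT.lf (nat_lit 0) (nat_lit 981176073) (nat_lit 456) (nat_lit 2953397308) (nat_lit 0) (nat_lit 981176073) (nat_lit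 130) (nat_lit 5) (nat_lit 136) (nat_lit 4) (nat_lit 130) (nat_lit 4) (nat_lit 354) (nat_lit 273) (nat_lit 273))) (XT.nd (nat_lit 78) (nat_lit 836) (nat_lit 0) (XT.lf (nat_lit 0) (nat_lit 5968964886) (nat_lit 380) (nat_lit 2586985446) (nat_lit 380) (nat_lit 1414002342) (nat_lit 125) (nat_lit 4) (nat_lit 130) (nat_lit 5) (nat_lit 130) (nat_lit 4) (nat_lit 355) (nat_lit 273) (nat_lit 272)) (XT.nd (nat_lit 78) (nat_lit 456) (nat_lit 0) (XT.lf (nat_lit 0) (nat_lit 5125802188) (nat_lit 380) (nat_lit 2127585843) (nat_lit 0) (nat_lit 2859329980) (nat_lit 120) (nat_lit 5) (nat_lit 125) (nat_lit 4) (nat_lit 120) (nat_lit 4) (nat_lit 356) (nat_lit 273) (nat_lit 271)) (XT.lf (nat_lit 0) (nat_lit 1522498586) (nat_lit 456) (nat_lit 274994745) (nat_lit 76) (nat_lit 8462704948) (nat_lit 114) (nat_lit 5) (nat_lit 120) (nat_lit 5) (nat_lit 115) (nat_lit 4) (nat_lit 357) (nat_lit 273) (nat_lit 270))))) (XT.nd (nat_lit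 156) (nat_lit 1064) (nat_lit 0) (XT.nd (nat_lit 78) (nat_lit 380) (nat_lit 0) (XT.lf (nat_lit 0) (nat_lit 1551627522) (nat_lit 304) (nat_lit 6588371541) (nat_lit 304) (nat_lit 2271862089) (nat_lit 106) (nat_lit 4) (nat_lit 110) (nat_lit 5) (nat_lit 110) (nat_lit 4) (nat_lit 358) (nat_lit 273) (nat_lit 269)) (XT.lf (nat_lit 0) (nat_lit 3348480377) (nat_lit 304) (nat_lit 941965658) (nat_lit 380) (nat_lit 6277884415) (nat_lit 101) (nat_lit 5) (nat_lit 105) (nat_lit 5) (nat_lit 106) (nat_lit 4) (nat_lit 359) (nat_lit 273) (nat_lit 268))) (XT.nd (nat_lit 78) (nat_lit 684) (nat_lit 0) (XT.lf (nat_lit 0) (nat_lit 265698819) (nat_lit 380) (nat_lit 5630695961) (nat_lit 76) (nat_lit 4833188365) (nat_lit 96) (nat_lit 5) (nat_lit 101) (nat_lit 5) (nat_lit 97) (nat_lit 4) (nat_lit 360) (nat_lit 273) (nat_lit 267)) (XT.nd (nat_lit 78) (nat_lit 380) (nat_lit 0) (XT.lf (nat_lit 0) (nat_lit 6798325732) (nat_lit 304)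 (nat_lit 78618948) (nat_lit 380) (nat_lit 4018791013) (nat_lit 92) (nat_lit 5) (nat_lit 96) (nat_lit 5) (nat_lit 97) (nat_lit 4) (nat_lit 361) (nat_lit 273) (nat_lit 266)) (XT.lf (nat_lit 0) (nat_lit 2575470205) (nat_lit 380) (nat_lit 2632683009) (nat_lit 76) (nat_lit 5858599922) (nat_lit 87) (nat_lit 5) (nat_lit 92) (nat_lit 5) (nat_lit 88) (nat_lit 4) (nat_lit 362) (nat_lit 273) (nat_lit 265)))))) (XT.nd (nat_lit 390) (nat_lit 1444) (nat_lit 0) (XT.nd (nat_lit 156) (nat_lit 836) (nat_lit 0) (XT.nd (nat_lit 78) (nat_lit 608) (nat_lit 0) (XT.lf (nat_lit 0) (nat_lit 9272087771) (nat_lit 304) (nat_lit 1219211574) (nat_lit 0) (nat_lit 751911153) (nat_lit 84) (nat_lit 5) (nat_lit 88) (nat_lit 4) (nat_lit 84) (nat_lit 4) (nat_lit 363) (nat_lit 273) (nat_lit 264)) (XT.lf (nat_lit 0) (nat_lit 105346730) (nat_lit 228) (nat_lit 4567806636) (nat_lit 304) (nat_lit 6751399468) (nat_lit 76) (nat_lit 5) (nat_lit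 79) (nat_lit 5) (nat_lit 80) (nat_lit 4) (nat_lit 364) (nat_lit 273) (nat_lit 263))) (XT.nd (nat_lit 78) (nat_lit 608) (nat_lit 0) (XT.lf (nat_lit 0) (nat_lit 1390872092) (nat_lit 228) (nat_lit 10073579933) (nat_lit 228) (nat_lit 147154827) (nat_lit 73) (nat_lit 4) (nat_lit 76) (nat_lit 5) (nat_lit 76) (nat_lit 4) (nat_lit 365) (nat_lit 273) (nat_lit 262)) (XT.nd (nat_lit 78) (nat_lit 304) (nat_lit 0) (XT.lf (nat_lit 0) (nat_lit 2563843299) (nat_lit 228) (nat_lit 3991960985) (nat_lit 304) (nat_lit 5247867017) (nat_lit 69) (nat_lit 5) (nat_lit 72) (nat_lit 5) (nat_lit 73) (nat_lit 4) (nat_lit 366) (nat_lit 273) (nat_lit 261)) (XT.lf (nat_lit 0) (nat_lit 1410801662) (nat_lit 304) (nat_lit 8335887902) (nat_lit 76) (nat_lit 2255148457) (nat_lit 65) (nat_lit 5) (nat_lit 69) (nat_lit 5) (nat_lit 66) (nat_lit 4) (nat_lit 367) (nat_lit 273) (nat_lit 260))))) (XT.nd (nat_lit 234) (nat_lit 760) (nat_lit 0)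 (XT.nd (nat_lit 78) (nat_lit 456) (nat_lit 0) (XT.lf (nat_lit 0) (nat_lit 4653077356) (nat_lit 228) (nat_lit 3532140316) (nat_lit 304) (nat_lit 4020311488) (nat_lit 62) (nat_lit 5) (nat_lit 65) (nat_lit 5) (nat_lit 66) (nat_lit 4) (nat_lit 368) (nat_lit 273) (nat_lit 259)) (XT.nd (nat_lit 78) (nat_lit 152) (nat_lit 0) (XT.lf (nat_lit 0) (nat_lit 2691720160) (nat_lit 304) (nat_lit 6872690339) (nat_lit 76) (nat_lit 2850977351) (nat_lit 58) (nat_lit 5) (nat_lit 62) (nat_lit 5) (nat_lit 59) (nat_lit 4) (nat_lit 369) (nat_lit 273) (nat_lit 258)) (XT.lf (nat_lit 0) (nat_lit 6312630409) (nat_lit 152) (nat_lit 3224588692) (nat_lit 228) (nat_lit 3094074639) (nat_lit 56) (nat_lit 5) (nat_lit 58) (nat_lit 5) (nat_lit 59) (nat_lit 4) (nat_lit 370) (nat_lit 273) (nat_lit 257)))) (XT.nd (nat_lit 78) (nat_lit 456) (nat_lit 0) (XT.lf (nat_lit 0) (nat_lit 3671048978) (nat_lit 304) (nat_lit 5894699849) (nat_lit 76)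 (nat_lit 3287747268) (nat_lit 52) (nat_lit 5) (nat_lit 56) (nat_lit 5) (nat_lit 53) (nat_lit 4) (nat_lit 371) (nat_lit 273) (nat_lit 256)) (XT.nd (nat_lit 78) (nat_lit 304) (nat_lit 0) (XT.lf (nat_lit 0) (nat_lit 7475732265) (nat_lit 152) (nat_lit 3108314549) (nat_lit 228) (nat_lit 2498185665) (nat_lit 50) (nat_lit 5) (nat_lit 52) (nat_lit 5) (nat_lit 53) (nat_lit 4) (nat_lit 372) (nat_lit 273) (nat_lit 255)) (XT.lf (nat_lit 0) (nat_lit 4318520679) (nat_lit 304) (nat_lit 5473225466) (nat_lit 76) (nat_lit 3525741586) (nat_lit 46) (nat_lit 5) (nat_lit 50) (nat_lit 5) (nat_lit 47) (nat_lit 4) (nat_lit 373) (nat_lit 273) (nat_lit 254))))))) (XT.nd (nat_lit 780) (nat_lit 608) (nat_lit 0) (XT.nd (nat_lit 390) (nat_lit 988) (nat_lit 0) (XT.nd (nat_lit 156) (nat_lit 532) (nat_lit 0) (XT.nd (nat_lit 78) (nat_lit 304) (nat_lit 0) (XT.lf (nat_lit 0) (nat_lit 8068518881) (nat_lit 152) (nat_lit 3225499201) (nat_lit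 228) (nat_lit 2265702600) (nat_lit 44) (nat_lit 5) (nat_lit 46) (nat_lit 5) (nat_lit 47) (nat_lit 4) (nat_lit 374) (nat_lit 273) (nat_lit 253)) (XT.lf (nat_lit 0) (nat_lit 4599726180) (nat_lit 304) (nat_lit 5687155801) (nat_lit 76) (nat_lit 3521918302) (nat_lit 40) (nat_lit 5) (nat_lit 44) (nat_lit 5) (nat_lit 41) (nat_lit 4) (nat_lit 375) (nat_lit 273) (nat_lit 252))) (XT.nd (nat_lit 78) (nat_lit 380) (nat_lit 0) (XT.lf (nat_lit 0) (nat_lit 8009216330) (nat_lit 152) (nat_lit 3621940101) (nat_lit 228) (nat_lit 2434093681) (nat_lit 38) (nat_lit 5) (nat_lit 40) (nat_lit 5) (nat_lit 41) (nat_lit 4) (nat_lit 376) (nat_lit 273) (nat_lit 251)) (XT.nd (nat_lit 78) (nat_lit 152) (nat_lit 0) (XT.lf (nat_lit 0) (nat_lit 4475717633) (nat_lit 228) (nat_lit 6623821203) (nat_lit 76) (nat_lit 3229454069) (nat_lit 35) (nat_lit 5) (nat_lit 38) (nat_lit 5) (nat_lit 36) (nat_lit 4) (nat_lit 377) (nat_lit 273) (nat_lit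 250)) (XT.lf (nat_lit 0) (nat_lit 7207242854) (nat_lit 152) (nat_lit 4347533081) (nat_lit 228) (nat_lit 3045662542) (nat_lit 33) (nat_lit 5) (nat_lit 35) (nat_lit 5) (nat_lit 36) (nat_lit 4) (nat_lit 378) (nat_lit 273) (nat_lit 249))))) (XT.nd (nat_lit 156) (nat_lit 608) (nat_lit 0) (XT.nd (nat_lit 78) (nat_lit 152) (nat_lit 0) (XT.lf (nat_lit 0) (nat_lit 3902566030) (nat_lit 228) (nat_lit 8379942816) (nat_lit 76) (nat_lit 2597247574) (nat_lit 30) (nat_lit 5) (nat_lit 33) (nat_lit 5) (nat_lit 31) (nat_lit 4) (nat_lit 379) (nat_lit 273) (nat_lit 248)) (XT.lf (nat_lit 0) (nat_lit 5562220144) (nat_lit 152) (nat_lit 5456798245) (nat_lit 228) (nat_lit 4148021532) (nat_lit 28) (nat_lit 5) (nat_lit 30) (nat_lit 5) (nat_lit 31) (nat_lit 4) (nat_lit 380) (nat_lit 273) (nat_lit 247))) (XT.nd (nat_lit 78) (nat_lit 380) (nat_lit 0) (XT.lf (nat_lit 0) (nat_lit 2830869074) (nat_lit 228) (nat_lit 11062677893) (nat_lit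 76) (nat_lit 1569377450) (nat_lit 25) (nat_lit 5) (nat_lit 28) (nat_lit 5) (nat_lit 26) (nat_lit 4) (nat_lit 381) (nat_lit 273) (nat_lit 246)) (XT.nd (nat_lit 78) (nat_lit 228) (nat_lit 0) (XT.lf (nat_lit 0) (nat_lit 2962884122) (nat_lit 152) (nat_lit 7009454581) (nat_lit 228) (nat_lit 5794617896) (nat_lit 23) (nat_lit 5) (nat_lit 25) (nat_lit 5) (nat_lit 26) (nat_lit 4) (nat_lit 382) (nat_lit 273) (nat_lit 245)) (XT.lf (nat_lit 0) (nat_lit 1205204387) (nat_lit 228) (nat_lit 14790771638) (nat_lit 76) (nat_lit 84509448) (nat_lit 20) (nat_lit 5) (nat_lit 23) (nat_lit 5) (nat_lit 21) (nat_lit 4) (nat_lit 383) (nat_lit 273) (nat_lit 244)))))) (XT.nd (nat_lit 44382) (nat_lit 0) (nat_lit 7752) (XT.nd (nat_lit 156) (nat_lit 532) (nat_lit 0) (XT.nd (nat_lit 78) (nat_lit 76) (nat_lit 0) (XT.lf (nat_lit 0) (nat_lit 8361569868) (nat_lit 228) (nat_lit 704749775) (nat_lit 76) (nat_lit 7335839075) (nat_lit 20)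 (nat_lit 5) (nat_lit 23) (nat_lit 5) (nat_lit 21) (nat_lit 4) (nat_lit 384) (nat_lit 273) (nat_lit 243)) (XT.lf (nat_lit 0) (nat_lit 13792076509) (nat_lit 76) (nat_lit 1923894725) (nat_lit 152) (nat_lit 1017853783) (nat_lit 19) (nat_lit 5) (nat_lit 20) (nat_lit 5) (nat_lit 21) (nat_lit 4) (nat_lit 385) (nat_lit 273) (nat_lit 242))) (XT.nd (nat_lit 78) (nat_lit 304) (nat_lit 0) (XT.lf (nat_lit 0) (nat_lit 6144501056) (nat_lit 228) (nat_lit 5532021270) (nat_lit 76) (nat_lit 5397912034) (nat_lit 16) (nat_lit 5) (nat_lit 19) (nat_lit 5) (nat_lit 17) (nat_lit 4) (nat_lit 386) (nat_lit 273) (nat_lit 241)) (XT.nd (nat_lit 78) (nat_lit 228) (nat_lit 0) (XT.lf (nat_lit 0) (nat_lit 8985173774) (nat_lit 76) (nat_lit 4510323035) (nat_lit 152) (nat_lit 3929887650) (nat_lit 15) (nat_lit 5) (nat_lit 16) (nat_lit 5) (nat_lit 17) (nat_lit 4) (nat_lit 387) (nat_lit 273) (nat_lit 240)) (XT.lf (nat_lit 0) (nat_lit 3230587732)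 (nat_lit 228) (nat_lit 11707430040) (nat_lit 76) (nat_lit 2848558965) (nat_lit 12) (nat_lit 5) (nat_lit 15) (nat_lit 5) (nat_lit 13) (nat_lit 4) (nat_lit 388) (nat_lit 273) (nat_lit 239))))) (XT.nd (nat_lit 234) (nat_lit 1216) (nat_lit 0) (XT.nd (nat_lit 78) (nat_lit 1292) (nat_lit 0) (XT.lf (nat_lit 0) (nat_lit 4737591433) (nat_lit 380) (nat_lit 22747820) (nat_lit 380) (nat_lit 22747820) (nat_lit 147) (nat_lit 4) (nat_lit 152) (nat_lit 5) (nat_lit 152) (nat_lit 4) (nat_lit 352) (nat_lit 274) (nat_lit 274)) (XT.nd (nat_lit 78) (nat_lit 456) (nat_lit 0) (XT.lf (nat_lit 0) (nat_lit 1856504574) (nat_lit 380) (nat_lit 4536554436) (nat_lit 380) (nat_lit 3304218386) (nat_lit 136) (nat_lit 4) (nat_lit 141) (nat_lit 5) (nat_lit 141) (nat_lit 4) (nat_lit 353) (nat_lit 274) (nat_lit 273)) (XT.lf (nat_lit 0) (nat_lit 3094993904) (nat_lit 456) (nat_lit 6024193433) (nat_lit 0) (nat_lit 713838202) (nat_lit 130)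 (nat_lit 5) (nat_lit 136) (nat_lit 4) (nat_lit 130) (nat_lit 4) (nat_lit 354) (nat_lit 274) (nat_lit 272)))) (XT.nd (nat_lit 78) (nat_lit 836) (nat_lit 0) (XT.lf (nat_lit 0) (nat_lit 5734511740) (nat_lit 380) (nat_lit 3879227210) (nat_lit 380) (nat_lit 359252960) (nat_lit 125) (nat_lit 4) (nat_lit 130) (nat_lit 5) (nat_lit 130) (nat_lit 4) (nat_lit 355) (nat_lit 274) (nat_lit 271)) (XT.nd (nat_lit 78) (nat_lit 456) (nat_lit 0) (XT.lf (nat_lit 0) (nat_lit 6083327900) (nat_lit 380) (nat_lit 2485571919) (nat_lit 0) (nat_lit 1548403070) (nat_lit 120) (nat_lit 5) (nat_lit 125) (nat_lit 4) (nat_lit 120) (nat_lit 4) (nat_lit 356) (nat_lit 274) (nat_lit 270)) (XT.lf (nat_lit 0) (nat_lit 2388050808) (nat_lit 456) (nat_lit 763459946) (nat_lit 76) (nat_lit 7114660559) (nat_lit 114) (nat_lit 5) (nat_lit 120) (nat_lit 5) (nat_lit 115) (nat_lit 4) (nat_lit 357) (nat_lit 274) (nat_lit 269))))))))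
noncomputable def xc8 : XT := (XT.nd (nat_lit 1560) (nat_lit 1748) (nat_lit 0) (XT.nd (nat_lit 780) (nat_lit 2280) (nat_lit 0) (XT.nd (nat_lit 390) (nat_lit 1672) (nat_lit 0) (XT.nd (nat_lit 156) (nat_lit 1064) (nat_lit 0) (XT.nd (nat_lit 78) (nat_lit 380) (nat_lit 0) (XT.lf (nat_lit 0) (nat_lit 937169155) (nat_lit 304) (nat_lit 7980952845) (nat_lit 304) (nat_lit 1501474445) (nat_lit 106) (nat_lit 4) (nat_lit 110) (nat_lit 5) (nat_lit 110) (nat_lit 4) (nat_lit 358) (nat_lit 274) (nat_lit 268)) (XT.lf (nat_lit 0) (nat_lit 2598128298) (nat_lit 304) (nat_lit 2377189429) (nat_lit 380) (nat_lit 5602169239) (nat_lit 101) (nat_lit 5) (nat_lit 105) (nat_lit 5) (nat_lit 106) (nat_lit 4) (nat_lit 359) (nat_lit 274) (nat_lit 267))) (XT.nd (nat_lit 78) (nat_lit 684) (nat_lit 0) (XT.lf (nat_lit 0) (nat_lit 847501229) (nat_lit 380) (nat_lit 6519638063) (nat_lit 76) (nat_lit 3373226026) (nat_lit 96) (nat_lit 5)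 (nat_lit 101) (nat_lit 5) (nat_lit 97) (nat_lit 4) (nat_lit 360) (nat_lit 274) (nat_lit 266)) (XT.nd (nat_lit 78) (nat_lit 380) (nat_lit 0) (XT.lf (nat_lit 0) (nat_lit 5784388661) (nat_lit 304) (nat_lit 1599132213) (nat_lit 380) (nat_lit 3524513544) (nat_lit 92) (nat_lit 5) (nat_lit 96) (nat_lit 5) (nat_lit 97) (nat_lit 4) (nat_lit 361) (nat_lit 274) (nat_lit 265)) (XT.lf (nat_lit 0) (nat_lit 2977769066) (nat_lit 380) (nat_lit 3791651364) (nat_lit 76) (nat_lit 4311288618) (nat_lit 87) (nat_lit 5) (nat_lit 92) (nat_lit 5) (nat_lit 88) (nat_lit 4) (nat_lit 362) (nat_lit 274) (nat_lit 264))))) (XT.nd (nat_lit 156) (nat_lit 1064) (nat_lit 0) (XT.nd (nat_lit 78) (nat_lit 380) (nat_lit 0) (XT.lf (nat_lit 0) (nat_lit 8743145091) (nat_lit 228) (nat_lit 851122904) (nat_lit 304) (nat_lit 1664511900) (nat_lit 84) (nat_lit 5) (nat_lit 87) (nat_lit 5) (nat_lit 88) (nat_lit 4) (nat_lit 363) (nat_lit 274) (nat_lit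 263)) (XT.lf (nat_lit 0) (nat_lit 4893919604) (nat_lit 380) (nat_lit 1333515152) (nat_lit 76) (nat_lit 5214294708) (nat_lit 79) (nat_lit 5) (nat_lit 84) (nat_lit 5) (nat_lit 80) (nat_lit 4) (nat_lit 364) (nat_lit 274) (nat_lit 262))) (XT.nd (nat_lit 78) (nat_lit 836) (nat_lit 0) (XT.lf (nat_lit 0) (nat_lit 11428226603) (nat_lit 228) (nat_lit 163340095) (nat_lit 304) (nat_lit 39100086) (nat_lit 76) (nat_lit 5) (nat_lit 79) (nat_lit 5) (nat_lit 80) (nat_lit 4) (nat_lit 365) (nat_lit 274) (nat_lit 261)) (XT.nd (nat_lit 78) (nat_lit 304) (nat_lit 0) (XT.lf (nat_lit 0) (nat_lit 816215196) (nat_lit 228) (nat_lit 5767180493) (nat_lit 304) (nat_lit 5240912213) (nat_lit 69) (nat_lit 5) (nat_lit 72) (nat_lit 5) (nat_lit 73) (nat_lit 4) (nat_lit 366) (nat_lit 274) (nat_lit 260)) (XT.lf (nat_lit 0) (nat_lit 1328884787) (nat_lit 304) (nat_lit 10248502023) (nat_lit 76) (nat_lit 446871823) (nat_lit 65) (nat_lit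 5) (nat_lit 69) (nat_lit 5) (nat_lit 66) (nat_lit 4) (nat_lit 367) (nat_lit 274) (nat_lit 259)))))) (XT.nd (nat_lit 390) (nat_lit 1140) (nat_lit 0) (XT.nd (nat_lit 156) (nat_lit 608) (nat_lit 0) (XT.nd (nat_lit 78) (nat_lit 304) (nat_lit 0) (XT.lf (nat_lit 0) (nat_lit 2605316550) (nat_lit 228) (nat_lit 5421053680) (nat_lit 304) (nat_lit 4203127189) (nat_lit 62) (nat_lit 5) (nat_lit 65) (nat_lit 5) (nat_lit 66) (nat_lit 4) (nat_lit 368) (nat_lit 274) (nat_lit 258)) (XT.lf (nat_lit 0) (nat_lit 2421422301) (nat_lit 304) (nat_lit 9092442806) (nat_lit 76) (nat_lit 927320937) (nat_lit 58) (nat_lit 5) (nat_lit 62) (nat_lit 5) (nat_lit 59) (nat_lit 4) (nat_lit 369) (nat_lit 274) (nat_lit 257))) (XT.nd (nat_lit 78) (nat_lit 456) (nat_lit 0) (XT.lf (nat_lit 0) (nat_lit 3955368179) (nat_lit 152) (nat_lit 5234213513) (nat_lit 228) (nat_lit 3469065383) (nat_lit 56) (nat_lit 5) (nat_lit 58) (nat_lit 5) (nat_lit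 59) (nat_lit 4) (nat_lit 370) (nat_lit 274) (nat_lit 256)) (XT.nd (nat_lit 78) (nat_lit 152) (nat_lit 0) (XT.lf (nat_lit 0) (nat_lit 3209828328) (nat_lit 304) (nat_lit 8431133858) (nat_lit 76) (nat_lit 1241766842) (nat_lit 52) (nat_lit 5) (nat_lit 56) (nat_lit 5) (nat_lit 53) (nat_lit 4) (nat_lit 371) (nat_lit 274) (nat_lit 255)) (XT.lf (nat_lit 0) (nat_lit 4799295863) (nat_lit 152) (nat_lit 5245659893) (nat_lit 228) (nat_lit 3068074780) (nat_lit 50) (nat_lit 5) (nat_lit 52) (nat_lit 5) (nat_lit 53) (nat_lit 4) (nat_lit 372) (nat_lit 274) (nat_lit 254))))) (XT.nd (nat_lit 156) (nat_lit 684) (nat_lit 0) (XT.nd (nat_lit 78) (nat_lit 152) (nat_lit 0) (XT.lf (nat_lit 0) (nat_lit 3663522200) (nat_lit 304) (nat_lit 8336205137) (nat_lit 76) (nat_lit 1350491470) (nat_lit 46) (nat_lit 5) (nat_lit 50) (nat_lit 5) (nat_lit 47) (nat_lit 4) (nat_lit 373) (nat_lit 274) (nat_lit 253)) (XT.lf (nat_lit 0) (nat_lit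 5062908112) (nat_lit 152) (nat_lit 5497589505) (nat_lit 228) (nat_lit 3033531710) (nat_lit 44) (nat_lit 5) (nat_lit 46) (nat_lit 5) (nat_lit 47) (nat_lit 4) (nat_lit 374) (nat_lit 274) (nat_lit 252))) (XT.nd (nat_lit 78) (nat_lit 380) (nat_lit 0) (XT.lf (nat_lit 0) (nat_lit 3747781546) (nat_lit 304) (nat_lit 8886889503) (nat_lit 76) (nat_lit 1210428087) (nat_lit 40) (nat_lit 5) (nat_lit 44) (nat_lit 5) (nat_lit 41) (nat_lit 4) (nat_lit 375) (nat_lit 274) (nat_lit 251)) (XT.nd (nat_lit 78) (nat_lit 228) (nat_lit 0) (XT.lf (nat_lit 0) (nat_lit 4664080134) (nat_lit 152) (nat_lit 6035838152) (nat_lit 228) (nat_lit 3403223137) (nat_lit 38) (nat_lit 5) (nat_lit 40) (nat_lit 5) (nat_lit 41) (nat_lit 4) (nat_lit 376) (nat_lit 274) (nat_lit 250)) (XT.lf (nat_lit 0) (nat_lit 3423344283) (nat_lit 228) (nat_lit 10170884930) (nat_lit 76) (nat_lit 774706202) (nat_lit 35) (nat_lit 5) (nat_lit 38) (nat_lit 5) (nat_lit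 36) (nat_lit 4) (nat_lit 377) (nat_lit 274) (nat_lit 249))))))) (XT.nd (nat_lit 780) (nat_lit 228) (nat_lit 0) (XT.nd (nat_lit 390) (nat_lit 760) (nat_lit 0) (XT.nd (nat_lit 156) (nat_lit 380) (nat_lit 0) (XT.nd (nat_lit 78) (nat_lit 228) (nat_lit 0) (XT.lf (nat_lit 0) (nat_lit 3511855816) (nat_lit 152) (nat_lit 6910362196) (nat_lit 228) (nat_lit 4219772756) (nat_lit 33) (nat_lit 5) (nat_lit 35) (nat_lit 5) (nat_lit 36) (nat_lit 4) (nat_lit 378) (nat_lit 274) (nat_lit 248)) (XT.lf (nat_lit 0) (nat_lit 2638068424) (nat_lit 152) (nat_lit 7948542) (nat_lit 228) (nat_lit 12277406755) (nat_lit 30) (nat_lit 5) (nat_lit 32) (nat_lit 5) (nat_lit 33) (nat_lit 5) (nat_lit 379) (nat_lit 274) (nat_lit 247))) (XT.nd (nat_lit 78) (nat_lit 228) (nat_lit 0) (XT.lf (nat_lit 0) (nat_lit 1505458876) (nat_lit 152) (nat_lit 8175763739) (nat_lit 228) (nat_lit 5531115167) (nat_lit 28) (nat_lit 5) (nat_lit 30) (nat_lit 5)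 (nat_lit 31) (nat_lit 4) (nat_lit 380) (nat_lit 274) (nat_lit 246)) (XT.nd (nat_lit 78) (nat_lit 0) (nat_lit 0) (XT.lf (nat_lit 0) (nat_lit 164681977) (nat_lit 152) (nat_lit 1209092036) (nat_lit 228) (nat_lit 14136476040) (nat_lit 25) (nat_lit 5) (nat_lit 27) (nat_lit 5) (nat_lit 28) (nat_lit 5) (nat_lit 381) (nat_lit 274) (nat_lit 245)) (XT.lf (nat_lit 0) (nat_lit 8434591461) (nat_lit 228) (nat_lit 1447559276) (nat_lit 76) (nat_lit 5933749741) (nat_lit 25) (nat_lit 5) (nat_lit 28) (nat_lit 5) (nat_lit 26) (nat_lit 4) (nat_lit 382) (nat_lit 274) (nat_lit 244))))) (XT.nd (nat_lit 156) (nat_lit 380) (nat_lit 0) (XT.nd (nat_lit 78) (nat_lit 228) (nat_lit 0) (XT.lf (nat_lit 0) (nat_lit 12837391359) (nat_lit 152) (nat_lit 2855706920) (nat_lit 228) (nat_lit 437915090) (nat_lit 23) (nat_lit 5) (nat_lit 25) (nat_lit 5) (nat_lit 26) (nat_lit 4) (nat_lit 383) (nat_lit 274) (nat_lit 243)) (XT.lf (nat_lit 0)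 (nat_lit 6631524069) (nat_lit 228) (nat_lit 5456196803) (nat_lit 76) (nat_lit 4366880806) (nat_lit 20) (nat_lit 5) (nat_lit 23) (nat_lit 5) (nat_lit 21) (nat_lit 4) (nat_lit 384) (nat_lit 274) (nat_lit 242))) (XT.nd (nat_lit 78) (nat_lit 304) (nat_lit 0) (XT.lf (nat_lit 0) (nat_lit 8884117721) (nat_lit 76) (nat_lit 5019149323) (nat_lit 152) (nat_lit 2884658766) (nat_lit 19) (nat_lit 5) (nat_lit 20) (nat_lit 5) (nat_lit 21) (nat_lit 4) (nat_lit 385) (nat_lit 274) (nat_lit 241)) (XT.nd (nat_lit 78) (nat_lit 76) (nat_lit 0) (XT.lf (nat_lit 0) (nat_lit 4198113517) (nat_lit 228) (nat_lit 10675628748) (nat_lit 76) (nat_lit 2257121060) (nat_lit 16) (nat_lit 5) (nat_lit 19) (nat_lit 5) (nat_lit 17) (nat_lit 4) (nat_lit 386) (nat_lit 274) (nat_lit 240)) (XT.lf (nat_lit 0) (nat_lit 3681439667) (nat_lit 76) (nat_lit 7783614562) (nat_lit 152) (nat_lit 6018444607) (nat_lit 15) (nat_lit 5) (nat_lit 16) (nat_lit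 5) (nat_lit 17) (nat_lit 4) (nat_lit 387) (nat_lit 274) (nat_lit 239)))))) (XT.nd (nat_lit 44226) (nat_lit 0) (nat_lit 6764) (XT.nd (nat_lit 43992) (nat_lit 0) (nat_lit 9424) (XT.nd (nat_lit 43914) (nat_lit 0) (nat_lit 11096) (XT.lf (nat_lit 0) (nat_lit 587950913) (nat_lit 152) (nat_lit 477874619) (nat_lit 228) (nat_lit 16781212832) (nat_lit 12) (nat_lit 5) (nat_lit 14) (nat_lit 5) (nat_lit 15) (nat_lit 5) (nat_lit 388) (nat_lit 274) (nat_lit 238)) (XT.lf (nat_lit 0) (nat_lit 2705971506) (nat_lit 456) (nat_lit 975425563) (nat_lit 456) (nat_lit 975425563) (nat_lit 158) (nat_lit 4) (nat_lit 164) (nat_lit 5) (nat_lit 164) (nat_lit 4) (nat_lit 350) (nat_lit 275) (nat_lit 275))) (XT.nd (nat_lit 78) (nat_lit 1216) (nat_lit 0) (XT.lf (nat_lit 0) (nat_lit 4338228342) (nat_lit 456) (nat_lit 2056652762) (nat_lit 0) (nat_lit 3043536089) (nat_lit 152) (nat_lit 5) (nat_lit 158) (nat_lit 4) (nat_lit 152) (nat_lit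 4) (nat_lit 351) (nat_lit 275) (nat_lit 274)) (XT.nd (nat_lit 78) (nat_lit 760) (nat_lit 0) (XT.lf (nat_lit 0) (nat_lit 1158342508) (nat_lit 456) (nat_lit 211823157) (nat_lit 76) (nat_lit 8197352506) (nat_lit 146) (nat_lit 5) (nat_lit 152) (nat_lit 5) (nat_lit 147) (nat_lit 4) (nat_lit 352) (nat_lit 275) (nat_lit 273)) (XT.lf (nat_lit 0) (nat_lit 1625869299) (nat_lit 380) (nat_lit 5886265404) (nat_lit 380) (nat_lit 2188180456) (nat_lit 136) (nat_lit 4) (nat_lit 141) (nat_lit 5) (nat_lit 141) (nat_lit 4) (nat_lit 353) (nat_lit 275) (nat_lit 272))))) (XT.nd (nat_lit 234) (nat_lit 1444) (nat_lit 0) (XT.nd (nat_lit 78) (nat_lit 760) (nat_lit 0) (XT.lf (nat_lit 0) (nat_lit 3456741455) (nat_lit 380) (nat_lit 660298803) (nat_lit 456) (nat_lit 5720480759) (nat_lit 130) (nat_lit 5) (nat_lit 135) (nat_lit 5) (nat_lit 136) (nat_lit 4) (nat_lit 354) (nat_lit 275) (nat_lit 271)) (XT.nd (nat_lit 78) (nat_lit 304)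 (nat_lit 0) (XT.lf (nat_lit 0) (nat_lit 570601333) (nat_lit 456) (nat_lit 4717426408) (nat_lit 76) (nat_lit 4690970219) (nat_lit 124) (nat_lit 5) (nat_lit 130) (nat_lit 5) (nat_lit 125) (nat_lit 4) (nat_lit 355) (nat_lit 275) (nat_lit 270)) (XT.lf (nat_lit 0) (nat_lit 6924862942) (nat_lit 380) (nat_lit 3082562930) (nat_lit 0) (nat_lit 117522936) (nat_lit 120) (nat_lit 5) (nat_lit 125) (nat_lit 4) (nat_lit 120) (nat_lit 4) (nat_lit 356) (nat_lit 275) (nat_lit 269)))) (XT.nd (nat_lit 78) (nat_lit 988) (nat_lit 0) (XT.lf (nat_lit 0) (nat_lit 3136642121) (nat_lit 456) (nat_lit 1493068310) (nat_lit 76) (nat_lit 5645499415) (nat_lit 114) (nat_lit 5) (nat_lit 120) (nat_lit 5) (nat_lit 115) (nat_lit 4) (nat_lit 357) (nat_lit 275) (nat_lit 268)) (XT.nd (nat_lit 78) (nat_lit 380) (nat_lit 0) (XT.lf (nat_lit 0) (nat_lit 76175906) (nat_lit 304) (nat_lit 9501184219) (nat_lit 304) (nat_lit 853075191) (nat_lit 106)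 (nat_lit 4) (nat_lit 110) (nat_lit 5) (nat_lit 110) (nat_lit 4) (nat_lit 358) (nat_lit 275) (nat_lit 267)) (XT.lf (nat_lit 0) (nat_lit 1598967064) (nat_lit 304) (nat_lit 3941273004) (nat_lit 380) (nat_lit 5049513669) (nat_lit 101) (nat_lit 5) (nat_lit 105) (nat_lit 5) (nat_lit 106) (nat_lit 4) (nat_lit 359) (nat_lit 275) (nat_lit 266))))))))
noncomputable def xc9 : XT := (XT.nd (nat_lit 1560) (nat_lit 1292) (nat_lit 0) (XT.nd (nat_lit 780) (nat_lit 1976) (nat_lit 0) (XT.nd (nat_lit 390) (nat_lit 1596) (nat_lit 0) (XT.nd (nat_lit 156) (nat_lit 988) (nat_lit 0) (XT.nd (nat_lit 78) (nat_lit 304) (nat_lit 0) (XT.lf (nat_lit 0) (nat_lit 1307412289) (nat_lit 380) (nat_lit 7661993343) (nat_lit 76) (nat_lit 1784876647) (nat_lit 96) (nat_lit 5) (nat_lit 101) (nat_lit 5) (nat_lit 97) (nat_lit 4) (nat_lit 360) (nat_lit 275) (nat_lit 265)) (XT.lf (nat_lit 0) (nat_lit 4516967228) (nat_lit 304) (nat_lit 3251592012)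 (nat_lit 380) (nat_lit 3154901269) (nat_lit 92) (nat_lit 5) (nat_lit 96) (nat_lit 5) (nat_lit 97) (nat_lit 4) (nat_lit 361) (nat_lit 275) (nat_lit 264))) (XT.nd (nat_lit 78) (nat_lit 608) (nat_lit 0) (XT.lf (nat_lit 0) (nat_lit 3256486326) (nat_lit 380) (nat_lit 5208823551) (nat_lit 76) (nat_lit 2632509332) (nat_lit 87) (nat_lit 5) (nat_lit 92) (nat_lit 5) (nat_lit 88) (nat_lit 4) (nat_lit 362) (nat_lit 275) (nat_lit 263)) (XT.nd (nat_lit 78) (nat_lit 380) (nat_lit 0) (XT.lf (nat_lit 0) (nat_lit 7198858733) (nat_lit 228) (nat_lit 2599223351) (nat_lit 304) (nat_lit 1479316828) (nat_lit 84) (nat_lit 5) (nat_lit 87) (nat_lit 5) (nat_lit 88) (nat_lit 4) (nat_lit 363) (nat_lit 275) (nat_lit 262)) (XT.lf (nat_lit 0) (nat_lit 4989910166) (nat_lit 380) (nat_lit 3034227112) (nat_lit 76) (nat_lit 3437932938) (nat_lit 79) (nat_lit 5) (nat_lit 84) (nat_lit 5) (nat_lit 80) (nat_lit 4) (nat_lit 364) (nat_lit 275)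 (nat_lit 261))))) (XT.nd (nat_lit 156) (nat_lit 1064) (nat_lit 0) (XT.nd (nat_lit 78) (nat_lit 304) (nat_lit 0) (XT.lf (nat_lit 0) (nat_lit 9598244931) (nat_lit 228) (nat_lit 2014250826) (nat_lit 304) (nat_lit 40022982) (nat_lit 76) (nat_lit 5) (nat_lit 79) (nat_lit 5) (nat_lit 80) (nat_lit 4) (nat_lit 365) (nat_lit 275) (nat_lit 260)) (XT.lf (nat_lit 0) (nat_lit 6489507997) (nat_lit 304) (nat_lit 1187707499) (nat_lit 76) (nat_lit 4170813511) (nat_lit 72) (nat_lit 5) (nat_lit 76) (nat_lit 5) (nat_lit 73) (nat_lit 4) (nat_lit 366) (nat_lit 275) (nat_lit 259))) (XT.nd (nat_lit 78) (nat_lit 760) (nat_lit 0) (XT.lf (nat_lit 0) (nat_lit 1127810893) (nat_lit 304) (nat_lit 393234087) (nat_lit 76) (nat_lit 10528659216) (nat_lit 68) (nat_lit 5) (nat_lit 72) (nat_lit 5) (nat_lit 69) (nat_lit 5) (nat_lit 367) (nat_lit 275) (nat_lit 258)) (XT.nd (nat_lit 78) (nat_lit 304) (nat_lit 0) (XT.lf (nat_lit 0) (nat_lit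 279860811) (nat_lit 228) (nat_lit 7456075597) (nat_lit 304) (nat_lit 4520802544) (nat_lit 62) (nat_lit 5) (nat_lit 65) (nat_lit 5) (nat_lit 66) (nat_lit 4) (nat_lit 368) (nat_lit 275) (nat_lit 257)) (XT.lf (nat_lit 0) (nat_lit 867457202) (nat_lit 228) (nat_lit 1157140909) (nat_lit 304) (nat_lit 10445545370) (nat_lit 58) (nat_lit 5) (nat_lit 61) (nat_lit 5) (nat_lit 62) (nat_lit 5) (nat_lit 369) (nat_lit 275) (nat_lit 256)))))) (XT.nd (nat_lit 390) (nat_lit 912) (nat_lit 0) (XT.nd (nat_lit 156) (nat_lit 608) (nat_lit 0) (XT.nd (nat_lit 78) (nat_lit 304) (nat_lit 0) (XT.lf (nat_lit 0) (nat_lit 1314513174) (nat_lit 152) (nat_lit 7393357414) (nat_lit 228) (nat_lit 3981439768) (nat_lit 56) (nat_lit 5) (nat_lit 58) (nat_lit 5) (nat_lit 59) (nat_lit 4) (nat_lit 370) (nat_lit 275) (nat_lit 255)) (XT.lf (nat_lit 0) (nat_lit 1652304913) (nat_lit 228) (nat_lit 965936436) (nat_lit 304) (nat_lit 10296943860) (nat_lit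 52) (nat_lit 5) (nat_lit 55) (nat_lit 5) (nat_lit 56) (nat_lit 5) (nat_lit 371) (nat_lit 275) (nat_lit 254))) (XT.nd (nat_lit 78) (nat_lit 456) (nat_lit 0) (XT.lf (nat_lit 0) (nat_lit 1833073289) (nat_lit 152) (nat_lit 7536034036) (nat_lit 228) (nat_lit 3778072111) (nat_lit 50) (nat_lit 5) (nat_lit 52) (nat_lit 5) (nat_lit 53) (nat_lit 4) (nat_lit 372) (nat_lit 275) (nat_lit 253)) (XT.nd (nat_lit 78) (nat_lit 152) (nat_lit 0) (XT.lf (nat_lit 0) (nat_lit 1885189025) (nat_lit 228) (nat_lit 990329256) (nat_lit 304) (nat_lit 10510695118) (nat_lit 46) (nat_lit 5) (nat_lit 49) (nat_lit 5) (nat_lit 50) (nat_lit 5) (nat_lit 373) (nat_lit 275) (nat_lit 252)) (XT.lf (nat_lit 0) (nat_lit 1761007938) (nat_lit 152) (nat_lit 7926328861) (nat_lit 228) (nat_lit 3944397180) (nat_lit 44) (nat_lit 5) (nat_lit 46) (nat_lit 5) (nat_lit 47) (nat_lit 4) (nat_lit 374) (nat_lit 275) (nat_lit 251))))) (XT.nd (nat_lit 156)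 (nat_lit 456) (nat_lit 0) (XT.nd (nat_lit 78) (nat_lit 152) (nat_lit 0) (XT.lf (nat_lit 0) (nat_lit 1487678817) (nat_lit 228) (nat_lit 1273994799) (nat_lit 304) (nat_lit 11122998813) (nat_lit 40) (nat_lit 5) (nat_lit 43) (nat_lit 5) (nat_lit 44) (nat_lit 5) (nat_lit 375) (nat_lit 275) (nat_lit 250)) (XT.lf (nat_lit 0) (nat_lit 1015826913) (nat_lit 152) (nat_lit 8610127208) (nat_lit 228) (nat_lit 4518524116) (nat_lit 38) (nat_lit 5) (nat_lit 40) (nat_lit 5) (nat_lit 41) (nat_lit 4) (nat_lit 376) (nat_lit 275) (nat_lit 249))) (XT.nd (nat_lit 78) (nat_lit 228) (nat_lit 0) (XT.lf (nat_lit 0) (nat_lit 372950774) (nat_lit 152) (nat_lit 1864485348) (nat_lit 228) (nat_lit 12174691714) (nat_lit 35) (nat_lit 5) (nat_lit 37) (nat_lit 5) (nat_lit 38) (nat_lit 5) (nat_lit 377) (nat_lit 275) (nat_lit 248)) (XT.nd (nat_lit 78) (nat_lit 228) (nat_lit 0) (XT.lf (nat_lit 0) (nat_lit 9146848061) (nat_lit 228) (nat_lit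 487338629) (nat_lit 76) (nat_lit 5052791645) (nat_lit 35) (nat_lit 5) (nat_lit 38) (nat_lit 5) (nat_lit 36) (nat_lit 4) (nat_lit 378) (nat_lit 275) (nat_lit 247)) (XT.lf (nat_lit 0) (nat_lit 1268674859) (nat_lit 228) (nat_lit 1534757880) (nat_lit 76) (nat_lit 12166641654) (nat_lit 32) (nat_lit 5) (nat_lit 35) (nat_lit 5) (nat_lit 33) (nat_lit 5) (nat_lit 379) (nat_lit 275) (nat_lit 246))))))) (XT.nd (nat_lit 44460) (nat_lit 0) (nat_lit 6536) (XT.nd (nat_lit 390) (nat_lit 380) (nat_lit 0) (XT.nd (nat_lit 156) (nat_lit 608) (nat_lit 0) (XT.nd (nat_lit 78) (nat_lit 152) (nat_lit 0) (XT.lf (nat_lit 0) (nat_lit 8212533802) (nat_lit 228) (nat_lit 2831478710) (nat_lit 76) (nat_lit 4216808340) (nat_lit 30) (nat_lit 5) (nat_lit 33) (nat_lit 5) (nat_lit 31) (nat_lit 4) (nat_lit 380) (nat_lit 275) (nat_lit 245)) (XT.lf (nat_lit 0) (nat_lit 11213650220) (nat_lit 152) (nat_lit 4148116287) (nat_lit 228) (nat_lit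 198592805) (nat_lit 28) (nat_lit 5) (nat_lit 30) (nat_lit 5) (nat_lit 31) (nat_lit 4) (nat_lit 381) (nat_lit 275) (nat_lit 244))) (XT.nd (nat_lit 78) (nat_lit 380) (nat_lit 0) (XT.lf (nat_lit 0) (nat_lit 6764956174) (nat_lit 228) (nat_lit 6140568847) (nat_lit 76) (nat_lit 2962513014) (nat_lit 25) (nat_lit 5) (nat_lit 28) (nat_lit 5) (nat_lit 26) (nat_lit 4) (nat_lit 382) (nat_lit 275) (nat_lit 243)) (XT.nd (nat_lit 78) (nat_lit 228) (nat_lit 0) (XT.lf (nat_lit 0) (nat_lit 7989802159) (nat_lit 152) (nat_lit 5951696970) (nat_lit 228) (nat_lit 2243295975) (nat_lit 23) (nat_lit 5) (nat_lit 25) (nat_lit 5) (nat_lit 26) (nat_lit 4) (nat_lit 383) (nat_lit 275) (nat_lit 242)) (XT.lf (nat_lit 0) (nat_lit 4746467780) (nat_lit 228) (nat_lit 10537237529) (nat_lit 76) (nat_lit 1226984269) (nat_lit 20) (nat_lit 5) (nat_lit 23) (nat_lit 5) (nat_lit 21) (nat_lit 4) (nat_lit 384) (nat_lit 275) (nat_lit 241))))) (XT.nd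 (nat_lit 156) (nat_lit 76) (nat_lit 0) (XT.nd (nat_lit 78) (nat_lit 228) (nat_lit 0) (XT.lf (nat_lit 0) (nat_lit 3644904550) (nat_lit 76) (nat_lit 8289976490) (nat_lit 152) (nat_lit 4910803794) (nat_lit 19) (nat_lit 5) (nat_lit 20) (nat_lit 5) (nat_lit 21) (nat_lit 4) (nat_lit 385) (nat_lit 275) (nat_lit 240)) (XT.lf (nat_lit 0) (nat_lit 1026506192) (nat_lit 152) (nat_lit 1073067269) (nat_lit 228) (nat_lit 15091295666) (nat_lit 16) (nat_lit 5) (nat_lit 18) (nat_lit 5) (nat_lit 19) (nat_lit 5) (nat_lit 386) (nat_lit 275) (nat_lit 239))) (XT.nd (nat_lit 78) (nat_lit 76) (nat_lit 0) (XT.lf (nat_lit 0) (nat_lit 9287470313) (nat_lit 228) (nat_lit 1936539521) (nat_lit 76) (nat_lit 6321079867) (nat_lit 16) (nat_lit 5) (nat_lit 19) (nat_lit 5) (nat_lit 17) (nat_lit 4) (nat_lit 387) (nat_lit 275) (nat_lit 238)) (XT.nd (nat_lit 43758) (nat_lit 0) (nat_lit 11780) (XT.lf (nat_lit 0) (nat_lit 12704263624) (nat_lit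 76) (nat_lit 3981455271) (nat_lit 152) (nat_lit 1224331950) (nat_lit 15) (nat_lit 5) (nat_lit 16) (nat_lit 5) (nat_lit 17) (nat_lit 4) (nat_lit 388) (nat_lit 275) (nat_lit 237)) (XT.lf (nat_lit 0) (nat_lit 778628443) (nat_lit 456) (nat_lit 1879277905) (nat_lit 456) (nat_lit 1879277905) (nat_lit 170) (nat_lit 4) (nat_lit 176) (nat_lit 5) (nat_lit 176) (nat_lit 4) (nat_lit 348) (nat_lit 276) (nat_lit 276)))))) (XT.nd (nat_lit 390) (nat_lit 2660) (nat_lit 0) (XT.nd (nat_lit 156) (nat_lit 1672) (nat_lit 0) (XT.nd (nat_lit 78) (nat_lit 456) (nat_lit 0) (XT.lf (nat_lit 0) (nat_lit 2397217982) (nat_lit 456) (nat_lit 5758600764) (nat_lit 0) (nat_lit 1037014300) (nat_lit 164) (nat_lit 5) (nat_lit 170) (nat_lit 4) (nat_lit 164) (nat_lit 4) (nat_lit 349) (nat_lit 276) (nat_lit 275)) (XT.lf (nat_lit 0) (nat_lit 5302146545) (nat_lit 456) (nat_lit 3346892848) (nat_lit 456) (nat_lit 666103067) (nat_lit 158) (nat_lit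 4) (nat_lit 164) (nat_lit 5) (nat_lit 164) (nat_lit 4) (nat_lit 350) (nat_lit 276) (nat_lit 274))) (XT.nd (nat_lit 78) (nat_lit 1216) (nat_lit 0) (XT.lf (nat_lit 0) (nat_lit 5523087048) (nat_lit 456) (nat_lit 2280459461) (nat_lit 0) (nat_lit 1637879001) (nat_lit 152) (nat_lit 5) (nat_lit 158) (nat_lit 4) (nat_lit 152) (nat_lit 4) (nat_lit 351) (nat_lit 276) (nat_lit 273)) (XT.nd (nat_lit 78) (nat_lit 760) (nat_lit 0) (XT.lf (nat_lit 0) (nat_lit 2250908933) (nat_lit 456) (nat_lit 558743621) (nat_lit 76) (nat_lit 6762212475) (nat_lit 146) (nat_lit 5) (nat_lit 152) (nat_lit 5) (nat_lit 147) (nat_lit 4) (nat_lit 352) (nat_lit 276) (nat_lit 272)) (XT.lf (nat_lit 0) (nat_lit 1164397222) (nat_lit 380) (nat_lit 7354530649) (nat_lit 380) (nat_lit 1187465467) (nat_lit 136) (nat_lit 4) (nat_lit 141) (nat_lit 5) (nat_lit 141) (nat_lit 4) (nat_lit 353) (nat_lit 276) (nat_lit 271))))) (XT.nd (nat_lit 234) (nat_lit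 1444) (nat_lit 0) (XT.nd (nat_lit 78) (nat_lit 760) (nat_lit 0) (XT.lf (nat_lit 0) (nat_lit 2866918228) (nat_lit 380) (nat_lit 2163648834) (nat_lit 456) (nat_lit 4814398553) (nat_lit 130) (nat_lit 5) (nat_lit 135) (nat_lit 5) (nat_lit 136) (nat_lit 4) (nat_lit 354) (nat_lit 276) (nat_lit 270)) (XT.nd (nat_lit 78) (nat_lit 304) (nat_lit 0) (XT.lf (nat_lit 0) (nat_lit 1380778809) (nat_lit 456) (nat_lit 5436063921) (nat_lit 76) (nat_lit 3171176963) (nat_lit 124) (nat_lit 5) (nat_lit 130) (nat_lit 5) (nat_lit 125) (nat_lit 4) (nat_lit 355) (nat_lit 276) (nat_lit 269)) (XT.lf (nat_lit 0) (nat_lit 6206955270) (nat_lit 304) (nat_lit 1453625265) (nat_lit 380) (nat_lit 2474893150) (nat_lit 120) (nat_lit 5) (nat_lit 124) (nat_lit 5) (nat_lit 125) (nat_lit 4) (nat_lit 356) (nat_lit 276) (nat_lit 268)))) (XT.nd (nat_lit 78) (nat_lit 988) (nat_lit 0) (XT.lf (nat_lit 0) (nat_lit 3768926634) (nat_lit 456) (nat_lit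 2464457357) (nat_lit 76) (nat_lit 4053937782) (nat_lit 114) (nat_lit 5) (nat_lit 120) (nat_lit 5) (nat_lit 115) (nat_lit 4) (nat_lit 357) (nat_lit 276) (nat_lit 267)) (XT.nd (nat_lit 78) (nat_lit 684) (nat_lit 0) (XT.lf (nat_lit 0) (nat_lit 9420992194) (nat_lit 304) (nat_lit 708599081) (nat_lit 380) (nat_lit 314569926) (nat_lit 110) (nat_lit 5) (nat_lit 114) (nat_lit 5) (nat_lit 115) (nat_lit 4) (nat_lit 358) (nat_lit 276) (nat_lit 266)) (XT.lf (nat_lit 0) (nat_lit 350123621) (nat_lit 304) (nat_lit 5635583059) (nat_lit 380) (nat_lit 4619434804) (nat_lit 101) (nat_lit 5) (nat_lit 105) (nat_lit 5) (nat_lit 106) (nat_lit 4) (nat_lit 359) (nat_lit 276) (nat_lit 265))))))))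
noncomputable def xc10 : XT := (XT.nd (nat_lit 1560) (nat_lit 1368) (nat_lit 0) (XT.nd (nat_lit 780) (nat_lit 2128) (nat_lit 0) (XT.nd (nat_lit 390) (nat_lit 1368) (nat_lit 0) (XT.nd (nat_lit 156) (nat_lit 988) (nat_lit 0) (XT.nd (nat_lit 78) (nat_lit 304) (nat_lit 0) (XT.lf (nat_lit 0) (nat_lit 1645833864) (nat_lit 380) (nat_lit 9058759976) (nat_lit 76) (nat_lit 66752350) (nat_lit 96) (nat_lit 5) (nat_lit 101) (nat_lit 5) (nat_lit 97) (nat_lit 4) (nat_lit 360) (nat_lit 276) (nat_lit 264)) (XT.lf (nat_lit 0) (nat_lit 2994953979) (nat_lit 304) (nat_lit 5037442244) (nat_lit 380) (nat_lit 2909631227) (nat_lit 92) (nat_lit 5) (nat_lit 96) (nat_lit 5) (nat_lit 97) (nat_lit 4) (nat_lit 361) (nat_lit 276) (nat_lit 263))) (XT.nd (nat_lit 78) (nat_lit 608) (nat_lit 0) (XT.lf (nat_lit 0) (nat_lit 3411865525) (nat_lit 380) (nat_lit 6885437876) (nat_lit 76) (nat_lit 820795172) (nat_lit 87) (nat_lit 5) (nat_lit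 92) (nat_lit 5) (nat_lit 88) (nat_lit 4) (nat_lit 362) (nat_lit 276) (nat_lit 262)) (XT.nd (nat_lit 78) (nat_lit 380) (nat_lit 0) (XT.lf (nat_lit 0) (nat_lit 5394836194) (nat_lit 228) (nat_lit 4483925150) (nat_lit 304) (nat_lit 1420421408) (nat_lit 84) (nat_lit 5) (nat_lit 87) (nat_lit 5) (nat_lit 88) (nat_lit 4) (nat_lit 363) (nat_lit 276) (nat_lit 261)) (XT.lf (nat_lit 0) (nat_lit 4960524946) (nat_lit 380) (nat_lit 4999656852) (nat_lit 76) (nat_lit 1525424746) (nat_lit 79) (nat_lit 5) (nat_lit 84) (nat_lit 5) (nat_lit 80) (nat_lit 4) (nat_lit 364) (nat_lit 276) (nat_lit 260))))) (XT.nd (nat_lit 156) (nat_lit 836) (nat_lit 0) (XT.nd (nat_lit 78) (nat_lit 304) (nat_lit 0) (XT.lf (nat_lit 0) (nat_lit 7503134360) (nat_lit 228) (nat_lit 4005033477) (nat_lit 304) (nat_lit 169395767) (nat_lit 76) (nat_lit 5) (nat_lit 79) (nat_lit 5) (nat_lit 80) (nat_lit 4) (nat_lit 365) (nat_lit 276) (nat_lit 259)) (XT.lf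 (nat_lit 0) (nat_lit 6273315858) (nat_lit 304) (nat_lit 3451177275) (nat_lit 76) (nat_lit 2150377075) (nat_lit 72) (nat_lit 5) (nat_lit 76) (nat_lit 5) (nat_lit 73) (nat_lit 4) (nat_lit 366) (nat_lit 276) (nat_lit 258))) (XT.nd (nat_lit 78) (nat_lit 532) (nat_lit 0) (XT.lf (nat_lit 0) (nat_lit 812146822) (nat_lit 304) (nat_lit 2815054430) (nat_lit 76) (nat_lit 8450900838) (nat_lit 68) (nat_lit 5) (nat_lit 72) (nat_lit 5) (nat_lit 69) (nat_lit 5) (nat_lit 367) (nat_lit 276) (nat_lit 257)) (XT.nd (nat_lit 78) (nat_lit 304) (nat_lit 0) (XT.lf (nat_lit 0) (nat_lit 7328759959) (nat_lit 304) (nat_lit 2294824798) (nat_lit 76) (nat_lit 2663390854) (nat_lit 65) (nat_lit 5) (nat_lit 69) (nat_lit 5) (nat_lit 66) (nat_lit 4) (nat_lit 368) (nat_lit 276) (nat_lit 256)) (XT.lf (nat_lit 0) (nat_lit 1512806841) (nat_lit 304) (nat_lit 1877914528) (nat_lit 76) (nat_lit 9111325974) (nat_lit 61) (nat_lit 5) (nat_lit 65)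 (nat_lit 5) (nat_lit 62) (nat_lit 5) (nat_lit 369) (nat_lit 276) (nat_lit 255)))))) (XT.nd (nat_lit 390) (nat_lit 988) (nat_lit 0) (XT.nd (nat_lit 156) (nat_lit 684) (nat_lit 0) (XT.nd (nat_lit 78) (nat_lit 228) (nat_lit 0) (XT.lf (nat_lit 0) (nat_lit 8102132621) (nat_lit 304) (nat_lit 1591097303) (nat_lit 76) (nat_lit 3029871098) (nat_lit 58) (nat_lit 5) (nat_lit 62) (nat_lit 5) (nat_lit 59) (nat_lit 4) (nat_lit 370) (nat_lit 276) (nat_lit 254)) (XT.lf (nat_lit 0) (nat_lit 1908035318) (nat_lit 228) (nat_lit 1425519597) (nat_lit 76) (nat_lit 9617092794) (nat_lit 55) (nat_lit 5) (nat_lit 58) (nat_lit 5) (nat_lit 56) (nat_lit 5) (nat_lit 371) (nat_lit 276) (nat_lit 253))) (XT.nd (nat_lit 78) (nat_lit 456) (nat_lit 0) (XT.lf (nat_lit 0) (nat_lit 8565166440) (nat_lit 304) (nat_lit 1406831256) (nat_lit 76) (nat_lit 3212526211) (nat_lit 52) (nat_lit 5) (nat_lit 56) (nat_lit 5) (nat_lit 53) (nat_lit 4) (nat_lit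 372) (nat_lit 276) (nat_lit 252)) (XT.nd (nat_lit 78) (nat_lit 228) (nat_lit 0) (XT.lf (nat_lit 0) (nat_lit 1967340677) (nat_lit 228) (nat_lit 1528172844) (nat_lit 76) (nat_lit 9929719031) (nat_lit 49) (nat_lit 5) (nat_lit 52) (nat_lit 5) (nat_lit 50) (nat_lit 5) (nat_lit 373) (nat_lit 276) (nat_lit 251)) (XT.lf (nat_lit 0) (nat_lit 8685719605) (nat_lit 304) (nat_lit 1815933991) (nat_lit 76) (nat_lit 3170975049) (nat_lit 46) (nat_lit 5) (nat_lit 50) (nat_lit 5) (nat_lit 47) (nat_lit 4) (nat_lit 374) (nat_lit 276) (nat_lit 250))))) (XT.nd (nat_lit 156) (nat_lit 532) (nat_lit 0) (XT.nd (nat_lit 78) (nat_lit 228) (nat_lit 0) (XT.lf (nat_lit 0) (nat_lit 1656159576) (nat_lit 228) (nat_lit 2263638898) (nat_lit 76) (nat_lit 10007443889) (nat_lit 43) (nat_lit 5) (nat_lit 46) (nat_lit 5) (nat_lit 44) (nat_lit 5) (nat_lit 375) (nat_lit 276) (nat_lit 249)) (XT.lf (nat_lit 0) (nat_lit 8427405715) (nat_lit 304)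 (nat_lit 2900189138) (nat_lit 76) (nat_lit 2861320217) (nat_lit 40) (nat_lit 5) (nat_lit 44) (nat_lit 5) (nat_lit 41) (nat_lit 4) (nat_lit 376) (nat_lit 276) (nat_lit 248))) (XT.nd (nat_lit 78) (nat_lit 304) (nat_lit 0) (XT.lf (nat_lit 0) (nat_lit 935465672) (nat_lit 228) (nat_lit 3717988904) (nat_lit 76) (nat_lit 9804783154) (nat_lit 37) (nat_lit 5) (nat_lit 40) (nat_lit 5) (nat_lit 38) (nat_lit 5) (nat_lit 377) (nat_lit 276) (nat_lit 247)) (XT.nd (nat_lit 78) (nat_lit 152) (nat_lit 0) (XT.lf (nat_lit 0) (nat_lit 7749181294) (nat_lit 228) (nat_lit 4750143104) (nat_lit 76) (nat_lit 2235683497) (nat_lit 35) (nat_lit 5) (nat_lit 38) (nat_lit 5) (nat_lit 36) (nat_lit 4) (nat_lit 378) (nat_lit 276) (nat_lit 246)) (XT.lf (nat_lit 0) (nat_lit 9031776754) (nat_lit 152) (nat_lit 5746263372) (nat_lit 228) (nat_lit 241837716) (nat_lit 33) (nat_lit 5) (nat_lit 35) (nat_lit 5) (nat_lit 36) (nat_lit 4) (nat_lit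 379) (nat_lit 276) (nat_lit 245))))))) (XT.nd (nat_lit 44304) (nat_lit 0) (nat_lit 7524) (XT.nd (nat_lit 390) (nat_lit 380) (nat_lit 0) (XT.nd (nat_lit 156) (nat_lit 608) (nat_lit 0) (XT.nd (nat_lit 78) (nat_lit 152) (nat_lit 0) (XT.lf (nat_lit 0) (nat_lit 6604886859) (nat_lit 228) (nat_lit 7466081346) (nat_lit 76) (nat_lit 1241698925) (nat_lit 30) (nat_lit 5) (nat_lit 33) (nat_lit 5) (nat_lit 31) (nat_lit 4) (nat_lit 380) (nat_lit 276) (nat_lit 244)) (XT.lf (nat_lit 0) (nat_lit 6426399373) (nat_lit 152) (nat_lit 7246437248) (nat_lit 228) (nat_lit 1940999777) (nat_lit 28) (nat_lit 5) (nat_lit 30) (nat_lit 5) (nat_lit 31) (nat_lit 4) (nat_lit 381) (nat_lit 276) (nat_lit 243))) (XT.nd (nat_lit 78) (nat_lit 380) (nat_lit 0) (XT.lf (nat_lit 0) (nat_lit 4763500780) (nat_lit 152) (nat_lit 180407473) (nat_lit 228) (nat_lit 10979867886) (nat_lit 25) (nat_lit 5) (nat_lit 27) (nat_lit 5) (nat_lit 28) (nat_lit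 5) (nat_lit 382) (nat_lit 276) (nat_lit 242)) (XT.nd (nat_lit 78) (nat_lit 228) (nat_lit 0) (XT.lf (nat_lit 0) (nat_lit 2815047063) (nat_lit 152) (nat_lit 9221615364) (nat_lit 228) (nat_lit 4205551314) (nat_lit 23) (nat_lit 5) (nat_lit 25) (nat_lit 5) (nat_lit 26) (nat_lit 4) (nat_lit 383) (nat_lit 276) (nat_lit 241)) (XT.lf (nat_lit 0) (nat_lit 604157587) (nat_lit 152) (nat_lit 2114323873) (nat_lit 228) (nat_lit 13851715417) (nat_lit 20) (nat_lit 5) (nat_lit 22) (nat_lit 5) (nat_lit 23) (nat_lit 5) (nat_lit 384) (nat_lit 276) (nat_lit 240))))) (XT.nd (nat_lit 156) (nat_lit 304) (nat_lit 0) (XT.nd (nat_lit 78) (nat_lit 76) (nat_lit 0) (XT.lf (nat_lit 0) (nat_lit 9821625029) (nat_lit 228) (nat_lit 1904826811) (nat_lit 76) (nat_lit 5180450084) (nat_lit 20) (nat_lit 5) (nat_lit 23) (nat_lit 5) (nat_lit 21) (nat_lit 4) (nat_lit 385) (nat_lit 276) (nat_lit 239)) (XT.lf (nat_lit 0) (nat_lit 12557600296)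 (nat_lit 76) (nat_lit 4581574853) (nat_lit 152) (nat_lit 114515396) (nat_lit 19) (nat_lit 5) (nat_lit 20) (nat_lit 5) (nat_lit 21) (nat_lit 4) (nat_lit 386) (nat_lit 276) (nat_lit 238))) (XT.nd (nat_lit 78) (nat_lit 76) (nat_lit 0) (XT.lf (nat_lit 0) (nat_lit 6974232542) (nat_lit 228) (nat_lit 7846624456) (nat_lit 76) (nat_lit 2789086071) (nat_lit 16) (nat_lit 5) (nat_lit 19) (nat_lit 5) (nat_lit 17) (nat_lit 4) (nat_lit 387) (nat_lit 276) (nat_lit 237)) (XT.nd (nat_lit 43602) (nat_lit 0) (nat_lit 13224) (XT.lf (nat_lit 0) (nat_lit 6631653495) (nat_lit 76) (nat_lit 7655991178) (nat_lit 152) (nat_lit 3688960214) (nat_lit 15) (nat_lit 5) (nat_lit 16) (nat_lit 5) (nat_lit 17) (nat_lit 4) (nat_lit 388) (nat_lit 276) (nat_lit 236)) (XT.lf (nat_lit 0) (nat_lit 1699895698) (nat_lit 532) (nat_lit 1023984757) (nat_lit 0) (nat_lit 1699895698) (nat_lit 189) (nat_lit 5) (nat_lit 196) (nat_lit 4) (nat_lit 189)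 (nat_lit 4) (nat_lit 346) (nat_lit 277) (nat_lit 277)))))) (XT.nd (nat_lit 390) (nat_lit 2888) (nat_lit 0) (XT.nd (nat_lit 156) (nat_lit 1368) (nat_lit 0) (XT.nd (nat_lit 78) (nat_lit 912) (nat_lit 0) (XT.lf (nat_lit 0) (nat_lit 572985948) (nat_lit 532) (nat_lit 300178972) (nat_lit 76) (nat_lit 8086903109) (nat_lit 182) (nat_lit 5) (nat_lit 189) (nat_lit 5) (nat_lit 183) (nat_lit 4) (nat_lit 347) (nat_lit 277) (nat_lit 276)) (XT.lf (nat_lit 0) (nat_lit 1449400103) (nat_lit 456) (nat_lit 5221452446) (nat_lit 456) (nat_lit 2405014702) (nat_lit 170) (nat_lit 4) (nat_lit 176) (nat_lit 5) (nat_lit 176) (nat_lit 4) (nat_lit 348) (nat_lit 277) (nat_lit 275))) (XT.nd (nat_lit 78) (nat_lit 912) (nat_lit 0) (XT.lf (nat_lit 0) (nat_lit 3214378325) (nat_lit 380) (nat_lit 438004788) (nat_lit 456) (nat_lit 5543403419) (nat_lit 164) (nat_lit 5) (nat_lit 169) (nat_lit 5) (nat_lit 170) (nat_lit 4) (nat_lit 349) (nat_lit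 277) (nat_lit 274)) (XT.nd (nat_lit 78) (nat_lit 380) (nat_lit 0) (XT.lf (nat_lit 0) (nat_lit 501805197) (nat_lit 532) (nat_lit 4350275499) (nat_lit 76) (nat_lit 4467488631) (nat_lit 157) (nat_lit 5) (nat_lit 164) (nat_lit 5) (nat_lit 158) (nat_lit 4) (nat_lit 350) (nat_lit 277) (nat_lit 273)) (XT.lf (nat_lit 0) (nat_lit 6599147518) (nat_lit 456) (nat_lit 2728268420) (nat_lit 0) (nat_lit 120028837) (nat_lit 152) (nat_lit 5) (nat_lit 158) (nat_lit 4) (nat_lit 152) (nat_lit 4) (nat_lit 351) (nat_lit 277) (nat_lit 272))))) (XT.nd (nat_lit 234) (nat_lit 1216) (nat_lit 0) (XT.nd (nat_lit 78) (nat_lit 1216) (nat_lit 0) (XT.lf (nat_lit 0) (nat_lit 3233754988) (nat_lit 456) (nat_lit 1131760420) (nat_lit 76) (nat_lit 5213709021) (nat_lit 146) (nat_lit 5) (nat_lit 152) (nat_lit 5) (nat_lit 147) (nat_lit 4) (nat_lit 352) (nat_lit 277) (nat_lit 271)) (XT.nd (nat_lit 78) (nat_lit 456) (nat_lit 0) (XT.lf (nat_lit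 0) (nat_lit 471685116) (nat_lit 380) (nat_lit 8942633123) (nat_lit 380) (nat_lit 301199008) (nat_lit 136) (nat_lit 4) (nat_lit 141) (nat_lit 5) (nat_lit 141) (nat_lit 4) (nat_lit 353) (nat_lit 277) (nat_lit 270)) (XT.lf (nat_lit 0) (nat_lit 2043637277) (nat_lit 380) (nat_lit 3788038965) (nat_lit 456) (nat_lit 4023783525) (nat_lit 130) (nat_lit 5) (nat_lit 135) (nat_lit 5) (nat_lit 136) (nat_lit 4) (nat_lit 354) (nat_lit 277) (nat_lit 269)))) (XT.nd (nat_lit 78) (nat_lit 760) (nat_lit 0) (XT.lf (nat_lit 0) (nat_lit 2076699055) (nat_lit 456) (nat_lit 6392688137) (nat_lit 76) (nat_lit 1530724450) (nat_lit 124) (nat_lit 5) (nat_lit 130) (nat_lit 5) (nat_lit 125) (nat_lit 4) (nat_lit 355) (nat_lit 277) (nat_lit 268)) (XT.nd (nat_lit 78) (nat_lit 456) (nat_lit 0) (XT.lf (nat_lit 0) (nat_lit 5132733147) (nat_lit 304) (nat_lit 3150523737) (nat_lit 380) (nat_lit 1865787169) (nat_lit 120) (nat_lit 5) (nat_lit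 124) (nat_lit 5) (nat_lit 125) (nat_lit 4) (nat_lit 356) (nat_lit 277) (nat_lit 267)) (XT.lf (nat_lit 0) (nat_lit 4285456828) (nat_lit 456) (nat_lit 3678475875) (nat_lit 76) (nat_lit 2338584977) (nat_lit 114) (nat_lit 5) (nat_lit 120) (nat_lit 5) (nat_lit 115) (nat_lit 4) (nat_lit 357) (nat_lit 277) (nat_lit 266))))))))
noncomputable def xc11 : XT := (XT.nd (nat_lit 1560) (nat_lit 1748) (nat_lit 0) (XT.nd (nat_lit 780) (nat_lit 2280) (nat_lit 0) (XT.nd (nat_lit 390) (nat_lit 1444) (nat_lit 0) (XT.nd (nat_lit 156) (nat_lit 1368) (nat_lit 0) (XT.nd (nat_lit 78) (nat_lit 304) (nat_lit 0) (XT.lf (nat_lit 0) (nat_lit 110726867) (nat_lit 380) (nat_lit 2374180116) (nat_lit 76) (nat_lit 7975909902) (nat_lit 109) (nat_lit 5) (nat_lit 114) (nat_lit 5) (nat_lit 110) (nat_lit 5) (nat_lit 358) (nat_lit 277) (nat_lit 265)) (XT.lf (nat_lit 0) (nat_lit 6319570079) (nat_lit 380) (nat_lit 1134417442) (nat_lit 76) (nat_lit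 3169526865) (nat_lit 105) (nat_lit 5) (nat_lit 110) (nat_lit 5) (nat_lit 106) (nat_lit 4) (nat_lit 359) (nat_lit 277) (nat_lit 264))) (XT.nd (nat_lit 78) (nat_lit 684) (nat_lit 0) (XT.lf (nat_lit 0) (nat_lit 68451017) (nat_lit 304) (nat_lit 1806338591) (nat_lit 380) (nat_lit 8916547795) (nat_lit 96) (nat_lit 5) (nat_lit 100) (nat_lit 5) (nat_lit 101) (nat_lit 5) (nat_lit 360) (nat_lit 277) (nat_lit 263)) (XT.nd (nat_lit 78) (nat_lit 380) (nat_lit 0) (XT.lf (nat_lit 0) (nat_lit 1217018999) (nat_lit 304) (nat_lit 6958243359) (nat_lit 380) (nat_lit 2788489104) (nat_lit 92) (nat_lit 5) (nat_lit 96) (nat_lit 5) (nat_lit 97) (nat_lit 4) (nat_lit 361) (nat_lit 277) (nat_lit 262)) (XT.lf (nat_lit 0) (nat_lit 2311053244) (nat_lit 304) (nat_lit 1140393378) (nat_lit 380) (nat_lit 7689970154) (nat_lit 87) (nat_lit 5) (nat_lit 91) (nat_lit 5) (nat_lit 92) (nat_lit 5) (nat_lit 362) (nat_lit 277) (nat_lit 261)))))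 (XT.nd (nat_lit 156) (nat_lit 836) (nat_lit 0) (XT.nd (nat_lit 78) (nat_lit 380) (nat_lit 0) (XT.lf (nat_lit 0) (nat_lit 3329501144) (nat_lit 228) (nat_lit 6506875127) (nat_lit 304) (nat_lit 1487774178) (nat_lit 84) (nat_lit 5) (nat_lit 87) (nat_lit 5) (nat_lit 88) (nat_lit 4) (nat_lit 363) (nat_lit 277) (nat_lit 260)) (XT.lf (nat_lit 0) (nat_lit 4277314918) (nat_lit 304) (nat_lit 531876646) (nat_lit 380) (nat_lit 6703098385) (nat_lit 79) (nat_lit 5) (nat_lit 83) (nat_lit 5) (nat_lit 84) (nat_lit 5) (nat_lit 364) (nat_lit 277) (nat_lit 259))) (XT.nd (nat_lit 78) (nat_lit 608) (nat_lit 0) (XT.lf (nat_lit 0) (nat_lit 5141064210) (nat_lit 228) (nat_lit 6137427568) (nat_lit 304) (nat_lit 427331483) (nat_lit 76) (nat_lit 5) (nat_lit 79) (nat_lit 5) (nat_lit 80) (nat_lit 4) (nat_lit 365) (nat_lit 277) (nat_lit 258)) (XT.nd (nat_lit 78) (nat_lit 304) (nat_lit 0) (XT.lf (nat_lit 0) (nat_lit 5918008748) (nat_lit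 228) (nat_lit 11396200) (nat_lit 304) (nat_lit 5975554520) (nat_lit 72) (nat_lit 5) (nat_lit 75) (nat_lit 5) (nat_lit 76) (nat_lit 5) (nat_lit 366) (nat_lit 277) (nat_lit 257)) (XT.lf (nat_lit 0) (nat_lit 367127947) (nat_lit 304) (nat_lit 5512150523) (nat_lit 76) (nat_lit 6230488437) (nat_lit 68) (nat_lit 5) (nat_lit 72) (nat_lit 5) (nat_lit 69) (nat_lit 5) (nat_lit 367) (nat_lit 277) (nat_lit 256)))))) (XT.nd (nat_lit 390) (nat_lit 1064) (nat_lit 0) (XT.nd (nat_lit 156) (nat_lit 684) (nat_lit 0) (XT.nd (nat_lit 78) (nat_lit 304) (nat_lit 0) (XT.lf (nat_lit 0) (nat_lit 6793022368) (nat_lit 304) (nat_lit 5144144717) (nat_lit 76) (nat_lit 383295985) (nat_lit 65) (nat_lit 5) (nat_lit 69) (nat_lit 5) (nat_lit 66) (nat_lit 4) (nat_lit 368) (nat_lit 277) (nat_lit 255)) (XT.lf (nat_lit 0) (nat_lit 874619076) (nat_lit 304) (nat_lit 4893408482) (nat_lit 76) (nat_lit 6769117594) (nat_lit 61) (nat_lit 5) (nat_lit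 65) (nat_lit 5) (nat_lit 62) (nat_lit 5) (nat_lit 369) (nat_lit 277) (nat_lit 254))) (XT.nd (nat_lit 78) (nat_lit 456) (nat_lit 0) (XT.lf (nat_lit 0) (nat_lit 7371769164) (nat_lit 304) (nat_lit 4764142206) (nat_lit 76) (nat_lit 624138614) (nat_lit 58) (nat_lit 5) (nat_lit 62) (nat_lit 5) (nat_lit 59) (nat_lit 4) (nat_lit 370) (nat_lit 277) (nat_lit 253)) (XT.nd (nat_lit 78) (nat_lit 228) (nat_lit 0) (XT.lf (nat_lit 0) (nat_lit 1073656286) (nat_lit 228) (nat_lit 4769697810) (nat_lit 76) (nat_lit 7145892087) (nat_lit 55) (nat_lit 5) (nat_lit 58) (nat_lit 5) (nat_lit 56) (nat_lit 5) (nat_lit 371) (nat_lit 277) (nat_lit 252)) (XT.lf (nat_lit 0) (nat_lit 7636985398) (nat_lit 304) (nat_lit 4914048121) (nat_lit 76) (nat_lit 673971963) (nat_lit 52) (nat_lit 5) (nat_lit 56) (nat_lit 5) (nat_lit 53) (nat_lit 4) (nat_lit 372) (nat_lit 277) (nat_lit 251))))) (XT.nd (nat_lit 156) (nat_lit 608) (nat_lit 0) (XT.nd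 (nat_lit 78) (nat_lit 228) (nat_lit 0) (XT.lf (nat_lit 0) (nat_lit 933428266) (nat_lit 228) (nat_lit 5211675143) (nat_lit 76) (nat_lit 7322302303) (nat_lit 49) (nat_lit 5) (nat_lit 52) (nat_lit 5) (nat_lit 50) (nat_lit 5) (nat_lit 373) (nat_lit 277) (nat_lit 250)) (XT.lf (nat_lit 0) (nat_lit 7556209962) (nat_lit 304) (nat_lit 5668136121) (nat_lit 76) (nat_lit 492374192) (nat_lit 46) (nat_lit 5) (nat_lit 50) (nat_lit 5) (nat_lit 47) (nat_lit 4) (nat_lit 374) (nat_lit 277) (nat_lit 249))) (XT.nd (nat_lit 78) (nat_lit 380) (nat_lit 0) (XT.lf (nat_lit 0) (nat_lit 419050808) (nat_lit 228) (nat_lit 6297482520) (nat_lit 76) (nat_lit 7256537260) (nat_lit 43) (nat_lit 5) (nat_lit 46) (nat_lit 5) (nat_lit 44) (nat_lit 5) (nat_lit 375) (nat_lit 277) (nat_lit 248)) (XT.nd (nat_lit 78) (nat_lit 152) (nat_lit 0) (XT.lf (nat_lit 0) (nat_lit 7092735517) (nat_lit 304) (nat_lit 7108580133) (nat_lit 76) (nat_lit 35384905)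 (nat_lit 40) (nat_lit 5) (nat_lit 44) (nat_lit 5) (nat_lit 41) (nat_lit 4) (nat_lit 376) (nat_lit 277) (nat_lit 247)) (XT.lf (nat_lit 0) (nat_lit 6390800700) (nat_lit 152) (nat_lit 7601352832) (nat_lit 228) (nat_lit 515587316) (nat_lit 38) (nat_lit 5) (nat_lit 40) (nat_lit 5) (nat_lit 41) (nat_lit 4) (nat_lit 377) (nat_lit 277) (nat_lit 246))))))) (XT.nd (nat_lit 780) (nat_lit 76) (nat_lit 0) (XT.nd (nat_lit 390) (nat_lit 836) (nat_lit 0) (XT.nd (nat_lit 156) (nat_lit 456) (nat_lit 0) (XT.nd (nat_lit 78) (nat_lit 152) (nat_lit 0) (XT.lf (nat_lit 0) (nat_lit 5455237366) (nat_lit 152) (nat_lit 754858828) (nat_lit 228) (nat_lit 8576383226) (nat_lit 35) (nat_lit 5) (nat_lit 37) (nat_lit 5) (nat_lit 38) (nat_lit 5) (nat_lit 378) (nat_lit 277) (nat_lit 245)) (XT.lf (nat_lit 0) (nat_lit 4304862292) (nat_lit 152) (nat_lit 8848575858) (nat_lit 228) (nat_lit 1919626965) (nat_lit 33) (nat_lit 5) (nat_lit 35)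 (nat_lit 5) (nat_lit 36) (nat_lit 4) (nat_lit 379) (nat_lit 277) (nat_lit 244))) (XT.nd (nat_lit 78) (nat_lit 228) (nat_lit 0) (XT.lf (nat_lit 0) (nat_lit 2933216789) (nat_lit 152) (nat_lit 1926393242) (nat_lit 228) (nat_lit 10508257228) (nat_lit 30) (nat_lit 5) (nat_lit 32) (nat_lit 5) (nat_lit 33) (nat_lit 5) (nat_lit 380) (nat_lit 277) (nat_lit 243)) (XT.nd (nat_lit 78) (nat_lit 76) (nat_lit 0) (XT.lf (nat_lit 0) (nat_lit 1316069577) (nat_lit 152) (nat_lit 10517064372) (nat_lit 228) (nat_lit 3837796095) (nat_lit 28) (nat_lit 5) (nat_lit 30) (nat_lit 5) (nat_lit 31) (nat_lit 4) (nat_lit 381) (nat_lit 277) (nat_lit 242)) (XT.lf (nat_lit 0) (nat_lit 2992862640) (nat_lit 228) (nat_lit 540556609) (nat_lit 76) (nat_lit 12449284122) (nat_lit 27) (nat_lit 5) (nat_lit 30) (nat_lit 5) (nat_lit 28) (nat_lit 5) (nat_lit 382) (nat_lit 277) (nat_lit 241))))) (XT.nd (nat_lit 156) (nat_lit 456) (nat_lit 0) (XT.nd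 (nat_lit 78) (nat_lit 228) (nat_lit 0) (XT.lf (nat_lit 0) (nat_lit 9994398081) (nat_lit 228) (nat_lit 2656097420) (nat_lit 76) (nat_lit 3652474468) (nat_lit 25) (nat_lit 5) (nat_lit 28) (nat_lit 5) (nat_lit 26) (nat_lit 4) (nat_lit 383) (nat_lit 277) (nat_lit 240)) (XT.lf (nat_lit 0) (nat_lit 574462197) (nat_lit 228) (nat_lit 5042561399) (nat_lit 76) (nat_lit 11015578594) (nat_lit 22) (nat_lit 5) (nat_lit 25) (nat_lit 5) (nat_lit 23) (nat_lit 5) (nat_lit 384) (nat_lit 277) (nat_lit 239))) (XT.nd (nat_lit 78) (nat_lit 304) (nat_lit 0) (XT.lf (nat_lit 0) (nat_lit 7574986983) (nat_lit 228) (nat_lit 7742989939) (nat_lit 76) (nat_lit 1653386959) (nat_lit 20) (nat_lit 5) (nat_lit 23) (nat_lit 5) (nat_lit 21) (nat_lit 4) (nat_lit 385) (nat_lit 277) (nat_lit 238)) (XT.nd (nat_lit 78) (nat_lit 228) (nat_lit 0) (XT.lf (nat_lit 0) (nat_lit 6558895212) (nat_lit 76) (nat_lit 8249565693) (nat_lit 152) (nat_lit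 2511377267) (nat_lit 19) (nat_lit 5) (nat_lit 20) (nat_lit 5) (nat_lit 21) (nat_lit 4) (nat_lit 386) (nat_lit 277) (nat_lit 237)) (XT.lf (nat_lit 0) (nat_lit 3570137230) (nat_lit 152) (nat_lit 935352992) (nat_lit 228) (nat_lit 13172981973) (nat_lit 16) (nat_lit 5) (nat_lit 18) (nat_lit 5) (nat_lit 19) (nat_lit 5) (nat_lit 387) (nat_lit 277) (nat_lit 236)))))) (XT.nd (nat_lit 43758) (nat_lit 0) (nat_lit 9500) (XT.nd (nat_lit 43524) (nat_lit 0) (nat_lit 12692) (XT.nd (nat_lit 43446) (nat_lit 0) (nat_lit 14288) (XT.lf (nat_lit 0) (nat_lit 211344626) (nat_lit 76) (nat_lit 11515713448) (nat_lit 152) (nat_lit 6319916656) (nat_lit 15) (nat_lit 5) (nat_lit 16) (nat_lit 5) (nat_lit 17) (nat_lit 4) (nat_lit 388) (nat_lit 277) (nat_lit 235)) (XT.lf (nat_lit 0) (nat_lit 807815473) (nat_lit 608) (nat_lit 2700775902) (nat_lit 0) (nat_lit 807815473) (nat_lit 203) (nat_lit 5) (nat_lit 211) (nat_lit 4) (nat_lit 203)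 (nat_lit 4) (nat_lit 344) (nat_lit 278) (nat_lit 278))) (XT.nd (nat_lit 78) (nat_lit 1064) (nat_lit 0) (XT.lf (nat_lit 0) (nat_lit 4960858621) (nat_lit 532) (nat_lit 2654797858) (nat_lit 532) (nat_lit 1123432174) (nat_lit 196) (nat_lit 4) (nat_lit 203) (nat_lit 5) (nat_lit 203) (nat_lit 4) (nat_lit 345) (nat_lit 278) (nat_lit 277)) (XT.nd (nat_lit 78) (nat_lit 532) (nat_lit 0) (XT.lf (nat_lit 0) (nat_lit 4827757292) (nat_lit 532) (nat_lit 2152474576) (nat_lit 0) (nat_lit 1868807798) (nat_lit 189) (nat_lit 5) (nat_lit 196) (nat_lit 4) (nat_lit 189) (nat_lit 4) (nat_lit 346) (nat_lit 278) (nat_lit 276)) (XT.lf (nat_lit 0) (nat_lit 1907665189) (nat_lit 532) (nat_lit 520621720) (nat_lit 76) (nat_lit 6534563998) (nat_lit 182) (nat_lit 5) (nat_lit 189) (nat_lit 5) (nat_lit 183) (nat_lit 4) (nat_lit 347) (nat_lit 278) (nat_lit 275))))) (XT.nd (nat_lit 234) (nat_lit 1292) (nat_lit 0) (XT.nd (nat_lit 78) (nat_lit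 988) (nat_lit 0) (XT.lf (nat_lit 0) (nat_lit 1125735507) (nat_lit 456) (nat_lit 6794982865) (nat_lit 456) (nat_lit 1159646413) (nat_lit 170) (nat_lit 4) (nat_lit 176) (nat_lit 5) (nat_lit 176) (nat_lit 4) (nat_lit 348) (nat_lit 278) (nat_lit 274)) (XT.nd (nat_lit 78) (nat_lit 532) (nat_lit 0) (XT.lf (nat_lit 0) (nat_lit 2769682084) (nat_lit 380) (nat_lit 2038626535) (nat_lit 456) (nat_lit 4393293425) (nat_lit 164) (nat_lit 5) (nat_lit 169) (nat_lit 5) (nat_lit 170) (nat_lit 4) (nat_lit 349) (nat_lit 278) (nat_lit 273)) (XT.lf (nat_lit 0) (nat_lit 1553264118) (nat_lit 532) (nat_lit 4914147621) (nat_lit 76) (nat_lit 2859511757) (nat_lit 157) (nat_lit 5) (nat_lit 164) (nat_lit 5) (nat_lit 158) (nat_lit 4) (nat_lit 350) (nat_lit 278) (nat_lit 272)))) (XT.nd (nat_lit 78) (nat_lit 912) (nat_lit 0) (XT.lf (nat_lit 0) (nat_lit 6045867428) (nat_lit 380) (nat_lit 1531425602) (nat_lit 456) (nat_lit 1878988355)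 (nat_lit 152) (nat_lit 5) (nat_lit 157) (nat_lit 5) (nat_lit 158) (nat_lit 4) (nat_lit 351) (nat_lit 278) (nat_lit 271)) (XT.nd (nat_lit 78) (nat_lit 456) (nat_lit 0) (XT.lf (nat_lit 0) (nat_lit 4107739471) (nat_lit 456) (nat_lit 1931374247) (nat_lit 76) (nat_lit 3550489083) (nat_lit 146) (nat_lit 5) (nat_lit 152) (nat_lit 5) (nat_lit 147) (nat_lit 4) (nat_lit 352) (nat_lit 278) (nat_lit 270)) (XT.lf (nat_lit 0) (nat_lit 474272231) (nat_lit 456) (nat_lit 456114362) (nat_lit 76) (nat_lit 8797065824) (nat_lit 140) (nat_lit 5) (nat_lit 146) (nat_lit 5) (nat_lit 141) (nat_lit 5) (nat_lit 353) (nat_lit 278) (nat_lit 269))))))))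
noncomputable def xc12 : XT := (XT.nd (nat_lit 1560) (nat_lit 2584) (nat_lit 0) (XT.nd (nat_lit 780) (nat_lit 2584) (nat_lit 0) (XT.nd (nat_lit 390) (nat_lit 1900) (nat_lit 0) (XT.nd (nat_lit 156) (nat_lit 1140) (nat_lit 0) (XT.nd (nat_lit 78) (nat_lit 456) (nat_lit 0) (XT.lf (nat_lit 0) (nat_lit 986179229) (nat_lit 380) (nat_lit 5534888565) (nat_lit 456) (nat_lit 3347944846) (nat_lit 130) (nat_lit 5) (nat_lit 135) (nat_lit 5) (nat_lit 136) (nat_lit 4) (nat_lit 354) (nat_lit 278) (nat_lit 268)) (XT.lf (nat_lit 0) (nat_lit 2425593794) (nat_lit 380) (nat_lit 234901501) (nat_lit 456) (nat_lit 7354758575) (nat_lit 124) (nat_lit 5) (nat_lit 129) (nat_lit 5) (nat_lit 130) (nat_lit 5) (nat_lit 355) (nat_lit 278) (nat_lit 267))) (XT.nd (nat_lit 78) (nat_lit 836) (nat_lit 0) (XT.lf (nat_lit 0) (nat_lit 3819569510) (nat_lit 304) (nat_lit 4973093389) (nat_lit 380) (nat_lit 1373024334) (nat_lit 120) (nat_lit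 5) (nat_lit 124) (nat_lit 5) (nat_lit 125) (nat_lit 4) (nat_lit 356) (nat_lit 278) (nat_lit 266)) (XT.nd (nat_lit 78) (nat_lit 380) (nat_lit 0) (XT.lf (nat_lit 0) (nat_lit 4686684042) (nat_lit 456) (nat_lit 5136184657) (nat_lit 76) (nat_lit 497942147) (nat_lit 114) (nat_lit 5) (nat_lit 120) (nat_lit 5) (nat_lit 115) (nat_lit 4) (nat_lit 357) (nat_lit 278) (nat_lit 265)) (XT.lf (nat_lit 0) (nat_lit 415345949) (nat_lit 380) (nat_lit 3973473238) (nat_lit 76) (nat_lit 6091718903) (nat_lit 109) (nat_lit 5) (nat_lit 114) (nat_lit 5) (nat_lit 110) (nat_lit 5) (nat_lit 358) (nat_lit 278) (nat_lit 264))))) (XT.nd (nat_lit 156) (nat_lit 1216) (nat_lit 0) (XT.nd (nat_lit 78) (nat_lit 380) (nat_lit 0) (XT.lf (nat_lit 0) (nat_lit 6538562126) (nat_lit 380) (nat_lit 2863144223) (nat_lit 76) (nat_lit 1243253346) (nat_lit 105) (nat_lit 5) (nat_lit 110) (nat_lit 5) (nat_lit 106) (nat_lit 4) (nat_lit 359) (nat_lit 278)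 (nat_lit 263)) (XT.lf (nat_lit 0) (nat_lit 1995942385) (nat_lit 380) (nat_lit 1806907193) (nat_lit 76) (nat_lit 7011394551) (nat_lit 100) (nat_lit 5) (nat_lit 105) (nat_lit 5) (nat_lit 101) (nat_lit 5) (nat_lit 360) (nat_lit 278) (nat_lit 262))) (XT.nd (nat_lit 78) (nat_lit 912) (nat_lit 0) (XT.lf (nat_lit 0) (nat_lit 8202596019) (nat_lit 380) (nat_lit 807657898) (nat_lit 76) (nat_lit 1978291340) (nat_lit 96) (nat_lit 5) (nat_lit 101) (nat_lit 5) (nat_lit 97) (nat_lit 4) (nat_lit 361) (nat_lit 278) (nat_lit 261)) (XT.nd (nat_lit 78) (nat_lit 228) (nat_lit 0) (XT.lf (nat_lit 0) (nat_lit 123631030) (nat_lit 304) (nat_lit 3250518655) (nat_lit 380) (nat_lit 7793666797) (nat_lit 87) (nat_lit 5) (nat_lit 91) (nat_lit 5) (nat_lit 92) (nat_lit 5) (nat_lit 362) (nat_lit 278) (nat_lit 260)) (XT.lf (nat_lit 0) (nat_lit 1001048921) (nat_lit 228) (nat_lit 8669840909) (nat_lit 304) (nat_lit 1681433992) (nat_lit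 84) (nat_lit 5) (nat_lit 87) (nat_lit 5) (nat_lit 88) (nat_lit 4) (nat_lit 363) (nat_lit 278) (nat_lit 259)))))) (XT.nd (nat_lit 390) (nat_lit 1140) (nat_lit 0) (XT.nd (nat_lit 156) (nat_lit 836) (nat_lit 0) (XT.nd (nat_lit 78) (nat_lit 228) (nat_lit 0) (XT.lf (nat_lit 0) (nat_lit 1792361089) (nat_lit 304) (nat_lit 2750914555) (nat_lit 380) (nat_lit 6998718143) (nat_lit 79) (nat_lit 5) (nat_lit 83) (nat_lit 5) (nat_lit 84) (nat_lit 5) (nat_lit 364) (nat_lit 278) (nat_lit 258)) (XT.lf (nat_lit 0) (nat_lit 2509970536) (nat_lit 228) (nat_lit 8413296356) (nat_lit 304) (nat_lit 814055513) (nat_lit 76) (nat_lit 5) (nat_lit 79) (nat_lit 5) (nat_lit 80) (nat_lit 4) (nat_lit 365) (nat_lit 278) (nat_lit 257))) (XT.nd (nat_lit 78) (nat_lit 532) (nat_lit 0) (XT.lf (nat_lit 0) (nat_lit 3125764778) (nat_lit 228) (nat_lit 2346724438) (nat_lit 304) (nat_lit 6465533573) (nat_lit 72) (nat_lit 5) (nat_lit 75) (nat_lit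 5) (nat_lit 76) (nat_lit 5) (nat_lit 366) (nat_lit 278) (nat_lit 256)) (XT.nd (nat_lit 78) (nat_lit 304) (nat_lit 0) (XT.lf (nat_lit 0) (nat_lit 3656453927) (nat_lit 228) (nat_lit 8277851130) (nat_lit 304) (nat_lit 210393938) (nat_lit 69) (nat_lit 5) (nat_lit 72) (nat_lit 5) (nat_lit 73) (nat_lit 4) (nat_lit 367) (nat_lit 278) (nat_lit 255)) (XT.lf (nat_lit 0) (nat_lit 4069295371) (nat_lit 228) (nat_lit 2070586725) (nat_lit 304) (nat_lit 6217115964) (nat_lit 65) (nat_lit 5) (nat_lit 68) (nat_lit 5) (nat_lit 69) (nat_lit 5) (nat_lit 368) (nat_lit 278) (nat_lit 254))))) (XT.nd (nat_lit 156) (nat_lit 608) (nat_lit 0) (XT.nd (nat_lit 78) (nat_lit 228) (nat_lit 0) (XT.lf (nat_lit 0) (nat_lit 103845069) (nat_lit 304) (nat_lit 8193036414) (nat_lit 76) (nat_lit 4278698735) (nat_lit 61) (nat_lit 5) (nat_lit 65) (nat_lit 5) (nat_lit 62) (nat_lit 5) (nat_lit 369) (nat_lit 278) (nat_lit 253)) (XT.lf (nat_lit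 0) (nat_lit 4562762110) (nat_lit 228) (nat_lit 1957554980) (nat_lit 304) (nat_lit 6279788941) (nat_lit 58) (nat_lit 5) (nat_lit 61) (nat_lit 5) (nat_lit 62) (nat_lit 5) (nat_lit 370) (nat_lit 278) (nat_lit 252))) (XT.nd (nat_lit 78) (nat_lit 380) (nat_lit 0) (XT.lf (nat_lit 0) (nat_lit 103647327) (nat_lit 228) (nat_lit 8404822098) (nat_lit 76) (nat_lit 4522759493) (nat_lit 55) (nat_lit 5) (nat_lit 58) (nat_lit 5) (nat_lit 56) (nat_lit 5) (nat_lit 371) (nat_lit 278) (nat_lit 251)) (XT.nd (nat_lit 78) (nat_lit 152) (nat_lit 0) (XT.lf (nat_lit 0) (nat_lit 4539668501) (nat_lit 228) (nat_lit 2045463646) (nat_lit 304) (nat_lit 6683499810) (nat_lit 52) (nat_lit 5) (nat_lit 55) (nat_lit 5) (nat_lit 56) (nat_lit 5) (nat_lit 372) (nat_lit 278) (nat_lit 250)) (XT.lf (nat_lit 0) (nat_lit 4318147223) (nat_lit 152) (nat_lit 8952292545) (nat_lit 228) (nat_lit 242543265) (nat_lit 50) (nat_lit 5) (nat_lit 52) (nat_lit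 5) (nat_lit 53) (nat_lit 4) (nat_lit 373) (nat_lit 278) (nat_lit 249))))))) (XT.nd (nat_lit 780) (nat_lit 684) (nat_lit 0) (XT.nd (nat_lit 390) (nat_lit 760) (nat_lit 0) (XT.nd (nat_lit 156) (nat_lit 684) (nat_lit 0) (XT.nd (nat_lit 78) (nat_lit 152) (nat_lit 0) (XT.lf (nat_lit 0) (nat_lit 3926485055) (nat_lit 228) (nat_lit 2375324416) (nat_lit 304) (nat_lit 7462158155) (nat_lit 46) (nat_lit 5) (nat_lit 49) (nat_lit 5) (nat_lit 50) (nat_lit 5) (nat_lit 374) (nat_lit 278) (nat_lit 248)) (XT.lf (nat_lit 0) (nat_lit 3379057650) (nat_lit 152) (nat_lit 9670050551) (nat_lit 228) (nat_lit 973155764) (nat_lit 44) (nat_lit 5) (nat_lit 46) (nat_lit 5) (nat_lit 47) (nat_lit 4) (nat_lit 375) (nat_lit 278) (nat_lit 247))) (XT.nd (nat_lit 78) (nat_lit 380) (nat_lit 0) (XT.lf (nat_lit 0) (nat_lit 2641849336) (nat_lit 228) (nat_lit 2991757023) (nat_lit 304) (nat_lit 8654013506) (nat_lit 40) (nat_lit 5) (nat_lit 43)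 (nat_lit 5) (nat_lit 44) (nat_lit 5) (nat_lit 376) (nat_lit 278) (nat_lit 246)) (XT.nd (nat_lit 78) (nat_lit 228) (nat_lit 0) (XT.lf (nat_lit 0) (nat_lit 1724251095) (nat_lit 152) (nat_lit 10709386060) (nat_lit 228) (nat_lit 2127016432) (nat_lit 38) (nat_lit 5) (nat_lit 40) (nat_lit 5) (nat_lit 41) (nat_lit 4) (nat_lit 377) (nat_lit 278) (nat_lit 245)) (XT.lf (nat_lit 0) (nat_lit 595685448) (nat_lit 152) (nat_lit 3943458618) (nat_lit 228) (nat_lit 10302075896) (nat_lit 35) (nat_lit 5) (nat_lit 37) (nat_lit 5) (nat_lit 38) (nat_lit 5) (nat_lit 378) (nat_lit 278) (nat_lit 244))))) (XT.nd (nat_lit 156) (nat_lit 532) (nat_lit 0) (XT.nd (nat_lit 78) (nat_lit 228) (nat_lit 0) (XT.lf (nat_lit 0) (nat_lit 11385362069) (nat_lit 228) (nat_lit 731324787) (nat_lit 76) (nat_lit 3013066532) (nat_lit 35) (nat_lit 5) (nat_lit 38) (nat_lit 5) (nat_lit 36) (nat_lit 4) (nat_lit 379) (nat_lit 278) (nat_lit 243)) (XT.lf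 (nat_lit 0) (nat_lit 2986960032) (nat_lit 228) (nat_lit 2281446492) (nat_lit 76) (nat_lit 10157827316) (nat_lit 32) (nat_lit 5) (nat_lit 35) (nat_lit 5) (nat_lit 33) (nat_lit 5) (nat_lit 380) (nat_lit 278) (nat_lit 242))) (XT.nd (nat_lit 78) (nat_lit 380) (nat_lit 0) (XT.lf (nat_lit 0) (nat_lit 9867812472) (nat_lit 228) (nat_lit 4067746296) (nat_lit 76) (nat_lit 1795596139) (nat_lit 30) (nat_lit 5) (nat_lit 33) (nat_lit 5) (nat_lit 31) (nat_lit 4) (nat_lit 381) (nat_lit 278) (nat_lit 241)) (XT.nd (nat_lit 78) (nat_lit 152) (nat_lit 0) (XT.lf (nat_lit 0) (nat_lit 920148509) (nat_lit 228) (nat_lit 6109818713) (nat_lit 76) (nat_lit 9014703320) (nat_lit 27) (nat_lit 5) (nat_lit 30) (nat_lit 5) (nat_lit 28) (nat_lit 5) (nat_lit 382) (nat_lit 278) (nat_lit 240)) (XT.lf (nat_lit 0) (nat_lit 7815893918) (nat_lit 228) (nat_lit 8422407791) (nat_lit 76) (nat_lit 128755717) (nat_lit 25) (nat_lit 5) (nat_lit 28)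 (nat_lit 5) (nat_lit 26) (nat_lit 4) (nat_lit 383) (nat_lit 278) (nat_lit 239)))))) (XT.nd (nat_lit 43602) (nat_lit 0) (nat_lit 12616) (XT.nd (nat_lit 156) (nat_lit 304) (nat_lit 0) (XT.nd (nat_lit 78) (nat_lit 228) (nat_lit 0) (XT.lf (nat_lit 0) (nat_lit 5669024964) (nat_lit 152) (nat_lit 9283917159) (nat_lit 228) (nat_lit 1745494025) (nat_lit 23) (nat_lit 5) (nat_lit 25) (nat_lit 5) (nat_lit 26) (nat_lit 4) (nat_lit 384) (nat_lit 278) (nat_lit 238)) (XT.lf (nat_lit 0) (nat_lit 3103339086) (nat_lit 152) (nat_lit 2079501098) (nat_lit 228) (nat_lit 11856490120) (nat_lit 20) (nat_lit 5) (nat_lit 22) (nat_lit 5) (nat_lit 23) (nat_lit 5) (nat_lit 385) (nat_lit 278) (nat_lit 237))) (XT.nd (nat_lit 78) (nat_lit 228) (nat_lit 0) (XT.lf (nat_lit 0) (nat_lit 216733480) (nat_lit 76) (nat_lit 12101087404) (nat_lit 152) (nat_lit 5071957599) (nat_lit 19) (nat_lit 5) (nat_lit 20) (nat_lit 5) (nat_lit 21) (nat_lit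 4) (nat_lit 386) (nat_lit 278) (nat_lit 236)) (XT.nd (nat_lit 78) (nat_lit 152) (nat_lit 0) (XT.lf (nat_lit 0) (nat_lit 1911977991) (nat_lit 152) (nat_lit 2950936381) (nat_lit 76) (nat_lit 12887164753) (nat_lit 18) (nat_lit 5) (nat_lit 20) (nat_lit 5) (nat_lit 19) (nat_lit 5) (nat_lit 387) (nat_lit 278) (nat_lit 235)) (XT.lf (nat_lit 0) (nat_lit 9044328321) (nat_lit 228) (nat_lit 6476207570) (nat_lit 76) (nat_lit 2599833838) (nat_lit 16) (nat_lit 5) (nat_lit 19) (nat_lit 5) (nat_lit 17) (nat_lit 4) (nat_lit 388) (nat_lit 278) (nat_lit 234))))) (XT.nd (nat_lit 234) (nat_lit 1596) (nat_lit 0) (XT.nd (nat_lit 78) (nat_lit 1748) (nat_lit 0) (XT.lf (nat_lit 0) (nat_lit 4173466387) (nat_lit 608) (nat_lit 20739984) (nat_lit 608) (nat_lit 20739984) (nat_lit 226) (nat_lit 4) (nat_lit 234) (nat_lit 5) (nat_lit 234) (nat_lit 4) (nat_lit 342) (nat_lit 279) (nat_lit 279)) (XT.nd (nat_lit 78) (nat_lit 608) (nat_lit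 0) (XT.lf (nat_lit 0) (nat_lit 1507482899) (nat_lit 532) (nat_lit 4315737396) (nat_lit 532) (nat_lit 2706884608) (nat_lit 211) (nat_lit 4) (nat_lit 218) (nat_lit 5) (nat_lit 218) (nat_lit 4) (nat_lit 343) (nat_lit 279) (nat_lit 278)) (XT.lf (nat_lit 0) (nat_lit 3119440993) (nat_lit 608) (nat_lit 5504094888) (nat_lit 0) (nat_lit 10768655) (nat_lit 203) (nat_lit 5) (nat_lit 211) (nat_lit 4) (nat_lit 203) (nat_lit 4) (nat_lit 344) (nat_lit 279) (nat_lit 277)))) (XT.nd (nat_lit 78) (nat_lit 988) (nat_lit 0) (XT.lf (nat_lit 0) (nat_lit 300730941) (nat_lit 608) (nat_lit 3987958636) (nat_lit 76) (nat_lit 4453324348) (nat_lit 195) (nat_lit 5) (nat_lit 203) (nat_lit 5) (nat_lit 196) (nat_lit 4) (nat_lit 345) (nat_lit 279) (nat_lit 276)) (XT.nd (nat_lit 78) (nat_lit 532) (nat_lit 0) (XT.lf (nat_lit 0) (nat_lit 6153953220) (nat_lit 532) (nat_lit 2466081075) (nat_lit 0) (nat_lit 233468743) (nat_lit 189) (nat_lit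 5) (nat_lit 196) (nat_lit 4) (nat_lit 189) (nat_lit 4) (nat_lit 346) (nat_lit 279) (nat_lit 275)) (XT.lf (nat_lit 0) (nat_lit 3139696134) (nat_lit 532) (nat_lit 952236062) (nat_lit 76) (nat_lit 4876676175) (nat_lit 182) (nat_lit 5) (nat_lit 189) (nat_lit 5) (nat_lit 183) (nat_lit 4) (nat_lit 347) (nat_lit 279) (nat_lit 274))))))))
noncomputable def xc13 : XT := (XT.nd (nat_lit 1560) (nat_lit 4028) (nat_lit 0) (XT.nd (nat_lit 780) (nat_lit 3420) (nat_lit 0) (XT.nd (nat_lit 390) (nat_lit 2432) (nat_lit 0) (XT.nd (nat_lit 156) (nat_lit 1368) (nat_lit 0) (XT.nd (nat_lit 78) (nat_lit 456) (nat_lit 0) (XT.lf (nat_lit 0) (nat_lit 585980285) (nat_lit 456) (nat_lit 8480521999) (nat_lit 456) (nat_lit 21362757) (nat_lit 170) (nat_lit 4) (nat_lit 176) (nat_lit 5) (nat_lit 176) (nat_lit 4) (nat_lit 348) (nat_lit 279) (nat_lit 273)) (XT.lf (nat_lit 0) (nat_lit 2106713901) (nat_lit 380) (nat_lit 3752468167) (nat_lit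 456) (nat_lit 3351239043) (nat_lit 164) (nat_lit 5) (nat_lit 169) (nat_lit 5) (nat_lit 170) (nat_lit 4) (nat_lit 349) (nat_lit 279) (nat_lit 272))) (XT.nd (nat_lit 78) (nat_lit 836) (nat_lit 0) (XT.lf (nat_lit 0) (nat_lit 2497928504) (nat_lit 532) (nat_lit 5700780203) (nat_lit 76) (nat_lit 1138589180) (nat_lit 157) (nat_lit 5) (nat_lit 164) (nat_lit 5) (nat_lit 158) (nat_lit 4) (nat_lit 350) (nat_lit 279) (nat_lit 271)) (XT.nd (nat_lit 78) (nat_lit 456) (nat_lit 0) (XT.lf (nat_lit 0) (nat_lit 5149024894) (nat_lit 380) (nat_lit 3300947541) (nat_lit 456) (nat_lit 1018138742) (nat_lit 152) (nat_lit 5) (nat_lit 157) (nat_lit 5) (nat_lit 158) (nat_lit 4) (nat_lit 351) (nat_lit 279) (nat_lit 270)) (XT.lf (nat_lit 0) (nat_lit 4873626055) (nat_lit 456) (nat_lit 2958283795) (nat_lit 76) (nat_lit 1771099363) (nat_lit 146) (nat_lit 5) (nat_lit 152) (nat_lit 5) (nat_lit 147) (nat_lit 4) (nat_lit 352) (nat_lit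 279) (nat_lit 269))))) (XT.nd (nat_lit 156) (nat_lit 1596) (nat_lit 0) (XT.nd (nat_lit 78) (nat_lit 380) (nat_lit 0) (XT.lf (nat_lit 0) (nat_lit 1144760034) (nat_lit 456) (nat_lit 1614462263) (nat_lit 76) (nat_lit 6982995515) (nat_lit 140) (nat_lit 5) (nat_lit 146) (nat_lit 5) (nat_lit 141) (nat_lit 5) (nat_lit 353) (nat_lit 279) (nat_lit 268)) (XT.lf (nat_lit 0) (nat_lit 7101333321) (nat_lit 456) (nat_lit 302361680) (nat_lit 76) (nat_lit 2481901291) (nat_lit 135) (nat_lit 5) (nat_lit 141) (nat_lit 5) (nat_lit 136) (nat_lit 4) (nat_lit 354) (nat_lit 279) (nat_lit 267))) (XT.nd (nat_lit 78) (nat_lit 760) (nat_lit 0) (XT.lf (nat_lit 0) (nat_lit 995889362) (nat_lit 380) (nat_lit 2146145740) (nat_lit 456) (nat_lit 6891237357) (nat_lit 124) (nat_lit 5) (nat_lit 129) (nat_lit 5) (nat_lit 130) (nat_lit 5) (nat_lit 355) (nat_lit 279) (nat_lit 266)) (XT.nd (nat_lit 78) (nat_lit 456) (nat_lit 0) (XT.lf (nat_lit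 0) (nat_lit 2266316933) (nat_lit 304) (nat_lit 6922926757) (nat_lit 380) (nat_lit 996174076) (nat_lit 120) (nat_lit 5) (nat_lit 124) (nat_lit 5) (nat_lit 125) (nat_lit 4) (nat_lit 356) (nat_lit 279) (nat_lit 265)) (XT.lf (nat_lit 0) (nat_lit 3493498042) (nat_lit 380) (nat_lit 1489129234) (nat_lit 456) (nat_lit 5359396608) (nat_lit 114) (nat_lit 5) (nat_lit 119) (nat_lit 5) (nat_lit 120) (nat_lit 5) (nat_lit 357) (nat_lit 279) (nat_lit 264)))))) (XT.nd (nat_lit 390) (nat_lit 1672) (nat_lit 0) (XT.nd (nat_lit 156) (nat_lit 1064) (nat_lit 0) (XT.nd (nat_lit 78) (nat_lit 304) (nat_lit 0) (XT.lf (nat_lit 0) (nat_lit 603679133) (nat_lit 380) (nat_lit 5820403418) (nat_lit 76) (nat_lit 4079300343) (nat_lit 109) (nat_lit 5) (nat_lit 114) (nat_lit 5) (nat_lit 110) (nat_lit 5) (nat_lit 358) (nat_lit 279) (nat_lit 263)) (XT.lf (nat_lit 0) (nat_lit 5821925297) (nat_lit 304) (nat_lit 824025763) (nat_lit 380) (nat_lit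 4023483553) (nat_lit 105) (nat_lit 5) (nat_lit 109) (nat_lit 5) (nat_lit 110) (nat_lit 5) (nat_lit 359) (nat_lit 279) (nat_lit 262))) (XT.nd (nat_lit 78) (nat_lit 684) (nat_lit 0) (XT.lf (nat_lit 0) (nat_lit 1999170416) (nat_lit 380) (nat_lit 3934451861) (nat_lit 76) (nat_lit 4906668660) (nat_lit 100) (nat_lit 5) (nat_lit 105) (nat_lit 5) (nat_lit 101) (nat_lit 5) (nat_lit 360) (nat_lit 279) (nat_lit 261)) (XT.nd (nat_lit 78) (nat_lit 380) (nat_lit 0) (XT.lf (nat_lit 0) (nat_lit 7942946717) (nat_lit 304) (nat_lit 176889618) (nat_lit 380) (nat_lit 2896485860) (nat_lit 96) (nat_lit 5) (nat_lit 100) (nat_lit 5) (nat_lit 101) (nat_lit 5) (nat_lit 361) (nat_lit 279) (nat_lit 260)) (XT.lf (nat_lit 0) (nat_lit 3189609201) (nat_lit 380) (nat_lit 2295503284) (nat_lit 76) (nat_lit 5712014234) (nat_lit 91) (nat_lit 5) (nat_lit 96) (nat_lit 5) (nat_lit 92) (nat_lit 5) (nat_lit 362) (nat_lit 279) (nat_lit 259)))))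 (XT.nd (nat_lit 156) (nat_lit 1064) (nat_lit 0) (XT.nd (nat_lit 78) (nat_lit 304) (nat_lit 0) (XT.lf (nat_lit 0) (nat_lit 9392497344) (nat_lit 380) (nat_lit 1571668399) (nat_lit 76) (nat_lit 419354944) (nat_lit 87) (nat_lit 5) (nat_lit 92) (nat_lit 5) (nat_lit 88) (nat_lit 4) (nat_lit 363) (nat_lit 279) (nat_lit 258)) (XT.lf (nat_lit 0) (nat_lit 4158747598) (nat_lit 304) (nat_lit 948245031) (nat_lit 76) (nat_lit 6467827332) (nat_lit 83) (nat_lit 5) (nat_lit 87) (nat_lit 5) (nat_lit 84) (nat_lit 5) (nat_lit 364) (nat_lit 279) (nat_lit 257))) (XT.nd (nat_lit 78) (nat_lit 760) (nat_lit 0) (XT.lf (nat_lit 0) (nat_lit 10444730807) (nat_lit 380) (nat_lit 387298678) (nat_lit 76) (nat_lit 940008114) (nat_lit 79) (nat_lit 5) (nat_lit 84) (nat_lit 5) (nat_lit 80) (nat_lit 4) (nat_lit 365) (nat_lit 279) (nat_lit 256)) (XT.nd (nat_lit 78) (nat_lit 228) (nat_lit 0) (XT.lf (nat_lit 0) (nat_lit 58951361) (nat_lit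 228) (nat_lit 4829070836) (nat_lit 304) (nat_lit 7086349809) (nat_lit 72) (nat_lit 5) (nat_lit 75) (nat_lit 5) (nat_lit 76) (nat_lit 5) (nat_lit 366) (nat_lit 279) (nat_lit 255)) (XT.lf (nat_lit 0) (nat_lit 435047253) (nat_lit 228) (nat_lit 10823071987) (nat_lit 304) (nat_lit 924771536) (nat_lit 69) (nat_lit 5) (nat_lit 72) (nat_lit 5) (nat_lit 73) (nat_lit 4) (nat_lit 367) (nat_lit 279) (nat_lit 254))))))) (XT.nd (nat_lit 780) (nat_lit 1824) (nat_lit 0) (XT.nd (nat_lit 390) (nat_lit 912) (nat_lit 0) (XT.nd (nat_lit 156) (nat_lit 760) (nat_lit 0) (XT.nd (nat_lit 78) (nat_lit 228) (nat_lit 0) (XT.lf (nat_lit 0) (nat_lit 678521143) (nat_lit 228) (nat_lit 4680292241) (nat_lit 304) (nat_lit 7037998219) (nat_lit 65) (nat_lit 5) (nat_lit 68) (nat_lit 5) (nat_lit 69) (nat_lit 5) (nat_lit 368) (nat_lit 279) (nat_lit 253)) (XT.lf (nat_lit 0) (nat_lit 832334945) (nat_lit 228) (nat_lit 10974123136) (nat_lit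 304) (nat_lit 810822756) (nat_lit 62) (nat_lit 5) (nat_lit 65) (nat_lit 5) (nat_lit 66) (nat_lit 4) (nat_lit 369) (nat_lit 279) (nat_lit 252))) (XT.nd (nat_lit 78) (nat_lit 456) (nat_lit 0) (XT.lf (nat_lit 0) (nat_lit 837330349) (nat_lit 228) (nat_lit 4702090812) (nat_lit 304) (nat_lit 7304035222) (nat_lit 58) (nat_lit 5) (nat_lit 61) (nat_lit 5) (nat_lit 62) (nat_lit 5) (nat_lit 370) (nat_lit 279) (nat_lit 251)) (XT.nd (nat_lit 78) (nat_lit 304) (nat_lit 0) (XT.lf (nat_lit 0) (nat_lit 735834234) (nat_lit 152) (nat_lit 11324500065) (nat_lit 228) (nat_lit 1016166344) (nat_lit 56) (nat_lit 5) (nat_lit 58) (nat_lit 5) (nat_lit 59) (nat_lit 4) (nat_lit 371) (nat_lit 279) (nat_lit 250)) (XT.lf (nat_lit 0) (nat_lit 468516437) (nat_lit 228) (nat_lit 4932342067) (nat_lit 304) (nat_lit 7914739529) (nat_lit 52) (nat_lit 5) (nat_lit 55) (nat_lit 5) (nat_lit 56) (nat_lit 5) (nat_lit 372) (nat_lit 279) (nat_lit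 249))))) (XT.nd (nat_lit 156) (nat_lit 684) (nat_lit 0) (XT.nd (nat_lit 78) (nat_lit 76) (nat_lit 0) (XT.lf (nat_lit 0) (nat_lit 75274096) (nat_lit 152) (nat_lit 11913938846) (nat_lit 228) (nat_lit 1572681693) (nat_lit 50) (nat_lit 5) (nat_lit 52) (nat_lit 5) (nat_lit 53) (nat_lit 4) (nat_lit 373) (nat_lit 279) (nat_lit 248)) (XT.lf (nat_lit 0) (nat_lit 4913539400) (nat_lit 228) (nat_lit 495258992) (nat_lit 76) (nat_lit 8405771241) (nat_lit 49) (nat_lit 5) (nat_lit 52) (nat_lit 5) (nat_lit 50) (nat_lit 5) (nat_lit 374) (nat_lit 279) (nat_lit 247))) (XT.nd (nat_lit 78) (nat_lit 456) (nat_lit 0) (XT.lf (nat_lit 0) (nat_lit 11566505953) (nat_lit 304) (nat_lit 1210973748) (nat_lit 76) (nat_lit 1297278885) (nat_lit 46) (nat_lit 5) (nat_lit 50) (nat_lit 5) (nat_lit 47) (nat_lit 4) (nat_lit 375) (nat_lit 279) (nat_lit 246)) (XT.nd (nat_lit 78) (nat_lit 228) (nat_lit 0) (XT.lf (nat_lit 0) (nat_lit 4044612451)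 (nat_lit 228) (nat_lit 2127248946) (nat_lit 76) (nat_lit 8169938714) (nat_lit 43) (nat_lit 5) (nat_lit 46) (nat_lit 5) (nat_lit 44) (nat_lit 5) (nat_lit 376) (nat_lit 279) (nat_lit 245)) (XT.lf (nat_lit 0) (nat_lit 10750495299) (nat_lit 304) (nat_lit 3214481325) (nat_lit 76) (nat_lit 651745687) (nat_lit 40) (nat_lit 5) (nat_lit 44) (nat_lit 5) (nat_lit 41) (nat_lit 4) (nat_lit 377) (nat_lit 279) (nat_lit 244)))))) (XT.nd (nat_lit 390) (nat_lit 912) (nat_lit 0) (XT.nd (nat_lit 156) (nat_lit 532) (nat_lit 0) (XT.nd (nat_lit 78) (nat_lit 152) (nat_lit 0) (XT.lf (nat_lit 0) (nat_lit 2749912509) (nat_lit 228) (nat_lit 4522927238) (nat_lit 76) (nat_lit 7626136652) (nat_lit 37) (nat_lit 5) (nat_lit 40) (nat_lit 5) (nat_lit 38) (nat_lit 5) (nat_lit 378) (nat_lit 279) (nat_lit 243)) (XT.lf (nat_lit 0) (nat_lit 9157005891) (nat_lit 152) (nat_lit 342720440) (nat_lit 228) (nat_lit 5689716678) (nat_lit 35) (nat_lit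 5) (nat_lit 37) (nat_lit 5) (nat_lit 38) (nat_lit 5) (nat_lit 379) (nat_lit 279) (nat_lit 242))) (XT.nd (nat_lit 78) (nat_lit 304) (nat_lit 0) (XT.lf (nat_lit 0) (nat_lit 983281959) (nat_lit 228) (nat_lit 7781204164) (nat_lit 76) (nat_lit 6723372119) (nat_lit 32) (nat_lit 5) (nat_lit 35) (nat_lit 5) (nat_lit 33) (nat_lit 5) (nat_lit 380) (nat_lit 279) (nat_lit 241)) (XT.nd (nat_lit 78) (nat_lit 152) (nat_lit 0) (XT.lf (nat_lit 0) (nat_lit 6021060646) (nat_lit 152) (nat_lit 1749369750) (nat_lit 228) (nat_lit 8024227706) (nat_lit 30) (nat_lit 5) (nat_lit 32) (nat_lit 5) (nat_lit 33) (nat_lit 5) (nat_lit 381) (nat_lit 279) (nat_lit 240)) (XT.lf (nat_lit 0) (nat_lit 4089953833) (nat_lit 152) (nat_lit 10695882511) (nat_lit 228) (nat_lit 1324342040) (nat_lit 28) (nat_lit 5) (nat_lit 30) (nat_lit 5) (nat_lit 31) (nat_lit 4) (nat_lit 382) (nat_lit 279) (nat_lit 239))))) (XT.nd (nat_lit 234) (nat_lit 456)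 (nat_lit 0) (XT.nd (nat_lit 78) (nat_lit 228) (nat_lit 0) (XT.lf (nat_lit 0) (nat_lit 1885085811) (nat_lit 152) (nat_lit 3619382862) (nat_lit 228) (nat_lit 10929958992) (nat_lit 25) (nat_lit 5) (nat_lit 27) (nat_lit 5) (nat_lit 28) (nat_lit 5) (nat_lit 383) (nat_lit 279) (nat_lit 238)) (XT.nd (nat_lit 78) (nat_lit 228) (nat_lit 0) (XT.lf (nat_lit 0) (nat_lit 12537657172) (nat_lit 228) (nat_lit 587259612) (nat_lit 76) (nat_lit 3642971026) (nat_lit 25) (nat_lit 5) (nat_lit 28) (nat_lit 5) (nat_lit 26) (nat_lit 4) (nat_lit 384) (nat_lit 279) (nat_lit 237)) (XT.lf (nat_lit 0) (nat_lit 2663579799) (nat_lit 228) (nat_lit 3332624048) (nat_lit 76) (nat_lit 11114247026) (nat_lit 22) (nat_lit 5) (nat_lit 25) (nat_lit 5) (nat_lit 23) (nat_lit 5) (nat_lit 385) (nat_lit 279) (nat_lit 236)))) (XT.nd (nat_lit 78) (nat_lit 304) (nat_lit 0) (XT.lf (nat_lit 0) (nat_lit 9707115072) (nat_lit 228) (nat_lit 6389513323)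 (nat_lit 76) (nat_lit 1366103472) (nat_lit 20) (nat_lit 5) (nat_lit 23) (nat_lit 5) (nat_lit 21) (nat_lit 4) (nat_lit 386) (nat_lit 279) (nat_lit 235)) (XT.nd (nat_lit 78) (nat_lit 228) (nat_lit 0) (XT.lf (nat_lit 0) (nat_lit 8044896703) (nat_lit 76) (nat_lit 8948287101) (nat_lit 152) (nat_lit 831780640) (nat_lit 19) (nat_lit 5) (nat_lit 20) (nat_lit 5) (nat_lit 21) (nat_lit 4) (nat_lit 387) (nat_lit 279) (nat_lit 234)) (XT.lf (nat_lit 0) (nat_lit 4671955329) (nat_lit 152) (nat_lit 1536190594) (nat_lit 228) (nat_lit 11989287400) (nat_lit 16) (nat_lit 5) (nat_lit 18) (nat_lit 5) (nat_lit 19) (nat_lit 5) (nat_lit 388) (nat_lit 279) (nat_lit 233))))))))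
noncomputable def xc14 : XT := (XT.nd (nat_lit 1560) (nat_lit 5472) (nat_lit 0) (XT.nd (nat_lit 780) (nat_lit 4484) (nat_lit 0) (XT.nd (nat_lit 390) (nat_lit 2964) (nat_lit 0) (XT.nd (nat_lit 156) (nat_lit 2356) (nat_lit 0) (XT.nd (nat_lit 78) (nat_lit 608) (nat_lit 0) (XT.lf (nat_lit 0) (nat_lit 2561206330) (nat_lit 608) (nat_lit 778805178) (nat_lit 608) (nat_lit 778805178) (nat_lit 242) (nat_lit 4) (nat_lit 250) (nat_lit 5) (nat_lit 250) (nat_lit 4) (nat_lit 340) (nat_lit 280) (nat_lit 280)) (XT.lf (nat_lit 0) (nat_lit 4179008966) (nat_lit 608) (nat_lit 1664794577) (nat_lit 0) (nat_lit 2488748228) (nat_lit 234) (nat_lit 5) (nat_lit 242) (nat_lit 4) (nat_lit 234) (nat_lit 4) (nat_lit 341) (nat_lit 280) (nat_lit 279))) (XT.nd (nat_lit 78) (nat_lit 1672) (nat_lit 0) (XT.lf (nat_lit 0) (nat_lit 1554305724) (nat_lit 684) (nat_lit 191593018) (nat_lit 76) (nat_lit 6685258850) (nat_lit 225) (nat_lit 5)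 (nat_lit 234) (nat_lit 5) (nat_lit 226) (nat_lit 4) (nat_lit 342) (nat_lit 280) (nat_lit 278)) (XT.nd (nat_lit 78) (nat_lit 608) (nat_lit 0) (XT.lf (nat_lit 0) (nat_lit 1306669361) (nat_lit 532) (nat_lit 6027186321) (nat_lit 532) (nat_lit 1199222165) (nat_lit 211) (nat_lit 4) (nat_lit 218) (nat_lit 5) (nat_lit 218) (nat_lit 4) (nat_lit 343) (nat_lit 280) (nat_lit 277)) (XT.lf (nat_lit 0) (nat_lit 2815579879) (nat_lit 532) (nat_lit 1719094422) (nat_lit 608) (nat_lit 4103880815) (nat_lit 203) (nat_lit 5) (nat_lit 210) (nat_lit 5) (nat_lit 211) (nat_lit 4) (nat_lit 344) (nat_lit 280) (nat_lit 276))))) (XT.nd (nat_lit 156) (nat_lit 1900) (nat_lit 0) (XT.nd (nat_lit 78) (nat_lit 456) (nat_lit 0) (XT.lf (nat_lit 0) (nat_lit 1609539135) (nat_lit 608) (nat_lit 4412250967) (nat_lit 76) (nat_lit 2725983885) (nat_lit 195) (nat_lit 5) (nat_lit 203) (nat_lit 5) (nat_lit 196) (nat_lit 4) (nat_lit 345) (nat_lit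 280) (nat_lit 275)) (XT.lf (nat_lit 0) (nat_lit 5861766130) (nat_lit 456) (nat_lit 1527690643) (nat_lit 532) (nat_lit 1471291175) (nat_lit 189) (nat_lit 5) (nat_lit 195) (nat_lit 5) (nat_lit 196) (nat_lit 4) (nat_lit 346) (nat_lit 280) (nat_lit 274))) (XT.nd (nat_lit 78) (nat_lit 1368) (nat_lit 0) (XT.lf (nat_lit 0) (nat_lit 4270155314) (nat_lit 532) (nat_lit 1595399137) (nat_lit 76) (nat_lit 3111791002) (nat_lit 182) (nat_lit 5) (nat_lit 189) (nat_lit 5) (nat_lit 183) (nat_lit 4) (nat_lit 347) (nat_lit 280) (nat_lit 273)) (XT.nd (nat_lit 78) (nat_lit 836) (nat_lit 0) (XT.lf (nat_lit 0) (nat_lit 1006501898) (nat_lit 532) (nat_lit 182488480) (nat_lit 76) (nat_lit 7909074372) (nat_lit 175) (nat_lit 5) (nat_lit 182) (nat_lit 5) (nat_lit 176) (nat_lit 5) (nat_lit 348) (nat_lit 280) (nat_lit 272)) (XT.lf (nat_lit 0) (nat_lit 1224894484) (nat_lit 380) (nat_lit 5581027215) (nat_lit 456) (nat_lit 2416329739)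 (nat_lit 164) (nat_lit 5) (nat_lit 169) (nat_lit 5) (nat_lit 170) (nat_lit 4) (nat_lit 349) (nat_lit 280) (nat_lit 271)))))) (XT.nd (nat_lit 390) (nat_lit 2280) (nat_lit 0) (XT.nd (nat_lit 156) (nat_lit 1292) (nat_lit 0) (XT.nd (nat_lit 78) (nat_lit 380) (nat_lit 0) (XT.lf (nat_lit 0) (nat_lit 2635165194) (nat_lit 456) (nat_lit 706042695) (nat_lit 532) (nat_lit 6009401996) (nat_lit 157) (nat_lit 5) (nat_lit 163) (nat_lit 5) (nat_lit 164) (nat_lit 5) (nat_lit 350) (nat_lit 280) (nat_lit 270)) (XT.lf (nat_lit 0) (nat_lit 4028670563) (nat_lit 380) (nat_lit 5188488044) (nat_lit 456) (nat_lit 265801678) (nat_lit 152) (nat_lit 5) (nat_lit 157) (nat_lit 5) (nat_lit 158) (nat_lit 4) (nat_lit 351) (nat_lit 280) (nat_lit 269))) (XT.nd (nat_lit 78) (nat_lit 836) (nat_lit 0) (XT.lf (nat_lit 0) (nat_lit 5405223391) (nat_lit 380) (nat_lit 127689619) (nat_lit 456) (nat_lit 4086525789) (nat_lit 146) (nat_lit 5) (nat_lit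 151) (nat_lit 5) (nat_lit 152) (nat_lit 5) (nat_lit 352) (nat_lit 280) (nat_lit 268)) (XT.nd (nat_lit 78) (nat_lit 380) (nat_lit 0) (XT.lf (nat_lit 0) (nat_lit 1706619611) (nat_lit 456) (nat_lit 3003482949) (nat_lit 76) (nat_lit 5049926504) (nat_lit 140) (nat_lit 5) (nat_lit 146) (nat_lit 5) (nat_lit 141) (nat_lit 5) (nat_lit 353) (nat_lit 280) (nat_lit 267)) (XT.lf (nat_lit 0) (nat_lit 7578925586) (nat_lit 456) (nat_lit 1811100976) (nat_lit 76) (nat_lit 515079739) (nat_lit 135) (nat_lit 5) (nat_lit 141) (nat_lit 5) (nat_lit 136) (nat_lit 4) (nat_lit 354) (nat_lit 280) (nat_lit 266))))) (XT.nd (nat_lit 156) (nat_lit 1140) (nat_lit 0) (XT.nd (nat_lit 78) (nat_lit 684) (nat_lit 0) (XT.lf (nat_lit 0) (nat_lit 3516036084) (nat_lit 456) (nat_lit 663844929) (nat_lit 76) (nat_lit 5874416203) (nat_lit 129) (nat_lit 5) (nat_lit 135) (nat_lit 5) (nat_lit 130) (nat_lit 5) (nat_lit 355) (nat_lit 280) (nat_lit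 265)) (XT.lf (nat_lit 0) (nat_lit 471618206) (nat_lit 304) (nat_lit 9001727579) (nat_lit 380) (nat_lit 734907108) (nat_lit 120) (nat_lit 5) (nat_lit 124) (nat_lit 5) (nat_lit 125) (nat_lit 4) (nat_lit 356) (nat_lit 280) (nat_lit 264))) (XT.nd (nat_lit 78) (nat_lit 684) (nat_lit 0) (XT.lf (nat_lit 0) (nat_lit 1554845534) (nat_lit 380) (nat_lit 3613144828) (nat_lit 456) (nat_lit 5198296063) (nat_lit 114) (nat_lit 5) (nat_lit 119) (nat_lit 5) (nat_lit 120) (nat_lit 5) (nat_lit 357) (nat_lit 280) (nat_lit 263)) (XT.nd (nat_lit 78) (nat_lit 304) (nat_lit 0) (XT.lf (nat_lit 0) (nat_lit 675890982) (nat_lit 380) (nat_lit 7916584478) (nat_lit 76) (nat_lit 1936895801) (nat_lit 109) (nat_lit 5) (nat_lit 114) (nat_lit 5) (nat_lit 110) (nat_lit 5) (nat_lit 358) (nat_lit 280) (nat_lit 262)) (XT.lf (nat_lit 0) (nat_lit 3603947142) (nat_lit 304) (nat_lit 3041576466) (nat_lit 380) (nat_lit 4051363058) (nat_lit 105)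 (nat_lit 5) (nat_lit 109) (nat_lit 5) (nat_lit 110) (nat_lit 5) (nat_lit 359) (nat_lit 280) (nat_lit 261))))))) (XT.nd (nat_lit 780) (nat_lit 2432) (nat_lit 0) (XT.nd (nat_lit 390) (nat_lit 1368) (nat_lit 0) (XT.nd (nat_lit 156) (nat_lit 988) (nat_lit 0) (XT.nd (nat_lit 78) (nat_lit 304) (nat_lit 0) (XT.lf (nat_lit 0) (nat_lit 1884032093) (nat_lit 380) (nat_lit 6316939753) (nat_lit 76) (nat_lit 2668537628) (nat_lit 100) (nat_lit 5) (nat_lit 105) (nat_lit 5) (nat_lit 101) (nat_lit 5) (nat_lit 360) (nat_lit 280) (nat_lit 260)) (XT.lf (nat_lit 0) (nat_lit 5436177977) (nat_lit 304) (nat_lit 2495587872) (nat_lit 380) (nat_lit 3115243598) (nat_lit 96) (nat_lit 5) (nat_lit 100) (nat_lit 5) (nat_lit 101) (nat_lit 5) (nat_lit 361) (nat_lit 280) (nat_lit 259))) (XT.nd (nat_lit 78) (nat_lit 608) (nat_lit 0) (XT.lf (nat_lit 0) (nat_lit 2885067815) (nat_lit 380) (nat_lit 4973907639) (nat_lit 76) (nat_lit 3370649567)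 (nat_lit 91) (nat_lit 5) (nat_lit 96) (nat_lit 5) (nat_lit 92) (nat_lit 5) (nat_lit 362) (nat_lit 280) (nat_lit 258)) (XT.nd (nat_lit 78) (nat_lit 304) (nat_lit 0) (XT.lf (nat_lit 0) (nat_lit 7009381686) (nat_lit 304) (nat_lit 2002461952) (nat_lit 380) (nat_lit 2405706904) (nat_lit 87) (nat_lit 5) (nat_lit 91) (nat_lit 5) (nat_lit 92) (nat_lit 5) (nat_lit 363) (nat_lit 280) (nat_lit 257)) (XT.lf (nat_lit 0) (nat_lit 3662422022) (nat_lit 304) (nat_lit 3932453948) (nat_lit 76) (nat_lit 4015778169) (nat_lit 83) (nat_lit 5) (nat_lit 87) (nat_lit 5) (nat_lit 84) (nat_lit 5) (nat_lit 364) (nat_lit 280) (nat_lit 256))))) (XT.nd (nat_lit 156) (nat_lit 760) (nat_lit 0) (XT.nd (nat_lit 78) (nat_lit 304) (nat_lit 0) (XT.lf (nat_lit 0) (nat_lit 8277235607) (nat_lit 304) (nat_lit 1591084373) (nat_lit 380) (nat_lit 1941162104) (nat_lit 79) (nat_lit 5) (nat_lit 83) (nat_lit 5) (nat_lit 84) (nat_lit 5) (nat_lit 365)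 (nat_lit 280) (nat_lit 255)) (XT.lf (nat_lit 0) (nat_lit 4196822313) (nat_lit 304) (nat_lit 3242026417) (nat_lit 76) (nat_lit 4574763568) (nat_lit 75) (nat_lit 5) (nat_lit 79) (nat_lit 5) (nat_lit 76) (nat_lit 5) (nat_lit 366) (nat_lit 280) (nat_lit 254))) (XT.nd (nat_lit 78) (nat_lit 532) (nat_lit 0) (XT.lf (nat_lit 0) (nat_lit 9188736624) (nat_lit 228) (nat_lit 1292239966) (nat_lit 304) (nat_lit 1742881282) (nat_lit 72) (nat_lit 5) (nat_lit 75) (nat_lit 5) (nat_lit 76) (nat_lit 5) (nat_lit 367) (nat_lit 280) (nat_lit 253)) (XT.nd (nat_lit 78) (nat_lit 228) (nat_lit 0) (XT.lf (nat_lit 0) (nat_lit 4466066649) (nat_lit 304) (nat_lit 2957096762) (nat_lit 76) (nat_lit 5016436423) (nat_lit 68) (nat_lit 5) (nat_lit 72) (nat_lit 5) (nat_lit 69) (nat_lit 5) (nat_lit 368) (nat_lit 280) (nat_lit 252)) (XT.lf (nat_lit 0) (nat_lit 9687637554) (nat_lit 228) (nat_lit 1138931258) (nat_lit 304) (nat_lit 1835250451)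 (nat_lit 65) (nat_lit 5) (nat_lit 68) (nat_lit 5) (nat_lit 69) (nat_lit 5) (nat_lit 369) (nat_lit 280) (nat_lit 251)))))) (XT.nd (nat_lit 390) (nat_lit 1216) (nat_lit 0) (XT.nd (nat_lit 156) (nat_lit 684) (nat_lit 0) (XT.nd (nat_lit 78) (nat_lit 228) (nat_lit 0) (XT.lf (nat_lit 0) (nat_lit 4444761238) (nat_lit 304) (nat_lit 3137755318) (nat_lit 76) (nat_lit 5307291627) (nat_lit 61) (nat_lit 5) (nat_lit 65) (nat_lit 5) (nat_lit 62) (nat_lit 5) (nat_lit 370) (nat_lit 280) (nat_lit 250)) (XT.lf (nat_lit 0) (nat_lit 9711828554) (nat_lit 228) (nat_lit 1166722120) (nat_lit 304) (nat_lit 2246051031) (nat_lit 58) (nat_lit 5) (nat_lit 61) (nat_lit 5) (nat_lit 62) (nat_lit 5) (nat_lit 371) (nat_lit 280) (nat_lit 249))) (XT.nd (nat_lit 78) (nat_lit 456) (nat_lit 0) (XT.lf (nat_lit 0) (nat_lit 4104026985) (nat_lit 228) (nat_lit 3850364127) (nat_lit 76) (nat_lit 5411135691) (nat_lit 55) (nat_lit 5) (nat_lit 58)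 (nat_lit 5) (nat_lit 56) (nat_lit 5) (nat_lit 372) (nat_lit 280) (nat_lit 248)) (XT.nd (nat_lit 78) (nat_lit 228) (nat_lit 0) (XT.lf (nat_lit 0) (nat_lit 9192657453) (nat_lit 228) (nat_lit 1414109818) (nat_lit 304) (nat_lit 3006774689) (nat_lit 52) (nat_lit 5) (nat_lit 55) (nat_lit 5) (nat_lit 56) (nat_lit 5) (nat_lit 373) (nat_lit 280) (nat_lit 247)) (XT.lf (nat_lit 0) (nat_lit 3411171508) (nat_lit 228) (nat_lit 5168274850) (nat_lit 76) (nat_lit 5288704459) (nat_lit 49) (nat_lit 5) (nat_lit 52) (nat_lit 5) (nat_lit 50) (nat_lit 5) (nat_lit 374) (nat_lit 280) (nat_lit 246))))) (XT.nd (nat_lit 234) (nat_lit 532) (nat_lit 0) (XT.nd (nat_lit 78) (nat_lit 456) (nat_lit 0) (XT.lf (nat_lit 0) (nat_lit 8054182362) (nat_lit 228) (nat_lit 1922929003) (nat_lit 304) (nat_lit 4152974737) (nat_lit 46) (nat_lit 5) (nat_lit 49) (nat_lit 5) (nat_lit 50) (nat_lit 5) (nat_lit 375) (nat_lit 280) (nat_lit 245)) (XT.nd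 (nat_lit 78) (nat_lit 228) (nat_lit 0) (XT.lf (nat_lit 0) (nat_lit 2329323429) (nat_lit 228) (nat_lit 7172618580) (nat_lit 76) (nat_lit 4897247463) (nat_lit 43) (nat_lit 5) (nat_lit 46) (nat_lit 5) (nat_lit 44) (nat_lit 5) (nat_lit 376) (nat_lit 280) (nat_lit 244)) (XT.lf (nat_lit 0) (nat_lit 6212349180) (nat_lit 228) (nat_lit 2738791537) (nat_lit 304) (nat_lit 5724657622) (nat_lit 40) (nat_lit 5) (nat_lit 43) (nat_lit 5) (nat_lit 44) (nat_lit 5) (nat_lit 377) (nat_lit 280) (nat_lit 243)))) (XT.nd (nat_lit 78) (nat_lit 304) (nat_lit 0) (XT.lf (nat_lit 0) (nat_lit 817025233) (nat_lit 228) (nat_lit 9953175294) (nat_lit 76) (nat_lit 4190074930) (nat_lit 37) (nat_lit 5) (nat_lit 40) (nat_lit 5) (nat_lit 38) (nat_lit 5) (nat_lit 378) (nat_lit 280) (nat_lit 242)) (XT.nd (nat_lit 78) (nat_lit 152) (nat_lit 0) (XT.lf (nat_lit 0) (nat_lit 3574085936) (nat_lit 152) (nat_lit 3911566373) (nat_lit 228) (nat_lit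 7766718445) (nat_lit 35) (nat_lit 5) (nat_lit 37) (nat_lit 5) (nat_lit 38) (nat_lit 5) (nat_lit 379) (nat_lit 280) (nat_lit 241)) (XT.lf (nat_lit 0) (nat_lit 1935977487) (nat_lit 152) (nat_lit 12429245933) (nat_lit 228) (nat_lit 1187797541) (nat_lit 33) (nat_lit 5) (nat_lit 35) (nat_lit 5) (nat_lit 36) (nat_lit 4) (nat_lit 380) (nat_lit 280) (nat_lit 240))))))))
noncomputable def xc15 : XT := (XT.nd (nat_lit 44538) (nat_lit 0) (nat_lit 3040) (XT.nd (nat_lit 43680) (nat_lit 0) (nat_lit 10564) (XT.nd (nat_lit 390) (nat_lit 304) (nat_lit 0) (XT.nd (nat_lit 156) (nat_lit 608) (nat_lit 0) (XT.nd (nat_lit 78) (nat_lit 0) (nat_lit 0) (XT.lf (nat_lit 0) (nat_lit 36305022) (nat_lit 152) (nat_lit 5495904163) (nat_lit 228) (nat_lit 10329424847) (nat_lit 30) (nat_lit 5) (nat_lit 32) (nat_lit 5) (nat_lit 33) (nat_lit 5) (nat_lit 381) (nat_lit 280) (nat_lit 239)) (XT.lf (nat_lit 0) (nat_lit 12453431686) (nat_lit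 228) (nat_lit 2068609444) (nat_lit 76) (nat_lit 1657001295) (nat_lit 30) (nat_lit 5) (nat_lit 33) (nat_lit 5) (nat_lit 31) (nat_lit 4) (nat_lit 382) (nat_lit 280) (nat_lit 238))) (XT.nd (nat_lit 78) (nat_lit 380) (nat_lit 0) (XT.lf (nat_lit 0) (nat_lit 3065930841) (nat_lit 228) (nat_lit 4455978858) (nat_lit 76) (nat_lit 8983073294) (nat_lit 27) (nat_lit 5) (nat_lit 30) (nat_lit 5) (nat_lit 28) (nat_lit 5) (nat_lit 383) (nat_lit 280) (nat_lit 237)) (XT.nd (nat_lit 78) (nat_lit 228) (nat_lit 0) (XT.lf (nat_lit 0) (nat_lit 9729206724) (nat_lit 152) (nat_lit 274563011) (nat_lit 228) (nat_lit 6836584499) (nat_lit 25) (nat_lit 5) (nat_lit 27) (nat_lit 5) (nat_lit 28) (nat_lit 5) (nat_lit 384) (nat_lit 280) (nat_lit 236)) (XT.lf (nat_lit 0) (nat_lit 4602636) (nat_lit 228) (nat_lit 10073083205) (nat_lit 76) (nat_lit 7107309928) (nat_lit 22) (nat_lit 5) (nat_lit 25) (nat_lit 5) (nat_lit 23) (nat_lit 5) (nat_lit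 385) (nat_lit 280) (nat_lit 235))))) (XT.nd (nat_lit 156) (nat_lit 76) (nat_lit 0) (XT.nd (nat_lit 78) (nat_lit 76) (nat_lit 0) (XT.lf (nat_lit 0) (nat_lit 4178038541) (nat_lit 152) (nat_lit 2775683368) (nat_lit 228) (nat_lit 10585446968) (nat_lit 20) (nat_lit 5) (nat_lit 22) (nat_lit 5) (nat_lit 23) (nat_lit 5) (nat_lit 386) (nat_lit 280) (nat_lit 234)) (XT.lf (nat_lit 0) (nat_lit 925186452) (nat_lit 76) (nat_lit 13210260530) (nat_lit 152) (nat_lit 3768045027) (nat_lit 19) (nat_lit 5) (nat_lit 20) (nat_lit 5) (nat_lit 21) (nat_lit 4) (nat_lit 387) (nat_lit 280) (nat_lit 233))) (XT.nd (nat_lit 42978) (nat_lit 0) (nat_lit 17632) (XT.lf (nat_lit 0) (nat_lit 3240400374) (nat_lit 152) (nat_lit 2640580814) (nat_lit 76) (nat_lit 12396764304) (nat_lit 18) (nat_lit 5) (nat_lit 20) (nat_lit 5) (nat_lit 19) (nat_lit 5) (nat_lit 388) (nat_lit 280) (nat_lit 232)) (XT.nd (nat_lit 78) (nat_lit 684) (nat_lit 0)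 (XT.lf (nat_lit 0) (nat_lit 1088782219) (nat_lit 684) (nat_lit 1469736340) (nat_lit 684) (nat_lit 1469736340) (nat_lit 259) (nat_lit 4) (nat_lit 268) (nat_lit 5) (nat_lit 268) (nat_lit 4) (nat_lit 338) (nat_lit 281) (nat_lit 281)) (XT.lf (nat_lit 0) (nat_lit 2684222981) (nat_lit 684) (nat_lit 4553443040) (nat_lit 0) (nat_lit 908435049) (nat_lit 250) (nat_lit 5) (nat_lit 259) (nat_lit 4) (nat_lit 250) (nat_lit 4) (nat_lit 339) (nat_lit 281) (nat_lit 280)))))) (XT.nd (nat_lit 390) (nat_lit 3496) (nat_lit 0) (XT.nd (nat_lit 156) (nat_lit 2356) (nat_lit 0) (XT.nd (nat_lit 78) (nat_lit 532) (nat_lit 0) (XT.lf (nat_lit 0) (nat_lit 142227595) (nat_lit 684) (nat_lit 3212554142) (nat_lit 76) (nat_lit 4884308147) (nat_lit 241) (nat_lit 5) (nat_lit 250) (nat_lit 5) (nat_lit 242) (nat_lit 4) (nat_lit 340) (nat_lit 281) (nat_lit 279)) (XT.lf (nat_lit 0) (nat_lit 5774385197) (nat_lit 608) (nat_lit 1858997839) (nat_lit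 0) (nat_lit 702126055) (nat_lit 234) (nat_lit 5) (nat_lit 242) (nat_lit 4) (nat_lit 234) (nat_lit 4) (nat_lit 341) (nat_lit 281) (nat_lit 278))) (XT.nd (nat_lit 78) (nat_lit 1672) (nat_lit 0) (XT.lf (nat_lit 0) (nat_lit 3053824544) (nat_lit 684) (nat_lit 496766420) (nat_lit 76) (nat_lit 4884778795) (nat_lit 225) (nat_lit 5) (nat_lit 234) (nat_lit 5) (nat_lit 226) (nat_lit 4) (nat_lit 342) (nat_lit 281) (nat_lit 277)) (XT.nd (nat_lit 78) (nat_lit 532) (nat_lit 0) (XT.lf (nat_lit 0) (nat_lit 205831911) (nat_lit 608) (nat_lit 7635513672) (nat_lit 76) (nat_lit 697653665) (nat_lit 210) (nat_lit 5) (nat_lit 218) (nat_lit 5) (nat_lit 211) (nat_lit 4) (nat_lit 343) (nat_lit 281) (nat_lit 276)) (XT.lf (nat_lit 0) (nat_lit 2297722549) (nat_lit 532) (nat_lit 3554428387) (nat_lit 608) (nat_lit 2793626551) (nat_lit 203) (nat_lit 5) (nat_lit 210) (nat_lit 5) (nat_lit 211) (nat_lit 4) (nat_lit 344) (nat_lit 281)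 (nat_lit 275))))) (XT.nd (nat_lit 234) (nat_lit 1900) (nat_lit 0) (XT.nd (nat_lit 78) (nat_lit 988) (nat_lit 0) (XT.lf (nat_lit 0) (nat_lit 2818870041) (nat_lit 608) (nat_lit 5044183699) (nat_lit 76) (nat_lit 893466014) (nat_lit 195) (nat_lit 5) (nat_lit 203) (nat_lit 5) (nat_lit 196) (nat_lit 4) (nat_lit 345) (nat_lit 281) (nat_lit 274)) (XT.nd (nat_lit 78) (nat_lit 532) (nat_lit 0) (XT.lf (nat_lit 0) (nat_lit 5126977501) (nat_lit 456) (nat_lit 3400684508) (nat_lit 532) (nat_lit 343272429) (nat_lit 189) (nat_lit 5) (nat_lit 195) (nat_lit 5) (nat_lit 196) (nat_lit 4) (nat_lit 346) (nat_lit 281) (nat_lit 273)) (XT.lf (nat_lit 0) (nat_lit 5300030508) (nat_lit 532) (nat_lit 2450672930) (nat_lit 76) (nat_lit 1238366346) (nat_lit 182) (nat_lit 5) (nat_lit 189) (nat_lit 5) (nat_lit 183) (nat_lit 4) (nat_lit 347) (nat_lit 281) (nat_lit 272)))) (XT.nd (nat_lit 78) (nat_lit 1368) (nat_lit 0) (XT.lf (nat_lit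 0) (nat_lit 1940256861) (nat_lit 532) (nat_lit 1161866048) (nat_lit 76) (nat_lit 6008971313) (nat_lit 175) (nat_lit 5) (nat_lit 182) (nat_lit 5) (nat_lit 176) (nat_lit 5) (nat_lit 348) (nat_lit 281) (nat_lit 271)) (XT.nd (nat_lit 78) (nat_lit 532) (nat_lit 0) (XT.lf (nat_lit 0) (nat_lit 123453311) (nat_lit 380) (nat_lit 7525901451) (nat_lit 456) (nat_lit 1587748603) (nat_lit 164) (nat_lit 5) (nat_lit 169) (nat_lit 5) (nat_lit 170) (nat_lit 4) (nat_lit 349) (nat_lit 281) (nat_lit 270)) (XT.lf (nat_lit 0) (nat_lit 1404103990) (nat_lit 456) (nat_lit 2683401252) (nat_lit 532) (nat_lit 5279292557) (nat_lit 157) (nat_lit 5) (nat_lit 163) (nat_lit 5) (nat_lit 164) (nat_lit 5) (nat_lit 350) (nat_lit 281) (nat_lit 269))))))) (XT.nd (nat_lit 780) (nat_lit 3192) (nat_lit 0) (XT.nd (nat_lit 390) (nat_lit 2204) (nat_lit 0) (XT.nd (nat_lit 156) (nat_lit 1292) (nat_lit 0) (XT.nd (nat_lit 78) (nat_lit 380) (nat_lit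 0) (XT.lf (nat_lit 0) (nat_lit 373713760) (nat_lit 456) (nat_lit 6819474840) (nat_lit 76) (nat_lit 2307603908) (nat_lit 151) (nat_lit 5) (nat_lit 157) (nat_lit 5) (nat_lit 152) (nat_lit 5) (nat_lit 351) (nat_lit 281) (nat_lit 268)) (XT.lf (nat_lit 0) (nat_lit 3926799650) (nat_lit 380) (nat_lit 2170984369) (nat_lit 456) (nat_lit 3540889743) (nat_lit 146) (nat_lit 5) (nat_lit 151) (nat_lit 5) (nat_lit 152) (nat_lit 5) (nat_lit 352) (nat_lit 281) (nat_lit 267))) (XT.nd (nat_lit 78) (nat_lit 836) (nat_lit 0) (XT.lf (nat_lit 0) (nat_lit 2160341909) (nat_lit 456) (nat_lit 4624390127) (nat_lit 76) (nat_lit 2996169702) (nat_lit 140) (nat_lit 5) (nat_lit 146) (nat_lit 5) (nat_lit 141) (nat_lit 5) (nat_lit 353) (nat_lit 281) (nat_lit 266)) (XT.nd (nat_lit 78) (nat_lit 456) (nat_lit 0) (XT.lf (nat_lit 0) (nat_lit 6362831410) (nat_lit 380) (nat_lit 1595385866) (nat_lit 456) (nat_lit 1969263329) (nat_lit 135)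 (nat_lit 5) (nat_lit 140) (nat_lit 5) (nat_lit 141) (nat_lit 5) (nat_lit 354) (nat_lit 281) (nat_lit 265)) (XT.lf (nat_lit 0) (nat_lit 3786480046) (nat_lit 456) (nat_lit 2547676217) (nat_lit 76) (nat_lit 3744117150) (nat_lit 129) (nat_lit 5) (nat_lit 135) (nat_lit 5) (nat_lit 130) (nat_lit 5) (nat_lit 355) (nat_lit 281) (nat_lit 264))))) (XT.nd (nat_lit 156) (nat_lit 1444) (nat_lit 0) (XT.nd (nat_lit 78) (nat_lit 380) (nat_lit 0) (XT.lf (nat_lit 0) (nat_lit 8681965347) (nat_lit 380) (nat_lit 979781600) (nat_lit 456) (nat_lit 572135030) (nat_lit 124) (nat_lit 5) (nat_lit 129) (nat_lit 5) (nat_lit 130) (nat_lit 5) (nat_lit 356) (nat_lit 281) (nat_lit 263)) (XT.lf (nat_lit 0) (nat_lit 5243747660) (nat_lit 380) (nat_lit 621425431) (nat_lit 76) (nat_lit 4528430334) (nat_lit 119) (nat_lit 5) (nat_lit 124) (nat_lit 5) (nat_lit 120) (nat_lit 5) (nat_lit 357) (nat_lit 281) (nat_lit 262))) (XT.nd (nat_lit 78)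 (nat_lit 684) (nat_lit 0) (XT.lf (nat_lit 0) (nat_lit 292413958) (nat_lit 304) (nat_lit 341850153) (nat_lit 380) (nat_lit 9924217397) (nat_lit 109) (nat_lit 5) (nat_lit 113) (nat_lit 5) (nat_lit 114) (nat_lit 5) (nat_lit 358) (nat_lit 281) (nat_lit 261)) (XT.nd (nat_lit 78) (nat_lit 380) (nat_lit 0) (XT.lf (nat_lit 0) (nat_lit 1134285853) (nat_lit 304) (nat_lit 5394814245) (nat_lit 380) (nat_lit 4198403330) (nat_lit 105) (nat_lit 5) (nat_lit 109) (nat_lit 5) (nat_lit 110) (nat_lit 5) (nat_lit 359) (nat_lit 281) (nat_lit 260)) (XT.lf (nat_lit 0) (nat_lit 1650426811) (nat_lit 380) (nat_lit 8956452655) (nat_lit 76) (nat_lit 295045806) (nat_lit 100) (nat_lit 5) (nat_lit 105) (nat_lit 5) (nat_lit 101) (nat_lit 5) (nat_lit 360) (nat_lit 281) (nat_lit 259)))))) (XT.nd (nat_lit 390) (nat_lit 1596) (nat_lit 0) (XT.nd (nat_lit 156) (nat_lit 912) (nat_lit 0) (XT.nd (nat_lit 78) (nat_lit 380) (nat_lit 0) (XT.lf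 (nat_lit 0) (nat_lit 2671666137) (nat_lit 304) (nat_lit 4953539019) (nat_lit 380) (nat_lit 3455688977) (nat_lit 96) (nat_lit 5) (nat_lit 100) (nat_lit 5) (nat_lit 101) (nat_lit 5) (nat_lit 361) (nat_lit 281) (nat_lit 258)) (XT.lf (nat_lit 0) (nat_lit 2459456727) (nat_lit 380) (nat_lit 7915543832) (nat_lit 76) (nat_lit 890355278) (nat_lit 91) (nat_lit 5) (nat_lit 96) (nat_lit 5) (nat_lit 92) (nat_lit 5) (nat_lit 362) (nat_lit 281) (nat_lit 257))) (XT.nd (nat_lit 78) (nat_lit 608) (nat_lit 0) (XT.lf (nat_lit 0) (nat_lit 3940025751) (nat_lit 304) (nat_lit 4572744879) (nat_lit 380) (nat_lit 2941989005) (nat_lit 87) (nat_lit 5) (nat_lit 91) (nat_lit 5) (nat_lit 92) (nat_lit 5) (nat_lit 363) (nat_lit 281) (nat_lit 256)) (XT.nd (nat_lit 78) (nat_lit 304) (nat_lit 0) (XT.lf (nat_lit 0) (nat_lit 3042228038) (nat_lit 304) (nat_lit 7186380360) (nat_lit 76) (nat_lit 1421151978) (nat_lit 83) (nat_lit 5) (nat_lit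 87) (nat_lit 5) (nat_lit 84) (nat_lit 5) (nat_lit 364) (nat_lit 281) (nat_lit 255)) (XT.lf (nat_lit 0) (nat_lit 4892742166) (nat_lit 304) (nat_lit 4281289007) (nat_lit 380) (nat_lit 2676047397) (nat_lit 79) (nat_lit 5) (nat_lit 83) (nat_lit 5) (nat_lit 84) (nat_lit 5) (nat_lit 365) (nat_lit 281) (nat_lit 254))))) (XT.nd (nat_lit 234) (nat_lit 760) (nat_lit 0) (XT.nd (nat_lit 78) (nat_lit 532) (nat_lit 0) (XT.lf (nat_lit 0) (nat_lit 3379139652) (nat_lit 304) (nat_lit 6818727727) (nat_lit 76) (nat_lit 1858293492) (nat_lit 75) (nat_lit 5) (nat_lit 79) (nat_lit 5) (nat_lit 76) (nat_lit 5) (nat_lit 366) (nat_lit 281) (nat_lit 253)) (XT.nd (nat_lit 78) (nat_lit 304) (nat_lit 0) (XT.lf (nat_lit 0) (nat_lit 5478487576) (nat_lit 228) (nat_lit 4109953641) (nat_lit 304) (nat_lit 2679470000) (nat_lit 72) (nat_lit 5) (nat_lit 75) (nat_lit 5) (nat_lit 76) (nat_lit 5) (nat_lit 367) (nat_lit 281) (nat_lit 252)) (XT.lf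 (nat_lit 0) (nat_lit 3447661329) (nat_lit 304) (nat_lit 6867400086) (nat_lit 76) (nat_lit 2170602733) (nat_lit 68) (nat_lit 5) (nat_lit 72) (nat_lit 5) (nat_lit 69) (nat_lit 5) (nat_lit 368) (nat_lit 281) (nat_lit 251)))) (XT.nd (nat_lit 78) (nat_lit 532) (nat_lit 0) (XT.lf (nat_lit 0) (nat_lit 5640665337) (nat_lit 228) (nat_lit 4091763561) (nat_lit 304) (nat_lit 2976976503) (nat_lit 65) (nat_lit 5) (nat_lit 68) (nat_lit 5) (nat_lit 69) (nat_lit 5) (nat_lit 369) (nat_lit 281) (nat_lit 250)) (XT.nd (nat_lit 78) (nat_lit 228) (nat_lit 0) (XT.lf (nat_lit 0) (nat_lit 3222070604) (nat_lit 304) (nat_lit 7392854906) (nat_lit 76) (nat_lit 2324542626) (nat_lit 61) (nat_lit 5) (nat_lit 65) (nat_lit 5) (nat_lit 62) (nat_lit 5) (nat_lit 370) (nat_lit 281) (nat_lit 249)) (XT.lf (nat_lit 0) (nat_lit 5316791343) (nat_lit 228) (nat_lit 4262328833) (nat_lit 304) (nat_lit 3596682871) (nat_lit 58) (nat_lit 5) (nat_lit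 61) (nat_lit 5) (nat_lit 62) (nat_lit 5) (nat_lit 371) (nat_lit 281) (nat_lit 248))))))))
noncomputable def xc16 : XT := (XT.nd (nat_lit 44304) (nat_lit 0) (nat_lit 6916) (XT.nd (nat_lit 780) (nat_lit 1064) (nat_lit 0) (XT.nd (nat_lit 390) (nat_lit 836) (nat_lit 0) (XT.nd (nat_lit 156) (nat_lit 684) (nat_lit 0) (XT.nd (nat_lit 78) (nat_lit 228) (nat_lit 0) (XT.lf (nat_lit 0) (nat_lit 2673158310) (nat_lit 228) (nat_lit 8461846139) (nat_lit 76) (nat_lit 2283864364) (nat_lit 55) (nat_lit 5) (nat_lit 58) (nat_lit 5) (nat_lit 56) (nat_lit 5) (nat_lit 372) (nat_lit 281) (nat_lit 247)) (XT.lf (nat_lit 0) (nat_lit 4437814268) (nat_lit 228) (nat_lit 4660216040) (nat_lit 304) (nat_lit 4570417120) (nat_lit 52) (nat_lit 5) (nat_lit 55) (nat_lit 5) (nat_lit 56) (nat_lit 5) (nat_lit 373) (nat_lit 281) (nat_lit 246))) (XT.nd (nat_lit 78) (nat_lit 456) (nat_lit 0) (XT.lf (nat_lit 0) (nat_lit 1767899699) (nat_lit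 228) (nat_lit 10148142294) (nat_lit 76) (nat_lit 2009225870) (nat_lit 49) (nat_lit 5) (nat_lit 52) (nat_lit 5) (nat_lit 50) (nat_lit 5) (nat_lit 374) (nat_lit 281) (nat_lit 245)) (XT.nd (nat_lit 78) (nat_lit 228) (nat_lit 0) (XT.lf (nat_lit 0) (nat_lit 2927367991) (nat_lit 228) (nat_lit 5327351570) (nat_lit 304) (nat_lit 5934071615) (nat_lit 46) (nat_lit 5) (nat_lit 49) (nat_lit 5) (nat_lit 50) (nat_lit 5) (nat_lit 375) (nat_lit 281) (nat_lit 244)) (XT.lf (nat_lit 0) (nat_lit 469087857) (nat_lit 228) (nat_lit 12533316471) (nat_lit 76) (nat_lit 1457776819) (nat_lit 43) (nat_lit 5) (nat_lit 46) (nat_lit 5) (nat_lit 44) (nat_lit 5) (nat_lit 376) (nat_lit 281) (nat_lit 243))))) (XT.nd (nat_lit 156) (nat_lit 608) (nat_lit 0) (XT.nd (nat_lit 78) (nat_lit 0) (nat_lit 0) (XT.lf (nat_lit 0) (nat_lit 700948862) (nat_lit 228) (nat_lit 6309460829) (nat_lit 304) (nat_lit 7727995434) (nat_lit 40) (nat_lit 5) (nat_lit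 43) (nat_lit 5) (nat_lit 44) (nat_lit 5) (nat_lit 377) (nat_lit 281) (nat_lit 242)) (XT.lf (nat_lit 0) (nat_lit 13747680651) (nat_lit 304) (nat_lit 681796662) (nat_lit 76) (nat_lit 595514571) (nat_lit 40) (nat_lit 5) (nat_lit 44) (nat_lit 5) (nat_lit 41) (nat_lit 4) (nat_lit 378) (nat_lit 281) (nat_lit 241))) (XT.nd (nat_lit 78) (nat_lit 380) (nat_lit 0) (XT.lf (nat_lit 0) (nat_lit 5336717629) (nat_lit 228) (nat_lit 2304366464) (nat_lit 76) (nat_lit 7677600763) (nat_lit 37) (nat_lit 5) (nat_lit 40) (nat_lit 5) (nat_lit 38) (nat_lit 5) (nat_lit 379) (nat_lit 281) (nat_lit 240)) (XT.nd (nat_lit 78) (nat_lit 228) (nat_lit 0) (XT.lf (nat_lit 0) (nat_lit 11499775414) (nat_lit 152) (nat_lit 625463156) (nat_lit 228) (nat_lit 3495922164) (nat_lit 35) (nat_lit 5) (nat_lit 37) (nat_lit 5) (nat_lit 38) (nat_lit 5) (nat_lit 380) (nat_lit 281) (nat_lit 239)) (XT.lf (nat_lit 0) (nat_lit 3180180126) (nat_lit 228)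 (nat_lit 6201621969) (nat_lit 76) (nat_lit 6549759388) (nat_lit 32) (nat_lit 5) (nat_lit 35) (nat_lit 5) (nat_lit 33) (nat_lit 5) (nat_lit 381) (nat_lit 281) (nat_lit 238)))))) (XT.nd (nat_lit 390) (nat_lit 304) (nat_lit 0) (XT.nd (nat_lit 156) (nat_lit 380) (nat_lit 0) (XT.nd (nat_lit 78) (nat_lit 228) (nat_lit 0) (XT.lf (nat_lit 0) (nat_lit 7726578511) (nat_lit 152) (nat_lit 2281293120) (nat_lit 228) (nat_lit 6242973178) (nat_lit 30) (nat_lit 5) (nat_lit 32) (nat_lit 5) (nat_lit 33) (nat_lit 5) (nat_lit 382) (nat_lit 281) (nat_lit 237)) (XT.lf (nat_lit 0) (nat_lit 482443413) (nat_lit 228) (nat_lit 11113236611) (nat_lit 76) (nat_lit 4983419157) (nat_lit 27) (nat_lit 5) (nat_lit 30) (nat_lit 5) (nat_lit 28) (nat_lit 5) (nat_lit 383) (nat_lit 281) (nat_lit 236))) (XT.nd (nat_lit 78) (nat_lit 228) (nat_lit 0) (XT.lf (nat_lit 0) (nat_lit 2910093592) (nat_lit 152) (nat_lit 4425549181) (nat_lit 228) (nat_lit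 9580524425) (nat_lit 25) (nat_lit 5) (nat_lit 27) (nat_lit 5) (nat_lit 28) (nat_lit 5) (nat_lit 384) (nat_lit 281) (nat_lit 235)) (XT.nd (nat_lit 78) (nat_lit 76) (nat_lit 0) (XT.lf (nat_lit 0) (nat_lit 79903529) (nat_lit 152) (nat_lit 14329164715) (nat_lit 228) (nat_lit 2853994264) (nat_lit 23) (nat_lit 5) (nat_lit 25) (nat_lit 5) (nat_lit 26) (nat_lit 4) (nat_lit 385) (nat_lit 281) (nat_lit 234)) (XT.lf (nat_lit 0) (nat_lit 4066010734) (nat_lit 228) (nat_lit 3039503289) (nat_lit 76) (nat_lit 10513426774) (nat_lit 22) (nat_lit 5) (nat_lit 25) (nat_lit 5) (nat_lit 23) (nat_lit 5) (nat_lit 386) (nat_lit 281) (nat_lit 233))))) (XT.nd (nat_lit 42900) (nat_lit 0) (nat_lit 18316) (XT.nd (nat_lit 78) (nat_lit 152) (nat_lit 0) (XT.lf (nat_lit 0) (nat_lit 11154559239) (nat_lit 228) (nat_lit 6467429994) (nat_lit 76) (nat_lit 363141804) (nat_lit 20) (nat_lit 5) (nat_lit 23) (nat_lit 5) (nat_lit 21) (nat_lit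 4) (nat_lit 387) (nat_lit 281) (nat_lit 232)) (XT.lf (nat_lit 0) (nat_lit 136706236) (nat_lit 152) (nat_lit 10251459561) (nat_lit 76) (nat_lit 7973246465) (nat_lit 18) (nat_lit 5) (nat_lit 20) (nat_lit 5) (nat_lit 19) (nat_lit 5) (nat_lit 388) (nat_lit 281) (nat_lit 231))) (XT.nd (nat_lit 78) (nat_lit 2052) (nat_lit 0) (XT.lf (nat_lit 0) (nat_lit 1852871874) (nat_lit 760) (nat_lit 237318113) (nat_lit 0) (nat_lit 1852871874) (nat_lit 286) (nat_lit 5) (nat_lit 296) (nat_lit 4) (nat_lit 286) (nat_lit 4) (nat_lit 336) (nat_lit 282) (nat_lit 282)) (XT.nd (nat_lit 78) (nat_lit 684) (nat_lit 0) (XT.lf (nat_lit 0) (nat_lit 796163430) (nat_lit 608) (nat_lit 540034137) (nat_lit 684) (nat_lit 6634328771) (nat_lit 268) (nat_lit 5) (nat_lit 276) (nat_lit 5) (nat_lit 277) (nat_lit 4) (nat_lit 337) (nat_lit 282) (nat_lit 281)) (XT.lf (nat_lit 0) (nat_lit 2084690243) (nat_lit 684) (nat_lit 4825124044) (nat_lit 684)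 (nat_lit 1148177552) (nat_lit 259) (nat_lit 4) (nat_lit 268) (nat_lit 5) (nat_lit 268) (nat_lit 4) (nat_lit 338) (nat_lit 282) (nat_lit 280))))))) (XT.nd (nat_lit 780) (nat_lit 5016) (nat_lit 0) (XT.nd (nat_lit 390) (nat_lit 2660) (nat_lit 0) (XT.nd (nat_lit 156) (nat_lit 2356) (nat_lit 0) (XT.nd (nat_lit 78) (nat_lit 684) (nat_lit 0) (XT.lf (nat_lit 0) (nat_lit 3399008560) (nat_lit 608) (nat_lit 974507441) (nat_lit 684) (nat_lit 3775428215) (nat_lit 250) (nat_lit 5) (nat_lit 258) (nat_lit 5) (nat_lit 259) (nat_lit 4) (nat_lit 339) (nat_lit 282) (nat_lit 279)) (XT.lf (nat_lit 0) (nat_lit 1727971202) (nat_lit 684) (nat_lit 3512264065) (nat_lit 76) (nat_lit 3003072936) (nat_lit 241) (nat_lit 5) (nat_lit 250) (nat_lit 5) (nat_lit 242) (nat_lit 4) (nat_lit 340) (nat_lit 282) (nat_lit 278))) (XT.nd (nat_lit 78) (nat_lit 1824) (nat_lit 0) (XT.lf (nat_lit 0) (nat_lit 6085917610) (nat_lit 532) (nat_lit 1198132399)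 (nat_lit 608) (nat_lit 1057220726) (nat_lit 234) (nat_lit 5) (nat_lit 241) (nat_lit 5) (nat_lit 242) (nat_lit 4) (nat_lit 341) (nat_lit 282) (nat_lit 277)) (XT.nd (nat_lit 78) (nat_lit 1140) (nat_lit 0) (XT.lf (nat_lit 0) (nat_lit 4458930768) (nat_lit 684) (nat_lit 998477481) (nat_lit 76) (nat_lit 2985130026) (nat_lit 225) (nat_lit 5) (nat_lit 234) (nat_lit 5) (nat_lit 226) (nat_lit 4) (nat_lit 342) (nat_lit 282) (nat_lit 276)) (XT.lf (nat_lit 0) (nat_lit 283579286) (nat_lit 532) (nat_lit 1222164648) (nat_lit 608) (nat_lit 7041855838) (nat_lit 210) (nat_lit 5) (nat_lit 217) (nat_lit 5) (nat_lit 218) (nat_lit 5) (nat_lit 343) (nat_lit 282) (nat_lit 275))))) (XT.nd (nat_lit 156) (nat_lit 1520) (nat_lit 0) (XT.nd (nat_lit 78) (nat_lit 608) (nat_lit 0) (XT.lf (nat_lit 0) (nat_lit 1576257425) (nat_lit 532) (nat_lit 5496693818) (nat_lit 608) (nat_lit 1583028133) (nat_lit 203) (nat_lit 5) (nat_lit 210) (nat_lit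 5) (nat_lit 211) (nat_lit 4) (nat_lit 344) (nat_lit 282) (nat_lit 274)) (XT.lf (nat_lit 0) (nat_lit 2876931789) (nat_lit 532) (nat_lit 1059729030) (nat_lit 608) (nat_lit 4831460441) (nat_lit 195) (nat_lit 5) (nat_lit 202) (nat_lit 5) (nat_lit 203) (nat_lit 5) (nat_lit 345) (nat_lit 282) (nat_lit 273))) (XT.nd (nat_lit 78) (nat_lit 988) (nat_lit 0) (XT.lf (nat_lit 0) (nat_lit 674955564) (nat_lit 532) (nat_lit 4704561899) (nat_lit 76) (nat_lit 3504495854) (nat_lit 188) (nat_lit 5) (nat_lit 195) (nat_lit 5) (nat_lit 189) (nat_lit 5) (nat_lit 346) (nat_lit 282) (nat_lit 272)) (XT.nd (nat_lit 78) (nat_lit 532) (nat_lit 0) (XT.lf (nat_lit 0) (nat_lit 5479985924) (nat_lit 456) (nat_lit 755138544) (nat_lit 532) (nat_lit 2768569086) (nat_lit 182) (nat_lit 5) (nat_lit 188) (nat_lit 5) (nat_lit 189) (nat_lit 5) (nat_lit 347) (nat_lit 282) (nat_lit 271)) (XT.lf (nat_lit 0) (nat_lit 2773171497) (nat_lit 532) (nat_lit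 2356532583) (nat_lit 76) (nat_lit 3997420071) (nat_lit 175) (nat_lit 5) (nat_lit 182) (nat_lit 5) (nat_lit 176) (nat_lit 5) (nat_lit 348) (nat_lit 282) (nat_lit 270)))))) (XT.nd (nat_lit 390) (nat_lit 2356) (nat_lit 0) (XT.nd (nat_lit 156) (nat_lit 1748) (nat_lit 0) (XT.nd (nat_lit 78) (nat_lit 456) (nat_lit 0) (XT.lf (nat_lit 0) (nat_lit 8069793919) (nat_lit 456) (nat_lit 330351099) (nat_lit 532) (nat_lit 854646313) (nat_lit 169) (nat_lit 5) (nat_lit 175) (nat_lit 5) (nat_lit 176) (nat_lit 5) (nat_lit 349) (nat_lit 282) (nat_lit 269)) (XT.lf (nat_lit 0) (nat_lit 4730307238) (nat_lit 456) (nat_lit 49443995) (nat_lit 76) (nat_lit 4606267847) (nat_lit 163) (nat_lit 5) (nat_lit 169) (nat_lit 5) (nat_lit 164) (nat_lit 5) (nat_lit 350) (nat_lit 282) (nat_lit 268))) (XT.nd (nat_lit 78) (nat_lit 836) (nat_lit 0) (XT.lf (nat_lit 0) (nat_lit 903858289) (nat_lit 456) (nat_lit 8414402876) (nat_lit 76) (nat_lit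 203390895) (nat_lit 151) (nat_lit 5) (nat_lit 157) (nat_lit 5) (nat_lit 152) (nat_lit 5) (nat_lit 351) (nat_lit 282) (nat_lit 267)) (XT.nd (nat_lit 78) (nat_lit 456) (nat_lit 0) (XT.lf (nat_lit 0) (nat_lit 2220047378) (nat_lit 380) (nat_lit 4337033313) (nat_lit 456) (nat_lit 3103883259) (nat_lit 146) (nat_lit 5) (nat_lit 151) (nat_lit 5) (nat_lit 152) (nat_lit 5) (nat_lit 352) (nat_lit 282) (nat_lit 266)) (XT.lf (nat_lit 0) (nat_lit 2506323382) (nat_lit 456) (nat_lit 6478600124) (nat_lit 76) (nat_lit 819930563) (nat_lit 140) (nat_lit 5) (nat_lit 146) (nat_lit 5) (nat_lit 141) (nat_lit 5) (nat_lit 353) (nat_lit 282) (nat_lit 265))))) (XT.nd (nat_lit 234) (nat_lit 1140) (nat_lit 0) (XT.nd (nat_lit 78) (nat_lit 836) (nat_lit 0) (XT.lf (nat_lit 0) (nat_lit 4394482667) (nat_lit 380) (nat_lit 3838897856) (nat_lit 456) (nat_lit 1719481418) (nat_lit 135) (nat_lit 5) (nat_lit 140) (nat_lit 5) (nat_lit 141)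 (nat_lit 5) (nat_lit 354) (nat_lit 282) (nat_lit 264)) (XT.nd (nat_lit 78) (nat_lit 380) (nat_lit 0) (XT.lf (nat_lit 0) (nat_lit 3947137325) (nat_lit 456) (nat_lit 4670311835) (nat_lit 76) (nat_lit 1487902159) (nat_lit 129) (nat_lit 5) (nat_lit 135) (nat_lit 5) (nat_lit 130) (nat_lit 5) (nat_lit 355) (nat_lit 282) (nat_lit 263)) (XT.lf (nat_lit 0) (nat_lit 6442780150) (nat_lit 380) (nat_lit 3308698597) (nat_lit 456) (nat_lit 510911325) (nat_lit 124) (nat_lit 5) (nat_lit 129) (nat_lit 5) (nat_lit 130) (nat_lit 5) (nat_lit 356) (nat_lit 282) (nat_lit 262)))) (XT.nd (nat_lit 78) (nat_lit 760) (nat_lit 0) (XT.lf (nat_lit 0) (nat_lit 5217577342) (nat_lit 380) (nat_lit 3021840252) (nat_lit 76) (nat_lit 2184428916) (nat_lit 119) (nat_lit 5) (nat_lit 124) (nat_lit 5) (nat_lit 120) (nat_lit 5) (nat_lit 357) (nat_lit 282) (nat_lit 261)) (XT.nd (nat_lit 78) (nat_lit 304) (nat_lit 0) (XT.lf (nat_lit 0) (nat_lit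 505043849) (nat_lit 456) (nat_lit 2261739065) (nat_lit 76) (nat_lit 7823430522) (nat_lit 113) (nat_lit 5) (nat_lit 119) (nat_lit 5) (nat_lit 114) (nat_lit 5) (nat_lit 358) (nat_lit 282) (nat_lit 260)) (XT.lf (nat_lit 0) (nat_lit 6306897048) (nat_lit 380) (nat_lit 1568373665) (nat_lit 76) (nat_lit 2885834573) (nat_lit 109) (nat_lit 5) (nat_lit 114) (nat_lit 5) (nat_lit 110) (nat_lit 5) (nat_lit 359) (nat_lit 282) (nat_lit 259))))))))
noncomputable def xc17 : XT := (XT.nd (nat_lit 1560) (nat_lit 1292) (nat_lit 0) (XT.nd (nat_lit 780) (nat_lit 2128) (nat_lit 0) (XT.nd (nat_lit 390) (nat_lit 1368) (nat_lit 0) (XT.nd (nat_lit 156) (nat_lit 1292) (nat_lit 0) (XT.nd (nat_lit 78) (nat_lit 304) (nat_lit 0) (XT.lf (nat_lit 0) (nat_lit 1318783668) (nat_lit 380) (nat_lit 920368789) (nat_lit 76) (nat_lit 8698001533) (nat_lit 104) (nat_lit 5) (nat_lit 109) (nat_lit 5) (nat_lit 105) (nat_lit 5) (nat_lit 360) (nat_lit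 282) (nat_lit 258)) (XT.lf (nat_lit 0) (nat_lit 7202178326) (nat_lit 380) (nat_lit 348374679) (nat_lit 76) (nat_lit 3567407015) (nat_lit 100) (nat_lit 5) (nat_lit 105) (nat_lit 5) (nat_lit 101) (nat_lit 5) (nat_lit 361) (nat_lit 282) (nat_lit 257))) (XT.nd (nat_lit 78) (nat_lit 608) (nat_lit 0) (XT.lf (nat_lit 0) (nat_lit 169752004) (nat_lit 304) (nat_lit 1754040435) (nat_lit 380) (nat_lit 9380330182) (nat_lit 91) (nat_lit 5) (nat_lit 95) (nat_lit 5) (nat_lit 96) (nat_lit 5) (nat_lit 362) (nat_lit 282) (nat_lit 256)) (XT.nd (nat_lit 78) (nat_lit 304) (nat_lit 0) (XT.lf (nat_lit 0) (nat_lit 603916612) (nat_lit 304) (nat_lit 7288166708) (nat_lit 380) (nat_lit 3603152333) (nat_lit 87) (nat_lit 5) (nat_lit 91) (nat_lit 5) (nat_lit 92) (nat_lit 5) (nat_lit 363) (nat_lit 282) (nat_lit 255)) (XT.lf (nat_lit 0) (nat_lit 970458731) (nat_lit 228) (nat_lit 1335838145) (nat_lit 304) (nat_lit 9385702507) (nat_lit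 83) (nat_lit 5) (nat_lit 86) (nat_lit 5) (nat_lit 87) (nat_lit 5) (nat_lit 364) (nat_lit 282) (nat_lit 254))))) (XT.nd (nat_lit 156) (nat_lit 760) (nat_lit 0) (XT.nd (nat_lit 78) (nat_lit 304) (nat_lit 0) (XT.lf (nat_lit 0) (nat_lit 1234609224) (nat_lit 304) (nat_lit 7120464241) (nat_lit 380) (nat_lit 3538912752) (nat_lit 79) (nat_lit 5) (nat_lit 83) (nat_lit 5) (nat_lit 84) (nat_lit 5) (nat_lit 365) (nat_lit 282) (nat_lit 253)) (XT.lf (nat_lit 0) (nat_lit 1420254965) (nat_lit 228) (nat_lit 1020246133) (nat_lit 304) (nat_lit 9661428980) (nat_lit 75) (nat_lit 5) (nat_lit 78) (nat_lit 5) (nat_lit 79) (nat_lit 5) (nat_lit 366) (nat_lit 282) (nat_lit 252))) (XT.nd (nat_lit 78) (nat_lit 532) (nat_lit 0) (XT.lf (nat_lit 0) (nat_lit 1487405838) (nat_lit 228) (nat_lit 7080575189) (nat_lit 304) (nat_lit 3747343322) (nat_lit 72) (nat_lit 5) (nat_lit 75) (nat_lit 5) (nat_lit 76) (nat_lit 5) (nat_lit 367) (nat_lit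 282) (nat_lit 251)) (XT.nd (nat_lit 78) (nat_lit 228) (nat_lit 0) (XT.lf (nat_lit 0) (nat_lit 1464872910) (nat_lit 228) (nat_lit 838875774) (nat_lit 304) (nat_lit 10231275287) (nat_lit 68) (nat_lit 5) (nat_lit 71) (nat_lit 5) (nat_lit 72) (nat_lit 5) (nat_lit 368) (nat_lit 282) (nat_lit 250)) (XT.lf (nat_lit 0) (nat_lit 1305344990) (nat_lit 228) (nat_lit 7201558537) (nat_lit 304) (nat_lit 4253500877) (nat_lit 65) (nat_lit 5) (nat_lit 68) (nat_lit 5) (nat_lit 69) (nat_lit 5) (nat_lit 369) (nat_lit 282) (nat_lit 249)))))) (XT.nd (nat_lit 390) (nat_lit 1064) (nat_lit 0) (XT.nd (nat_lit 156) (nat_lit 532) (nat_lit 0) (XT.nd (nat_lit 78) (nat_lit 228) (nat_lit 0) (XT.lf (nat_lit 0) (nat_lit 1044451596) (nat_lit 228) (nat_lit 825754132) (nat_lit 304) (nat_lit 11122275409) (nat_lit 61) (nat_lit 5) (nat_lit 64) (nat_lit 5) (nat_lit 65) (nat_lit 5) (nat_lit 370) (nat_lit 282) (nat_lit 248)) (XT.lf (nat_lit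 0) (nat_lit 625552659) (nat_lit 228) (nat_lit 7519082308) (nat_lit 304) (nat_lit 5085839887) (nat_lit 58) (nat_lit 5) (nat_lit 61) (nat_lit 5) (nat_lit 62) (nat_lit 5) (nat_lit 371) (nat_lit 282) (nat_lit 247))) (XT.nd (nat_lit 78) (nat_lit 304) (nat_lit 0) (XT.lf (nat_lit 0) (nat_lit 92888189) (nat_lit 152) (nat_lit 1017679550) (nat_lit 228) (nat_lit 12365031626) (nat_lit 55) (nat_lit 5) (nat_lit 57) (nat_lit 5) (nat_lit 58) (nat_lit 5) (nat_lit 372) (nat_lit 282) (nat_lit 246)) (XT.nd (nat_lit 78) (nat_lit 304) (nat_lit 0) (XT.lf (nat_lit 0) (nat_lit 7454391196) (nat_lit 228) (nat_lit 613287361) (nat_lit 76) (nat_lit 5659126308) (nat_lit 55) (nat_lit 5) (nat_lit 58) (nat_lit 5) (nat_lit 56) (nat_lit 5) (nat_lit 373) (nat_lit 282) (nat_lit 245)) (XT.lf (nat_lit 0) (nat_lit 1230338) (nat_lit 304) (nat_lit 1443689275) (nat_lit 76) (nat_lit 12540672220) (nat_lit 51) (nat_lit 5) (nat_lit 55) (nat_lit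 5) (nat_lit 52) (nat_lit 5) (nat_lit 374) (nat_lit 282) (nat_lit 244))))) (XT.nd (nat_lit 156) (nat_lit 684) (nat_lit 0) (XT.nd (nat_lit 78) (nat_lit 228) (nat_lit 0) (XT.lf (nat_lit 0) (nat_lit 6405603189) (nat_lit 228) (nat_lit 2479481582) (nat_lit 76) (nat_lit 5365684781) (nat_lit 49) (nat_lit 5) (nat_lit 52) (nat_lit 5) (nat_lit 50) (nat_lit 5) (nat_lit 375) (nat_lit 282) (nat_lit 243)) (XT.lf (nat_lit 0) (nat_lit 10858939856) (nat_lit 228) (nat_lit 2145480649) (nat_lit 304) (nat_lit 1519446601) (nat_lit 46) (nat_lit 5) (nat_lit 49) (nat_lit 5) (nat_lit 50) (nat_lit 5) (nat_lit 376) (nat_lit 282) (nat_lit 242))) (XT.nd (nat_lit 78) (nat_lit 456) (nat_lit 0) (XT.lf (nat_lit 0) (nat_lit 4955641595) (nat_lit 228) (nat_lit 5065089819) (nat_lit 76) (nat_lit 4783285254) (nat_lit 43) (nat_lit 5) (nat_lit 46) (nat_lit 5) (nat_lit 44) (nat_lit 5) (nat_lit 377) (nat_lit 282) (nat_lit 241)) (XT.nd (nat_lit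 78) (nat_lit 228) (nat_lit 0) (XT.lf (nat_lit 0) (nat_lit 8438940224) (nat_lit 228) (nat_lit 3174100061) (nat_lit 304) (nat_lit 3479165490) (nat_lit 40) (nat_lit 5) (nat_lit 43) (nat_lit 5) (nat_lit 44) (nat_lit 5) (nat_lit 378) (nat_lit 282) (nat_lit 240)) (XT.lf (nat_lit 0) (nat_lit 3061227512) (nat_lit 228) (nat_lit 8462918302) (nat_lit 76) (nat_lit 3864093789) (nat_lit 37) (nat_lit 5) (nat_lit 40) (nat_lit 5) (nat_lit 38) (nat_lit 5) (nat_lit 379) (nat_lit 282) (nat_lit 239))))))) (XT.nd (nat_lit 43446) (nat_lit 0) (nat_lit 12768) (XT.nd (nat_lit 390) (nat_lit 532) (nat_lit 0) (XT.nd (nat_lit 156) (nat_lit 380) (nat_lit 0) (XT.nd (nat_lit 78) (nat_lit 228) (nat_lit 0) (XT.lf (nat_lit 0) (nat_lit 5185704572) (nat_lit 152) (nat_lit 4581923443) (nat_lit 228) (nat_lit 5924734405) (nat_lit 35) (nat_lit 5) (nat_lit 37) (nat_lit 5) (nat_lit 38) (nat_lit 5) (nat_lit 380) (nat_lit 282) (nat_lit 238)) (XT.lf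 (nat_lit 0) (nat_lit 673902681) (nat_lit 228) (nat_lit 12775709382) (nat_lit 76) (nat_lit 2555657199) (nat_lit 32) (nat_lit 5) (nat_lit 35) (nat_lit 5) (nat_lit 33) (nat_lit 5) (nat_lit 381) (nat_lit 282) (nat_lit 237))) (XT.nd (nat_lit 78) (nat_lit 228) (nat_lit 0) (XT.lf (nat_lit 0) (nat_lit 992668103) (nat_lit 152) (nat_lit 6425064316) (nat_lit 228) (nat_lit 8908501591) (nat_lit 30) (nat_lit 5) (nat_lit 32) (nat_lit 5) (nat_lit 33) (nat_lit 5) (nat_lit 382) (nat_lit 282) (nat_lit 236)) (XT.nd (nat_lit 78) (nat_lit 228) (nat_lit 0) (XT.lf (nat_lit 0) (nat_lit 14375836065) (nat_lit 228) (nat_lit 1455962038) (nat_lit 76) (nat_lit 824798668) (nat_lit 30) (nat_lit 5) (nat_lit 33) (nat_lit 5) (nat_lit 31) (nat_lit 4) (nat_lit 383) (nat_lit 282) (nat_lit 235)) (XT.lf (nat_lit 0) (nat_lit 4534625210) (nat_lit 228) (nat_lit 4202376024) (nat_lit 76) (nat_lit 8258318109) (nat_lit 27) (nat_lit 5) (nat_lit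 30) (nat_lit 5) (nat_lit 28) (nat_lit 5) (nat_lit 384) (nat_lit 282) (nat_lit 234))))) (XT.nd (nat_lit 156) (nat_lit 152) (nat_lit 0) (XT.nd (nat_lit 78) (nat_lit 228) (nat_lit 0) (XT.lf (nat_lit 0) (nat_lit 10124124611) (nat_lit 152) (nat_lit 1397964226) (nat_lit 228) (nat_lit 5821848808) (nat_lit 25) (nat_lit 5) (nat_lit 27) (nat_lit 5) (nat_lit 28) (nat_lit 5) (nat_lit 385) (nat_lit 282) (nat_lit 233)) (XT.lf (nat_lit 0) (nat_lit 1041920075) (nat_lit 228) (nat_lit 10557458686) (nat_lit 76) (nat_lit 6102729335) (nat_lit 22) (nat_lit 5) (nat_lit 25) (nat_lit 5) (nat_lit 23) (nat_lit 5) (nat_lit 386) (nat_lit 282) (nat_lit 232))) (XT.nd (nat_lit 42744) (nat_lit 0) (nat_lit 20900) (XT.lf (nat_lit 0) (nat_lit 3834267788) (nat_lit 152) (nat_lit 4206754383) (nat_lit 228) (nat_lit 10029068565) (nat_lit 20) (nat_lit 5) (nat_lit 22) (nat_lit 5) (nat_lit 23) (nat_lit 5) (nat_lit 387) (nat_lit 282) (nat_lit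 231)) (XT.nd (nat_lit 78) (nat_lit 836) (nat_lit 0) (XT.lf (nat_lit 0) (nat_lit 1229056962) (nat_lit 760) (nat_lit 1404879740) (nat_lit 0) (nat_lit 1229056962) (nat_lit 306) (nat_lit 5) (nat_lit 316) (nat_lit 4) (nat_lit 306) (nat_lit 4) (nat_lit 334) (nat_lit 283) (nat_lit 283)) (XT.lf (nat_lit 0) (nat_lit 150877549) (nat_lit 836) (nat_lit 1694472563) (nat_lit 76) (nat_lit 5959902925) (nat_lit 295) (nat_lit 5) (nat_lit 306) (nat_lit 5) (nat_lit 296) (nat_lit 4) (nat_lit 335) (nat_lit 283) (nat_lit 282)))))) (XT.nd (nat_lit 390) (nat_lit 4028) (nat_lit 0) (XT.nd (nat_lit 156) (nat_lit 2052) (nat_lit 0) (XT.nd (nat_lit 78) (nat_lit 1368) (nat_lit 0) (XT.lf (nat_lit 0) (nat_lit 5593182780) (nat_lit 760) (nat_lit 564236229) (nat_lit 0) (nat_lit 1730182796) (nat_lit 286) (nat_lit 5) (nat_lit 296) (nat_lit 4) (nat_lit 286) (nat_lit 4) (nat_lit 336) (nat_lit 283) (nat_lit 281)) (XT.lf (nat_lit 0) (nat_lit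 599946343) (nat_lit 608) (nat_lit 2524051721) (nat_lit 684) (nat_lit 4849254697) (nat_lit 268) (nat_lit 5) (nat_lit 276) (nat_lit 5) (nat_lit 277) (nat_lit 4) (nat_lit 337) (nat_lit 283) (nat_lit 280))) (XT.nd (nat_lit 78) (nat_lit 1292) (nat_lit 0) (XT.lf (nat_lit 0) (nat_lit 543108919) (nat_lit 760) (nat_lit 6260025830) (nat_lit 76) (nat_lit 1259233036) (nat_lit 258) (nat_lit 5) (nat_lit 268) (nat_lit 5) (nat_lit 259) (nat_lit 4) (nat_lit 338) (nat_lit 283) (nat_lit 279)) (XT.nd (nat_lit 78) (nat_lit 684) (nat_lit 0) (XT.lf (nat_lit 0) (nat_lit 3011259400) (nat_lit 608) (nat_lit 2966806291) (nat_lit 684) (nat_lit 2176561790) (nat_lit 250) (nat_lit 5) (nat_lit 258) (nat_lit 5) (nat_lit 259) (nat_lit 4) (nat_lit 339) (nat_lit 283) (nat_lit 278)) (XT.lf (nat_lit 0) (nat_lit 3221434407) (nat_lit 684) (nat_lit 4004499322) (nat_lit 76) (nat_lit 1024560546) (nat_lit 241) (nat_lit 5) (nat_lit 250) (nat_lit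 5) (nat_lit 242) (nat_lit 4) (nat_lit 340) (nat_lit 283) (nat_lit 277))))) (XT.nd (nat_lit 234) (nat_lit 2204) (nat_lit 0) (XT.nd (nat_lit 78) (nat_lit 1216) (nat_lit 0) (XT.lf (nat_lit 0) (nat_lit 352237946) (nat_lit 608) (nat_lit 2854012564) (nat_lit 76) (nat_lit 5143595109) (nat_lit 233) (nat_lit 5) (nat_lit 241) (nat_lit 5) (nat_lit 234) (nat_lit 5) (nat_lit 341) (nat_lit 283) (nat_lit 276)) (XT.nd (nat_lit 78) (nat_lit 608) (nat_lit 0) (XT.lf (nat_lit 0) (nat_lit 5770852158) (nat_lit 684) (nat_lit 1697164592) (nat_lit 76) (nat_lit 984652657) (nat_lit 225) (nat_lit 5) (nat_lit 234) (nat_lit 5) (nat_lit 226) (nat_lit 4) (nat_lit 342) (nat_lit 283) (nat_lit 275)) (XT.lf (nat_lit 0) (nat_lit 2718241443) (nat_lit 608) (nat_lit 535813980) (nat_lit 76) (nat_lit 5304969959) (nat_lit 217) (nat_lit 5) (nat_lit 225) (nat_lit 5) (nat_lit 218) (nat_lit 5) (nat_lit 343) (nat_lit 283) (nat_lit 274)))) (XT.nd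 (nat_lit 78) (nat_lit 1140) (nat_lit 0) (XT.lf (nat_lit 0) (nat_lit 650554100) (nat_lit 532) (nat_lit 7547587840) (nat_lit 608) (nat_lit 471027756) (nat_lit 203) (nat_lit 5) (nat_lit 210) (nat_lit 5) (nat_lit 211) (nat_lit 4) (nat_lit 344) (nat_lit 283) (nat_lit 273)) (XT.nd (nat_lit 78) (nat_lit 532) (nat_lit 0) (XT.lf (nat_lit 0) (nat_lit 1828880921) (nat_lit 532) (nat_lit 3134712488) (nat_lit 608) (nat_lit 3819001125) (nat_lit 195) (nat_lit 5) (nat_lit 202) (nat_lit 5) (nat_lit 203) (nat_lit 5) (nat_lit 345) (nat_lit 283) (nat_lit 272)) (XT.lf (nat_lit 0) (nat_lit 1590068595) (nat_lit 532) (nat_lit 5878771672) (nat_lit 76) (nat_lit 1431213034) (nat_lit 188) (nat_lit 5) (nat_lit 195) (nat_lit 5) (nat_lit 189) (nat_lit 5) (nat_lit 346) (nat_lit 283) (nat_lit 271))))))))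
noncomputable def xc18 : XT := (XT.nd (nat_lit 1560) (nat_lit 4256) (nat_lit 0) (XT.nd (nat_lit 780) (nat_lit 3496) (nat_lit 0) (XT.nd (nat_lit 390) (nat_lit 2432) (nat_lit 0) (XT.nd (nat_lit 156) (nat_lit 1444) (nat_lit 0) (XT.nd (nat_lit 78) (nat_lit 532) (nat_lit 0) (XT.lf (nat_lit 0) (nat_lit 4201732926) (nat_lit 456) (nat_lit 2878497593) (nat_lit 532) (nat_lit 1940919498) (nat_lit 182) (nat_lit 5) (nat_lit 188) (nat_lit 5) (nat_lit 189) (nat_lit 5) (nat_lit 347) (nat_lit 283) (nat_lit 270)) (XT.lf (nat_lit 0) (nat_lit 3505973595) (nat_lit 532) (nat_lit 3767531966) (nat_lit 76) (nat_lit 1872662981) (nat_lit 175) (nat_lit 5) (nat_lit 182) (nat_lit 5) (nat_lit 176) (nat_lit 5) (nat_lit 348) (nat_lit 283) (nat_lit 269))) (XT.nd (nat_lit 78) (nat_lit 988) (nat_lit 0) (XT.lf (nat_lit 0) (nat_lit 6552572864) (nat_lit 456) (nat_lit 2510692763) (nat_lit 532) (nat_lit 211978823) (nat_lit 169) (nat_lit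 5) (nat_lit 175) (nat_lit 5) (nat_lit 176) (nat_lit 5) (nat_lit 349) (nat_lit 283) (nat_lit 268)) (XT.nd (nat_lit 78) (nat_lit 532) (nat_lit 0) (XT.lf (nat_lit 0) (nat_lit 5280423397) (nat_lit 456) (nat_lit 1706048197) (nat_lit 76) (nat_lit 2421613975) (nat_lit 163) (nat_lit 5) (nat_lit 169) (nat_lit 5) (nat_lit 164) (nat_lit 5) (nat_lit 350) (nat_lit 283) (nat_lit 267)) (XT.lf (nat_lit 0) (nat_lit 1346470517) (nat_lit 532) (nat_lit 697448170) (nat_lit 76) (nat_lit 7501315210) (nat_lit 156) (nat_lit 5) (nat_lit 163) (nat_lit 5) (nat_lit 157) (nat_lit 5) (nat_lit 351) (nat_lit 283) (nat_lit 266))))) (XT.nd (nat_lit 156) (nat_lit 1216) (nat_lit 0) (XT.nd (nat_lit 78) (nat_lit 456) (nat_lit 0) (XT.lf (nat_lit 0) (nat_lit 283475238) (nat_lit 380) (nat_lit 6627729113) (nat_lit 456) (nat_lit 2775124487) (nat_lit 146) (nat_lit 5) (nat_lit 151) (nat_lit 5) (nat_lit 152) (nat_lit 5) (nat_lit 352) (nat_lit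 283) (nat_lit 265)) (XT.lf (nat_lit 0) (nat_lit 1254237640) (nat_lit 380) (nat_lit 1500370103) (nat_lit 456) (nat_lit 7077104418) (nat_lit 140) (nat_lit 5) (nat_lit 145) (nat_lit 5) (nat_lit 146) (nat_lit 5) (nat_lit 353) (nat_lit 283) (nat_lit 264))) (XT.nd (nat_lit 78) (nat_lit 836) (nat_lit 0) (XT.lf (nat_lit 0) (nat_lit 2190695635) (nat_lit 380) (nat_lit 6210571442) (nat_lit 456) (nat_lit 1580073183) (nat_lit 135) (nat_lit 5) (nat_lit 140) (nat_lit 5) (nat_lit 141) (nat_lit 5) (nat_lit 354) (nat_lit 283) (nat_lit 263)) (XT.nd (nat_lit 78) (nat_lit 380) (nat_lit 0) (XT.lf (nat_lit 0) (nat_lit 3095934107) (nat_lit 380) (nat_lit 908110247) (nat_lit 456) (nat_lit 6131392319) (nat_lit 129) (nat_lit 5) (nat_lit 134) (nat_lit 5) (nat_lit 135) (nat_lit 5) (nat_lit 355) (nat_lit 283) (nat_lit 262)) (XT.lf (nat_lit 0) (nat_lit 3962310697) (nat_lit 380) (nat_lit 5769329317) (nat_lit 456) (nat_lit 562381669)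 (nat_lit 124) (nat_lit 5) (nat_lit 129) (nat_lit 5) (nat_lit 130) (nat_lit 5) (nat_lit 356) (nat_lit 283) (nat_lit 261)))))) (XT.nd (nat_lit 390) (nat_lit 1672) (nat_lit 0) (XT.nd (nat_lit 156) (nat_lit 988) (nat_lit 0) (XT.nd (nat_lit 78) (nat_lit 456) (nat_lit 0) (XT.lf (nat_lit 0) (nat_lit 4786402752) (nat_lit 304) (nat_lit 294873215) (nat_lit 380) (nat_lit 5375929753) (nat_lit 119) (nat_lit 5) (nat_lit 123) (nat_lit 5) (nat_lit 124) (nat_lit 5) (nat_lit 357) (nat_lit 283) (nat_lit 260)) (XT.lf (nat_lit 0) (nat_lit 264023510) (nat_lit 456) (nat_lit 5061835577) (nat_lit 76) (nat_lit 5299217561) (nat_lit 113) (nat_lit 5) (nat_lit 119) (nat_lit 5) (nat_lit 114) (nat_lit 5) (nat_lit 358) (nat_lit 283) (nat_lit 259))) (XT.nd (nat_lit 78) (nat_lit 684) (nat_lit 0) (XT.lf (nat_lit 0) (nat_lit 5977421128) (nat_lit 380) (nat_lit 4509017287) (nat_lit 76) (nat_lit 311309169) (nat_lit 109) (nat_lit 5) (nat_lit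 114) (nat_lit 5) (nat_lit 110) (nat_lit 5) (nat_lit 359) (nat_lit 283) (nat_lit 258)) (XT.nd (nat_lit 78) (nat_lit 304) (nat_lit 0) (XT.lf (nat_lit 0) (nat_lit 885350619) (nat_lit 380) (nat_lit 4018789551) (nat_lit 76) (nat_lit 6071155486) (nat_lit 104) (nat_lit 5) (nat_lit 109) (nat_lit 5) (nat_lit 105) (nat_lit 5) (nat_lit 360) (nat_lit 283) (nat_lit 257)) (XT.lf (nat_lit 0) (nat_lit 6679074291) (nat_lit 380) (nat_lit 3592731033) (nat_lit 76) (nat_lit 886098999) (nat_lit 100) (nat_lit 5) (nat_lit 105) (nat_lit 5) (nat_lit 101) (nat_lit 5) (nat_lit 361) (nat_lit 283) (nat_lit 256))))) (XT.nd (nat_lit 156) (nat_lit 988) (nat_lit 0) (XT.nd (nat_lit 78) (nat_lit 304) (nat_lit 0) (XT.lf (nat_lit 0) (nat_lit 1294321994) (nat_lit 380) (nat_lit 3239500702) (nat_lit 76) (nat_lit 6811802249) (nat_lit 95) (nat_lit 5) (nat_lit 100) (nat_lit 5) (nat_lit 96) (nat_lit 5) (nat_lit 362) (nat_lit 283) (nat_lit 255))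 (XT.lf (nat_lit 0) (nat_lit 7168729433) (nat_lit 380) (nat_lit 2962490831) (nat_lit 76) (nat_lit 1407403900) (nat_lit 91) (nat_lit 5) (nat_lit 96) (nat_lit 5) (nat_lit 92) (nat_lit 5) (nat_lit 363) (nat_lit 283) (nat_lit 254))) (XT.nd (nat_lit 78) (nat_lit 608) (nat_lit 0) (XT.lf (nat_lit 0) (nat_lit 1473836898) (nat_lit 380) (nat_lit 2768494281) (nat_lit 76) (nat_lit 7494679858) (nat_lit 86) (nat_lit 5) (nat_lit 91) (nat_lit 5) (nat_lit 87) (nat_lit 5) (nat_lit 364) (nat_lit 283) (nat_lit 253)) (XT.nd (nat_lit 78) (nat_lit 380) (nat_lit 0) (XT.lf (nat_lit 0) (nat_lit 7428263785) (nat_lit 304) (nat_lit 2664943944) (nat_lit 76) (nat_lit 1847685008) (nat_lit 83) (nat_lit 5) (nat_lit 87) (nat_lit 5) (nat_lit 84) (nat_lit 5) (nat_lit 365) (nat_lit 283) (nat_lit 252)) (XT.lf (nat_lit 0) (nat_lit 1404142186) (nat_lit 380) (nat_lit 2654726347) (nat_lit 76) (nat_lit 8091610262) (nat_lit 78) (nat_lit 5) (nat_lit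 83) (nat_lit 5) (nat_lit 79) (nat_lit 5) (nat_lit 366) (nat_lit 283) (nat_lit 251))))))) (XT.nd (nat_lit 780) (nat_lit 1824) (nat_lit 0) (XT.nd (nat_lit 390) (nat_lit 1140) (nat_lit 0) (XT.nd (nat_lit 156) (nat_lit 760) (nat_lit 0) (XT.nd (nat_lit 78) (nat_lit 304) (nat_lit 0) (XT.lf (nat_lit 0) (nat_lit 7436805877) (nat_lit 304) (nat_lit 2751430875) (nat_lit 76) (nat_lit 2177539914) (nat_lit 75) (nat_lit 5) (nat_lit 79) (nat_lit 5) (nat_lit 76) (nat_lit 5) (nat_lit 367) (nat_lit 283) (nat_lit 250)) (XT.lf (nat_lit 0) (nat_lit 1062601442) (nat_lit 304) (nat_lit 2952114963) (nat_lit 76) (nat_lit 8572420587) (nat_lit 71) (nat_lit 5) (nat_lit 75) (nat_lit 5) (nat_lit 72) (nat_lit 5) (nat_lit 368) (nat_lit 283) (nat_lit 249))) (XT.nd (nat_lit 78) (nat_lit 532) (nat_lit 0) (XT.lf (nat_lit 0) (nat_lit 7170491206) (nat_lit 304) (nat_lit 3278541538) (nat_lit 76) (nat_lit 2365396705) (nat_lit 68) (nat_lit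 5) (nat_lit 72) (nat_lit 5) (nat_lit 69) (nat_lit 5) (nat_lit 369) (nat_lit 283) (nat_lit 248)) (XT.nd (nat_lit 78) (nat_lit 228) (nat_lit 0) (XT.lf (nat_lit 0) (nat_lit 423435967) (nat_lit 304) (nat_lit 3720123111) (nat_lit 76) (nat_lit 8904625420) (nat_lit 64) (nat_lit 5) (nat_lit 68) (nat_lit 5) (nat_lit 65) (nat_lit 5) (nat_lit 370) (nat_lit 283) (nat_lit 247)) (XT.lf (nat_lit 0) (nat_lit 6602188497) (nat_lit 304) (nat_lit 4308725936) (nat_lit 76) (nat_lit 2377183528) (nat_lit 61) (nat_lit 5) (nat_lit 65) (nat_lit 5) (nat_lit 62) (nat_lit 5) (nat_lit 371) (nat_lit 283) (nat_lit 246))))) (XT.nd (nat_lit 156) (nat_lit 684) (nat_lit 0) (XT.nd (nat_lit 78) (nat_lit 228) (nat_lit 0) (XT.lf (nat_lit 0) (nat_lit 8506877236) (nat_lit 228) (nat_lit 4478193081) (nat_lit 304) (nat_lit 549775421) (nat_lit 58) (nat_lit 5) (nat_lit 61) (nat_lit 5) (nat_lit 62) (nat_lit 5) (nat_lit 372) (nat_lit 283) (nat_lit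 245)) (XT.lf (nat_lit 0) (nat_lit 5701193793) (nat_lit 228) (nat_lit 5910965322) (nat_lit 76) (nat_lit 2175970546) (nat_lit 55) (nat_lit 5) (nat_lit 58) (nat_lit 5) (nat_lit 56) (nat_lit 5) (nat_lit 373) (nat_lit 283) (nat_lit 244))) (XT.nd (nat_lit 78) (nat_lit 456) (nat_lit 0) (XT.lf (nat_lit 0) (nat_lit 7098717417) (nat_lit 228) (nat_lit 5056574412) (nat_lit 304) (nat_lit 1893197526) (nat_lit 52) (nat_lit 5) (nat_lit 55) (nat_lit 5) (nat_lit 56) (nat_lit 5) (nat_lit 374) (nat_lit 283) (nat_lit 243)) (XT.nd (nat_lit 78) (nat_lit 228) (nat_lit 0) (XT.lf (nat_lit 0) (nat_lit 4432889272) (nat_lit 228) (nat_lit 8161510421) (nat_lit 76) (nat_lit 1721580836) (nat_lit 49) (nat_lit 5) (nat_lit 52) (nat_lit 5) (nat_lit 50) (nat_lit 5) (nat_lit 375) (nat_lit 283) (nat_lit 242)) (XT.lf (nat_lit 0) (nat_lit 5027486497) (nat_lit 228) (nat_lit 5924414451) (nat_lit 304) (nat_lit 3638778399) (nat_lit 46) (nat_lit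 5) (nat_lit 49) (nat_lit 5) (nat_lit 50) (nat_lit 5) (nat_lit 376) (nat_lit 283) (nat_lit 241)))))) (XT.nd (nat_lit 390) (nat_lit 988) (nat_lit 0) (XT.nd (nat_lit 156) (nat_lit 380) (nat_lit 0) (XT.nd (nat_lit 78) (nat_lit 228) (nat_lit 0) (XT.lf (nat_lit 0) (nat_lit 2758363359) (nat_lit 228) (nat_lit 11144693984) (nat_lit 76) (nat_lit 970166508) (nat_lit 43) (nat_lit 5) (nat_lit 46) (nat_lit 5) (nat_lit 44) (nat_lit 5) (nat_lit 377) (nat_lit 283) (nat_lit 240)) (XT.lf (nat_lit 0) (nat_lit 2205822723) (nat_lit 228) (nat_lit 7128552174) (nat_lit 304) (nat_lit 5828670565) (nat_lit 40) (nat_lit 5) (nat_lit 43) (nat_lit 5) (nat_lit 44) (nat_lit 5) (nat_lit 378) (nat_lit 283) (nat_lit 239))) (XT.nd (nat_lit 78) (nat_lit 152) (nat_lit 0) (XT.lf (nat_lit 0) (nat_lit 506887030) (nat_lit 152) (nat_lit 127931918) (nat_lit 228) (nat_lit 14826724317) (nat_lit 37) (nat_lit 5) (nat_lit 39) (nat_lit 5) (nat_lit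 40) (nat_lit 5) (nat_lit 379) (nat_lit 283) (nat_lit 238)) (XT.nd (nat_lit 78) (nat_lit 152) (nat_lit 0) (XT.lf (nat_lit 0) (nat_lit 7266792322) (nat_lit 228) (nat_lit 1443805285) (nat_lit 76) (nat_lit 7056561416) (nat_lit 37) (nat_lit 5) (nat_lit 40) (nat_lit 5) (nat_lit 38) (nat_lit 5) (nat_lit 380) (nat_lit 283) (nat_lit 237)) (XT.lf (nat_lit 0) (nat_lit 12496280482) (nat_lit 152) (nat_lit 1604742075) (nat_lit 228) (nat_lit 1980863415) (nat_lit 35) (nat_lit 5) (nat_lit 37) (nat_lit 5) (nat_lit 38) (nat_lit 5) (nat_lit 381) (nat_lit 283) (nat_lit 236))))) (XT.nd (nat_lit 234) (nat_lit 380) (nat_lit 0) (XT.nd (nat_lit 78) (nat_lit 380) (nat_lit 0) (XT.lf (nat_lit 0) (nat_lit 4709364255) (nat_lit 228) (nat_lit 6006243080) (nat_lit 76) (nat_lit 5689096298) (nat_lit 32) (nat_lit 5) (nat_lit 35) (nat_lit 5) (nat_lit 33) (nat_lit 5) (nat_lit 382) (nat_lit 283) (nat_lit 235)) (XT.nd (nat_lit 78) (nat_lit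 228) (nat_lit 0) (XT.lf (nat_lit 0) (nat_lit 8059141059) (nat_lit 152) (nat_lit 3525105835) (nat_lit 228) (nat_lit 5152487868) (nat_lit 30) (nat_lit 5) (nat_lit 32) (nat_lit 5) (nat_lit 33) (nat_lit 5) (nat_lit 383) (nat_lit 283) (nat_lit 234)) (XT.lf (nat_lit 0) (nat_lit 1591800373) (nat_lit 228) (nat_lit 11627484650) (nat_lit 76) (nat_lit 3858724188) (nat_lit 27) (nat_lit 5) (nat_lit 30) (nat_lit 5) (nat_lit 28) (nat_lit 5) (nat_lit 384) (nat_lit 283) (nat_lit 233)))) (XT.nd (nat_lit 78) (nat_lit 228) (nat_lit 0) (XT.lf (nat_lit 0) (nat_lit 2533183511) (nat_lit 152) (nat_lit 5959855072) (nat_lit 228) (nat_lit 8935317087) (nat_lit 25) (nat_lit 5) (nat_lit 27) (nat_lit 5) (nat_lit 28) (nat_lit 5) (nat_lit 385) (nat_lit 283) (nat_lit 232)) (XT.nd (nat_lit 78) (nat_lit 228) (nat_lit 0) (XT.lf (nat_lit 0) (nat_lit 15616434442) (nat_lit 228) (nat_lit 653636353) (nat_lit 76) (nat_lit 1518846505) (nat_lit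 25) (nat_lit 5) (nat_lit 28) (nat_lit 5) (nat_lit 26) (nat_lit 4) (nat_lit 386) (nat_lit 283) (nat_lit 231)) (XT.lf (nat_lit 0) (nat_lit 4789815062) (nat_lit 228) (nat_lit 4160911510) (nat_lit 76) (nat_lit 9207764775) (nat_lit 22) (nat_lit 5) (nat_lit 25) (nat_lit 5) (nat_lit 23) (nat_lit 5) (nat_lit 387) (nat_lit 283) (nat_lit 230))))))))
noncomputable def xc19 : XT := (XT.nd (nat_lit 1560) (nat_lit 7448) (nat_lit 0) (XT.nd (nat_lit 780) (nat_lit 5852) (nat_lit 0) (XT.nd (nat_lit 390) (nat_lit 4028) (nat_lit 0) (XT.nd (nat_lit 156) (nat_lit 2280) (nat_lit 0) (XT.nd (nat_lit 78) (nat_lit 760) (nat_lit 0) (XT.lf (nat_lit 0) (nat_lit 681289416) (nat_lit 836) (nat_lit 2425474904) (nat_lit 0) (nat_lit 681289416) (nat_lit 326) (nat_lit 5) (nat_lit 337) (nat_lit 4) (nat_lit 326) (nat_lit 4) (nat_lit 332) (nat_lit 284) (nat_lit 284)) (XT.lf (nat_lit 0) (nat_lit 3760976429) (nat_lit 760) (nat_lit 2994791091)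 (nat_lit 760) (nat_lit 894384070) (nat_lit 316) (nat_lit 4) (nat_lit 326) (nat_lit 5) (nat_lit 326) (nat_lit 4) (nat_lit 333) (nat_lit 284) (nat_lit 283))) (XT.nd (nat_lit 78) (nat_lit 1520) (nat_lit 0) (XT.lf (nat_lit 0) (nat_lit 4444338073) (nat_lit 760) (nat_lit 2897266225) (nat_lit 0) (nat_lit 385870290) (nat_lit 306) (nat_lit 5) (nat_lit 316) (nat_lit 4) (nat_lit 306) (nat_lit 4) (nat_lit 334) (nat_lit 284) (nat_lit 282)) (XT.nd (nat_lit 78) (nat_lit 684) (nat_lit 0) (XT.lf (nat_lit 0) (nat_lit 2037074352) (nat_lit 836) (nat_lit 1884592360) (nat_lit 76) (nat_lit 3886292033) (nat_lit 295) (nat_lit 5) (nat_lit 306) (nat_lit 5) (nat_lit 296) (nat_lit 4) (nat_lit 335) (nat_lit 284) (nat_lit 281)) (XT.lf (nat_lit 0) (nat_lit 7056673271) (nat_lit 684) (nat_lit 339681275) (nat_lit 760) (nat_lit 495638689) (nat_lit 286) (nat_lit 5) (nat_lit 295) (nat_lit 5) (nat_lit 296) (nat_lit 4) (nat_lit 336) (nat_lit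 284) (nat_lit 280))))) (XT.nd (nat_lit 156) (nat_lit 1900) (nat_lit 0) (XT.nd (nat_lit 78) (nat_lit 760) (nat_lit 0) (XT.lf (nat_lit 0) (nat_lit 219860163) (nat_lit 608) (nat_lit 4603384285) (nat_lit 684) (nat_lit 3155709023) (nat_lit 268) (nat_lit 5) (nat_lit 276) (nat_lit 5) (nat_lit 277) (nat_lit 4) (nat_lit 337) (nat_lit 284) (nat_lit 279)) (XT.lf (nat_lit 0) (nat_lit 1321537559) (nat_lit 684) (nat_lit 812968218) (nat_lit 760) (nat_lit 5934964408) (nat_lit 258) (nat_lit 5) (nat_lit 267) (nat_lit 5) (nat_lit 268) (nat_lit 5) (nat_lit 338) (nat_lit 284) (nat_lit 278))) (XT.nd (nat_lit 78) (nat_lit 1292) (nat_lit 0) (XT.lf (nat_lit 0) (nat_lit 2435167820) (nat_lit 608) (nat_lit 5058129719) (nat_lit 684) (nat_lit 669977824) (nat_lit 250) (nat_lit 5) (nat_lit 258) (nat_lit 5) (nat_lit 259) (nat_lit 4) (nat_lit 339) (nat_lit 284) (nat_lit 277)) (XT.nd (nat_lit 78) (nat_lit 608) (nat_lit 0) (XT.lf (nat_lit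 0) (nat_lit 3563898455) (nat_lit 608) (nat_lit 1066951076) (nat_lit 684) (nat_lit 3629666301) (nat_lit 241) (nat_lit 5) (nat_lit 249) (nat_lit 5) (nat_lit 250) (nat_lit 5) (nat_lit 340) (nat_lit 284) (nat_lit 276)) (XT.lf (nat_lit 0) (nat_lit 1655814412) (nat_lit 608) (nat_lit 3654819431) (nat_lit 76) (nat_lit 3050620990) (nat_lit 233) (nat_lit 5) (nat_lit 241) (nat_lit 5) (nat_lit 234) (nat_lit 5) (nat_lit 341) (nat_lit 284) (nat_lit 275)))))) (XT.nd (nat_lit 390) (nat_lit 2432) (nat_lit 0) (XT.nd (nat_lit 156) (nat_lit 2204) (nat_lit 0) (XT.nd (nat_lit 78) (nat_lit 608) (nat_lit 0) (XT.lf (nat_lit 0) (nat_lit 5864828691) (nat_lit 608) (nat_lit 1133264266) (nat_lit 684) (nat_lit 1467531891) (nat_lit 225) (nat_lit 5) (nat_lit 233) (nat_lit 5) (nat_lit 234) (nat_lit 5) (nat_lit 342) (nat_lit 284) (nat_lit 274)) (XT.lf (nat_lit 0) (nat_lit 3839422814) (nat_lit 608) (nat_lit 1551478521) (nat_lit 76)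 (nat_lit 3182483951) (nat_lit 217) (nat_lit 5) (nat_lit 225) (nat_lit 5) (nat_lit 218) (nat_lit 5) (nat_lit 343) (nat_lit 284) (nat_lit 273))) (XT.nd (nat_lit 78) (nat_lit 1596) (nat_lit 0) (XT.lf (nat_lit 0) (nat_lit 546116327) (nat_lit 608) (nat_lit 484204623) (nat_lit 76) (nat_lit 7654770543) (nat_lit 209) (nat_lit 5) (nat_lit 217) (nat_lit 5) (nat_lit 210) (nat_lit 5) (nat_lit 344) (nat_lit 284) (nat_lit 272)) (XT.nd (nat_lit 78) (nat_lit 532) (nat_lit 0) (XT.lf (nat_lit 0) (nat_lit 573263308) (nat_lit 532) (nat_lit 5321423759) (nat_lit 608) (nat_lit 2905382721) (nat_lit 195) (nat_lit 5) (nat_lit 202) (nat_lit 5) (nat_lit 203) (nat_lit 5) (nat_lit 345) (nat_lit 284) (nat_lit 271)) (XT.lf (nat_lit 0) (nat_lit 1648672155) (nat_lit 456) (nat_lit 763654352) (nat_lit 532) (nat_lit 6506687313) (nat_lit 188) (nat_lit 5) (nat_lit 194) (nat_lit 5) (nat_lit 195) (nat_lit 5) (nat_lit 346) (nat_lit 284) (nat_lit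 270))))) (XT.nd (nat_lit 156) (nat_lit 1444) (nat_lit 0) (XT.nd (nat_lit 78) (nat_lit 532) (nat_lit 0) (XT.lf (nat_lit 0) (nat_lit 2710831028) (nat_lit 456) (nat_lit 5117108925) (nat_lit 532) (nat_lit 1213677412) (nat_lit 182) (nat_lit 5) (nat_lit 188) (nat_lit 5) (nat_lit 189) (nat_lit 5) (nat_lit 347) (nat_lit 284) (nat_lit 269)) (XT.lf (nat_lit 0) (nat_lit 3769683115) (nat_lit 456) (nat_lit 372035857) (nat_lit 532) (nat_lit 5026476758) (nat_lit 175) (nat_lit 5) (nat_lit 181) (nat_lit 5) (nat_lit 182) (nat_lit 5) (nat_lit 348) (nat_lit 284) (nat_lit 268))) (XT.nd (nat_lit 78) (nat_lit 912) (nat_lit 0) (XT.lf (nat_lit 0) (nat_lit 324211561) (nat_lit 532) (nat_lit 4483412259) (nat_lit 76) (nat_lit 4491055199) (nat_lit 168) (nat_lit 5) (nat_lit 175) (nat_lit 5) (nat_lit 169) (nat_lit 5) (nat_lit 349) (nat_lit 284) (nat_lit 267)) (XT.nd (nat_lit 78) (nat_lit 532) (nat_lit 0) (XT.lf (nat_lit 0) (nat_lit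 5729218030) (nat_lit 456) (nat_lit 3585571212) (nat_lit 76) (nat_lit 118409634) (nat_lit 163) (nat_lit 5) (nat_lit 169) (nat_lit 5) (nat_lit 164) (nat_lit 5) (nat_lit 350) (nat_lit 284) (nat_lit 266)) (XT.lf (nat_lit 0) (nat_lit 1694861480) (nat_lit 532) (nat_lit 2714699188) (nat_lit 76) (nat_lit 5162139472) (nat_lit 156) (nat_lit 5) (nat_lit 163) (nat_lit 5) (nat_lit 157) (nat_lit 5) (nat_lit 351) (nat_lit 284) (nat_lit 265))))))) (XT.nd (nat_lit 780) (nat_lit 3192) (nat_lit 0) (XT.nd (nat_lit 390) (nat_lit 1824) (nat_lit 0) (XT.nd (nat_lit 156) (nat_lit 1596) (nat_lit 0) (XT.nd (nat_lit 78) (nat_lit 456) (nat_lit 0) (XT.lf (nat_lit 0) (nat_lit 7172700560) (nat_lit 456) (nat_lit 1859891934) (nat_lit 76) (nat_lit 681953374) (nat_lit 151) (nat_lit 5) (nat_lit 157) (nat_lit 5) (nat_lit 152) (nat_lit 5) (nat_lit 352) (nat_lit 284) (nat_lit 264)) (XT.lf (nat_lit 0) (nat_lit 2908755486) (nat_lit 456) (nat_lit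 1043880609) (nat_lit 76) (nat_lit 5908796514) (nat_lit 145) (nat_lit 5) (nat_lit 151) (nat_lit 5) (nat_lit 146) (nat_lit 5) (nat_lit 353) (nat_lit 284) (nat_lit 263))) (XT.nd (nat_lit 78) (nat_lit 1216) (nat_lit 0) (XT.lf (nat_lit 0) (nat_lit 8463649758) (nat_lit 456) (nat_lit 247170557) (nat_lit 76) (nat_lit 1302087609) (nat_lit 140) (nat_lit 5) (nat_lit 146) (nat_lit 5) (nat_lit 141) (nat_lit 5) (nat_lit 354) (nat_lit 284) (nat_lit 262)) (XT.nd (nat_lit 78) (nat_lit 380) (nat_lit 0) (XT.lf (nat_lit 0) (nat_lit 506399637) (nat_lit 380) (nat_lit 3455593916) (nat_lit 456) (nat_lit 6206467357) (nat_lit 129) (nat_lit 5) (nat_lit 134) (nat_lit 5) (nat_lit 135) (nat_lit 5) (nat_lit 355) (nat_lit 284) (nat_lit 261)) (XT.lf (nat_lit 0) (nat_lit 1238389586) (nat_lit 380) (nat_lit 8363823824) (nat_lit 456) (nat_lit 726591036) (nat_lit 124) (nat_lit 5) (nat_lit 129) (nat_lit 5) (nat_lit 130) (nat_lit 5) (nat_lit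 356) (nat_lit 284) (nat_lit 260))))) (XT.nd (nat_lit 156) (nat_lit 1064) (nat_lit 0) (XT.nd (nat_lit 78) (nat_lit 380) (nat_lit 0) (XT.lf (nat_lit 0) (nat_lit 1909481333) (nat_lit 304) (nat_lit 2938577084) (nat_lit 380) (nat_lit 5645385105) (nat_lit 119) (nat_lit 5) (nat_lit 123) (nat_lit 5) (nat_lit 124) (nat_lit 5) (nat_lit 357) (nat_lit 284) (nat_lit 259)) (XT.lf (nat_lit 0) (nat_lit 2548372225) (nat_lit 380) (nat_lit 8022641248) (nat_lit 456) (nat_lit 92114144) (nat_lit 114) (nat_lit 5) (nat_lit 119) (nat_lit 5) (nat_lit 120) (nat_lit 5) (nat_lit 358) (nat_lit 284) (nat_lit 258))) (XT.nd (nat_lit 78) (nat_lit 684) (nat_lit 0) (XT.lf (nat_lit 0) (nat_lit 3116410135) (nat_lit 304) (nat_lit 2432402547) (nat_lit 380) (nat_lit 5288481095) (nat_lit 109) (nat_lit 5) (nat_lit 113) (nat_lit 5) (nat_lit 114) (nat_lit 5) (nat_lit 359) (nat_lit 284) (nat_lit 257)) (XT.nd (nat_lit 78) (nat_lit 304) (nat_lit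 0) (XT.lf (nat_lit 0) (nat_lit 335163693) (nat_lit 380) (nat_lit 7376058301) (nat_lit 76) (nat_lit 3305453308) (nat_lit 104) (nat_lit 5) (nat_lit 109) (nat_lit 5) (nat_lit 105) (nat_lit 5) (nat_lit 360) (nat_lit 284) (nat_lit 256)) (XT.lf (nat_lit 0) (nat_lit 4088838382) (nat_lit 304) (nat_lit 1961989901) (nat_lit 380) (nat_lit 5150025819) (nat_lit 100) (nat_lit 5) (nat_lit 104) (nat_lit 5) (nat_lit 105) (nat_lit 5) (nat_lit 361) (nat_lit 284) (nat_lit 255)))))) (XT.nd (nat_lit 390) (nat_lit 1520) (nat_lit 0) (XT.nd (nat_lit 156) (nat_lit 988) (nat_lit 0) (XT.nd (nat_lit 78) (nat_lit 304) (nat_lit 0) (XT.lf (nat_lit 0) (nat_lit 546157164) (nat_lit 380) (nat_lit 6912281136) (nat_lit 76) (nat_lit 3931947536) (nat_lit 95) (nat_lit 5) (nat_lit 100) (nat_lit 5) (nat_lit 96) (nat_lit 5) (nat_lit 362) (nat_lit 284) (nat_lit 254)) (XT.lf (nat_lit 0) (nat_lit 4784731858) (nat_lit 304) (nat_lit 1553617415)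 (nat_lit 380) (nat_lit 5246688359) (nat_lit 91) (nat_lit 5) (nat_lit 95) (nat_lit 5) (nat_lit 96) (nat_lit 5) (nat_lit 363) (nat_lit 284) (nat_lit 253))) (XT.nd (nat_lit 78) (nat_lit 608) (nat_lit 0) (XT.lf (nat_lit 0) (nat_lit 524637974) (nat_lit 380) (nat_lit 6767678155) (nat_lit 76) (nat_lit 4492908196) (nat_lit 86) (nat_lit 5) (nat_lit 91) (nat_lit 5) (nat_lit 87) (nat_lit 5) (nat_lit 364) (nat_lit 284) (nat_lit 252)) (XT.nd (nat_lit 78) (nat_lit 380) (nat_lit 0) (XT.lf (nat_lit 0) (nat_lit 5157909903) (nat_lit 228) (nat_lit 1235189851) (nat_lit 304) (nat_lit 5597733215) (nat_lit 83) (nat_lit 5) (nat_lit 86) (nat_lit 5) (nat_lit 87) (nat_lit 5) (nat_lit 365) (nat_lit 284) (nat_lit 251)) (XT.lf (nat_lit 0) (nat_lit 250517658) (nat_lit 380) (nat_lit 6991557779) (nat_lit 76) (nat_lit 4960146800) (nat_lit 78) (nat_lit 5) (nat_lit 83) (nat_lit 5) (nat_lit 79) (nat_lit 5) (nat_lit 366) (nat_lit 284)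 (nat_lit 250))))) (XT.nd (nat_lit 234) (nat_lit 760) (nat_lit 0) (XT.nd (nat_lit 78) (nat_lit 532) (nat_lit 0) (XT.lf (nat_lit 0) (nat_lit 5157541720) (nat_lit 228) (nat_lit 1036525588) (nat_lit 304) (nat_lit 6225242145) (nat_lit 75) (nat_lit 5) (nat_lit 78) (nat_lit 5) (nat_lit 79) (nat_lit 5) (nat_lit 367) (nat_lit 284) (nat_lit 249)) (XT.nd (nat_lit 78) (nat_lit 304) (nat_lit 0) (XT.lf (nat_lit 0) (nat_lit 5002271586) (nat_lit 228) (nat_lit 7337031966) (nat_lit 304) (nat_lit 303152051) (nat_lit 72) (nat_lit 5) (nat_lit 75) (nat_lit 5) (nat_lit 76) (nat_lit 5) (nat_lit 368) (nat_lit 284) (nat_lit 248)) (XT.lf (nat_lit 0) (nat_lit 4727593999) (nat_lit 228) (nat_lit 989665721) (nat_lit 304) (nat_lit 7154363309) (nat_lit 68) (nat_lit 5) (nat_lit 71) (nat_lit 5) (nat_lit 72) (nat_lit 5) (nat_lit 369) (nat_lit 284) (nat_lit 247)))) (XT.nd (nat_lit 78) (nat_lit 532) (nat_lit 0) (XT.lf (nat_lit 0) (nat_lit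 4332009027) (nat_lit 228) (nat_lit 7609237559) (nat_lit 304) (nat_lit 1165850052) (nat_lit 65) (nat_lit 5) (nat_lit 68) (nat_lit 5) (nat_lit 69) (nat_lit 5) (nat_lit 370) (nat_lit 284) (nat_lit 246)) (XT.nd (nat_lit 78) (nat_lit 228) (nat_lit 0) (XT.lf (nat_lit 0) (nat_lit 3806224411) (nat_lit 228) (nat_lit 1129208071) (nat_lit 304) (nat_lit 8413590247) (nat_lit 61) (nat_lit 5) (nat_lit 64) (nat_lit 5) (nat_lit 65) (nat_lit 5) (nat_lit 371) (nat_lit 284) (nat_lit 245)) (XT.lf (nat_lit 0) (nat_lit 3136585217) (nat_lit 228) (nat_lit 8096701065) (nat_lit 304) (nat_lit 2364190641) (nat_lit 58) (nat_lit 5) (nat_lit 61) (nat_lit 5) (nat_lit 62) (nat_lit 5) (nat_lit 372) (nat_lit 284) (nat_lit 244))))))))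
noncomputable def xc20 : XT := (XT.nd (nat_lit 43914) (nat_lit 0) (nat_lit 8512) (XT.nd (nat_lit 780) (nat_lit 760) (nat_lit 0) (XT.nd (nat_lit 390) (nat_lit 988) (nat_lit 0) (XT.nd (nat_lit 156) (nat_lit 532) (nat_lit 0) (XT.nd (nat_lit 78) (nat_lit 228) (nat_lit 0) (XT.lf (nat_lit 0) (nat_lit 2325115055) (nat_lit 152) (nat_lit 1492669290) (nat_lit 228) (nat_lit 10035073494) (nat_lit 55) (nat_lit 5) (nat_lit 57) (nat_lit 5) (nat_lit 58) (nat_lit 5) (nat_lit 373) (nat_lit 284) (nat_lit 243)) (XT.lf (nat_lit 0) (nat_lit 1344191776) (nat_lit 228) (nat_lit 8838881056) (nat_lit 304) (nat_lit 3931926303) (nat_lit 52) (nat_lit 5) (nat_lit 55) (nat_lit 5) (nat_lit 56) (nat_lit 5) (nat_lit 374) (nat_lit 284) (nat_lit 242))) (XT.nd (nat_lit 78) (nat_lit 304) (nat_lit 0) (XT.lf (nat_lit 0) (nat_lit 208739303) (nat_lit 152) (nat_lit 2120878513) (nat_lit 228) (nat_lit 12054968001) (nat_lit 49) (nat_lit 5) (nat_lit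 51) (nat_lit 5) (nat_lit 52) (nat_lit 5) (nat_lit 375) (nat_lit 284) (nat_lit 241)) (XT.nd (nat_lit 78) (nat_lit 304) (nat_lit 0) (XT.lf (nat_lit 0) (nat_lit 8761495258) (nat_lit 228) (nat_lit 1109835212) (nat_lit 76) (nat_lit 4789701850) (nat_lit 49) (nat_lit 5) (nat_lit 52) (nat_lit 5) (nat_lit 50) (nat_lit 5) (nat_lit 376) (nat_lit 284) (nat_lit 240)) (XT.lf (nat_lit 0) (nat_lit 449013835) (nat_lit 304) (nat_lit 2591998855) (nat_lit 76) (nat_lit 11904427283) (nat_lit 45) (nat_lit 5) (nat_lit 49) (nat_lit 5) (nat_lit 46) (nat_lit 5) (nat_lit 377) (nat_lit 284) (nat_lit 239))))) (XT.nd (nat_lit 156) (nat_lit 608) (nat_lit 0) (XT.nd (nat_lit 78) (nat_lit 228) (nat_lit 0) (XT.lf (nat_lit 0) (nat_lit 6934068037) (nat_lit 228) (nat_lit 4300456672) (nat_lit 76) (nat_lit 4002560642) (nat_lit 43) (nat_lit 5) (nat_lit 46) (nat_lit 5) (nat_lit 44) (nat_lit 5) (nat_lit 378) (nat_lit 284) (nat_lit 238)) (XT.lf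 (nat_lit 0) (nat_lit 9334111635) (nat_lit 228) (nat_lit 4299887970) (nat_lit 304) (nat_lit 1903083080) (nat_lit 40) (nat_lit 5) (nat_lit 43) (nat_lit 5) (nat_lit 44) (nat_lit 5) (nat_lit 379) (nat_lit 284) (nat_lit 237))) (XT.nd (nat_lit 78) (nat_lit 380) (nat_lit 0) (XT.lf (nat_lit 0) (nat_lit 4646918644) (nat_lit 228) (nat_lit 8341274788) (nat_lit 76) (nat_lit 2856895021) (nat_lit 37) (nat_lit 5) (nat_lit 40) (nat_lit 5) (nat_lit 38) (nat_lit 5) (nat_lit 380) (nat_lit 284) (nat_lit 236)) (XT.nd (nat_lit 78) (nat_lit 228) (nat_lit 0) (XT.lf (nat_lit 0) (nat_lit 5439724095) (nat_lit 152) (nat_lit 5957973462) (nat_lit 228) (nat_lit 4763791016) (nat_lit 35) (nat_lit 5) (nat_lit 37) (nat_lit 5) (nat_lit 38) (nat_lit 5) (nat_lit 381) (nat_lit 284) (nat_lit 235)) (XT.lf (nat_lit 0) (nat_lit 1849575344) (nat_lit 228) (nat_lit 13338537622) (nat_lit 76) (nat_lit 1298825787) (nat_lit 32) (nat_lit 5) (nat_lit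 35) (nat_lit 5) (nat_lit 33) (nat_lit 5) (nat_lit 382) (nat_lit 284) (nat_lit 234)))))) (XT.nd (nat_lit 42744) (nat_lit 0) (nat_lit 21584) (XT.nd (nat_lit 156) (nat_lit 608) (nat_lit 0) (XT.nd (nat_lit 78) (nat_lit 0) (nat_lit 0) (XT.lf (nat_lit 0) (nat_lit 563095916) (nat_lit 152) (nat_lit 8075958294) (nat_lit 228) (nat_lit 8181627579) (nat_lit 30) (nat_lit 5) (nat_lit 32) (nat_lit 5) (nat_lit 33) (nat_lit 5) (nat_lit 383) (nat_lit 284) (nat_lit 233)) (XT.lf (nat_lit 0) (nat_lit 14933673245) (nat_lit 152) (nat_lit 715682829) (nat_lit 228) (nat_lit 1514745820) (nat_lit 30) (nat_lit 5) (nat_lit 32) (nat_lit 5) (nat_lit 33) (nat_lit 5) (nat_lit 384) (nat_lit 284) (nat_lit 232))) (XT.nd (nat_lit 78) (nat_lit 380) (nat_lit 0) (XT.lf (nat_lit 0) (nat_lit 5334629636) (nat_lit 228) (nat_lit 5346787190) (nat_lit 76) (nat_lit 6834666340) (nat_lit 27) (nat_lit 5) (nat_lit 30) (nat_lit 5) (nat_lit 28) (nat_lit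 5) (nat_lit 385) (nat_lit 284) (nat_lit 231)) (XT.nd (nat_lit 78) (nat_lit 228) (nat_lit 0) (XT.lf (nat_lit 0) (nat_lit 9131144897) (nat_lit 152) (nat_lit 3246481472) (nat_lit 228) (nat_lit 5500629848) (nat_lit 25) (nat_lit 5) (nat_lit 27) (nat_lit 5) (nat_lit 28) (nat_lit 5) (nat_lit 386) (nat_lit 284) (nat_lit 230)) (XT.lf (nat_lit 0) (nat_lit 1395617164) (nat_lit 228) (nat_lit 12472569464) (nat_lit 76) (nat_lit 4382273082) (nat_lit 22) (nat_lit 5) (nat_lit 25) (nat_lit 5) (nat_lit 23) (nat_lit 5) (nat_lit 387) (nat_lit 284) (nat_lit 229))))) (XT.nd (nat_lit 156) (nat_lit 2356) (nat_lit 0) (XT.nd (nat_lit 78) (nat_lit 836) (nat_lit 0) (XT.lf (nat_lit 0) (nat_lit 210760100) (nat_lit 912) (nat_lit 3296597641) (nat_lit 0) (nat_lit 210760100) (nat_lit 348) (nat_lit 5) (nat_lit 360) (nat_lit 4) (nat_lit 348) (nat_lit 4) (nat_lit 330) (nat_lit 285) (nat_lit 285)) (XT.lf (nat_lit 0) (nat_lit 1717788645)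 (nat_lit 836) (nat_lit 3997039122) (nat_lit 836) (nat_lit 1790351505) (nat_lit 337) (nat_lit 4) (nat_lit 348) (nat_lit 5) (nat_lit 348) (nat_lit 4) (nat_lit 331) (nat_lit 285) (nat_lit 284))) (XT.nd (nat_lit 78) (nat_lit 1520) (nat_lit 0) (XT.lf (nat_lit 0) (nat_lit 2635837345) (nat_lit 760) (nat_lit 822053804) (nat_lit 836) (nat_lit 4119607134) (nat_lit 326) (nat_lit 5) (nat_lit 336) (nat_lit 5) (nat_lit 337) (nat_lit 4) (nat_lit 332) (nat_lit 285) (nat_lit 283)) (XT.nd (nat_lit 78) (nat_lit 684) (nat_lit 0) (XT.lf (nat_lit 0) (nat_lit 1105513539) (nat_lit 836) (nat_lit 4069919020) (nat_lit 76) (nat_lit 2477547203) (nat_lit 315) (nat_lit 5) (nat_lit 326) (nat_lit 5) (nat_lit 316) (nat_lit 4) (nat_lit 333) (nat_lit 285) (nat_lit 282)) (XT.lf (nat_lit 0) (nat_lit 4560168904) (nat_lit 684) (nat_lit 1797781759) (nat_lit 760) (nat_lit 1373753553) (nat_lit 306) (nat_lit 5) (nat_lit 315) (nat_lit 5) (nat_lit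 316) (nat_lit 4) (nat_lit 334) (nat_lit 285) (nat_lit 281))))))) (XT.nd (nat_lit 780) (nat_lit 5700) (nat_lit 0) (XT.nd (nat_lit 390) (nat_lit 3040) (nat_lit 0) (XT.nd (nat_lit 156) (nat_lit 2736) (nat_lit 0) (XT.nd (nat_lit 78) (nat_lit 760) (nat_lit 0) (XT.lf (nat_lit 0) (nat_lit 3838091340) (nat_lit 836) (nat_lit 2252017651) (nat_lit 76) (nat_lit 1723523145) (nat_lit 295) (nat_lit 5) (nat_lit 306) (nat_lit 5) (nat_lit 296) (nat_lit 4) (nat_lit 335) (nat_lit 285) (nat_lit 280)) (XT.lf (nat_lit 0) (nat_lit 1211407777) (nat_lit 760) (nat_lit 1305872488) (nat_lit 76) (nat_lit 5381666620) (nat_lit 285) (nat_lit 5) (nat_lit 295) (nat_lit 5) (nat_lit 286) (nat_lit 5) (nat_lit 336) (nat_lit 285) (nat_lit 279))) (XT.nd (nat_lit 78) (nat_lit 2052) (nat_lit 0) (XT.lf (nat_lit 0) (nat_lit 6437657746) (nat_lit 760) (nat_lit 339909999) (nat_lit 76) (nat_lit 1210020977) (nat_lit 276) (nat_lit 5) (nat_lit 286)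 (nat_lit 5) (nat_lit 277) (nat_lit 4) (nat_lit 337) (nat_lit 285) (nat_lit 278)) (XT.nd (nat_lit 78) (nat_lit 684) (nat_lit 0) (XT.lf (nat_lit 0) (nat_lit 645747242) (nat_lit 684) (nat_lit 3000355575) (nat_lit 760) (nat_lit 4433278706) (nat_lit 258) (nat_lit 5) (nat_lit 267) (nat_lit 5) (nat_lit 268) (nat_lit 5) (nat_lit 338) (nat_lit 285) (nat_lit 277)) (XT.lf (nat_lit 0) (nat_lit 735860909) (nat_lit 684) (nat_lit 6509506172) (nat_lit 76) (nat_lit 929431515) (nat_lit 249) (nat_lit 5) (nat_lit 258) (nat_lit 5) (nat_lit 250) (nat_lit 5) (nat_lit 339) (nat_lit 285) (nat_lit 276))))) (XT.nd (nat_lit 156) (nat_lit 1824) (nat_lit 0) (XT.nd (nat_lit 78) (nat_lit 608) (nat_lit 0) (XT.lf (nat_lit 0) (nat_lit 2683678808) (nat_lit 608) (nat_lit 3274239714) (nat_lit 684) (nat_lit 2315453699) (nat_lit 241) (nat_lit 5) (nat_lit 249) (nat_lit 5) (nat_lit 250) (nat_lit 5) (nat_lit 340) (nat_lit 285) (nat_lit 275))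 (XT.lf (nat_lit 0) (nat_lit 2868513359) (nat_lit 608) (nat_lit 4651609284) (nat_lit 76) (nat_lit 855522989) (nat_lit 233) (nat_lit 5) (nat_lit 241) (nat_lit 5) (nat_lit 234) (nat_lit 5) (nat_lit 341) (nat_lit 285) (nat_lit 274))) (XT.nd (nat_lit 78) (nat_lit 1216) (nat_lit 0) (XT.lf (nat_lit 0) (nat_lit 4771457566) (nat_lit 608) (nat_lit 3370068527) (nat_lit 684) (nat_lit 339893814) (nat_lit 225) (nat_lit 5) (nat_lit 233) (nat_lit 5) (nat_lit 234) (nat_lit 5) (nat_lit 342) (nat_lit 285) (nat_lit 273)) (XT.nd (nat_lit 78) (nat_lit 608) (nat_lit 0) (XT.lf (nat_lit 0) (nat_lit 4868426534) (nat_lit 608) (nat_lit 2768021002) (nat_lit 76) (nat_lit 954281316) (nat_lit 217) (nat_lit 5) (nat_lit 225) (nat_lit 5) (nat_lit 218) (nat_lit 5) (nat_lit 343) (nat_lit 285) (nat_lit 272)) (XT.lf (nat_lit 0) (nat_lit 1475324564) (nat_lit 608) (nat_lit 1824345754) (nat_lit 76) (nat_lit 5404034215) (nat_lit 209) (nat_lit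 5) (nat_lit 217) (nat_lit 5) (nat_lit 210) (nat_lit 5) (nat_lit 344) (nat_lit 285) (nat_lit 271)))))) (XT.nd (nat_lit 390) (nat_lit 2584) (nat_lit 0) (XT.nd (nat_lit 156) (nat_lit 1520) (nat_lit 0) (XT.nd (nat_lit 78) (nat_lit 1064) (nat_lit 0) (XT.lf (nat_lit 0) (nat_lit 6736540449) (nat_lit 608) (nat_lit 879332328) (nat_lit 76) (nat_lit 1204573811) (nat_lit 202) (nat_lit 5) (nat_lit 210) (nat_lit 5) (nat_lit 203) (nat_lit 5) (nat_lit 345) (nat_lit 285) (nat_lit 270)) (XT.lf (nat_lit 0) (nat_lit 55119668) (nat_lit 456) (nat_lit 3092528068) (nat_lit 532) (nat_lit 5793159704) (nat_lit 188) (nat_lit 5) (nat_lit 194) (nat_lit 5) (nat_lit 195) (nat_lit 5) (nat_lit 346) (nat_lit 285) (nat_lit 269))) (XT.nd (nat_lit 78) (nat_lit 1064) (nat_lit 0) (XT.lf (nat_lit 0) (nat_lit 1005977501) (nat_lit 456) (nat_lit 7472928609) (nat_lit 532) (nat_lit 586207375) (nat_lit 182) (nat_lit 5) (nat_lit 188) (nat_lit 5)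 (nat_lit 189) (nat_lit 5) (nat_lit 347) (nat_lit 285) (nat_lit 268)) (XT.nd (nat_lit 78) (nat_lit 532) (nat_lit 0) (XT.lf (nat_lit 0) (nat_lit 1931439450) (nat_lit 456) (nat_lit 2760196085) (nat_lit 532) (nat_lit 4501375974) (nat_lit 175) (nat_lit 5) (nat_lit 181) (nat_lit 5) (nat_lit 182) (nat_lit 5) (nat_lit 348) (nat_lit 285) (nat_lit 267)) (XT.lf (nat_lit 0) (nat_lit 757259346) (nat_lit 532) (nat_lit 6467339135) (nat_lit 76) (nat_lit 2100545408) (nat_lit 168) (nat_lit 5) (nat_lit 175) (nat_lit 5) (nat_lit 169) (nat_lit 5) (nat_lit 349) (nat_lit 285) (nat_lit 266))))) (XT.nd (nat_lit 234) (nat_lit 1292) (nat_lit 0) (XT.nd (nat_lit 78) (nat_lit 912) (nat_lit 0) (XT.lf (nat_lit 0) (nat_lit 3756255439) (nat_lit 380) (nat_lit 2335994673) (nat_lit 456) (nat_lit 3368827492) (nat_lit 163) (nat_lit 5) (nat_lit 168) (nat_lit 5) (nat_lit 169) (nat_lit 5) (nat_lit 350) (nat_lit 285) (nat_lit 265)) (XT.nd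 (nat_lit 78) (nat_lit 380) (nat_lit 0) (XT.lf (nat_lit 0) (nat_lit 1940799641) (nat_lit 532) (nat_lit 4959441327) (nat_lit 76) (nat_lit 2701003665) (nat_lit 156) (nat_lit 5) (nat_lit 163) (nat_lit 5) (nat_lit 157) (nat_lit 5) (nat_lit 351) (nat_lit 285) (nat_lit 264)) (XT.lf (nat_lit 0) (nat_lit 5503738077) (nat_lit 380) (nat_lit 1841122637) (nat_lit 456) (nat_lit 2400717723) (nat_lit 151) (nat_lit 5) (nat_lit 156) (nat_lit 5) (nat_lit 157) (nat_lit 5) (nat_lit 352) (nat_lit 285) (nat_lit 263)))) (XT.nd (nat_lit 78) (nat_lit 836) (nat_lit 0) (XT.lf (nat_lit 0) (nat_lit 2966312196) (nat_lit 456) (nat_lit 3558940254) (nat_lit 76) (nat_lit 3368840717) (nat_lit 145) (nat_lit 5) (nat_lit 151) (nat_lit 5) (nat_lit 146) (nat_lit 5) (nat_lit 353) (nat_lit 285) (nat_lit 262)) (XT.nd (nat_lit 78) (nat_lit 456) (nat_lit 0) (XT.lf (nat_lit 0) (nat_lit 7146058141) (nat_lit 380) (nat_lit 1297097429) (nat_lit 456)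 (nat_lit 1603985497) (nat_lit 140) (nat_lit 5) (nat_lit 145) (nat_lit 5) (nat_lit 146) (nat_lit 5) (nat_lit 354) (nat_lit 285) (nat_lit 261)) (XT.lf (nat_lit 0) (nat_lit 3826260257) (nat_lit 456) (nat_lit 2295338181) (nat_lit 76) (nat_lit 4082748206) (nat_lit 134) (nat_lit 5) (nat_lit 140) (nat_lit 5) (nat_lit 135) (nat_lit 5) (nat_lit 355) (nat_lit 285) (nat_lit 260))))))))
noncomputable def xc21 : XT := (XT.nd (nat_lit 1560) (nat_lit 1976) (nat_lit 0) (XT.nd (nat_lit 780) (nat_lit 2432) (nat_lit 0) (XT.nd (nat_lit 390) (nat_lit 1672) (nat_lit 0) (XT.nd (nat_lit 156) (nat_lit 1368) (nat_lit 0) (XT.nd (nat_lit 78) (nat_lit 456) (nat_lit 0) (XT.lf (nat_lit 0) (nat_lit 8653080081) (nat_lit 380) (nat_lit 725960339) (nat_lit 456) (nat_lit 987409244) (nat_lit 129) (nat_lit 5) (nat_lit 134) (nat_lit 5) (nat_lit 135) (nat_lit 5) (nat_lit 356) (nat_lit 285) (nat_lit 259)) (XT.lf (nat_lit 0) (nat_lit 4511248727)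 (nat_lit 456) (nat_lit 1200657044) (nat_lit 76) (nat_lit 4820815254) (nat_lit 123) (nat_lit 5) (nat_lit 129) (nat_lit 5) (nat_lit 124) (nat_lit 5) (nat_lit 357) (nat_lit 285) (nat_lit 258))) (XT.nd (nat_lit 78) (nat_lit 1064) (nat_lit 0) (XT.lf (nat_lit 0) (nat_lit 9992029448) (nat_lit 304) (nat_lit 150490854) (nat_lit 380) (nat_lit 561728366) (nat_lit 119) (nat_lit 5) (nat_lit 123) (nat_lit 5) (nat_lit 124) (nat_lit 5) (nat_lit 358) (nat_lit 285) (nat_lit 257)) (XT.nd (nat_lit 78) (nat_lit 608) (nat_lit 0) (XT.lf (nat_lit 0) (nat_lit 5009895568) (nat_lit 456) (nat_lit 309787385) (nat_lit 76) (nat_lit 5560311497) (nat_lit 113) (nat_lit 5) (nat_lit 119) (nat_lit 5) (nat_lit 114) (nat_lit 5) (nat_lit 359) (nat_lit 285) (nat_lit 256)) (XT.lf (nat_lit 0) (nat_lit 63990886) (nat_lit 304) (nat_lit 10660621095) (nat_lit 380) (nat_lit 336673387) (nat_lit 105) (nat_lit 5) (nat_lit 109) (nat_lit 5) (nat_lit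 110) (nat_lit 5) (nat_lit 360) (nat_lit 285) (nat_lit 255))))) (XT.nd (nat_lit 156) (nat_lit 988) (nat_lit 0) (XT.nd (nat_lit 78) (nat_lit 304) (nat_lit 0) (XT.lf (nat_lit 0) (nat_lit 343638449) (nat_lit 304) (nat_lit 4967277006) (nat_lit 380) (nat_lit 5936050945) (nat_lit 100) (nat_lit 5) (nat_lit 104) (nat_lit 5) (nat_lit 105) (nat_lit 5) (nat_lit 361) (nat_lit 285) (nat_lit 254)) (XT.lf (nat_lit 0) (nat_lit 582277735) (nat_lit 304) (nat_lit 10529403062) (nat_lit 380) (nat_lit 326743223) (nat_lit 96) (nat_lit 5) (nat_lit 100) (nat_lit 5) (nat_lit 101) (nat_lit 5) (nat_lit 362) (nat_lit 285) (nat_lit 253))) (XT.nd (nat_lit 78) (nat_lit 608) (nat_lit 0) (XT.lf (nat_lit 0) (nat_lit 713656732) (nat_lit 304) (nat_lit 4682773017) (nat_lit 380) (nat_lit 6238162615) (nat_lit 91) (nat_lit 5) (nat_lit 95) (nat_lit 5) (nat_lit 96) (nat_lit 5) (nat_lit 363) (nat_lit 285) (nat_lit 252)) (XT.nd (nat_lit 78) (nat_lit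 304) (nat_lit 0) (XT.lf (nat_lit 0) (nat_lit 789812074) (nat_lit 304) (nat_lit 10491204652) (nat_lit 380) (nat_lit 555718502) (nat_lit 87) (nat_lit 5) (nat_lit 91) (nat_lit 5) (nat_lit 92) (nat_lit 5) (nat_lit 364) (nat_lit 285) (nat_lit 251)) (XT.lf (nat_lit 0) (nat_lit 749620084) (nat_lit 228) (nat_lit 4496166950) (nat_lit 304) (nat_lit 6798121313) (nat_lit 83) (nat_lit 5) (nat_lit 86) (nat_lit 5) (nat_lit 87) (nat_lit 5) (nat_lit 365) (nat_lit 285) (nat_lit 250)))))) (XT.nd (nat_lit 390) (nat_lit 1292) (nat_lit 0) (XT.nd (nat_lit 156) (nat_lit 532) (nat_lit 0) (XT.nd (nat_lit 78) (nat_lit 304) (nat_lit 0) (XT.lf (nat_lit 0) (nat_lit 637818469) (nat_lit 304) (nat_lit 10575138074) (nat_lit 380) (nat_lit 1044297897) (nat_lit 79) (nat_lit 5) (nat_lit 83) (nat_lit 5) (nat_lit 84) (nat_lit 5) (nat_lit 366) (nat_lit 285) (nat_lit 249)) (XT.lf (nat_lit 0) (nat_lit 400322261) (nat_lit 228) (nat_lit 4437314623)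 (nat_lit 304) (nat_lit 7638353453) (nat_lit 75) (nat_lit 5) (nat_lit 78) (nat_lit 5) (nat_lit 79) (nat_lit 5) (nat_lit 367) (nat_lit 285) (nat_lit 248))) (XT.nd (nat_lit 78) (nat_lit 304) (nat_lit 0) (XT.lf (nat_lit 0) (nat_lit 72573134) (nat_lit 228) (nat_lit 10812424062) (nat_lit 304) (nat_lit 1816103466) (nat_lit 72) (nat_lit 5) (nat_lit 75) (nat_lit 5) (nat_lit 76) (nat_lit 5) (nat_lit 368) (nat_lit 285) (nat_lit 247)) (XT.nd (nat_lit 78) (nat_lit 228) (nat_lit 0) (XT.lf (nat_lit 0) (nat_lit 4150184052) (nat_lit 304) (nat_lit 385547501) (nat_lit 76) (nat_lit 8396218674) (nat_lit 71) (nat_lit 5) (nat_lit 75) (nat_lit 5) (nat_lit 72) (nat_lit 5) (nat_lit 369) (nat_lit 285) (nat_lit 246)) (XT.lf (nat_lit 0) (nat_lit 10277804197) (nat_lit 304) (nat_lit 952516292) (nat_lit 76) (nat_lit 1939036833) (nat_lit 68) (nat_lit 5) (nat_lit 72) (nat_lit 5) (nat_lit 69) (nat_lit 5) (nat_lit 370) (nat_lit 285)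 (nat_lit 245))))) (XT.nd (nat_lit 156) (nat_lit 760) (nat_lit 0) (XT.nd (nat_lit 78) (nat_lit 228) (nat_lit 0) (XT.lf (nat_lit 0) (nat_lit 3159176792) (nat_lit 304) (nat_lit 1663522423) (nat_lit 76) (nat_lit 8590277852) (nat_lit 64) (nat_lit 5) (nat_lit 68) (nat_lit 5) (nat_lit 65) (nat_lit 5) (nat_lit 371) (nat_lit 285) (nat_lit 244)) (XT.lf (nat_lit 0) (nat_lit 9360086990) (nat_lit 304) (nat_lit 2507515168) (nat_lit 76) (nat_lit 1795773660) (nat_lit 61) (nat_lit 5) (nat_lit 65) (nat_lit 5) (nat_lit 62) (nat_lit 5) (nat_lit 372) (nat_lit 285) (nat_lit 243))) (XT.nd (nat_lit 78) (nat_lit 456) (nat_lit 0) (XT.lf (nat_lit 0) (nat_lit 1831315895) (nat_lit 304) (nat_lit 3506721930) (nat_lit 76) (nat_lit 8582432156) (nat_lit 57) (nat_lit 5) (nat_lit 61) (nat_lit 5) (nat_lit 58) (nat_lit 5) (nat_lit 373) (nat_lit 285) (nat_lit 242)) (XT.nd (nat_lit 78) (nat_lit 304) (nat_lit 0) (XT.lf (nat_lit 0) (nat_lit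 8099147230) (nat_lit 228) (nat_lit 4664702886) (nat_lit 76) (nat_lit 1420715559) (nat_lit 55) (nat_lit 5) (nat_lit 58) (nat_lit 5) (nat_lit 56) (nat_lit 5) (nat_lit 374) (nat_lit 285) (nat_lit 241)) (XT.lf (nat_lit 0) (nat_lit 132047835) (nat_lit 304) (nat_lit 5990155400) (nat_lit 76) (nat_lit 8333680185) (nat_lit 51) (nat_lit 5) (nat_lit 55) (nat_lit 5) (nat_lit 52) (nat_lit 5) (nat_lit 375) (nat_lit 285) (nat_lit 240))))))) (XT.nd (nat_lit 780) (nat_lit 152) (nat_lit 0) (XT.nd (nat_lit 390) (nat_lit 760) (nat_lit 0) (XT.nd (nat_lit 156) (nat_lit 684) (nat_lit 0) (XT.nd (nat_lit 78) (nat_lit 228) (nat_lit 0) (XT.lf (nat_lit 0) (nat_lit 6458739899) (nat_lit 228) (nat_lit 7502938148) (nat_lit 76) (nat_lit 772760439) (nat_lit 49) (nat_lit 5) (nat_lit 52) (nat_lit 5) (nat_lit 50) (nat_lit 5) (nat_lit 376) (nat_lit 285) (nat_lit 239)) (XT.lf (nat_lit 0) (nat_lit 5810749146) (nat_lit 228) (nat_lit 7206091802)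 (nat_lit 304) (nat_lit 2003686660) (nat_lit 46) (nat_lit 5) (nat_lit 49) (nat_lit 5) (nat_lit 50) (nat_lit 5) (nat_lit 377) (nat_lit 285) (nat_lit 238))) (XT.nd (nat_lit 78) (nat_lit 456) (nat_lit 0) (XT.lf (nat_lit 0) (nat_lit 4203884369) (nat_lit 152) (nat_lit 195594217) (nat_lit 228) (nat_lit 10915122426) (nat_lit 43) (nat_lit 5) (nat_lit 45) (nat_lit 5) (nat_lit 46) (nat_lit 5) (nat_lit 378) (nat_lit 285) (nat_lit 237)) (XT.nd (nat_lit 78) (nat_lit 228) (nat_lit 0) (XT.lf (nat_lit 0) (nat_lit 2368085879) (nat_lit 228) (nat_lit 8647380869) (nat_lit 304) (nat_lit 4600814822) (nat_lit 40) (nat_lit 5) (nat_lit 43) (nat_lit 5) (nat_lit 44) (nat_lit 5) (nat_lit 379) (nat_lit 285) (nat_lit 236)) (XT.lf (nat_lit 0) (nat_lit 335910301) (nat_lit 152) (nat_lit 1546177244) (nat_lit 228) (nat_lit 14044603861) (nat_lit 37) (nat_lit 5) (nat_lit 39) (nat_lit 5) (nat_lit 40) (nat_lit 5) (nat_lit 380) (nat_lit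 285) (nat_lit 235))))) (XT.nd (nat_lit 156) (nat_lit 608) (nat_lit 0) (XT.nd (nat_lit 78) (nat_lit 152) (nat_lit 0) (XT.lf (nat_lit 0) (nat_lit 8550970057) (nat_lit 228) (nat_lit 1935687225) (nat_lit 76) (nat_lit 5758076198) (nat_lit 37) (nat_lit 5) (nat_lit 40) (nat_lit 5) (nat_lit 38) (nat_lit 5) (nat_lit 381) (nat_lit 285) (nat_lit 234)) (XT.lf (nat_lit 0) (nat_lit 12150758758) (nat_lit 152) (nat_lit 3286376698) (nat_lit 228) (nat_lit 1134844965) (nat_lit 35) (nat_lit 5) (nat_lit 37) (nat_lit 5) (nat_lit 38) (nat_lit 5) (nat_lit 382) (nat_lit 285) (nat_lit 233))) (XT.nd (nat_lit 78) (nat_lit 380) (nat_lit 0) (XT.lf (nat_lit 0) (nat_lit 5579580113) (nat_lit 228) (nat_lit 7192925610) (nat_lit 76) (nat_lit 4135167567) (nat_lit 32) (nat_lit 5) (nat_lit 35) (nat_lit 5) (nat_lit 33) (nat_lit 5) (nat_lit 383) (nat_lit 285) (nat_lit 232)) (XT.nd (nat_lit 78) (nat_lit 228) (nat_lit 0) (XT.lf (nat_lit 0)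 (nat_lit 7019559622) (nat_lit 152) (nat_lit 5487968905) (nat_lit 228) (nat_lit 4745215548) (nat_lit 30) (nat_lit 5) (nat_lit 32) (nat_lit 5) (nat_lit 33) (nat_lit 5) (nat_lit 384) (nat_lit 285) (nat_lit 231)) (XT.lf (nat_lit 0) (nat_lit 2027725383) (nat_lit 228) (nat_lit 13555754119) (nat_lit 76) (nat_lit 2024044825) (nat_lit 27) (nat_lit 5) (nat_lit 30) (nat_lit 5) (nat_lit 28) (nat_lit 5) (nat_lit 385) (nat_lit 285) (nat_lit 230)))))) (XT.nd (nat_lit 42588) (nat_lit 0) (nat_lit 19760) (XT.nd (nat_lit 42354) (nat_lit 0) (nat_lit 24548) (XT.nd (nat_lit 78) (nat_lit 0) (nat_lit 0) (XT.lf (nat_lit 0) (nat_lit 751627235) (nat_lit 152) (nat_lit 8230884168) (nat_lit 228) (nat_lit 8988953526) (nat_lit 25) (nat_lit 5) (nat_lit 27) (nat_lit 5) (nat_lit 28) (nat_lit 5) (nat_lit 386) (nat_lit 285) (nat_lit 229)) (XT.lf (nat_lit 0) (nat_lit 15552657603) (nat_lit 152) (nat_lit 617729011) (nat_lit 228) (nat_lit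 2175454802) (nat_lit 25) (nat_lit 5) (nat_lit 27) (nat_lit 5) (nat_lit 28) (nat_lit 5) (nat_lit 387) (nat_lit 285) (nat_lit 228))) (XT.nd (nat_lit 78) (nat_lit 2660) (nat_lit 0) (XT.lf (nat_lit 0) (nat_lit 3292551885) (nat_lit 912) (nat_lit 180214211) (nat_lit 912) (nat_lit 180214211) (nat_lit 383) (nat_lit 4) (nat_lit 395) (nat_lit 5) (nat_lit 395) (nat_lit 4) (nat_lit 328) (nat_lit 286) (nat_lit 286)) (XT.nd (nat_lit 78) (nat_lit 1748) (nat_lit 0) (XT.lf (nat_lit 0) (nat_lit 4837749757) (nat_lit 912) (nat_lit 12965823) (nat_lit 0) (nat_lit 2519403747) (nat_lit 371) (nat_lit 5) (nat_lit 383) (nat_lit 4) (nat_lit 371) (nat_lit 4) (nat_lit 329) (nat_lit 286) (nat_lit 285)) (XT.lf (nat_lit 0) (nat_lit 748875264) (nat_lit 836) (nat_lit 1883819113) (nat_lit 912) (nat_lit 4804805708) (nat_lit 348) (nat_lit 5) (nat_lit 359) (nat_lit 5) (nat_lit 360) (nat_lit 4) (nat_lit 330) (nat_lit 286) (nat_lit 284)))))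 (XT.nd (nat_lit 234) (nat_lit 2280) (nat_lit 0) (XT.nd (nat_lit 78) (nat_lit 1596) (nat_lit 0) (XT.lf (nat_lit 0) (nat_lit 328362132) (nat_lit 912) (nat_lit 5958699515) (nat_lit 76) (nat_lit 1221070090) (nat_lit 336) (nat_lit 5) (nat_lit 348) (nat_lit 5) (nat_lit 337) (nat_lit 4) (nat_lit 331) (nat_lit 286) (nat_lit 283)) (XT.nd (nat_lit 78) (nat_lit 836) (nat_lit 0) (XT.lf (nat_lit 0) (nat_lit 2368972001) (nat_lit 760) (nat_lit 3111710050) (nat_lit 836) (nat_lit 2101012890) (nat_lit 326) (nat_lit 5) (nat_lit 336) (nat_lit 5) (nat_lit 337) (nat_lit 4) (nat_lit 332) (nat_lit 286) (nat_lit 282)) (XT.lf (nat_lit 0) (nat_lit 3010726172) (nat_lit 836) (nat_lit 4429546376) (nat_lit 76) (nat_lit 218406394) (nat_lit 315) (nat_lit 5) (nat_lit 326) (nat_lit 5) (nat_lit 316) (nat_lit 4) (nat_lit 333) (nat_lit 286) (nat_lit 281)))) (XT.nd (nat_lit 78) (nat_lit 1520) (nat_lit 0) (XT.lf (nat_lit 0) (nat_lit 447275025)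 (nat_lit 760) (nat_lit 3627195271) (nat_lit 76) (nat_lit 3664321837) (nat_lit 305) (nat_lit 5) (nat_lit 315) (nat_lit 5) (nat_lit 306) (nat_lit 5) (nat_lit 334) (nat_lit 286) (nat_lit 280)) (XT.nd (nat_lit 78) (nat_lit 760) (nat_lit 0) (XT.lf (nat_lit 0) (nat_lit 5021650128) (nat_lit 760) (nat_lit 537340860) (nat_lit 836) (nat_lit 2263217402) (nat_lit 295) (nat_lit 5) (nat_lit 305) (nat_lit 5) (nat_lit 306) (nat_lit 5) (nat_lit 335) (nat_lit 286) (nat_lit 279)) (XT.lf (nat_lit 0) (nat_lit 2827338671) (nat_lit 760) (nat_lit 1959606764) (nat_lit 76) (nat_lit 3121857359) (nat_lit 285) (nat_lit 5) (nat_lit 295) (nat_lit 5) (nat_lit 286) (nat_lit 5) (nat_lit 336) (nat_lit 286) (nat_lit 278))))))))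
noncomputable def xc22 : XT := (XT.nd (nat_lit 1560) (nat_lit 6080) (nat_lit 0) (XT.nd (nat_lit 780) (nat_lit 4940) (nat_lit 0) (XT.nd (nat_lit 390) (nat_lit 2964) (nat_lit 0) (XT.nd (nat_lit 156) (nat_lit 2584) (nat_lit 0) (XT.nd (nat_lit 78) (nat_lit 684) (nat_lit 0) (XT.lf (nat_lit 0) (nat_lit 6913050670) (nat_lit 684) (nat_lit 1062887341) (nat_lit 760) (nat_lit 23082260) (nat_lit 276) (nat_lit 5) (nat_lit 285) (nat_lit 5) (nat_lit 286) (nat_lit 5) (nat_lit 337) (nat_lit 286) (nat_lit 277)) (XT.lf (nat_lit 0) (nat_lit 5072346430) (nat_lit 684) (nat_lit 214321159) (nat_lit 76) (nat_lit 2805580358) (nat_lit 267) (nat_lit 5) (nat_lit 276) (nat_lit 5) (nat_lit 268) (nat_lit 5) (nat_lit 338) (nat_lit 286) (nat_lit 276))) (XT.nd (nat_lit 78) (nat_lit 1216) (nat_lit 0) (XT.lf (nat_lit 0) (nat_lit 693052584) (nat_lit 608) (nat_lit 1360138835) (nat_lit 684) (nat_lit 6135860768) (nat_lit 249) (nat_lit 5)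 (nat_lit 257) (nat_lit 5) (nat_lit 258) (nat_lit 5) (nat_lit 339) (nat_lit 286) (nat_lit 275)) (XT.nd (nat_lit 78) (nat_lit 608) (nat_lit 0) (XT.lf (nat_lit 0) (nat_lit 1611442230) (nat_lit 608) (nat_lit 5585618197) (nat_lit 684) (nat_lit 1092149062) (nat_lit 241) (nat_lit 5) (nat_lit 249) (nat_lit 5) (nat_lit 250) (nat_lit 5) (nat_lit 340) (nat_lit 286) (nat_lit 274)) (XT.lf (nat_lit 0) (nat_lit 2538090056) (nat_lit 532) (nat_lit 1462801849) (nat_lit 608) (nat_lit 4391948733) (nat_lit 233) (nat_lit 5) (nat_lit 240) (nat_lit 5) (nat_lit 241) (nat_lit 5) (nat_lit 341) (nat_lit 286) (nat_lit 273))))) (XT.nd (nat_lit 156) (nat_lit 1748) (nat_lit 0) (XT.nd (nat_lit 78) (nat_lit 532) (nat_lit 0) (XT.lf (nat_lit 0) (nat_lit 686353482) (nat_lit 684) (nat_lit 5023669821) (nat_lit 76) (nat_lit 2790084332) (nat_lit 224) (nat_lit 5) (nat_lit 233) (nat_lit 5) (nat_lit 225) (nat_lit 5) (nat_lit 342) (nat_lit 286)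 (nat_lit 272)) (XT.lf (nat_lit 0) (nat_lit 4415295653) (nat_lit 532) (nat_lit 1399945456) (nat_lit 608) (nat_lit 2795648342) (nat_lit 217) (nat_lit 5) (nat_lit 224) (nat_lit 5) (nat_lit 225) (nat_lit 5) (nat_lit 343) (nat_lit 286) (nat_lit 271))) (XT.nd (nat_lit 78) (nat_lit 1140) (nat_lit 0) (XT.lf (nat_lit 0) (nat_lit 2311934974) (nat_lit 608) (nat_lit 3369086505) (nat_lit 76) (nat_lit 3044297792) (nat_lit 209) (nat_lit 5) (nat_lit 217) (nat_lit 5) (nat_lit 210) (nat_lit 5) (nat_lit 344) (nat_lit 286) (nat_lit 270)) (XT.nd (nat_lit 78) (nat_lit 608) (nat_lit 0) (XT.lf (nat_lit 0) (nat_lit 6304258946) (nat_lit 532) (nat_lit 1192668767) (nat_lit 608) (nat_lit 1346674254) (nat_lit 202) (nat_lit 5) (nat_lit 209) (nat_lit 5) (nat_lit 210) (nat_lit 5) (nat_lit 345) (nat_lit 286) (nat_lit 269)) (XT.lf (nat_lit 0) (nat_lit 3798628640) (nat_lit 608) (nat_lit 1728197230) (nat_lit 76) (nat_lit 3438588257)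 (nat_lit 194) (nat_lit 5) (nat_lit 202) (nat_lit 5) (nat_lit 195) (nat_lit 5) (nat_lit 346) (nat_lit 286) (nat_lit 268)))))) (XT.nd (nat_lit 390) (nat_lit 2052) (nat_lit 0) (XT.nd (nat_lit 156) (nat_lit 1900) (nat_lit 0) (XT.nd (nat_lit 78) (nat_lit 532) (nat_lit 0) (XT.lf (nat_lit 0) (nat_lit 8183507520) (nat_lit 456) (nat_lit 861721496) (nat_lit 532) (nat_lit 46199266) (nat_lit 188) (nat_lit 5) (nat_lit 194) (nat_lit 5) (nat_lit 195) (nat_lit 5) (nat_lit 347) (nat_lit 286) (nat_lit 267)) (XT.lf (nat_lit 0) (nat_lit 5144696099) (nat_lit 532) (nat_lit 123492938) (nat_lit 76) (nat_lit 3952678684) (nat_lit 181) (nat_lit 5) (nat_lit 188) (nat_lit 5) (nat_lit 182) (nat_lit 5) (nat_lit 348) (nat_lit 286) (nat_lit 266))) (XT.nd (nat_lit 78) (nat_lit 912) (nat_lit 0) (XT.lf (nat_lit 0) (nat_lit 677125990) (nat_lit 456) (nat_lit 415897354) (nat_lit 532) (nat_lit 8261612361) (nat_lit 168) (nat_lit 5) (nat_lit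 174) (nat_lit 5) (nat_lit 175) (nat_lit 5) (nat_lit 349) (nat_lit 286) (nat_lit 265)) (XT.nd (nat_lit 78) (nat_lit 532) (nat_lit 0) (XT.lf (nat_lit 0) (nat_lit 1439959121) (nat_lit 380) (nat_lit 4916283779) (nat_lit 456) (nat_lit 3135775095) (nat_lit 163) (nat_lit 5) (nat_lit 168) (nat_lit 5) (nat_lit 169) (nat_lit 5) (nat_lit 350) (nat_lit 286) (nat_lit 264)) (XT.lf (nat_lit 0) (nat_lit 2084499898) (nat_lit 532) (nat_lit 7433636011) (nat_lit 76) (nat_lit 115757282) (nat_lit 156) (nat_lit 5) (nat_lit 163) (nat_lit 5) (nat_lit 157) (nat_lit 5) (nat_lit 351) (nat_lit 286) (nat_lit 263))))) (XT.nd (nat_lit 156) (nat_lit 1216) (nat_lit 0) (XT.nd (nat_lit 78) (nat_lit 456) (nat_lit 0) (XT.lf (nat_lit 0) (nat_lit 2918100956) (nat_lit 380) (nat_lit 4501247050) (nat_lit 456) (nat_lit 2360275403) (nat_lit 151) (nat_lit 5) (nat_lit 156) (nat_lit 5) (nat_lit 157) (nat_lit 5) (nat_lit 352) (nat_lit 286) (nat_lit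 262)) (XT.lf (nat_lit 0) (nat_lit 2919184823) (nat_lit 456) (nat_lit 6309588470) (nat_lit 76) (nat_lit 701111945) (nat_lit 145) (nat_lit 5) (nat_lit 151) (nat_lit 5) (nat_lit 146) (nat_lit 5) (nat_lit 353) (nat_lit 286) (nat_lit 261))) (XT.nd (nat_lit 78) (nat_lit 836) (nat_lit 0) (XT.lf (nat_lit 0) (nat_lit 4281249961) (nat_lit 380) (nat_lit 4045285665) (nat_lit 456) (nat_lit 1757798594) (nat_lit 140) (nat_lit 5) (nat_lit 145) (nat_lit 5) (nat_lit 146) (nat_lit 5) (nat_lit 354) (nat_lit 286) (nat_lit 260)) (XT.nd (nat_lit 78) (nat_lit 380) (nat_lit 0) (XT.lf (nat_lit 0) (nat_lit 3586491526) (nat_lit 456) (nat_lit 5332400831) (nat_lit 76) (nat_lit 1324437561) (nat_lit 134) (nat_lit 5) (nat_lit 140) (nat_lit 5) (nat_lit 135) (nat_lit 5) (nat_lit 355) (nat_lit 286) (nat_lit 259)) (XT.lf (nat_lit 0) (nat_lit 5499031707) (nat_lit 380) (nat_lit 3570333353) (nat_lit 456) (nat_lit 1337476388) (nat_lit 129)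 (nat_lit 5) (nat_lit 134) (nat_lit 5) (nat_lit 135) (nat_lit 5) (nat_lit 356) (nat_lit 286) (nat_lit 258))))))) (XT.nd (nat_lit 780) (nat_lit 2584) (nat_lit 0) (XT.nd (nat_lit 390) (nat_lit 1596) (nat_lit 0) (XT.nd (nat_lit 156) (nat_lit 1140) (nat_lit 0) (XT.nd (nat_lit 78) (nat_lit 304) (nat_lit 0) (XT.lf (nat_lit 0) (nat_lit 4076679786) (nat_lit 456) (nat_lit 4534353054) (nat_lit 76) (nat_lit 1963917165) (nat_lit 123) (nat_lit 5) (nat_lit 129) (nat_lit 5) (nat_lit 124) (nat_lit 5) (nat_lit 357) (nat_lit 286) (nat_lit 257)) (XT.lf (nat_lit 0) (nat_lit 6538406592) (nat_lit 304) (nat_lit 3099092238) (nat_lit 380) (nat_lit 1110397459) (nat_lit 119) (nat_lit 5) (nat_lit 123) (nat_lit 5) (nat_lit 124) (nat_lit 5) (nat_lit 358) (nat_lit 286) (nat_lit 256))) (XT.nd (nat_lit 78) (nat_lit 684) (nat_lit 0) (XT.lf (nat_lit 0) (nat_lit 4378025714) (nat_lit 456) (nat_lit 3950619657) (nat_lit 76) (nat_lit 2596885009)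 (nat_lit 113) (nat_lit 5) (nat_lit 119) (nat_lit 5) (nat_lit 114) (nat_lit 5) (nat_lit 359) (nat_lit 286) (nat_lit 255)) (XT.nd (nat_lit 78) (nat_lit 380) (nat_lit 0) (XT.lf (nat_lit 0) (nat_lit 7363308432) (nat_lit 304) (nat_lit 2655256855) (nat_lit 380) (nat_lit 1089748410) (nat_lit 109) (nat_lit 5) (nat_lit 113) (nat_lit 5) (nat_lit 114) (nat_lit 5) (nat_lit 360) (nat_lit 286) (nat_lit 254)) (XT.lf (nat_lit 0) (nat_lit 4476673168) (nat_lit 380) (nat_lit 3619649581) (nat_lit 76) (nat_lit 3199599085) (nat_lit 104) (nat_lit 5) (nat_lit 109) (nat_lit 5) (nat_lit 105) (nat_lit 5) (nat_lit 361) (nat_lit 286) (nat_lit 253))))) (XT.nd (nat_lit 156) (nat_lit 912) (nat_lit 0) (XT.nd (nat_lit 78) (nat_lit 380) (nat_lit 0) (XT.lf (nat_lit 0) (nat_lit 7934250319) (nat_lit 304) (nat_lit 2263751439) (nat_lit 380) (nat_lit 1290974622) (nat_lit 100) (nat_lit 5) (nat_lit 104) (nat_lit 5) (nat_lit 105) (nat_lit 5)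 (nat_lit 362) (nat_lit 286) (nat_lit 252)) (XT.lf (nat_lit 0) (nat_lit 4356464778) (nat_lit 380) (nat_lit 3583580970) (nat_lit 76) (nat_lit 3746999572) (nat_lit 95) (nat_lit 5) (nat_lit 100) (nat_lit 5) (nat_lit 96) (nat_lit 5) (nat_lit 363) (nat_lit 286) (nat_lit 251))) (XT.nd (nat_lit 78) (nat_lit 608) (nat_lit 0) (XT.lf (nat_lit 0) (nat_lit 8207893937) (nat_lit 304) (nat_lit 1950982639) (nat_lit 380) (nat_lit 1731962680) (nat_lit 91) (nat_lit 5) (nat_lit 95) (nat_lit 5) (nat_lit 96) (nat_lit 5) (nat_lit 364) (nat_lit 286) (nat_lit 250)) (XT.nd (nat_lit 78) (nat_lit 228) (nat_lit 0) (XT.lf (nat_lit 0) (nat_lit 3998750815) (nat_lit 380) (nat_lit 3888694919) (nat_lit 76) (nat_lit 4212450958) (nat_lit 86) (nat_lit 5) (nat_lit 91) (nat_lit 5) (nat_lit 87) (nat_lit 5) (nat_lit 365) (nat_lit 286) (nat_lit 249)) (XT.lf (nat_lit 0) (nat_lit 8136578129) (nat_lit 228) (nat_lit 1745110035) (nat_lit 304) (nat_lit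 2433246259) (nat_lit 83) (nat_lit 5) (nat_lit 86) (nat_lit 5) (nat_lit 87) (nat_lit 5) (nat_lit 366) (nat_lit 286) (nat_lit 248)))))) (XT.nd (nat_lit 390) (nat_lit 1140) (nat_lit 0) (XT.nd (nat_lit 156) (nat_lit 836) (nat_lit 0) (XT.nd (nat_lit 78) (nat_lit 228) (nat_lit 0) (XT.lf (nat_lit 0) (nat_lit 3382173932) (nat_lit 380) (nat_lit 4585912574) (nat_lit 76) (nat_lit 4567465449) (nat_lit 78) (nat_lit 5) (nat_lit 83) (nat_lit 5) (nat_lit 79) (nat_lit 5) (nat_lit 367) (nat_lit 286) (nat_lit 247)) (XT.lf (nat_lit 0) (nat_lit 7667802117) (nat_lit 228) (nat_lit 1676336954) (nat_lit 304) (nat_lit 3418237577) (nat_lit 75) (nat_lit 5) (nat_lit 78) (nat_lit 5) (nat_lit 79) (nat_lit 5) (nat_lit 368) (nat_lit 286) (nat_lit 246))) (XT.nd (nat_lit 78) (nat_lit 532) (nat_lit 0) (XT.lf (nat_lit 0) (nat_lit 2482427571) (nat_lit 304) (nat_lit 5731340475) (nat_lit 76) (nat_lit 4781405052) (nat_lit 71) (nat_lit 5)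 (nat_lit 75) (nat_lit 5) (nat_lit 72) (nat_lit 5) (nat_lit 369) (nat_lit 286) (nat_lit 245)) (XT.nd (nat_lit 78) (nat_lit 304) (nat_lit 0) (XT.lf (nat_lit 0) (nat_lit 6743658317) (nat_lit 228) (nat_lit 1777224357) (nat_lit 304) (nat_lit 4713486794) (nat_lit 68) (nat_lit 5) (nat_lit 71) (nat_lit 5) (nat_lit 72) (nat_lit 5) (nat_lit 370) (nat_lit 286) (nat_lit 244)) (XT.lf (nat_lit 0) (nat_lit 1271985574) (nat_lit 304) (nat_lit 7386869440) (nat_lit 76) (nat_lit 4821159520) (nat_lit 64) (nat_lit 5) (nat_lit 68) (nat_lit 5) (nat_lit 65) (nat_lit 5) (nat_lit 371) (nat_lit 286) (nat_lit 243))))) (XT.nd (nat_lit 234) (nat_lit 456) (nat_lit 0) (XT.nd (nat_lit 78) (nat_lit 456) (nat_lit 0) (XT.lf (nat_lit 0) (nat_lit 5300209203) (nat_lit 228) (nat_lit 2083030759) (nat_lit 304) (nat_lit 6348971959) (nat_lit 61) (nat_lit 5) (nat_lit 64) (nat_lit 5) (nat_lit 65) (nat_lit 5) (nat_lit 372) (nat_lit 286) (nat_lit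 242)) (XT.nd (nat_lit 78) (nat_lit 228) (nat_lit 0) (XT.lf (nat_lit 0) (nat_lit 4368717056) (nat_lit 228) (nat_lit 9338752862) (nat_lit 304) (nat_lit 283923430) (nat_lit 58) (nat_lit 5) (nat_lit 61) (nat_lit 5) (nat_lit 62) (nat_lit 5) (nat_lit 373) (nat_lit 286) (nat_lit 241)) (XT.lf (nat_lit 0) (nat_lit 3266802092) (nat_lit 152) (nat_lit 2632081442) (nat_lit 228) (nat_lit 8358422439) (nat_lit 55) (nat_lit 5) (nat_lit 57) (nat_lit 5) (nat_lit 58) (nat_lit 5) (nat_lit 374) (nat_lit 286) (nat_lit 240)))) (XT.nd (nat_lit 78) (nat_lit 228) (nat_lit 0) (XT.lf (nat_lit 0) (nat_lit 2007326781) (nat_lit 228) (nat_lit 10284873192) (nat_lit 304) (nat_lit 2238390868) (nat_lit 52) (nat_lit 5) (nat_lit 55) (nat_lit 5) (nat_lit 56) (nat_lit 5) (nat_lit 375) (nat_lit 286) (nat_lit 239)) (XT.nd (nat_lit 78) (nat_lit 0) (nat_lit 0) (XT.lf (nat_lit 0) (nat_lit 565315149) (nat_lit 152) (nat_lit 3466170508) (nat_lit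 228) (nat_lit 10779679075) (nat_lit 49) (nat_lit 5) (nat_lit 51) (nat_lit 5) (nat_lit 52) (nat_lit 5) (nat_lit 376) (nat_lit 286) (nat_lit 238)) (XT.lf (nat_lit 0) (nat_lit 10492088112) (nat_lit 228) (nat_lit 1050676394) (nat_lit 76) (nat_lit 3556443897) (nat_lit 49) (nat_lit 5) (nat_lit 52) (nat_lit 5) (nat_lit 50) (nat_lit 5) (nat_lit 377) (nat_lit 286) (nat_lit 237))))))))
noncomputable def xc23 : XT := (XT.nd (nat_lit 43758) (nat_lit 0) (nat_lit 6992) (XT.nd (nat_lit 42900) (nat_lit 0) (nat_lit 18848) (XT.nd (nat_lit 390) (nat_lit 608) (nat_lit 0) (XT.nd (nat_lit 156) (nat_lit 608) (nat_lit 0) (XT.nd (nat_lit 78) (nat_lit 152) (nat_lit 0) (XT.lf (nat_lit 0) (nat_lit 1759094987) (nat_lit 304) (nat_lit 2852761120) (nat_lit 76) (nat_lit 10783190009) (nat_lit 45) (nat_lit 5) (nat_lit 49) (nat_lit 5) (nat_lit 46) (nat_lit 5) (nat_lit 378) (nat_lit 286) (nat_lit 236)) (XT.lf (nat_lit 0) (nat_lit 8275787430)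 (nat_lit 228) (nat_lit 4873314215) (nat_lit 76) (nat_lit 2549615172) (nat_lit 43) (nat_lit 5) (nat_lit 46) (nat_lit 5) (nat_lit 44) (nat_lit 5) (nat_lit 379) (nat_lit 286) (nat_lit 235))) (XT.nd (nat_lit 78) (nat_lit 380) (nat_lit 0) (XT.lf (nat_lit 0) (nat_lit 8901963391) (nat_lit 228) (nat_lit 6122464790) (nat_lit 304) (nat_lit 986348843) (nat_lit 40) (nat_lit 5) (nat_lit 43) (nat_lit 5) (nat_lit 44) (nat_lit 5) (nat_lit 380) (nat_lit 286) (nat_lit 234)) (XT.nd (nat_lit 78) (nat_lit 152) (nat_lit 0) (XT.lf (nat_lit 0) (nat_lit 5583204232) (nat_lit 228) (nat_lit 9586197764) (nat_lit 76) (nat_lit 1161794401) (nat_lit 37) (nat_lit 5) (nat_lit 40) (nat_lit 5) (nat_lit 38) (nat_lit 5) (nat_lit 381) (nat_lit 286) (nat_lit 233)) (XT.lf (nat_lit 0) (nat_lit 4336875233) (nat_lit 152) (nat_lit 8047319692) (nat_lit 228) (nat_lit 4275955703) (nat_lit 35) (nat_lit 5) (nat_lit 37) (nat_lit 5) (nat_lit 38) (nat_lit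 5) (nat_lit 382) (nat_lit 286) (nat_lit 232))))) (XT.nd (nat_lit 156) (nat_lit 380) (nat_lit 0) (XT.nd (nat_lit 78) (nat_lit 0) (nat_lit 0) (XT.lf (nat_lit 0) (nat_lit 1694931224) (nat_lit 152) (nat_lit 671223965) (nat_lit 228) (nat_lit 14632370010) (nat_lit 32) (nat_lit 5) (nat_lit 34) (nat_lit 5) (nat_lit 35) (nat_lit 5) (nat_lit 383) (nat_lit 286) (nat_lit 231)) (XT.lf (nat_lit 0) (nat_lit 9210552688) (nat_lit 228) (nat_lit 1238699107) (nat_lit 76) (nat_lit 6896018715) (nat_lit 32) (nat_lit 5) (nat_lit 35) (nat_lit 5) (nat_lit 33) (nat_lit 5) (nat_lit 384) (nat_lit 286) (nat_lit 230))) (XT.nd (nat_lit 78) (nat_lit 228) (nat_lit 0) (XT.lf (nat_lit 0) (nat_lit 13300059531) (nat_lit 152) (nat_lit 2984808805) (nat_lit 228) (nat_lit 1417065031) (nat_lit 30) (nat_lit 5) (nat_lit 32) (nat_lit 5) (nat_lit 33) (nat_lit 5) (nat_lit 385) (nat_lit 286) (nat_lit 229)) (XT.nd (nat_lit 42198) (nat_lit 0) (nat_lit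 29184) (XT.lf (nat_lit 0) (nat_lit 5470074442) (nat_lit 228) (nat_lit 7895474979) (nat_lit 76) (nat_lit 4702236431) (nat_lit 27) (nat_lit 5) (nat_lit 30) (nat_lit 5) (nat_lit 28) (nat_lit 5) (nat_lit 386) (nat_lit 286) (nat_lit 228)) (XT.lf (nat_lit 0) (nat_lit 2610802195) (nat_lit 1748) (nat_lit 490883248) (nat_lit 1748) (nat_lit 490883248) (nat_lit 411) (nat_lit 4) (nat_lit 434) (nat_lit 5) (nat_lit 434) (nat_lit 4) (nat_lit 326) (nat_lit 287) (nat_lit 287)))))) (XT.nd (nat_lit 390) (nat_lit 4636) (nat_lit 0) (XT.nd (nat_lit 156) (nat_lit 3496) (nat_lit 0) (XT.nd (nat_lit 78) (nat_lit 988) (nat_lit 0) (XT.lf (nat_lit 0) (nat_lit 4135781834) (nat_lit 1216) (nat_lit 1408672928) (nat_lit 0) (nat_lit 1700127517) (nat_lit 395) (nat_lit 5) (nat_lit 411) (nat_lit 4) (nat_lit 395) (nat_lit 4) (nat_lit 327) (nat_lit 287) (nat_lit 286)) (XT.lf (nat_lit 0) (nat_lit 1974054226) (nat_lit 988) (nat_lit 812777709)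 (nat_lit 76) (nat_lit 4520369946) (nat_lit 382) (nat_lit 5) (nat_lit 395) (nat_lit 5) (nat_lit 383) (nat_lit 4) (nat_lit 328) (nat_lit 287) (nat_lit 285))) (XT.nd (nat_lit 78) (nat_lit 2660) (nat_lit 0) (XT.lf (nat_lit 0) (nat_lit 7078809365) (nat_lit 912) (nat_lit 172563472) (nat_lit 0) (nat_lit 121745596) (nat_lit 371) (nat_lit 5) (nat_lit 383) (nat_lit 4) (nat_lit 371) (nat_lit 4) (nat_lit 329) (nat_lit 287) (nat_lit 284)) (XT.nd (nat_lit 78) (nat_lit 912) (nat_lit 0) (XT.lf (nat_lit 0) (nat_lit 487869550) (nat_lit 836) (nat_lit 4279554600) (nat_lit 912) (nat_lit 2674293231) (nat_lit 348) (nat_lit 5) (nat_lit 359) (nat_lit 5) (nat_lit 360) (nat_lit 4) (nat_lit 330) (nat_lit 287) (nat_lit 283)) (XT.lf (nat_lit 0) (nat_lit 1195816164) (nat_lit 836) (nat_lit 1154592334) (nat_lit 912) (nat_lit 5163302199) (nat_lit 336) (nat_lit 5) (nat_lit 347) (nat_lit 5) (nat_lit 348) (nat_lit 5) (nat_lit 331) (nat_lit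 287) (nat_lit 282))))) (XT.nd (nat_lit 234) (nat_lit 2280) (nat_lit 0) (XT.nd (nat_lit 78) (nat_lit 1596) (nat_lit 0) (XT.lf (nat_lit 0) (nat_lit 1933472071) (nat_lit 760) (nat_lit 5490282618) (nat_lit 836) (nat_lit 165125712) (nat_lit 326) (nat_lit 5) (nat_lit 336) (nat_lit 5) (nat_lit 337) (nat_lit 4) (nat_lit 332) (nat_lit 287) (nat_lit 281)) (XT.nd (nat_lit 78) (nat_lit 760) (nat_lit 0) (XT.lf (nat_lit 0) (nat_lit 2690513352) (nat_lit 760) (nat_lit 2158147357) (nat_lit 836) (nat_lit 2818429298) (nat_lit 315) (nat_lit 5) (nat_lit 325) (nat_lit 5) (nat_lit 326) (nat_lit 5) (nat_lit 333) (nat_lit 287) (nat_lit 280)) (XT.lf (nat_lit 0) (nat_lit 2167977088) (nat_lit 760) (nat_lit 4267538270) (nat_lit 76) (nat_lit 1313171293) (nat_lit 305) (nat_lit 5) (nat_lit 315) (nat_lit 5) (nat_lit 306) (nat_lit 5) (nat_lit 334) (nat_lit 287) (nat_lit 279)))) (XT.nd (nat_lit 78) (nat_lit 1520) (nat_lit 0) (XT.lf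 (nat_lit 0) (nat_lit 4294373218) (nat_lit 760) (nat_lit 2915362881) (nat_lit 836) (nat_lit 623789721) (nat_lit 295) (nat_lit 5) (nat_lit 305) (nat_lit 5) (nat_lit 306) (nat_lit 5) (nat_lit 335) (nat_lit 287) (nat_lit 278)) (XT.nd (nat_lit 78) (nat_lit 760) (nat_lit 0) (XT.lf (nat_lit 0) (nat_lit 4360066362) (nat_lit 760) (nat_lit 2793876003) (nat_lit 76) (nat_lit 767691573) (nat_lit 285) (nat_lit 5) (nat_lit 295) (nat_lit 5) (nat_lit 286) (nat_lit 5) (nat_lit 336) (nat_lit 287) (nat_lit 277)) (XT.lf (nat_lit 0) (nat_lit 1407731684) (nat_lit 760) (nat_lit 2032806087) (nat_lit 76) (nat_lit 4572529847) (nat_lit 275) (nat_lit 5) (nat_lit 285) (nat_lit 5) (nat_lit 276) (nat_lit 5) (nat_lit 337) (nat_lit 287) (nat_lit 276))))))) (XT.nd (nat_lit 780) (nat_lit 5168) (nat_lit 0) (XT.nd (nat_lit 390) (nat_lit 2812) (nat_lit 0) (XT.nd (nat_lit 156) (nat_lit 2508) (nat_lit 0) (XT.nd (nat_lit 78) (nat_lit 760)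 (nat_lit 0) (XT.lf (nat_lit 0) (nat_lit 6418484073) (nat_lit 684) (nat_lit 1251336689) (nat_lit 76) (nat_lit 438179915) (nat_lit 267) (nat_lit 5) (nat_lit 276) (nat_lit 5) (nat_lit 268) (nat_lit 5) (nat_lit 338) (nat_lit 287) (nat_lit 275)) (XT.lf (nat_lit 0) (nat_lit 3292990750) (nat_lit 760) (nat_lit 469631534) (nat_lit 76) (nat_lit 4443492529) (nat_lit 257) (nat_lit 5) (nat_lit 267) (nat_lit 5) (nat_lit 258) (nat_lit 5) (nat_lit 339) (nat_lit 287) (nat_lit 274))) (XT.nd (nat_lit 78) (nat_lit 1216) (nat_lit 0) (XT.lf (nat_lit 0) (nat_lit 40774642) (nat_lit 684) (nat_lit 7962057914) (nat_lit 76) (nat_lit 305203552) (nat_lit 240) (nat_lit 5) (nat_lit 249) (nat_lit 5) (nat_lit 241) (nat_lit 5) (nat_lit 340) (nat_lit 287) (nat_lit 273)) (XT.nd (nat_lit 78) (nat_lit 684) (nat_lit 0) (XT.lf (nat_lit 0) (nat_lit 1150803489) (nat_lit 532) (nat_lit 3899956386) (nat_lit 608) (nat_lit 3362158596) (nat_lit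 233) (nat_lit 5) (nat_lit 240) (nat_lit 5) (nat_lit 241) (nat_lit 5) (nat_lit 341) (nat_lit 287) (nat_lit 272)) (XT.lf (nat_lit 0) (nat_lit 1617976463) (nat_lit 684) (nat_lit 6540160685) (nat_lit 76) (nat_lit 363625330) (nat_lit 224) (nat_lit 5) (nat_lit 233) (nat_lit 5) (nat_lit 225) (nat_lit 5) (nat_lit 342) (nat_lit 287) (nat_lit 271))))) (XT.nd (nat_lit 156) (nat_lit 1672) (nat_lit 0) (XT.nd (nat_lit 78) (nat_lit 608) (nat_lit 0) (XT.lf (nat_lit 0) (nat_lit 2800579751) (nat_lit 532) (nat_lit 3878016690) (nat_lit 608) (nat_lit 1955330201) (nat_lit 217) (nat_lit 5) (nat_lit 224) (nat_lit 5) (nat_lit 225) (nat_lit 5) (nat_lit 343) (nat_lit 287) (nat_lit 270)) (XT.lf (nat_lit 0) (nat_lit 3056678576) (nat_lit 608) (nat_lit 5119776648) (nat_lit 76) (nat_lit 573499371) (nat_lit 209) (nat_lit 5) (nat_lit 217) (nat_lit 5) (nat_lit 210) (nat_lit 5) (nat_lit 344) (nat_lit 287) (nat_lit 269))) (XT.nd (nat_lit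 78) (nat_lit 1140) (nat_lit 0) (XT.lf (nat_lit 0) (nat_lit 4452954415) (nat_lit 532) (nat_lit 3720756921) (nat_lit 608) (nat_lit 695900863) (nat_lit 202) (nat_lit 5) (nat_lit 209) (nat_lit 5) (nat_lit 210) (nat_lit 5) (nat_lit 345) (nat_lit 287) (nat_lit 268)) (XT.nd (nat_lit 78) (nat_lit 532) (nat_lit 0) (XT.lf (nat_lit 0) (nat_lit 4356207697) (nat_lit 608) (nat_lit 3722290067) (nat_lit 76) (nat_lit 914550227) (nat_lit 194) (nat_lit 5) (nat_lit 202) (nat_lit 5) (nat_lit 195) (nat_lit 5) (nat_lit 346) (nat_lit 287) (nat_lit 267)) (XT.lf (nat_lit 0) (nat_lit 409134782) (nat_lit 532) (nat_lit 3036790125) (nat_lit 76) (nat_lit 5674453987) (nat_lit 187) (nat_lit 5) (nat_lit 194) (nat_lit 5) (nat_lit 188) (nat_lit 5) (nat_lit 347) (nat_lit 287) (nat_lit 266)))))) (XT.nd (nat_lit 390) (nat_lit 2432) (nat_lit 0) (XT.nd (nat_lit 156) (nat_lit 1748) (nat_lit 0) (XT.nd (nat_lit 78) (nat_lit 532) (nat_lit 0)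 (XT.lf (nat_lit 0) (nat_lit 5514452771) (nat_lit 532) (nat_lit 2370334035) (nat_lit 76) (nat_lit 1366738774) (nat_lit 181) (nat_lit 5) (nat_lit 188) (nat_lit 5) (nat_lit 182) (nat_lit 5) (nat_lit 348) (nat_lit 287) (nat_lit 265)) (XT.lf (nat_lit 0) (nat_lit 1355023405) (nat_lit 532) (nat_lit 1718005854) (nat_lit 76) (nat_lit 6313686450) (nat_lit 174) (nat_lit 5) (nat_lit 181) (nat_lit 5) (nat_lit 175) (nat_lit 5) (nat_lit 349) (nat_lit 287) (nat_lit 264))) (XT.nd (nat_lit 78) (nat_lit 1292) (nat_lit 0) (XT.lf (nat_lit 0) (nat_lit 6527806158) (nat_lit 532) (nat_lit 1088031282) (nat_lit 76) (nat_lit 1910082063) (nat_lit 168) (nat_lit 5) (nat_lit 175) (nat_lit 5) (nat_lit 169) (nat_lit 5) (nat_lit 350) (nat_lit 287) (nat_lit 263)) (XT.nd (nat_lit 78) (nat_lit 836) (nat_lit 0) (XT.lf (nat_lit 0) (nat_lit 2146328994) (nat_lit 456) (nat_lit 480800803) (nat_lit 76) (nat_lit 7042139721) (nat_lit 162) (nat_lit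 5) (nat_lit 168) (nat_lit 5) (nat_lit 163) (nat_lit 5) (nat_lit 351) (nat_lit 287) (nat_lit 262)) (XT.lf (nat_lit 0) (nat_lit 100059541) (nat_lit 380) (nat_lit 7291681442) (nat_lit 456) (nat_lit 2425059274) (nat_lit 151) (nat_lit 5) (nat_lit 156) (nat_lit 5) (nat_lit 157) (nat_lit 5) (nat_lit 352) (nat_lit 287) (nat_lit 261))))) (XT.nd (nat_lit 234) (nat_lit 1140) (nat_lit 0) (XT.nd (nat_lit 78) (nat_lit 836) (nat_lit 0) (XT.lf (nat_lit 0) (nat_lit 656541262) (nat_lit 380) (nat_lit 2124585140) (nat_lit 456) (nat_lit 7187437812) (nat_lit 145) (nat_lit 5) (nat_lit 150) (nat_lit 5) (nat_lit 151) (nat_lit 5) (nat_lit 353) (nat_lit 287) (nat_lit 260)) (XT.nd (nat_lit 78) (nat_lit 456) (nat_lit 0) (XT.lf (nat_lit 0) (nat_lit 1177547289) (nat_lit 380) (nat_lit 6927574369) (nat_lit 456) (nat_lit 2019569551) (nat_lit 140) (nat_lit 5) (nat_lit 145) (nat_lit 5) (nat_lit 146) (nat_lit 5) (nat_lit 354) (nat_lit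 287) (nat_lit 259)) (XT.lf (nat_lit 0) (nat_lit 1660906459) (nat_lit 380) (nat_lit 1588597741) (nat_lit 456) (nat_lit 7035800068) (nat_lit 134) (nat_lit 5) (nat_lit 139) (nat_lit 5) (nat_lit 140) (nat_lit 5) (nat_lit 355) (nat_lit 287) (nat_lit 258)))) (XT.nd (nat_lit 78) (nat_lit 760) (nat_lit 0) (XT.lf (nat_lit 0) (nat_lit 2099344151) (nat_lit 380) (nat_lit 6552657537) (nat_lit 456) (nat_lit 1798431708) (nat_lit 129) (nat_lit 5) (nat_lit 134) (nat_lit 5) (nat_lit 135) (nat_lit 5) (nat_lit 356) (nat_lit 287) (nat_lit 257)) (XT.nd (nat_lit 78) (nat_lit 304) (nat_lit 0) (XT.lf (nat_lit 0) (nat_lit 2493935804) (nat_lit 380) (nat_lit 1044419515) (nat_lit 456) (nat_lit 7081924374) (nat_lit 123) (nat_lit 5) (nat_lit 128) (nat_lit 5) (nat_lit 129) (nat_lit 5) (nat_lit 357) (nat_lit 287) (nat_lit 256)) (XT.lf (nat_lit 0) (nat_lit 2832130123) (nat_lit 304) (nat_lit 6189569161) (nat_lit 380) (nat_lit 1773085505)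 (nat_lit 119) (nat_lit 5) (nat_lit 123) (nat_lit 5) (nat_lit 124) (nat_lit 5) (nat_lit 358) (nat_lit 287) (nat_lit 255))))))))
noncomputable def xc24 : XT := (XT.nd (nat_lit 1560) (nat_lit 1444) (nat_lit 0) (XT.nd (nat_lit 780) (nat_lit 2204) (nat_lit 0) (XT.nd (nat_lit 390) (nat_lit 1520) (nat_lit 0) (XT.nd (nat_lit 156) (nat_lit 1064) (nat_lit 0) (XT.nd (nat_lit 78) (nat_lit 304) (nat_lit 0) (XT.lf (nat_lit 0) (nat_lit 3120795395) (nat_lit 380) (nat_lit 514965300) (nat_lit 456) (nat_lit 7338518465) (nat_lit 113) (nat_lit 5) (nat_lit 118) (nat_lit 5) (nat_lit 119) (nat_lit 5) (nat_lit 359) (nat_lit 287) (nat_lit 254)) (XT.lf (nat_lit 0) (nat_lit 3339532482) (nat_lit 304) (nat_lit 5861968279) (nat_lit 380) (nat_lit 1957066312) (nat_lit 109) (nat_lit 5) (nat_lit 113) (nat_lit 5) (nat_lit 114) (nat_lit 5) (nat_lit 360) (nat_lit 287) (nat_lit 253))) (XT.nd (nat_lit 78) (nat_lit 684) (nat_lit 0) (XT.lf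 (nat_lit 0) (nat_lit 3503409454) (nat_lit 304) (nat_lit 24268469) (nat_lit 380) (nat_lit 7820479148) (nat_lit 104) (nat_lit 5) (nat_lit 108) (nat_lit 5) (nat_lit 109) (nat_lit 5) (nat_lit 361) (nat_lit 287) (nat_lit 252)) (XT.nd (nat_lit 78) (nat_lit 380) (nat_lit 0) (XT.lf (nat_lit 0) (nat_lit 3581731796) (nat_lit 304) (nat_lit 5594770803) (nat_lit 380) (nat_lit 2366167047) (nat_lit 100) (nat_lit 5) (nat_lit 104) (nat_lit 5) (nat_lit 105) (nat_lit 5) (nat_lit 362) (nat_lit 287) (nat_lit 251)) (XT.lf (nat_lit 0) (nat_lit 3200384647) (nat_lit 380) (nat_lit 8145401348) (nat_lit 76) (nat_lit 396999558) (nat_lit 95) (nat_lit 5) (nat_lit 100) (nat_lit 5) (nat_lit 96) (nat_lit 5) (nat_lit 363) (nat_lit 287) (nat_lit 250))))) (XT.nd (nat_lit 156) (nat_lit 836) (nat_lit 0) (XT.nd (nat_lit 78) (nat_lit 380) (nat_lit 0) (XT.lf (nat_lit 0) (nat_lit 3515031311) (nat_lit 304) (nat_lit 5414401152) (nat_lit 380)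 (nat_lit 3018621655) (nat_lit 91) (nat_lit 5) (nat_lit 95) (nat_lit 5) (nat_lit 96) (nat_lit 5) (nat_lit 364) (nat_lit 287) (nat_lit 249)) (XT.lf (nat_lit 0) (nat_lit 2632018226) (nat_lit 380) (nat_lit 8799232123) (nat_lit 76) (nat_lit 727974243) (nat_lit 86) (nat_lit 5) (nat_lit 91) (nat_lit 5) (nat_lit 87) (nat_lit 5) (nat_lit 365) (nat_lit 287) (nat_lit 248))) (XT.nd (nat_lit 78) (nat_lit 608) (nat_lit 0) (XT.lf (nat_lit 0) (nat_lit 3091385495) (nat_lit 228) (nat_lit 5349061789) (nat_lit 304) (nat_lit 3935311995) (nat_lit 83) (nat_lit 5) (nat_lit 86) (nat_lit 5) (nat_lit 87) (nat_lit 5) (nat_lit 366) (nat_lit 287) (nat_lit 247)) (XT.nd (nat_lit 78) (nat_lit 228) (nat_lit 0) (XT.lf (nat_lit 0) (nat_lit 1800720249) (nat_lit 380) (nat_lit 9857406297) (nat_lit 76) (nat_lit 940433534) (nat_lit 78) (nat_lit 5) (nat_lit 83) (nat_lit 5) (nat_lit 79) (nat_lit 5) (nat_lit 367) (nat_lit 287) (nat_lit 246))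 (XT.lf (nat_lit 0) (nat_lit 2257883165) (nat_lit 228) (nat_lit 5429023189) (nat_lit 304) (nat_lit 5140000274) (nat_lit 75) (nat_lit 5) (nat_lit 78) (nat_lit 5) (nat_lit 79) (nat_lit 5) (nat_lit 368) (nat_lit 287) (nat_lit 245)))))) (XT.nd (nat_lit 390) (nat_lit 1140) (nat_lit 0) (XT.nd (nat_lit 156) (nat_lit 532) (nat_lit 0) (XT.nd (nat_lit 78) (nat_lit 228) (nat_lit 0) (XT.lf (nat_lit 0) (nat_lit 681838339) (nat_lit 304) (nat_lit 11376459251) (nat_lit 76) (nat_lit 1003663194) (nat_lit 71) (nat_lit 5) (nat_lit 75) (nat_lit 5) (nat_lit 72) (nat_lit 5) (nat_lit 369) (nat_lit 287) (nat_lit 244)) (XT.lf (nat_lit 0) (nat_lit 956180126) (nat_lit 228) (nat_lit 5686936970) (nat_lit 304) (nat_lit 6659589384) (nat_lit 68) (nat_lit 5) (nat_lit 71) (nat_lit 5) (nat_lit 72) (nat_lit 5) (nat_lit 370) (nat_lit 287) (nat_lit 243))) (XT.nd (nat_lit 78) (nat_lit 304) (nat_lit 0) (XT.lf (nat_lit 0) (nat_lit 126901329)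 (nat_lit 228) (nat_lit 12661184542) (nat_lit 304) (nat_lit 762503071) (nat_lit 65) (nat_lit 5) (nat_lit 68) (nat_lit 5) (nat_lit 69) (nat_lit 5) (nat_lit 371) (nat_lit 287) (nat_lit 242)) (XT.nd (nat_lit 78) (nat_lit 228) (nat_lit 0) (XT.lf (nat_lit 0) (nat_lit 5285752318) (nat_lit 304) (nat_lit 866607462) (nat_lit 76) (nat_lit 7651990908) (nat_lit 64) (nat_lit 5) (nat_lit 68) (nat_lit 5) (nat_lit 65) (nat_lit 5) (nat_lit 372) (nat_lit 287) (nat_lit 241)) (XT.lf (nat_lit 0) (nat_lit 11511404788) (nat_lit 304) (nat_lit 1977672290) (nat_lit 76) (nat_lit 576431791) (nat_lit 61) (nat_lit 5) (nat_lit 65) (nat_lit 5) (nat_lit 62) (nat_lit 5) (nat_lit 373) (nat_lit 287) (nat_lit 240))))) (XT.nd (nat_lit 156) (nat_lit 684) (nat_lit 0) (XT.nd (nat_lit 78) (nat_lit 152) (nat_lit 0) (XT.lf (nat_lit 0) (nat_lit 3586557310) (nat_lit 304) (nat_lit 3272680205) (nat_lit 76) (nat_lit 7473922110) (nat_lit 57) (nat_lit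 5) (nat_lit 61) (nat_lit 5) (nat_lit 58) (nat_lit 5) (nat_lit 374) (nat_lit 287) (nat_lit 239)) (XT.lf (nat_lit 0) (nat_lit 9880622348) (nat_lit 228) (nat_lit 4714612925) (nat_lit 76) (nat_lit 13199055) (nat_lit 55) (nat_lit 5) (nat_lit 58) (nat_lit 5) (nat_lit 56) (nat_lit 5) (nat_lit 375) (nat_lit 287) (nat_lit 238))) (XT.nd (nat_lit 78) (nat_lit 380) (nat_lit 0) (XT.lf (nat_lit 0) (nat_lit 1503147424) (nat_lit 304) (nat_lit 6352186073) (nat_lit 76) (nat_lit 7035433885) (nat_lit 51) (nat_lit 5) (nat_lit 55) (nat_lit 5) (nat_lit 52) (nat_lit 5) (nat_lit 376) (nat_lit 287) (nat_lit 237)) (XT.nd (nat_lit 78) (nat_lit 228) (nat_lit 0) (XT.lf (nat_lit 0) (nat_lit 7008110596) (nat_lit 152) (nat_lit 854440822) (nat_lit 228) (nat_lit 7318288048) (nat_lit 49) (nat_lit 5) (nat_lit 51) (nat_lit 5) (nat_lit 52) (nat_lit 5) (nat_lit 377) (nat_lit 287) (nat_lit 236)) (XT.lf (nat_lit 0) (nat_lit 5281108702) (nat_lit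 228) (nat_lit 9179208584) (nat_lit 304) (nat_lit 1018353588) (nat_lit 46) (nat_lit 5) (nat_lit 49) (nat_lit 5) (nat_lit 50) (nat_lit 5) (nat_lit 378) (nat_lit 287) (nat_lit 235))))))) (XT.nd (nat_lit 42744) (nat_lit 0) (nat_lit 19608) (XT.nd (nat_lit 390) (nat_lit 608) (nat_lit 0) (XT.nd (nat_lit 156) (nat_lit 380) (nat_lit 0) (XT.nd (nat_lit 78) (nat_lit 228) (nat_lit 0) (XT.lf (nat_lit 0) (nat_lit 3345433177) (nat_lit 152) (nat_lit 2066084713) (nat_lit 228) (nat_lit 10372963564) (nat_lit 43) (nat_lit 5) (nat_lit 45) (nat_lit 5) (nat_lit 46) (nat_lit 5) (nat_lit 379) (nat_lit 287) (nat_lit 234)) (XT.lf (nat_lit 0) (nat_lit 1188376687) (nat_lit 228) (nat_lit 10874017977) (nat_lit 304) (nat_lit 4036106262) (nat_lit 40) (nat_lit 5) (nat_lit 43) (nat_lit 5) (nat_lit 44) (nat_lit 5) (nat_lit 380) (nat_lit 287) (nat_lit 233))) (XT.nd (nat_lit 78) (nat_lit 304) (nat_lit 0) (XT.lf (nat_lit 0) (nat_lit 2488077571)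 (nat_lit 304) (nat_lit 1176859710) (nat_lit 76) (nat_lit 12756090182) (nat_lit 39) (nat_lit 5) (nat_lit 43) (nat_lit 5) (nat_lit 40) (nat_lit 5) (nat_lit 381) (nat_lit 287) (nat_lit 232)) (XT.nd (nat_lit 78) (nat_lit 152) (nat_lit 0) (XT.lf (nat_lit 0) (nat_lit 9195882782) (nat_lit 228) (nat_lit 3782760224) (nat_lit 76) (nat_lit 3773206080) (nat_lit 37) (nat_lit 5) (nat_lit 40) (nat_lit 5) (nat_lit 38) (nat_lit 5) (nat_lit 382) (nat_lit 287) (nat_lit 231)) (XT.lf (nat_lit 0) (nat_lit 10459185343) (nat_lit 152) (nat_lit 5680278095) (nat_lit 228) (nat_lit 952448356) (nat_lit 35) (nat_lit 5) (nat_lit 37) (nat_lit 5) (nat_lit 38) (nat_lit 5) (nat_lit 383) (nat_lit 287) (nat_lit 230))))) (XT.nd (nat_lit 156) (nat_lit 228) (nat_lit 0) (XT.nd (nat_lit 78) (nat_lit 152) (nat_lit 0) (XT.lf (nat_lit 0) (nat_lit 5795355124) (nat_lit 228) (nat_lit 9767907905) (nat_lit 76) (nat_lit 1877702869) (nat_lit 32) (nat_lit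 5) (nat_lit 35) (nat_lit 5) (nat_lit 33) (nat_lit 5) (nat_lit 384) (nat_lit 287) (nat_lit 229)) (XT.lf (nat_lit 0) (nat_lit 4600303944) (nat_lit 152) (nat_lit 8181194763) (nat_lit 228) (nat_lit 5017896794) (nat_lit 30) (nat_lit 5) (nat_lit 32) (nat_lit 5) (nat_lit 33) (nat_lit 5) (nat_lit 385) (nat_lit 287) (nat_lit 228))) (XT.nd (nat_lit 42042) (nat_lit 0) (nat_lit 30932) (XT.lf (nat_lit 0) (nat_lit 1256731662) (nat_lit 152) (nat_lit 539375690) (nat_lit 228) (nat_lit 16372018578) (nat_lit 27) (nat_lit 5) (nat_lit 29) (nat_lit 5) (nat_lit 30) (nat_lit 5) (nat_lit 386) (nat_lit 287) (nat_lit 227)) (XT.nd (nat_lit 78) (nat_lit 1748) (nat_lit 0) (XT.lf (nat_lit 0) (nat_lit 2093742596) (nat_lit 1596) (nat_lit 721582170) (nat_lit 1596) (nat_lit 721582170) (nat_lit 457) (nat_lit 4) (nat_lit 478) (nat_lit 5) (nat_lit 478) (nat_lit 4) (nat_lit 324) (nat_lit 288) (nat_lit 288)) (XT.lf (nat_lit 0) (nat_lit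 3599934381) (nat_lit 1748) (nat_lit 2487636825) (nat_lit 0) (nat_lit 1041035955) (nat_lit 434) (nat_lit 5) (nat_lit 457) (nat_lit 4) (nat_lit 434) (nat_lit 4) (nat_lit 325) (nat_lit 288) (nat_lit 287)))))) (XT.nd (nat_lit 390) (nat_lit 4788) (nat_lit 0) (XT.nd (nat_lit 156) (nat_lit 3572) (nat_lit 0) (XT.nd (nat_lit 78) (nat_lit 1140) (nat_lit 0) (XT.lf (nat_lit 0) (nat_lit 1481840429) (nat_lit 1824) (nat_lit 2049948162) (nat_lit 76) (nat_lit 3654669387) (nat_lit 410) (nat_lit 5) (nat_lit 434) (nat_lit 5) (nat_lit 411) (nat_lit 4) (nat_lit 326) (nat_lit 288) (nat_lit 286)) (XT.lf (nat_lit 0) (nat_lit 5678356006) (nat_lit 1140) (nat_lit 823440540) (nat_lit 1216) (nat_lit 745705445) (nat_lit 395) (nat_lit 5) (nat_lit 410) (nat_lit 5) (nat_lit 411) (nat_lit 4) (nat_lit 327) (nat_lit 288) (nat_lit 285))) (XT.nd (nat_lit 78) (nat_lit 2584) (nat_lit 0) (XT.lf (nat_lit 0) (nat_lit 4227947067) (nat_lit 988)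 (nat_lit 1064475915) (nat_lit 76) (nat_lit 2018986675) (nat_lit 382) (nat_lit 5) (nat_lit 395) (nat_lit 5) (nat_lit 383) (nat_lit 4) (nat_lit 328) (nat_lit 288) (nat_lit 284)) (XT.nd (nat_lit 78) (nat_lit 1672) (nat_lit 0) (XT.lf (nat_lit 0) (nat_lit 1856567559) (nat_lit 912) (nat_lit 519621169) (nat_lit 76) (nat_lit 5002376081) (nat_lit 370) (nat_lit 5) (nat_lit 382) (nat_lit 5) (nat_lit 371) (nat_lit 5) (nat_lit 329) (nat_lit 288) (nat_lit 283)) (XT.lf (nat_lit 0) (nat_lit 62623816) (nat_lit 836) (nat_lit 6762177839) (nat_lit 912) (nat_lit 624145061) (nat_lit 348) (nat_lit 5) (nat_lit 359) (nat_lit 5) (nat_lit 360) (nat_lit 4) (nat_lit 330) (nat_lit 288) (nat_lit 282))))) (XT.nd (nat_lit 234) (nat_lit 2280) (nat_lit 0) (XT.nd (nat_lit 78) (nat_lit 1596) (nat_lit 0) (XT.lf (nat_lit 0) (nat_lit 667362350) (nat_lit 836) (nat_lit 3634776552) (nat_lit 912) (nat_lit 3219992531) (nat_lit 336) (nat_lit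 5) (nat_lit 347) (nat_lit 5) (nat_lit 348) (nat_lit 5) (nat_lit 331) (nat_lit 288) (nat_lit 281)) (XT.nd (nat_lit 78) (nat_lit 760) (nat_lit 0) (XT.lf (nat_lit 0) (nat_lit 1315419188) (nat_lit 760) (nat_lit 354466877) (nat_lit 836) (nat_lit 5928909428) (nat_lit 325) (nat_lit 5) (nat_lit 335) (nat_lit 5) (nat_lit 336) (nat_lit 5) (nat_lit 332) (nat_lit 288) (nat_lit 280)) (XT.lf (nat_lit 0) (nat_lit 1978959959) (nat_lit 760) (nat_lit 4629975408) (nat_lit 836) (nat_lit 1069524694) (nat_lit 315) (nat_lit 5) (nat_lit 325) (nat_lit 5) (nat_lit 326) (nat_lit 5) (nat_lit 333) (nat_lit 288) (nat_lit 279)))) (XT.nd (nat_lit 78) (nat_lit 1520) (nat_lit 0) (XT.lf (nat_lit 0) (nat_lit 2669784020) (nat_lit 684) (nat_lit 1145526684) (nat_lit 760) (nat_lit 3946115348) (nat_lit 305) (nat_lit 5) (nat_lit 314) (nat_lit 5) (nat_lit 315) (nat_lit 5) (nat_lit 334) (nat_lit 288) (nat_lit 278)) (XT.nd (nat_lit 78) (nat_lit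 684) (nat_lit 0) (XT.lf (nat_lit 0) (nat_lit 920377673) (nat_lit 836) (nat_lit 4463162191) (nat_lit 76) (nat_lit 2464160125) (nat_lit 294) (nat_lit 5) (nat_lit 305) (nat_lit 5) (nat_lit 295) (nat_lit 5) (nat_lit 335) (nat_lit 288) (nat_lit 277)) (XT.lf (nat_lit 0) (nat_lit 4116749287) (nat_lit 684) (nat_lit 1705252468) (nat_lit 760) (nat_lit 2115228338) (nat_lit 285) (nat_lit 5) (nat_lit 294) (nat_lit 5) (nat_lit 295) (nat_lit 5) (nat_lit 336) (nat_lit 288) (nat_lit 276))))))))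
noncomputable def xc25 : XT := (XT.nd (nat_lit 1560) (nat_lit 6308) (nat_lit 0) (XT.nd (nat_lit 780) (nat_lit 4560) (nat_lit 0) (XT.nd (nat_lit 390) (nat_lit 3496) (nat_lit 0) (XT.nd (nat_lit 156) (nat_lit 2052) (nat_lit 0) (XT.nd (nat_lit 78) (nat_lit 608) (nat_lit 0) (XT.lf (nat_lit 0) (nat_lit 2755166876) (nat_lit 760) (nat_lit 3163619950) (nat_lit 76) (nat_lit 2111308745) (nat_lit 275) (nat_lit 5) (nat_lit 285) (nat_lit 5) (nat_lit 276) (nat_lit 5) (nat_lit 337) (nat_lit 288) (nat_lit 275)) (XT.lf (nat_lit 0) (nat_lit 5638444172) (nat_lit 608) (nat_lit 2056406746) (nat_lit 684) (nat_lit 431619380) (nat_lit 267) (nat_lit 5) (nat_lit 275) (nat_lit 5) (nat_lit 276) (nat_lit 5) (nat_lit 338) (nat_lit 288) (nat_lit 274))) (XT.nd (nat_lit 78) (nat_lit 1292) (nat_lit 0) (XT.lf (nat_lit 0) (nat_lit 4452878062) (nat_lit 760) (nat_lit 1812184835) (nat_lit 76) (nat_lit 1961007766) (nat_lit 257) (nat_lit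 5) (nat_lit 267) (nat_lit 5) (nat_lit 258) (nat_lit 5) (nat_lit 339) (nat_lit 288) (nat_lit 273)) (XT.nd (nat_lit 78) (nat_lit 608) (nat_lit 0) (XT.lf (nat_lit 0) (nat_lit 1093480012) (nat_lit 684) (nat_lit 1120013836) (nat_lit 76) (nat_lit 6115813993) (nat_lit 248) (nat_lit 5) (nat_lit 257) (nat_lit 5) (nat_lit 249) (nat_lit 5) (nat_lit 340) (nat_lit 288) (nat_lit 272)) (XT.lf (nat_lit 0) (nat_lit 6016219423) (nat_lit 684) (nat_lit 427611799) (nat_lit 76) (nat_lit 1992121755) (nat_lit 240) (nat_lit 5) (nat_lit 249) (nat_lit 5) (nat_lit 241) (nat_lit 5) (nat_lit 341) (nat_lit 288) (nat_lit 271))))) (XT.nd (nat_lit 156) (nat_lit 1748) (nat_lit 0) (XT.nd (nat_lit 78) (nat_lit 532) (nat_lit 0) (XT.lf (nat_lit 0) (nat_lit 273316660) (nat_lit 608) (nat_lit 2201222069) (nat_lit 684) (nat_lit 6071622928) (nat_lit 224) (nat_lit 5) (nat_lit 232) (nat_lit 5) (nat_lit 233) (nat_lit 5) (nat_lit 342) (nat_lit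 288) (nat_lit 270)) (XT.lf (nat_lit 0) (nat_lit 983552959) (nat_lit 532) (nat_lit 6469415796) (nat_lit 608) (nat_lit 1207017367) (nat_lit 217) (nat_lit 5) (nat_lit 224) (nat_lit 5) (nat_lit 225) (nat_lit 5) (nat_lit 343) (nat_lit 288) (nat_lit 269))) (XT.nd (nat_lit 78) (nat_lit 1140) (nat_lit 0) (XT.lf (nat_lit 0) (nat_lit 1686194471) (nat_lit 532) (nat_lit 2037238751) (nat_lit 608) (nat_lit 5053934268) (nat_lit 209) (nat_lit 5) (nat_lit 216) (nat_lit 5) (nat_lit 217) (nat_lit 5) (nat_lit 344) (nat_lit 288) (nat_lit 268)) (XT.nd (nat_lit 78) (nat_lit 608) (nat_lit 0) (XT.lf (nat_lit 0) (nat_lit 2393666345) (nat_lit 532) (nat_lit 6365891507) (nat_lit 608) (nat_lit 139100653) (nat_lit 202) (nat_lit 5) (nat_lit 209) (nat_lit 5) (nat_lit 210) (nat_lit 5) (nat_lit 345) (nat_lit 288) (nat_lit 267)) (XT.lf (nat_lit 0) (nat_lit 3082531137) (nat_lit 532) (nat_lit 1749340983) (nat_lit 608) (nat_lit 4191641055)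 (nat_lit 194) (nat_lit 5) (nat_lit 201) (nat_lit 5) (nat_lit 202) (nat_lit 5) (nat_lit 346) (nat_lit 288) (nat_lit 266)))))) (XT.nd (nat_lit 390) (nat_lit 2128) (nat_lit 0) (XT.nd (nat_lit 156) (nat_lit 1444) (nat_lit 0) (XT.nd (nat_lit 78) (nat_lit 456) (nat_lit 0) (XT.lf (nat_lit 0) (nat_lit 768986843) (nat_lit 532) (nat_lit 5382234151) (nat_lit 76) (nat_lit 3001169257) (nat_lit 187) (nat_lit 5) (nat_lit 194) (nat_lit 5) (nat_lit 188) (nat_lit 5) (nat_lit 347) (nat_lit 288) (nat_lit 265)) (XT.lf (nat_lit 0) (nat_lit 4439893613) (nat_lit 456) (nat_lit 1357609342) (nat_lit 532) (nat_lit 3487583432) (nat_lit 181) (nat_lit 5) (nat_lit 187) (nat_lit 5) (nat_lit 188) (nat_lit 5) (nat_lit 348) (nat_lit 288) (nat_lit 264))) (XT.nd (nat_lit 78) (nat_lit 912) (nat_lit 0) (XT.lf (nat_lit 0) (nat_lit 1524215693) (nat_lit 532) (nat_lit 4326603692) (nat_lit 76) (nat_lit 3570978001) (nat_lit 174) (nat_lit 5) (nat_lit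 181) (nat_lit 5) (nat_lit 175) (nat_lit 5) (nat_lit 349) (nat_lit 288) (nat_lit 263)) (XT.nd (nat_lit 78) (nat_lit 456) (nat_lit 0) (XT.lf (nat_lit 0) (nat_lit 5734380457) (nat_lit 456) (nat_lit 882104117) (nat_lit 532) (nat_lit 2946139279) (nat_lit 168) (nat_lit 5) (nat_lit 174) (nat_lit 5) (nat_lit 175) (nat_lit 5) (nat_lit 350) (nat_lit 288) (nat_lit 262)) (XT.lf (nat_lit 0) (nat_lit 2123485402) (nat_lit 456) (nat_lit 3362408925) (nat_lit 76) (nat_lit 4221567313) (nat_lit 162) (nat_lit 5) (nat_lit 168) (nat_lit 5) (nat_lit 163) (nat_lit 5) (nat_lit 351) (nat_lit 288) (nat_lit 261))))) (XT.nd (nat_lit 156) (nat_lit 1216) (nat_lit 0) (XT.nd (nat_lit 78) (nat_lit 456) (nat_lit 0) (XT.lf (nat_lit 0) (nat_lit 6940364786) (nat_lit 456) (nat_lit 343049898) (nat_lit 532) (nat_lit 2573298803) (nat_lit 156) (nat_lit 5) (nat_lit 162) (nat_lit 5) (nat_lit 163) (nat_lit 5) (nat_lit 352) (nat_lit 288) (nat_lit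 260)) (XT.lf (nat_lit 0) (nat_lit 2560252331) (nat_lit 456) (nat_lit 2516768672) (nat_lit 76) (nat_lit 4932978167) (nat_lit 150) (nat_lit 5) (nat_lit 156) (nat_lit 5) (nat_lit 151) (nat_lit 5) (nat_lit 353) (nat_lit 288) (nat_lit 259))) (XT.nd (nat_lit 78) (nat_lit 836) (nat_lit 0) (XT.lf (nat_lit 0) (nat_lit 7792794748) (nat_lit 456) (nat_lit 2139331259) (nat_lit 76) (nat_lit 235839802) (nat_lit 145) (nat_lit 5) (nat_lit 151) (nat_lit 5) (nat_lit 146) (nat_lit 5) (nat_lit 354) (nat_lit 288) (nat_lit 258)) (XT.nd (nat_lit 78) (nat_lit 380) (nat_lit 0) (XT.lf (nat_lit 0) (nat_lit 2826258570) (nat_lit 456) (nat_lit 1818999101) (nat_lit 76) (nat_lit 5684823607) (nat_lit 139) (nat_lit 5) (nat_lit 145) (nat_lit 5) (nat_lit 140) (nat_lit 5) (nat_lit 355) (nat_lit 288) (nat_lit 257)) (XT.lf (nat_lit 0) (nat_lit 8136642448) (nat_lit 456) (nat_lit 1528638386) (nat_lit 76) (nat_lit 831781624) (nat_lit 134)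 (nat_lit 5) (nat_lit 140) (nat_lit 5) (nat_lit 135) (nat_lit 5) (nat_lit 356) (nat_lit 288) (nat_lit 256))))))) (XT.nd (nat_lit 780) (nat_lit 2660) (nat_lit 0) (XT.nd (nat_lit 390) (nat_lit 1672) (nat_lit 0) (XT.nd (nat_lit 156) (nat_lit 1140) (nat_lit 0) (XT.nd (nat_lit 78) (nat_lit 380) (nat_lit 0) (XT.lf (nat_lit 0) (nat_lit 2911420605) (nat_lit 456) (nat_lit 1300927901) (nat_lit 76) (nat_lit 6456088878) (nat_lit 128) (nat_lit 5) (nat_lit 134) (nat_lit 5) (nat_lit 129) (nat_lit 5) (nat_lit 357) (nat_lit 288) (nat_lit 255)) (XT.lf (nat_lit 0) (nat_lit 8301920549) (nat_lit 456) (nat_lit 1115217794) (nat_lit 76) (nat_lit 1427670058) (nat_lit 123) (nat_lit 5) (nat_lit 129) (nat_lit 5) (nat_lit 124) (nat_lit 5) (nat_lit 358) (nat_lit 288) (nat_lit 254))) (XT.nd (nat_lit 78) (nat_lit 760) (nat_lit 0) (XT.lf (nat_lit 0) (nat_lit 2803700935) (nat_lit 380) (nat_lit 997235858) (nat_lit 76) (nat_lit 7224921615)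 (nat_lit 118) (nat_lit 5) (nat_lit 123) (nat_lit 5) (nat_lit 119) (nat_lit 5) (nat_lit 359) (nat_lit 288) (nat_lit 253)) (XT.nd (nat_lit 78) (nat_lit 380) (nat_lit 0) (XT.lf (nat_lit 0) (nat_lit 8275808954) (nat_lit 456) (nat_lit 935283157) (nat_lit 76) (nat_lit 2000935204) (nat_lit 113) (nat_lit 5) (nat_lit 119) (nat_lit 5) (nat_lit 114) (nat_lit 5) (nat_lit 360) (nat_lit 288) (nat_lit 252)) (XT.lf (nat_lit 0) (nat_lit 2488961241) (nat_lit 380) (nat_lit 945829118) (nat_lit 76) (nat_lit 7968410179) (nat_lit 108) (nat_lit 5) (nat_lit 113) (nat_lit 5) (nat_lit 109) (nat_lit 5) (nat_lit 361) (nat_lit 288) (nat_lit 251))))) (XT.nd (nat_lit 156) (nat_lit 988) (nat_lit 0) (XT.nd (nat_lit 78) (nat_lit 380) (nat_lit 0) (XT.lf (nat_lit 0) (nat_lit 8043320975) (nat_lit 380) (nat_lit 1028475511) (nat_lit 76) (nat_lit 2527813647) (nat_lit 104) (nat_lit 5) (nat_lit 109) (nat_lit 5) (nat_lit 105) (nat_lit 5) (nat_lit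 362) (nat_lit 288) (nat_lit 250)) (XT.lf (nat_lit 0) (nat_lit 1950795573) (nat_lit 380) (nat_lit 1188245752) (nat_lit 76) (nat_lit 8662348117) (nat_lit 99) (nat_lit 5) (nat_lit 104) (nat_lit 5) (nat_lit 100) (nat_lit 5) (nat_lit 363) (nat_lit 288) (nat_lit 249))) (XT.nd (nat_lit 78) (nat_lit 684) (nat_lit 0) (XT.lf (nat_lit 0) (nat_lit 7587126116) (nat_lit 380) (nat_lit 1438288201) (nat_lit 76) (nat_lit 2983105168) (nat_lit 95) (nat_lit 5) (nat_lit 100) (nat_lit 5) (nat_lit 96) (nat_lit 5) (nat_lit 364) (nat_lit 288) (nat_lit 248)) (XT.nd (nat_lit 78) (nat_lit 304) (nat_lit 0) (XT.lf (nat_lit 0) (nat_lit 1170341828) (nat_lit 380) (nat_lit 1770100549) (nat_lit 76) (nat_lit 9280982573) (nat_lit 90) (nat_lit 5) (nat_lit 95) (nat_lit 5) (nat_lit 91) (nat_lit 5) (nat_lit 365) (nat_lit 288) (nat_lit 247)) (XT.lf (nat_lit 0) (nat_lit 6887350249) (nat_lit 380) (nat_lit 2212532207) (nat_lit 76) (nat_lit 3339912187)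 (nat_lit 86) (nat_lit 5) (nat_lit 91) (nat_lit 5) (nat_lit 87) (nat_lit 5) (nat_lit 366) (nat_lit 288) (nat_lit 246)))))) (XT.nd (nat_lit 390) (nat_lit 1292) (nat_lit 0) (XT.nd (nat_lit 156) (nat_lit 760) (nat_lit 0) (XT.nd (nat_lit 78) (nat_lit 304) (nat_lit 0) (XT.lf (nat_lit 0) (nat_lit 126069567) (nat_lit 304) (nat_lit 2741572403) (nat_lit 76) (nat_lit 9796744285) (nat_lit 82) (nat_lit 5) (nat_lit 86) (nat_lit 5) (nat_lit 83) (nat_lit 5) (nat_lit 367) (nat_lit 288) (nat_lit 245)) (XT.lf (nat_lit 0) (nat_lit 5921351108) (nat_lit 380) (nat_lit 3403846376) (nat_lit 76) (nat_lit 3569359503) (nat_lit 78) (nat_lit 5) (nat_lit 83) (nat_lit 5) (nat_lit 79) (nat_lit 5) (nat_lit 368) (nat_lit 288) (nat_lit 244))) (XT.nd (nat_lit 78) (nat_lit 532) (nat_lit 0) (XT.lf (nat_lit 0) (nat_lit 8965402687) (nat_lit 228) (nat_lit 2943385055) (nat_lit 304) (nat_lit 1222491173) (nat_lit 75) (nat_lit 5) (nat_lit 78)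 (nat_lit 5) (nat_lit 79) (nat_lit 5) (nat_lit 369) (nat_lit 288) (nat_lit 243)) (XT.nd (nat_lit 78) (nat_lit 228) (nat_lit 0) (XT.lf (nat_lit 0) (nat_lit 4663466831) (nat_lit 304) (nat_lit 5070257551) (nat_lit 76) (nat_lit 3640291683) (nat_lit 71) (nat_lit 5) (nat_lit 75) (nat_lit 5) (nat_lit 72) (nat_lit 5) (nat_lit 370) (nat_lit 288) (nat_lit 242)) (XT.lf (nat_lit 0) (nat_lit 7524513290) (nat_lit 228) (nat_lit 3206156410) (nat_lit 304) (nat_lit 2892789611) (nat_lit 68) (nat_lit 5) (nat_lit 71) (nat_lit 5) (nat_lit 72) (nat_lit 5) (nat_lit 371) (nat_lit 288) (nat_lit 241))))) (XT.nd (nat_lit 234) (nat_lit 456) (nat_lit 0) (XT.nd (nat_lit 78) (nat_lit 532) (nat_lit 0) (XT.lf (nat_lit 0) (nat_lit 3084735005) (nat_lit 304) (nat_lit 7275796074) (nat_lit 76) (nat_lit 3518945203) (nat_lit 64) (nat_lit 5) (nat_lit 68) (nat_lit 5) (nat_lit 65) (nat_lit 5) (nat_lit 372) (nat_lit 288) (nat_lit 240)) (XT.nd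 (nat_lit 78) (nat_lit 304) (nat_lit 0) (XT.lf (nat_lit 0) (nat_lit 5534842016) (nat_lit 228) (nat_lit 3692809798) (nat_lit 304) (nat_lit 4914642414) (nat_lit 61) (nat_lit 5) (nat_lit 64) (nat_lit 5) (nat_lit 65) (nat_lit 5) (nat_lit 373) (nat_lit 288) (nat_lit 239)) (XT.lf (nat_lit 0) (nat_lit 1152579372) (nat_lit 304) (nat_lit 10091172685) (nat_lit 76) (nat_lit 3168592227) (nat_lit 57) (nat_lit 5) (nat_lit 61) (nat_lit 5) (nat_lit 58) (nat_lit 5) (nat_lit 374) (nat_lit 288) (nat_lit 238)))) (XT.nd (nat_lit 78) (nat_lit 304) (nat_lit 0) (XT.lf (nat_lit 0) (nat_lit 2923278174) (nat_lit 152) (nat_lit 4442568530) (nat_lit 228) (nat_lit 7323392907) (nat_lit 55) (nat_lit 5) (nat_lit 57) (nat_lit 5) (nat_lit 58) (nat_lit 5) (nat_lit 375) (nat_lit 288) (nat_lit 237)) (XT.nd (nat_lit 78) (nat_lit 76) (nat_lit 0) (XT.lf (nat_lit 0) (nat_lit 1371765423) (nat_lit 228) (nat_lit 12417136294) (nat_lit 304) (nat_lit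 1185081488) (nat_lit 52) (nat_lit 5) (nat_lit 55) (nat_lit 5) (nat_lit 56) (nat_lit 5) (nat_lit 376) (nat_lit 288) (nat_lit 236)) (XT.lf (nat_lit 0) (nat_lit 5109795635) (nat_lit 304) (nat_lit 385897288) (nat_lit 76) (nat_lit 9770121954) (nat_lit 51) (nat_lit 5) (nat_lit 55) (nat_lit 5) (nat_lit 52) (nat_lit 5) (nat_lit 377) (nat_lit 288) (nat_lit 235))))))))
noncomputable def xc26 : XT := (XT.nd (nat_lit 43290) (nat_lit 0) (nat_lit 9804) (XT.nd (nat_lit 42510) (nat_lit 0) (nat_lit 24320) (XT.nd (nat_lit 390) (nat_lit 760) (nat_lit 0) (XT.nd (nat_lit 156) (nat_lit 608) (nat_lit 0) (XT.nd (nat_lit 78) (nat_lit 304) (nat_lit 0) (XT.lf (nat_lit 0) (nat_lit 11606479053) (nat_lit 228) (nat_lit 2301475646) (nat_lit 76) (nat_lit 1657717423) (nat_lit 49) (nat_lit 5) (nat_lit 52) (nat_lit 5) (nat_lit 50) (nat_lit 5) (nat_lit 378) (nat_lit 288) (nat_lit 234)) (XT.lf (nat_lit 0) (nat_lit 2438570121) (nat_lit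 304) (nat_lit 4438522376) (nat_lit 76) (nat_lit 8996189629) (nat_lit 45) (nat_lit 5) (nat_lit 49) (nat_lit 5) (nat_lit 46) (nat_lit 5) (nat_lit 379) (nat_lit 288) (nat_lit 233))) (XT.nd (nat_lit 78) (nat_lit 456) (nat_lit 0) (XT.lf (nat_lit 0) (nat_lit 8987830955) (nat_lit 228) (nat_lit 6786456731) (nat_lit 76) (nat_lit 415050102) (nat_lit 43) (nat_lit 5) (nat_lit 46) (nat_lit 5) (nat_lit 44) (nat_lit 5) (nat_lit 380) (nat_lit 288) (nat_lit 232)) (XT.nd (nat_lit 78) (nat_lit 228) (nat_lit 0) (XT.lf (nat_lit 0) (nat_lit 7138437475) (nat_lit 228) (nat_lit 8652175272) (nat_lit 304) (nat_lit 723129137) (nat_lit 40) (nat_lit 5) (nat_lit 43) (nat_lit 5) (nat_lit 44) (nat_lit 5) (nat_lit 381) (nat_lit 288) (nat_lit 231)) (XT.lf (nat_lit 0) (nat_lit 4634861697) (nat_lit 152) (nat_lit 1248263412) (nat_lit 228) (nat_lit 10963756573) (nat_lit 37) (nat_lit 5) (nat_lit 39) (nat_lit 5) (nat_lit 40) (nat_lit 5)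 (nat_lit 382) (nat_lit 288) (nat_lit 230))))) (XT.nd (nat_lit 156) (nat_lit 532) (nat_lit 0) (XT.nd (nat_lit 78) (nat_lit 76) (nat_lit 0) (XT.lf (nat_lit 0) (nat_lit 1869651593) (nat_lit 152) (nat_lit 10861661549) (nat_lit 228) (nat_lit 4457542573) (nat_lit 35) (nat_lit 5) (nat_lit 37) (nat_lit 5) (nat_lit 38) (nat_lit 5) (nat_lit 383) (nat_lit 288) (nat_lit 229)) (XT.lf (nat_lit 0) (nat_lit 2242811785) (nat_lit 228) (nat_lit 1134099360) (nat_lit 76) (nat_lit 14163325509) (nat_lit 34) (nat_lit 5) (nat_lit 37) (nat_lit 5) (nat_lit 35) (nat_lit 5) (nat_lit 384) (nat_lit 288) (nat_lit 228))) (XT.nd (nat_lit 78) (nat_lit 380) (nat_lit 0) (XT.lf (nat_lit 0) (nat_lit 9138886860) (nat_lit 228) (nat_lit 4414508043) (nat_lit 76) (nat_lit 4347075934) (nat_lit 32) (nat_lit 5) (nat_lit 35) (nat_lit 5) (nat_lit 33) (nat_lit 5) (nat_lit 385) (nat_lit 288) (nat_lit 227)) (XT.nd (nat_lit 78) (nat_lit 228) (nat_lit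 0) (XT.lf (nat_lit 0) (nat_lit 10293143428) (nat_lit 152) (nat_lit 5985216449) (nat_lit 228) (nat_lit 1992428178) (nat_lit 30) (nat_lit 5) (nat_lit 32) (nat_lit 5) (nat_lit 33) (nat_lit 5) (nat_lit 386) (nat_lit 288) (nat_lit 226)) (XT.lf (nat_lit 0) (nat_lit 4940950879) (nat_lit 228) (nat_lit 11863008749) (nat_lit 76) (nat_lit 1847085346) (nat_lit 27) (nat_lit 5) (nat_lit 30) (nat_lit 5) (nat_lit 28) (nat_lit 5) (nat_lit 387) (nat_lit 288) (nat_lit 225)))))) (XT.nd (nat_lit 390) (nat_lit 4788) (nat_lit 0) (XT.nd (nat_lit 156) (nat_lit 5168) (nat_lit 0) (XT.nd (nat_lit 78) (nat_lit 1596) (nat_lit 0) (XT.lf (nat_lit 0) (nat_lit 1743399571) (nat_lit 1444) (nat_lit 871260632) (nat_lit 1444) (nat_lit 871260632) (nat_lit 499) (nat_lit 4) (nat_lit 518) (nat_lit 5) (nat_lit 518) (nat_lit 4) (nat_lit 322) (nat_lit 289) (nat_lit 289)) (XT.lf (nat_lit 0) (nat_lit 3232368044) (nat_lit 1596) (nat_lit 3245676307)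 (nat_lit 0) (nat_lit 543989357) (nat_lit 478) (nat_lit 5) (nat_lit 499) (nat_lit 4) (nat_lit 478) (nat_lit 4) (nat_lit 323) (nat_lit 289) (nat_lit 288))) (XT.nd (nat_lit 78) (nat_lit 3496) (nat_lit 0) (XT.lf (nat_lit 0) (nat_lit 1153559683) (nat_lit 1672) (nat_lit 2968264520) (nat_lit 76) (nat_lit 2953369376) (nat_lit 456) (nat_lit 5) (nat_lit 478) (nat_lit 5) (nat_lit 457) (nat_lit 4) (nat_lit 324) (nat_lit 289) (nat_lit 287)) (XT.nd (nat_lit 78) (nat_lit 1824) (nat_lit 0) (XT.lf (nat_lit 0) (nat_lit 4482784077) (nat_lit 1672) (nat_lit 1613896076) (nat_lit 1748) (nat_lit 1034774242) (nat_lit 434) (nat_lit 5) (nat_lit 456) (nat_lit 5) (nat_lit 457) (nat_lit 4) (nat_lit 325) (nat_lit 289) (nat_lit 286)) (XT.lf (nat_lit 0) (nat_lit 3859052001) (nat_lit 1824) (nat_lit 2295653355) (nat_lit 76) (nat_lit 1035987877) (nat_lit 410) (nat_lit 5) (nat_lit 434) (nat_lit 5) (nat_lit 411) (nat_lit 4) (nat_lit 326)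 (nat_lit 289) (nat_lit 285))))) (XT.nd (nat_lit 156) (nat_lit 2660) (nat_lit 0) (XT.nd (nat_lit 78) (nat_lit 912) (nat_lit 0) (XT.lf (nat_lit 0) (nat_lit 1533005192) (nat_lit 1216) (nat_lit 1906673712) (nat_lit 76) (nat_lit 3813336235) (nat_lit 394) (nat_lit 5) (nat_lit 410) (nat_lit 5) (nat_lit 395) (nat_lit 5) (nat_lit 327) (nat_lit 289) (nat_lit 284)) (XT.lf (nat_lit 0) (nat_lit 5841024181) (nat_lit 912) (nat_lit 570627312) (nat_lit 988) (nat_lit 906908832) (nat_lit 382) (nat_lit 5) (nat_lit 394) (nat_lit 5) (nat_lit 395) (nat_lit 5) (nat_lit 328) (nat_lit 289) (nat_lit 283))) (XT.nd (nat_lit 78) (nat_lit 1748) (nat_lit 0) (XT.lf (nat_lit 0) (nat_lit 3929503783) (nat_lit 912) (nat_lit 1029469261) (nat_lit 76) (nat_lit 2427989627) (nat_lit 370) (nat_lit 5) (nat_lit 382) (nat_lit 5) (nat_lit 371) (nat_lit 5) (nat_lit 329) (nat_lit 289) (nat_lit 282)) (XT.nd (nat_lit 78) (nat_lit 836) (nat_lit 0)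 (XT.lf (nat_lit 0) (nat_lit 1345596545) (nat_lit 912) (nat_lit 541482149) (nat_lit 76) (nat_lit 5571623984) (nat_lit 358) (nat_lit 5) (nat_lit 370) (nat_lit 5) (nat_lit 359) (nat_lit 5) (nat_lit 330) (nat_lit 289) (nat_lit 281)) (XT.lf (nat_lit 0) (nat_lit 6177408460) (nat_lit 912) (nat_lit 27827142) (nat_lit 76) (nat_lit 1328322710) (nat_lit 347) (nat_lit 5) (nat_lit 359) (nat_lit 5) (nat_lit 348) (nat_lit 5) (nat_lit 331) (nat_lit 289) (nat_lit 280))))))) (XT.nd (nat_lit 780) (nat_lit 6384) (nat_lit 0) (XT.nd (nat_lit 390) (nat_lit 3420) (nat_lit 0) (XT.nd (nat_lit 156) (nat_lit 2204) (nat_lit 0) (XT.nd (nat_lit 78) (nat_lit 836) (nat_lit 0) (XT.lf (nat_lit 0) (nat_lit 512571308) (nat_lit 760) (nat_lit 2926203391) (nat_lit 836) (nat_lit 4172640808) (nat_lit 325) (nat_lit 5) (nat_lit 335) (nat_lit 5) (nat_lit 336) (nat_lit 5) (nat_lit 332) (nat_lit 289) (nat_lit 279)) (XT.lf (nat_lit 0) (nat_lit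 590969910) (nat_lit 836) (nat_lit 6601399474) (nat_lit 76) (nat_lit 500380633) (nat_lit 314) (nat_lit 5) (nat_lit 325) (nat_lit 5) (nat_lit 315) (nat_lit 5) (nat_lit 333) (nat_lit 289) (nat_lit 278))) (XT.nd (nat_lit 78) (nat_lit 1520) (nat_lit 0) (XT.lf (nat_lit 0) (nat_lit 1674940437) (nat_lit 684) (nat_lit 3717592878) (nat_lit 760) (nat_lit 2384451792) (nat_lit 305) (nat_lit 5) (nat_lit 314) (nat_lit 5) (nat_lit 315) (nat_lit 5) (nat_lit 334) (nat_lit 289) (nat_lit 277)) (XT.nd (nat_lit 78) (nat_lit 684) (nat_lit 0) (XT.lf (nat_lit 0) (nat_lit 2293391187) (nat_lit 760) (nat_lit 82913205) (nat_lit 836) (nat_lit 5488478939) (nat_lit 294) (nat_lit 5) (nat_lit 304) (nat_lit 5) (nat_lit 305) (nat_lit 5) (nat_lit 335) (nat_lit 289) (nat_lit 276)) (XT.lf (nat_lit 0) (nat_lit 2920776640) (nat_lit 684) (nat_lit 4288263316) (nat_lit 760) (nat_lit 746672577) (nat_lit 285) (nat_lit 5) (nat_lit 294) (nat_lit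 5) (nat_lit 295) (nat_lit 5) (nat_lit 336) (nat_lit 289) (nat_lit 275))))) (XT.nd (nat_lit 156) (nat_lit 1976) (nat_lit 0) (XT.nd (nat_lit 78) (nat_lit 684) (nat_lit 0) (XT.lf (nat_lit 0) (nat_lit 3567853990) (nat_lit 684) (nat_lit 455808835) (nat_lit 760) (nat_lit 4026399996) (nat_lit 275) (nat_lit 5) (nat_lit 284) (nat_lit 5) (nat_lit 285) (nat_lit 5) (nat_lit 337) (nat_lit 289) (nat_lit 274)) (XT.lf (nat_lit 0) (nat_lit 735116875) (nat_lit 684) (nat_lit 3920499411) (nat_lit 76) (nat_lit 3492156078) (nat_lit 266) (nat_lit 5) (nat_lit 275) (nat_lit 5) (nat_lit 267) (nat_lit 5) (nat_lit 338) (nat_lit 289) (nat_lit 273))) (XT.nd (nat_lit 78) (nat_lit 1292) (nat_lit 0) (XT.lf (nat_lit 0) (nat_lit 4899961751) (nat_lit 684) (nat_lit 633518564) (nat_lit 760) (nat_lit 2715464591) (nat_lit 257) (nat_lit 5) (nat_lit 266) (nat_lit 5) (nat_lit 267) (nat_lit 5) (nat_lit 339) (nat_lit 289) (nat_lit 272)) (XT.nd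 (nat_lit 78) (nat_lit 608) (nat_lit 0) (XT.lf (nat_lit 0) (nat_lit 2065649822) (nat_lit 684) (nat_lit 2776402397) (nat_lit 76) (nat_lit 3511444089) (nat_lit 248) (nat_lit 5) (nat_lit 257) (nat_lit 5) (nat_lit 249) (nat_lit 5) (nat_lit 340) (nat_lit 289) (nat_lit 271)) (XT.lf (nat_lit 0) (nat_lit 6271095894) (nat_lit 608) (nat_lit 637097623) (nat_lit 684) (nat_lit 1553569178) (nat_lit 240) (nat_lit 5) (nat_lit 248) (nat_lit 5) (nat_lit 249) (nat_lit 5) (nat_lit 341) (nat_lit 289) (nat_lit 270)))))) (XT.nd (nat_lit 390) (nat_lit 2888) (nat_lit 0) (XT.nd (nat_lit 156) (nat_lit 2280) (nat_lit 0) (XT.nd (nat_lit 78) (nat_lit 608) (nat_lit 0) (XT.lf (nat_lit 0) (nat_lit 3256250115) (nat_lit 608) (nat_lit 1617020461) (nat_lit 76) (nat_lit 3700066688) (nat_lit 232) (nat_lit 5) (nat_lit 240) (nat_lit 5) (nat_lit 233) (nat_lit 5) (nat_lit 342) (nat_lit 289) (nat_lit 269)) (XT.lf (nat_lit 0) (nat_lit 7661963912)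 (nat_lit 608) (nat_lit 486967800) (nat_lit 684) (nat_lit 539961008) (nat_lit 224) (nat_lit 5) (nat_lit 232) (nat_lit 5) (nat_lit 233) (nat_lit 5) (nat_lit 343) (nat_lit 289) (nat_lit 268))) (XT.nd (nat_lit 78) (nat_lit 1672) (nat_lit 0) (XT.lf (nat_lit 0) (nat_lit 4307117652) (nat_lit 608) (nat_lit 462391321) (nat_lit 76) (nat_lit 4038186213) (nat_lit 216) (nat_lit 5) (nat_lit 224) (nat_lit 5) (nat_lit 217) (nat_lit 5) (nat_lit 344) (nat_lit 289) (nat_lit 267)) (XT.nd (nat_lit 78) (nat_lit 532) (nat_lit 0) (XT.lf (nat_lit 0) (nat_lit 121122842) (nat_lit 532) (nat_lit 200137371) (nat_lit 608) (nat_lit 8609437966) (nat_lit 201) (nat_lit 5) (nat_lit 208) (nat_lit 5) (nat_lit 209) (nat_lit 5) (nat_lit 345) (nat_lit 289) (nat_lit 266)) (XT.lf (nat_lit 0) (nat_lit 675282528) (nat_lit 532) (nat_lit 4546188310) (nat_lit 608) (nat_lit 3835456796) (nat_lit 194) (nat_lit 5) (nat_lit 201) (nat_lit 5) (nat_lit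 202) (nat_lit 5) (nat_lit 346) (nat_lit 289) (nat_lit 265))))) (XT.nd (nat_lit 234) (nat_lit 1368) (nat_lit 0) (XT.nd (nat_lit 78) (nat_lit 988) (nat_lit 0) (XT.lf (nat_lit 0) (nat_lit 1034277260) (nat_lit 532) (nat_lit 7946002302) (nat_lit 76) (nat_lit 207216759) (nat_lit 187) (nat_lit 5) (nat_lit 194) (nat_lit 5) (nat_lit 188) (nat_lit 5) (nat_lit 347) (nat_lit 289) (nat_lit 264)) (XT.nd (nat_lit 78) (nat_lit 532) (nat_lit 0) (XT.lf (nat_lit 0) (nat_lit 1770349744) (nat_lit 456) (nat_lit 4224722732) (nat_lit 532) (nat_lit 3326487422) (nat_lit 181) (nat_lit 5) (nat_lit 187) (nat_lit 5) (nat_lit 188) (nat_lit 5) (nat_lit 348) (nat_lit 289) (nat_lit 263)) (XT.lf (nat_lit 0) (nat_lit 1596351697) (nat_lit 532) (nat_lit 7159827511) (nat_lit 76) (nat_lit 703820110) (nat_lit 174) (nat_lit 5) (nat_lit 181) (nat_lit 5) (nat_lit 175) (nat_lit 5) (nat_lit 349) (nat_lit 289) (nat_lit 262)))) (XT.nd (nat_lit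 78) (nat_lit 912) (nat_lit 0) (XT.lf (nat_lit 0) (nat_lit 2792571877) (nat_lit 456) (nat_lit 3828102551) (nat_lit 532) (nat_lit 2981522315) (nat_lit 168) (nat_lit 5) (nat_lit 174) (nat_lit 5) (nat_lit 175) (nat_lit 5) (nat_lit 350) (nat_lit 289) (nat_lit 261)) (XT.nd (nat_lit 78) (nat_lit 456) (nat_lit 0) (XT.lf (nat_lit 0) (nat_lit 2000897025) (nat_lit 456) (nat_lit 6475175257) (nat_lit 76) (nat_lit 1272731683) (nat_lit 162) (nat_lit 5) (nat_lit 168) (nat_lit 5) (nat_lit 163) (nat_lit 5) (nat_lit 351) (nat_lit 289) (nat_lit 260)) (XT.lf (nat_lit 0) (nat_lit 3716102255) (nat_lit 456) (nat_lit 3376413524) (nat_lit 532) (nat_lit 2806917365) (nat_lit 156) (nat_lit 5) (nat_lit 162) (nat_lit 5) (nat_lit 163) (nat_lit 5) (nat_lit 352) (nat_lit 289) (nat_lit 259))))))))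
noncomputable def xc27 : XT := (XT.nd (nat_lit 1560) (nat_lit 2888) (nat_lit 0) (XT.nd (nat_lit 780) (nat_lit 2812) (nat_lit 0) (XT.nd (nat_lit 390) (nat_lit 1824) (nat_lit 0) (XT.nd (nat_lit 156) (nat_lit 1292) (nat_lit 0) (XT.nd (nat_lit 78) (nat_lit 380) (nat_lit 0) (XT.lf (nat_lit 0) (nat_lit 2241012947) (nat_lit 456) (nat_lit 5919404053) (nat_lit 76) (nat_lit 1894116446) (nat_lit 150) (nat_lit 5) (nat_lit 156) (nat_lit 5) (nat_lit 151) (nat_lit 5) (nat_lit 353) (nat_lit 289) (nat_lit 258)) (XT.lf (nat_lit 0) (nat_lit 4513064417) (nat_lit 380) (nat_lit 2890128419) (nat_lit 456) (nat_lit 2810724776) (nat_lit 145) (nat_lit 5) (nat_lit 150) (nat_lit 5) (nat_lit 151) (nat_lit 5) (nat_lit 354) (nat_lit 289) (nat_lit 257))) (XT.nd (nat_lit 78) (nat_lit 836) (nat_lit 0) (XT.lf (nat_lit 0) (nat_lit 2308089229) (nat_lit 456) (nat_lit 5522096603) (nat_lit 76) (nat_lit 2547680149) (nat_lit 139) (nat_lit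 5) (nat_lit 145) (nat_lit 5) (nat_lit 140) (nat_lit 5) (nat_lit 355) (nat_lit 289) (nat_lit 256)) (XT.nd (nat_lit 78) (nat_lit 456) (nat_lit 0) (XT.lf (nat_lit 0) (nat_lit 5153252675) (nat_lit 380) (nat_lit 2390303338) (nat_lit 456) (nat_lit 3002798988) (nat_lit 134) (nat_lit 5) (nat_lit 139) (nat_lit 5) (nat_lit 140) (nat_lit 5) (nat_lit 356) (nat_lit 289) (nat_lit 255)) (XT.lf (nat_lit 0) (nat_lit 2191693204) (nat_lit 456) (nat_lit 5315373675) (nat_lit 76) (nat_lit 3212470969) (nat_lit 128) (nat_lit 5) (nat_lit 134) (nat_lit 5) (nat_lit 129) (nat_lit 5) (nat_lit 357) (nat_lit 289) (nat_lit 254))))) (XT.nd (nat_lit 156) (nat_lit 1064) (nat_lit 0) (XT.nd (nat_lit 78) (nat_lit 380) (nat_lit 0) (XT.lf (nat_lit 0) (nat_lit 5603807000) (nat_lit 380) (nat_lit 1898783446) (nat_lit 456) (nat_lit 3394919250) (nat_lit 123) (nat_lit 5) (nat_lit 128) (nat_lit 5) (nat_lit 129) (nat_lit 5) (nat_lit 358) (nat_lit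 289) (nat_lit 253)) (XT.lf (nat_lit 0) (nat_lit 1879440254) (nat_lit 380) (nat_lit 5334235469) (nat_lit 76) (nat_lit 3866671050) (nat_lit 118) (nat_lit 5) (nat_lit 123) (nat_lit 5) (nat_lit 119) (nat_lit 5) (nat_lit 359) (nat_lit 289) (nat_lit 252))) (XT.nd (nat_lit 78) (nat_lit 684) (nat_lit 0) (XT.lf (nat_lit 0) (nat_lit 5828859103) (nat_lit 380) (nat_lit 1438419925) (nat_lit 456) (nat_lit 4000930148) (nat_lit 113) (nat_lit 5) (nat_lit 118) (nat_lit 5) (nat_lit 119) (nat_lit 5) (nat_lit 360) (nat_lit 289) (nat_lit 251)) (XT.nd (nat_lit 78) (nat_lit 304) (nat_lit 0) (XT.lf (nat_lit 0) (nat_lit 1356845904) (nat_lit 380) (nat_lit 5616933759) (nat_lit 76) (nat_lit 4487376061) (nat_lit 108) (nat_lit 5) (nat_lit 113) (nat_lit 5) (nat_lit 109) (nat_lit 5) (nat_lit 361) (nat_lit 289) (nat_lit 250)) (XT.lf (nat_lit 0) (nat_lit 5789146286) (nat_lit 304) (nat_lit 1033300148) (nat_lit 380) (nat_lit 4836901564)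 (nat_lit 104) (nat_lit 5) (nat_lit 108) (nat_lit 5) (nat_lit 109) (nat_lit 5) (nat_lit 362) (nat_lit 289) (nat_lit 249)))))) (XT.nd (nat_lit 390) (nat_lit 1216) (nat_lit 0) (XT.nd (nat_lit 156) (nat_lit 912) (nat_lit 0) (XT.nd (nat_lit 78) (nat_lit 304) (nat_lit 0) (XT.lf (nat_lit 0) (nat_lit 607157976) (nat_lit 380) (nat_lit 6205378426) (nat_lit 76) (nat_lit 5050360744) (nat_lit 99) (nat_lit 5) (nat_lit 104) (nat_lit 5) (nat_lit 100) (nat_lit 5) (nat_lit 363) (nat_lit 289) (nat_lit 248)) (XT.lf (nat_lit 0) (nat_lit 5441589319) (nat_lit 304) (nat_lit 708993174) (nat_lit 380) (nat_lit 5921309743) (nat_lit 95) (nat_lit 5) (nat_lit 99) (nat_lit 5) (nat_lit 100) (nat_lit 5) (nat_lit 364) (nat_lit 289) (nat_lit 247))) (XT.nd (nat_lit 78) (nat_lit 608) (nat_lit 0) (XT.lf (nat_lit 0) (nat_lit 5138386084) (nat_lit 304) (nat_lit 6754140105) (nat_lit 380) (nat_lit 394000314) (nat_lit 91) (nat_lit 5) (nat_lit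 95) (nat_lit 5) (nat_lit 96) (nat_lit 5) (nat_lit 365) (nat_lit 289) (nat_lit 246)) (XT.nd (nat_lit 78) (nat_lit 228) (nat_lit 0) (XT.lf (nat_lit 0) (nat_lit 4738830239) (nat_lit 304) (nat_lit 492812862) (nat_lit 380) (nat_lit 7275241304) (nat_lit 86) (nat_lit 5) (nat_lit 90) (nat_lit 5) (nat_lit 91) (nat_lit 5) (nat_lit 366) (nat_lit 289) (nat_lit 245)) (XT.lf (nat_lit 0) (nat_lit 4234042050) (nat_lit 228) (nat_lit 6824049585) (nat_lit 304) (nat_lit 1674974166) (nat_lit 83) (nat_lit 5) (nat_lit 86) (nat_lit 5) (nat_lit 87) (nat_lit 5) (nat_lit 367) (nat_lit 289) (nat_lit 244))))) (XT.nd (nat_lit 156) (nat_lit 608) (nat_lit 0) (XT.nd (nat_lit 78) (nat_lit 228) (nat_lit 0) (XT.lf (nat_lit 0) (nat_lit 3628725550) (nat_lit 304) (nat_lit 414101059) (nat_lit 380) (nat_lit 8922622306) (nat_lit 78) (nat_lit 5) (nat_lit 82) (nat_lit 5) (nat_lit 83) (nat_lit 5) (nat_lit 368) (nat_lit 289) (nat_lit 243)) (XT.lf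 (nat_lit 0) (nat_lit 2893837133) (nat_lit 228) (nat_lit 7057112462) (nat_lit 304) (nat_lit 3252813265) (nat_lit 75) (nat_lit 5) (nat_lit 78) (nat_lit 5) (nat_lit 79) (nat_lit 5) (nat_lit 369) (nat_lit 289) (nat_lit 242))) (XT.nd (nat_lit 78) (nat_lit 304) (nat_lit 0) (XT.lf (nat_lit 0) (nat_lit 2053789896) (nat_lit 228) (nat_lit 504533547) (nat_lit 304) (nat_lit 10890474663) (nat_lit 71) (nat_lit 5) (nat_lit 74) (nat_lit 5) (nat_lit 75) (nat_lit 5) (nat_lit 370) (nat_lit 289) (nat_lit 241)) (XT.nd (nat_lit 78) (nat_lit 76) (nat_lit 0) (XT.lf (nat_lit 0) (nat_lit 1057404819) (nat_lit 228) (nat_lit 7486617177) (nat_lit 304) (nat_lit 5155854750) (nat_lit 68) (nat_lit 5) (nat_lit 71) (nat_lit 5) (nat_lit 72) (nat_lit 5) (nat_lit 371) (nat_lit 289) (nat_lit 240)) (XT.lf (nat_lit 0) (nat_lit 749357244) (nat_lit 304) (nat_lit 48767164) (nat_lit 76) (nat_lit 13160108090) (nat_lit 67) (nat_lit 5) (nat_lit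 71) (nat_lit 5) (nat_lit 68) (nat_lit 5) (nat_lit 372) (nat_lit 289) (nat_lit 239))))))) (XT.nd (nat_lit 780) (nat_lit 760) (nat_lit 0) (XT.nd (nat_lit 390) (nat_lit 912) (nat_lit 0) (XT.nd (nat_lit 156) (nat_lit 760) (nat_lit 0) (XT.nd (nat_lit 78) (nat_lit 228) (nat_lit 0) (XT.lf (nat_lit 0) (nat_lit 6815520804) (nat_lit 304) (nat_lit 1324305632) (nat_lit 76) (nat_lit 6082763976) (nat_lit 64) (nat_lit 5) (nat_lit 68) (nat_lit 5) (nat_lit 65) (nat_lit 5) (nat_lit 373) (nat_lit 289) (nat_lit 238)) (XT.lf (nat_lit 0) (nat_lit 11770554505) (nat_lit 228) (nat_lit 1305610654) (nat_lit 304) (nat_lit 1418473653) (nat_lit 61) (nat_lit 5) (nat_lit 64) (nat_lit 5) (nat_lit 65) (nat_lit 5) (nat_lit 374) (nat_lit 289) (nat_lit 237))) (XT.nd (nat_lit 78) (nat_lit 456) (nat_lit 0) (XT.lf (nat_lit 0) (nat_lit 4733479875) (nat_lit 304) (nat_lit 4320316150) (nat_lit 76) (nat_lit 5719525186) (nat_lit 57) (nat_lit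 5) (nat_lit 61) (nat_lit 5) (nat_lit 58) (nat_lit 5) (nat_lit 375) (nat_lit 289) (nat_lit 236)) (XT.nd (nat_lit 78) (nat_lit 304) (nat_lit 0) (XT.lf (nat_lit 0) (nat_lit 8986031425) (nat_lit 152) (nat_lit 2082616857) (nat_lit 228) (nat_lit 3991178655) (nat_lit 55) (nat_lit 5) (nat_lit 57) (nat_lit 5) (nat_lit 58) (nat_lit 5) (nat_lit 376) (nat_lit 289) (nat_lit 235)) (XT.lf (nat_lit 0) (nat_lit 2253194111) (nat_lit 304) (nat_lit 8024830640) (nat_lit 76) (nat_lit 5075748564) (nat_lit 51) (nat_lit 5) (nat_lit 55) (nat_lit 5) (nat_lit 52) (nat_lit 5) (nat_lit 377) (nat_lit 289) (nat_lit 234))))) (XT.nd (nat_lit 156) (nat_lit 532) (nat_lit 0) (XT.nd (nat_lit 78) (nat_lit 228) (nat_lit 0) (XT.lf (nat_lit 0) (nat_lit 5477793782) (nat_lit 152) (nat_lit 3177967223) (nat_lit 228) (nat_lit 6999755951) (nat_lit 49) (nat_lit 5) (nat_lit 51) (nat_lit 5) (nat_lit 52) (nat_lit 5) (nat_lit 378) (nat_lit 289) (nat_lit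 233)) (XT.lf (nat_lit 0) (nat_lit 3434464380) (nat_lit 228) (nat_lit 11854568490) (nat_lit 304) (nat_lit 676515491) (nat_lit 46) (nat_lit 5) (nat_lit 49) (nat_lit 5) (nat_lit 50) (nat_lit 5) (nat_lit 379) (nat_lit 289) (nat_lit 232))) (XT.nd (nat_lit 78) (nat_lit 304) (nat_lit 0) (XT.lf (nat_lit 0) (nat_lit 1153848396) (nat_lit 152) (nat_lit 4639682517) (nat_lit 228) (nat_lit 10489926456) (nat_lit 43) (nat_lit 5) (nat_lit 45) (nat_lit 5) (nat_lit 46) (nat_lit 5) (nat_lit 380) (nat_lit 289) (nat_lit 231)) (XT.nd (nat_lit 78) (nat_lit 304) (nat_lit 0) (XT.lf (nat_lit 0) (nat_lit 12488481391) (nat_lit 228) (nat_lit 1323214566) (nat_lit 76) (nat_lit 2798325784) (nat_lit 43) (nat_lit 5) (nat_lit 46) (nat_lit 5) (nat_lit 44) (nat_lit 5) (nat_lit 381) (nat_lit 289) (nat_lit 230)) (XT.lf (nat_lit 0) (nat_lit 2459423743) (nat_lit 304) (nat_lit 4034018768) (nat_lit 76) (nat_lit 10451561015) (nat_lit 39) (nat_lit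 5) (nat_lit 43) (nat_lit 5) (nat_lit 40) (nat_lit 5) (nat_lit 382) (nat_lit 289) (nat_lit 229)))))) (XT.nd (nat_lit 41964) (nat_lit 0) (nat_lit 30704) (XT.nd (nat_lit 156) (nat_lit 456) (nat_lit 0) (XT.nd (nat_lit 78) (nat_lit 152) (nat_lit 0) (XT.lf (nat_lit 0) (nat_lit 9204101132) (nat_lit 228) (nat_lit 6995883567) (nat_lit 76) (nat_lit 1089066443) (nat_lit 37) (nat_lit 5) (nat_lit 40) (nat_lit 5) (nat_lit 38) (nat_lit 5) (nat_lit 383) (nat_lit 289) (nat_lit 228)) (XT.lf (nat_lit 0) (nat_lit 7409456518) (nat_lit 152) (nat_lit 8800399896) (nat_lit 228) (nat_lit 1432395665) (nat_lit 35) (nat_lit 5) (nat_lit 37) (nat_lit 5) (nat_lit 38) (nat_lit 5) (nat_lit 384) (nat_lit 289) (nat_lit 227))) (XT.nd (nat_lit 78) (nat_lit 228) (nat_lit 0) (XT.lf (nat_lit 0) (nat_lit 4252184841) (nat_lit 152) (nat_lit 1112163957) (nat_lit 228) (nat_lit 12640688915) (nat_lit 32) (nat_lit 5) (nat_lit 34) (nat_lit 5) (nat_lit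 35) (nat_lit 5) (nat_lit 385) (nat_lit 289) (nat_lit 226)) (XT.nd (nat_lit 78) (nat_lit 76) (nat_lit 0) (XT.lf (nat_lit 0) (nat_lit 785669421) (nat_lit 152) (nat_lit 11620204126) (nat_lit 228) (nat_lit 5971443374) (nat_lit 30) (nat_lit 5) (nat_lit 32) (nat_lit 5) (nat_lit 33) (nat_lit 5) (nat_lit 386) (nat_lit 289) (nat_lit 225)) (XT.lf (nat_lit 0) (nat_lit 929140991) (nat_lit 228) (nat_lit 2928129929) (nat_lit 76) (nat_lit 14902522092) (nat_lit 29) (nat_lit 5) (nat_lit 32) (nat_lit 5) (nat_lit 30) (nat_lit 5) (nat_lit 387) (nat_lit 289) (nat_lit 224))))) (XT.nd (nat_lit 234) (nat_lit 4940) (nat_lit 0) (XT.nd (nat_lit 78) (nat_lit 2964) (nat_lit 0) (XT.lf (nat_lit 0) (nat_lit 1561846125) (nat_lit 1292) (nat_lit 938850693) (nat_lit 1292) (nat_lit 938850693) (nat_lit 537) (nat_lit 4) (nat_lit 554) (nat_lit 5) (nat_lit 554) (nat_lit 4) (nat_lit 320) (nat_lit 290) (nat_lit 290)) (XT.nd (nat_lit 78) (nat_lit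 1520) (nat_lit 0) (XT.lf (nat_lit 0) (nat_lit 3035279396) (nat_lit 1444) (nat_lit 3678576519) (nat_lit 0) (nat_lit 210868748) (nat_lit 518) (nat_lit 5) (nat_lit 537) (nat_lit 4) (nat_lit 518) (nat_lit 4) (nat_lit 321) (nat_lit 290) (nat_lit 289)) (XT.lf (nat_lit 0) (nat_lit 991593614) (nat_lit 1520) (nat_lit 3563537807) (nat_lit 76) (nat_lit 2418128594) (nat_lit 498) (nat_lit 5) (nat_lit 518) (nat_lit 5) (nat_lit 499) (nat_lit 4) (nat_lit 322) (nat_lit 290) (nat_lit 288)))) (XT.nd (nat_lit 78) (nat_lit 3420) (nat_lit 0) (XT.lf (nat_lit 0) (nat_lit 3618694060) (nat_lit 1520) (nat_lit 2246419252) (nat_lit 1596) (nat_lit 1159718417) (nat_lit 478) (nat_lit 5) (nat_lit 498) (nat_lit 5) (nat_lit 499) (nat_lit 4) (nat_lit 323) (nat_lit 290) (nat_lit 287)) (XT.nd (nat_lit 78) (nat_lit 1748) (nat_lit 0) (XT.lf (nat_lit 0) (nat_lit 3660237232) (nat_lit 1672) (nat_lit 3207860671) (nat_lit 76) (nat_lit 211361653)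 (nat_lit 456) (nat_lit 5) (nat_lit 478) (nat_lit 5) (nat_lit 457) (nat_lit 4) (nat_lit 324) (nat_lit 290) (nat_lit 286)) (XT.lf (nat_lit 0) (nat_lit 1374839001) (nat_lit 1748) (nat_lit 2976791977) (nat_lit 76) (nat_lit 2785402096) (nat_lit 433) (nat_lit 5) (nat_lit 456) (nat_lit 5) (nat_lit 434) (nat_lit 5) (nat_lit 325) (nat_lit 290) (nat_lit 285))))))))
noncomputable def xc28 : XT := (XT.nd (nat_lit 1560) (nat_lit 8968) (nat_lit 0) (XT.nd (nat_lit 780) (nat_lit 6536) (nat_lit 0) (XT.nd (nat_lit 390) (nat_lit 4864) (nat_lit 0) (XT.nd (nat_lit 156) (nat_lit 2736) (nat_lit 0) (XT.nd (nat_lit 78) (nat_lit 1216) (nat_lit 0) (XT.lf (nat_lit 0) (nat_lit 4492336908) (nat_lit 1748) (nat_lit 1683414371) (nat_lit 1824) (nat_lit 1022004457) (nat_lit 410) (nat_lit 5) (nat_lit 433) (nat_lit 5) (nat_lit 434) (nat_lit 5) (nat_lit 326) (nat_lit 290) (nat_lit 284)) (XT.lf (nat_lit 0) (nat_lit 3729487200) (nat_lit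 1216) (nat_lit 2404636589) (nat_lit 76) (nat_lit 1127341038) (nat_lit 394) (nat_lit 5) (nat_lit 410) (nat_lit 5) (nat_lit 395) (nat_lit 5) (nat_lit 327) (nat_lit 290) (nat_lit 283))) (XT.nd (nat_lit 78) (nat_lit 1748) (nat_lit 0) (XT.lf (nat_lit 0) (nat_lit 1192885805) (nat_lit 988) (nat_lit 2070288008) (nat_lit 76) (nat_lit 4065126946) (nat_lit 381) (nat_lit 5) (nat_lit 394) (nat_lit 5) (nat_lit 382) (nat_lit 5) (nat_lit 328) (nat_lit 290) (nat_lit 282)) (XT.nd (nat_lit 78) (nat_lit 912) (nat_lit 0) (XT.lf (nat_lit 0) (nat_lit 5696988594) (nat_lit 836) (nat_lit 233894562) (nat_lit 912) (nat_lit 1467460170) (nat_lit 370) (nat_lit 5) (nat_lit 381) (nat_lit 5) (nat_lit 382) (nat_lit 5) (nat_lit 329) (nat_lit 290) (nat_lit 281)) (XT.lf (nat_lit 0) (nat_lit 3237921565) (nat_lit 912) (nat_lit 1316414280) (nat_lit 76) (nat_lit 2916946810) (nat_lit 358) (nat_lit 5) (nat_lit 370) (nat_lit 5) (nat_lit 359)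 (nat_lit 5) (nat_lit 330) (nat_lit 290) (nat_lit 280))))) (XT.nd (nat_lit 156) (nat_lit 3116) (nat_lit 0) (XT.nd (nat_lit 78) (nat_lit 836) (nat_lit 0) (XT.lf (nat_lit 0) (nat_lit 438198589) (nat_lit 912) (nat_lit 891311768) (nat_lit 76) (nat_lit 6218155507) (nat_lit 346) (nat_lit 5) (nat_lit 358) (nat_lit 5) (nat_lit 347) (nat_lit 5) (nat_lit 331) (nat_lit 290) (nat_lit 279)) (XT.lf (nat_lit 0) (nat_lit 5134442512) (nat_lit 912) (nat_lit 454563130) (nat_lit 76) (nat_lit 2037983454) (nat_lit 335) (nat_lit 5) (nat_lit 347) (nat_lit 5) (nat_lit 336) (nat_lit 5) (nat_lit 332) (nat_lit 290) (nat_lit 278))) (XT.nd (nat_lit 78) (nat_lit 1520) (nat_lit 0) (XT.lf (nat_lit 0) (nat_lit 9992244) (nat_lit 760) (nat_lit 2163430540) (nat_lit 836) (nat_lit 5536217868) (nat_lit 314) (nat_lit 5) (nat_lit 324) (nat_lit 5) (nat_lit 325) (nat_lit 5) (nat_lit 333) (nat_lit 290) (nat_lit 277)) (XT.nd (nat_lit 78) (nat_lit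 836) (nat_lit 0) (XT.lf (nat_lit 0) (nat_lit 504560420) (nat_lit 684) (nat_lit 6387823370) (nat_lit 760) (nat_lit 903166405) (nat_lit 305) (nat_lit 5) (nat_lit 314) (nat_lit 5) (nat_lit 315) (nat_lit 5) (nat_lit 334) (nat_lit 290) (nat_lit 276)) (XT.lf (nat_lit 0) (nat_lit 1007465412) (nat_lit 760) (nat_lit 2762297522) (nat_lit 836) (nat_lit 4114782454) (nat_lit 294) (nat_lit 5) (nat_lit 304) (nat_lit 5) (nat_lit 305) (nat_lit 5) (nat_lit 335) (nat_lit 290) (nat_lit 275)))))) (XT.nd (nat_lit 390) (nat_lit 3040) (nat_lit 0) (XT.nd (nat_lit 156) (nat_lit 2052) (nat_lit 0) (XT.nd (nat_lit 78) (nat_lit 684) (nat_lit 0) (XT.lf (nat_lit 0) (nat_lit 533059830) (nat_lit 760) (nat_lit 6436758810) (nat_lit 76) (nat_lit 1007309642) (nat_lit 284) (nat_lit 5) (nat_lit 294) (nat_lit 5) (nat_lit 285) (nat_lit 5) (nat_lit 336) (nat_lit 290) (nat_lit 274)) (XT.lf (nat_lit 0) (nat_lit 2071429643) (nat_lit 684) (nat_lit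 3154498555) (nat_lit 760) (nat_lit 2846826609) (nat_lit 275) (nat_lit 5) (nat_lit 284) (nat_lit 5) (nat_lit 285) (nat_lit 5) (nat_lit 337) (nat_lit 290) (nat_lit 273))) (XT.nd (nat_lit 78) (nat_lit 1368) (nat_lit 0) (XT.lf (nat_lit 0) (nat_lit 1813980857) (nat_lit 684) (nat_lit 5544546427) (nat_lit 76) (nat_lit 813507437) (nat_lit 266) (nat_lit 5) (nat_lit 275) (nat_lit 5) (nat_lit 267) (nat_lit 5) (nat_lit 338) (nat_lit 290) (nat_lit 272)) (XT.nd (nat_lit 78) (nat_lit 684) (nat_lit 0) (XT.lf (nat_lit 0) (nat_lit 3183716693) (nat_lit 684) (nat_lit 3361506902) (nat_lit 760) (nat_lit 1729344295) (nat_lit 257) (nat_lit 5) (nat_lit 266) (nat_lit 5) (nat_lit 267) (nat_lit 5) (nat_lit 339) (nat_lit 290) (nat_lit 271)) (XT.lf (nat_lit 0) (nat_lit 2953866006) (nat_lit 684) (nat_lit 4627151170) (nat_lit 76) (nat_lit 799690823) (nat_lit 248) (nat_lit 5) (nat_lit 257) (nat_lit 5) (nat_lit 249) (nat_lit 5) (nat_lit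 340) (nat_lit 290) (nat_lit 270))))) (XT.nd (nat_lit 156) (nat_lit 1824) (nat_lit 0) (XT.nd (nat_lit 78) (nat_lit 608) (nat_lit 0) (XT.lf (nat_lit 0) (nat_lit 4325642542) (nat_lit 608) (nat_lit 3404035493) (nat_lit 684) (nat_lit 760647816) (nat_lit 240) (nat_lit 5) (nat_lit 248) (nat_lit 5) (nat_lit 249) (nat_lit 5) (nat_lit 341) (nat_lit 290) (nat_lit 269)) (XT.lf (nat_lit 0) (nat_lit 3953844891) (nat_lit 608) (nat_lit 3703885348) (nat_lit 76) (nat_lit 945781785) (nat_lit 232) (nat_lit 5) (nat_lit 240) (nat_lit 5) (nat_lit 233) (nat_lit 5) (nat_lit 342) (nat_lit 290) (nat_lit 268))) (XT.nd (nat_lit 78) (nat_lit 1140) (nat_lit 0) (XT.lf (nat_lit 0) (nat_lit 58830754) (nat_lit 684) (nat_lit 3242981947) (nat_lit 76) (nat_lit 5418592608) (nat_lit 223) (nat_lit 5) (nat_lit 232) (nat_lit 5) (nat_lit 224) (nat_lit 5) (nat_lit 343) (nat_lit 290) (nat_lit 267)) (XT.nd (nat_lit 78) (nat_lit 608) (nat_lit 0)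 (XT.lf (nat_lit 0) (nat_lit 4813727591) (nat_lit 608) (nat_lit 2794905708) (nat_lit 76) (nat_lit 1232221167) (nat_lit 216) (nat_lit 5) (nat_lit 224) (nat_lit 5) (nat_lit 217) (nat_lit 5) (nat_lit 344) (nat_lit 290) (nat_lit 266)) (XT.lf (nat_lit 0) (nat_lit 720838366) (nat_lit 608) (nat_lit 2350050708) (nat_lit 76) (nat_lit 5894274262) (nat_lit 208) (nat_lit 5) (nat_lit 216) (nat_lit 5) (nat_lit 209) (nat_lit 5) (nat_lit 345) (nat_lit 290) (nat_lit 265))))))) (XT.nd (nat_lit 780) (nat_lit 3724) (nat_lit 0) (XT.nd (nat_lit 390) (nat_lit 2660) (nat_lit 0) (XT.nd (nat_lit 156) (nat_lit 1444) (nat_lit 0) (XT.nd (nat_lit 78) (nat_lit 608) (nat_lit 0) (XT.lf (nat_lit 0) (nat_lit 5531968420) (nat_lit 608) (nat_lit 1921419554) (nat_lit 76) (nat_lit 1639800110) (nat_lit 201) (nat_lit 5) (nat_lit 209) (nat_lit 5) (nat_lit 202) (nat_lit 5) (nat_lit 346) (nat_lit 290) (nat_lit 264)) (XT.lf (nat_lit 0) (nat_lit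 1232952741) (nat_lit 608) (nat_lit 1502819781) (nat_lit 76) (nat_lit 6489400960) (nat_lit 193) (nat_lit 5) (nat_lit 201) (nat_lit 5) (nat_lit 194) (nat_lit 5) (nat_lit 347) (nat_lit 290) (nat_lit 263))) (XT.nd (nat_lit 78) (nat_lit 988) (nat_lit 0) (XT.lf (nat_lit 0) (nat_lit 6105617950) (nat_lit 532) (nat_lit 1105904249) (nat_lit 76) (nat_lit 2149490104) (nat_lit 187) (nat_lit 5) (nat_lit 194) (nat_lit 5) (nat_lit 188) (nat_lit 5) (nat_lit 348) (nat_lit 290) (nat_lit 262)) (XT.nd (nat_lit 78) (nat_lit 456) (nat_lit 0) (XT.lf (nat_lit 0) (nat_lit 1591328860) (nat_lit 532) (nat_lit 724538391) (nat_lit 76) (nat_lit 7185090945) (nat_lit 180) (nat_lit 5) (nat_lit 187) (nat_lit 5) (nat_lit 181) (nat_lit 5) (nat_lit 349) (nat_lit 290) (nat_lit 261)) (XT.lf (nat_lit 0) (nat_lit 6530262669) (nat_lit 532) (nat_lit 372342144) (nat_lit 76) (nat_lit 2742270269) (nat_lit 174) (nat_lit 5) (nat_lit 181) (nat_lit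 5) (nat_lit 175) (nat_lit 5) (nat_lit 350) (nat_lit 290) (nat_lit 260))))) (XT.nd (nat_lit 156) (nat_lit 1292) (nat_lit 0) (XT.nd (nat_lit 78) (nat_lit 836) (nat_lit 0) (XT.lf (nat_lit 0) (nat_lit 1790608222) (nat_lit 532) (nat_lit 40079970) (nat_lit 76) (nat_lit 7962401402) (nat_lit 167) (nat_lit 5) (nat_lit 174) (nat_lit 5) (nat_lit 168) (nat_lit 5) (nat_lit 351) (nat_lit 290) (nat_lit 259)) (XT.lf (nat_lit 0) (nat_lit 256896100) (nat_lit 456) (nat_lit 6544723363) (nat_lit 532) (nat_lit 3143722257) (nat_lit 156) (nat_lit 5) (nat_lit 162) (nat_lit 5) (nat_lit 163) (nat_lit 5) (nat_lit 352) (nat_lit 290) (nat_lit 258))) (XT.nd (nat_lit 78) (nat_lit 836) (nat_lit 0) (XT.lf (nat_lit 0) (nat_lit 530756216) (nat_lit 380) (nat_lit 1296528308) (nat_lit 456) (nat_lit 8274838327) (nat_lit 150) (nat_lit 5) (nat_lit 155) (nat_lit 5) (nat_lit 156) (nat_lit 5) (nat_lit 353) (nat_lit 290) (nat_lit 257)) (XT.nd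 (nat_lit 78) (nat_lit 456) (nat_lit 0) (XT.lf (nat_lit 0) (nat_lit 753819230) (nat_lit 380) (nat_lit 6158183572) (nat_lit 456) (nat_lit 3351063425) (nat_lit 145) (nat_lit 5) (nat_lit 150) (nat_lit 5) (nat_lit 151) (nat_lit 5) (nat_lit 354) (nat_lit 290) (nat_lit 256)) (XT.lf (nat_lit 0) (nat_lit 950624027) (nat_lit 380) (nat_lit 737926786) (nat_lit 456) (nat_lit 8740269172) (nat_lit 139) (nat_lit 5) (nat_lit 144) (nat_lit 5) (nat_lit 145) (nat_lit 5) (nat_lit 355) (nat_lit 290) (nat_lit 255)))))) (XT.nd (nat_lit 390) (nat_lit 1748) (nat_lit 0) (XT.nd (nat_lit 156) (nat_lit 1140) (nat_lit 0) (XT.nd (nat_lit 78) (nat_lit 456) (nat_lit 0) (XT.lf (nat_lit 0) (nat_lit 1082983747) (nat_lit 380) (nat_lit 5766478008) (nat_lit 456) (nat_lit 3749347589) (nat_lit 134) (nat_lit 5) (nat_lit 139) (nat_lit 5) (nat_lit 140) (nat_lit 5) (nat_lit 356) (nat_lit 290) (nat_lit 254)) (XT.lf (nat_lit 0) (nat_lit 1187164116)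 (nat_lit 380) (nat_lit 176332697) (nat_lit 456) (nat_lit 9410429874) (nat_lit 128) (nat_lit 5) (nat_lit 133) (nat_lit 5) (nat_lit 134) (nat_lit 5) (nat_lit 357) (nat_lit 290) (nat_lit 253))) (XT.nd (nat_lit 78) (nat_lit 760) (nat_lit 0) (XT.lf (nat_lit 0) (nat_lit 1211213309) (nat_lit 380) (nat_lit 5391418567) (nat_lit 456) (nat_lit 4350710424) (nat_lit 123) (nat_lit 5) (nat_lit 128) (nat_lit 5) (nat_lit 129) (nat_lit 5) (nat_lit 358) (nat_lit 290) (nat_lit 252)) (XT.nd (nat_lit 78) (nat_lit 380) (nat_lit 0) (XT.lf (nat_lit 0) (nat_lit 841908774) (nat_lit 380) (nat_lit 9934922841) (nat_lit 76) (nat_lit 361365498) (nat_lit 118) (nat_lit 5) (nat_lit 123) (nat_lit 5) (nat_lit 119) (nat_lit 5) (nat_lit 359) (nat_lit 290) (nat_lit 251)) (XT.lf (nat_lit 0) (nat_lit 1102296715) (nat_lit 380) (nat_lit 5055850817) (nat_lit 456) (nat_lit 5169351859) (nat_lit 113) (nat_lit 5) (nat_lit 118) (nat_lit 5) (nat_lit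 119) (nat_lit 5) (nat_lit 360) (nat_lit 290) (nat_lit 250))))) (XT.nd (nat_lit 234) (nat_lit 760) (nat_lit 0) (XT.nd (nat_lit 78) (nat_lit 608) (nat_lit 0) (XT.lf (nat_lit 0) (nat_lit 107596228) (nat_lit 380) (nat_lit 10559933859) (nat_lit 76) (nat_lit 854998111) (nat_lit 108) (nat_lit 5) (nat_lit 113) (nat_lit 5) (nat_lit 109) (nat_lit 5) (nat_lit 361) (nat_lit 290) (nat_lit 249)) (XT.nd (nat_lit 78) (nat_lit 304) (nat_lit 0) (XT.lf (nat_lit 0) (nat_lit 716601816) (nat_lit 304) (nat_lit 4783883069) (nat_lit 380) (nat_lit 6221697102) (nat_lit 104) (nat_lit 5) (nat_lit 108) (nat_lit 5) (nat_lit 109) (nat_lit 5) (nat_lit 362) (nat_lit 290) (nat_lit 248)) (XT.lf (nat_lit 0) (nat_lit 419177666) (nat_lit 304) (nat_lit 10639505450) (nat_lit 380) (nat_lit 869086156) (nat_lit 100) (nat_lit 5) (nat_lit 104) (nat_lit 5) (nat_lit 105) (nat_lit 5) (nat_lit 363) (nat_lit 290) (nat_lit 247)))) (XT.nd (nat_lit 78)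 (nat_lit 380) (nat_lit 0) (XT.lf (nat_lit 0) (nat_lit 10653361) (nat_lit 304) (nat_lit 4601130899) (nat_lit 380) (nat_lit 7526578729) (nat_lit 95) (nat_lit 5) (nat_lit 99) (nat_lit 5) (nat_lit 100) (nat_lit 5) (nat_lit 364) (nat_lit 290) (nat_lit 246)) (XT.nd (nat_lit 78) (nat_lit 380) (nat_lit 0) (XT.lf (nat_lit 0) (nat_lit 10256984325) (nat_lit 380) (nat_lit 462886116) (nat_lit 76) (nat_lit 1635068214) (nat_lit 95) (nat_lit 5) (nat_lit 100) (nat_lit 5) (nat_lit 96) (nat_lit 5) (nat_lit 365) (nat_lit 290) (nat_lit 245)) (XT.lf (nat_lit 0) (nat_lit 3478553917) (nat_lit 380) (nat_lit 1049383568) (nat_lit 76) (nat_lit 8049016207) (nat_lit 90) (nat_lit 5) (nat_lit 95) (nat_lit 5) (nat_lit 91) (nat_lit 5) (nat_lit 366) (nat_lit 290) (nat_lit 244))))))))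
noncomputable def xc29 : XT := (XT.nd (nat_lit 1560) (nat_lit 152) (nat_lit 0) (XT.nd (nat_lit 780) (nat_lit 1748) (nat_lit 0) (XT.nd (nat_lit 390) (nat_lit 1216) (nat_lit 0) (XT.nd (nat_lit 156) (nat_lit 836) (nat_lit 0) (XT.nd (nat_lit 78) (nat_lit 304) (nat_lit 0) (XT.lf (nat_lit 0) (nat_lit 9207268260) (nat_lit 380) (nat_lit 1728460327) (nat_lit 76) (nat_lit 1869367217) (nat_lit 86) (nat_lit 5) (nat_lit 91) (nat_lit 5) (nat_lit 87) (nat_lit 5) (nat_lit 367) (nat_lit 290) (nat_lit 243)) (XT.lf (nat_lit 0) (nat_lit 2073534158) (nat_lit 304) (nat_lit 2524391482) (nat_lit 76) (nat_lit 8441241864) (nat_lit 82) (nat_lit 5) (nat_lit 86) (nat_lit 5) (nat_lit 83) (nat_lit 5) (nat_lit 368) (nat_lit 290) (nat_lit 242))) (XT.nd (nat_lit 78) (nat_lit 532) (nat_lit 0) (XT.lf (nat_lit 0) (nat_lit 7882865669) (nat_lit 380) (nat_lit 3437506559) (nat_lit 76) (nat_lit 1959090625) (nat_lit 78) (nat_lit 5) (nat_lit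 83) (nat_lit 5) (nat_lit 79) (nat_lit 5) (nat_lit 369) (nat_lit 290) (nat_lit 241)) (XT.nd (nat_lit 78) (nat_lit 228) (nat_lit 0) (XT.lf (nat_lit 0) (nat_lit 370864374) (nat_lit 304) (nat_lit 4471712001) (nat_lit 76) (nat_lit 8683641234) (nat_lit 74) (nat_lit 5) (nat_lit 78) (nat_lit 5) (nat_lit 75) (nat_lit 5) (nat_lit 370) (nat_lit 290) (nat_lit 240)) (XT.lf (nat_lit 0) (nat_lit 6256733852) (nat_lit 304) (nat_lit 5650084375) (nat_lit 76) (nat_lit 1872479756) (nat_lit 71) (nat_lit 5) (nat_lit 75) (nat_lit 5) (nat_lit 72) (nat_lit 5) (nat_lit 371) (nat_lit 290) (nat_lit 239))))) (XT.nd (nat_lit 156) (nat_lit 684) (nat_lit 0) (XT.nd (nat_lit 78) (nat_lit 304) (nat_lit 0) (XT.lf (nat_lit 0) (nat_lit 7073831068) (nat_lit 228) (nat_lit 5284819467) (nat_lit 304) (nat_lit 1680540967) (nat_lit 68) (nat_lit 5) (nat_lit 71) (nat_lit 5) (nat_lit 72) (nat_lit 5) (nat_lit 372) (nat_lit 290) (nat_lit 238)) (XT.lf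 (nat_lit 0) (nat_lit 4298443384) (nat_lit 304) (nat_lit 8432481744) (nat_lit 76) (nat_lit 1575031669) (nat_lit 64) (nat_lit 5) (nat_lit 68) (nat_lit 5) (nat_lit 65) (nat_lit 5) (nat_lit 373) (nat_lit 290) (nat_lit 237))) (XT.nd (nat_lit 78) (nat_lit 456) (nat_lit 0) (XT.lf (nat_lit 0) (nat_lit 4510718698) (nat_lit 228) (nat_lit 5967947982) (nat_lit 304) (nat_lit 4100951561) (nat_lit 61) (nat_lit 5) (nat_lit 64) (nat_lit 5) (nat_lit 65) (nat_lit 5) (nat_lit 374) (nat_lit 290) (nat_lit 236)) (XT.nd (nat_lit 78) (nat_lit 152) (nat_lit 0) (XT.lf (nat_lit 0) (nat_lit 1973853237) (nat_lit 304) (nat_lit 11857911304) (nat_lit 76) (nat_lit 1029135426) (nat_lit 57) (nat_lit 5) (nat_lit 61) (nat_lit 5) (nat_lit 58) (nat_lit 5) (nat_lit 375) (nat_lit 290) (nat_lit 235)) (XT.lf (nat_lit 0) (nat_lit 1291961375) (nat_lit 152) (nat_lit 6934660832) (nat_lit 228) (nat_lit 6922435745) (nat_lit 55) (nat_lit 5) (nat_lit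 57) (nat_lit 5) (nat_lit 58) (nat_lit 5) (nat_lit 376) (nat_lit 290) (nat_lit 234)))))) (XT.nd (nat_lit 390) (nat_lit 836) (nat_lit 0) (XT.nd (nat_lit 156) (nat_lit 608) (nat_lit 0) (XT.nd (nat_lit 78) (nat_lit 304) (nat_lit 0) (XT.lf (nat_lit 0) (nat_lit 14683993913) (nat_lit 228) (nat_lit 559211721) (nat_lit 76) (nat_lit 202323070) (nat_lit 55) (nat_lit 5) (nat_lit 58) (nat_lit 5) (nat_lit 56) (nat_lit 5) (nat_lit 377) (nat_lit 290) (nat_lit 233)) (XT.lf (nat_lit 0) (nat_lit 5580116178) (nat_lit 304) (nat_lit 2631181637) (nat_lit 76) (nat_lit 7537495439) (nat_lit 51) (nat_lit 5) (nat_lit 55) (nat_lit 5) (nat_lit 52) (nat_lit 5) (nat_lit 378) (nat_lit 290) (nat_lit 232))) (XT.nd (nat_lit 78) (nat_lit 456) (nat_lit 0) (XT.lf (nat_lit 0) (nat_lit 11185110169) (nat_lit 152) (nat_lit 930706796) (nat_lit 228) (nat_lit 3944962948) (nat_lit 49) (nat_lit 5) (nat_lit 51) (nat_lit 5) (nat_lit 52) (nat_lit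 5) (nat_lit 379) (nat_lit 290) (nat_lit 231)) (XT.nd (nat_lit 78) (nat_lit 152) (nat_lit 0) (XT.lf (nat_lit 0) (nat_lit 2491271670) (nat_lit 304) (nat_lit 7358420969) (nat_lit 76) (nat_lit 6530957911) (nat_lit 45) (nat_lit 5) (nat_lit 49) (nat_lit 5) (nat_lit 46) (nat_lit 5) (nat_lit 380) (nat_lit 290) (nat_lit 230)) (XT.lf (nat_lit 0) (nat_lit 6642589251) (nat_lit 152) (nat_lit 2446512619) (nat_lit 228) (nat_lit 7620058998) (nat_lit 43) (nat_lit 5) (nat_lit 45) (nat_lit 5) (nat_lit 46) (nat_lit 5) (nat_lit 381) (nat_lit 290) (nat_lit 229))))) (XT.nd (nat_lit 156) (nat_lit 380) (nat_lit 0) (XT.nd (nat_lit 78) (nat_lit 228) (nat_lit 0) (XT.lf (nat_lit 0) (nat_lit 4031499137) (nat_lit 228) (nat_lit 11903353860) (nat_lit 304) (nat_lit 1111680759) (nat_lit 40) (nat_lit 5) (nat_lit 43) (nat_lit 5) (nat_lit 44) (nat_lit 5) (nat_lit 382) (nat_lit 290) (nat_lit 228)) (XT.lf (nat_lit 0) (nat_lit 1155342611)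 (nat_lit 152) (nat_lit 4396467241) (nat_lit 228) (nat_lit 11840834482) (nat_lit 37) (nat_lit 5) (nat_lit 39) (nat_lit 5) (nat_lit 40) (nat_lit 5) (nat_lit 383) (nat_lit 290) (nat_lit 227))) (XT.nd (nat_lit 78) (nat_lit 380) (nat_lit 0) (XT.lf (nat_lit 0) (nat_lit 12452068788) (nat_lit 228) (nat_lit 1951589721) (nat_lit 76) (nat_lit 3344299868) (nat_lit 37) (nat_lit 5) (nat_lit 40) (nat_lit 5) (nat_lit 38) (nat_lit 5) (nat_lit 384) (nat_lit 290) (nat_lit 226)) (XT.nd (nat_lit 78) (nat_lit 152) (nat_lit 0) (XT.lf (nat_lit 0) (nat_lit 1482472131) (nat_lit 228) (nat_lit 5321910059) (nat_lit 76) (nat_lit 11308247595) (nat_lit 34) (nat_lit 5) (nat_lit 37) (nat_lit 5) (nat_lit 35) (nat_lit 5) (nat_lit 385) (nat_lit 290) (nat_lit 225)) (XT.lf (nat_lit 0) (nat_lit 8418539783) (nat_lit 228) (nat_lit 8990711109) (nat_lit 76) (nat_lit 1077770181) (nat_lit 32) (nat_lit 5) (nat_lit 35) (nat_lit 5) (nat_lit 33)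 (nat_lit 5) (nat_lit 386) (nat_lit 290) (nat_lit 224))))))) (XT.nd (nat_lit 42198) (nat_lit 0) (nat_lit 18620) (XT.nd (nat_lit 41808) (nat_lit 0) (nat_lit 28804) (XT.nd (nat_lit 41574) (nat_lit 0) (nat_lit 37088) (XT.nd (nat_lit 41496) (nat_lit 0) (nat_lit 41116) (XT.lf (nat_lit 0) (nat_lit 5892696181) (nat_lit 152) (nat_lit 9734570447) (nat_lit 228) (nat_lit 3244091714) (nat_lit 30) (nat_lit 5) (nat_lit 32) (nat_lit 5) (nat_lit 33) (nat_lit 5) (nat_lit 387) (nat_lit 290) (nat_lit 223)) (XT.lf (nat_lit 0) (nat_lit 1551236126) (nat_lit 1140) (nat_lit 923249498) (nat_lit 1140) (nat_lit 923249498) (nat_lit 571) (nat_lit 4) (nat_lit 586) (nat_lit 5) (nat_lit 586) (nat_lit 4) (nat_lit 318) (nat_lit 291) (nat_lit 291))) (XT.nd (nat_lit 78) (nat_lit 2736) (nat_lit 0) (XT.lf (nat_lit 0) (nat_lit 3010936825) (nat_lit 1292) (nat_lit 3782017294) (nat_lit 0) (nat_lit 43610998) (nat_lit 554) (nat_lit 5) (nat_lit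 571) (nat_lit 4) (nat_lit 554) (nat_lit 4) (nat_lit 319) (nat_lit 291) (nat_lit 290)) (XT.nd (nat_lit 78) (nat_lit 1368) (nat_lit 0) (XT.lf (nat_lit 0) (nat_lit 998374183) (nat_lit 1368) (nat_lit 3831508838) (nat_lit 76) (nat_lit 2050648261) (nat_lit 536) (nat_lit 5) (nat_lit 554) (nat_lit 5) (nat_lit 537) (nat_lit 4) (nat_lit 320) (nat_lit 291) (nat_lit 289)) (XT.lf (nat_lit 0) (nat_lit 3090180871) (nat_lit 1368) (nat_lit 2719420487) (nat_lit 1444) (nat_lit 1117895712) (nat_lit 518) (nat_lit 5) (nat_lit 536) (nat_lit 5) (nat_lit 537) (nat_lit 4) (nat_lit 321) (nat_lit 291) (nat_lit 288))))) (XT.nd (nat_lit 156) (nat_lit 5168) (nat_lit 0) (XT.nd (nat_lit 78) (nat_lit 1596) (nat_lit 0) (XT.lf (nat_lit 0) (nat_lit 3177615486) (nat_lit 1444) (nat_lit 459564676) (nat_lit 1520) (nat_lit 3340320266) (nat_lit 498) (nat_lit 5) (nat_lit 517) (nat_lit 5) (nat_lit 518) (nat_lit 5) (nat_lit 322) (nat_lit 291)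 (nat_lit 287)) (XT.lf (nat_lit 0) (nat_lit 1384953757) (nat_lit 1596) (nat_lit 3725786323) (nat_lit 76) (nat_lit 1919718423) (nat_lit 477) (nat_lit 5) (nat_lit 498) (nat_lit 5) (nat_lit 478) (nat_lit 5) (nat_lit 323) (nat_lit 291) (nat_lit 286))) (XT.nd (nat_lit 78) (nat_lit 3572) (nat_lit 0) (XT.lf (nat_lit 0) (nat_lit 3473351145) (nat_lit 1596) (nat_lit 2641787054) (nat_lit 1672) (nat_lit 971321689) (nat_lit 456) (nat_lit 5) (nat_lit 477) (nat_lit 5) (nat_lit 478) (nat_lit 5) (nat_lit 324) (nat_lit 291) (nat_lit 285)) (XT.nd (nat_lit 78) (nat_lit 1824) (nat_lit 0) (XT.lf (nat_lit 0) (nat_lit 3682774975) (nat_lit 1672) (nat_lit 18275411) (nat_lit 1748) (nat_lit 3444488184) (nat_lit 433) (nat_lit 5) (nat_lit 455) (nat_lit 5) (nat_lit 456) (nat_lit 5) (nat_lit 325) (nat_lit 291) (nat_lit 284)) (XT.lf (nat_lit 0) (nat_lit 1206613043) (nat_lit 1824) (nat_lit 3283950084) (nat_lit 76) (nat_lit 2717001584)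 (nat_lit 409) (nat_lit 5) (nat_lit 433) (nat_lit 5) (nat_lit 410) (nat_lit 5) (nat_lit 326) (nat_lit 291) (nat_lit 283)))))) (XT.nd (nat_lit 390) (nat_lit 5396) (nat_lit 0) (XT.nd (nat_lit 156) (nat_lit 2660) (nat_lit 0) (XT.nd (nat_lit 78) (nat_lit 988) (nat_lit 0) (XT.lf (nat_lit 0) (nat_lit 4203314427) (nat_lit 1140) (nat_lit 1662922263) (nat_lit 1216) (nat_lit 1406502648) (nat_lit 394) (nat_lit 5) (nat_lit 409) (nat_lit 5) (nat_lit 410) (nat_lit 5) (nat_lit 327) (nat_lit 291) (nat_lit 282)) (XT.lf (nat_lit 0) (nat_lit 3209132277) (nat_lit 988) (nat_lit 2827528695) (nat_lit 76) (nat_lit 1304292914) (nat_lit 381) (nat_lit 5) (nat_lit 394) (nat_lit 5) (nat_lit 382) (nat_lit 5) (nat_lit 328) (nat_lit 291) (nat_lit 281))) (XT.nd (nat_lit 78) (nat_lit 1748) (nat_lit 0) (XT.lf (nat_lit 0) (nat_lit 458963283) (nat_lit 912) (nat_lit 2553908600) (nat_lit 76) (nat_lit 4399483958) (nat_lit 369) (nat_lit 5)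 (nat_lit 381) (nat_lit 5) (nat_lit 370) (nat_lit 5) (nat_lit 329) (nat_lit 291) (nat_lit 280)) (XT.nd (nat_lit 78) (nat_lit 912) (nat_lit 0) (XT.lf (nat_lit 0) (nat_lit 5057714525) (nat_lit 912) (nat_lit 2255070521) (nat_lit 76) (nat_lit 174092733) (nat_lit 358) (nat_lit 5) (nat_lit 370) (nat_lit 5) (nat_lit 359) (nat_lit 5) (nat_lit 330) (nat_lit 291) (nat_lit 279)) (XT.lf (nat_lit 0) (nat_lit 2149798638) (nat_lit 912) (nat_lit 1938769174) (nat_lit 76) (nat_lit 3475861850) (nat_lit 346) (nat_lit 5) (nat_lit 358) (nat_lit 5) (nat_lit 347) (nat_lit 5) (nat_lit 331) (nat_lit 291) (nat_lit 278))))) (XT.nd (nat_lit 234) (nat_lit 2888) (nat_lit 0) (XT.nd (nat_lit 78) (nat_lit 1672) (nat_lit 0) (XT.lf (nat_lit 0) (nat_lit 6056907600) (nat_lit 836) (nat_lit 707503327) (nat_lit 912) (nat_lit 880998142) (nat_lit 335) (nat_lit 5) (nat_lit 346) (nat_lit 5) (nat_lit 347) (nat_lit 5) (nat_lit 332) (nat_lit 291)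 (nat_lit 277)) (XT.nd (nat_lit 78) (nat_lit 836) (nat_lit 0) (XT.lf (nat_lit 0) (nat_lit 3691219353) (nat_lit 836) (nat_lit 1232266745) (nat_lit 76) (nat_lit 2805839991) (nat_lit 324) (nat_lit 5) (nat_lit 335) (nat_lit 5) (nat_lit 325) (nat_lit 5) (nat_lit 333) (nat_lit 291) (nat_lit 276)) (XT.lf (nat_lit 0) (nat_lit 506843018) (nat_lit 836) (nat_lit 843454345) (nat_lit 76) (nat_lit 6466488321) (nat_lit 313) (nat_lit 5) (nat_lit 324) (nat_lit 5) (nat_lit 314) (nat_lit 5) (nat_lit 334) (nat_lit 291) (nat_lit 275)))) (XT.nd (nat_lit 78) (nat_lit 2204) (nat_lit 0) (XT.lf (nat_lit 0) (nat_lit 5088731825) (nat_lit 760) (nat_lit 451822850) (nat_lit 76) (nat_lit 2366713537) (nat_lit 304) (nat_lit 5) (nat_lit 314) (nat_lit 5) (nat_lit 305) (nat_lit 5) (nat_lit 335) (nat_lit 291) (nat_lit 274)) (XT.nd (nat_lit 78) (nat_lit 1368) (nat_lit 0) (XT.lf (nat_lit 0) (nat_lit 1735203101) (nat_lit 836) (nat_lit 37750543)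 (nat_lit 76) (nat_lit 6228290895) (nat_lit 293) (nat_lit 5) (nat_lit 304) (nat_lit 5) (nat_lit 294) (nat_lit 5) (nat_lit 336) (nat_lit 291) (nat_lit 273)) (XT.lf (nat_lit 0) (nat_lit 390063018) (nat_lit 684) (nat_lit 5959060310) (nat_lit 760) (nat_lit 1749345833) (nat_lit 275) (nat_lit 5) (nat_lit 284) (nat_lit 5) (nat_lit 285) (nat_lit 5) (nat_lit 337) (nat_lit 291) (nat_lit 272))))))))
noncomputable def xc30 : XT := (XT.nd (nat_lit 1560) (nat_lit 6232) (nat_lit 0) (XT.nd (nat_lit 780) (nat_lit 4560) (nat_lit 0) (XT.nd (nat_lit 390) (nat_lit 2964) (nat_lit 0) (XT.nd (nat_lit 156) (nat_lit 1900) (nat_lit 0) (XT.nd (nat_lit 78) (nat_lit 684) (nat_lit 0) (XT.lf (nat_lit 0) (nat_lit 827324114) (nat_lit 608) (nat_lit 1997219185) (nat_lit 684) (nat_lit 5374531972) (nat_lit 266) (nat_lit 5) (nat_lit 274) (nat_lit 5) (nat_lit 275) (nat_lit 5) (nat_lit 338) (nat_lit 291) (nat_lit 271)) (XT.lf (nat_lit 0)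 (nat_lit 1276810419) (nat_lit 684) (nat_lit 6199280166) (nat_lit 760) (nat_lit 827129449) (nat_lit 257) (nat_lit 5) (nat_lit 266) (nat_lit 5) (nat_lit 267) (nat_lit 5) (nat_lit 339) (nat_lit 291) (nat_lit 270))) (XT.nd (nat_lit 78) (nat_lit 1216) (nat_lit 0) (XT.lf (nat_lit 0) (nat_lit 1723521931) (nat_lit 608) (nat_lit 2048684160) (nat_lit 684) (nat_lit 4638494568) (nat_lit 248) (nat_lit 5) (nat_lit 256) (nat_lit 5) (nat_lit 257) (nat_lit 5) (nat_lit 340) (nat_lit 291) (nat_lit 269)) (XT.nd (nat_lit 78) (nat_lit 608) (nat_lit 0) (XT.lf (nat_lit 0) (nat_lit 2183649396) (nat_lit 608) (nat_lit 6284635317) (nat_lit 684) (nat_lit 53644808) (nat_lit 240) (nat_lit 5) (nat_lit 248) (nat_lit 5) (nat_lit 249) (nat_lit 5) (nat_lit 341) (nat_lit 291) (nat_lit 268)) (XT.lf (nat_lit 0) (nat_lit 2631163441) (nat_lit 532) (nat_lit 1947639981) (nat_lit 608) (nat_lit 4057691460) (nat_lit 232) (nat_lit 5) (nat_lit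 239) (nat_lit 5) (nat_lit 240) (nat_lit 5) (nat_lit 342) (nat_lit 291) (nat_lit 267))))) (XT.nd (nat_lit 156) (nat_lit 1748) (nat_lit 0) (XT.nd (nat_lit 78) (nat_lit 532) (nat_lit 0) (XT.lf (nat_lit 0) (nat_lit 563567175) (nat_lit 684) (nat_lit 5667618860) (nat_lit 76) (nat_lit 2523729575) (nat_lit 223) (nat_lit 5) (nat_lit 232) (nat_lit 5) (nat_lit 224) (nat_lit 5) (nat_lit 343) (nat_lit 291) (nat_lit 266)) (XT.lf (nat_lit 0) (nat_lit 3530243098) (nat_lit 532) (nat_lit 1713640810) (nat_lit 608) (nat_lit 3632986836) (nat_lit 216) (nat_lit 5) (nat_lit 223) (nat_lit 5) (nat_lit 224) (nat_lit 5) (nat_lit 344) (nat_lit 291) (nat_lit 265))) (XT.nd (nat_lit 78) (nat_lit 1140) (nat_lit 0) (XT.lf (nat_lit 0) (nat_lit 1031852636) (nat_lit 608) (nat_lit 5030963492) (nat_lit 76) (nat_lit 2939885118) (nat_lit 208) (nat_lit 5) (nat_lit 216) (nat_lit 5) (nat_lit 209) (nat_lit 5) (nat_lit 345) (nat_lit 291) (nat_lit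 264)) (XT.nd (nat_lit 78) (nat_lit 608) (nat_lit 0) (XT.lf (nat_lit 0) (nat_lit 4399722550) (nat_lit 532) (nat_lit 1365925252) (nat_lit 608) (nat_lit 3366638172) (nat_lit 201) (nat_lit 5) (nat_lit 208) (nat_lit 5) (nat_lit 209) (nat_lit 5) (nat_lit 346) (nat_lit 291) (nat_lit 263)) (XT.lf (nat_lit 0) (nat_lit 1349140177) (nat_lit 608) (nat_lit 4450010841) (nat_lit 76) (nat_lit 3466624574) (nat_lit 193) (nat_lit 5) (nat_lit 201) (nat_lit 5) (nat_lit 194) (nat_lit 5) (nat_lit 347) (nat_lit 291) (nat_lit 262)))))) (XT.nd (nat_lit 390) (nat_lit 2204) (nat_lit 0) (XT.nd (nat_lit 156) (nat_lit 1368) (nat_lit 0) (XT.nd (nat_lit 78) (nat_lit 532) (nat_lit 0) (XT.lf (nat_lit 0) (nat_lit 5217312338) (nat_lit 456) (nat_lit 923586332) (nat_lit 532) (nat_lit 3262346152) (nat_lit 187) (nat_lit 5) (nat_lit 193) (nat_lit 5) (nat_lit 194) (nat_lit 5) (nat_lit 348) (nat_lit 291) (nat_lit 261)) (XT.lf (nat_lit 0) (nat_lit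 1511215583) (nat_lit 532) (nat_lit 3948214767) (nat_lit 76) (nat_lit 4085238005) (nat_lit 180) (nat_lit 5) (nat_lit 187) (nat_lit 5) (nat_lit 181) (nat_lit 5) (nat_lit 349) (nat_lit 291) (nat_lit 260))) (XT.nd (nat_lit 78) (nat_lit 912) (nat_lit 0) (XT.lf (nat_lit 0) (nat_lit 5959238308) (nat_lit 456) (nat_lit 405744481) (nat_lit 532) (nat_lit 3325317128) (nat_lit 174) (nat_lit 5) (nat_lit 180) (nat_lit 5) (nat_lit 181) (nat_lit 5) (nat_lit 350) (nat_lit 291) (nat_lit 259)) (XT.nd (nat_lit 78) (nat_lit 380) (nat_lit 0) (XT.lf (nat_lit 0) (nat_lit 1512357258) (nat_lit 532) (nat_lit 3550681129) (nat_lit 76) (nat_lit 4776920393) (nat_lit 167) (nat_lit 5) (nat_lit 174) (nat_lit 5) (nat_lit 168) (nat_lit 5) (nat_lit 351) (nat_lit 291) (nat_lit 258)) (XT.lf (nat_lit 0) (nat_lit 6432808110) (nat_lit 456) (nat_lit 3395156442) (nat_lit 76) (nat_lit 166068045) (nat_lit 162) (nat_lit 5) (nat_lit 168) (nat_lit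 5) (nat_lit 163) (nat_lit 5) (nat_lit 352) (nat_lit 291) (nat_lit 257))))) (XT.nd (nat_lit 156) (nat_lit 1292) (nat_lit 0) (XT.nd (nat_lit 78) (nat_lit 380) (nat_lit 0) (XT.lf (nat_lit 0) (nat_lit 1345254604) (nat_lit 532) (nat_lit 3284429923) (nat_lit 76) (nat_lit 5522593458) (nat_lit 155) (nat_lit 5) (nat_lit 162) (nat_lit 5) (nat_lit 156) (nat_lit 5) (nat_lit 353) (nat_lit 291) (nat_lit 256)) (XT.lf (nat_lit 0) (nat_lit 6338350243) (nat_lit 456) (nat_lit 3208168310) (nat_lit 76) (nat_lit 768544948) (nat_lit 150) (nat_lit 5) (nat_lit 156) (nat_lit 5) (nat_lit 151) (nat_lit 5) (nat_lit 354) (nat_lit 291) (nat_lit 255))) (XT.nd (nat_lit 78) (nat_lit 836) (nat_lit 0) (XT.lf (nat_lit 0) (nat_lit 1000911991) (nat_lit 456) (nat_lit 3178678776) (nat_lit 76) (nat_lit 6302720847) (nat_lit 144) (nat_lit 5) (nat_lit 150) (nat_lit 5) (nat_lit 145) (nat_lit 5) (nat_lit 355) (nat_lit 291) (nat_lit 254)) (XT.nd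 (nat_lit 78) (nat_lit 456) (nat_lit 0) (XT.lf (nat_lit 0) (nat_lit 6069319486) (nat_lit 456) (nat_lit 3197859691) (nat_lit 76) (nat_lit 1386980816) (nat_lit 139) (nat_lit 5) (nat_lit 145) (nat_lit 5) (nat_lit 140) (nat_lit 5) (nat_lit 356) (nat_lit 291) (nat_lit 253)) (XT.lf (nat_lit 0) (nat_lit 468537250) (nat_lit 456) (nat_lit 3265150510) (nat_lit 76) (nat_lit 7097115075) (nat_lit 133) (nat_lit 5) (nat_lit 139) (nat_lit 5) (nat_lit 134) (nat_lit 5) (nat_lit 357) (nat_lit 291) (nat_lit 252))))))) (XT.nd (nat_lit 780) (nat_lit 2660) (nat_lit 0) (XT.nd (nat_lit 390) (nat_lit 1672) (nat_lit 0) (XT.nd (nat_lit 156) (nat_lit 1140) (nat_lit 0) (XT.nd (nat_lit 78) (nat_lit 380) (nat_lit 0) (XT.lf (nat_lit 0) (nat_lit 5614216557) (nat_lit 456) (nat_lit 3397299909) (nat_lit 76) (nat_lit 2000579369) (nat_lit 128) (nat_lit 5) (nat_lit 134) (nat_lit 5) (nat_lit 129) (nat_lit 5) (nat_lit 358) (nat_lit 291) (nat_lit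 251)) (XT.lf (nat_lit 0) (nat_lit 7618372471) (nat_lit 380) (nat_lit 3312045710) (nat_lit 456) (nat_lit 268102711) (nat_lit 123) (nat_lit 5) (nat_lit 128) (nat_lit 5) (nat_lit 129) (nat_lit 5) (nat_lit 359) (nat_lit 291) (nat_lit 250))) (XT.nd (nat_lit 78) (nat_lit 760) (nat_lit 0) (XT.lf (nat_lit 0) (nat_lit 4959561405) (nat_lit 380) (nat_lit 3842579819) (nat_lit 76) (nat_lit 2587566222) (nat_lit 118) (nat_lit 5) (nat_lit 123) (nat_lit 5) (nat_lit 119) (nat_lit 5) (nat_lit 360) (nat_lit 291) (nat_lit 249)) (XT.nd (nat_lit 78) (nat_lit 380) (nat_lit 0) (XT.lf (nat_lit 0) (nat_lit 7422079827) (nat_lit 380) (nat_lit 2934829036) (nat_lit 456) (nat_lit 1229370440) (nat_lit 113) (nat_lit 5) (nat_lit 118) (nat_lit 5) (nat_lit 119) (nat_lit 5) (nat_lit 361) (nat_lit 291) (nat_lit 248)) (XT.lf (nat_lit 0) (nat_lit 4089737659) (nat_lit 380) (nat_lit 4573192820) (nat_lit 76) (nat_lit 3124967395) (nat_lit 108)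 (nat_lit 5) (nat_lit 113) (nat_lit 5) (nat_lit 109) (nat_lit 5) (nat_lit 362) (nat_lit 291) (nat_lit 247))))) (XT.nd (nat_lit 156) (nat_lit 988) (nat_lit 0) (XT.nd (nat_lit 78) (nat_lit 380) (nat_lit 0) (XT.lf (nat_lit 0) (nat_lit 6939371494) (nat_lit 304) (nat_lit 2629413564) (nat_lit 380) (nat_lit 2426289977) (nat_lit 104) (nat_lit 5) (nat_lit 108) (nat_lit 5) (nat_lit 109) (nat_lit 5) (nat_lit 363) (nat_lit 291) (nat_lit 246)) (XT.lf (nat_lit 0) (nat_lit 2986816742) (nat_lit 380) (nat_lit 5632451546) (nat_lit 76) (nat_lit 3588372933) (nat_lit 99) (nat_lit 5) (nat_lit 104) (nat_lit 5) (nat_lit 100) (nat_lit 5) (nat_lit 364) (nat_lit 291) (nat_lit 245))) (XT.nd (nat_lit 78) (nat_lit 684) (nat_lit 0) (XT.lf (nat_lit 0) (nat_lit 6125718310) (nat_lit 304) (nat_lit 2421630475) (nat_lit 380) (nat_lit 3878567802) (nat_lit 95) (nat_lit 5) (nat_lit 99) (nat_lit 5) (nat_lit 100) (nat_lit 5) (nat_lit 365)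 (nat_lit 291) (nat_lit 244)) (XT.nd (nat_lit 78) (nat_lit 304) (nat_lit 0) (XT.lf (nat_lit 0) (nat_lit 1630359846) (nat_lit 380) (nat_lit 7067944274) (nat_lit 76) (nat_lit 3951683431) (nat_lit 90) (nat_lit 5) (nat_lit 95) (nat_lit 5) (nat_lit 91) (nat_lit 5) (nat_lit 366) (nat_lit 291) (nat_lit 243)) (XT.lf (nat_lit 0) (nat_lit 4932134649) (nat_lit 304) (nat_lit 2339176966) (nat_lit 380) (nat_lit 5608579156) (nat_lit 86) (nat_lit 5) (nat_lit 90) (nat_lit 5) (nat_lit 91) (nat_lit 5) (nat_lit 367) (nat_lit 291) (nat_lit 242)))))) (XT.nd (nat_lit 390) (nat_lit 1520) (nat_lit 0) (XT.nd (nat_lit 156) (nat_lit 532) (nat_lit 0) (XT.nd (nat_lit 78) (nat_lit 380) (nat_lit 0) (XT.lf (nat_lit 0) (nat_lit 4184014013) (nat_lit 228) (nat_lit 8929212411) (nat_lit 304) (nat_lit 2841520) (nat_lit 83) (nat_lit 5) (nat_lit 86) (nat_lit 5) (nat_lit 87) (nat_lit 5) (nat_lit 368) (nat_lit 291) (nat_lit 241)) (XT.lf (nat_lit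 0) (nat_lit 3304657947) (nat_lit 304) (nat_lit 2411903838) (nat_lit 380) (nat_lit 7641606600) (nat_lit 78) (nat_lit 5) (nat_lit 82) (nat_lit 5) (nat_lit 83) (nat_lit 5) (nat_lit 369) (nat_lit 291) (nat_lit 240))) (XT.nd (nat_lit 78) (nat_lit 304) (nat_lit 0) (XT.lf (nat_lit 0) (nat_lit 2311676330) (nat_lit 228) (nat_lit 9330577107) (nat_lit 304) (nat_lit 1964593797) (nat_lit 75) (nat_lit 5) (nat_lit 78) (nat_lit 5) (nat_lit 79) (nat_lit 5) (nat_lit 370) (nat_lit 291) (nat_lit 239)) (XT.nd (nat_lit 78) (nat_lit 0) (nat_lit 0) (XT.lf (nat_lit 0) (nat_lit 1183776983) (nat_lit 228) (nat_lit 2672126890) (nat_lit 304) (nat_lit 10006106603) (nat_lit 71) (nat_lit 5) (nat_lit 74) (nat_lit 5) (nat_lit 75) (nat_lit 5) (nat_lit 371) (nat_lit 291) (nat_lit 238)) (XT.lf (nat_lit 0) (nat_lit 9861378789) (nat_lit 304) (nat_lit 85398914) (nat_lit 76) (nat_lit 4177059983) (nat_lit 71) (nat_lit 5) (nat_lit 75) (nat_lit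 5) (nat_lit 72) (nat_lit 5) (nat_lit 372) (nat_lit 291) (nat_lit 237))))) (XT.nd (nat_lit 234) (nat_lit 760) (nat_lit 0) (XT.nd (nat_lit 78) (nat_lit 456) (nat_lit 0) (XT.lf (nat_lit 0) (nat_lit 1668482728) (nat_lit 304) (nat_lit 1476573768) (nat_lit 76) (nat_lit 11247524479) (nat_lit 67) (nat_lit 5) (nat_lit 71) (nat_lit 5) (nat_lit 68) (nat_lit 5) (nat_lit 373) (nat_lit 291) (nat_lit 236)) (XT.nd (nat_lit 78) (nat_lit 228) (nat_lit 0) (XT.lf (nat_lit 0) (nat_lit 7756905107) (nat_lit 304) (nat_lit 3039247834) (nat_lit 76) (nat_lit 3871929985) (nat_lit 64) (nat_lit 5) (nat_lit 68) (nat_lit 5) (nat_lit 65) (nat_lit 5) (nat_lit 374) (nat_lit 291) (nat_lit 235)) (XT.lf (nat_lit 0) (nat_lit 10200645597) (nat_lit 228) (nat_lit 3860977713) (nat_lit 304) (nat_lit 889562606) (nat_lit 61) (nat_lit 5) (nat_lit 64) (nat_lit 5) (nat_lit 65) (nat_lit 5) (nat_lit 375) (nat_lit 291) (nat_lit 234)))) (XT.nd (nat_lit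 78) (nat_lit 456) (nat_lit 0) (XT.lf (nat_lit 0) (nat_lit 5278456860) (nat_lit 304) (nat_lit 6655451842) (nat_lit 76) (nat_lit 3307483186) (nat_lit 57) (nat_lit 5) (nat_lit 61) (nat_lit 5) (nat_lit 58) (nat_lit 5) (nat_lit 376) (nat_lit 291) (nat_lit 233)) (XT.nd (nat_lit 78) (nat_lit 304) (nat_lit 0) (XT.lf (nat_lit 0) (nat_lit 6798741877) (nat_lit 152) (nat_lit 4861043181) (nat_lit 228) (nat_lit 3879602479) (nat_lit 55) (nat_lit 5) (nat_lit 57) (nat_lit 5) (nat_lit 58) (nat_lit 5) (nat_lit 377) (nat_lit 291) (nat_lit 232)) (XT.lf (nat_lit 0) (nat_lit 2386486380) (nat_lit 304) (nat_lit 11017209829) (nat_lit 76) (nat_lit 2441693724) (nat_lit 51) (nat_lit 5) (nat_lit 55) (nat_lit 5) (nat_lit 52) (nat_lit 5) (nat_lit 378) (nat_lit 291) (nat_lit 231))))))))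
noncomputable def xc31 : XT := (XT.nd (nat_lit 42900) (nat_lit 0) (nat_lit 11780) (XT.nd (nat_lit 42042) (nat_lit 0) (nat_lit 27436) (XT.nd (nat_lit 390) (nat_lit 532) (nat_lit 0) (XT.nd (nat_lit 156) (nat_lit 532) (nat_lit 0) (XT.nd (nat_lit 78) (nat_lit 228) (nat_lit 0) (XT.lf (nat_lit 0) (nat_lit 2635403363) (nat_lit 152) (nat_lit 6201454670) (nat_lit 228) (nat_lit 7322228864) (nat_lit 49) (nat_lit 5) (nat_lit 51) (nat_lit 5) (nat_lit 52) (nat_lit 5) (nat_lit 379) (nat_lit 291) (nat_lit 230)) (XT.lf (nat_lit 0) (nat_lit 258840623) (nat_lit 228) (nat_lit 15246912024) (nat_lit 304) (nat_lit 975949220) (nat_lit 46) (nat_lit 5) (nat_lit 49) (nat_lit 5) (nat_lit 50) (nat_lit 5) (nat_lit 380) (nat_lit 291) (nat_lit 229))) (XT.nd (nat_lit 78) (nat_lit 456) (nat_lit 0) (XT.lf (nat_lit 0) (nat_lit 5562469266) (nat_lit 304) (nat_lit 2353354601) (nat_lit 76) (nat_lit 8895962717) (nat_lit 45) (nat_lit 5) (nat_lit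 49) (nat_lit 5) (nat_lit 46) (nat_lit 5) (nat_lit 381) (nat_lit 291) (nat_lit 228)) (XT.nd (nat_lit 78) (nat_lit 304) (nat_lit 0) (XT.lf (nat_lit 0) (nat_lit 11982903221) (nat_lit 152) (nat_lit 321434651) (nat_lit 228) (nat_lit 4846902589) (nat_lit 43) (nat_lit 5) (nat_lit 45) (nat_lit 5) (nat_lit 46) (nat_lit 5) (nat_lit 382) (nat_lit 291) (nat_lit 227)) (XT.lf (nat_lit 0) (nat_lit 1793386250) (nat_lit 304) (nat_lit 8257051922) (nat_lit 76) (nat_lit 7448844873) (nat_lit 39) (nat_lit 5) (nat_lit 43) (nat_lit 5) (nat_lit 40) (nat_lit 5) (nat_lit 383) (nat_lit 291) (nat_lit 226))))) (XT.nd (nat_lit 156) (nat_lit 228) (nat_lit 0) (XT.nd (nat_lit 78) (nat_lit 152) (nat_lit 0) (XT.lf (nat_lit 0) (nat_lit 6247595715) (nat_lit 152) (nat_lit 2341858245) (nat_lit 228) (nat_lit 9267230037) (nat_lit 37) (nat_lit 5) (nat_lit 39) (nat_lit 5) (nat_lit 40) (nat_lit 5) (nat_lit 384) (nat_lit 291) (nat_lit 225)) (XT.lf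 (nat_lit 0) (nat_lit 2981525309) (nat_lit 152) (nat_lit 12664712165) (nat_lit 228) (nat_lit 2577438909) (nat_lit 35) (nat_lit 5) (nat_lit 37) (nat_lit 5) (nat_lit 38) (nat_lit 5) (nat_lit 385) (nat_lit 291) (nat_lit 224))) (XT.nd (nat_lit 78) (nat_lit 152) (nat_lit 0) (XT.lf (nat_lit 0) (nat_lit 4296754907) (nat_lit 228) (nat_lit 572254226) (nat_lit 76) (nat_lit 13731309625) (nat_lit 34) (nat_lit 5) (nat_lit 37) (nat_lit 5) (nat_lit 35) (nat_lit 5) (nat_lit 386) (nat_lit 291) (nat_lit 223)) (XT.nd (nat_lit 41340) (nat_lit 0) (nat_lit 43244) (XT.lf (nat_lit 0) (nat_lit 11405282095) (nat_lit 228) (nat_lit 4389766201) (nat_lit 76) (nat_lit 3191614494) (nat_lit 32) (nat_lit 5) (nat_lit 35) (nat_lit 5) (nat_lit 33) (nat_lit 5) (nat_lit 387) (nat_lit 291) (nat_lit 222)) (XT.lf (nat_lit 0) (nat_lit 1713836322) (nat_lit 988) (nat_lit 823303136) (nat_lit 988) (nat_lit 823303136) (nat_lit 601) (nat_lit 4) (nat_lit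 614) (nat_lit 5) (nat_lit 614) (nat_lit 4) (nat_lit 316) (nat_lit 292) (nat_lit 292)))))) (XT.nd (nat_lit 390) (nat_lit 9424) (nat_lit 0) (XT.nd (nat_lit 156) (nat_lit 4028) (nat_lit 0) (XT.nd (nat_lit 78) (nat_lit 1216) (nat_lit 0) (XT.lf (nat_lit 0) (nat_lit 3161713962) (nat_lit 1140) (nat_lit 3551506530) (nat_lit 0) (nat_lit 44241448) (nat_lit 586) (nat_lit 5) (nat_lit 601) (nat_lit 4) (nat_lit 586) (nat_lit 4) (nat_lit 317) (nat_lit 292) (nat_lit 291)) (XT.lf (nat_lit 0) (nat_lit 1176418661) (nat_lit 1216) (nat_lit 3767779160) (nat_lit 76) (nat_lit 1852705606) (nat_lit 570) (nat_lit 5) (nat_lit 586) (nat_lit 5) (nat_lit 571) (nat_lit 4) (nat_lit 318) (nat_lit 292) (nat_lit 290))) (XT.nd (nat_lit 78) (nat_lit 2812) (nat_lit 0) (XT.lf (nat_lit 0) (nat_lit 2901467684) (nat_lit 1216) (nat_lit 3031269632) (nat_lit 1292) (nat_lit 906598535) (nat_lit 554) (nat_lit 5) (nat_lit 570) (nat_lit 5) (nat_lit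 571) (nat_lit 4) (nat_lit 319) (nat_lit 292) (nat_lit 289)) (XT.nd (nat_lit 78) (nat_lit 1444) (nat_lit 0) (XT.lf (nat_lit 0) (nat_lit 2819937381) (nat_lit 1292) (nat_lit 970049936) (nat_lit 1368) (nat_lit 3094755745) (nat_lit 536) (nat_lit 5) (nat_lit 553) (nat_lit 5) (nat_lit 554) (nat_lit 5) (nat_lit 320) (nat_lit 292) (nat_lit 288)) (XT.lf (nat_lit 0) (nat_lit 1566277524) (nat_lit 1444) (nat_lit 4149432875) (nat_lit 76) (nat_lit 1217443934) (nat_lit 517) (nat_lit 5) (nat_lit 536) (nat_lit 5) (nat_lit 518) (nat_lit 5) (nat_lit 321) (nat_lit 292) (nat_lit 287))))) (XT.nd (nat_lit 234) (nat_lit 4712) (nat_lit 0) (XT.nd (nat_lit 78) (nat_lit 3268) (nat_lit 0) (XT.lf (nat_lit 0) (nat_lit 2788136686) (nat_lit 1444) (nat_lit 3444677981) (nat_lit 1520) (nat_lit 751709999) (nat_lit 498) (nat_lit 5) (nat_lit 517) (nat_lit 5) (nat_lit 518) (nat_lit 5) (nat_lit 322) (nat_lit 292) (nat_lit 286)) (XT.nd (nat_lit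 78) (nat_lit 1672) (nat_lit 0) (XT.lf (nat_lit 0) (nat_lit 2832982215) (nat_lit 1520) (nat_lit 1020675581) (nat_lit 1596) (nat_lit 3185240854) (nat_lit 477) (nat_lit 5) (nat_lit 497) (nat_lit 5) (nat_lit 498) (nat_lit 5) (nat_lit 323) (nat_lit 292) (nat_lit 285)) (XT.lf (nat_lit 0) (nat_lit 1390169945) (nat_lit 1672) (nat_lit 4178251458) (nat_lit 76) (nat_lit 1527901517) (nat_lit 455) (nat_lit 5) (nat_lit 477) (nat_lit 5) (nat_lit 456) (nat_lit 5) (nat_lit 324) (nat_lit 292) (nat_lit 284)))) (XT.nd (nat_lit 78) (nat_lit 3040) (nat_lit 0) (XT.lf (nat_lit 0) (nat_lit 3037711077) (nat_lit 1672) (nat_lit 2940488225) (nat_lit 1748) (nat_lit 1178538669) (nat_lit 433) (nat_lit 5) (nat_lit 455) (nat_lit 5) (nat_lit 456) (nat_lit 5) (nat_lit 325) (nat_lit 292) (nat_lit 283)) (XT.nd (nat_lit 78) (nat_lit 1216) (nat_lit 0) (XT.lf (nat_lit 0) (nat_lit 3196082929) (nat_lit 1748) (nat_lit 157710838) (nat_lit 1824)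 (nat_lit 3866486076) (nat_lit 409) (nat_lit 5) (nat_lit 432) (nat_lit 5) (nat_lit 433) (nat_lit 5) (nat_lit 326) (nat_lit 292) (nat_lit 282)) (XT.lf (nat_lit 0) (nat_lit 646788989) (nat_lit 1216) (nat_lit 3903043646) (nat_lit 76) (nat_lit 2736987403) (nat_lit 393) (nat_lit 5) (nat_lit 409) (nat_lit 5) (nat_lit 394) (nat_lit 5) (nat_lit 327) (nat_lit 292) (nat_lit 281))))))) (XT.nd (nat_lit 780) (nat_lit 7372) (nat_lit 0) (XT.nd (nat_lit 390) (nat_lit 3800) (nat_lit 0) (XT.nd (nat_lit 156) (nat_lit 2660) (nat_lit 0) (XT.nd (nat_lit 78) (nat_lit 912) (nat_lit 0) (XT.lf (nat_lit 0) (nat_lit 3602263442) (nat_lit 912) (nat_lit 1563373641) (nat_lit 988) (nat_lit 2190808434) (nat_lit 381) (nat_lit 5) (nat_lit 393) (nat_lit 5) (nat_lit 394) (nat_lit 5) (nat_lit 328) (nat_lit 292) (nat_lit 280)) (XT.lf (nat_lit 0) (nat_lit 2295005718) (nat_lit 912) (nat_lit 3577939796) (nat_lit 76) (nat_lit 1556265665) (nat_lit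 369) (nat_lit 5) (nat_lit 381) (nat_lit 5) (nat_lit 370) (nat_lit 5) (nat_lit 329) (nat_lit 292) (nat_lit 279))) (XT.nd (nat_lit 78) (nat_lit 1824) (nat_lit 0) (XT.lf (nat_lit 0) (nat_lit 4129385085) (nat_lit 836) (nat_lit 2694676076) (nat_lit 912) (nat_lit 681090604) (nat_lit 358) (nat_lit 5) (nat_lit 369) (nat_lit 5) (nat_lit 370) (nat_lit 5) (nat_lit 330) (nat_lit 292) (nat_lit 278)) (XT.nd (nat_lit 78) (nat_lit 912) (nat_lit 0) (XT.lf (nat_lit 0) (nat_lit 3789135177) (nat_lit 912) (nat_lit 3153512754) (nat_lit 76) (nat_lit 641568463) (nat_lit 346) (nat_lit 5) (nat_lit 358) (nat_lit 5) (nat_lit 347) (nat_lit 5) (nat_lit 331) (nat_lit 292) (nat_lit 277)) (XT.lf (nat_lit 0) (nat_lit 660857572) (nat_lit 912) (nat_lit 2910737945) (nat_lit 76) (nat_lit 4094886944) (nat_lit 334) (nat_lit 5) (nat_lit 346) (nat_lit 5) (nat_lit 335) (nat_lit 5) (nat_lit 332) (nat_lit 292) (nat_lit 276))))) (XT.nd (nat_lit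 156) (nat_lit 2204) (nat_lit 0) (XT.nd (nat_lit 78) (nat_lit 836) (nat_lit 0) (XT.lf (nat_lit 0) (nat_lit 5104704371) (nat_lit 760) (nat_lit 30977740) (nat_lit 836) (nat_lit 2616341495) (nat_lit 324) (nat_lit 5) (nat_lit 334) (nat_lit 5) (nat_lit 335) (nat_lit 5) (nat_lit 333) (nat_lit 292) (nat_lit 275)) (XT.lf (nat_lit 0) (nat_lit 1842583820) (nat_lit 836) (nat_lit 2375599281) (nat_lit 76) (nat_lit 3622483740) (nat_lit 313) (nat_lit 5) (nat_lit 324) (nat_lit 5) (nat_lit 314) (nat_lit 5) (nat_lit 334) (nat_lit 292) (nat_lit 274))) (XT.nd (nat_lit 78) (nat_lit 1520) (nat_lit 0) (XT.lf (nat_lit 0) (nat_lit 5853463578) (nat_lit 684) (nat_lit 488812576) (nat_lit 760) (nat_lit 1590537249) (nat_lit 304) (nat_lit 5) (nat_lit 313) (nat_lit 5) (nat_lit 314) (nat_lit 5) (nat_lit 335) (nat_lit 292) (nat_lit 273)) (XT.nd (nat_lit 78) (nat_lit 684) (nat_lit 0) (XT.lf (nat_lit 0) (nat_lit 2877379678) (nat_lit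 836) (nat_lit 1783527506) (nat_lit 76) (nat_lit 3367136564) (nat_lit 293) (nat_lit 5) (nat_lit 304) (nat_lit 5) (nat_lit 294) (nat_lit 5) (nat_lit 336) (nat_lit 292) (nat_lit 272)) (XT.lf (nat_lit 0) (nat_lit 6663768872) (nat_lit 684) (nat_lit 744891413) (nat_lit 760) (nat_lit 718279457) (nat_lit 284) (nat_lit 5) (nat_lit 293) (nat_lit 5) (nat_lit 294) (nat_lit 5) (nat_lit 337) (nat_lit 292) (nat_lit 271)))))) (XT.nd (nat_lit 390) (nat_lit 3420) (nat_lit 0) (XT.nd (nat_lit 156) (nat_lit 2508) (nat_lit 0) (XT.nd (nat_lit 78) (nat_lit 684) (nat_lit 0) (XT.lf (nat_lit 0) (nat_lit 3768354996) (nat_lit 760) (nat_lit 1152425174) (nat_lit 76) (nat_lit 3308124118) (nat_lit 274) (nat_lit 5) (nat_lit 284) (nat_lit 5) (nat_lit 275) (nat_lit 5) (nat_lit 338) (nat_lit 292) (nat_lit 270)) (XT.lf (nat_lit 0) (nat_lit 2806665) (nat_lit 684) (nat_lit 816978246) (nat_lit 76) (nat_lit 7514927843) (nat_lit 265) (nat_lit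 5) (nat_lit 274) (nat_lit 5) (nat_lit 266) (nat_lit 5) (nat_lit 339) (nat_lit 292) (nat_lit 269))) (XT.nd (nat_lit 78) (nat_lit 1824) (nat_lit 0) (XT.lf (nat_lit 0) (nat_lit 4517365384) (nat_lit 760) (nat_lit 500671034) (nat_lit 76) (nat_lit 3425544475) (nat_lit 256) (nat_lit 5) (nat_lit 266) (nat_lit 5) (nat_lit 257) (nat_lit 5) (nat_lit 340) (nat_lit 292) (nat_lit 268)) (XT.nd (nat_lit 78) (nat_lit 1140) (nat_lit 0) (XT.lf (nat_lit 0) (nat_lit 566425280) (nat_lit 684) (nat_lit 163187605) (nat_lit 76) (nat_lit 7826798315) (nat_lit 247) (nat_lit 5) (nat_lit 256) (nat_lit 5) (nat_lit 248) (nat_lit 5) (nat_lit 341) (nat_lit 292) (nat_lit 267)) (XT.lf (nat_lit 0) (nat_lit 154728715) (nat_lit 532) (nat_lit 4971272713) (nat_lit 608) (nat_lit 3546426639) (nat_lit 232) (nat_lit 5) (nat_lit 239) (nat_lit 5) (nat_lit 240) (nat_lit 5) (nat_lit 342) (nat_lit 292) (nat_lit 266))))) (XT.nd (nat_lit 234) (nat_lit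 1596) (nat_lit 0) (XT.nd (nat_lit 78) (nat_lit 1140) (nat_lit 0) (XT.lf (nat_lit 0) (nat_lit 489792086) (nat_lit 608) (nat_lit 495194012) (nat_lit 684) (nat_lit 7807473493) (nat_lit 223) (nat_lit 5) (nat_lit 231) (nat_lit 5) (nat_lit 232) (nat_lit 5) (nat_lit 343) (nat_lit 292) (nat_lit 265)) (XT.nd (nat_lit 78) (nat_lit 608) (nat_lit 0) (XT.lf (nat_lit 0) (nat_lit 798273266) (nat_lit 532) (nat_lit 4797449428) (nat_lit 608) (nat_lit 3320097590) (nat_lit 216) (nat_lit 5) (nat_lit 223) (nat_lit 5) (nat_lit 224) (nat_lit 5) (nat_lit 344) (nat_lit 292) (nat_lit 264)) (XT.lf (nat_lit 0) (nat_lit 1116901374) (nat_lit 532) (nat_lit 137781566) (nat_lit 608) (nat_lit 7788659605) (nat_lit 208) (nat_lit 5) (nat_lit 215) (nat_lit 5) (nat_lit 216) (nat_lit 5) (nat_lit 345) (nat_lit 292) (nat_lit 263)))) (XT.nd (nat_lit 78) (nat_lit 1064) (nat_lit 0) (XT.lf (nat_lit 0) (nat_lit 1402099917) (nat_lit 532) (nat_lit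 4518955707) (nat_lit 608) (nat_lit 3253232997) (nat_lit 201) (nat_lit 5) (nat_lit 208) (nat_lit 5) (nat_lit 209) (nat_lit 5) (nat_lit 346) (nat_lit 292) (nat_lit 262)) (XT.nd (nat_lit 78) (nat_lit 456) (nat_lit 0) (XT.lf (nat_lit 0) (nat_lit 1373508191) (nat_lit 608) (nat_lit 7617564494) (nat_lit 76) (nat_lit 318454098) (nat_lit 193) (nat_lit 5) (nat_lit 201) (nat_lit 5) (nat_lit 194) (nat_lit 5) (nat_lit 347) (nat_lit 292) (nat_lit 261)) (XT.lf (nat_lit 0) (nat_lit 1943719633) (nat_lit 456) (nat_lit 4154711845) (nat_lit 532) (nat_lit 3349913157) (nat_lit 187) (nat_lit 5) (nat_lit 193) (nat_lit 5) (nat_lit 194) (nat_lit 5) (nat_lit 348) (nat_lit 292) (nat_lit 260))))))))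
noncomputable def xc32 : XT := (XT.nd (nat_lit 1560) (nat_lit 4104) (nat_lit 0) (XT.nd (nat_lit 780) (nat_lit 3192) (nat_lit 0) (XT.nd (nat_lit 390) (nat_lit 2052) (nat_lit 0) (XT.nd (nat_lit 156) (nat_lit 1444) (nat_lit 0) (XT.nd (nat_lit 78) (nat_lit 456) (nat_lit 0) (XT.lf (nat_lit 0) (nat_lit 1336346562) (nat_lit 532) (nat_lit 7399180231) (nat_lit 76) (nat_lit 856033099) (nat_lit 180) (nat_lit 5) (nat_lit 187) (nat_lit 5) (nat_lit 181) (nat_lit 5) (nat_lit 349) (nat_lit 292) (nat_lit 259)) (XT.lf (nat_lit 0) (nat_lit 2399130388) (nat_lit 456) (nat_lit 3723700093) (nat_lit 532) (nat_lit 3615717653) (nat_lit 174) (nat_lit 5) (nat_lit 180) (nat_lit 5) (nat_lit 181) (nat_lit 5) (nat_lit 350) (nat_lit 292) (nat_lit 258))) (XT.nd (nat_lit 78) (nat_lit 912) (nat_lit 0) (XT.lf (nat_lit 0) (nat_lit 1136217745) (nat_lit 532) (nat_lit 7295747825) (nat_lit 76) (nat_lit 1458080572) (nat_lit 167) (nat_lit 5)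 (nat_lit 174) (nat_lit 5) (nat_lit 168) (nat_lit 5) (nat_lit 351) (nat_lit 292) (nat_lit 257)) (XT.nd (nat_lit 78) (nat_lit 532) (nat_lit 0) (XT.lf (nat_lit 0) (nat_lit 2742566590) (nat_lit 380) (nat_lit 3245140347) (nat_lit 456) (nat_lit 4057802433) (nat_lit 162) (nat_lit 5) (nat_lit 167) (nat_lit 5) (nat_lit 168) (nat_lit 5) (nat_lit 352) (nat_lit 292) (nat_lit 256)) (XT.lf (nat_lit 0) (nat_lit 765451252) (nat_lit 532) (nat_lit 7334562859) (nat_lit 76) (nat_lit 2105609579) (nat_lit 155) (nat_lit 5) (nat_lit 162) (nat_lit 5) (nat_lit 156) (nat_lit 5) (nat_lit 353) (nat_lit 292) (nat_lit 255))))) (XT.nd (nat_lit 156) (nat_lit 1216) (nat_lit 0) (XT.nd (nat_lit 78) (nat_lit 456) (nat_lit 0) (XT.lf (nat_lit 0) (nat_lit 2946228539) (nat_lit 380) (nat_lit 2738671997) (nat_lit 456) (nat_lit 4684991003) (nat_lit 150) (nat_lit 5) (nat_lit 155) (nat_lit 5) (nat_lit 156) (nat_lit 5) (nat_lit 354) (nat_lit 292)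 (nat_lit 254)) (XT.lf (nat_lit 0) (nat_lit 214694620) (nat_lit 456) (nat_lit 7545145687) (nat_lit 76) (nat_lit 2779144845) (nat_lit 144) (nat_lit 5) (nat_lit 150) (nat_lit 5) (nat_lit 145) (nat_lit 5) (nat_lit 355) (nat_lit 292) (nat_lit 253))) (XT.nd (nat_lit 78) (nat_lit 836) (nat_lit 0) (XT.lf (nat_lit 0) (nat_lit 2979989366) (nat_lit 380) (nat_lit 2224543529) (nat_lit 456) (nat_lit 5507880712) (nat_lit 139) (nat_lit 5) (nat_lit 144) (nat_lit 5) (nat_lit 145) (nat_lit 5) (nat_lit 356) (nat_lit 292) (nat_lit 252)) (XT.nd (nat_lit 78) (nat_lit 456) (nat_lit 0) (XT.lf (nat_lit 0) (nat_lit 2927794036) (nat_lit 380) (nat_lit 7428811775) (nat_lit 456) (nat_lit 534205445) (nat_lit 134) (nat_lit 5) (nat_lit 139) (nat_lit 5) (nat_lit 140) (nat_lit 5) (nat_lit 357) (nat_lit 292) (nat_lit 251)) (XT.lf (nat_lit 0) (nat_lit 2811076639) (nat_lit 380) (nat_lit 1723811554) (nat_lit 456) (nat_lit 6538965301) (nat_lit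 128) (nat_lit 5) (nat_lit 133) (nat_lit 5) (nat_lit 134) (nat_lit 5) (nat_lit 358) (nat_lit 292) (nat_lit 250)))))) (XT.nd (nat_lit 390) (nat_lit 1368) (nat_lit 0) (XT.nd (nat_lit 156) (nat_lit 1064) (nat_lit 0) (XT.nd (nat_lit 78) (nat_lit 380) (nat_lit 0) (XT.lf (nat_lit 0) (nat_lit 2639543133) (nat_lit 380) (nat_lit 7129503354) (nat_lit 456) (nat_lit 1492880728) (nat_lit 123) (nat_lit 5) (nat_lit 128) (nat_lit 5) (nat_lit 129) (nat_lit 5) (nat_lit 359) (nat_lit 292) (nat_lit 249)) (XT.lf (nat_lit 0) (nat_lit 2403725573) (nat_lit 304) (nat_lit 1258551072) (nat_lit 380) (nat_lit 7792774986) (nat_lit 118) (nat_lit 5) (nat_lit 122) (nat_lit 5) (nat_lit 123) (nat_lit 5) (nat_lit 360) (nat_lit 292) (nat_lit 248))) (XT.nd (nat_lit 78) (nat_lit 684) (nat_lit 0) (XT.lf (nat_lit 0) (nat_lit 2093150976) (nat_lit 380) (nat_lit 6886262528) (nat_lit 456) (nat_lit 2673821402) (nat_lit 113) (nat_lit 5) (nat_lit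 118) (nat_lit 5) (nat_lit 119) (nat_lit 5) (nat_lit 361) (nat_lit 292) (nat_lit 247)) (XT.nd (nat_lit 78) (nat_lit 304) (nat_lit 0) (XT.lf (nat_lit 0) (nat_lit 1718800501) (nat_lit 304) (nat_lit 852078873) (nat_lit 380) (nat_lit 9286035559) (nat_lit 108) (nat_lit 5) (nat_lit 112) (nat_lit 5) (nat_lit 113) (nat_lit 5) (nat_lit 362) (nat_lit 292) (nat_lit 246)) (XT.lf (nat_lit 0) (nat_lit 1247664871) (nat_lit 304) (nat_lit 6723373215) (nat_lit 380) (nat_lit 4094638443) (nat_lit 104) (nat_lit 5) (nat_lit 108) (nat_lit 5) (nat_lit 109) (nat_lit 5) (nat_lit 363) (nat_lit 292) (nat_lit 245))))) (XT.nd (nat_lit 156) (nat_lit 684) (nat_lit 0) (XT.nd (nat_lit 78) (nat_lit 304) (nat_lit 0) (XT.lf (nat_lit 0) (nat_lit 713380935) (nat_lit 304) (nat_lit 529192157) (nat_lit 380) (nat_lit 11037848119) (nat_lit 99) (nat_lit 5) (nat_lit 103) (nat_lit 5) (nat_lit 104) (nat_lit 5) (nat_lit 364) (nat_lit 292) (nat_lit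 244)) (XT.lf (nat_lit 0) (nat_lit 58122989) (nat_lit 304) (nat_lit 6666743604) (nat_lit 380) (nat_lit 5775400909) (nat_lit 95) (nat_lit 5) (nat_lit 99) (nat_lit 5) (nat_lit 100) (nat_lit 5) (nat_lit 365) (nat_lit 292) (nat_lit 243))) (XT.nd (nat_lit 78) (nat_lit 684) (nat_lit 0) (XT.lf (nat_lit 0) (nat_lit 12073223810) (nat_lit 304) (nat_lit 309780992) (nat_lit 380) (nat_lit 343488991) (nat_lit 95) (nat_lit 5) (nat_lit 99) (nat_lit 5) (nat_lit 100) (nat_lit 5) (nat_lit 366) (nat_lit 292) (nat_lit 242)) (XT.nd (nat_lit 78) (nat_lit 304) (nat_lit 0) (XT.lf (nat_lit 0) (nat_lit 5229152575) (nat_lit 380) (nat_lit 1504920570) (nat_lit 76) (nat_lit 6223830461) (nat_lit 90) (nat_lit 5) (nat_lit 95) (nat_lit 5) (nat_lit 91) (nat_lit 5) (nat_lit 367) (nat_lit 292) (nat_lit 241)) (XT.lf (nat_lit 0) (nat_lit 10761467200) (nat_lit 304) (nat_lit 211358290) (nat_lit 380) (nat_lit 2223225647) (nat_lit 86) (nat_lit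 5) (nat_lit 90) (nat_lit 5) (nat_lit 91) (nat_lit 5) (nat_lit 368) (nat_lit 292) (nat_lit 240))))))) (XT.nd (nat_lit 780) (nat_lit 1748) (nat_lit 0) (XT.nd (nat_lit 390) (nat_lit 988) (nat_lit 0) (XT.nd (nat_lit 156) (nat_lit 760) (nat_lit 0) (XT.nd (nat_lit 78) (nat_lit 304) (nat_lit 0) (XT.lf (nat_lit 0) (nat_lit 3452806348) (nat_lit 304) (nat_lit 3509278108) (nat_lit 76) (nat_lit 6477810543) (nat_lit 82) (nat_lit 5) (nat_lit 86) (nat_lit 5) (nat_lit 83) (nat_lit 5) (nat_lit 369) (nat_lit 292) (nat_lit 239)) (XT.lf (nat_lit 0) (nat_lit 9002190978) (nat_lit 304) (nat_lit 277259570) (nat_lit 380) (nat_lit 4411109352) (nat_lit 78) (nat_lit 5) (nat_lit 82) (nat_lit 5) (nat_lit 83) (nat_lit 5) (nat_lit 370) (nat_lit 292) (nat_lit 238))) (XT.nd (nat_lit 78) (nat_lit 456) (nat_lit 0) (XT.lf (nat_lit 0) (nat_lit 1368276984) (nat_lit 304) (nat_lit 6014951129) (nat_lit 76) (nat_lit 6564281530) (nat_lit 74)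 (nat_lit 5) (nat_lit 78) (nat_lit 5) (nat_lit 75) (nat_lit 5) (nat_lit 371) (nat_lit 292) (nat_lit 237)) (XT.nd (nat_lit 78) (nat_lit 228) (nat_lit 0) (XT.lf (nat_lit 0) (nat_lit 6734277422) (nat_lit 228) (nat_lit 540362576) (nat_lit 304) (nat_lit 6936683809) (nat_lit 71) (nat_lit 5) (nat_lit 74) (nat_lit 5) (nat_lit 75) (nat_lit 5) (nat_lit 372) (nat_lit 292) (nat_lit 236)) (XT.lf (nat_lit 0) (nat_lit 5387722208) (nat_lit 228) (nat_lit 8025275030) (nat_lit 304) (nat_lit 1068968382) (nat_lit 68) (nat_lit 5) (nat_lit 71) (nat_lit 5) (nat_lit 72) (nat_lit 5) (nat_lit 373) (nat_lit 292) (nat_lit 235))))) (XT.nd (nat_lit 156) (nat_lit 456) (nat_lit 0) (XT.nd (nat_lit 78) (nat_lit 228) (nat_lit 0) (XT.lf (nat_lit 0) (nat_lit 3890230165) (nat_lit 228) (nat_lit 1036464527) (nat_lit 304) (nat_lit 9833051624) (nat_lit 64) (nat_lit 5) (nat_lit 67) (nat_lit 5) (nat_lit 68) (nat_lit 5) (nat_lit 374) (nat_lit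 292) (nat_lit 234)) (XT.lf (nat_lit 0) (nat_lit 2220793743) (nat_lit 228) (nat_lit 8921618400) (nat_lit 304) (nat_lit 3902221410) (nat_lit 61) (nat_lit 5) (nat_lit 64) (nat_lit 5) (nat_lit 65) (nat_lit 5) (nat_lit 375) (nat_lit 292) (nat_lit 233))) (XT.nd (nat_lit 78) (nat_lit 152) (nat_lit 0) (XT.lf (nat_lit 0) (nat_lit 395463199) (nat_lit 228) (nat_lit 1804658879) (nat_lit 304) (nat_lit 13137216429) (nat_lit 57) (nat_lit 5) (nat_lit 60) (nat_lit 5) (nat_lit 61) (nat_lit 5) (nat_lit 376) (nat_lit 292) (nat_lit 232)) (XT.nd (nat_lit 78) (nat_lit 152) (nat_lit 0) (XT.lf (nat_lit 0) (nat_lit 8495900042) (nat_lit 304) (nat_lit 1615981831) (nat_lit 76) (nat_lit 5525167196) (nat_lit 57) (nat_lit 5) (nat_lit 61) (nat_lit 5) (nat_lit 58) (nat_lit 5) (nat_lit 377) (nat_lit 292) (nat_lit 231)) (XT.lf (nat_lit 0) (nat_lit 12156838982) (nat_lit 152) (nat_lit 2856193473) (nat_lit 228) (nat_lit 932076577) (nat_lit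 55) (nat_lit 5) (nat_lit 57) (nat_lit 5) (nat_lit 58) (nat_lit 5) (nat_lit 378) (nat_lit 292) (nat_lit 230)))))) (XT.nd (nat_lit 390) (nat_lit 836) (nat_lit 0) (XT.nd (nat_lit 156) (nat_lit 456) (nat_lit 0) (XT.nd (nat_lit 78) (nat_lit 152) (nat_lit 0) (XT.lf (nat_lit 0) (nat_lit 5440826198) (nat_lit 304) (nat_lit 6191457521) (nat_lit 76) (nat_lit 4628440787) (nat_lit 51) (nat_lit 5) (nat_lit 55) (nat_lit 5) (nat_lit 52) (nat_lit 5) (nat_lit 379) (nat_lit 292) (nat_lit 229)) (XT.lf (nat_lit 0) (nat_lit 7787079735) (nat_lit 152) (nat_lit 4243687968) (nat_lit 228) (nat_lit 4554154343) (nat_lit 49) (nat_lit 5) (nat_lit 51) (nat_lit 5) (nat_lit 52) (nat_lit 5) (nat_lit 380) (nat_lit 292) (nat_lit 228))) (XT.nd (nat_lit 78) (nat_lit 152) (nat_lit 0) (XT.lf (nat_lit 0) (nat_lit 1917139972) (nat_lit 304) (nat_lit 11629409800) (nat_lit 76) (nat_lit 3371206030) (nat_lit 45) (nat_lit 5) (nat_lit 49) (nat_lit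 5) (nat_lit 46) (nat_lit 5) (nat_lit 381) (nat_lit 292) (nat_lit 227)) (XT.nd (nat_lit 78) (nat_lit 0) (nat_lit 0) (XT.lf (nat_lit 0) (nat_lit 2535129042) (nat_lit 152) (nat_lit 6035124456) (nat_lit 228) (nat_lit 8688734525) (nat_lit 43) (nat_lit 5) (nat_lit 45) (nat_lit 5) (nat_lit 46) (nat_lit 5) (nat_lit 382) (nat_lit 292) (nat_lit 226)) (XT.lf (nat_lit 0) (nat_lit 15458420791) (nat_lit 228) (nat_lit 432975384) (nat_lit 76) (nat_lit 1718358215) (nat_lit 43) (nat_lit 5) (nat_lit 46) (nat_lit 5) (nat_lit 44) (nat_lit 5) (nat_lit 383) (nat_lit 292) (nat_lit 225))))) (XT.nd (nat_lit 234) (nat_lit 152) (nat_lit 0) (XT.nd (nat_lit 78) (nat_lit 380) (nat_lit 0) (XT.lf (nat_lit 0) (nat_lit 4602772852) (nat_lit 304) (nat_lit 3658878444) (nat_lit 76) (nat_lit 9707189927) (nat_lit 39) (nat_lit 5) (nat_lit 43) (nat_lit 5) (nat_lit 40) (nat_lit 5) (nat_lit 384) (nat_lit 292) (nat_lit 224)) (XT.nd (nat_lit 78)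 (nat_lit 228) (nat_lit 0) (XT.lf (nat_lit 0) (nat_lit 11202289895) (nat_lit 152) (nat_lit 351125197) (nat_lit 228) (nat_lit 6784544251) (nat_lit 37) (nat_lit 5) (nat_lit 39) (nat_lit 5) (nat_lit 40) (nat_lit 5) (nat_lit 385) (nat_lit 292) (nat_lit 223)) (XT.lf (nat_lit 0) (nat_lit 69190180) (nat_lit 228) (nat_lit 10915855698) (nat_lit 76) (nat_lit 7731617640) (nat_lit 34) (nat_lit 5) (nat_lit 37) (nat_lit 5) (nat_lit 35) (nat_lit 5) (nat_lit 386) (nat_lit 292) (nat_lit 222)))) (XT.nd (nat_lit 41184) (nat_lit 0) (nat_lit 44232) (XT.lf (nat_lit 0) (nat_lit 4091740537) (nat_lit 152) (nat_lit 2971293577) (nat_lit 228) (nat_lit 12042269788) (nat_lit 32) (nat_lit 5) (nat_lit 34) (nat_lit 5) (nat_lit 35) (nat_lit 5) (nat_lit 387) (nat_lit 292) (nat_lit 221)) (XT.nd (nat_lit 78) (nat_lit 988) (nat_lit 0) (XT.lf (nat_lit 0) (nat_lit 2052056356) (nat_lit 836) (nat_lit 637791531) (nat_lit 836) (nat_lit 637791531)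 (nat_lit 627) (nat_lit 4) (nat_lit 638) (nat_lit 5) (nat_lit 638) (nat_lit 4) (nat_lit 314) (nat_lit 293) (nat_lit 293)) (XT.lf (nat_lit 0) (nat_lit 3490120983) (nat_lit 988) (nat_lit 2982317962) (nat_lit 0) (nat_lit 214904360) (nat_lit 614) (nat_lit 5) (nat_lit 627) (nat_lit 4) (nat_lit 614) (nat_lit 4) (nat_lit 315) (nat_lit 293) (nat_lit 292))))))))
noncomputable def xc33 : XT := (XT.nd (nat_lit 1560) (nat_lit 12160) (nat_lit 0) (XT.nd (nat_lit 780) (nat_lit 9728) (nat_lit 0) (XT.nd (nat_lit 390) (nat_lit 7904) (nat_lit 0) (XT.nd (nat_lit 156) (nat_lit 3800) (nat_lit 0) (XT.nd (nat_lit 78) (nat_lit 1064) (nat_lit 0) (XT.lf (nat_lit 0) (nat_lit 1528362318) (nat_lit 1064) (nat_lit 3367746704) (nat_lit 76) (nat_lit 1826185014) (nat_lit 600) (nat_lit 5) (nat_lit 614) (nat_lit 5) (nat_lit 601) (nat_lit 4) (nat_lit 316) (nat_lit 293) (nat_lit 291)) (XT.lf (nat_lit 0) (nat_lit 3056972218) (nat_lit 1064)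 (nat_lit 3180263720) (nat_lit 1140) (nat_lit 523019366) (nat_lit 586) (nat_lit 5) (nat_lit 600) (nat_lit 5) (nat_lit 601) (nat_lit 4) (nat_lit 317) (nat_lit 293) (nat_lit 290))) (XT.nd (nat_lit 78) (nat_lit 2584) (nat_lit 0) (XT.lf (nat_lit 0) (nat_lit 2804295761) (nat_lit 1140) (nat_lit 1315824515) (nat_lit 1216) (nat_lit 2680991390) (nat_lit 570) (nat_lit 5) (nat_lit 585) (nat_lit 5) (nat_lit 586) (nat_lit 5) (nat_lit 318) (nat_lit 293) (nat_lit 289)) (XT.nd (nat_lit 78) (nat_lit 1292) (nat_lit 0) (XT.lf (nat_lit 0) (nat_lit 1921819040) (nat_lit 1292) (nat_lit 4243401842) (nat_lit 76) (nat_lit 679784942) (nat_lit 553) (nat_lit 5) (nat_lit 570) (nat_lit 5) (nat_lit 554) (nat_lit 5) (nat_lit 319) (nat_lit 293) (nat_lit 288)) (XT.lf (nat_lit 0) (nat_lit 2440857359) (nat_lit 1292) (nat_lit 4091007729) (nat_lit 1368) (nat_lit 359959554) (nat_lit 536) (nat_lit 5) (nat_lit 553) (nat_lit 5) (nat_lit 554)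 (nat_lit 5) (nat_lit 320) (nat_lit 293) (nat_lit 287))))) (XT.nd (nat_lit 156) (nat_lit 4940) (nat_lit 0) (XT.nd (nat_lit 78) (nat_lit 1520) (nat_lit 0) (XT.lf (nat_lit 0) (nat_lit 2319123661) (nat_lit 1368) (nat_lit 1864015874) (nat_lit 1444) (nat_lit 2758417185) (nat_lit 517) (nat_lit 5) (nat_lit 535) (nat_lit 5) (nat_lit 536) (nat_lit 5) (nat_lit 321) (nat_lit 293) (nat_lit 286)) (XT.lf (nat_lit 0) (nat_lit 1746982892) (nat_lit 1520) (nat_lit 4748977947) (nat_lit 76) (nat_lit 498466336) (nat_lit 497) (nat_lit 5) (nat_lit 517) (nat_lit 5) (nat_lit 498) (nat_lit 5) (nat_lit 322) (nat_lit 293) (nat_lit 285))) (XT.nd (nat_lit 78) (nat_lit 3420) (nat_lit 0) (XT.lf (nat_lit 0) (nat_lit 2204249175) (nat_lit 1520) (nat_lit 4066024387) (nat_lit 1596) (nat_lit 779906317) (nat_lit 477) (nat_lit 5) (nat_lit 497) (nat_lit 5) (nat_lit 498) (nat_lit 5) (nat_lit 323) (nat_lit 293) (nat_lit 284)) (XT.nd (nat_lit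 78) (nat_lit 1748) (nat_lit 0) (XT.lf (nat_lit 0) (nat_lit 2200228765) (nat_lit 1596) (nat_lit 1481924552) (nat_lit 1672) (nat_lit 3426805014) (nat_lit 455) (nat_lit 5) (nat_lit 476) (nat_lit 5) (nat_lit 477) (nat_lit 5) (nat_lit 324) (nat_lit 293) (nat_lit 283)) (XT.lf (nat_lit 0) (nat_lit 1005579290) (nat_lit 1748) (nat_lit 4934445950) (nat_lit 76) (nat_lit 1230850013) (nat_lit 432) (nat_lit 5) (nat_lit 455) (nat_lit 5) (nat_lit 433) (nat_lit 5) (nat_lit 325) (nat_lit 293) (nat_lit 282)))))) (XT.nd (nat_lit 390) (nat_lit 4028) (nat_lit 0) (XT.nd (nat_lit 156) (nat_lit 2736) (nat_lit 0) (XT.nd (nat_lit 78) (nat_lit 1216) (nat_lit 0) (XT.lf (nat_lit 0) (nat_lit 2298120487) (nat_lit 1748) (nat_lit 3154102920) (nat_lit 1824) (nat_lit 1783473429) (nat_lit 409) (nat_lit 5) (nat_lit 432) (nat_lit 5) (nat_lit 433) (nat_lit 5) (nat_lit 326) (nat_lit 293) (nat_lit 281)) (XT.lf (nat_lit 0) (nat_lit 2399124937)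 (nat_lit 1140) (nat_lit 215466400) (nat_lit 1216) (nat_lit 4689159797) (nat_lit 393) (nat_lit 5) (nat_lit 408) (nat_lit 5) (nat_lit 409) (nat_lit 5) (nat_lit 327) (nat_lit 293) (nat_lit 280))) (XT.nd (nat_lit 78) (nat_lit 1824) (nat_lit 0) (XT.lf (nat_lit 0) (nat_lit 2524745360) (nat_lit 912) (nat_lit 4538370296) (nat_lit 988) (nat_lit 311693415) (nat_lit 381) (nat_lit 5) (nat_lit 393) (nat_lit 5) (nat_lit 394) (nat_lit 5) (nat_lit 328) (nat_lit 293) (nat_lit 279)) (XT.nd (nat_lit 78) (nat_lit 912) (nat_lit 0) (XT.lf (nat_lit 0) (nat_lit 2675057386) (nat_lit 836) (nat_lit 1395520708) (nat_lit 912) (nat_lit 3378355317) (nat_lit 369) (nat_lit 5) (nat_lit 380) (nat_lit 5) (nat_lit 381) (nat_lit 5) (nat_lit 329) (nat_lit 293) (nat_lit 278)) (XT.lf (nat_lit 0) (nat_lit 983248973) (nat_lit 912) (nat_lit 4670197354) (nat_lit 76) (nat_lit 1872859949) (nat_lit 357) (nat_lit 5) (nat_lit 369) (nat_lit 5) (nat_lit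 358) (nat_lit 5) (nat_lit 330) (nat_lit 293) (nat_lit 277))))) (XT.nd (nat_lit 156) (nat_lit 2280) (nat_lit 0) (XT.nd (nat_lit 78) (nat_lit 912) (nat_lit 0) (XT.lf (nat_lit 0) (nat_lit 3055091093) (nat_lit 836) (nat_lit 2317596919) (nat_lit 912) (nat_lit 2234054388) (nat_lit 346) (nat_lit 5) (nat_lit 357) (nat_lit 5) (nat_lit 358) (nat_lit 5) (nat_lit 331) (nat_lit 293) (nat_lit 276)) (XT.lf (nat_lit 0) (nat_lit 2118887987) (nat_lit 912) (nat_lit 4409913135) (nat_lit 76) (nat_lit 1161676861) (nat_lit 334) (nat_lit 5) (nat_lit 346) (nat_lit 5) (nat_lit 335) (nat_lit 5) (nat_lit 332) (nat_lit 293) (nat_lit 275))) (XT.nd (nat_lit 78) (nat_lit 1520) (nat_lit 0) (XT.lf (nat_lit 0) (nat_lit 3521936715) (nat_lit 760) (nat_lit 3004978372) (nat_lit 836) (nat_lit 1250461111) (nat_lit 324) (nat_lit 5) (nat_lit 334) (nat_lit 5) (nat_lit 335) (nat_lit 5) (nat_lit 333) (nat_lit 293) (nat_lit 274)) (XT.nd (nat_lit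 78) (nat_lit 684) (nat_lit 0) (XT.lf (nat_lit 0) (nat_lit 3104469705) (nat_lit 836) (nat_lit 4084643908) (nat_lit 76) (nat_lit 678470174) (nat_lit 313) (nat_lit 5) (nat_lit 324) (nat_lit 5) (nat_lit 314) (nat_lit 5) (nat_lit 334) (nat_lit 293) (nat_lit 273)) (XT.lf (nat_lit 0) (nat_lit 4058252919) (nat_lit 684) (nat_lit 3479766293) (nat_lit 760) (nat_lit 423053512) (nat_lit 304) (nat_lit 5) (nat_lit 313) (nat_lit 5) (nat_lit 314) (nat_lit 5) (nat_lit 335) (nat_lit 293) (nat_lit 272))))))) (XT.nd (nat_lit 780) (nat_lit 5396) (nat_lit 0) (XT.nd (nat_lit 390) (nat_lit 3116) (nat_lit 0) (XT.nd (nat_lit 156) (nat_lit 2052) (nat_lit 0) (XT.nd (nat_lit 78) (nat_lit 760) (nat_lit 0) (XT.lf (nat_lit 0) (nat_lit 3943915553) (nat_lit 836) (nat_lit 3712018149) (nat_lit 76) (nat_lit 401949065) (nat_lit 293) (nat_lit 5) (nat_lit 304) (nat_lit 5) (nat_lit 294) (nat_lit 5) (nat_lit 336) (nat_lit 293) (nat_lit 271))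 (XT.lf (nat_lit 0) (nat_lit 248127135) (nat_lit 760) (nat_lit 3513258237) (nat_lit 76) (nat_lit 4396692008) (nat_lit 283) (nat_lit 5) (nat_lit 293) (nat_lit 5) (nat_lit 284) (nat_lit 5) (nat_lit 337) (nat_lit 293) (nat_lit 270))) (XT.nd (nat_lit 78) (nat_lit 1368) (nat_lit 0) (XT.lf (nat_lit 0) (nat_lit 4639913078) (nat_lit 760) (nat_lit 3310000972) (nat_lit 76) (nat_lit 311760338) (nat_lit 274) (nat_lit 5) (nat_lit 284) (nat_lit 5) (nat_lit 275) (nat_lit 5) (nat_lit 338) (nat_lit 293) (nat_lit 269)) (XT.nd (nat_lit 78) (nat_lit 684) (nat_lit 0) (XT.lf (nat_lit 0) (nat_lit 764798185) (nat_lit 684) (nat_lit 3105145355) (nat_lit 76) (nat_lit 4498762647) (nat_lit 265) (nat_lit 5) (nat_lit 274) (nat_lit 5) (nat_lit 266) (nat_lit 5) (nat_lit 339) (nat_lit 293) (nat_lit 268)) (XT.lf (nat_lit 0) (nat_lit 5193908967) (nat_lit 760) (nat_lit 2897065493) (nat_lit 76) (nat_lit 388324690) (nat_lit 256) (nat_lit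 5) (nat_lit 266) (nat_lit 5) (nat_lit 257) (nat_lit 5) (nat_lit 340) (nat_lit 293) (nat_lit 267))))) (XT.nd (nat_lit 156) (nat_lit 1824) (nat_lit 0) (XT.nd (nat_lit 78) (nat_lit 608) (nat_lit 0) (XT.lf (nat_lit 0) (nat_lit 1133207999) (nat_lit 684) (nat_lit 2694593815) (nat_lit 76) (nat_lit 4765572292) (nat_lit 247) (nat_lit 5) (nat_lit 256) (nat_lit 5) (nat_lit 248) (nat_lit 5) (nat_lit 341) (nat_lit 293) (nat_lit 266)) (XT.lf (nat_lit 0) (nat_lit 5606091982) (nat_lit 684) (nat_lit 2492372364) (nat_lit 76) (nat_lit 612675132) (nat_lit 239) (nat_lit 5) (nat_lit 248) (nat_lit 5) (nat_lit 240) (nat_lit 5) (nat_lit 342) (nat_lit 293) (nat_lit 265))) (XT.nd (nat_lit 78) (nat_lit 1216) (nat_lit 0) (XT.lf (nat_lit 0) (nat_lit 1352771803) (nat_lit 608) (nat_lit 2301237904) (nat_lit 76) (nat_lit 5178474030) (nat_lit 231) (nat_lit 5) (nat_lit 239) (nat_lit 5) (nat_lit 232) (nat_lit 5) (nat_lit 343) (nat_lit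 293) (nat_lit 264)) (XT.nd (nat_lit 78) (nat_lit 608) (nat_lit 0) (XT.lf (nat_lit 0) (nat_lit 5875365444) (nat_lit 684) (nat_lit 2115959061) (nat_lit 76) (nat_lit 966296333) (nat_lit 223) (nat_lit 5) (nat_lit 232) (nat_lit 5) (nat_lit 224) (nat_lit 5) (nat_lit 344) (nat_lit 293) (nat_lit 263)) (XT.lf (nat_lit 0) (nat_lit 1421587356) (nat_lit 608) (nat_lit 1945682023) (nat_lit 76) (nat_lit 5719212101) (nat_lit 215) (nat_lit 5) (nat_lit 223) (nat_lit 5) (nat_lit 216) (nat_lit 5) (nat_lit 345) (nat_lit 293) (nat_lit 262)))))) (XT.nd (nat_lit 390) (nat_lit 2736) (nat_lit 0) (XT.nd (nat_lit 156) (nat_lit 1520) (nat_lit 0) (XT.nd (nat_lit 78) (nat_lit 608) (nat_lit 0) (XT.lf (nat_lit 0) (nat_lit 5999308865) (nat_lit 608) (nat_lit 1788940649) (nat_lit 76) (nat_lit 1430963586) (nat_lit 208) (nat_lit 5) (nat_lit 216) (nat_lit 5) (nat_lit 209) (nat_lit 5) (nat_lit 346) (nat_lit 293) (nat_lit 261)) (XT.lf (nat_lit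 0) (nat_lit 1336391035) (nat_lit 608) (nat_lit 1649708268) (nat_lit 76) (nat_lit 6369759725) (nat_lit 200) (nat_lit 5) (nat_lit 208) (nat_lit 5) (nat_lit 201) (nat_lit 5) (nat_lit 347) (nat_lit 293) (nat_lit 260))) (XT.nd (nat_lit 78) (nat_lit 988) (nat_lit 0) (XT.lf (nat_lit 0) (nat_lit 5974128174) (nat_lit 608) (nat_lit 1533723888) (nat_lit 76) (nat_lit 1988580112) (nat_lit 193) (nat_lit 5) (nat_lit 201) (nat_lit 5) (nat_lit 194) (nat_lit 5) (nat_lit 348) (nat_lit 293) (nat_lit 259)) (XT.nd (nat_lit 78) (nat_lit 456) (nat_lit 0) (XT.lf (nat_lit 0) (nat_lit 1092502181) (nat_lit 532) (nat_lit 1436498286) (nat_lit 76) (nat_lit 7112154652) (nat_lit 186) (nat_lit 5) (nat_lit 193) (nat_lit 5) (nat_lit 187) (nat_lit 5) (nat_lit 349) (nat_lit 293) (nat_lit 258)) (XT.lf (nat_lit 0) (nat_lit 5794593935) (nat_lit 532) (nat_lit 1374236635) (nat_lit 76) (nat_lit 2621011326) (nat_lit 180) (nat_lit 5) (nat_lit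 187) (nat_lit 5) (nat_lit 181) (nat_lit 5) (nat_lit 350) (nat_lit 293) (nat_lit 257))))) (XT.nd (nat_lit 234) (nat_lit 1292) (nat_lit 0) (XT.nd (nat_lit 78) (nat_lit 912) (nat_lit 0) (XT.lf (nat_lit 0) (nat_lit 683755027) (nat_lit 532) (nat_lit 1330871459) (nat_lit 76) (nat_lit 7928331080) (nat_lit 173) (nat_lit 5) (nat_lit 180) (nat_lit 5) (nat_lit 174) (nat_lit 5) (nat_lit 351) (nat_lit 293) (nat_lit 256)) (XT.nd (nat_lit 78) (nat_lit 456) (nat_lit 0) (XT.lf (nat_lit 0) (nat_lit 5453966801) (nat_lit 532) (nat_lit 1336174726) (nat_lit 76) (nat_lit 3309914696) (nat_lit 167) (nat_lit 5) (nat_lit 174) (nat_lit 5) (nat_lit 168) (nat_lit 5) (nat_lit 352) (nat_lit 293) (nat_lit 255)) (XT.lf (nat_lit 0) (nat_lit 102417418) (nat_lit 456) (nat_lit 1359541678) (nat_lit 76) (nat_lit 8799946490) (nat_lit 161) (nat_lit 5) (nat_lit 167) (nat_lit 5) (nat_lit 162) (nat_lit 5) (nat_lit 353) (nat_lit 293) (nat_lit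 254)))) (XT.nd (nat_lit 78) (nat_lit 836) (nat_lit 0) (XT.lf (nat_lit 0) (nat_lit 4943909376) (nat_lit 532) (nat_lit 1447268634) (nat_lit 76) (nat_lit 4036563702) (nat_lit 155) (nat_lit 5) (nat_lit 162) (nat_lit 5) (nat_lit 156) (nat_lit 5) (nat_lit 354) (nat_lit 293) (nat_lit 253)) (XT.nd (nat_lit 78) (nat_lit 456) (nat_lit 0) (XT.lf (nat_lit 0) (nat_lit 9042862314) (nat_lit 380) (nat_lit 886055526) (nat_lit 456) (nat_lit 669687645) (nat_lit 150) (nat_lit 5) (nat_lit 155) (nat_lit 5) (nat_lit 156) (nat_lit 5) (nat_lit 355) (nat_lit 293) (nat_lit 252)) (XT.lf (nat_lit 0) (nat_lit 4254383494) (nat_lit 456) (nat_lit 1737572476) (nat_lit 76) (nat_lit 4781664373) (nat_lit 144) (nat_lit 5) (nat_lit 150) (nat_lit 5) (nat_lit 145) (nat_lit 5) (nat_lit 356) (nat_lit 293) (nat_lit 251))))))))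
noncomputable def xc34 : XT := (XT.nd (nat_lit 1560) (nat_lit 2052) (nat_lit 0) (XT.nd (nat_lit 780) (nat_lit 2584) (nat_lit 0) (XT.nd (nat_lit 390) (nat_lit 1748) (nat_lit 0) (XT.nd (nat_lit 156) (nat_lit 1140) (nat_lit 0) (XT.nd (nat_lit 78) (nat_lit 456) (nat_lit 0) (XT.lf (nat_lit 0) (nat_lit 9005423322) (nat_lit 380) (nat_lit 309561023) (nat_lit 456) (nat_lit 1638871280) (nat_lit 139) (nat_lit 5) (nat_lit 144) (nat_lit 5) (nat_lit 145) (nat_lit 5) (nat_lit 357) (nat_lit 293) (nat_lit 250)) (XT.lf (nat_lit 0) (nat_lit 3373531818) (nat_lit 456) (nat_lit 2239778094) (nat_lit 76) (nat_lit 5525162763) (nat_lit 133) (nat_lit 5) (nat_lit 139) (nat_lit 5) (nat_lit 134) (nat_lit 5) (nat_lit 358) (nat_lit 293) (nat_lit 249))) (XT.nd (nat_lit 78) (nat_lit 760) (nat_lit 0) (XT.lf (nat_lit 0) (nat_lit 8513063034) (nat_lit 456) (nat_lit 2572778912) (nat_lit 76) (nat_lit 242604563) (nat_lit 128) (nat_lit 5)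 (nat_lit 134) (nat_lit 5) (nat_lit 129) (nat_lit 5) (nat_lit 359) (nat_lit 293) (nat_lit 248)) (XT.nd (nat_lit 78) (nat_lit 304) (nat_lit 0) (XT.lf (nat_lit 0) (nat_lit 2287542501) (nat_lit 456) (nat_lit 2989557260) (nat_lit 76) (nat_lit 6246041627) (nat_lit 122) (nat_lit 5) (nat_lit 128) (nat_lit 5) (nat_lit 123) (nat_lit 5) (nat_lit 360) (nat_lit 293) (nat_lit 247)) (XT.lf (nat_lit 0) (nat_lit 7508849944) (nat_lit 380) (nat_lit 3466336596) (nat_lit 76) (nat_lit 748061708) (nat_lit 118) (nat_lit 5) (nat_lit 123) (nat_lit 5) (nat_lit 119) (nat_lit 5) (nat_lit 361) (nat_lit 293) (nat_lit 246))))) (XT.nd (nat_lit 156) (nat_lit 988) (nat_lit 0) (XT.nd (nat_lit 78) (nat_lit 304) (nat_lit 0) (XT.lf (nat_lit 0) (nat_lit 980495496) (nat_lit 456) (nat_lit 4025935284) (nat_lit 76) (nat_lit 6922104442) (nat_lit 112) (nat_lit 5) (nat_lit 118) (nat_lit 5) (nat_lit 113) (nat_lit 5) (nat_lit 362) (nat_lit 293)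 (nat_lit 245)) (XT.lf (nat_lit 0) (nat_lit 6283577070) (nat_lit 380) (nat_lit 4667928446) (nat_lit 76) (nat_lit 1187739308) (nat_lit 108) (nat_lit 5) (nat_lit 113) (nat_lit 5) (nat_lit 109) (nat_lit 5) (nat_lit 363) (nat_lit 293) (nat_lit 244))) (XT.nd (nat_lit 78) (nat_lit 684) (nat_lit 0) (XT.lf (nat_lit 0) (nat_lit 6960136820) (nat_lit 304) (nat_lit 4822091693) (nat_lit 380) (nat_lit 573330396) (nat_lit 104) (nat_lit 5) (nat_lit 108) (nat_lit 5) (nat_lit 109) (nat_lit 5) (nat_lit 364) (nat_lit 293) (nat_lit 243)) (XT.nd (nat_lit 78) (nat_lit 304) (nat_lit 0) (XT.lf (nat_lit 0) (nat_lit 4818124912) (nat_lit 380) (nat_lit 6222370999) (nat_lit 76) (nat_lit 1536956863) (nat_lit 99) (nat_lit 5) (nat_lit 104) (nat_lit 5) (nat_lit 100) (nat_lit 5) (nat_lit 365) (nat_lit 293) (nat_lit 242)) (XT.lf (nat_lit 0) (nat_lit 5655724884) (nat_lit 304) (nat_lit 4745873681) (nat_lit 380) (nat_lit 2403579592) (nat_lit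 95) (nat_lit 5) (nat_lit 99) (nat_lit 5) (nat_lit 100) (nat_lit 5) (nat_lit 366) (nat_lit 293) (nat_lit 241)))))) (XT.nd (nat_lit 390) (nat_lit 1064) (nat_lit 0) (XT.nd (nat_lit 156) (nat_lit 836) (nat_lit 0) (XT.nd (nat_lit 78) (nat_lit 304) (nat_lit 0) (XT.lf (nat_lit 0) (nat_lit 3090805997) (nat_lit 380) (nat_lit 8178932925) (nat_lit 76) (nat_lit 1769227567) (nat_lit 90) (nat_lit 5) (nat_lit 95) (nat_lit 5) (nat_lit 91) (nat_lit 5) (nat_lit 367) (nat_lit 293) (nat_lit 240)) (XT.lf (nat_lit 0) (nat_lit 3945223980) (nat_lit 304) (nat_lit 4812522371) (nat_lit 380) (nat_lit 4520907682) (nat_lit 86) (nat_lit 5) (nat_lit 90) (nat_lit 5) (nat_lit 91) (nat_lit 5) (nat_lit 368) (nat_lit 293) (nat_lit 239))) (XT.nd (nat_lit 78) (nat_lit 532) (nat_lit 0) (XT.lf (nat_lit 0) (nat_lit 1077133542) (nat_lit 304) (nat_lit 10591849294) (nat_lit 76) (nat_lit 1855981027) (nat_lit 82) (nat_lit 5) (nat_lit 86) (nat_lit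 5) (nat_lit 83) (nat_lit 5) (nat_lit 369) (nat_lit 293) (nat_lit 238)) (XT.nd (nat_lit 78) (nat_lit 228) (nat_lit 0) (XT.lf (nat_lit 0) (nat_lit 1772741289) (nat_lit 304) (nat_lit 5052482777) (nat_lit 380) (nat_lit 6951980726) (nat_lit 78) (nat_lit 5) (nat_lit 82) (nat_lit 5) (nat_lit 83) (nat_lit 5) (nat_lit 370) (nat_lit 293) (nat_lit 237)) (XT.lf (nat_lit 0) (nat_lit 507434889) (nat_lit 228) (nat_lit 12262058517) (nat_lit 304) (nat_lit 1267054584) (nat_lit 75) (nat_lit 5) (nat_lit 78) (nat_lit 5) (nat_lit 79) (nat_lit 5) (nat_lit 371) (nat_lit 293) (nat_lit 236))))) (XT.nd (nat_lit 156) (nat_lit 760) (nat_lit 0) (XT.nd (nat_lit 78) (nat_lit 228) (nat_lit 0) (XT.lf (nat_lit 0) (nat_lit 4581414665) (nat_lit 304) (nat_lit 911266575) (nat_lit 76) (nat_lit 8809340250) (nat_lit 74) (nat_lit 5) (nat_lit 78) (nat_lit 5) (nat_lit 75) (nat_lit 5) (nat_lit 372) (nat_lit 293) (nat_lit 235)) (XT.lf (nat_lit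 0) (nat_lit 10616252369) (nat_lit 304) (nat_lit 2450149817) (nat_lit 76) (nat_lit 1508335954) (nat_lit 71) (nat_lit 5) (nat_lit 75) (nat_lit 5) (nat_lit 72) (nat_lit 5) (nat_lit 373) (nat_lit 293) (nat_lit 234))) (XT.nd (nat_lit 78) (nat_lit 456) (nat_lit 0) (XT.lf (nat_lit 0) (nat_lit 2003596587) (nat_lit 304) (nat_lit 4155960807) (nat_lit 76) (nat_lit 8694770431) (nat_lit 67) (nat_lit 5) (nat_lit 71) (nat_lit 5) (nat_lit 68) (nat_lit 5) (nat_lit 374) (nat_lit 293) (nat_lit 233)) (XT.nd (nat_lit 78) (nat_lit 228) (nat_lit 0) (XT.lf (nat_lit 0) (nat_lit 8114536098) (nat_lit 304) (nat_lit 6021589850) (nat_lit 76) (nat_lit 1005188780) (nat_lit 64) (nat_lit 5) (nat_lit 68) (nat_lit 5) (nat_lit 65) (nat_lit 5) (nat_lit 375) (nat_lit 293) (nat_lit 232)) (XT.lf (nat_lit 0) (nat_lit 7370668302) (nat_lit 228) (nat_lit 7097245149) (nat_lit 304) (nat_lit 967823687) (nat_lit 61) (nat_lit 5) (nat_lit 64) (nat_lit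 5) (nat_lit 65) (nat_lit 5) (nat_lit 376) (nat_lit 293) (nat_lit 231))))))) (XT.nd (nat_lit 780) (nat_lit 228) (nat_lit 0) (XT.nd (nat_lit 390) (nat_lit 912) (nat_lit 0) (XT.nd (nat_lit 156) (nat_lit 456) (nat_lit 0) (XT.nd (nat_lit 78) (nat_lit 152) (nat_lit 0) (XT.lf (nat_lit 0) (nat_lit 5224046969) (nat_lit 304) (nat_lit 10291525570) (nat_lit 76) (nat_lit 222336642) (nat_lit 57) (nat_lit 5) (nat_lit 61) (nat_lit 5) (nat_lit 58) (nat_lit 5) (nat_lit 377) (nat_lit 293) (nat_lit 230)) (XT.lf (nat_lit 0) (nat_lit 3317433315) (nat_lit 152) (nat_lit 8338367932) (nat_lit 228) (nat_lit 4391879145) (nat_lit 55) (nat_lit 5) (nat_lit 57) (nat_lit 5) (nat_lit 58) (nat_lit 5) (nat_lit 378) (nat_lit 293) (nat_lit 229))) (XT.nd (nat_lit 78) (nat_lit 152) (nat_lit 0) (XT.lf (nat_lit 0) (nat_lit 1014120299) (nat_lit 228) (nat_lit 895171961) (nat_lit 304) (nat_lit 14456798527) (nat_lit 51) (nat_lit 5) (nat_lit 54)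 (nat_lit 5) (nat_lit 55) (nat_lit 5) (nat_lit 379) (nat_lit 293) (nat_lit 228)) (XT.nd (nat_lit 78) (nat_lit 152) (nat_lit 0) (XT.lf (nat_lit 0) (nat_lit 8415574432) (nat_lit 304) (nat_lit 1516923555) (nat_lit 76) (nat_lit 6759466931) (nat_lit 51) (nat_lit 5) (nat_lit 55) (nat_lit 5) (nat_lit 52) (nat_lit 5) (nat_lit 380) (nat_lit 293) (nat_lit 227)) (XT.lf (nat_lit 0) (nat_lit 12802117587) (nat_lit 152) (nat_lit 2350251748) (nat_lit 228) (nat_lit 1874546165) (nat_lit 49) (nat_lit 5) (nat_lit 51) (nat_lit 5) (nat_lit 52) (nat_lit 5) (nat_lit 381) (nat_lit 293) (nat_lit 226))))) (XT.nd (nat_lit 156) (nat_lit 456) (nat_lit 0) (XT.nd (nat_lit 78) (nat_lit 152) (nat_lit 0) (XT.lf (nat_lit 0) (nat_lit 4716839041) (nat_lit 304) (nat_lit 7195927426) (nat_lit 76) (nat_lit 5457354084) (nat_lit 45) (nat_lit 5) (nat_lit 49) (nat_lit 5) (nat_lit 46) (nat_lit 5) (nat_lit 382) (nat_lit 293) (nat_lit 225)) (XT.lf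 (nat_lit 0) (nat_lit 7315959397) (nat_lit 152) (nat_lit 4204263643) (nat_lit 228) (nat_lit 6202362600) (nat_lit 43) (nat_lit 5) (nat_lit 45) (nat_lit 5) (nat_lit 46) (nat_lit 5) (nat_lit 383) (nat_lit 293) (nat_lit 224))) (XT.nd (nat_lit 78) (nat_lit 152) (nat_lit 0) (XT.lf (nat_lit 0) (nat_lit 485559821) (nat_lit 304) (nat_lit 13870847880) (nat_lit 76) (nat_lit 3728179998) (nat_lit 39) (nat_lit 5) (nat_lit 43) (nat_lit 5) (nat_lit 40) (nat_lit 5) (nat_lit 384) (nat_lit 293) (nat_lit 223)) (XT.nd (nat_lit 78) (nat_lit 0) (nat_lit 0) (XT.lf (nat_lit 0) (nat_lit 809685787) (nat_lit 152) (nat_lit 6533830430) (nat_lit 228) (nat_lit 11112046142) (nat_lit 37) (nat_lit 5) (nat_lit 39) (nat_lit 5) (nat_lit 40) (nat_lit 5) (nat_lit 385) (nat_lit 293) (nat_lit 222)) (XT.lf (nat_lit 0) (nat_lit 14461208691) (nat_lit 228) (nat_lit 2815097901) (nat_lit 76) (nat_lit 1560285284) (nat_lit 37) (nat_lit 5) (nat_lit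 40) (nat_lit 5) (nat_lit 38) (nat_lit 5) (nat_lit 386) (nat_lit 293) (nat_lit 221)))))) (XT.nd (nat_lit 41340) (nat_lit 0) (nat_lit 36708) (XT.nd (nat_lit 41106) (nat_lit 0) (nat_lit 44004) (XT.nd (nat_lit 41028) (nat_lit 0) (nat_lit 46740) (XT.lf (nat_lit 0) (nat_lit 2606033135) (nat_lit 228) (nat_lit 6750614400) (nat_lit 76) (nat_lit 9870551722) (nat_lit 34) (nat_lit 5) (nat_lit 37) (nat_lit 5) (nat_lit 35) (nat_lit 5) (nat_lit 387) (nat_lit 293) (nat_lit 220)) (XT.lf (nat_lit 0) (nat_lit 2568477035) (nat_lit 684) (nat_lit 365414215) (nat_lit 684) (nat_lit 365414215) (nat_lit 649) (nat_lit 4) (nat_lit 658) (nat_lit 5) (nat_lit 658) (nat_lit 4) (nat_lit 312) (nat_lit 294) (nat_lit 294))) (XT.nd (nat_lit 78) (nat_lit 1900) (nat_lit 0) (XT.lf (nat_lit 0) (nat_lit 3998834073) (nat_lit 836) (nat_lit 2069432746) (nat_lit 0) (nat_lit 557891488) (nat_lit 638) (nat_lit 5) (nat_lit 649) (nat_lit 4) (nat_lit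 638) (nat_lit 4) (nat_lit 313) (nat_lit 294) (nat_lit 293)) (XT.nd (nat_lit 78) (nat_lit 988) (nat_lit 0) (XT.lf (nat_lit 0) (nat_lit 2056989113) (nat_lit 912) (nat_lit 2626545529) (nat_lit 76) (nat_lit 1973107150) (nat_lit 626) (nat_lit 5) (nat_lit 638) (nat_lit 5) (nat_lit 627) (nat_lit 4) (nat_lit 314) (nat_lit 294) (nat_lit 292)) (XT.lf (nat_lit 0) (nat_lit 35312398) (nat_lit 988) (nat_lit 3129047595) (nat_lit 76) (nat_lit 3525819348) (nat_lit 613) (nat_lit 5) (nat_lit 626) (nat_lit 5) (nat_lit 614) (nat_lit 5) (nat_lit 315) (nat_lit 294) (nat_lit 291))))) (XT.nd (nat_lit 234) (nat_lit 3952) (nat_lit 0) (XT.nd (nat_lit 78) (nat_lit 2356) (nat_lit 0) (XT.lf (nat_lit 0) (nat_lit 3135229648) (nat_lit 988) (nat_lit 1495336326) (nat_lit 1064) (nat_lit 2095958222) (nat_lit 600) (nat_lit 5) (nat_lit 613) (nat_lit 5) (nat_lit 614) (nat_lit 5) (nat_lit 316) (nat_lit 294) (nat_lit 290)) (XT.nd (nat_lit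 78) (nat_lit 1216) (nat_lit 0) (XT.lf (nat_lit 0) (nat_lit 2454702690) (nat_lit 1140) (nat_lit 4003190870) (nat_lit 76) (nat_lit 308026474) (nat_lit 585) (nat_lit 5) (nat_lit 600) (nat_lit 5) (nat_lit 586) (nat_lit 5) (nat_lit 317) (nat_lit 294) (nat_lit 289)) (XT.lf (nat_lit 0) (nat_lit 204517833) (nat_lit 1216) (nat_lit 4373762236) (nat_lit 76) (nat_lit 2229949492) (nat_lit 569) (nat_lit 5) (nat_lit 585) (nat_lit 5) (nat_lit 570) (nat_lit 5) (nat_lit 318) (nat_lit 294) (nat_lit 288)))) (XT.nd (nat_lit 78) (nat_lit 2736) (nat_lit 0) (XT.lf (nat_lit 0) (nat_lit 2145437231) (nat_lit 1216) (nat_lit 2547402051) (nat_lit 1292) (nat_lit 2160559189) (nat_lit 553) (nat_lit 5) (nat_lit 569) (nat_lit 5) (nat_lit 570) (nat_lit 5) (nat_lit 319) (nat_lit 294) (nat_lit 287)) (XT.nd (nat_lit 78) (nat_lit 1368) (nat_lit 0) (XT.lf (nat_lit 0) (nat_lit 1907421145) (nat_lit 1292) (nat_lit 375570129) (nat_lit 1368)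 (nat_lit 4618711919) (nat_lit 535) (nat_lit 5) (nat_lit 552) (nat_lit 5) (nat_lit 553) (nat_lit 5) (nat_lit 320) (nat_lit 294) (nat_lit 286)) (XT.lf (nat_lit 0) (nat_lit 1707058298) (nat_lit 1368) (nat_lit 5038978536) (nat_lit 1444) (nat_lit 206891929) (nat_lit 517) (nat_lit 5) (nat_lit 535) (nat_lit 5) (nat_lit 536) (nat_lit 5) (nat_lit 321) (nat_lit 294) (nat_lit 285))))))))
noncomputable def xc35 : XT := (XT.nd (nat_lit 1560) (nat_lit 10184) (nat_lit 0) (XT.nd (nat_lit 780) (nat_lit 7524) (nat_lit 0) (XT.nd (nat_lit 390) (nat_lit 4712) (nat_lit 0) (XT.nd (nat_lit 156) (nat_lit 5168) (nat_lit 0) (XT.nd (nat_lit 78) (nat_lit 1596) (nat_lit 0) (XT.lf (nat_lit 0) (nat_lit 1538707166) (nat_lit 1444) (nat_lit 2650668316) (nat_lit 1520) (nat_lit 2817637759) (nat_lit 497) (nat_lit 5) (nat_lit 516) (nat_lit 5) (nat_lit 517) (nat_lit 5) (nat_lit 322) (nat_lit 294) (nat_lit 284)) (XT.lf (nat_lit 0) (nat_lit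 1419679631) (nat_lit 1520) (nat_lit 120364156) (nat_lit 1596) (nat_lit 5524302693) (nat_lit 476) (nat_lit 5) (nat_lit 496) (nat_lit 5) (nat_lit 497) (nat_lit 5) (nat_lit 323) (nat_lit 294) (nat_lit 283))) (XT.nd (nat_lit 78) (nat_lit 3572) (nat_lit 0) (XT.lf (nat_lit 0) (nat_lit 1324644152) (nat_lit 1596) (nat_lit 4595690992) (nat_lit 1672) (nat_lit 1204148847) (nat_lit 455) (nat_lit 5) (nat_lit 476) (nat_lit 5) (nat_lit 477) (nat_lit 5) (nat_lit 324) (nat_lit 294) (nat_lit 282)) (XT.nd (nat_lit 78) (nat_lit 1824) (nat_lit 0) (XT.lf (nat_lit 0) (nat_lit 1265332577) (nat_lit 1672) (nat_lit 1855278608) (nat_lit 1748) (nat_lit 4067098702) (nat_lit 432) (nat_lit 5) (nat_lit 454) (nat_lit 5) (nat_lit 455) (nat_lit 5) (nat_lit 325) (nat_lit 294) (nat_lit 281)) (XT.lf (nat_lit 0) (nat_lit 228635423) (nat_lit 1824) (nat_lit 6008515659) (nat_lit 76) (nat_lit 1017005498) (nat_lit 408) (nat_lit 5) (nat_lit 432)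 (nat_lit 5) (nat_lit 409) (nat_lit 5) (nat_lit 326) (nat_lit 294) (nat_lit 280))))) (XT.nd (nat_lit 156) (nat_lit 2584) (nat_lit 0) (XT.nd (nat_lit 78) (nat_lit 988) (nat_lit 0) (XT.lf (nat_lit 0) (nat_lit 1240281890) (nat_lit 1140) (nat_lit 3293977089) (nat_lit 1216) (nat_lit 2789127306) (nat_lit 393) (nat_lit 5) (nat_lit 408) (nat_lit 5) (nat_lit 409) (nat_lit 5) (nat_lit 327) (nat_lit 294) (nat_lit 279)) (XT.lf (nat_lit 0) (nat_lit 1277416532) (nat_lit 912) (nat_lit 202660216) (nat_lit 988) (nat_lit 5915934575) (nat_lit 380) (nat_lit 5) (nat_lit 392) (nat_lit 5) (nat_lit 393) (nat_lit 5) (nat_lit 328) (nat_lit 294) (nat_lit 278))) (XT.nd (nat_lit 78) (nat_lit 1748) (nat_lit 0) (XT.lf (nat_lit 0) (nat_lit 1326961131) (nat_lit 836) (nat_lit 4462051495) (nat_lit 912) (nat_lit 1682491529) (nat_lit 369) (nat_lit 5) (nat_lit 380) (nat_lit 5) (nat_lit 381) (nat_lit 5) (nat_lit 329) (nat_lit 294) (nat_lit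 277)) (XT.nd (nat_lit 78) (nat_lit 836) (nat_lit 0) (XT.lf (nat_lit 0) (nat_lit 1406845736) (nat_lit 836) (nat_lit 1169960478) (nat_lit 912) (nat_lit 4973474747) (nat_lit 357) (nat_lit 5) (nat_lit 368) (nat_lit 5) (nat_lit 369) (nat_lit 5) (nat_lit 330) (nat_lit 294) (nat_lit 276)) (XT.lf (nat_lit 0) (nat_lit 1508026167) (nat_lit 836) (nat_lit 5383613374) (nat_lit 912) (nat_lit 740591848) (nat_lit 346) (nat_lit 5) (nat_lit 357) (nat_lit 5) (nat_lit 358) (nat_lit 5) (nat_lit 331) (nat_lit 294) (nat_lit 275)))))) (XT.nd (nat_lit 390) (nat_lit 3496) (nat_lit 0) (XT.nd (nat_lit 156) (nat_lit 2280) (nat_lit 0) (XT.nd (nat_lit 78) (nat_lit 836) (nat_lit 0) (XT.lf (nat_lit 0) (nat_lit 1623365293) (nat_lit 836) (nat_lit 1894858946) (nat_lit 912) (nat_lit 4199060709) (nat_lit 334) (nat_lit 5) (nat_lit 345) (nat_lit 5) (nat_lit 346) (nat_lit 5) (nat_lit 332) (nat_lit 294) (nat_lit 274)) (XT.lf (nat_lit 0) (nat_lit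 41349723) (nat_lit 836) (nat_lit 6039845206) (nat_lit 76) (nat_lit 1724574835) (nat_lit 323) (nat_lit 5) (nat_lit 334) (nat_lit 5) (nat_lit 324) (nat_lit 5) (nat_lit 333) (nat_lit 294) (nat_lit 273))) (XT.nd (nat_lit 78) (nat_lit 1520) (nat_lit 0) (XT.lf (nat_lit 0) (nat_lit 1909587114) (nat_lit 760) (nat_lit 2399595947) (nat_lit 836) (nat_lit 3588065385) (nat_lit 313) (nat_lit 5) (nat_lit 323) (nat_lit 5) (nat_lit 324) (nat_lit 5) (nat_lit 334) (nat_lit 294) (nat_lit 272)) (XT.nd (nat_lit 78) (nat_lit 760) (nat_lit 0) (XT.lf (nat_lit 0) (nat_lit 660278307) (nat_lit 760) (nat_lit 5912599566) (nat_lit 76) (nat_lit 1419417525) (nat_lit 303) (nat_lit 5) (nat_lit 313) (nat_lit 5) (nat_lit 304) (nat_lit 5) (nat_lit 335) (nat_lit 294) (nat_lit 271)) (XT.lf (nat_lit 0) (nat_lit 2247963925) (nat_lit 760) (nat_lit 2705343611) (nat_lit 836) (nat_lit 3137128835) (nat_lit 293) (nat_lit 5) (nat_lit 303) (nat_lit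 5) (nat_lit 304) (nat_lit 5) (nat_lit 336) (nat_lit 294) (nat_lit 270))))) (XT.nd (nat_lit 156) (nat_lit 2052) (nat_lit 0) (XT.nd (nat_lit 78) (nat_lit 684) (nat_lit 0) (XT.lf (nat_lit 0) (nat_lit 1128691219) (nat_lit 760) (nat_lit 5755574698) (nat_lit 76) (nat_lit 1307924647) (nat_lit 283) (nat_lit 5) (nat_lit 293) (nat_lit 5) (nat_lit 284) (nat_lit 5) (nat_lit 337) (nat_lit 294) (nat_lit 269)) (XT.lf (nat_lit 0) (nat_lit 2620625161) (nat_lit 684) (nat_lit 2832372040) (nat_lit 760) (nat_lit 2844156639) (nat_lit 274) (nat_lit 5) (nat_lit 283) (nat_lit 5) (nat_lit 284) (nat_lit 5) (nat_lit 338) (nat_lit 294) (nat_lit 268))) (XT.nd (nat_lit 78) (nat_lit 1368) (nat_lit 0) (XT.lf (nat_lit 0) (nat_lit 1448135602) (nat_lit 684) (nat_lit 5587132226) (nat_lit 76) (nat_lit 1370514080) (nat_lit 265) (nat_lit 5) (nat_lit 274) (nat_lit 5) (nat_lit 266) (nat_lit 5) (nat_lit 339) (nat_lit 294) (nat_lit 267)) (XT.nd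 (nat_lit 78) (nat_lit 684) (nat_lit 0) (XT.lf (nat_lit 0) (nat_lit 3009206313) (nat_lit 684) (nat_lit 2800212271) (nat_lit 760) (nat_lit 2708328245) (nat_lit 256) (nat_lit 5) (nat_lit 265) (nat_lit 5) (nat_lit 266) (nat_lit 5) (nat_lit 340) (nat_lit 294) (nat_lit 266)) (XT.lf (nat_lit 0) (nat_lit 1618907939) (nat_lit 684) (nat_lit 5426255282) (nat_lit 76) (nat_lit 1588274168) (nat_lit 247) (nat_lit 5) (nat_lit 256) (nat_lit 5) (nat_lit 248) (nat_lit 5) (nat_lit 341) (nat_lit 294) (nat_lit 265))))))) (XT.nd (nat_lit 780) (nat_lit 4560) (nat_lit 0) (XT.nd (nat_lit 390) (nat_lit 2660) (nat_lit 0) (XT.nd (nat_lit 156) (nat_lit 1748) (nat_lit 0) (XT.nd (nat_lit 78) (nat_lit 608) (nat_lit 0) (XT.lf (nat_lit 0) (nat_lit 3394670226) (nat_lit 608) (nat_lit 2627817309) (nat_lit 684) (nat_lit 2730115547) (nat_lit 239) (nat_lit 5) (nat_lit 247) (nat_lit 5) (nat_lit 248) (nat_lit 5) (nat_lit 342) (nat_lit 294)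 (nat_lit 264)) (XT.lf (nat_lit 0) (nat_lit 1640030380) (nat_lit 608) (nat_lit 5292732251) (nat_lit 76) (nat_lit 1942804695) (nat_lit 231) (nat_lit 5) (nat_lit 239) (nat_lit 5) (nat_lit 232) (nat_lit 5) (nat_lit 343) (nat_lit 294) (nat_lit 263))) (XT.nd (nat_lit 78) (nat_lit 1140) (nat_lit 0) (XT.lf (nat_lit 0) (nat_lit 3757118731) (nat_lit 608) (nat_lit 2333722456) (nat_lit 684) (nat_lit 2911312049) (nat_lit 223) (nat_lit 5) (nat_lit 231) (nat_lit 5) (nat_lit 232) (nat_lit 5) (nat_lit 344) (nat_lit 294) (nat_lit 262)) (XT.nd (nat_lit 78) (nat_lit 532) (nat_lit 0) (XT.lf (nat_lit 0) (nat_lit 1509216457) (nat_lit 608) (nat_lit 5207351212) (nat_lit 76) (nat_lit 2416057979) (nat_lit 215) (nat_lit 5) (nat_lit 223) (nat_lit 5) (nat_lit 216) (nat_lit 5) (nat_lit 345) (nat_lit 294) (nat_lit 261)) (XT.lf (nat_lit 0) (nat_lit 4075592922) (nat_lit 532) (nat_lit 1936206238) (nat_lit 608) (nat_lit 3255073041)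 (nat_lit 208) (nat_lit 5) (nat_lit 215) (nat_lit 5) (nat_lit 216) (nat_lit 5) (nat_lit 346) (nat_lit 294) (nat_lit 260))))) (XT.nd (nat_lit 156) (nat_lit 1520) (nat_lit 0) (XT.nd (nat_lit 78) (nat_lit 532) (nat_lit 0) (XT.lf (nat_lit 0) (nat_lit 1222825727) (nat_lit 608) (nat_lit 5192106860) (nat_lit 76) (nat_lit 2990178834) (nat_lit 200) (nat_lit 5) (nat_lit 208) (nat_lit 5) (nat_lit 201) (nat_lit 5) (nat_lit 347) (nat_lit 294) (nat_lit 259)) (XT.lf (nat_lit 0) (nat_lit 4327860222) (nat_lit 532) (nat_lit 1453453230) (nat_lit 608) (nat_lit 3765967337) (nat_lit 193) (nat_lit 5) (nat_lit 200) (nat_lit 5) (nat_lit 201) (nat_lit 5) (nat_lit 348) (nat_lit 294) (nat_lit 258))) (XT.nd (nat_lit 78) (nat_lit 988) (nat_lit 0) (XT.lf (nat_lit 0) (nat_lit 775806748) (nat_lit 532) (nat_lit 5270421808) (nat_lit 76) (nat_lit 3647342066) (nat_lit 186) (nat_lit 5) (nat_lit 193) (nat_lit 5) (nat_lit 187) (nat_lit 5)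 (nat_lit 349) (nat_lit 294) (nat_lit 257)) (XT.nd (nat_lit 78) (nat_lit 532) (nat_lit 0) (XT.lf (nat_lit 0) (nat_lit 4490186283) (nat_lit 456) (nat_lit 903720129) (nat_lit 532) (nat_lit 4450041211) (nat_lit 180) (nat_lit 5) (nat_lit 186) (nat_lit 5) (nat_lit 187) (nat_lit 5) (nat_lit 350) (nat_lit 294) (nat_lit 256)) (XT.lf (nat_lit 0) (nat_lit 161627712) (nat_lit 532) (nat_lit 5467384342) (nat_lit 76) (nat_lit 4369586151) (nat_lit 173) (nat_lit 5) (nat_lit 180) (nat_lit 5) (nat_lit 174) (nat_lit 5) (nat_lit 351) (nat_lit 294) (nat_lit 255)))))) (XT.nd (nat_lit 390) (nat_lit 2356) (nat_lit 0) (XT.nd (nat_lit 156) (nat_lit 1368) (nat_lit 0) (XT.nd (nat_lit 78) (nat_lit 380) (nat_lit 0) (XT.lf (nat_lit 0) (nat_lit 4537089565) (nat_lit 456) (nat_lit 305506488) (nat_lit 532) (nat_lit 5314895272) (nat_lit 167) (nat_lit 5) (nat_lit 173) (nat_lit 5) (nat_lit 174) (nat_lit 5) (nat_lit 352) (nat_lit 294) (nat_lit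 254)) (XT.lf (nat_lit 0) (nat_lit 4506622684) (nat_lit 380) (nat_lit 5177985876) (nat_lit 456) (nat_lit 636149282) (nat_lit 162) (nat_lit 5) (nat_lit 167) (nat_lit 5) (nat_lit 168) (nat_lit 5) (nat_lit 353) (nat_lit 294) (nat_lit 253))) (XT.nd (nat_lit 78) (nat_lit 836) (nat_lit 0) (XT.lf (nat_lit 0) (nat_lit 4120900241) (nat_lit 532) (nat_lit 6049599099) (nat_lit 76) (nat_lit 318041813) (nat_lit 155) (nat_lit 5) (nat_lit 162) (nat_lit 5) (nat_lit 156) (nat_lit 5) (nat_lit 354) (nat_lit 294) (nat_lit 252)) (XT.nd (nat_lit 78) (nat_lit 456) (nat_lit 0) (XT.lf (nat_lit 0) (nat_lit 4322752300) (nat_lit 380) (nat_lit 4714492730) (nat_lit 456) (nat_lit 1623541776) (nat_lit 150) (nat_lit 5) (nat_lit 155) (nat_lit 5) (nat_lit 156) (nat_lit 5) (nat_lit 355) (nat_lit 294) (nat_lit 251)) (XT.lf (nat_lit 0) (nat_lit 3218505614) (nat_lit 456) (nat_lit 6671829341) (nat_lit 76) (nat_lit 947489437) (nat_lit 144)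 (nat_lit 5) (nat_lit 150) (nat_lit 5) (nat_lit 145) (nat_lit 5) (nat_lit 356) (nat_lit 294) (nat_lit 250))))) (XT.nd (nat_lit 234) (nat_lit 1140) (nat_lit 0) (XT.nd (nat_lit 78) (nat_lit 836) (nat_lit 0) (XT.lf (nat_lit 0) (nat_lit 3949656256) (nat_lit 380) (nat_lit 4259725630) (nat_lit 456) (nat_lit 2810080234) (nat_lit 139) (nat_lit 5) (nat_lit 144) (nat_lit 5) (nat_lit 145) (nat_lit 5) (nat_lit 357) (nat_lit 294) (nat_lit 249)) (XT.nd (nat_lit 78) (nat_lit 380) (nat_lit 0) (XT.lf (nat_lit 0) (nat_lit 2121213547) (nat_lit 456) (nat_lit 7518166648) (nat_lit 76) (nat_lit 1566788030) (nat_lit 133) (nat_lit 5) (nat_lit 139) (nat_lit 5) (nat_lit 134) (nat_lit 5) (nat_lit 358) (nat_lit 294) (nat_lit 248)) (XT.lf (nat_lit 0) (nat_lit 3353522227) (nat_lit 380) (nat_lit 3834710055) (nat_lit 456) (nat_lit 4209367377) (nat_lit 128) (nat_lit 5) (nat_lit 133) (nat_lit 5) (nat_lit 134) (nat_lit 5) (nat_lit 359)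 (nat_lit 294) (nat_lit 247)))) (XT.nd (nat_lit 78) (nat_lit 684) (nat_lit 0) (XT.lf (nat_lit 0) (nat_lit 814853968) (nat_lit 456) (nat_lit 8624675761) (nat_lit 76) (nat_lit 2154892558) (nat_lit 122) (nat_lit 5) (nat_lit 128) (nat_lit 5) (nat_lit 123) (nat_lit 5) (nat_lit 360) (nat_lit 294) (nat_lit 246)) (XT.nd (nat_lit 78) (nat_lit 380) (nat_lit 0) (XT.lf (nat_lit 0) (nat_lit 2497401674) (nat_lit 304) (nat_lit 3461599733) (nat_lit 380) (nat_lit 5837077732) (nat_lit 118) (nat_lit 5) (nat_lit 122) (nat_lit 5) (nat_lit 123) (nat_lit 5) (nat_lit 361) (nat_lit 294) (nat_lit 245)) (XT.lf (nat_lit 0) (nat_lit 1967889693) (nat_lit 380) (nat_lit 9309138788) (nat_lit 456) (nat_lit 726379500) (nat_lit 113) (nat_lit 5) (nat_lit 118) (nat_lit 5) (nat_lit 119) (nat_lit 5) (nat_lit 362) (nat_lit 294) (nat_lit 244))))))))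
noncomputable def xc36 : XT := (XT.nd (nat_lit 1560) (nat_lit 760) (nat_lit 0) (XT.nd (nat_lit 780) (nat_lit 2204) (nat_lit 0) (XT.nd (nat_lit 390) (nat_lit 1520) (nat_lit 0) (XT.nd (nat_lit 156) (nat_lit 760) (nat_lit 0) (XT.nd (nat_lit 78) (nat_lit 304) (nat_lit 0) (XT.lf (nat_lit 0) (nat_lit 1340821949) (nat_lit 304) (nat_lit 3163901809) (nat_lit 380) (nat_lit 7711124522) (nat_lit 108) (nat_lit 5) (nat_lit 112) (nat_lit 5) (nat_lit 113) (nat_lit 5) (nat_lit 363) (nat_lit 294) (nat_lit 243)) (XT.lf (nat_lit 0) (nat_lit 637887876) (nat_lit 304) (nat_lit 9270583872) (nat_lit 380) (nat_lit 2525594781) (nat_lit 104) (nat_lit 5) (nat_lit 108) (nat_lit 5) (nat_lit 109) (nat_lit 5) (nat_lit 364) (nat_lit 294) (nat_lit 242))) (XT.nd (nat_lit 78) (nat_lit 684) (nat_lit 0) (XT.lf (nat_lit 0) (nat_lit 2807122751) (nat_lit 380) (nat_lit 158531515) (nat_lit 76) (nat_lit 9692252279) (nat_lit 103) (nat_lit 5)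 (nat_lit 108) (nat_lit 5) (nat_lit 104) (nat_lit 5) (nat_lit 365) (nat_lit 294) (nat_lit 241)) (XT.nd (nat_lit 78) (nat_lit 380) (nat_lit 0) (XT.lf (nat_lit 0) (nat_lit 8301167641) (nat_lit 380) (nat_lit 1047423180) (nat_lit 76) (nat_lit 3538835313) (nat_lit 99) (nat_lit 5) (nat_lit 104) (nat_lit 5) (nat_lit 100) (nat_lit 5) (nat_lit 366) (nat_lit 294) (nat_lit 240)) (XT.lf (nat_lit 0) (nat_lit 854537721) (nat_lit 380) (nat_lit 2028852283) (nat_lit 76) (nat_lit 10239757562) (nat_lit 94) (nat_lit 5) (nat_lit 99) (nat_lit 5) (nat_lit 95) (nat_lit 5) (nat_lit 367) (nat_lit 294) (nat_lit 239))))) (XT.nd (nat_lit 156) (nat_lit 912) (nat_lit 0) (XT.nd (nat_lit 78) (nat_lit 304) (nat_lit 0) (XT.lf (nat_lit 0) (nat_lit 6432175019) (nat_lit 380) (nat_lit 3139301062) (nat_lit 76) (nat_lit 3793150294) (nat_lit 90) (nat_lit 5) (nat_lit 95) (nat_lit 5) (nat_lit 91) (nat_lit 5) (nat_lit 368) (nat_lit 294) (nat_lit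 238)) (XT.lf (nat_lit 0) (nat_lit 9262837706) (nat_lit 304) (nat_lit 2945422179) (nat_lit 380) (nat_lit 1404477551) (nat_lit 86) (nat_lit 5) (nat_lit 90) (nat_lit 5) (nat_lit 91) (nat_lit 5) (nat_lit 369) (nat_lit 294) (nat_lit 237))) (XT.nd (nat_lit 78) (nat_lit 608) (nat_lit 0) (XT.lf (nat_lit 0) (nat_lit 4271897758) (nat_lit 304) (nat_lit 5701791258) (nat_lit 76) (nat_lit 3893279239) (nat_lit 82) (nat_lit 5) (nat_lit 86) (nat_lit 5) (nat_lit 83) (nat_lit 5) (nat_lit 370) (nat_lit 294) (nat_lit 236)) (XT.nd (nat_lit 78) (nat_lit 304) (nat_lit 0) (XT.lf (nat_lit 0) (nat_lit 6949246455) (nat_lit 304) (nat_lit 3184338353) (nat_lit 380) (nat_lit 3994382960) (nat_lit 78) (nat_lit 5) (nat_lit 82) (nat_lit 5) (nat_lit 83) (nat_lit 5) (nat_lit 371) (nat_lit 294) (nat_lit 235)) (XT.lf (nat_lit 0) (nat_lit 1791748375) (nat_lit 304) (nat_lit 8796286840) (nat_lit 76) (nat_lit 3807726796) (nat_lit 74) (nat_lit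 5) (nat_lit 78) (nat_lit 5) (nat_lit 75) (nat_lit 5) (nat_lit 372) (nat_lit 294) (nat_lit 234)))))) (XT.nd (nat_lit 390) (nat_lit 1140) (nat_lit 0) (XT.nd (nat_lit 156) (nat_lit 608) (nat_lit 0) (XT.nd (nat_lit 78) (nat_lit 228) (nat_lit 0) (XT.lf (nat_lit 0) (nat_lit 4095916338) (nat_lit 228) (nat_lit 3639532637) (nat_lit 304) (nat_lit 6934856742) (nat_lit 71) (nat_lit 5) (nat_lit 74) (nat_lit 5) (nat_lit 75) (nat_lit 5) (nat_lit 373) (nat_lit 294) (nat_lit 233)) (XT.lf (nat_lit 0) (nat_lit 2454903117) (nat_lit 228) (nat_lit 11443260661) (nat_lit 304) (nat_lit 1054116398) (nat_lit 68) (nat_lit 5) (nat_lit 71) (nat_lit 5) (nat_lit 72) (nat_lit 5) (nat_lit 374) (nat_lit 294) (nat_lit 232))) (XT.nd (nat_lit 78) (nat_lit 304) (nat_lit 0) (XT.lf (nat_lit 0) (nat_lit 632893458) (nat_lit 228) (nat_lit 4347724147) (nat_lit 304) (nat_lit 10260590951) (nat_lit 64) (nat_lit 5) (nat_lit 67) (nat_lit 5) (nat_lit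 68) (nat_lit 5) (nat_lit 375) (nat_lit 294) (nat_lit 231)) (XT.nd (nat_lit 78) (nat_lit 304) (nat_lit 0) (XT.lf (nat_lit 0) (nat_lit 11230035393) (nat_lit 304) (nat_lit 1331768614) (nat_lit 76) (nat_lit 2975910022) (nat_lit 64) (nat_lit 5) (nat_lit 68) (nat_lit 5) (nat_lit 65) (nat_lit 5) (nat_lit 376) (nat_lit 294) (nat_lit 230)) (XT.lf (nat_lit 0) (nat_lit 1854790243) (nat_lit 304) (nat_lit 3470994449) (nat_lit 76) (nat_lit 10516002849) (nat_lit 60) (nat_lit 5) (nat_lit 64) (nat_lit 5) (nat_lit 61) (nat_lit 5) (nat_lit 377) (nat_lit 294) (nat_lit 229))))) (XT.nd (nat_lit 156) (nat_lit 760) (nat_lit 0) (XT.nd (nat_lit 78) (nat_lit 152) (nat_lit 0) (XT.lf (nat_lit 0) (nat_lit 8180268598) (nat_lit 304) (nat_lit 5805721952) (nat_lit 76) (nat_lit 2167697296) (nat_lit 57) (nat_lit 5) (nat_lit 61) (nat_lit 5) (nat_lit 58) (nat_lit 5) (nat_lit 378) (nat_lit 294) (nat_lit 228)) (XT.lf (nat_lit 0) (nat_lit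 8133719832) (nat_lit 152) (nat_lit 6620341188) (nat_lit 228) (nat_lit 1719720199) (nat_lit 55) (nat_lit 5) (nat_lit 57) (nat_lit 5) (nat_lit 58) (nat_lit 5) (nat_lit 379) (nat_lit 294) (nat_lit 227))) (XT.nd (nat_lit 78) (nat_lit 456) (nat_lit 0) (XT.lf (nat_lit 0) (nat_lit 4690219033) (nat_lit 304) (nat_lit 11087826986) (nat_lit 76) (nat_lit 1024213897) (nat_lit 51) (nat_lit 5) (nat_lit 55) (nat_lit 5) (nat_lit 52) (nat_lit 5) (nat_lit 380) (nat_lit 294) (nat_lit 226)) (XT.nd (nat_lit 78) (nat_lit 304) (nat_lit 0) (XT.lf (nat_lit 0) (nat_lit 3058965489) (nat_lit 152) (nat_lit 8279067510) (nat_lit 228) (nat_lit 5800960327) (nat_lit 49) (nat_lit 5) (nat_lit 51) (nat_lit 5) (nat_lit 52) (nat_lit 5) (nat_lit 381) (nat_lit 294) (nat_lit 225)) (XT.lf (nat_lit 0) (nat_lit 205774863) (nat_lit 228) (nat_lit 509855540) (nat_lit 304) (nat_lit 16769606688) (nat_lit 45) (nat_lit 5) (nat_lit 48) (nat_lit 5) (nat_lit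 49) (nat_lit 5) (nat_lit 382) (nat_lit 294) (nat_lit 224))))))) (XT.nd (nat_lit 41574) (nat_lit 0) (nat_lit 30172) (XT.nd (nat_lit 41184) (nat_lit 0) (nat_lit 44916) (XT.nd (nat_lit 156) (nat_lit 608) (nat_lit 0) (XT.nd (nat_lit 78) (nat_lit 152) (nat_lit 0) (XT.lf (nat_lit 0) (nat_lit 7443116452) (nat_lit 304) (nat_lit 2903967876) (nat_lit 76) (nat_lit 7492138778) (nat_lit 45) (nat_lit 5) (nat_lit 49) (nat_lit 5) (nat_lit 46) (nat_lit 5) (nat_lit 383) (nat_lit 294) (nat_lit 223)) (XT.lf (nat_lit 0) (nat_lit 11970141245) (nat_lit 152) (nat_lit 2433969131) (nat_lit 228) (nat_lit 3799090505) (nat_lit 43) (nat_lit 5) (nat_lit 45) (nat_lit 5) (nat_lit 46) (nat_lit 5) (nat_lit 384) (nat_lit 294) (nat_lit 222))) (XT.nd (nat_lit 78) (nat_lit 304) (nat_lit 0) (XT.lf (nat_lit 0) (nat_lit 3021877259) (nat_lit 304) (nat_lit 9852302044) (nat_lit 76) (nat_lit 5702228590) (nat_lit 39) (nat_lit 5) (nat_lit 43) (nat_lit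 5) (nat_lit 40) (nat_lit 5) (nat_lit 385) (nat_lit 294) (nat_lit 221)) (XT.nd (nat_lit 78) (nat_lit 152) (nat_lit 0) (XT.lf (nat_lit 0) (nat_lit 5196700360) (nat_lit 152) (nat_lit 4843748637) (nat_lit 228) (nat_lit 8918973489) (nat_lit 37) (nat_lit 5) (nat_lit 39) (nat_lit 5) (nat_lit 40) (nat_lit 5) (nat_lit 386) (nat_lit 294) (nat_lit 220)) (XT.lf (nat_lit 0) (nat_lit 1390811214) (nat_lit 152) (nat_lit 15929645441) (nat_lit 228) (nat_lit 2032458530) (nat_lit 35) (nat_lit 5) (nat_lit 37) (nat_lit 5) (nat_lit 38) (nat_lit 5) (nat_lit 387) (nat_lit 294) (nat_lit 219))))) (XT.nd (nat_lit 156) (nat_lit 2432) (nat_lit 0) (XT.nd (nat_lit 78) (nat_lit 684) (nat_lit 0) (XT.lf (nat_lit 0) (nat_lit 3265877136) (nat_lit 532) (nat_lit 4776867) (nat_lit 532) (nat_lit 4776867) (nat_lit 667) (nat_lit 4) (nat_lit 674) (nat_lit 5) (nat_lit 674) (nat_lit 4) (nat_lit 310) (nat_lit 295) (nat_lit 295)) (XT.lf (nat_lit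 0) (nat_lit 4690723305) (nat_lit 684) (nat_lit 807484322) (nat_lit 0) (nat_lit 1075669026) (nat_lit 658) (nat_lit 5) (nat_lit 667) (nat_lit 4) (nat_lit 658) (nat_lit 4) (nat_lit 311) (nat_lit 295) (nat_lit 294))) (XT.nd (nat_lit 78) (nat_lit 1672) (nat_lit 0) (XT.lf (nat_lit 0) (nat_lit 2765260695) (nat_lit 760) (nat_lit 1538989110) (nat_lit 76) (nat_lit 2295656334) (nat_lit 648) (nat_lit 5) (nat_lit 658) (nat_lit 5) (nat_lit 649) (nat_lit 4) (nat_lit 312) (nat_lit 295) (nat_lit 293)) (XT.nd (nat_lit 78) (nat_lit 836) (nat_lit 0) (XT.lf (nat_lit 0) (nat_lit 762770606) (nat_lit 836) (nat_lit 2214443484) (nat_lit 76) (nat_lit 3651756948) (nat_lit 637) (nat_lit 5) (nat_lit 648) (nat_lit 5) (nat_lit 638) (nat_lit 5) (nat_lit 313) (nat_lit 295) (nat_lit 292)) (XT.lf (nat_lit 0) (nat_lit 3817564273) (nat_lit 836) (nat_lit 1506913282) (nat_lit 912) (nat_lit 1336442179) (nat_lit 626) (nat_lit 5) (nat_lit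 637) (nat_lit 5) (nat_lit 638) (nat_lit 5) (nat_lit 314) (nat_lit 295) (nat_lit 291)))))) (XT.nd (nat_lit 390) (nat_lit 9120) (nat_lit 0) (XT.nd (nat_lit 156) (nat_lit 3572) (nat_lit 0) (XT.nd (nat_lit 78) (nat_lit 1064) (nat_lit 0) (XT.lf (nat_lit 0) (nat_lit 3168201369) (nat_lit 988) (nat_lit 3424062790) (nat_lit 76) (nat_lit 103561178) (nat_lit 613) (nat_lit 5) (nat_lit 626) (nat_lit 5) (nat_lit 614) (nat_lit 5) (nat_lit 315) (nat_lit 295) (nat_lit 290)) (XT.lf (nat_lit 0) (nat_lit 940810193) (nat_lit 1064) (nat_lit 3962290639) (nat_lit 76) (nat_lit 1830513753) (nat_lit 599) (nat_lit 5) (nat_lit 613) (nat_lit 5) (nat_lit 600) (nat_lit 5) (nat_lit 316) (nat_lit 295) (nat_lit 289))) (XT.nd (nat_lit 78) (nat_lit 2508) (nat_lit 0) (XT.lf (nat_lit 0) (nat_lit 2316356441) (nat_lit 1064) (nat_lit 3069876737) (nat_lit 1140) (nat_lit 1388098238) (nat_lit 585) (nat_lit 5) (nat_lit 599) (nat_lit 5) (nat_lit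 600) (nat_lit 5) (nat_lit 317) (nat_lit 295) (nat_lit 288)) (XT.nd (nat_lit 78) (nat_lit 1292) (nat_lit 0) (XT.lf (nat_lit 0) (nat_lit 1908533505) (nat_lit 1140) (nat_lit 1093055880) (nat_lit 1216) (nat_lit 3816462530) (nat_lit 569) (nat_lit 5) (nat_lit 584) (nat_lit 5) (nat_lit 585) (nat_lit 5) (nat_lit 318) (nat_lit 295) (nat_lit 287)) (XT.lf (nat_lit 0) (nat_lit 537170608) (nat_lit 1292) (nat_lit 5318006440) (nat_lit 76) (nat_lit 1009622995) (nat_lit 552) (nat_lit 5) (nat_lit 569) (nat_lit 5) (nat_lit 553) (nat_lit 5) (nat_lit 319) (nat_lit 295) (nat_lit 286))))) (XT.nd (nat_lit 234) (nat_lit 4940) (nat_lit 0) (XT.nd (nat_lit 78) (nat_lit 2888) (nat_lit 0) (XT.lf (nat_lit 0) (nat_lit 1215705744) (nat_lit 1292) (nat_lit 3663590702) (nat_lit 1368) (nat_lit 2035023117) (nat_lit 535) (nat_lit 5) (nat_lit 552) (nat_lit 5) (nat_lit 553) (nat_lit 5) (nat_lit 320) (nat_lit 295) (nat_lit 285)) (XT.nd (nat_lit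 78) (nat_lit 1444) (nat_lit 0) (XT.lf (nat_lit 0) (nat_lit 931246501) (nat_lit 1368) (nat_lit 1329216736) (nat_lit 1444) (nat_lit 4706508458) (nat_lit 516) (nat_lit 5) (nat_lit 534) (nat_lit 5) (nat_lit 535) (nat_lit 5) (nat_lit 321) (nat_lit 295) (nat_lit 284)) (XT.lf (nat_lit 0) (nat_lit 685954814) (nat_lit 1444) (nat_lit 5888090556) (nat_lit 1520) (nat_lit 448614408) (nat_lit 497) (nat_lit 5) (nat_lit 516) (nat_lit 5) (nat_lit 517) (nat_lit 5) (nat_lit 322) (nat_lit 295) (nat_lit 283)))) (XT.nd (nat_lit 78) (nat_lit 3344) (nat_lit 0) (XT.lf (nat_lit 0) (nat_lit 464438381) (nat_lit 1520) (nat_lit 3342635931) (nat_lit 1596) (nat_lit 3274059074) (nat_lit 476) (nat_lit 5) (nat_lit 496) (nat_lit 5) (nat_lit 497) (nat_lit 5) (nat_lit 323) (nat_lit 295) (nat_lit 282)) (XT.nd (nat_lit 78) (nat_lit 1672) (nat_lit 0) (XT.lf (nat_lit 0) (nat_lit 290152563) (nat_lit 1596) (nat_lit 655100025) (nat_lit 1672)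 (nat_lit 6197653038) (nat_lit 454) (nat_lit 5) (nat_lit 475) (nat_lit 5) (nat_lit 476) (nat_lit 5) (nat_lit 324) (nat_lit 295) (nat_lit 281)) (XT.lf (nat_lit 0) (nat_lit 134832994) (nat_lit 1672) (nat_lit 5045640879) (nat_lit 1748) (nat_lit 2027003507) (nat_lit 432) (nat_lit 5) (nat_lit 454) (nat_lit 5) (nat_lit 455) (nat_lit 5) (nat_lit 325) (nat_lit 295) (nat_lit 280))))))))
noncomputable def xc37 : XT := (XT.nd (nat_lit 1560) (nat_lit 8816) (nat_lit 0) (XT.nd (nat_lit 780) (nat_lit 7372) (nat_lit 0) (XT.nd (nat_lit 390) (nat_lit 4256) (nat_lit 0) (XT.nd (nat_lit 156) (nat_lit 3040) (nat_lit 0) (XT.nd (nat_lit 78) (nat_lit 0) (nat_lit 0) (XT.lf (nat_lit 0) (nat_lit 13632195) (nat_lit 1748) (nat_lit 2152459131) (nat_lit 1824) (nat_lit 5109111479) (nat_lit 408) (nat_lit 5) (nat_lit 431) (nat_lit 5) (nat_lit 432) (nat_lit 5) (nat_lit 326) (nat_lit 295) (nat_lit 279)) (XT.lf (nat_lit 0) (nat_lit 6389952338)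 (nat_lit 1824) (nat_lit 74409834) (nat_lit 76) (nat_lit 881730815) (nat_lit 408) (nat_lit 5) (nat_lit 432) (nat_lit 5) (nat_lit 409) (nat_lit 5) (nat_lit 327) (nat_lit 295) (nat_lit 278))) (XT.nd (nat_lit 78) (nat_lit 1824) (nat_lit 0) (XT.lf (nat_lit 0) (nat_lit 3221452252) (nat_lit 1216) (nat_lit 148819688) (nat_lit 76) (nat_lit 4049583502) (nat_lit 392) (nat_lit 5) (nat_lit 408) (nat_lit 5) (nat_lit 393) (nat_lit 5) (nat_lit 328) (nat_lit 295) (nat_lit 277)) (XT.nd (nat_lit 78) (nat_lit 912) (nat_lit 0) (XT.lf (nat_lit 0) (nat_lit 7314929891) (nat_lit 912) (nat_lit 128670831) (nat_lit 988) (nat_lit 53506612) (nat_lit 380) (nat_lit 5) (nat_lit 392) (nat_lit 5) (nat_lit 393) (nat_lit 5) (nat_lit 329) (nat_lit 295) (nat_lit 276)) (XT.lf (nat_lit 0) (nat_lit 4116694943) (nat_lit 912) (nat_lit 217730225) (nat_lit 76) (nat_lit 3242624268) (nat_lit 368) (nat_lit 5) (nat_lit 380) (nat_lit 5) (nat_lit 369)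 (nat_lit 5) (nat_lit 330) (nat_lit 295) (nat_lit 275))))) (XT.nd (nat_lit 156) (nat_lit 2508) (nat_lit 0) (XT.nd (nat_lit 78) (nat_lit 836) (nat_lit 0) (XT.lf (nat_lit 0) (nat_lit 680598017) (nat_lit 912) (nat_lit 215138772) (nat_lit 76) (nat_lit 6764819852) (nat_lit 356) (nat_lit 5) (nat_lit 368) (nat_lit 5) (nat_lit 357) (nat_lit 5) (nat_lit 331) (nat_lit 295) (nat_lit 274)) (XT.lf (nat_lit 0) (nat_lit 4857467858) (nat_lit 912) (nat_lit 210420169) (nat_lit 76) (nat_lit 2679091175) (nat_lit 345) (nat_lit 5) (nat_lit 357) (nat_lit 5) (nat_lit 346) (nat_lit 5) (nat_lit 332) (nat_lit 295) (nat_lit 273))) (XT.nd (nat_lit 78) (nat_lit 1596) (nat_lit 0) (XT.lf (nat_lit 0) (nat_lit 1255827248) (nat_lit 912) (nat_lit 179518417) (nat_lit 76) (nat_lit 6401525761) (nat_lit 333) (nat_lit 5) (nat_lit 345) (nat_lit 5) (nat_lit 334) (nat_lit 5) (nat_lit 333) (nat_lit 295) (nat_lit 272)) (XT.nd (nat_lit 78) (nat_lit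 836) (nat_lit 0) (XT.lf (nat_lit 0) (nat_lit 5448286989) (nat_lit 836) (nat_lit 144066954) (nat_lit 76) (nat_lit 2337522586) (nat_lit 323) (nat_lit 5) (nat_lit 334) (nat_lit 5) (nat_lit 324) (nat_lit 5) (nat_lit 334) (nat_lit 295) (nat_lit 271)) (XT.lf (nat_lit 0) (nat_lit 1676711778) (nat_lit 836) (nat_lit 92303413) (nat_lit 76) (nat_lit 6257293262) (nat_lit 312) (nat_lit 5) (nat_lit 323) (nat_lit 5) (nat_lit 313) (nat_lit 5) (nat_lit 335) (nat_lit 295) (nat_lit 270)))))) (XT.nd (nat_lit 390) (nat_lit 3116) (nat_lit 0) (XT.nd (nat_lit 156) (nat_lit 2052) (nat_lit 0) (XT.nd (nat_lit 78) (nat_lit 1520) (nat_lit 0) (XT.lf (nat_lit 0) (nat_lit 5892458023) (nat_lit 760) (nat_lit 36038982) (nat_lit 76) (nat_lit 2197515594) (nat_lit 303) (nat_lit 5) (nat_lit 313) (nat_lit 5) (nat_lit 304) (nat_lit 5) (nat_lit 336) (nat_lit 295) (nat_lit 269)) (XT.lf (nat_lit 0) (nat_lit 29292622) (nat_lit 684) (nat_lit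 1916754806) (nat_lit 760) (nat_lit 6283106050) (nat_lit 283) (nat_lit 5) (nat_lit 292) (nat_lit 5) (nat_lit 293) (nat_lit 5) (nat_lit 337) (nat_lit 295) (nat_lit 268))) (XT.nd (nat_lit 78) (nat_lit 1368) (nat_lit 0) (XT.lf (nat_lit 0) (nat_lit 97218708) (nat_lit 684) (nat_lit 6095490102) (nat_lit 760) (nat_lit 2142977018) (nat_lit 274) (nat_lit 5) (nat_lit 283) (nat_lit 5) (nat_lit 284) (nat_lit 5) (nat_lit 338) (nat_lit 295) (nat_lit 267)) (XT.nd (nat_lit 78) (nat_lit 684) (nat_lit 0) (XT.lf (nat_lit 0) (nat_lit 168298922) (nat_lit 608) (nat_lit 1897436501) (nat_lit 684) (nat_lit 6379990499) (nat_lit 265) (nat_lit 5) (nat_lit 273) (nat_lit 5) (nat_lit 274) (nat_lit 5) (nat_lit 339) (nat_lit 295) (nat_lit 266)) (XT.lf (nat_lit 0) (nat_lit 236746889) (nat_lit 684) (nat_lit 6112815229) (nat_lit 760) (nat_lit 2209692807) (nat_lit 256) (nat_lit 5) (nat_lit 265) (nat_lit 5) (nat_lit 266) (nat_lit 5) (nat_lit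 340) (nat_lit 295) (nat_lit 265))))) (XT.nd (nat_lit 156) (nat_lit 1824) (nat_lit 0) (XT.nd (nat_lit 78) (nat_lit 608) (nat_lit 0) (XT.lf (nat_lit 0) (nat_lit 304616440) (nat_lit 608) (nat_lit 1730569060) (nat_lit 684) (nat_lit 6641225834) (nat_lit 247) (nat_lit 5) (nat_lit 255) (nat_lit 5) (nat_lit 256) (nat_lit 5) (nat_lit 341) (nat_lit 295) (nat_lit 264)) (XT.lf (nat_lit 0) (nat_lit 362881506) (nat_lit 608) (nat_lit 5999418521) (nat_lit 684) (nat_lit 2434820122) (nat_lit 239) (nat_lit 5) (nat_lit 247) (nat_lit 5) (nat_lit 248) (nat_lit 5) (nat_lit 342) (nat_lit 295) (nat_lit 263))) (XT.nd (nat_lit 78) (nat_lit 1216) (nat_lit 0) (XT.lf (nat_lit 0) (nat_lit 418582589) (nat_lit 532) (nat_lit 1434564330) (nat_lit 608) (nat_lit 7068478403) (nat_lit 231) (nat_lit 5) (nat_lit 238) (nat_lit 5) (nat_lit 239) (nat_lit 5) (nat_lit 343) (nat_lit 295) (nat_lit 262)) (XT.nd (nat_lit 78) (nat_lit 608) (nat_lit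 0) (XT.lf (nat_lit 0) (nat_lit 455546261) (nat_lit 608) (nat_lit 5773625772) (nat_lit 684) (nat_lit 2820547685) (nat_lit 223) (nat_lit 5) (nat_lit 231) (nat_lit 5) (nat_lit 232) (nat_lit 5) (nat_lit 344) (nat_lit 295) (nat_lit 261)) (XT.lf (nat_lit 0) (nat_lit 489551110) (nat_lit 532) (nat_lit 1027515349) (nat_lit 608) (nat_lit 7664760520) (nat_lit 215) (nat_lit 5) (nat_lit 222) (nat_lit 5) (nat_lit 223) (nat_lit 5) (nat_lit 345) (nat_lit 295) (nat_lit 260))))))) (XT.nd (nat_lit 780) (nat_lit 4256) (nat_lit 0) (XT.nd (nat_lit 390) (nat_lit 1900) (nat_lit 0) (XT.nd (nat_lit 156) (nat_lit 1520) (nat_lit 0) (XT.nd (nat_lit 78) (nat_lit 608) (nat_lit 0) (XT.lf (nat_lit 0) (nat_lit 493574650) (nat_lit 532) (nat_lit 5453543041) (nat_lit 608) (nat_lit 3370418271) (nat_lit 208) (nat_lit 5) (nat_lit 215) (nat_lit 5) (nat_lit 216) (nat_lit 5) (nat_lit 346) (nat_lit 295) (nat_lit 259)) (XT.lf (nat_lit 0) (nat_lit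 495686251) (nat_lit 532) (nat_lit 527356422) (nat_lit 608) (nat_lit 8434477733) (nat_lit 200) (nat_lit 5) (nat_lit 207) (nat_lit 5) (nat_lit 208) (nat_lit 5) (nat_lit 347) (nat_lit 295) (nat_lit 258))) (XT.nd (nat_lit 78) (nat_lit 988) (nat_lit 0) (XT.lf (nat_lit 0) (nat_lit 454497618) (nat_lit 532) (nat_lit 5057217515) (nat_lit 608) (nat_lit 4089381852) (nat_lit 193) (nat_lit 5) (nat_lit 200) (nat_lit 5) (nat_lit 201) (nat_lit 5) (nat_lit 348) (nat_lit 295) (nat_lit 257)) (XT.nd (nat_lit 78) (nat_lit 456) (nat_lit 0) (XT.lf (nat_lit 0) (nat_lit 366080063) (nat_lit 532) (nat_lit 9335825296) (nat_lit 76) (nat_lit 47344915) (nat_lit 186) (nat_lit 5) (nat_lit 193) (nat_lit 5) (nat_lit 187) (nat_lit 5) (nat_lit 349) (nat_lit 295) (nat_lit 256)) (XT.lf (nat_lit 0) (nat_lit 314315921) (nat_lit 456) (nat_lit 4602801793) (nat_lit 532) (nat_lit 4983860877) (nat_lit 180) (nat_lit 5) (nat_lit 186) (nat_lit 5)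 (nat_lit 187) (nat_lit 5) (nat_lit 350) (nat_lit 295) (nat_lit 255))))) (XT.nd (nat_lit 156) (nat_lit 912) (nat_lit 0) (XT.nd (nat_lit 78) (nat_lit 532) (nat_lit 0) (XT.lf (nat_lit 0) (nat_lit 211255876) (nat_lit 456) (nat_lit 9383035271) (nat_lit 532) (nat_lit 463195386) (nat_lit 174) (nat_lit 5) (nat_lit 180) (nat_lit 5) (nat_lit 181) (nat_lit 5) (nat_lit 351) (nat_lit 295) (nat_lit 254)) (XT.lf (nat_lit 0) (nat_lit 47255073) (nat_lit 456) (nat_lit 4108723020) (nat_lit 532) (nat_lit 6061828415) (nat_lit 167) (nat_lit 5) (nat_lit 173) (nat_lit 5) (nat_lit 174) (nat_lit 5) (nat_lit 352) (nat_lit 295) (nat_lit 253))) (XT.nd (nat_lit 78) (nat_lit 912) (nat_lit 0) (XT.lf (nat_lit 0) (nat_lit 8905988908) (nat_lit 532) (nat_lit 132817857) (nat_lit 76) (nat_lit 1344115337) (nat_lit 167) (nat_lit 5) (nat_lit 174) (nat_lit 5) (nat_lit 168) (nat_lit 5) (nat_lit 353) (nat_lit 295) (nat_lit 252)) (XT.nd (nat_lit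 78) (nat_lit 456) (nat_lit 0) (XT.lf (nat_lit 0) (nat_lit 3221790336) (nat_lit 456) (nat_lit 369587819) (nat_lit 76) (nat_lit 6960832104) (nat_lit 161) (nat_lit 5) (nat_lit 167) (nat_lit 5) (nat_lit 162) (nat_lit 5) (nat_lit 354) (nat_lit 295) (nat_lit 251)) (XT.lf (nat_lit 0) (nat_lit 8047393459) (nat_lit 532) (nat_lit 642013946) (nat_lit 76) (nat_lit 2036871696) (nat_lit 155) (nat_lit 5) (nat_lit 162) (nat_lit 5) (nat_lit 156) (nat_lit 5) (nat_lit 355) (nat_lit 295) (nat_lit 250)))))) (XT.nd (nat_lit 390) (nat_lit 2204) (nat_lit 0) (XT.nd (nat_lit 156) (nat_lit 1216) (nat_lit 0) (XT.nd (nat_lit 78) (nat_lit 380) (nat_lit 0) (XT.lf (nat_lit 0) (nat_lit 2102998518) (nat_lit 456) (nat_lit 968222071) (nat_lit 76) (nat_lit 7833721179) (nat_lit 149) (nat_lit 5) (nat_lit 155) (nat_lit 5) (nat_lit 150) (nat_lit 5) (nat_lit 356) (nat_lit 295) (nat_lit 249)) (XT.lf (nat_lit 0) (nat_lit 7006054082) (nat_lit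 456) (nat_lit 1350085722) (nat_lit 76) (nat_lit 2732203828) (nat_lit 144) (nat_lit 5) (nat_lit 150) (nat_lit 5) (nat_lit 145) (nat_lit 5) (nat_lit 357) (nat_lit 295) (nat_lit 248))) (XT.nd (nat_lit 78) (nat_lit 760) (nat_lit 0) (XT.lf (nat_lit 0) (nat_lit 787064134) (nat_lit 456) (nat_lit 1781618208) (nat_lit 76) (nat_lit 8708112452) (nat_lit 138) (nat_lit 5) (nat_lit 144) (nat_lit 5) (nat_lit 139) (nat_lit 5) (nat_lit 358) (nat_lit 295) (nat_lit 247)) (XT.nd (nat_lit 78) (nat_lit 380) (nat_lit 0) (XT.lf (nat_lit 0) (nat_lit 5769045311) (nat_lit 456) (nat_lit 2290787747) (nat_lit 76) (nat_lit 3410101056) (nat_lit 133) (nat_lit 5) (nat_lit 139) (nat_lit 5) (nat_lit 134) (nat_lit 5) (nat_lit 359) (nat_lit 295) (nat_lit 246)) (XT.lf (nat_lit 0) (nat_lit 8818584581) (nat_lit 380) (nat_lit 2099925598) (nat_lit 456) (nat_lit 750011016) (nat_lit 128) (nat_lit 5) (nat_lit 133) (nat_lit 5) (nat_lit 134) (nat_lit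 5) (nat_lit 360) (nat_lit 295) (nat_lit 245))))) (XT.nd (nat_lit 234) (nat_lit 988) (nat_lit 0) (XT.nd (nat_lit 78) (nat_lit 760) (nat_lit 0) (XT.lf (nat_lit 0) (nat_lit 4321452833) (nat_lit 456) (nat_lit 3500996829) (nat_lit 76) (nat_lit 4049482774) (nat_lit 122) (nat_lit 5) (nat_lit 128) (nat_lit 5) (nat_lit 123) (nat_lit 5) (nat_lit 361) (nat_lit 295) (nat_lit 244)) (XT.nd (nat_lit 78) (nat_lit 456) (nat_lit 0) (XT.lf (nat_lit 0) (nat_lit 7867419571) (nat_lit 304) (nat_lit 1685462460) (nat_lit 380) (nat_lit 2528117606) (nat_lit 118) (nat_lit 5) (nat_lit 122) (nat_lit 5) (nat_lit 123) (nat_lit 5) (nat_lit 362) (nat_lit 295) (nat_lit 243)) (XT.lf (nat_lit 0) (nat_lit 2646212280) (nat_lit 456) (nat_lit 5021094980) (nat_lit 76) (nat_lit 4627980803) (nat_lit 112) (nat_lit 5) (nat_lit 118) (nat_lit 5) (nat_lit 113) (nat_lit 5) (nat_lit 363) (nat_lit 295) (nat_lit 242)))) (XT.nd (nat_lit 78) (nat_lit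 684) (nat_lit 0) (XT.lf (nat_lit 0) (nat_lit 6605519160) (nat_lit 304) (nat_lit 1354258091) (nat_lit 380) (nat_lit 4555538638) (nat_lit 108) (nat_lit 5) (nat_lit 112) (nat_lit 5) (nat_lit 113) (nat_lit 5) (nat_lit 364) (nat_lit 295) (nat_lit 241)) (XT.nd (nat_lit 78) (nat_lit 304) (nat_lit 0) (XT.lf (nat_lit 0) (nat_lit 723927673) (nat_lit 380) (nat_lit 6895388685) (nat_lit 76) (nat_lit 5121706259) (nat_lit 103) (nat_lit 5) (nat_lit 108) (nat_lit 5) (nat_lit 104) (nat_lit 5) (nat_lit 365) (nat_lit 295) (nat_lit 240)) (XT.lf (nat_lit 0) (nat_lit 4987351243) (nat_lit 304) (nat_lit 1131679935) (nat_lit 380) (nat_lit 6853495324) (nat_lit 99) (nat_lit 5) (nat_lit 103) (nat_lit 5) (nat_lit 104) (nat_lit 5) (nat_lit 366) (nat_lit 295) (nat_lit 239))))))))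
noncomputable def xc38 : XT := (XT.nd (nat_lit 1560) (nat_lit 152) (nat_lit 0) (XT.nd (nat_lit 780) (nat_lit 1900) (nat_lit 0) (XT.nd (nat_lit 390) (nat_lit 1368) (nat_lit 0) (XT.nd (nat_lit 156) (nat_lit 608) (nat_lit 0) (XT.nd (nat_lit 78) (nat_lit 380) (nat_lit 0) (XT.lf (nat_lit 0) (nat_lit 4027819793) (nat_lit 304) (nat_lit 7695389636) (nat_lit 380) (nat_lit 1486832417) (nat_lit 95) (nat_lit 5) (nat_lit 99) (nat_lit 5) (nat_lit 100) (nat_lit 5) (nat_lit 367) (nat_lit 295) (nat_lit 238)) (XT.lf (nat_lit 0) (nat_lit 2962817844) (nat_lit 304) (nat_lit 1045043546) (nat_lit 380) (nat_lit 9445906259) (nat_lit 90) (nat_lit 5) (nat_lit 94) (nat_lit 5) (nat_lit 95) (nat_lit 5) (nat_lit 368) (nat_lit 295) (nat_lit 237))) (XT.nd (nat_lit 78) (nat_lit 304) (nat_lit 0) (XT.lf (nat_lit 0) (nat_lit 1771370993) (nat_lit 304) (nat_lit 7927429531) (nat_lit 380) (nat_lit 4004786007) (nat_lit 86) (nat_lit 5) (nat_lit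 90) (nat_lit 5) (nat_lit 91) (nat_lit 5) (nat_lit 369) (nat_lit 295) (nat_lit 236)) (XT.nd (nat_lit 78) (nat_lit 0) (nat_lit 0) (XT.lf (nat_lit 0) (nat_lit 476730476) (nat_lit 228) (nat_lit 1123898478) (nat_lit 304) (nat_lit 12359632000) (nat_lit 82) (nat_lit 5) (nat_lit 85) (nat_lit 5) (nat_lit 86) (nat_lit 5) (nat_lit 370) (nat_lit 295) (nat_lit 235)) (XT.lf (nat_lit 0) (nat_lit 7380967320) (nat_lit 304) (nat_lit 963981281) (nat_lit 76) (nat_lit 5877943372) (nat_lit 82) (nat_lit 5) (nat_lit 86) (nat_lit 5) (nat_lit 83) (nat_lit 5) (nat_lit 371) (nat_lit 295) (nat_lit 234))))) (XT.nd (nat_lit 156) (nat_lit 760) (nat_lit 0) (XT.nd (nat_lit 78) (nat_lit 304) (nat_lit 0) (XT.lf (nat_lit 0) (nat_lit 11986947081) (nat_lit 304) (nat_lit 1376089723) (nat_lit 380) (nat_lit 1129807636) (nat_lit 78) (nat_lit 5) (nat_lit 82) (nat_lit 5) (nat_lit 83) (nat_lit 5) (nat_lit 372) (nat_lit 295) (nat_lit 233)) (XT.lf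 (nat_lit 0) (nat_lit 4748411958) (nat_lit 304) (nat_lit 4224445122) (nat_lit 76) (nat_lit 5796287938) (nat_lit 74) (nat_lit 5) (nat_lit 78) (nat_lit 5) (nat_lit 75) (nat_lit 5) (nat_lit 373) (nat_lit 295) (nat_lit 232))) (XT.nd (nat_lit 78) (nat_lit 532) (nat_lit 0) (XT.lf (nat_lit 0) (nat_lit 8976070172) (nat_lit 228) (nat_lit 1840689989) (nat_lit 304) (nat_lit 4236250716) (nat_lit 71) (nat_lit 5) (nat_lit 74) (nat_lit 5) (nat_lit 75) (nat_lit 5) (nat_lit 374) (nat_lit 295) (nat_lit 231)) (XT.nd (nat_lit 78) (nat_lit 228) (nat_lit 0) (XT.lf (nat_lit 0) (nat_lit 1756464790) (nat_lit 304) (nat_lit 8102887301) (nat_lit 76) (nat_lit 5484679302) (nat_lit 67) (nat_lit 5) (nat_lit 71) (nat_lit 5) (nat_lit 68) (nat_lit 5) (nat_lit 375) (nat_lit 295) (nat_lit 230)) (XT.lf (nat_lit 0) (nat_lit 5336978327) (nat_lit 228) (nat_lit 2569073663) (nat_lit 304) (nat_lit 7736485246) (nat_lit 64) (nat_lit 5) (nat_lit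 67) (nat_lit 5) (nat_lit 68) (nat_lit 5) (nat_lit 376) (nat_lit 295) (nat_lit 229)))))) (XT.nd (nat_lit 390) (nat_lit 912) (nat_lit 0) (XT.nd (nat_lit 156) (nat_lit 456) (nat_lit 0) (XT.nd (nat_lit 78) (nat_lit 304) (nat_lit 0) (XT.lf (nat_lit 0) (nat_lit 3261943391) (nat_lit 228) (nat_lit 11033366798) (nat_lit 304) (nat_lit 1653591808) (nat_lit 61) (nat_lit 5) (nat_lit 64) (nat_lit 5) (nat_lit 65) (nat_lit 5) (nat_lit 377) (nat_lit 295) (nat_lit 228)) (XT.lf (nat_lit 0) (nat_lit 990180127) (nat_lit 228) (nat_lit 3602311595) (nat_lit 304) (nat_lit 11670550418) (nat_lit 57) (nat_lit 5) (nat_lit 60) (nat_lit 5) (nat_lit 61) (nat_lit 5) (nat_lit 378) (nat_lit 295) (nat_lit 227))) (XT.nd (nat_lit 78) (nat_lit 456) (nat_lit 0) (XT.lf (nat_lit 0) (nat_lit 11064474111) (nat_lit 304) (nat_lit 1460570973) (nat_lit 76) (nat_lit 4060130001) (nat_lit 57) (nat_lit 5) (nat_lit 61) (nat_lit 5) (nat_lit 58) (nat_lit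 5) (nat_lit 379) (nat_lit 295) (nat_lit 226)) (XT.nd (nat_lit 78) (nat_lit 228) (nat_lit 0) (XT.lf (nat_lit 0) (nat_lit 860215494) (nat_lit 228) (nat_lit 4097767104) (nat_lit 76) (nat_lit 11957745430) (nat_lit 54) (nat_lit 5) (nat_lit 57) (nat_lit 5) (nat_lit 55) (nat_lit 5) (nat_lit 380) (nat_lit 295) (nat_lit 225)) (XT.lf (nat_lit 0) (nat_lit 7403867838) (nat_lit 304) (nat_lit 6972619204) (nat_lit 76) (nat_lit 2878060746) (nat_lit 51) (nat_lit 5) (nat_lit 55) (nat_lit 5) (nat_lit 52) (nat_lit 5) (nat_lit 381) (nat_lit 295) (nat_lit 224))))) (XT.nd (nat_lit 156) (nat_lit 456) (nat_lit 0) (XT.nd (nat_lit 78) (nat_lit 304) (nat_lit 0) (XT.lf (nat_lit 0) (nat_lit 7526416083) (nat_lit 152) (nat_lit 6678169902) (nat_lit 228) (nat_lit 3397737172) (nat_lit 49) (nat_lit 5) (nat_lit 51) (nat_lit 5) (nat_lit 52) (nat_lit 5) (nat_lit 382) (nat_lit 295) (nat_lit 223)) (XT.lf (nat_lit 0) (nat_lit 3243177297)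 (nat_lit 304) (nat_lit 13417895327) (nat_lit 76) (nat_lit 1298303305) (nat_lit 45) (nat_lit 5) (nat_lit 49) (nat_lit 5) (nat_lit 46) (nat_lit 5) (nat_lit 383) (nat_lit 295) (nat_lit 222))) (XT.nd (nat_lit 78) (nat_lit 304) (nat_lit 0) (XT.lf (nat_lit 0) (nat_lit 1274700074) (nat_lit 152) (nat_lit 8836381809) (nat_lit 228) (nat_lit 8214136404) (nat_lit 43) (nat_lit 5) (nat_lit 45) (nat_lit 5) (nat_lit 46) (nat_lit 5) (nat_lit 384) (nat_lit 295) (nat_lit 221)) (XT.nd (nat_lit 78) (nat_lit 304) (nat_lit 0) (XT.lf (nat_lit 0) (nat_lit 16509378451) (nat_lit 152) (nat_lit 719428189) (nat_lit 228) (nat_lit 1472359126) (nat_lit 43) (nat_lit 5) (nat_lit 45) (nat_lit 5) (nat_lit 46) (nat_lit 5) (nat_lit 385) (nat_lit 295) (nat_lit 220)) (XT.lf (nat_lit 0) (nat_lit 5489525417) (nat_lit 304) (nat_lit 5967768106) (nat_lit 76) (nat_lit 7628600559) (nat_lit 39) (nat_lit 5) (nat_lit 43) (nat_lit 5) (nat_lit 40) (nat_lit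 5) (nat_lit 386) (nat_lit 295) (nat_lit 219))))))) (XT.nd (nat_lit 41418) (nat_lit 0) (nat_lit 28120) (XT.nd (nat_lit 41028) (nat_lit 0) (nat_lit 42712) (XT.nd (nat_lit 40794) (nat_lit 0) (nat_lit 47120) (XT.nd (nat_lit 40716) (nat_lit 0) (nat_lit 48412) (XT.lf (nat_lit 0) (nat_lit 9464887165) (nat_lit 152) (nat_lit 3211234057) (nat_lit 228) (nat_lit 6805136305) (nat_lit 37) (nat_lit 5) (nat_lit 39) (nat_lit 5) (nat_lit 40) (nat_lit 5) (nat_lit 387) (nat_lit 295) (nat_lit 218)) (XT.lf (nat_lit 0) (nat_lit 448572652) (nat_lit 532) (nat_lit 2358636843) (nat_lit 0) (nat_lit 448572652) (nat_lit 674) (nat_lit 5) (nat_lit 681) (nat_lit 4) (nat_lit 674) (nat_lit 4) (nat_lit 308) (nat_lit 296) (nat_lit 296))) (XT.nd (nat_lit 78) (nat_lit 760) (nat_lit 0) (XT.lf (nat_lit 0) (nat_lit 820049038) (nat_lit 532) (nat_lit 4754154463) (nat_lit 532) (nat_lit 956178438) (nat_lit 667) (nat_lit 4) (nat_lit 674) (nat_lit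 5) (nat_lit 674) (nat_lit 4) (nat_lit 309) (nat_lit 296) (nat_lit 295)) (XT.nd (nat_lit 78) (nat_lit 684) (nat_lit 0) (XT.lf (nat_lit 0) (nat_lit 3656343934) (nat_lit 608) (nat_lit 99516642) (nat_lit 76) (nat_lit 2796206426) (nat_lit 666) (nat_lit 5) (nat_lit 674) (nat_lit 5) (nat_lit 667) (nat_lit 4) (nat_lit 310) (nat_lit 296) (nat_lit 294)) (XT.lf (nat_lit 0) (nat_lit 1669466248) (nat_lit 684) (nat_lit 950707737) (nat_lit 76) (nat_lit 3956494036) (nat_lit 657) (nat_lit 5) (nat_lit 666) (nat_lit 5) (nat_lit 658) (nat_lit 5) (nat_lit 311) (nat_lit 296) (nat_lit 293))))) (XT.nd (nat_lit 156) (nat_lit 2888) (nat_lit 0) (XT.nd (nat_lit 78) (nat_lit 836) (nat_lit 0) (XT.lf (nat_lit 0) (nat_lit 4856467644) (nat_lit 684) (nat_lit 1348736469) (nat_lit 760) (nat_lit 399054028) (nat_lit 648) (nat_lit 5) (nat_lit 657) (nat_lit 5) (nat_lit 658) (nat_lit 5) (nat_lit 312) (nat_lit 296) (nat_lit 292)) (XT.lf (nat_lit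 0) (nat_lit 4065767558) (nat_lit 836) (nat_lit 2500987175) (nat_lit 76) (nat_lit 67916314) (nat_lit 637) (nat_lit 5) (nat_lit 648) (nat_lit 5) (nat_lit 638) (nat_lit 5) (nat_lit 313) (nat_lit 296) (nat_lit 291))) (XT.nd (nat_lit 78) (nat_lit 1976) (nat_lit 0) (XT.lf (nat_lit 0) (nat_lit 1857192026) (nat_lit 912) (nat_lit 3209337801) (nat_lit 76) (nat_lit 1601435522) (nat_lit 625) (nat_lit 5) (nat_lit 637) (nat_lit 5) (nat_lit 626) (nat_lit 5) (nat_lit 314) (nat_lit 296) (nat_lit 290)) (XT.nd (nat_lit 78) (nat_lit 1064) (nat_lit 0) (XT.lf (nat_lit 0) (nat_lit 2836572409) (nat_lit 912) (nat_lit 3430390967) (nat_lit 988) (nat_lit 437321039) (nat_lit 613) (nat_lit 5) (nat_lit 625) (nat_lit 5) (nat_lit 626) (nat_lit 5) (nat_lit 315) (nat_lit 296) (nat_lit 289)) (XT.lf (nat_lit 0) (nat_lit 2256686880) (nat_lit 988) (nat_lit 1646565512) (nat_lit 1064) (nat_lit 2840204781) (nat_lit 599) (nat_lit 5) (nat_lit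 612) (nat_lit 5) (nat_lit 613) (nat_lit 5) (nat_lit 316) (nat_lit 296) (nat_lit 288)))))) (XT.nd (nat_lit 390) (nat_lit 8284) (nat_lit 0) (XT.nd (nat_lit 156) (nat_lit 4028) (nat_lit 0) (XT.nd (nat_lit 78) (nat_lit 1140) (nat_lit 0) (XT.lf (nat_lit 0) (nat_lit 1458251042) (nat_lit 1140) (nat_lit 5056781760) (nat_lit 76) (nat_lit 270689020) (nat_lit 584) (nat_lit 5) (nat_lit 599) (nat_lit 5) (nat_lit 585) (nat_lit 5) (nat_lit 317) (nat_lit 296) (nat_lit 287)) (XT.lf (nat_lit 0) (nat_lit 1235576531) (nat_lit 1140) (nat_lit 4520304546) (nat_lit 1216) (nat_lit 1074893327) (nat_lit 569) (nat_lit 5) (nat_lit 584) (nat_lit 5) (nat_lit 585) (nat_lit 5) (nat_lit 318) (nat_lit 296) (nat_lit 286))) (XT.nd (nat_lit 78) (nat_lit 2736) (nat_lit 0) (XT.lf (nat_lit 0) (nat_lit 783652088) (nat_lit 1216) (nat_lit 2379188496) (nat_lit 1292) (nat_lit 3715958391) (nat_lit 552) (nat_lit 5) (nat_lit 568) (nat_lit 5) (nat_lit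 569) (nat_lit 5) (nat_lit 319) (nat_lit 296) (nat_lit 285)) (XT.nd (nat_lit 78) (nat_lit 1368) (nat_lit 0) (XT.lf (nat_lit 0) (nat_lit 382384179) (nat_lit 1292) (nat_lit 99302483) (nat_lit 1368) (nat_lit 6448336887) (nat_lit 534) (nat_lit 5) (nat_lit 551) (nat_lit 5) (nat_lit 552) (nat_lit 5) (nat_lit 320) (nat_lit 296) (nat_lit 284)) (XT.lf (nat_lit 0) (nat_lit 604181) (nat_lit 1368) (nat_lit 4677707334) (nat_lit 1444) (nat_lit 2305574383) (nat_lit 516) (nat_lit 5) (nat_lit 534) (nat_lit 5) (nat_lit 535) (nat_lit 5) (nat_lit 321) (nat_lit 296) (nat_lit 283))))) (XT.nd (nat_lit 234) (nat_lit 5168) (nat_lit 0) (XT.nd (nat_lit 78) (nat_lit 3040) (nat_lit 0) (XT.lf (nat_lit 0) (nat_lit 1850353606) (nat_lit 1444) (nat_lit 332566506) (nat_lit 76) (nat_lit 4857957115) (nat_lit 515) (nat_lit 5) (nat_lit 534) (nat_lit 5) (nat_lit 516) (nat_lit 5) (nat_lit 322) (nat_lit 296) (nat_lit 282)) (XT.nd (nat_lit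 78) (nat_lit 1596) (nat_lit 0) (XT.lf (nat_lit 0) (nat_lit 6017932301) (nat_lit 1520) (nat_lit 628796657) (nat_lit 76) (nat_lit 454236830) (nat_lit 496) (nat_lit 5) (nat_lit 516) (nat_lit 5) (nat_lit 497) (nat_lit 5) (nat_lit 323) (nat_lit 296) (nat_lit 281)) (XT.lf (nat_lit 0) (nat_lit 3039689660) (nat_lit 1596) (nat_lit 906494407) (nat_lit 76) (nat_lit 3217653804) (nat_lit 475) (nat_lit 5) (nat_lit 496) (nat_lit 5) (nat_lit 476) (nat_lit 5) (nat_lit 324) (nat_lit 296) (nat_lit 280)))) (XT.nd (nat_lit 78) (nat_lit 3572) (nat_lit 0) (XT.lf (nat_lit 0) (nat_lit 6090157065) (nat_lit 1596) (nat_lit 1103328272) (nat_lit 1672) (nat_lit 36579304) (nat_lit 454) (nat_lit 5) (nat_lit 475) (nat_lit 5) (nat_lit 476) (nat_lit 5) (nat_lit 325) (nat_lit 296) (nat_lit 279)) (XT.nd (nat_lit 78) (nat_lit 1824) (nat_lit 0) (XT.lf (nat_lit 0) (nat_lit 4056241766) (nat_lit 1748) (nat_lit 1362235679) (nat_lit 76) (nat_lit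 1880562765) (nat_lit 431) (nat_lit 5) (nat_lit 454) (nat_lit 5) (nat_lit 432) (nat_lit 5) (nat_lit 326) (nat_lit 296) (nat_lit 278)) (XT.lf (nat_lit 0) (nat_lit 824961240) (nat_lit 1824) (nat_lit 1549630926) (nat_lit 76) (nat_lit 4996709530) (nat_lit 407) (nat_lit 5) (nat_lit 431) (nat_lit 5) (nat_lit 408) (nat_lit 5) (nat_lit 327) (nat_lit 296) (nat_lit 277))))))))
noncomputable def xc39 : XT := (XT.nd (nat_lit 1638) (nat_lit 8360) (nat_lit 0) (XT.nd (nat_lit 780) (nat_lit 6992) (nat_lit 0) (XT.nd (nat_lit 390) (nat_lit 4028) (nat_lit 0) (XT.nd (nat_lit 156) (nat_lit 2584) (nat_lit 0) (XT.nd (nat_lit 78) (nat_lit 988) (nat_lit 0) (XT.lf (nat_lit 0) (nat_lit 4907754667) (nat_lit 1216) (nat_lit 1717238653) (nat_lit 76) (nat_lit 821615176) (nat_lit 392) (nat_lit 5) (nat_lit 408) (nat_lit 5) (nat_lit 393) (nat_lit 5) (nat_lit 328) (nat_lit 296) (nat_lit 276)) (XT.lf (nat_lit 0) (nat_lit 1518423454) (nat_lit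 988) (nat_lit 1866058763) (nat_lit 76) (nat_lit 4140522927) (nat_lit 379) (nat_lit 5) (nat_lit 392) (nat_lit 5) (nat_lit 380) (nat_lit 5) (nat_lit 329) (nat_lit 296) (nat_lit 275))) (XT.nd (nat_lit 78) (nat_lit 1748) (nat_lit 0) (XT.lf (nat_lit 0) (nat_lit 5600724402) (nat_lit 912) (nat_lit 1988724605) (nat_lit 76) (nat_lit 17256812) (nat_lit 368) (nat_lit 5) (nat_lit 380) (nat_lit 5) (nat_lit 369) (nat_lit 5) (nat_lit 330) (nat_lit 296) (nat_lit 274)) (XT.nd (nat_lit 78) (nat_lit 836) (nat_lit 0) (XT.lf (nat_lit 0) (nat_lit 2050115864) (nat_lit 912) (nat_lit 2106210658) (nat_lit 76) (nat_lit 3535033770) (nat_lit 356) (nat_lit 5) (nat_lit 368) (nat_lit 5) (nat_lit 357) (nat_lit 5) (nat_lit 331) (nat_lit 296) (nat_lit 273)) (XT.lf (nat_lit 0) (nat_lit 5581976401) (nat_lit 836) (nat_lit 562098446) (nat_lit 912) (nat_lit 1635386131) (nat_lit 345) (nat_lit 5) (nat_lit 356) (nat_lit 5) (nat_lit 357) (nat_lit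 5) (nat_lit 332) (nat_lit 296) (nat_lit 272))))) (XT.nd (nat_lit 156) (nat_lit 2356) (nat_lit 0) (XT.nd (nat_lit 78) (nat_lit 760) (nat_lit 0) (XT.lf (nat_lit 0) (nat_lit 2424640381) (nat_lit 912) (nat_lit 2287330407) (nat_lit 76) (nat_lit 3158615791) (nat_lit 333) (nat_lit 5) (nat_lit 345) (nat_lit 5) (nat_lit 334) (nat_lit 5) (nat_lit 333) (nat_lit 296) (nat_lit 271)) (XT.lf (nat_lit 0) (nat_lit 5609408945) (nat_lit 760) (nat_lit 927541307) (nat_lit 836) (nat_lit 1428262825) (nat_lit 323) (nat_lit 5) (nat_lit 333) (nat_lit 5) (nat_lit 334) (nat_lit 5) (nat_lit 334) (nat_lit 296) (nat_lit 270))) (XT.nd (nat_lit 78) (nat_lit 1520) (nat_lit 0) (XT.lf (nat_lit 0) (nat_lit 2645385728) (nat_lit 836) (nat_lit 2426801102) (nat_lit 76) (nat_lit 2990755668) (nat_lit 312) (nat_lit 5) (nat_lit 323) (nat_lit 5) (nat_lit 313) (nat_lit 5) (nat_lit 335) (nat_lit 296) (nat_lit 269)) (XT.nd (nat_lit 78) (nat_lit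 836) (nat_lit 0) (XT.lf (nat_lit 0) (nat_lit 5683103444) (nat_lit 684) (nat_lit 1099140956) (nat_lit 760) (nat_lit 1381996998) (nat_lit 303) (nat_lit 5) (nat_lit 312) (nat_lit 5) (nat_lit 313) (nat_lit 5) (nat_lit 336) (nat_lit 296) (nat_lit 268)) (XT.lf (nat_lit 0) (nat_lit 2714531846) (nat_lit 836) (nat_lit 2542302357) (nat_lit 76) (nat_lit 3011891777) (nat_lit 292) (nat_lit 5) (nat_lit 303) (nat_lit 5) (nat_lit 293) (nat_lit 5) (nat_lit 337) (nat_lit 296) (nat_lit 267)))))) (XT.nd (nat_lit 390) (nat_lit 3572) (nat_lit 0) (XT.nd (nat_lit 156) (nat_lit 1976) (nat_lit 0) (XT.nd (nat_lit 78) (nat_lit 760) (nat_lit 0) (XT.lf (nat_lit 0) (nat_lit 5785429911) (nat_lit 684) (nat_lit 1096333483) (nat_lit 760) (nat_lit 1495099244) (nat_lit 283) (nat_lit 5) (nat_lit 292) (nat_lit 5) (nat_lit 293) (nat_lit 5) (nat_lit 338) (nat_lit 296) (nat_lit 266)) (XT.lf (nat_lit 0) (nat_lit 2633044870) (nat_lit 760) (nat_lit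 2651973537) (nat_lit 76) (nat_lit 3203256576) (nat_lit 273) (nat_lit 5) (nat_lit 283) (nat_lit 5) (nat_lit 274) (nat_lit 5) (nat_lit 339) (nat_lit 296) (nat_lit 265))) (XT.nd (nat_lit 78) (nat_lit 1368) (nat_lit 0) (XT.lf (nat_lit 0) (nat_lit 5898252952) (nat_lit 608) (nat_lit 937850147) (nat_lit 684) (nat_lit 1767330775) (nat_lit 265) (nat_lit 5) (nat_lit 273) (nat_lit 5) (nat_lit 274) (nat_lit 5) (nat_lit 340) (nat_lit 296) (nat_lit 264)) (XT.nd (nat_lit 78) (nat_lit 608) (nat_lit 0) (XT.lf (nat_lit 0) (nat_lit 2400662462) (nat_lit 760) (nat_lit 2774584449) (nat_lit 76) (nat_lit 3546721419) (nat_lit 255) (nat_lit 5) (nat_lit 265) (nat_lit 5) (nat_lit 256) (nat_lit 5) (nat_lit 341) (nat_lit 296) (nat_lit 263)) (XT.lf (nat_lit 0) (nat_lit 6002757156) (nat_lit 608) (nat_lit 641873228) (nat_lit 684) (nat_lit 2199723110) (nat_lit 247) (nat_lit 5) (nat_lit 255) (nat_lit 5) (nat_lit 256) (nat_lit 5) (nat_lit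 342) (nat_lit 296) (nat_lit 262))))) (XT.nd (nat_lit 234) (nat_lit 1672) (nat_lit 0) (XT.nd (nat_lit 78) (nat_lit 1216) (nat_lit 0) (XT.lf (nat_lit 0) (nat_lit 2015869170) (nat_lit 684) (nat_lit 2929714970) (nat_lit 76) (nat_lit 4024642598) (nat_lit 238) (nat_lit 5) (nat_lit 247) (nat_lit 5) (nat_lit 239) (nat_lit 5) (nat_lit 343) (nat_lit 296) (nat_lit 261)) (XT.nd (nat_lit 78) (nat_lit 684) (nat_lit 0) (XT.lf (nat_lit 0) (nat_lit 6079262923) (nat_lit 532) (nat_lit 226191316) (nat_lit 608) (nat_lit 2794608095) (nat_lit 231) (nat_lit 5) (nat_lit 238) (nat_lit 5) (nat_lit 239) (nat_lit 5) (nat_lit 344) (nat_lit 296) (nat_lit 260)) (XT.lf (nat_lit 0) (nat_lit 1475861446) (nat_lit 684) (nat_lit 3137945275) (nat_lit 76) (nat_lit 4619707395) (nat_lit 222) (nat_lit 5) (nat_lit 231) (nat_lit 5) (nat_lit 223) (nat_lit 5) (nat_lit 345) (nat_lit 296) (nat_lit 259)))) (XT.nd (nat_lit 78) (nat_lit 1140) (nat_lit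 0) (XT.lf (nat_lit 0) (nat_lit 5817279941) (nat_lit 608) (nat_lit 3265907569) (nat_lit 76) (nat_lit 287819703) (nat_lit 215) (nat_lit 5) (nat_lit 223) (nat_lit 5) (nat_lit 216) (nat_lit 5) (nat_lit 346) (nat_lit 296) (nat_lit 258)) (XT.nd (nat_lit 78) (nat_lit 532) (nat_lit 0) (XT.lf (nat_lit 0) (nat_lit 776501832) (nat_lit 608) (nat_lit 3421058361) (nat_lit 76) (nat_lit 5314778894) (nat_lit 207) (nat_lit 5) (nat_lit 215) (nat_lit 5) (nat_lit 208) (nat_lit 5) (nat_lit 347) (nat_lit 296) (nat_lit 257)) (XT.lf (nat_lit 0) (nat_lit 5175696350) (nat_lit 608) (nat_lit 3599583031) (nat_lit 76) (nat_lit 882436432) (nat_lit 200) (nat_lit 5) (nat_lit 208) (nat_lit 5) (nat_lit 201) (nat_lit 5) (nat_lit 348) (nat_lit 296) (nat_lit 256))))))) (XT.nd (nat_lit 780) (nat_lit 3724) (nat_lit 0) (XT.nd (nat_lit 390) (nat_lit 2128) (nat_lit 0) (XT.nd (nat_lit 156) (nat_lit 1444) (nat_lit 0) (XT.nd (nat_lit 78) (nat_lit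 532) (nat_lit 0) (XT.lf (nat_lit 0) (nat_lit 6004411238) (nat_lit 532) (nat_lit 3713929729) (nat_lit 608) (nat_lit 88904258) (nat_lit 193) (nat_lit 5) (nat_lit 200) (nat_lit 5) (nat_lit 201) (nat_lit 5) (nat_lit 349) (nat_lit 296) (nat_lit 255)) (XT.lf (nat_lit 0) (nat_lit 4373175102) (nat_lit 532) (nat_lit 4044319399) (nat_lit 76) (nat_lit 1543302859) (nat_lit 186) (nat_lit 5) (nat_lit 193) (nat_lit 5) (nat_lit 187) (nat_lit 5) (nat_lit 350) (nat_lit 296) (nat_lit 254))) (XT.nd (nat_lit 78) (nat_lit 988) (nat_lit 0) (XT.lf (nat_lit 0) (nat_lit 5804933778) (nat_lit 456) (nat_lit 3175005987) (nat_lit 532) (nat_lit 1138783211) (nat_lit 180) (nat_lit 5) (nat_lit 186) (nat_lit 5) (nat_lit 187) (nat_lit 5) (nat_lit 351) (nat_lit 296) (nat_lit 253)) (XT.nd (nat_lit 78) (nat_lit 456) (nat_lit 0) (XT.lf (nat_lit 0) (nat_lit 3402170490) (nat_lit 532) (nat_lit 4625858637) (nat_lit 76) (nat_lit 2252852199) (nat_lit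 173) (nat_lit 5) (nat_lit 180) (nat_lit 5) (nat_lit 174) (nat_lit 5) (nat_lit 352) (nat_lit 296) (nat_lit 252)) (XT.lf (nat_lit 0) (nat_lit 5471897691) (nat_lit 456) (nat_lit 2604169559) (nat_lit 532) (nat_lit 2371460730) (nat_lit 167) (nat_lit 5) (nat_lit 173) (nat_lit 5) (nat_lit 174) (nat_lit 5) (nat_lit 353) (nat_lit 296) (nat_lit 251))))) (XT.nd (nat_lit 156) (nat_lit 1216) (nat_lit 0) (XT.nd (nat_lit 78) (nat_lit 456) (nat_lit 0) (XT.lf (nat_lit 0) (nat_lit 2253562038) (nat_lit 456) (nat_lit 5371983595) (nat_lit 76) (nat_lit 2993103672) (nat_lit 161) (nat_lit 5) (nat_lit 167) (nat_lit 5) (nat_lit 162) (nat_lit 5) (nat_lit 354) (nat_lit 296) (nat_lit 250)) (XT.lf (nat_lit 0) (nat_lit 4977008352) (nat_lit 456) (nat_lit 2020116582) (nat_lit 532) (nat_lit 3797242131) (nat_lit 155) (nat_lit 5) (nat_lit 161) (nat_lit 5) (nat_lit 162) (nat_lit 5) (nat_lit 355) (nat_lit 296) (nat_lit 249))) (XT.nd (nat_lit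 78) (nat_lit 760) (nat_lit 0) (XT.lf (nat_lit 0) (nat_lit 916551443) (nat_lit 456) (nat_lit 6312801163) (nat_lit 76) (nat_lit 3745485228) (nat_lit 149) (nat_lit 5) (nat_lit 155) (nat_lit 5) (nat_lit 150) (nat_lit 5) (nat_lit 356) (nat_lit 296) (nat_lit 248)) (XT.nd (nat_lit 78) (nat_lit 380) (nat_lit 0) (XT.lf (nat_lit 0) (nat_lit 4289544726) (nat_lit 380) (nat_lit 1442253411) (nat_lit 456) (nat_lit 5428205237) (nat_lit 144) (nat_lit 5) (nat_lit 149) (nat_lit 5) (nat_lit 150) (nat_lit 5) (nat_lit 357) (nat_lit 296) (nat_lit 247)) (XT.lf (nat_lit 0) (nat_lit 3865021089) (nat_lit 380) (nat_lit 6855424081) (nat_lit 456) (nat_lit 629714627) (nat_lit 139) (nat_lit 5) (nat_lit 144) (nat_lit 5) (nat_lit 145) (nat_lit 5) (nat_lit 358) (nat_lit 296) (nat_lit 246)))))) (XT.nd (nat_lit 390) (nat_lit 1672) (nat_lit 0) (XT.nd (nat_lit 156) (nat_lit 1216) (nat_lit 0) (XT.nd (nat_lit 78) (nat_lit 380) (nat_lit 0)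 (XT.lf (nat_lit 0) (nat_lit 3376040275) (nat_lit 380) (nat_lit 890890676) (nat_lit 456) (nat_lit 7278328753) (nat_lit 133) (nat_lit 5) (nat_lit 138) (nat_lit 5) (nat_lit 139) (nat_lit 5) (nat_lit 359) (nat_lit 296) (nat_lit 245)) (XT.lf (nat_lit 0) (nat_lit 2817342332) (nat_lit 380) (nat_lit 6521514275) (nat_lit 456) (nat_lit 2406547689) (nat_lit 128) (nat_lit 5) (nat_lit 133) (nat_lit 5) (nat_lit 134) (nat_lit 5) (nat_lit 360) (nat_lit 296) (nat_lit 244))) (XT.nd (nat_lit 78) (nat_lit 760) (nat_lit 0) (XT.lf (nat_lit 0) (nat_lit 2199934855) (nat_lit 380) (nat_lit 387449209) (nat_lit 456) (nat_lit 9363638140) (nat_lit 122) (nat_lit 5) (nat_lit 127) (nat_lit 5) (nat_lit 128) (nat_lit 5) (nat_lit 361) (nat_lit 296) (nat_lit 243)) (XT.nd (nat_lit 78) (nat_lit 456) (nat_lit 0) (XT.lf (nat_lit 0) (nat_lit 1486920822) (nat_lit 304) (nat_lit 6256093077) (nat_lit 380) (nat_lit 4418597710) (nat_lit 118) (nat_lit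 5) (nat_lit 122) (nat_lit 5) (nat_lit 123) (nat_lit 5) (nat_lit 362) (nat_lit 296) (nat_lit 242)) (XT.lf (nat_lit 0) (nat_lit 676168248) (nat_lit 456) (nat_lit 11657344475) (nat_lit 76) (nat_lit 44725872) (nat_lit 112) (nat_lit 5) (nat_lit 118) (nat_lit 5) (nat_lit 113) (nat_lit 5) (nat_lit 363) (nat_lit 296) (nat_lit 241))))) (XT.nd (nat_lit 234) (nat_lit 988) (nat_lit 0) (XT.nd (nat_lit 78) (nat_lit 684) (nat_lit 0) (XT.lf (nat_lit 0) (nat_lit 5915881210) (nat_lit 456) (nat_lit 165948553) (nat_lit 76) (nat_lit 6517919442) (nat_lit 112) (nat_lit 5) (nat_lit 118) (nat_lit 5) (nat_lit 113) (nat_lit 5) (nat_lit 364) (nat_lit 296) (nat_lit 240)) (XT.nd (nat_lit 78) (nat_lit 380) (nat_lit 0) (XT.lf (nat_lit 0) (nat_lit 11330505139) (nat_lit 380) (nat_lit 1101962168) (nat_lit 76) (nat_lit 395094756) (nat_lit 108) (nat_lit 5) (nat_lit 113) (nat_lit 5) (nat_lit 109) (nat_lit 5) (nat_lit 365) (nat_lit 296)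 (nat_lit 239)) (XT.lf (nat_lit 0) (nat_lit 3847891671) (nat_lit 380) (nat_lit 2165135107) (nat_lit 76) (nat_lit 7047634658) (nat_lit 103) (nat_lit 5) (nat_lit 108) (nat_lit 5) (nat_lit 104) (nat_lit 5) (nat_lit 366) (nat_lit 296) (nat_lit 238)))) (XT.nd (nat_lit 78) (nat_lit 684) (nat_lit 0) (XT.lf (nat_lit 0) (nat_lit 9350233566) (nat_lit 380) (nat_lit 3310521610) (nat_lit 76) (nat_lit 639463486) (nat_lit 99) (nat_lit 5) (nat_lit 104) (nat_lit 5) (nat_lit 100) (nat_lit 5) (nat_lit 367) (nat_lit 296) (nat_lit 237)) (XT.nd (nat_lit 78) (nat_lit 304) (nat_lit 0) (XT.lf (nat_lit 0) (nat_lit 1506561238) (nat_lit 380) (nat_lit 4580097251) (nat_lit 76) (nat_lit 7459019773) (nat_lit 94) (nat_lit 5) (nat_lit 99) (nat_lit 5) (nat_lit 95) (nat_lit 5) (nat_lit 368) (nat_lit 296) (nat_lit 236)) (XT.lf (nat_lit 0) (nat_lit 7094078795) (nat_lit 380) (nat_lit 5962166098) (nat_lit 76) (nat_lit 741325446) (nat_lit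 90) (nat_lit 5) (nat_lit 95) (nat_lit 5) (nat_lit 91) (nat_lit 5) (nat_lit 369) (nat_lit 296) (nat_lit 235))))))))
noncomputable def xc40 : XT := (XT.nd (nat_lit 42042) (nat_lit 0) (nat_lit 26828) (XT.nd (nat_lit 780) (nat_lit 1368) (nat_lit 0) (XT.nd (nat_lit 390) (nat_lit 1064) (nat_lit 0) (XT.nd (nat_lit 156) (nat_lit 836) (nat_lit 0) (XT.nd (nat_lit 78) (nat_lit 304) (nat_lit 0) (XT.lf (nat_lit 0) (nat_lit 6582568807) (nat_lit 304) (nat_lit 6324467058) (nat_lit 380) (nat_lit 1148836417) (nat_lit 86) (nat_lit 5) (nat_lit 90) (nat_lit 5) (nat_lit 91) (nat_lit 5) (nat_lit 370) (nat_lit 296) (nat_lit 234)) (XT.lf (nat_lit 0) (nat_lit 4535221748) (nat_lit 304) (nat_lit 9114633284) (nat_lit 76) (nat_lit 671028801) (nat_lit 82) (nat_lit 5) (nat_lit 86) (nat_lit 5) (nat_lit 83) (nat_lit 5) (nat_lit 371) (nat_lit 296) (nat_lit 233))) (XT.nd (nat_lit 78) (nat_lit 532) (nat_lit 0) (XT.lf (nat_lit 0) (nat_lit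 3682470396) (nat_lit 304) (nat_lit 6753631034) (nat_lit 380) (nat_lit 4156362938) (nat_lit 78) (nat_lit 5) (nat_lit 82) (nat_lit 5) (nat_lit 83) (nat_lit 5) (nat_lit 372) (nat_lit 296) (nat_lit 232)) (XT.nd (nat_lit 78) (nat_lit 228) (nat_lit 0) (XT.lf (nat_lit 0) (nat_lit 1643624885) (nat_lit 304) (nat_lit 12831590480) (nat_lit 76) (nat_lit 396305168) (nat_lit 74) (nat_lit 5) (nat_lit 78) (nat_lit 5) (nat_lit 75) (nat_lit 5) (nat_lit 373) (nat_lit 296) (nat_lit 231)) (XT.lf (nat_lit 0) (nat_lit 209711547) (nat_lit 228) (nat_lit 7418786512) (nat_lit 304) (nat_lit 7528561781) (nat_lit 71) (nat_lit 5) (nat_lit 74) (nat_lit 5) (nat_lit 75) (nat_lit 5) (nat_lit 374) (nat_lit 296) (nat_lit 230))))) (XT.nd (nat_lit 156) (nat_lit 760) (nat_lit 0) (XT.nd (nat_lit 78) (nat_lit 304) (nat_lit 0) (XT.lf (nat_lit 0) (nat_lit 13729541496) (nat_lit 228) (nat_lit 97410709) (nat_lit 304) (nat_lit 1623540208) (nat_lit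 71) (nat_lit 5) (nat_lit 74) (nat_lit 5) (nat_lit 75) (nat_lit 5) (nat_lit 375) (nat_lit 296) (nat_lit 229)) (XT.lf (nat_lit 0) (nat_lit 4474786979) (nat_lit 304) (nat_lit 3856991239) (nat_lit 76) (nat_lit 7418885572) (nat_lit 67) (nat_lit 5) (nat_lit 71) (nat_lit 5) (nat_lit 68) (nat_lit 5) (nat_lit 376) (nat_lit 296) (nat_lit 228))) (XT.nd (nat_lit 78) (nat_lit 532) (nat_lit 0) (XT.lf (nat_lit 0) (nat_lit 9913241947) (nat_lit 228) (nat_lit 846652794) (nat_lit 304) (nat_lit 5299220361) (nat_lit 64) (nat_lit 5) (nat_lit 67) (nat_lit 5) (nat_lit 68) (nat_lit 5) (nat_lit 377) (nat_lit 296) (nat_lit 227)) (XT.nd (nat_lit 78) (nat_lit 228) (nat_lit 0) (XT.lf (nat_lit 0) (nat_lit 916836134) (nat_lit 304) (nat_lit 8636782830) (nat_lit 76) (nat_lit 6821669853) (nat_lit 60) (nat_lit 5) (nat_lit 64) (nat_lit 5) (nat_lit 61) (nat_lit 5) (nat_lit 378) (nat_lit 296) (nat_lit 226)) (XT.lf (nat_lit 0) (nat_lit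 5367906957) (nat_lit 228) (nat_lit 1912626579) (nat_lit 304) (nat_lit 9419057200) (nat_lit 57) (nat_lit 5) (nat_lit 60) (nat_lit 5) (nat_lit 61) (nat_lit 5) (nat_lit 379) (nat_lit 296) (nat_lit 225)))))) (XT.nd (nat_lit 390) (nat_lit 456) (nat_lit 0) (XT.nd (nat_lit 156) (nat_lit 456) (nat_lit 0) (XT.nd (nat_lit 78) (nat_lit 304) (nat_lit 0) (XT.lf (nat_lit 0) (nat_lit 2792126163) (nat_lit 152) (nat_lit 11109730192) (nat_lit 228) (nat_lit 3130437520) (nat_lit 55) (nat_lit 5) (nat_lit 57) (nat_lit 5) (nat_lit 58) (nat_lit 5) (nat_lit 380) (nat_lit 296) (nat_lit 224)) (XT.lf (nat_lit 0) (nat_lit 3108769) (nat_lit 228) (nat_lit 3341502727) (nat_lit 304) (nat_lit 14029104853) (nat_lit 51) (nat_lit 5) (nat_lit 54) (nat_lit 5) (nat_lit 55) (nat_lit 5) (nat_lit 381) (nat_lit 296) (nat_lit 223))) (XT.nd (nat_lit 78) (nat_lit 456) (nat_lit 0) (XT.lf (nat_lit 0) (nat_lit 10051228697) (nat_lit 304) (nat_lit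 2989279549) (nat_lit 76) (nat_lit 4682868429) (nat_lit 51) (nat_lit 5) (nat_lit 55) (nat_lit 5) (nat_lit 52) (nat_lit 5) (nat_lit 382) (nat_lit 296) (nat_lit 222)) (XT.nd (nat_lit 78) (nat_lit 304) (nat_lit 0) (XT.lf (nat_lit 0) (nat_lit 11876708170) (nat_lit 152) (nat_lit 5135401008) (nat_lit 228) (nat_lit 1070362128) (nat_lit 49) (nat_lit 5) (nat_lit 51) (nat_lit 5) (nat_lit 52) (nat_lit 5) (nat_lit 383) (nat_lit 296) (nat_lit 221)) (XT.lf (nat_lit 0) (nat_lit 5705905373) (nat_lit 304) (nat_lit 9695122414) (nat_lit 76) (nat_lit 3049541083) (nat_lit 45) (nat_lit 5) (nat_lit 49) (nat_lit 5) (nat_lit 46) (nat_lit 5) (nat_lit 384) (nat_lit 296) (nat_lit 220))))) (XT.nd (nat_lit 156) (nat_lit 0) (nat_lit 0) (XT.nd (nat_lit 78) (nat_lit 304) (nat_lit 0) (XT.lf (nat_lit 0) (nat_lit 5371322599) (nat_lit 152) (nat_lit 7365978102) (nat_lit 228) (nat_lit 6090944871) (nat_lit 43) (nat_lit 5) (nat_lit 45) (nat_lit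 5) (nat_lit 46) (nat_lit 5) (nat_lit 385) (nat_lit 296) (nat_lit 219)) (XT.lf (nat_lit 0) (nat_lit 791356992) (nat_lit 304) (nat_lit 17476932011) (nat_lit 76) (nat_lit 948090257) (nat_lit 39) (nat_lit 5) (nat_lit 43) (nat_lit 5) (nat_lit 40) (nat_lit 5) (nat_lit 386) (nat_lit 296) (nat_lit 218))) (XT.nd (nat_lit 40560) (nat_lit 0) (nat_lit 48716) (XT.lf (nat_lit 0) (nat_lit 7894753964) (nat_lit 304) (nat_lit 2206653162) (nat_lit 76) (nat_lit 9512001992) (nat_lit 39) (nat_lit 5) (nat_lit 43) (nat_lit 5) (nat_lit 40) (nat_lit 5) (nat_lit 387) (nat_lit 296) (nat_lit 217)) (XT.nd (nat_lit 78) (nat_lit 456) (nat_lit 0) (XT.lf (nat_lit 0) (nat_lit 993939994) (nat_lit 380) (nat_lit 1252673025) (nat_lit 0) (nat_lit 993939994) (nat_lit 686) (nat_lit 5) (nat_lit 691) (nat_lit 4) (nat_lit 686) (nat_lit 4) (nat_lit 306) (nat_lit 297) (nat_lit 297)) (XT.lf (nat_lit 0) (nat_lit 157247537) (nat_lit 456) (nat_lit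 3672513586) (nat_lit 76) (nat_lit 2665855390) (nat_lit 680) (nat_lit 5) (nat_lit 686) (nat_lit 5) (nat_lit 681) (nat_lit 4) (nat_lit 307) (nat_lit 297) (nat_lit 296))))))) (XT.nd (nat_lit 780) (nat_lit 14592) (nat_lit 0) (XT.nd (nat_lit 390) (nat_lit 4788) (nat_lit 0) (XT.nd (nat_lit 156) (nat_lit 1444) (nat_lit 0) (XT.nd (nat_lit 78) (nat_lit 608) (nat_lit 0) (XT.lf (nat_lit 0) (nat_lit 1720421731) (nat_lit 456) (nat_lit 3024385639) (nat_lit 532) (nat_lit 1768093833) (nat_lit 674) (nat_lit 5) (nat_lit 680) (nat_lit 5) (nat_lit 681) (nat_lit 4) (nat_lit 308) (nat_lit 297) (nat_lit 295)) (XT.lf (nat_lit 0) (nat_lit 676803520) (nat_lit 532) (nat_lit 2086458190) (nat_lit 608) (nat_lit 3769910794) (nat_lit 666) (nat_lit 5) (nat_lit 673) (nat_lit 5) (nat_lit 674) (nat_lit 5) (nat_lit 309) (nat_lit 297) (nat_lit 294))) (XT.nd (nat_lit 78) (nat_lit 1368) (nat_lit 0) (XT.lf (nat_lit 0) (nat_lit 710358945)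 (nat_lit 608) (nat_lit 303689057) (nat_lit 76) (nat_lit 5542378336) (nat_lit 665) (nat_lit 5) (nat_lit 673) (nat_lit 5) (nat_lit 666) (nat_lit 5) (nat_lit 310) (nat_lit 297) (nat_lit 293)) (XT.nd (nat_lit 78) (nat_lit 760) (nat_lit 0) (XT.lf (nat_lit 0) (nat_lit 5151062850) (nat_lit 684) (nat_lit 1228585168) (nat_lit 76) (nat_lit 202779072) (nat_lit 657) (nat_lit 5) (nat_lit 666) (nat_lit 5) (nat_lit 658) (nat_lit 5) (nat_lit 311) (nat_lit 297) (nat_lit 292)) (XT.lf (nat_lit 0) (nat_lit 2957409068) (nat_lit 760) (nat_lit 2109704681) (nat_lit 76) (nat_lit 1544127775) (nat_lit 647) (nat_lit 5) (nat_lit 657) (nat_lit 5) (nat_lit 648) (nat_lit 5) (nat_lit 312) (nat_lit 297) (nat_lit 291))))) (XT.nd (nat_lit 156) (nat_lit 3116) (nat_lit 0) (XT.nd (nat_lit 78) (nat_lit 836) (nat_lit 0) (XT.lf (nat_lit 0) (nat_lit 686538821) (nat_lit 836) (nat_lit 2936631862) (nat_lit 76) (nat_lit 3019946277) (nat_lit 636)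 (nat_lit 5) (nat_lit 647) (nat_lit 5) (nat_lit 637) (nat_lit 5) (nat_lit 313) (nat_lit 297) (nat_lit 290)) (XT.lf (nat_lit 0) (nat_lit 2956724363) (nat_lit 836) (nat_lit 2035189913) (nat_lit 912) (nat_lit 1685944087) (nat_lit 625) (nat_lit 5) (nat_lit 636) (nat_lit 5) (nat_lit 637) (nat_lit 5) (nat_lit 314) (nat_lit 297) (nat_lit 289))) (XT.nd (nat_lit 78) (nat_lit 2128) (nat_lit 0) (XT.lf (nat_lit 0) (nat_lit 2257518954) (nat_lit 912) (nat_lit 307583227) (nat_lit 988) (nat_lit 4150507624) (nat_lit 612) (nat_lit 5) (nat_lit 624) (nat_lit 5) (nat_lit 625) (nat_lit 5) (nat_lit 315) (nat_lit 297) (nat_lit 288)) (XT.nd (nat_lit 78) (nat_lit 1064) (nat_lit 0) (XT.lf (nat_lit 0) (nat_lit 66083995) (nat_lit 1064) (nat_lit 5153831112) (nat_lit 76) (nat_lit 1536372669) (nat_lit 598) (nat_lit 5) (nat_lit 612) (nat_lit 5) (nat_lit 599) (nat_lit 5) (nat_lit 316) (nat_lit 297) (nat_lit 287)) (XT.lf (nat_lit 0)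 (nat_lit 981356376) (nat_lit 1064) (nat_lit 3270063744) (nat_lit 1140) (nat_lit 2548316176) (nat_lit 584) (nat_lit 5) (nat_lit 598) (nat_lit 5) (nat_lit 599) (nat_lit 5) (nat_lit 317) (nat_lit 297) (nat_lit 286)))))) (XT.nd (nat_lit 390) (nat_lit 9348) (nat_lit 0) (XT.nd (nat_lit 156) (nat_lit 4028) (nat_lit 0) (XT.nd (nat_lit 78) (nat_lit 0) (nat_lit 0) (XT.lf (nat_lit 0) (nat_lit 411482706) (nat_lit 1140) (nat_lit 1183534058) (nat_lit 1216) (nat_lit 5251322250) (nat_lit 568) (nat_lit 5) (nat_lit 583) (nat_lit 5) (nat_lit 584) (nat_lit 5) (nat_lit 318) (nat_lit 297) (nat_lit 285)) (XT.lf (nat_lit 0) (nat_lit 5739568371) (nat_lit 1216) (nat_lit 120277233) (nat_lit 76) (nat_lit 1035992705) (nat_lit 568) (nat_lit 5) (nat_lit 584) (nat_lit 5) (nat_lit 569) (nat_lit 5) (nat_lit 319) (nat_lit 297) (nat_lit 284))) (XT.nd (nat_lit 78) (nat_lit 2736) (nat_lit 0) (XT.lf (nat_lit 0) (nat_lit 2939334640) (nat_lit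 1292) (nat_lit 616536197) (nat_lit 76) (nat_lit 3392260092) (nat_lit 551) (nat_lit 5) (nat_lit 568) (nat_lit 5) (nat_lit 552) (nat_lit 5) (nat_lit 320) (nat_lit 297) (nat_lit 283)) (XT.nd (nat_lit 78) (nat_lit 1368) (nat_lit 0) (XT.lf (nat_lit 0) (nat_lit 48757212) (nat_lit 1368) (nat_lit 1064978488) (nat_lit 76) (nat_lit 5889938762) (nat_lit 533) (nat_lit 5) (nat_lit 551) (nat_lit 5) (nat_lit 534) (nat_lit 5) (nat_lit 321) (nat_lit 297) (nat_lit 282)) (XT.lf (nat_lit 0) (nat_lit 4097645114) (nat_lit 1444) (nat_lit 1495074454) (nat_lit 76) (nat_lit 1469211558) (nat_lit 515) (nat_lit 5) (nat_lit 534) (nat_lit 5) (nat_lit 516) (nat_lit 5) (nat_lit 322) (nat_lit 297) (nat_lit 281))))) (XT.nd (nat_lit 234) (nat_lit 4636) (nat_lit 0) (XT.nd (nat_lit 78) (nat_lit 3192) (nat_lit 0) (XT.lf (nat_lit 0) (nat_lit 1056022620) (nat_lit 1520) (nat_lit 1887425538) (nat_lit 76) (nat_lit 4179894143) (nat_lit 495)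 (nat_lit 5) (nat_lit 515) (nat_lit 5) (nat_lit 496) (nat_lit 5) (nat_lit 323) (nat_lit 297) (nat_lit 280)) (XT.nd (nat_lit 78) (nat_lit 1672) (nat_lit 0) (XT.lf (nat_lit 0) (nat_lit 4939199430) (nat_lit 1520) (nat_lit 138792581) (nat_lit 1596) (nat_lit 2109839231) (nat_lit 475) (nat_lit 5) (nat_lit 495) (nat_lit 5) (nat_lit 496) (nat_lit 5) (nat_lit 324) (nat_lit 297) (nat_lit 279)) (XT.lf (nat_lit 0) (nat_lit 1882977169) (nat_lit 1672) (nat_lit 2591314670) (nat_lit 76) (nat_lit 2780910870) (nat_lit 453) (nat_lit 5) (nat_lit 475) (nat_lit 5) (nat_lit 454) (nat_lit 5) (nat_lit 325) (nat_lit 297) (nat_lit 278)))) (XT.nd (nat_lit 78) (nat_lit 2964) (nat_lit 0) (XT.lf (nat_lit 0) (nat_lit 4424004130) (nat_lit 1672) (nat_lit 1471732607) (nat_lit 1748) (nat_lit 1430052919) (nat_lit 431) (nat_lit 5) (nat_lit 453) (nat_lit 5) (nat_lit 454) (nat_lit 5) (nat_lit 326) (nat_lit 297) (nat_lit 277)) (XT.nd (nat_lit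 78) (nat_lit 1140) (nat_lit 0) (XT.lf (nat_lit 0) (nat_lit 2537469119) (nat_lit 1824) (nat_lit 3194295294) (nat_lit 76) (nat_lit 1667603914) (nat_lit 407) (nat_lit 5) (nat_lit 431) (nat_lit 5) (nat_lit 408) (nat_lit 5) (nat_lit 327) (nat_lit 297) (nat_lit 276)) (XT.lf (nat_lit 0) (nat_lit 4013707856) (nat_lit 1140) (nat_lit 2534914115) (nat_lit 1216) (nat_lit 927508601) (nat_lit 392) (nat_lit 5) (nat_lit 407) (nat_lit 5) (nat_lit 408) (nat_lit 5) (nat_lit 328) (nat_lit 297) (nat_lit 275))))))))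
noncomputable def xc41 : XT := (XT.nd (nat_lit 1560) (nat_lit 8056) (nat_lit 0) (XT.nd (nat_lit 780) (nat_lit 6308) (nat_lit 0) (XT.nd (nat_lit 390) (nat_lit 3800) (nat_lit 0) (XT.nd (nat_lit 156) (nat_lit 2660) (nat_lit 0) (XT.nd (nat_lit 78) (nat_lit 836) (nat_lit 0) (XT.lf (nat_lit 0) (nat_lit 3026086858) (nat_lit 988) (nat_lit 3713746017) (nat_lit 76) (nat_lit 816157624) (nat_lit 379) (nat_lit 5) (nat_lit 392) (nat_lit 5) (nat_lit 380) (nat_lit 5) (nat_lit 329) (nat_lit 297) (nat_lit 274)) (XT.lf (nat_lit 0) (nat_lit 3691126159) (nat_lit 836) (nat_lit 3351692390) (nat_lit 912) (nat_lit 596204926) (nat_lit 368) (nat_lit 5) (nat_lit 379) (nat_lit 5) (nat_lit 380) (nat_lit 5) (nat_lit 330) (nat_lit 297) (nat_lit 273))) (XT.nd (nat_lit 78) (nat_lit 1748) (nat_lit 0) (XT.lf (nat_lit 0) (nat_lit 3354188735) (nat_lit 912) (nat_lit 4166919992) (nat_lit 76) (nat_lit 204150349) (nat_lit 356) (nat_lit 5)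 (nat_lit 368) (nat_lit 5) (nat_lit 357) (nat_lit 5) (nat_lit 331) (nat_lit 297) (nat_lit 272)) (XT.nd (nat_lit 78) (nat_lit 912) (nat_lit 0) (XT.lf (nat_lit 0) (nat_lit 3439165296) (nat_lit 836) (nat_lit 3944120275) (nat_lit 912) (nat_lit 431390763) (nat_lit 345) (nat_lit 5) (nat_lit 356) (nat_lit 5) (nat_lit 357) (nat_lit 5) (nat_lit 332) (nat_lit 297) (nat_lit 271)) (XT.lf (nat_lit 0) (nat_lit 3335037426) (nat_lit 836) (nat_lit 192133870) (nat_lit 912) (nat_lit 4380206170) (nat_lit 333) (nat_lit 5) (nat_lit 344) (nat_lit 5) (nat_lit 345) (nat_lit 5) (nat_lit 333) (nat_lit 297) (nat_lit 270))))) (XT.nd (nat_lit 156) (nat_lit 2204) (nat_lit 0) (XT.nd (nat_lit 78) (nat_lit 836) (nat_lit 0) (XT.lf (nat_lit 0) (nat_lit 3240672565) (nat_lit 760) (nat_lit 4333114791) (nat_lit 836) (nat_lit 429548347) (nat_lit 323) (nat_lit 5) (nat_lit 333) (nat_lit 5) (nat_lit 334) (nat_lit 5) (nat_lit 334) (nat_lit 297)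 (nat_lit 269)) (XT.lf (nat_lit 0) (nat_lit 3156389692) (nat_lit 760) (nat_lit 390388660) (nat_lit 836) (nat_lit 4555858559) (nat_lit 312) (nat_lit 5) (nat_lit 322) (nat_lit 5) (nat_lit 323) (nat_lit 5) (nat_lit 335) (nat_lit 297) (nat_lit 268))) (XT.nd (nat_lit 78) (nat_lit 1520) (nat_lit 0) (XT.lf (nat_lit 0) (nat_lit 3078282664) (nat_lit 684) (nat_lit 4538618648) (nat_lit 760) (nat_lit 588385719) (nat_lit 303) (nat_lit 5) (nat_lit 312) (nat_lit 5) (nat_lit 313) (nat_lit 5) (nat_lit 336) (nat_lit 297) (nat_lit 267)) (XT.nd (nat_lit 78) (nat_lit 684) (nat_lit 0) (XT.lf (nat_lit 0) (nat_lit 3006164827) (nat_lit 760) (nat_lit 407384997) (nat_lit 836) (nat_lit 4897818146) (nat_lit 292) (nat_lit 5) (nat_lit 302) (nat_lit 5) (nat_lit 303) (nat_lit 5) (nat_lit 337) (nat_lit 297) (nat_lit 266)) (XT.lf (nat_lit 0) (nat_lit 2934258757) (nat_lit 684) (nat_lit 4579757855) (nat_lit 760) (nat_lit 906838564) (nat_lit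 283) (nat_lit 5) (nat_lit 292) (nat_lit 5) (nat_lit 293) (nat_lit 5) (nat_lit 338) (nat_lit 297) (nat_lit 265)))))) (XT.nd (nat_lit 390) (nat_lit 2888) (nat_lit 0) (XT.nd (nat_lit 156) (nat_lit 2052) (nat_lit 0) (XT.nd (nat_lit 78) (nat_lit 608) (nat_lit 0) (XT.lf (nat_lit 0) (nat_lit 2866315019) (nat_lit 684) (nat_lit 261846998) (nat_lit 760) (nat_lit 5405752205) (nat_lit 273) (nat_lit 5) (nat_lit 282) (nat_lit 5) (nat_lit 283) (nat_lit 5) (nat_lit 339) (nat_lit 297) (nat_lit 264)) (XT.lf (nat_lit 0) (nat_lit 2790326877) (nat_lit 608) (nat_lit 4474996605) (nat_lit 684) (nat_lit 1385081662) (nat_lit 265) (nat_lit 5) (nat_lit 273) (nat_lit 5) (nat_lit 274) (nat_lit 5) (nat_lit 340) (nat_lit 297) (nat_lit 263))) (XT.nd (nat_lit 78) (nat_lit 1292) (nat_lit 0) (XT.lf (nat_lit 0) (nat_lit 2690251692) (nat_lit 760) (nat_lit 6052666733) (nat_lit 76) (nat_lit 27737888) (nat_lit 255) (nat_lit 5) (nat_lit 265)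 (nat_lit 5) (nat_lit 256) (nat_lit 5) (nat_lit 341) (nat_lit 297) (nat_lit 262)) (XT.nd (nat_lit 78) (nat_lit 684) (nat_lit 0) (XT.lf (nat_lit 0) (nat_lit 2627502196) (nat_lit 608) (nat_lit 4242290639) (nat_lit 684) (nat_lit 2024550205) (nat_lit 247) (nat_lit 5) (nat_lit 255) (nat_lit 5) (nat_lit 256) (nat_lit 5) (nat_lit 342) (nat_lit 297) (nat_lit 261)) (XT.lf (nat_lit 0) (nat_lit 2100366440) (nat_lit 684) (nat_lit 6482632415) (nat_lit 76) (nat_lit 438974645) (nat_lit 238) (nat_lit 5) (nat_lit 247) (nat_lit 5) (nat_lit 239) (nat_lit 5) (nat_lit 343) (nat_lit 297) (nat_lit 260))))) (XT.nd (nat_lit 156) (nat_lit 1672) (nat_lit 0) (XT.nd (nat_lit 78) (nat_lit 684) (nat_lit 0) (XT.lf (nat_lit 0) (nat_lit 2425905602) (nat_lit 532) (nat_lit 3899240281) (nat_lit 608) (nat_lit 2827971364) (nat_lit 231) (nat_lit 5) (nat_lit 238) (nat_lit 5) (nat_lit 239) (nat_lit 5) (nat_lit 344) (nat_lit 297) (nat_lit 259))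 (XT.lf (nat_lit 0) (nat_lit 1353617794) (nat_lit 684) (nat_lit 6976597411) (nat_lit 76) (nat_lit 958155974) (nat_lit 222) (nat_lit 5) (nat_lit 231) (nat_lit 5) (nat_lit 223) (nat_lit 5) (nat_lit 345) (nat_lit 297) (nat_lit 258))) (XT.nd (nat_lit 78) (nat_lit 1140) (nat_lit 0) (XT.lf (nat_lit 0) (nat_lit 2164568940) (nat_lit 532) (nat_lit 3463244386) (nat_lit 608) (nat_lit 3799406533) (nat_lit 215) (nat_lit 5) (nat_lit 222) (nat_lit 5) (nat_lit 223) (nat_lit 5) (nat_lit 346) (nat_lit 297) (nat_lit 257)) (XT.nd (nat_lit 78) (nat_lit 532) (nat_lit 0) (XT.lf (nat_lit 0) (nat_lit 445489434) (nat_lit 608) (nat_lit 7556594755) (nat_lit 76) (nat_lit 1568281140) (nat_lit 207) (nat_lit 5) (nat_lit 215) (nat_lit 5) (nat_lit 208) (nat_lit 5) (nat_lit 347) (nat_lit 297) (nat_lit 256)) (XT.lf (nat_lit 0) (nat_lit 1821227101) (nat_lit 532) (nat_lit 2951656443) (nat_lit 608) (nat_lit 4944304801) (nat_lit 200) (nat_lit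 5) (nat_lit 207) (nat_lit 5) (nat_lit 208) (nat_lit 5) (nat_lit 348) (nat_lit 297) (nat_lit 255))))))) (XT.nd (nat_lit 780) (nat_lit 3800) (nat_lit 0) (XT.nd (nat_lit 390) (nat_lit 1748) (nat_lit 0) (XT.nd (nat_lit 156) (nat_lit 1444) (nat_lit 0) (XT.nd (nat_lit 78) (nat_lit 532) (nat_lit 0) (XT.lf (nat_lit 0) (nat_lit 1618185672) (nat_lit 532) (nat_lit 7611957016) (nat_lit 608) (nat_lit 638292758) (nat_lit 193) (nat_lit 5) (nat_lit 200) (nat_lit 5) (nat_lit 201) (nat_lit 5) (nat_lit 349) (nat_lit 297) (nat_lit 254)) (XT.lf (nat_lit 0) (nat_lit 1372095049) (nat_lit 456) (nat_lit 2381944153) (nat_lit 532) (nat_lit 6269568274) (nat_lit 186) (nat_lit 5) (nat_lit 192) (nat_lit 5) (nat_lit 193) (nat_lit 5) (nat_lit 350) (nat_lit 297) (nat_lit 253))) (XT.nd (nat_lit 78) (nat_lit 988) (nat_lit 0) (XT.lf (nat_lit 0) (nat_lit 1100533851) (nat_lit 456) (nat_lit 7177701325) (nat_lit 532) (nat_lit 1904958513)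 (nat_lit 180) (nat_lit 5) (nat_lit 186) (nat_lit 5) (nat_lit 187) (nat_lit 5) (nat_lit 351) (nat_lit 297) (nat_lit 252)) (XT.nd (nat_lit 78) (nat_lit 456) (nat_lit 0) (XT.lf (nat_lit 0) (nat_lit 791627705) (nat_lit 456) (nat_lit 1771853828) (nat_lit 532) (nat_lit 7783630019) (nat_lit 173) (nat_lit 5) (nat_lit 179) (nat_lit 5) (nat_lit 180) (nat_lit 5) (nat_lit 352) (nat_lit 297) (nat_lit 251)) (XT.lf (nat_lit 0) (nat_lit 437313077) (nat_lit 456) (nat_lit 6720440146) (nat_lit 532) (nat_lit 3357606009) (nat_lit 167) (nat_lit 5) (nat_lit 173) (nat_lit 5) (nat_lit 174) (nat_lit 5) (nat_lit 353) (nat_lit 297) (nat_lit 250))))) (XT.nd (nat_lit 156) (nat_lit 1292) (nat_lit 0) (XT.nd (nat_lit 78) (nat_lit 0) (nat_lit 0) (XT.lf (nat_lit 0) (nat_lit 52260401) (nat_lit 380) (nat_lit 1139581042) (nat_lit 456) (nat_lit 9496545456) (nat_lit 161) (nat_lit 5) (nat_lit 166) (nat_lit 5) (nat_lit 167) (nat_lit 5) (nat_lit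 354) (nat_lit 297) (nat_lit 249)) (XT.lf (nat_lit 0) (nat_lit 5861330887) (nat_lit 456) (nat_lit 394881504) (nat_lit 76) (nat_lit 4609381613) (nat_lit 161) (nat_lit 5) (nat_lit 167) (nat_lit 5) (nat_lit 162) (nat_lit 5) (nat_lit 355) (nat_lit 297) (nat_lit 248))) (XT.nd (nat_lit 78) (nat_lit 836) (nat_lit 0) (XT.lf (nat_lit 0) (nat_lit 10181218011) (nat_lit 456) (nat_lit 495690904) (nat_lit 532) (nat_lit 371103854) (nat_lit 155) (nat_lit 5) (nat_lit 161) (nat_lit 5) (nat_lit 162) (nat_lit 5) (nat_lit 356) (nat_lit 297) (nat_lit 247)) (XT.nd (nat_lit 78) (nat_lit 380) (nat_lit 0) (XT.lf (nat_lit 0) (nat_lit 4378862642) (nat_lit 456) (nat_lit 1423976160) (nat_lit 76) (nat_lit 5431797920) (nat_lit 149) (nat_lit 5) (nat_lit 155) (nat_lit 5) (nat_lit 150) (nat_lit 5) (nat_lit 357) (nat_lit 297) (nat_lit 246)) (XT.lf (nat_lit 0) (nat_lit 9271888827) (nat_lit 456) (nat_lit 2013608064) (nat_lit 76) (nat_lit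 141215738) (nat_lit 144) (nat_lit 5) (nat_lit 150) (nat_lit 5) (nat_lit 145) (nat_lit 5) (nat_lit 358) (nat_lit 297) (nat_lit 245)))))) (XT.nd (nat_lit 390) (nat_lit 1824) (nat_lit 0) (XT.nd (nat_lit 156) (nat_lit 1140) (nat_lit 0) (XT.nd (nat_lit 78) (nat_lit 380) (nat_lit 0) (XT.lf (nat_lit 0) (nat_lit 2694206734) (nat_lit 456) (nat_lit 2689142218) (nat_lit 76) (nat_lit 6240020696) (nat_lit 138) (nat_lit 5) (nat_lit 144) (nat_lit 5) (nat_lit 139) (nat_lit 5) (nat_lit 359) (nat_lit 297) (nat_lit 244)) (XT.lf (nat_lit 0) (nat_lit 7669027587) (nat_lit 456) (nat_lit 3418140406) (nat_lit 76) (nat_lit 738294871) (nat_lit 133) (nat_lit 5) (nat_lit 139) (nat_lit 5) (nat_lit 134) (nat_lit 5) (nat_lit 360) (nat_lit 297) (nat_lit 243))) (XT.nd (nat_lit 78) (nat_lit 684) (nat_lit 0) (XT.lf (nat_lit 0) (nat_lit 792095491) (nat_lit 456) (nat_lit 4226896220) (nat_lit 76) (nat_lit 7013689528) (nat_lit 127) (nat_lit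 5) (nat_lit 133) (nat_lit 5) (nat_lit 128) (nat_lit 5) (nat_lit 361) (nat_lit 297) (nat_lit 242)) (XT.nd (nat_lit 78) (nat_lit 304) (nat_lit 0) (XT.lf (nat_lit 0) (nat_lit 5849078042) (nat_lit 456) (nat_lit 5115352883) (nat_lit 76) (nat_lit 1280818699) (nat_lit 122) (nat_lit 5) (nat_lit 128) (nat_lit 5) (nat_lit 123) (nat_lit 5) (nat_lit 362) (nat_lit 297) (nat_lit 241)) (XT.lf (nat_lit 0) (nat_lit 6377291247) (nat_lit 304) (nat_lit 4723323034) (nat_lit 380) (nat_lit 1362735791) (nat_lit 118) (nat_lit 5) (nat_lit 122) (nat_lit 5) (nat_lit 123) (nat_lit 5) (nat_lit 363) (nat_lit 297) (nat_lit 240))))) (XT.nd (nat_lit 234) (nat_lit 684) (nat_lit 0) (XT.nd (nat_lit 78) (nat_lit 684) (nat_lit 0) (XT.lf (nat_lit 0) (nat_lit 3793815006) (nat_lit 456) (nat_lit 7147084929) (nat_lit 76) (nat_lit 1746163973) (nat_lit 112) (nat_lit 5) (nat_lit 118) (nat_lit 5) (nat_lit 113) (nat_lit 5) (nat_lit 364) (nat_lit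 297) (nat_lit 239)) (XT.nd (nat_lit 78) (nat_lit 380) (nat_lit 0) (XT.lf (nat_lit 0) (nat_lit 4607933939) (nat_lit 304) (nat_lit 4522488762) (nat_lit 380) (nat_lit 3786019805) (nat_lit 108) (nat_lit 5) (nat_lit 112) (nat_lit 5) (nat_lit 113) (nat_lit 5) (nat_lit 365) (nat_lit 297) (nat_lit 238)) (XT.lf (nat_lit 0) (nat_lit 1482627350) (nat_lit 380) (nat_lit 9559266437) (nat_lit 76) (nat_lit 2110076907) (nat_lit 103) (nat_lit 5) (nat_lit 108) (nat_lit 5) (nat_lit 104) (nat_lit 5) (nat_lit 366) (nat_lit 297) (nat_lit 237)))) (XT.nd (nat_lit 78) (nat_lit 380) (nat_lit 0) (XT.lf (nat_lit 0) (nat_lit 2455824039) (nat_lit 304) (nat_lit 4447613767) (nat_lit 380) (nat_lit 6489725746) (nat_lit 99) (nat_lit 5) (nat_lit 103) (nat_lit 5) (nat_lit 104) (nat_lit 5) (nat_lit 367) (nat_lit 297) (nat_lit 236)) (XT.nd (nat_lit 78) (nat_lit 76) (nat_lit 0) (XT.lf (nat_lit 0) (nat_lit 1231290948) (nat_lit 304) (nat_lit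 11287262530) (nat_lit 380) (nat_lit 1122414962) (nat_lit 95) (nat_lit 5) (nat_lit 99) (nat_lit 5) (nat_lit 100) (nat_lit 5) (nat_lit 368) (nat_lit 297) (nat_lit 235)) (XT.lf (nat_lit 0) (nat_lit 4396431044) (nat_lit 380) (nat_lit 129274740) (nat_lit 76) (nat_lit 9368972950) (nat_lit 94) (nat_lit 5) (nat_lit 99) (nat_lit 5) (nat_lit 95) (nat_lit 5) (nat_lit 369) (nat_lit 297) (nat_lit 234))))))))
noncomputable def xc42 : XT := (XT.nd (nat_lit 41964) (nat_lit 0) (nat_lit 27664) (XT.nd (nat_lit 780) (nat_lit 1292) (nat_lit 0) (XT.nd (nat_lit 390) (nat_lit 1064) (nat_lit 0) (XT.nd (nat_lit 156) (nat_lit 836) (nat_lit 0) (XT.nd (nat_lit 78) (nat_lit 380) (nat_lit 0) (XT.lf (nat_lit 0) (nat_lit 10109210737) (nat_lit 380) (nat_lit 1582143784) (nat_lit 76) (nat_lit 2463634194) (nat_lit 90) (nat_lit 5) (nat_lit 95) (nat_lit 5) (nat_lit 91) (nat_lit 5) (nat_lit 370) (nat_lit 297) (nat_lit 233)) (XT.lf (nat_lit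 0) (nat_lit 1600679547) (nat_lit 380) (nat_lit 3167663371) (nat_lit 76) (nat_lit 9653549688) (nat_lit 85) (nat_lit 5) (nat_lit 90) (nat_lit 5) (nat_lit 86) (nat_lit 5) (nat_lit 371) (nat_lit 297) (nat_lit 232))) (XT.nd (nat_lit 78) (nat_lit 608) (nat_lit 0) (XT.lf (nat_lit 0) (nat_lit 7399235731) (nat_lit 304) (nat_lit 4895766597) (nat_lit 76) (nat_lit 2400521432) (nat_lit 82) (nat_lit 5) (nat_lit 86) (nat_lit 5) (nat_lit 83) (nat_lit 5) (nat_lit 372) (nat_lit 297) (nat_lit 231)) (XT.nd (nat_lit 78) (nat_lit 304) (nat_lit 0) (XT.lf (nat_lit 0) (nat_lit 8212367871) (nat_lit 304) (nat_lit 5214012693) (nat_lit 380) (nat_lit 1549898823) (nat_lit 78) (nat_lit 5) (nat_lit 82) (nat_lit 5) (nat_lit 83) (nat_lit 5) (nat_lit 373) (nat_lit 297) (nat_lit 230)) (XT.lf (nat_lit 0) (nat_lit 4349508542) (nat_lit 304) (nat_lit 8791159923) (nat_lit 76) (nat_lit 2123471183) (nat_lit 74) (nat_lit 5) (nat_lit 78) (nat_lit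 5) (nat_lit 75) (nat_lit 5) (nat_lit 374) (nat_lit 297) (nat_lit 229))))) (XT.nd (nat_lit 156) (nat_lit 532) (nat_lit 0) (XT.nd (nat_lit 78) (nat_lit 304) (nat_lit 0) (XT.lf (nat_lit 0) (nat_lit 4569584660) (nat_lit 228) (nat_lit 5895233623) (nat_lit 304) (nat_lit 5094420548) (nat_lit 71) (nat_lit 5) (nat_lit 74) (nat_lit 5) (nat_lit 75) (nat_lit 5) (nat_lit 375) (nat_lit 297) (nat_lit 228)) (XT.lf (nat_lit 0) (nat_lit 925283620) (nat_lit 304) (nat_lit 13340554911) (nat_lit 76) (nat_lit 1596508809) (nat_lit 67) (nat_lit 5) (nat_lit 71) (nat_lit 5) (nat_lit 68) (nat_lit 5) (nat_lit 376) (nat_lit 297) (nat_lit 227))) (XT.nd (nat_lit 78) (nat_lit 304) (nat_lit 0) (XT.lf (nat_lit 0) (nat_lit 262032336) (nat_lit 228) (nat_lit 6861309820) (nat_lit 304) (nat_lit 9049200921) (nat_lit 64) (nat_lit 5) (nat_lit 67) (nat_lit 5) (nat_lit 68) (nat_lit 5) (nat_lit 377) (nat_lit 297) (nat_lit 226)) (XT.nd (nat_lit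 78) (nat_lit 304) (nat_lit 0) (XT.lf (nat_lit 0) (nat_lit 13554496597) (nat_lit 304) (nat_lit 2123278123) (nat_lit 76) (nat_lit 813333660) (nat_lit 64) (nat_lit 5) (nat_lit 68) (nat_lit 5) (nat_lit 65) (nat_lit 5) (nat_lit 378) (nat_lit 297) (nat_lit 225)) (XT.lf (nat_lit 0) (nat_lit 3392920659) (nat_lit 304) (nat_lit 4729870448) (nat_lit 76) (nat_lit 8694457283) (nat_lit 60) (nat_lit 5) (nat_lit 64) (nat_lit 5) (nat_lit 61) (nat_lit 5) (nat_lit 379) (nat_lit 297) (nat_lit 224)))))) (XT.nd (nat_lit 390) (nat_lit 380) (nat_lit 0) (XT.nd (nat_lit 156) (nat_lit 532) (nat_lit 0) (XT.nd (nat_lit 78) (nat_lit 152) (nat_lit 0) (XT.lf (nat_lit 0) (nat_lit 9627371374) (nat_lit 228) (nat_lit 275449469) (nat_lit 304) (nat_lit 7249362226) (nat_lit 57) (nat_lit 5) (nat_lit 60) (nat_lit 5) (nat_lit 61) (nat_lit 5) (nat_lit 380) (nat_lit 297) (nat_lit 223)) (XT.lf (nat_lit 0) (nat_lit 6944611592) (nat_lit 152) (nat_lit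 9745254654) (nat_lit 228) (nat_lit 805668659) (nat_lit 55) (nat_lit 5) (nat_lit 57) (nat_lit 5) (nat_lit 58) (nat_lit 5) (nat_lit 381) (nat_lit 297) (nat_lit 222))) (XT.nd (nat_lit 78) (nat_lit 228) (nat_lit 0) (XT.lf (nat_lit 0) (nat_lit 4037418048) (nat_lit 228) (nat_lit 1751162015) (nat_lit 304) (nat_lit 12059181339) (nat_lit 51) (nat_lit 5) (nat_lit 54) (nat_lit 5) (nat_lit 55) (nat_lit 5) (nat_lit 382) (nat_lit 297) (nat_lit 221)) (XT.nd (nat_lit 78) (nat_lit 76) (nat_lit 0) (XT.lf (nat_lit 0) (nat_lit 884492881) (nat_lit 152) (nat_lit 11760041242) (nat_lit 228) (nat_lit 5564423206) (nat_lit 49) (nat_lit 5) (nat_lit 51) (nat_lit 5) (nat_lit 52) (nat_lit 5) (nat_lit 383) (nat_lit 297) (nat_lit 220)) (XT.lf (nat_lit 0) (nat_lit 1171809270) (nat_lit 228) (nat_lit 2466738194) (nat_lit 76) (nat_lit 14941073142) (nat_lit 48) (nat_lit 5) (nat_lit 51) (nat_lit 5) (nat_lit 49) (nat_lit 5) (nat_lit 384)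 (nat_lit 297) (nat_lit 219))))) (XT.nd (nat_lit 40560) (nat_lit 0) (nat_lit 48868) (XT.nd (nat_lit 78) (nat_lit 152) (nat_lit 0) (XT.lf (nat_lit 0) (nat_lit 8106729774) (nat_lit 304) (nat_lit 6097475971) (nat_lit 76) (nat_lit 4755023619) (nat_lit 45) (nat_lit 5) (nat_lit 49) (nat_lit 5) (nat_lit 46) (nat_lit 5) (nat_lit 385) (nat_lit 297) (nat_lit 218)) (XT.lf (nat_lit 0) (nat_lit 9357876098) (nat_lit 152) (nat_lit 5951086806) (nat_lit 228) (nat_lit 4040083223) (nat_lit 43) (nat_lit 5) (nat_lit 45) (nat_lit 5) (nat_lit 46) (nat_lit 5) (nat_lit 386) (nat_lit 297) (nat_lit 217))) (XT.nd (nat_lit 78) (nat_lit 380) (nat_lit 0) (XT.lf (nat_lit 0) (nat_lit 36829368) (nat_lit 228) (nat_lit 1596465688) (nat_lit 228) (nat_lit 1596465688) (nat_lit 691) (nat_lit 4) (nat_lit 694) (nat_lit 5) (nat_lit 694) (nat_lit 4) (nat_lit 304) (nat_lit 298) (nat_lit 298)) (XT.nd (nat_lit 78) (nat_lit 304) (nat_lit 0) (XT.lf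 (nat_lit 0) (nat_lit 1442427529) (nat_lit 304) (nat_lit 1278351775) (nat_lit 76) (nat_lit 3748809157) (nat_lit 690) (nat_lit 5) (nat_lit 694) (nat_lit 5) (nat_lit 691) (nat_lit 4) (nat_lit 305) (nat_lit 298) (nat_lit 297)) (XT.lf (nat_lit 0) (nat_lit 3910887741) (nat_lit 304) (nat_lit 2115300284) (nat_lit 380) (nat_lit 456403476) (nat_lit 686) (nat_lit 5) (nat_lit 690) (nat_lit 5) (nat_lit 691) (nat_lit 4) (nat_lit 306) (nat_lit 298) (nat_lit 296))))))) (XT.nd (nat_lit 780) (nat_lit 14516) (nat_lit 0) (XT.nd (nat_lit 390) (nat_lit 4408) (nat_lit 0) (XT.nd (nat_lit 156) (nat_lit 1292) (nat_lit 0) (XT.nd (nat_lit 78) (nat_lit 532) (nat_lit 0) (XT.lf (nat_lit 0) (nat_lit 2682865102) (nat_lit 380) (nat_lit 1369238967) (nat_lit 456) (nat_lit 2446306013) (nat_lit 680) (nat_lit 5) (nat_lit 685) (nat_lit 5) (nat_lit 686) (nat_lit 5) (nat_lit 307) (nat_lit 298) (nat_lit 295)) (XT.lf (nat_lit 0) (nat_lit 1515718458)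 (nat_lit 456) (nat_lit 491520040) (nat_lit 532) (nat_lit 4510007305) (nat_lit 673) (nat_lit 5) (nat_lit 679) (nat_lit 5) (nat_lit 680) (nat_lit 5) (nat_lit 308) (nat_lit 298) (nat_lit 294))) (XT.nd (nat_lit 78) (nat_lit 760) (nat_lit 0) (XT.lf (nat_lit 0) (nat_lit 404224372) (nat_lit 532) (nat_lit 6026386333) (nat_lit 608) (nat_lit 108420604) (nat_lit 666) (nat_lit 5) (nat_lit 673) (nat_lit 5) (nat_lit 674) (nat_lit 5) (nat_lit 309) (nat_lit 298) (nat_lit 293)) (XT.nd (nat_lit 78) (nat_lit 684) (nat_lit 0) (XT.lf (nat_lit 0) (nat_lit 4245428437) (nat_lit 608) (nat_lit 657817061) (nat_lit 76) (nat_lit 1660177783) (nat_lit 665) (nat_lit 5) (nat_lit 673) (nat_lit 5) (nat_lit 666) (nat_lit 5) (nat_lit 310) (nat_lit 298) (nat_lit 292)) (XT.lf (nat_lit 0) (nat_lit 1988523782) (nat_lit 684) (nat_lit 1658859367) (nat_lit 76) (nat_lit 2943425743) (nat_lit 656) (nat_lit 5) (nat_lit 665) (nat_lit 5) (nat_lit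 657) (nat_lit 5) (nat_lit 311) (nat_lit 298) (nat_lit 291))))) (XT.nd (nat_lit 156) (nat_lit 2888) (nat_lit 0) (XT.nd (nat_lit 78) (nat_lit 836) (nat_lit 0) (XT.lf (nat_lit 0) (nat_lit 4013833152) (nat_lit 684) (nat_lit 2257886698) (nat_lit 760) (nat_lit 349495843) (nat_lit 647) (nat_lit 5) (nat_lit 656) (nat_lit 5) (nat_lit 657) (nat_lit 5) (nat_lit 312) (nat_lit 298) (nat_lit 290)) (XT.lf (nat_lit 0) (nat_lit 3138864991) (nat_lit 760) (nat_lit 721790254) (nat_lit 836) (nat_lit 2793784582) (nat_lit 636) (nat_lit 5) (nat_lit 646) (nat_lit 5) (nat_lit 647) (nat_lit 5) (nat_lit 313) (nat_lit 298) (nat_lit 289))) (XT.nd (nat_lit 78) (nat_lit 1976) (nat_lit 0) (XT.lf (nat_lit 0) (nat_lit 1376636540) (nat_lit 912) (nat_lit 4377336646) (nat_lit 76) (nat_lit 936671326) (nat_lit 624) (nat_lit 5) (nat_lit 636) (nat_lit 5) (nat_lit 625) (nat_lit 5) (nat_lit 314) (nat_lit 298) (nat_lit 288)) (XT.nd (nat_lit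 78) (nat_lit 1064) (nat_lit 0) (XT.lf (nat_lit 0) (nat_lit 1529078885) (nat_lit 912) (nat_lit 4001546071) (nat_lit 988) (nat_lit 1199088067) (nat_lit 612) (nat_lit 5) (nat_lit 624) (nat_lit 5) (nat_lit 625) (nat_lit 5) (nat_lit 315) (nat_lit 298) (nat_lit 287)) (XT.lf (nat_lit 0) (nat_lit 788398644) (nat_lit 988) (nat_lit 2105945088) (nat_lit 1064) (nat_lit 3877388322) (nat_lit 598) (nat_lit 5) (nat_lit 611) (nat_lit 5) (nat_lit 612) (nat_lit 5) (nat_lit 316) (nat_lit 298) (nat_lit 286)))))) (XT.nd (nat_lit 390) (nat_lit 9576) (nat_lit 0) (XT.nd (nat_lit 156) (nat_lit 3800) (nat_lit 0) (XT.nd (nat_lit 78) (nat_lit 0) (nat_lit 0) (XT.lf (nat_lit 0) (nat_lit 99832491) (nat_lit 1064) (nat_lit 74481058) (nat_lit 1140) (nat_lit 6642600599) (nat_lit 583) (nat_lit 5) (nat_lit 597) (nat_lit 5) (nat_lit 598) (nat_lit 5) (nat_lit 317) (nat_lit 298) (nat_lit 285)) (XT.lf (nat_lit 0) (nat_lit 4215017460) (nat_lit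 1140) (nat_lit 561231666) (nat_lit 76) (nat_lit 2088353587) (nat_lit 583) (nat_lit 5) (nat_lit 598) (nat_lit 5) (nat_lit 584) (nat_lit 5) (nat_lit 318) (nat_lit 298) (nat_lit 284))) (XT.nd (nat_lit 78) (nat_lit 2584) (nat_lit 0) (XT.lf (nat_lit 0) (nat_lit 1351009661) (nat_lit 1216) (nat_lit 1173882599) (nat_lit 76) (nat_lit 4390563081) (nat_lit 567) (nat_lit 5) (nat_lit 583) (nat_lit 5) (nat_lit 568) (nat_lit 5) (nat_lit 319) (nat_lit 298) (nat_lit 283)) (XT.nd (nat_lit 78) (nat_lit 1368) (nat_lit 0) (XT.lf (nat_lit 0) (nat_lit 5220450184) (nat_lit 1216) (nat_lit 125149406) (nat_lit 1292) (nat_lit 1623745355) (nat_lit 551) (nat_lit 5) (nat_lit 567) (nat_lit 5) (nat_lit 568) (nat_lit 5) (nat_lit 320) (nat_lit 298) (nat_lit 282)) (XT.lf (nat_lit 0) (nat_lit 2331990565) (nat_lit 1368) (nat_lit 2301480884) (nat_lit 76) (nat_lit 2392546747) (nat_lit 533) (nat_lit 5) (nat_lit 551) (nat_lit 5) (nat_lit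 534) (nat_lit 5) (nat_lit 321) (nat_lit 298) (nat_lit 281))))) (XT.nd (nat_lit 234) (nat_lit 5168) (nat_lit 0) (XT.nd (nat_lit 78) (nat_lit 3040) (nat_lit 0) (XT.lf (nat_lit 0) (nat_lit 4271533695) (nat_lit 1368) (nat_lit 2030791600) (nat_lit 1444) (nat_lit 783548473) (nat_lit 515) (nat_lit 5) (nat_lit 533) (nat_lit 5) (nat_lit 534) (nat_lit 5) (nat_lit 322) (nat_lit 298) (nat_lit 280)) (XT.nd (nat_lit 78) (nat_lit 1520) (nat_lit 0) (XT.lf (nat_lit 0) (nat_lit 3126546753) (nat_lit 1520) (nat_lit 3302752261) (nat_lit 76) (nat_lit 719361508) (nat_lit 495) (nat_lit 5) (nat_lit 515) (nat_lit 5) (nat_lit 496) (nat_lit 5) (nat_lit 323) (nat_lit 298) (nat_lit 279)) (XT.lf (nat_lit 0) (nat_lit 3452435215) (nat_lit 1520) (nat_lit 3628475892) (nat_lit 1596) (nat_lit 133616189) (nat_lit 475) (nat_lit 5) (nat_lit 495) (nat_lit 5) (nat_lit 496) (nat_lit 5) (nat_lit 324) (nat_lit 298) (nat_lit 278)))) (XT.nd (nat_lit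 78) (nat_lit 3496) (nat_lit 0) (XT.lf (nat_lit 0) (nat_lit 3083407559) (nat_lit 1596) (nat_lit 664200710) (nat_lit 1672) (nat_lit 3535771835) (nat_lit 453) (nat_lit 5) (nat_lit 474) (nat_lit 5) (nat_lit 475) (nat_lit 5) (nat_lit 325) (nat_lit 298) (nat_lit 277)) (XT.nd (nat_lit 78) (nat_lit 1748) (nat_lit 0) (XT.lf (nat_lit 0) (nat_lit 329730831) (nat_lit 1748) (nat_lit 4612136157) (nat_lit 76) (nat_lit 2413497402) (nat_lit 430) (nat_lit 5) (nat_lit 453) (nat_lit 5) (nat_lit 431) (nat_lit 5) (nat_lit 326) (nat_lit 298) (nat_lit 276)) (XT.lf (nat_lit 0) (nat_lit 2420976348) (nat_lit 1748) (nat_lit 1780161673) (nat_lit 1824) (nat_lit 3229189166) (nat_lit 407) (nat_lit 5) (nat_lit 430) (nat_lit 5) (nat_lit 431) (nat_lit 5) (nat_lit 327) (nat_lit 298) (nat_lit 275))))))))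
noncomputable def xc43 : XT := (XT.nd (nat_lit 1560) (nat_lit 8740) (nat_lit 0) (XT.nd (nat_lit 780) (nat_lit 5928) (nat_lit 0) (XT.nd (nat_lit 390) (nat_lit 3952) (nat_lit 0) (XT.nd (nat_lit 156) (nat_lit 2660) (nat_lit 0) (XT.nd (nat_lit 78) (nat_lit 912) (nat_lit 0) (XT.lf (nat_lit 0) (nat_lit 618195367) (nat_lit 1216) (nat_lit 5379542687) (nat_lit 76) (nat_lit 1510836494) (nat_lit 391) (nat_lit 5) (nat_lit 407) (nat_lit 5) (nat_lit 392) (nat_lit 5) (nat_lit 328) (nat_lit 298) (nat_lit 274)) (XT.lf (nat_lit 0) (nat_lit 1846090675) (nat_lit 912) (nat_lit 2642569361) (nat_lit 988) (nat_lit 3101094241) (nat_lit 379) (nat_lit 5) (nat_lit 391) (nat_lit 5) (nat_lit 392) (nat_lit 5) (nat_lit 329) (nat_lit 298) (nat_lit 273))) (XT.nd (nat_lit 78) (nat_lit 1748) (nat_lit 0) (XT.lf (nat_lit 0) (nat_lit 738974038) (nat_lit 912) (nat_lit 6080829572) (nat_lit 76) (nat_lit 854549649) (nat_lit 367) (nat_lit 5)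 (nat_lit 379) (nat_lit 5) (nat_lit 368) (nat_lit 5) (nat_lit 330) (nat_lit 298) (nat_lit 272)) (XT.nd (nat_lit 78) (nat_lit 912) (nat_lit 0) (XT.lf (nat_lit 0) (nat_lit 1341535248) (nat_lit 836) (nat_lit 3273675737) (nat_lit 912) (nat_lit 3146646531) (nat_lit 356) (nat_lit 5) (nat_lit 367) (nat_lit 5) (nat_lit 368) (nat_lit 5) (nat_lit 331) (nat_lit 298) (nat_lit 271)) (XT.lf (nat_lit 0) (nat_lit 696295284) (nat_lit 912) (nat_lit 6733357972) (nat_lit 76) (nat_lit 423263679) (nat_lit 344) (nat_lit 5) (nat_lit 356) (nat_lit 5) (nat_lit 345) (nat_lit 5) (nat_lit 332) (nat_lit 298) (nat_lit 270))))) (XT.nd (nat_lit 156) (nat_lit 2280) (nat_lit 0) (XT.nd (nat_lit 78) (nat_lit 836) (nat_lit 0) (XT.lf (nat_lit 0) (nat_lit 890083470) (nat_lit 836) (nat_lit 3694543859) (nat_lit 912) (nat_lit 3362244028) (nat_lit 333) (nat_lit 5) (nat_lit 344) (nat_lit 5) (nat_lit 345) (nat_lit 5) (nat_lit 333) (nat_lit 298)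 (nat_lit 269)) (XT.lf (nat_lit 0) (nat_lit 493186364) (nat_lit 836) (nat_lit 7354613261) (nat_lit 76) (nat_lit 196720769) (nat_lit 322) (nat_lit 5) (nat_lit 333) (nat_lit 5) (nat_lit 323) (nat_lit 5) (nat_lit 334) (nat_lit 298) (nat_lit 268))) (XT.nd (nat_lit 78) (nat_lit 1520) (nat_lit 0) (XT.lf (nat_lit 0) (nat_lit 474346713) (nat_lit 760) (nat_lit 3925209423) (nat_lit 836) (nat_lit 3745512659) (nat_lit 312) (nat_lit 5) (nat_lit 322) (nat_lit 5) (nat_lit 323) (nat_lit 5) (nat_lit 335) (nat_lit 298) (nat_lit 267)) (XT.nd (nat_lit 78) (nat_lit 760) (nat_lit 0) (XT.lf (nat_lit 0) (nat_lit 131478934) (nat_lit 760) (nat_lit 7962357797) (nat_lit 76) (nat_lit 155620478) (nat_lit 302) (nat_lit 5) (nat_lit 312) (nat_lit 5) (nat_lit 303) (nat_lit 5) (nat_lit 336) (nat_lit 298) (nat_lit 266)) (XT.lf (nat_lit 0) (nat_lit 76618859) (nat_lit 760) (nat_lit 3984837971) (nat_lit 836) (nat_lit 4295304986) (nat_lit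 292) (nat_lit 5) (nat_lit 302) (nat_lit 5) (nat_lit 303) (nat_lit 5) (nat_lit 337) (nat_lit 298) (nat_lit 265)))))) (XT.nd (nat_lit 390) (nat_lit 3116) (nat_lit 0) (XT.nd (nat_lit 156) (nat_lit 2052) (nat_lit 0) (XT.nd (nat_lit 78) (nat_lit 760) (nat_lit 0) (XT.lf (nat_lit 0) (nat_lit 8075365603) (nat_lit 836) (nat_lit 107900063) (nat_lit 76) (nat_lit 284729325) (nat_lit 292) (nat_lit 5) (nat_lit 303) (nat_lit 5) (nat_lit 293) (nat_lit 5) (nat_lit 338) (nat_lit 298) (nat_lit 264)) (XT.lf (nat_lit 0) (nat_lit 3572679702) (nat_lit 760) (nat_lit 317071531) (nat_lit 76) (nat_lit 4692509079) (nat_lit 282) (nat_lit 5) (nat_lit 292) (nat_lit 5) (nat_lit 283) (nat_lit 5) (nat_lit 339) (nat_lit 298) (nat_lit 263))) (XT.nd (nat_lit 78) (nat_lit 1368) (nat_lit 0) (XT.lf (nat_lit 0) (nat_lit 7623334057) (nat_lit 760) (nat_lit 510377080) (nat_lit 76) (nat_lit 566783926) (nat_lit 273) (nat_lit 5) (nat_lit 283)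 (nat_lit 5) (nat_lit 274) (nat_lit 5) (nat_lit 340) (nat_lit 298) (nat_lit 262)) (XT.nd (nat_lit 78) (nat_lit 684) (nat_lit 0) (XT.lf (nat_lit 0) (nat_lit 2930811867) (nat_lit 684) (nat_lit 728517203) (nat_lit 76) (nat_lit 5162656645) (nat_lit 264) (nat_lit 5) (nat_lit 273) (nat_lit 5) (nat_lit 265) (nat_lit 5) (nat_lit 341) (nat_lit 298) (nat_lit 261)) (XT.lf (nat_lit 0) (nat_lit 7023435954) (nat_lit 760) (nat_lit 942145749) (nat_lit 76) (nat_lit 981841726) (nat_lit 255) (nat_lit 5) (nat_lit 265) (nat_lit 5) (nat_lit 256) (nat_lit 5) (nat_lit 342) (nat_lit 298) (nat_lit 260))))) (XT.nd (nat_lit 156) (nat_lit 1824) (nat_lit 0) (XT.nd (nat_lit 78) (nat_lit 608) (nat_lit 0) (XT.lf (nat_lit 0) (nat_lit 2133296940) (nat_lit 684) (nat_lit 1178124487) (nat_lit 76) (nat_lit 5764957710) (nat_lit 246) (nat_lit 5) (nat_lit 255) (nat_lit 5) (nat_lit 247) (nat_lit 5) (nat_lit 343) (nat_lit 298) (nat_lit 259))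 (XT.lf (nat_lit 0) (nat_lit 6273134764) (nat_lit 684) (nat_lit 1423037762) (nat_lit 76) (nat_lit 1513060877) (nat_lit 238) (nat_lit 5) (nat_lit 247) (nat_lit 5) (nat_lit 239) (nat_lit 5) (nat_lit 344) (nat_lit 298) (nat_lit 258))) (XT.nd (nat_lit 78) (nat_lit 1216) (nat_lit 0) (XT.lf (nat_lit 0) (nat_lit 1176806887) (nat_lit 608) (nat_lit 1686296236) (nat_lit 76) (nat_lit 6482811412) (nat_lit 230) (nat_lit 5) (nat_lit 238) (nat_lit 5) (nat_lit 231) (nat_lit 5) (nat_lit 345) (nat_lit 298) (nat_lit 257)) (XT.nd (nat_lit 78) (nat_lit 608) (nat_lit 0) (XT.lf (nat_lit 0) (nat_lit 5368616833) (nat_lit 684) (nat_lit 1973988669) (nat_lit 76) (nat_lit 2143816226) (nat_lit 222) (nat_lit 5) (nat_lit 231) (nat_lit 5) (nat_lit 223) (nat_lit 5) (nat_lit 346) (nat_lit 298) (nat_lit 256)) (XT.lf (nat_lit 0) (nat_lit 56698292) (nat_lit 608) (nat_lit 2274634992) (nat_lit 76) (nat_lit 7299776911) (nat_lit 214) (nat_lit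 5) (nat_lit 222) (nat_lit 5) (nat_lit 215) (nat_lit 5) (nat_lit 347) (nat_lit 298) (nat_lit 255))))))) (XT.nd (nat_lit 780) (nat_lit 3800) (nat_lit 0) (XT.nd (nat_lit 390) (nat_lit 2280) (nat_lit 0) (XT.nd (nat_lit 156) (nat_lit 1596) (nat_lit 0) (XT.nd (nat_lit 78) (nat_lit 532) (nat_lit 0) (XT.lf (nat_lit 0) (nat_lit 4304739596) (nat_lit 608) (nat_lit 2617242605) (nat_lit 76) (nat_lit 2857548047) (nat_lit 207) (nat_lit 5) (nat_lit 215) (nat_lit 5) (nat_lit 208) (nat_lit 5) (nat_lit 348) (nat_lit 298) (nat_lit 254)) (XT.lf (nat_lit 0) (nat_lit 6958100883) (nat_lit 532) (nat_lit 1724835817) (nat_lit 608) (nat_lit 1249431581) (nat_lit 200) (nat_lit 5) (nat_lit 207) (nat_lit 5) (nat_lit 208) (nat_lit 5) (nat_lit 349) (nat_lit 298) (nat_lit 253))) (XT.nd (nat_lit 78) (nat_lit 988) (nat_lit 0) (XT.lf (nat_lit 0) (nat_lit 3074968362) (nat_lit 608) (nat_lit 3376571983) (nat_lit 76) (nat_lit 3637607492)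 (nat_lit 192) (nat_lit 5) (nat_lit 200) (nat_lit 5) (nat_lit 193) (nat_lit 5) (nat_lit 350) (nat_lit 298) (nat_lit 252)) (XT.nd (nat_lit 78) (nat_lit 532) (nat_lit 0) (XT.lf (nat_lit 0) (nat_lit 6447158745) (nat_lit 456) (nat_lit 1067512667) (nat_lit 532) (nat_lit 2735761450) (nat_lit 186) (nat_lit 5) (nat_lit 192) (nat_lit 5) (nat_lit 193) (nat_lit 5) (nat_lit 351) (nat_lit 298) (nat_lit 251)) (XT.lf (nat_lit 0) (nat_lit 1671300938) (nat_lit 532) (nat_lit 4277514223) (nat_lit 76) (nat_lit 4467097447) (nat_lit 179) (nat_lit 5) (nat_lit 186) (nat_lit 5) (nat_lit 180) (nat_lit 5) (nat_lit 352) (nat_lit 298) (nat_lit 250))))) (XT.nd (nat_lit 156) (nat_lit 1292) (nat_lit 0) (XT.nd (nat_lit 78) (nat_lit 532) (nat_lit 0) (XT.lf (nat_lit 0) (nat_lit 5798090885) (nat_lit 456) (nat_lit 377243091) (nat_lit 532) (nat_lit 4410639359) (nat_lit 173) (nat_lit 5) (nat_lit 179) (nat_lit 5) (nat_lit 180) (nat_lit 5)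 (nat_lit 353) (nat_lit 298) (nat_lit 249)) (XT.lf (nat_lit 0) (nat_lit 84179270) (nat_lit 532) (nat_lit 5347627734) (nat_lit 76) (nat_lit 5328707406) (nat_lit 166) (nat_lit 5) (nat_lit 173) (nat_lit 5) (nat_lit 167) (nat_lit 5) (nat_lit 354) (nat_lit 298) (nat_lit 248))) (XT.nd (nat_lit 78) (nat_lit 912) (nat_lit 0) (XT.lf (nat_lit 0) (nat_lit 4657026278) (nat_lit 456) (nat_lit 5958985915) (nat_lit 76) (nat_lit 323649819) (nat_lit 161) (nat_lit 5) (nat_lit 167) (nat_lit 5) (nat_lit 162) (nat_lit 5) (nat_lit 355) (nat_lit 298) (nat_lit 247)) (XT.nd (nat_lit 78) (nat_lit 456) (nat_lit 0) (XT.lf (nat_lit 0) (nat_lit 4495536179) (nat_lit 456) (nat_lit 4907764845) (nat_lit 532) (nat_lit 1720173242) (nat_lit 155) (nat_lit 5) (nat_lit 161) (nat_lit 5) (nat_lit 162) (nat_lit 5) (nat_lit 356) (nat_lit 298) (nat_lit 246)) (XT.lf (nat_lit 0) (nat_lit 2948320168) (nat_lit 456) (nat_lit 7348098476) (nat_lit 76)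 (nat_lit 1015845151) (nat_lit 149) (nat_lit 5) (nat_lit 155) (nat_lit 5) (nat_lit 150) (nat_lit 5) (nat_lit 357) (nat_lit 298) (nat_lit 245)))))) (XT.nd (nat_lit 390) (nat_lit 1748) (nat_lit 0) (XT.nd (nat_lit 156) (nat_lit 1216) (nat_lit 0) (XT.nd (nat_lit 78) (nat_lit 456) (nat_lit 0) (XT.lf (nat_lit 0) (nat_lit 3364124720) (nat_lit 380) (nat_lit 4405588173) (nat_lit 456) (nat_lit 3736066340) (nat_lit 144) (nat_lit 5) (nat_lit 149) (nat_lit 5) (nat_lit 150) (nat_lit 5) (nat_lit 358) (nat_lit 298) (nat_lit 244)) (XT.lf (nat_lit 0) (nat_lit 1033095504) (nat_lit 456) (nat_lit 8986632676) (nat_lit 76) (nat_lit 1684932069) (nat_lit 138) (nat_lit 5) (nat_lit 144) (nat_lit 5) (nat_lit 139) (nat_lit 5) (nat_lit 359) (nat_lit 298) (nat_lit 243))) (XT.nd (nat_lit 78) (nat_lit 836) (nat_lit 0) (XT.lf (nat_lit 0) (nat_lit 1984592871) (nat_lit 380) (nat_lit 3946228755) (nat_lit 456) (nat_lit 5977480076) (nat_lit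 133) (nat_lit 5) (nat_lit 138) (nat_lit 5) (nat_lit 139) (nat_lit 5) (nat_lit 360) (nat_lit 298) (nat_lit 242)) (XT.nd (nat_lit 78) (nat_lit 456) (nat_lit 0) (XT.lf (nat_lit 0) (nat_lit 1198777621) (nat_lit 380) (nat_lit 9799862453) (nat_lit 456) (nat_lit 1118961610) (nat_lit 128) (nat_lit 5) (nat_lit 133) (nat_lit 5) (nat_lit 134) (nat_lit 5) (nat_lit 361) (nat_lit 298) (nat_lit 241)) (XT.lf (nat_lit 0) (nat_lit 319078089) (nat_lit 380) (nat_lit 3551288955) (nat_lit 456) (nat_lit 8461600772) (nat_lit 122) (nat_lit 5) (nat_lit 127) (nat_lit 5) (nat_lit 128) (nat_lit 5) (nat_lit 362) (nat_lit 298) (nat_lit 240))))) (XT.nd (nat_lit 234) (nat_lit 988) (nat_lit 0) (XT.nd (nat_lit 78) (nat_lit 760) (nat_lit 0) (XT.lf (nat_lit 0) (nat_lit 9028286362) (nat_lit 456) (nat_lit 625891383) (nat_lit 76) (nat_lit 2897768546) (nat_lit 122) (nat_lit 5) (nat_lit 128) (nat_lit 5) (nat_lit 123) (nat_lit 5) (nat_lit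 363) (nat_lit 298) (nat_lit 239)) (XT.nd (nat_lit 78) (nat_lit 380) (nat_lit 0) (XT.lf (nat_lit 0) (nat_lit 1580766092) (nat_lit 380) (nat_lit 1651957055) (nat_lit 76) (nat_lit 9544832311) (nat_lit 117) (nat_lit 5) (nat_lit 122) (nat_lit 5) (nat_lit 118) (nat_lit 5) (nat_lit 364) (nat_lit 298) (nat_lit 238)) (XT.lf (nat_lit 0) (nat_lit 6827189934) (nat_lit 456) (nat_lit 2780500324) (nat_lit 76) (nat_lit 3401052733) (nat_lit 112) (nat_lit 5) (nat_lit 118) (nat_lit 5) (nat_lit 113) (nat_lit 5) (nat_lit 365) (nat_lit 298) (nat_lit 237)))) (XT.nd (nat_lit 78) (nat_lit 684) (nat_lit 0) (XT.lf (nat_lit 0) (nat_lit 9252847875) (nat_lit 304) (nat_lit 3015272572) (nat_lit 380) (nat_lit 978013783) (nat_lit 108) (nat_lit 5) (nat_lit 112) (nat_lit 5) (nat_lit 113) (nat_lit 5) (nat_lit 366) (nat_lit 298) (nat_lit 236)) (XT.nd (nat_lit 78) (nat_lit 304) (nat_lit 0) (XT.lf (nat_lit 0) (nat_lit 4366100876) (nat_lit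 380) (nat_lit 5327884598) (nat_lit 76) (nat_lit 3795263922) (nat_lit 103) (nat_lit 5) (nat_lit 108) (nat_lit 5) (nat_lit 104) (nat_lit 5) (nat_lit 367) (nat_lit 298) (nat_lit 235)) (XT.lf (nat_lit 0) (nat_lit 6974356816) (nat_lit 304) (nat_lit 2921348630) (nat_lit 380) (nat_lit 3843063776) (nat_lit 99) (nat_lit 5) (nat_lit 103) (nat_lit 5) (nat_lit 104) (nat_lit 5) (nat_lit 368) (nat_lit 298) (nat_lit 234))))))))
noncomputable def xc44 : XT := (XT.nd (nat_lit 41808) (nat_lit 0) (nat_lit 32604) (XT.nd (nat_lit 780) (nat_lit 1444) (nat_lit 0) (XT.nd (nat_lit 390) (nat_lit 1368) (nat_lit 0) (XT.nd (nat_lit 156) (nat_lit 608) (nat_lit 0) (XT.nd (nat_lit 78) (nat_lit 304) (nat_lit 0) (XT.lf (nat_lit 0) (nat_lit 1620893298) (nat_lit 380) (nat_lit 8319873937) (nat_lit 76) (nat_lit 4053881471) (nat_lit 94) (nat_lit 5) (nat_lit 99) (nat_lit 5) (nat_lit 95) (nat_lit 5) (nat_lit 369) (nat_lit 298) (nat_lit 233))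 (XT.lf (nat_lit 0) (nat_lit 4247394883) (nat_lit 304) (nat_lit 2989883099) (nat_lit 380) (nat_lit 7019612965) (nat_lit 90) (nat_lit 5) (nat_lit 94) (nat_lit 5) (nat_lit 95) (nat_lit 5) (nat_lit 370) (nat_lit 298) (nat_lit 232))) (XT.nd (nat_lit 78) (nat_lit 304) (nat_lit 0) (XT.lf (nat_lit 0) (nat_lit 2703031157) (nat_lit 304) (nat_lit 10368451318) (nat_lit 380) (nat_lit 1454540004) (nat_lit 86) (nat_lit 5) (nat_lit 90) (nat_lit 5) (nat_lit 91) (nat_lit 5) (nat_lit 371) (nat_lit 298) (nat_lit 231)) (XT.nd (nat_lit 78) (nat_lit 0) (nat_lit 0) (XT.lf (nat_lit 0) (nat_lit 1013160663) (nat_lit 228) (nat_lit 3251658192) (nat_lit 304) (nat_lit 10536993161) (nat_lit 82) (nat_lit 5) (nat_lit 85) (nat_lit 5) (nat_lit 86) (nat_lit 5) (nat_lit 372) (nat_lit 298) (nat_lit 230)) (XT.lf (nat_lit 0) (nat_lit 10192574223) (nat_lit 304) (nat_lit 808210634) (nat_lit 76) (nat_lit 4083774485) (nat_lit 82) (nat_lit 5)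 (nat_lit 86) (nat_lit 5) (nat_lit 83) (nat_lit 5) (nat_lit 373) (nat_lit 298) (nat_lit 229))))) (XT.nd (nat_lit 156) (nat_lit 760) (nat_lit 0) (XT.nd (nat_lit 78) (nat_lit 228) (nat_lit 0) (XT.lf (nat_lit 0) (nat_lit 965153364) (nat_lit 380) (nat_lit 2756586723) (nat_lit 76) (nat_lit 11652839237) (nat_lit 77) (nat_lit 5) (nat_lit 82) (nat_lit 5) (nat_lit 78) (nat_lit 5) (nat_lit 374) (nat_lit 298) (nat_lit 228)) (XT.lf (nat_lit 0) (nat_lit 6984070440) (nat_lit 304) (nat_lit 4883551265) (nat_lit 76) (nat_lit 3803988270) (nat_lit 74) (nat_lit 5) (nat_lit 78) (nat_lit 5) (nat_lit 75) (nat_lit 5) (nat_lit 375) (nat_lit 298) (nat_lit 227))) (XT.nd (nat_lit 78) (nat_lit 532) (nat_lit 0) (XT.lf (nat_lit 0) (nat_lit 8810340563) (nat_lit 228) (nat_lit 4426208376) (nat_lit 304) (nat_lit 2739949850) (nat_lit 71) (nat_lit 5) (nat_lit 74) (nat_lit 5) (nat_lit 75) (nat_lit 5) (nat_lit 376) (nat_lit 298) (nat_lit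 226)) (XT.nd (nat_lit 78) (nat_lit 228) (nat_lit 0) (XT.lf (nat_lit 0) (nat_lit 3392469585) (nat_lit 304) (nat_lit 9632716499) (nat_lit 76) (nat_lit 3263899054) (nat_lit 67) (nat_lit 5) (nat_lit 71) (nat_lit 5) (nat_lit 68) (nat_lit 5) (nat_lit 377) (nat_lit 298) (nat_lit 225)) (XT.lf (nat_lit 0) (nat_lit 4311300053) (nat_lit 228) (nat_lit 5420358032) (nat_lit 304) (nat_lit 6877834918) (nat_lit 64) (nat_lit 5) (nat_lit 67) (nat_lit 5) (nat_lit 68) (nat_lit 5) (nat_lit 378) (nat_lit 298) (nat_lit 224)))))) (XT.nd (nat_lit 390) (nat_lit 456) (nat_lit 0) (XT.nd (nat_lit 156) (nat_lit 684) (nat_lit 0) (XT.nd (nat_lit 78) (nat_lit 76) (nat_lit 0) (XT.lf (nat_lit 0) (nat_lit 1796724846) (nat_lit 228) (nat_lit 14511322396) (nat_lit 304) (nat_lit 630531753) (nat_lit 61) (nat_lit 5) (nat_lit 64) (nat_lit 5) (nat_lit 65) (nat_lit 5) (nat_lit 379) (nat_lit 298) (nat_lit 223)) (XT.lf (nat_lit 0) (nat_lit 5802729242)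 (nat_lit 304) (nat_lit 944897048) (nat_lit 76) (nat_lit 10527670430) (nat_lit 60) (nat_lit 5) (nat_lit 64) (nat_lit 5) (nat_lit 61) (nat_lit 5) (nat_lit 380) (nat_lit 298) (nat_lit 222))) (XT.nd (nat_lit 78) (nat_lit 456) (nat_lit 0) (XT.lf (nat_lit 0) (nat_lit 12474313281) (nat_lit 304) (nat_lit 3850306587) (nat_lit 76) (nat_lit 1296340826) (nat_lit 57) (nat_lit 5) (nat_lit 61) (nat_lit 5) (nat_lit 58) (nat_lit 5) (nat_lit 381) (nat_lit 298) (nat_lit 221)) (XT.nd (nat_lit 78) (nat_lit 228) (nat_lit 0) (XT.lf (nat_lit 0) (nat_lit 1430984002) (nat_lit 228) (nat_lit 6996716988) (nat_lit 76) (nat_lit 9547523660) (nat_lit 54) (nat_lit 5) (nat_lit 57) (nat_lit 5) (nat_lit 55) (nat_lit 5) (nat_lit 382) (nat_lit 298) (nat_lit 220)) (XT.lf (nat_lit 0) (nat_lit 7961176102) (nat_lit 228) (nat_lit 210157622) (nat_lit 304) (nat_lit 10167401627) (nat_lit 51) (nat_lit 5) (nat_lit 54) (nat_lit 5) (nat_lit 55) (nat_lit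 5) (nat_lit 383) (nat_lit 298) (nat_lit 219))))) (XT.nd (nat_lit 156) (nat_lit 0) (nat_lit 0) (XT.nd (nat_lit 78) (nat_lit 304) (nat_lit 0) (XT.lf (nat_lit 0) (nat_lit 4685529078) (nat_lit 152) (nat_lit 10517646249) (nat_lit 228) (nat_lit 3508195717) (nat_lit 49) (nat_lit 5) (nat_lit 51) (nat_lit 5) (nat_lit 52) (nat_lit 5) (nat_lit 384) (nat_lit 298) (nat_lit 218)) (XT.lf (nat_lit 0) (nat_lit 1167702623) (nat_lit 228) (nat_lit 2176942462) (nat_lit 304) (nat_lit 15749354559) (nat_lit 45) (nat_lit 5) (nat_lit 48) (nat_lit 5) (nat_lit 49) (nat_lit 5) (nat_lit 385) (nat_lit 298) (nat_lit 217))) (XT.nd (nat_lit 40326) (nat_lit 0) (nat_lit 49324) (XT.lf (nat_lit 0) (nat_lit 10451588034) (nat_lit 304) (nat_lit 2615115948) (nat_lit 76) (nat_lit 6419020641) (nat_lit 45) (nat_lit 5) (nat_lit 49) (nat_lit 5) (nat_lit 46) (nat_lit 5) (nat_lit 386) (nat_lit 298) (nat_lit 216)) (XT.nd (nat_lit 78) (nat_lit 228)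 (nat_lit 0) (XT.lf (nat_lit 0) (nat_lit 1532299531) (nat_lit 76) (nat_lit 845475368) (nat_lit 76) (nat_lit 845475368) (nat_lit 697) (nat_lit 4) (nat_lit 698) (nat_lit 5) (nat_lit 698) (nat_lit 4) (nat_lit 302) (nat_lit 299) (nat_lit 299)) (XT.lf (nat_lit 0) (nat_lit 1505385378) (nat_lit 152) (nat_lit 1420138763) (nat_lit 228) (nat_lit 3526751420) (nat_lit 694) (nat_lit 5) (nat_lit 696) (nat_lit 5) (nat_lit 697) (nat_lit 4) (nat_lit 303) (nat_lit 299) (nat_lit 298))))))) (XT.nd (nat_lit 780) (nat_lit 12236) (nat_lit 0) (XT.nd (nat_lit 390) (nat_lit 2888) (nat_lit 0) (XT.nd (nat_lit 156) (nat_lit 1292) (nat_lit 0) (XT.nd (nat_lit 78) (nat_lit 0) (nat_lit 0) (XT.lf (nat_lit 0) (nat_lit 9802626) (nat_lit 228) (nat_lit 1019210071) (nat_lit 304) (nat_lit 5432041222) (nat_lit 690) (nat_lit 5) (nat_lit 693) (nat_lit 5) (nat_lit 694) (nat_lit 5) (nat_lit 304) (nat_lit 299) (nat_lit 297)) (XT.lf (nat_lit 0)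 (nat_lit 5061648002) (nat_lit 228) (nat_lit 472113792) (nat_lit 304) (nat_lit 938773630) (nat_lit 690) (nat_lit 5) (nat_lit 693) (nat_lit 5) (nat_lit 694) (nat_lit 5) (nat_lit 305) (nat_lit 299) (nat_lit 296))) (XT.nd (nat_lit 78) (nat_lit 912) (nat_lit 0) (XT.lf (nat_lit 0) (nat_lit 3496784751) (nat_lit 380) (nat_lit 2779796383) (nat_lit 76) (nat_lit 210288848) (nat_lit 685) (nat_lit 5) (nat_lit 690) (nat_lit 5) (nat_lit 686) (nat_lit 5) (nat_lit 306) (nat_lit 299) (nat_lit 295)) (XT.nd (nat_lit 78) (nat_lit 456) (nat_lit 0) (XT.lf (nat_lit 0) (nat_lit 1393553029) (nat_lit 456) (nat_lit 4094005934) (nat_lit 76) (nat_lit 1016595232) (nat_lit 679) (nat_lit 5) (nat_lit 685) (nat_lit 5) (nat_lit 680) (nat_lit 5) (nat_lit 307) (nat_lit 299) (nat_lit 294)) (XT.lf (nat_lit 0) (nat_lit 1167639418) (nat_lit 456) (nat_lit 4565408357) (nat_lit 532) (nat_lit 791311711) (nat_lit 673) (nat_lit 5) (nat_lit 679)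 (nat_lit 5) (nat_lit 680) (nat_lit 5) (nat_lit 308) (nat_lit 299) (nat_lit 293))))) (XT.nd (nat_lit 156) (nat_lit 2204) (nat_lit 0) (XT.nd (nat_lit 78) (nat_lit 608) (nat_lit 0) (XT.lf (nat_lit 0) (nat_lit 3478647034) (nat_lit 532) (nat_lit 25772951) (nat_lit 76) (nat_lit 3042987375) (nat_lit 672) (nat_lit 5) (nat_lit 679) (nat_lit 5) (nat_lit 673) (nat_lit 5) (nat_lit 309) (nat_lit 299) (nat_lit 292)) (XT.lf (nat_lit 0) (nat_lit 1158153637) (nat_lit 608) (nat_lit 1147531134) (nat_lit 76) (nat_lit 4267672754) (nat_lit 664) (nat_lit 5) (nat_lit 672) (nat_lit 5) (nat_lit 665) (nat_lit 5) (nat_lit 310) (nat_lit 299) (nat_lit 291))) (XT.nd (nat_lit 78) (nat_lit 1596) (nat_lit 0) (XT.lf (nat_lit 0) (nat_lit 4380175301) (nat_lit 608) (nat_lit 967408887) (nat_lit 684) (nat_lit 1254633833) (nat_lit 656) (nat_lit 5) (nat_lit 664) (nat_lit 5) (nat_lit 665) (nat_lit 5) (nat_lit 311) (nat_lit 299) (nat_lit 290))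 (XT.nd (nat_lit 78) (nat_lit 836) (nat_lit 0) (XT.lf (nat_lit 0) (nat_lit 2875399112) (nat_lit 760) (nat_lit 3253511448) (nat_lit 76) (nat_lit 505033753) (nat_lit 646) (nat_lit 5) (nat_lit 656) (nat_lit 5) (nat_lit 647) (nat_lit 5) (nat_lit 312) (nat_lit 299) (nat_lit 289)) (XT.lf (nat_lit 0) (nat_lit 331998864) (nat_lit 836) (nat_lit 4239006716) (nat_lit 76) (nat_lit 2097630264) (nat_lit 635) (nat_lit 5) (nat_lit 646) (nat_lit 5) (nat_lit 636) (nat_lit 5) (nat_lit 313) (nat_lit 299) (nat_lit 288)))))) (XT.nd (nat_lit 390) (nat_lit 8284) (nat_lit 0) (XT.nd (nat_lit 156) (nat_lit 2128) (nat_lit 0) (XT.nd (nat_lit 78) (nat_lit 988) (nat_lit 0) (XT.lf (nat_lit 0) (nat_lit 1518004904) (nat_lit 836) (nat_lit 2866385093) (nat_lit 912) (nat_lit 2321752599) (nat_lit 624) (nat_lit 5) (nat_lit 635) (nat_lit 5) (nat_lit 636) (nat_lit 5) (nat_lit 314) (nat_lit 299) (nat_lit 287)) (XT.lf (nat_lit 0) (nat_lit 657416781)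 (nat_lit 912) (nat_lit 1025922402) (nat_lit 988) (nat_lit 5063400567) (nat_lit 611) (nat_lit 5) (nat_lit 623) (nat_lit 5) (nat_lit 624) (nat_lit 5) (nat_lit 315) (nat_lit 299) (nat_lit 286))) (XT.nd (nat_lit 78) (nat_lit 2128) (nat_lit 0) (XT.lf (nat_lit 0) (nat_lit 5682283048) (nat_lit 988) (nat_lit 162094575) (nat_lit 76) (nat_lit 945834942) (nat_lit 611) (nat_lit 5) (nat_lit 624) (nat_lit 5) (nat_lit 612) (nat_lit 5) (nat_lit 316) (nat_lit 299) (nat_lit 285)) (XT.nd (nat_lit 78) (nat_lit 1064) (nat_lit 0) (XT.lf (nat_lit 0) (nat_lit 2839910617) (nat_lit 1064) (nat_lit 941030818) (nat_lit 76) (nat_lit 3055477001) (nat_lit 597) (nat_lit 5) (nat_lit 611) (nat_lit 5) (nat_lit 598) (nat_lit 5) (nat_lit 317) (nat_lit 299) (nat_lit 284)) (XT.lf (nat_lit 0) (nat_lit 5214403384) (nat_lit 1064) (nat_lit 1582057764) (nat_lit 1140) (nat_lit 89360575) (nat_lit 583) (nat_lit 5) (nat_lit 597) (nat_lit 5) (nat_lit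 598) (nat_lit 5) (nat_lit 318) (nat_lit 299) (nat_lit 283))))) (XT.nd (nat_lit 234) (nat_lit 4484) (nat_lit 0) (XT.nd (nat_lit 78) (nat_lit 2584) (nat_lit 0) (XT.lf (nat_lit 0) (nat_lit 3797001280) (nat_lit 1216) (nat_lit 2377554166) (nat_lit 76) (nat_lit 763429688) (nat_lit 567) (nat_lit 5) (nat_lit 583) (nat_lit 5) (nat_lit 568) (nat_lit 5) (nat_lit 319) (nat_lit 299) (nat_lit 282)) (XT.nd (nat_lit 78) (nat_lit 1292) (nat_lit 0) (XT.lf (nat_lit 0) (nat_lit 719298862) (nat_lit 1292) (nat_lit 3047477602) (nat_lit 76) (nat_lit 3226421692) (nat_lit 550) (nat_lit 5) (nat_lit 567) (nat_lit 5) (nat_lit 551) (nat_lit 5) (nat_lit 320) (nat_lit 299) (nat_lit 281)) (XT.lf (nat_lit 0) (nat_lit 3363811436) (nat_lit 1292) (nat_lit 1205094967) (nat_lit 1368) (nat_lit 2482478653) (nat_lit 533) (nat_lit 5) (nat_lit 550) (nat_lit 5) (nat_lit 551) (nat_lit 5) (nat_lit 321) (nat_lit 299) (nat_lit 280)))) (XT.nd (nat_lit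 78) (nat_lit 3040) (nat_lit 0) (XT.lf (nat_lit 0) (nat_lit 1332868095) (nat_lit 1444) (nat_lit 4297330786) (nat_lit 76) (nat_lit 1482410897) (nat_lit 514) (nat_lit 5) (nat_lit 533) (nat_lit 5) (nat_lit 515) (nat_lit 5) (nat_lit 322) (nat_lit 299) (nat_lit 279)) (XT.nd (nat_lit 78) (nat_lit 1596) (nat_lit 0) (XT.lf (nat_lit 0) (nat_lit 2292176517) (nat_lit 1444) (nat_lit 2867988461) (nat_lit 1520) (nat_lit 2016605980) (nat_lit 495) (nat_lit 5) (nat_lit 514) (nat_lit 5) (nat_lit 515) (nat_lit 5) (nat_lit 323) (nat_lit 299) (nat_lit 278)) (XT.lf (nat_lit 0) (nat_lit 1761249480) (nat_lit 1596) (nat_lit 5438616047) (nat_lit 76) (nat_lit 44275465) (nat_lit 474) (nat_lit 5) (nat_lit 495) (nat_lit 5) (nat_lit 475) (nat_lit 5) (nat_lit 324) (nat_lit 299) (nat_lit 277))))))))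
noncomputable def xc45 : XT := (XT.nd (nat_lit 1560) (nat_lit 9576) (nat_lit 0) (XT.nd (nat_lit 780) (nat_lit 7144) (nat_lit 0) (XT.nd (nat_lit 390) (nat_lit 4484) (nat_lit 0) (XT.nd (nat_lit 156) (nat_lit 2964) (nat_lit 0) (XT.nd (nat_lit 78) (nat_lit 1748) (nat_lit 0) (XT.lf (nat_lit 0) (nat_lit 1332688468) (nat_lit 1596) (nat_lit 4241331033) (nat_lit 1672) (nat_lit 1740314768) (nat_lit 453) (nat_lit 5) (nat_lit 474) (nat_lit 5) (nat_lit 475) (nat_lit 5) (nat_lit 325) (nat_lit 299) (nat_lit 276)) (XT.lf (nat_lit 0) (nat_lit 891297307) (nat_lit 1672) (nat_lit 1127909548) (nat_lit 1748) (nat_lit 5368549853) (nat_lit 430) (nat_lit 5) (nat_lit 452) (nat_lit 5) (nat_lit 453) (nat_lit 5) (nat_lit 326) (nat_lit 299) (nat_lit 275))) (XT.nd (nat_lit 78) (nat_lit 1216) (nat_lit 0) (XT.lf (nat_lit 0) (nat_lit 467771070) (nat_lit 1748) (nat_lit 5349700301) (nat_lit 1824) (nat_lit 1646732961) (nat_lit 407) (nat_lit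 5) (nat_lit 430) (nat_lit 5) (nat_lit 431) (nat_lit 5) (nat_lit 327) (nat_lit 299) (nat_lit 274)) (XT.nd (nat_lit 78) (nat_lit 0) (nat_lit 0) (XT.lf (nat_lit 0) (nat_lit 64115411) (nat_lit 1140) (nat_lit 2040091314) (nat_lit 1216) (nat_lit 5439574210) (nat_lit 391) (nat_lit 5) (nat_lit 406) (nat_lit 5) (nat_lit 407) (nat_lit 5) (nat_lit 328) (nat_lit 299) (nat_lit 273)) (XT.lf (nat_lit 0) (nat_lit 5898370817) (nat_lit 1216) (nat_lit 315713820) (nat_lit 76) (nat_lit 1412422347) (nat_lit 391) (nat_lit 5) (nat_lit 407) (nat_lit 5) (nat_lit 392) (nat_lit 5) (nat_lit 329) (nat_lit 299) (nat_lit 272))))) (XT.nd (nat_lit 156) (nat_lit 2660) (nat_lit 0) (XT.nd (nat_lit 78) (nat_lit 836) (nat_lit 0) (XT.lf (nat_lit 0) (nat_lit 2025573861) (nat_lit 988) (nat_lit 683991076) (nat_lit 76) (nat_lit 5002749107) (nat_lit 378) (nat_lit 5) (nat_lit 391) (nat_lit 5) (nat_lit 379) (nat_lit 5) (nat_lit 330) (nat_lit 299)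 (nat_lit 271)) (XT.lf (nat_lit 0) (nat_lit 5821859774) (nat_lit 912) (nat_lit 1033848709) (nat_lit 76) (nat_lit 945727606) (nat_lit 367) (nat_lit 5) (nat_lit 379) (nat_lit 5) (nat_lit 368) (nat_lit 5) (nat_lit 331) (nat_lit 299) (nat_lit 270))) (XT.nd (nat_lit 78) (nat_lit 1748) (nat_lit 0) (XT.lf (nat_lit 0) (nat_lit 1782792137) (nat_lit 912) (nat_lit 1379284474) (nat_lit 76) (nat_lit 4731590550) (nat_lit 355) (nat_lit 5) (nat_lit 367) (nat_lit 5) (nat_lit 356) (nat_lit 5) (nat_lit 332) (nat_lit 299) (nat_lit 269)) (XT.nd (nat_lit 78) (nat_lit 912) (nat_lit 0) (XT.lf (nat_lit 0) (nat_lit 5588400942) (nat_lit 912) (nat_lit 1709823435) (nat_lit 76) (nat_lit 691069014) (nat_lit 344) (nat_lit 5) (nat_lit 356) (nat_lit 5) (nat_lit 345) (nat_lit 5) (nat_lit 333) (nat_lit 299) (nat_lit 268)) (XT.lf (nat_lit 0) (nat_lit 1378274960) (nat_lit 912) (nat_lit 2039812993) (nat_lit 76) (nat_lit 4670019238) (nat_lit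 332) (nat_lit 5) (nat_lit 344) (nat_lit 5) (nat_lit 333) (nat_lit 5) (nat_lit 334) (nat_lit 299) (nat_lit 267)))))) (XT.nd (nat_lit 390) (nat_lit 3344) (nat_lit 0) (XT.nd (nat_lit 156) (nat_lit 2204) (nat_lit 0) (XT.nd (nat_lit 78) (nat_lit 836) (nat_lit 0) (XT.lf (nat_lit 0) (nat_lit 5200320353) (nat_lit 836) (nat_lit 2360886587) (nat_lit 76) (nat_lit 629151168) (nat_lit 322) (nat_lit 5) (nat_lit 333) (nat_lit 5) (nat_lit 323) (nat_lit 5) (nat_lit 335) (nat_lit 299) (nat_lit 266)) (XT.lf (nat_lit 0) (nat_lit 813665501) (nat_lit 836) (nat_lit 2683046092) (nat_lit 76) (nat_lit 4799219683) (nat_lit 311) (nat_lit 5) (nat_lit 322) (nat_lit 5) (nat_lit 312) (nat_lit 5) (nat_lit 336) (nat_lit 299) (nat_lit 265))) (XT.nd (nat_lit 78) (nat_lit 1520) (nat_lit 0) (XT.lf (nat_lit 0) (nat_lit 4658771236) (nat_lit 760) (nat_lit 3004632714) (nat_lit 76) (nat_lit 741544185) (nat_lit 302) (nat_lit 5) (nat_lit 312)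 (nat_lit 5) (nat_lit 303) (nat_lit 5) (nat_lit 337) (nat_lit 299) (nat_lit 264)) (XT.nd (nat_lit 78) (nat_lit 684) (nat_lit 0) (XT.lf (nat_lit 0) (nat_lit 89417089) (nat_lit 836) (nat_lit 3326871057) (nat_lit 76) (nat_lit 5101187523) (nat_lit 291) (nat_lit 5) (nat_lit 302) (nat_lit 5) (nat_lit 292) (nat_lit 5) (nat_lit 338) (nat_lit 299) (nat_lit 263)) (XT.lf (nat_lit 0) (nat_lit 3963725893) (nat_lit 760) (nat_lit 3659160771) (nat_lit 76) (nat_lit 1010534045) (nat_lit 282) (nat_lit 5) (nat_lit 292) (nat_lit 5) (nat_lit 283) (nat_lit 5) (nat_lit 339) (nat_lit 299) (nat_lit 262))))) (XT.nd (nat_lit 156) (nat_lit 1976) (nat_lit 0) (XT.nd (nat_lit 78) (nat_lit 684) (nat_lit 0) (XT.lf (nat_lit 0) (nat_lit 4758024675) (nat_lit 684) (nat_lit 3189199790) (nat_lit 760) (nat_lit 805787397) (nat_lit 273) (nat_lit 5) (nat_lit 282) (nat_lit 5) (nat_lit 283) (nat_lit 5) (nat_lit 340) (nat_lit 299) (nat_lit 261))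 (XT.lf (nat_lit 0) (nat_lit 3113958239) (nat_lit 684) (nat_lit 4343240100) (nat_lit 76) (nat_lit 1418974944) (nat_lit 264) (nat_lit 5) (nat_lit 273) (nat_lit 5) (nat_lit 265) (nat_lit 5) (nat_lit 341) (nat_lit 299) (nat_lit 260))) (XT.nd (nat_lit 78) (nat_lit 1292) (nat_lit 0) (XT.lf (nat_lit 0) (nat_lit 4299990530) (nat_lit 684) (nat_lit 2836338338) (nat_lit 760) (nat_lit 1866699480) (nat_lit 255) (nat_lit 5) (nat_lit 264) (nat_lit 5) (nat_lit 265) (nat_lit 5) (nat_lit 342) (nat_lit 299) (nat_lit 259)) (XT.nd (nat_lit 78) (nat_lit 608) (nat_lit 0) (XT.lf (nat_lit 0) (nat_lit 2107016730) (nat_lit 684) (nat_lit 5076485404) (nat_lit 76) (nat_lit 1950142506) (nat_lit 246) (nat_lit 5) (nat_lit 255) (nat_lit 5) (nat_lit 247) (nat_lit 5) (nat_lit 343) (nat_lit 299) (nat_lit 258)) (XT.lf (nat_lit 0) (nat_lit 3797389535) (nat_lit 608) (nat_lit 2375202206) (nat_lit 684) (nat_lit 3095403768) (nat_lit 238) (nat_lit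 5) (nat_lit 246) (nat_lit 5) (nat_lit 247) (nat_lit 5) (nat_lit 344) (nat_lit 299) (nat_lit 257))))))) (XT.nd (nat_lit 780) (nat_lit 4636) (nat_lit 0) (XT.nd (nat_lit 390) (nat_lit 2052) (nat_lit 0) (XT.nd (nat_lit 156) (nat_lit 1672) (nat_lit 0) (XT.nd (nat_lit 78) (nat_lit 608) (nat_lit 0) (XT.lf (nat_lit 0) (nat_lit 939187242) (nat_lit 608) (nat_lit 5879542305) (nat_lit 76) (nat_lit 2587586659) (nat_lit 230) (nat_lit 5) (nat_lit 238) (nat_lit 5) (nat_lit 231) (nat_lit 5) (nat_lit 345) (nat_lit 299) (nat_lit 256)) (XT.lf (nat_lit 0) (nat_lit 3229420538) (nat_lit 608) (nat_lit 1822505639) (nat_lit 684) (nat_lit 4496489127) (nat_lit 222) (nat_lit 5) (nat_lit 230) (nat_lit 5) (nat_lit 231) (nat_lit 5) (nat_lit 346) (nat_lit 299) (nat_lit 255))) (XT.nd (nat_lit 78) (nat_lit 1140) (nat_lit 0) (XT.lf (nat_lit 0) (nat_lit 2917780790) (nat_lit 532) (nat_lit 6377082947) (nat_lit 608) (nat_lit 399797976)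 (nat_lit 215) (nat_lit 5) (nat_lit 222) (nat_lit 5) (nat_lit 223) (nat_lit 5) (nat_lit 347) (nat_lit 299) (nat_lit 254)) (XT.nd (nat_lit 78) (nat_lit 532) (nat_lit 0) (XT.lf (nat_lit 0) (nat_lit 2573990288) (nat_lit 532) (nat_lit 1194930247) (nat_lit 608) (nat_lit 6075914159) (nat_lit 207) (nat_lit 5) (nat_lit 214) (nat_lit 5) (nat_lit 215) (nat_lit 5) (nat_lit 348) (nat_lit 299) (nat_lit 253)) (XT.lf (nat_lit 0) (nat_lit 2202625536) (nat_lit 532) (nat_lit 5870673072) (nat_lit 608) (nat_lit 1925859909) (nat_lit 200) (nat_lit 5) (nat_lit 207) (nat_lit 5) (nat_lit 208) (nat_lit 5) (nat_lit 349) (nat_lit 299) (nat_lit 252))))) (XT.nd (nat_lit 156) (nat_lit 988) (nat_lit 0) (XT.nd (nat_lit 78) (nat_lit 456) (nat_lit 0) (XT.lf (nat_lit 0) (nat_lit 1807494974) (nat_lit 532) (nat_lit 509280015) (nat_lit 608) (nat_lit 7841072605) (nat_lit 192) (nat_lit 5) (nat_lit 199) (nat_lit 5) (nat_lit 200) (nat_lit 5)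 (nat_lit 350) (nat_lit 299) (nat_lit 251)) (XT.lf (nat_lit 0) (nat_lit 1363194180) (nat_lit 456) (nat_lit 5322900800) (nat_lit 532) (nat_lit 3634453996) (nat_lit 186) (nat_lit 5) (nat_lit 192) (nat_lit 5) (nat_lit 193) (nat_lit 5) (nat_lit 351) (nat_lit 299) (nat_lit 250))) (XT.nd (nat_lit 78) (nat_lit 456) (nat_lit 0) (XT.lf (nat_lit 0) (nat_lit 688637227) (nat_lit 532) (nat_lit 9584923441) (nat_lit 76) (nat_lit 214508181) (nat_lit 179) (nat_lit 5) (nat_lit 186) (nat_lit 5) (nat_lit 180) (nat_lit 5) (nat_lit 352) (nat_lit 299) (nat_lit 249)) (XT.nd (nat_lit 78) (nat_lit 0) (nat_lit 0) (XT.lf (nat_lit 0) (nat_lit 373195806) (nat_lit 456) (nat_lit 4751246720) (nat_lit 532) (nat_lit 5535059639) (nat_lit 173) (nat_lit 5) (nat_lit 179) (nat_lit 5) (nat_lit 180) (nat_lit 5) (nat_lit 353) (nat_lit 299) (nat_lit 248)) (XT.lf (nat_lit 0) (nat_lit 9698958995) (nat_lit 532) (nat_lit 173726029) (nat_lit 76)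 (nat_lit 963296551) (nat_lit 173) (nat_lit 5) (nat_lit 180) (nat_lit 5) (nat_lit 174) (nat_lit 5) (nat_lit 354) (nat_lit 299) (nat_lit 247)))))) (XT.nd (nat_lit 390) (nat_lit 2432) (nat_lit 0) (XT.nd (nat_lit 156) (nat_lit 1292) (nat_lit 0) (XT.nd (nat_lit 78) (nat_lit 380) (nat_lit 0) (XT.lf (nat_lit 0) (nat_lit 3383110328) (nat_lit 532) (nat_lit 785362620) (nat_lit 76) (nat_lit 6848163826) (nat_lit 166) (nat_lit 5) (nat_lit 173) (nat_lit 5) (nat_lit 167) (nat_lit 5) (nat_lit 355) (nat_lit 299) (nat_lit 246)) (XT.lf (nat_lit 0) (nat_lit 8036486783) (nat_lit 456) (nat_lit 1435518247) (nat_lit 76) (nat_lit 1730309175) (nat_lit 161) (nat_lit 5) (nat_lit 167) (nat_lit 5) (nat_lit 162) (nat_lit 5) (nat_lit 356) (nat_lit 299) (nat_lit 245))) (XT.nd (nat_lit 78) (nat_lit 760) (nat_lit 0) (XT.lf (nat_lit 0) (nat_lit 1448622432) (nat_lit 532) (nat_lit 2146128110) (nat_lit 76) (nat_lit 7798007846) (nat_lit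 154) (nat_lit 5) (nat_lit 161) (nat_lit 5) (nat_lit 155) (nat_lit 5) (nat_lit 357) (nat_lit 299) (nat_lit 244)) (XT.nd (nat_lit 78) (nat_lit 380) (nat_lit 0) (XT.lf (nat_lit 0) (nat_lit 6180111757) (nat_lit 456) (nat_lit 2921260784) (nat_lit 76) (nat_lit 2486706014) (nat_lit 149) (nat_lit 5) (nat_lit 155) (nat_lit 5) (nat_lit 150) (nat_lit 5) (nat_lit 358) (nat_lit 299) (nat_lit 243)) (XT.lf (nat_lit 0) (nat_lit 8036932500) (nat_lit 380) (nat_lit 3047343816) (nat_lit 456) (nat_lit 704380527) (nat_lit 144) (nat_lit 5) (nat_lit 149) (nat_lit 5) (nat_lit 150) (nat_lit 5) (nat_lit 359) (nat_lit 299) (nat_lit 242))))) (XT.nd (nat_lit 234) (nat_lit 1140) (nat_lit 0) (XT.nd (nat_lit 78) (nat_lit 836) (nat_lit 0) (XT.lf (nat_lit 0) (nat_lit 4115450892) (nat_lit 456) (nat_lit 4665570430) (nat_lit 76) (nat_lit 3213117253) (nat_lit 138) (nat_lit 5) (nat_lit 144) (nat_lit 5) (nat_lit 139) (nat_lit 5) (nat_lit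 360) (nat_lit 299) (nat_lit 241)) (XT.nd (nat_lit 78) (nat_lit 456) (nat_lit 0) (XT.lf (nat_lit 0) (nat_lit 6560313860) (nat_lit 380) (nat_lit 2540242358) (nat_lit 456) (nat_lit 3104542577) (nat_lit 133) (nat_lit 5) (nat_lit 138) (nat_lit 5) (nat_lit 139) (nat_lit 5) (nat_lit 361) (nat_lit 299) (nat_lit 240)) (XT.lf (nat_lit 0) (nat_lit 1826116274) (nat_lit 456) (nat_lit 6706287900) (nat_lit 76) (nat_lit 3889018496) (nat_lit 127) (nat_lit 5) (nat_lit 133) (nat_lit 5) (nat_lit 128) (nat_lit 5) (nat_lit 362) (nat_lit 299) (nat_lit 239)))) (XT.nd (nat_lit 78) (nat_lit 760) (nat_lit 0) (XT.lf (nat_lit 0) (nat_lit 4787731985) (nat_lit 380) (nat_lit 2104912036) (nat_lit 456) (nat_lit 5750590478) (nat_lit 122) (nat_lit 5) (nat_lit 127) (nat_lit 5) (nat_lit 128) (nat_lit 5) (nat_lit 363) (nat_lit 299) (nat_lit 238)) (XT.nd (nat_lit 78) (nat_lit 456) (nat_lit 0) (XT.lf (nat_lit 0) (nat_lit 3781323984) (nat_lit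 304) (nat_lit 8373671077) (nat_lit 380) (nat_lit 715839957) (nat_lit 118) (nat_lit 5) (nat_lit 122) (nat_lit 5) (nat_lit 123) (nat_lit 5) (nat_lit 364) (nat_lit 299) (nat_lit 237)) (XT.lf (nat_lit 0) (nat_lit 2676666121) (nat_lit 380) (nat_lit 1764617789) (nat_lit 456) (nat_lit 8662810466) (nat_lit 112) (nat_lit 5) (nat_lit 117) (nat_lit 5) (nat_lit 118) (nat_lit 5) (nat_lit 365) (nat_lit 299) (nat_lit 236))))))))
noncomputable def xc46 : XT := (XT.nd (nat_lit 1560) (nat_lit 304) (nat_lit 0) (XT.nd (nat_lit 780) (nat_lit 1900) (nat_lit 0) (XT.nd (nat_lit 390) (nat_lit 1520) (nat_lit 0) (XT.nd (nat_lit 156) (nat_lit 684) (nat_lit 0) (XT.nd (nat_lit 78) (nat_lit 380) (nat_lit 0) (XT.lf (nat_lit 0) (nat_lit 1473438250) (nat_lit 304) (nat_lit 8320099682) (nat_lit 380) (nat_lit 3549726167) (nat_lit 108) (nat_lit 5) (nat_lit 112) (nat_lit 5) (nat_lit 113) (nat_lit 5) (nat_lit 366) (nat_lit 299) (nat_lit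 235)) (XT.lf (nat_lit 0) (nat_lit 180399235) (nat_lit 304) (nat_lit 1544387489) (nat_lit 380) (nat_lit 11863997809) (nat_lit 103) (nat_lit 5) (nat_lit 107) (nat_lit 5) (nat_lit 108) (nat_lit 5) (nat_lit 367) (nat_lit 299) (nat_lit 234))) (XT.nd (nat_lit 78) (nat_lit 684) (nat_lit 0) (XT.lf (nat_lit 0) (nat_lit 7173108699) (nat_lit 380) (nat_lit 1228922162) (nat_lit 76) (nat_lit 5437903730) (nat_lit 103) (nat_lit 5) (nat_lit 108) (nat_lit 5) (nat_lit 104) (nat_lit 5) (nat_lit 368) (nat_lit 299) (nat_lit 233)) (XT.nd (nat_lit 78) (nat_lit 380) (nat_lit 0) (XT.lf (nat_lit 0) (nat_lit 11373292541) (nat_lit 304) (nat_lit 1444568739) (nat_lit 380) (nat_lit 1280107276) (nat_lit 99) (nat_lit 5) (nat_lit 103) (nat_lit 5) (nat_lit 104) (nat_lit 5) (nat_lit 369) (nat_lit 299) (nat_lit 232)) (XT.lf (nat_lit 0) (nat_lit 4272798837) (nat_lit 380) (nat_lit 4370593923) (nat_lit 76) (nat_lit 5718593843) (nat_lit 94)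 (nat_lit 5) (nat_lit 99) (nat_lit 5) (nat_lit 95) (nat_lit 5) (nat_lit 370) (nat_lit 299) (nat_lit 231))))) (XT.nd (nat_lit 156) (nat_lit 836) (nat_lit 0) (XT.nd (nat_lit 78) (nat_lit 380) (nat_lit 0) (XT.lf (nat_lit 0) (nat_lit 8505571183) (nat_lit 304) (nat_lit 1503099824) (nat_lit 380) (nat_lit 4624417884) (nat_lit 90) (nat_lit 5) (nat_lit 94) (nat_lit 5) (nat_lit 95) (nat_lit 5) (nat_lit 371) (nat_lit 299) (nat_lit 230)) (XT.lf (nat_lit 0) (nat_lit 1055007412) (nat_lit 380) (nat_lit 8029540169) (nat_lit 76) (nat_lit 5826376517) (nat_lit 85) (nat_lit 5) (nat_lit 90) (nat_lit 5) (nat_lit 86) (nat_lit 5) (nat_lit 372) (nat_lit 299) (nat_lit 229))) (XT.nd (nat_lit 78) (nat_lit 608) (nat_lit 0) (XT.lf (nat_lit 0) (nat_lit 5114828377) (nat_lit 228) (nat_lit 1764110941) (nat_lit 304) (nat_lit 8316812372) (nat_lit 82) (nat_lit 5) (nat_lit 85) (nat_lit 5) (nat_lit 86) (nat_lit 5) (nat_lit 373) (nat_lit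 299) (nat_lit 228)) (XT.nd (nat_lit 78) (nat_lit 304) (nat_lit 0) (XT.lf (nat_lit 0) (nat_lit 3200878560) (nat_lit 304) (nat_lit 9742009871) (nat_lit 380) (nat_lit 2544937176) (nat_lit 78) (nat_lit 5) (nat_lit 82) (nat_lit 5) (nat_lit 83) (nat_lit 5) (nat_lit 374) (nat_lit 299) (nat_lit 227)) (XT.lf (nat_lit 0) (nat_lit 1134380420) (nat_lit 228) (nat_lit 2261863300) (nat_lit 304) (nat_lit 12391168785) (nat_lit 74) (nat_lit 5) (nat_lit 77) (nat_lit 5) (nat_lit 78) (nat_lit 5) (nat_lit 375) (nat_lit 299) (nat_lit 226)))))) (XT.nd (nat_lit 390) (nat_lit 836) (nat_lit 0) (XT.nd (nat_lit 156) (nat_lit 836) (nat_lit 0) (XT.nd (nat_lit 78) (nat_lit 228) (nat_lit 0) (XT.lf (nat_lit 0) (nat_lit 9553924953) (nat_lit 304) (nat_lit 1098166527) (nat_lit 76) (nat_lit 5442109192) (nat_lit 74) (nat_lit 5) (nat_lit 78) (nat_lit 5) (nat_lit 75) (nat_lit 5) (nat_lit 376) (nat_lit 299) (nat_lit 225)) (XT.lf (nat_lit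 0) (nat_lit 12942751792) (nat_lit 228) (nat_lit 3007592747) (nat_lit 304) (nat_lit 458774499) (nat_lit 71) (nat_lit 5) (nat_lit 74) (nat_lit 5) (nat_lit 75) (nat_lit 5) (nat_lit 377) (nat_lit 299) (nat_lit 224))) (XT.nd (nat_lit 78) (nat_lit 532) (nat_lit 0) (XT.lf (nat_lit 0) (nat_lit 5793638013) (nat_lit 304) (nat_lit 6049462100) (nat_lit 76) (nat_lit 4888345369) (nat_lit 67) (nat_lit 5) (nat_lit 71) (nat_lit 5) (nat_lit 68) (nat_lit 5) (nat_lit 378) (nat_lit 299) (nat_lit 223)) (XT.nd (nat_lit 78) (nat_lit 304) (nat_lit 0) (XT.lf (nat_lit 0) (nat_lit 8250052521) (nat_lit 228) (nat_lit 4030710235) (nat_lit 304) (nat_lit 4781557062) (nat_lit 64) (nat_lit 5) (nat_lit 67) (nat_lit 5) (nat_lit 68) (nat_lit 5) (nat_lit 379) (nat_lit 299) (nat_lit 222)) (XT.lf (nat_lit 0) (nat_lit 1599866969) (nat_lit 304) (nat_lit 11779398455) (nat_lit 76) (nat_lit 4022439620) (nat_lit 60) (nat_lit 5) (nat_lit 64) (nat_lit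 5) (nat_lit 61) (nat_lit 5) (nat_lit 380) (nat_lit 299) (nat_lit 221))))) (XT.nd (nat_lit 156) (nat_lit 608) (nat_lit 0) (XT.nd (nat_lit 78) (nat_lit 0) (nat_lit 0) (XT.lf (nat_lit 0) (nat_lit 2764463616) (nat_lit 228) (nat_lit 5405827353) (nat_lit 304) (nat_lit 9579104074) (nat_lit 57) (nat_lit 5) (nat_lit 60) (nat_lit 5) (nat_lit 61) (nat_lit 5) (nat_lit 381) (nat_lit 299) (nat_lit 220)) (XT.lf (nat_lit 0) (nat_lit 14994126490) (nat_lit 304) (nat_lit 291192911) (nat_lit 76) (nat_lit 2821075931) (nat_lit 57) (nat_lit 5) (nat_lit 61) (nat_lit 5) (nat_lit 58) (nat_lit 5) (nat_lit 382) (nat_lit 299) (nat_lit 219))) (XT.nd (nat_lit 78) (nat_lit 380) (nat_lit 0) (XT.lf (nat_lit 0) (nat_lit 3594697043) (nat_lit 228) (nat_lit 3563159018) (nat_lit 76) (nat_lit 11313940757) (nat_lit 54) (nat_lit 5) (nat_lit 57) (nat_lit 5) (nat_lit 55) (nat_lit 5) (nat_lit 383) (nat_lit 299) (nat_lit 218)) (XT.nd (nat_lit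 78) (nat_lit 152) (nat_lit 0) (XT.lf (nat_lit 0) (nat_lit 10507105809) (nat_lit 304) (nat_lit 7070977555) (nat_lit 76) (nat_lit 1268740339) (nat_lit 51) (nat_lit 5) (nat_lit 55) (nat_lit 5) (nat_lit 52) (nat_lit 5) (nat_lit 384) (nat_lit 299) (nat_lit 217)) (XT.lf (nat_lit 0) (nat_lit 8383924540) (nat_lit 152) (nat_lit 9329550195) (nat_lit 228) (nat_lit 1517899893) (nat_lit 49) (nat_lit 5) (nat_lit 51) (nat_lit 5) (nat_lit 52) (nat_lit 5) (nat_lit 385) (nat_lit 299) (nat_lit 216))))))) (XT.nd (nat_lit 40872) (nat_lit 0) (nat_lit 39672) (XT.nd (nat_lit 40482) (nat_lit 0) (nat_lit 47652) (XT.nd (nat_lit 40248) (nat_lit 0) (nat_lit 49248) (XT.nd (nat_lit 40170) (nat_lit 0) (nat_lit 49704) (XT.lf (nat_lit 0) (nat_lit 4730123717) (nat_lit 228) (nat_lit 745586459) (nat_lit 304) (nat_lit 14150253687) (nat_lit 45) (nat_lit 5) (nat_lit 48) (nat_lit 5) (nat_lit 49) (nat_lit 5) (nat_lit 386) (nat_lit 299) (nat_lit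 215)) (XT.lf (nat_lit 0) (nat_lit 1073741823) (nat_lit 0) (nat_lit 0) (nat_lit 0) (nat_lit 0) (nat_lit 699) (nat_lit 0) (nat_lit 1) (nat_lit 0) (nat_lit 1) (nat_lit 0) (nat_lit 300) (nat_lit 300) (nat_lit 300))) (XT.nd (nat_lit 78) (nat_lit 380) (nat_lit 0) (XT.lf (nat_lit 0) (nat_lit 4612304122) (nat_lit 76) (nat_lit 1755404880) (nat_lit 0) (nat_lit 76005532) (nat_lit 698) (nat_lit 5) (nat_lit 699) (nat_lit 0) (nat_lit 698) (nat_lit 4) (nat_lit 301) (nat_lit 300) (nat_lit 299)) (XT.nd (nat_lit 78) (nat_lit 228) (nat_lit 0) (XT.lf (nat_lit 0) (nat_lit 2718703238) (nat_lit 152) (nat_lit 3448691434) (nat_lit 76) (nat_lit 280581872) (nat_lit 696) (nat_lit 5) (nat_lit 698) (nat_lit 5) (nat_lit 697) (nat_lit 4) (nat_lit 302) (nat_lit 300) (nat_lit 298)) (XT.lf (nat_lit 0) (nat_lit 760014816) (nat_lit 228) (nat_lit 5081289301) (nat_lit 76) (nat_lit 613936018) (nat_lit 693) (nat_lit 5) (nat_lit 696) (nat_lit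 5) (nat_lit 694) (nat_lit 5) (nat_lit 303) (nat_lit 300) (nat_lit 297))))) (XT.nd (nat_lit 156) (nat_lit 1292) (nat_lit 0) (XT.nd (nat_lit 78) (nat_lit 304) (nat_lit 0) (XT.lf (nat_lit 0) (nat_lit 5184347654) (nat_lit 228) (nat_lit 194956417) (nat_lit 76) (nat_lit 1086014474) (nat_lit 693) (nat_lit 5) (nat_lit 696) (nat_lit 5) (nat_lit 694) (nat_lit 5) (nat_lit 304) (nat_lit 300) (nat_lit 296)) (XT.lf (nat_lit 0) (nat_lit 3085337358) (nat_lit 304) (nat_lit 1691102933) (nat_lit 76) (nat_lit 1701691066) (nat_lit 689) (nat_lit 5) (nat_lit 693) (nat_lit 5) (nat_lit 690) (nat_lit 5) (nat_lit 305) (nat_lit 300) (nat_lit 295))) (XT.nd (nat_lit 78) (nat_lit 912) (nat_lit 0) (XT.lf (nat_lit 0) (nat_lit 917623741) (nat_lit 380) (nat_lit 3128708841) (nat_lit 76) (nat_lit 2447634568) (nat_lit 684) (nat_lit 5) (nat_lit 689) (nat_lit 5) (nat_lit 685) (nat_lit 5) (nat_lit 306) (nat_lit 300) (nat_lit 294)) (XT.nd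 (nat_lit 78) (nat_lit 532) (nat_lit 0) (XT.lf (nat_lit 0) (nat_lit 1995026106) (nat_lit 380) (nat_lit 3179374784) (nat_lit 456) (nat_lit 1338263023) (nat_lit 679) (nat_lit 5) (nat_lit 684) (nat_lit 5) (nat_lit 685) (nat_lit 5) (nat_lit 307) (nat_lit 300) (nat_lit 293)) (XT.lf (nat_lit 0) (nat_lit 677446427) (nat_lit 456) (nat_lit 2176910076) (nat_lit 532) (nat_lit 3679922672) (nat_lit 672) (nat_lit 5) (nat_lit 678) (nat_lit 5) (nat_lit 679) (nat_lit 5) (nat_lit 308) (nat_lit 300) (nat_lit 292)))))) (XT.nd (nat_lit 390) (nat_lit 5168) (nat_lit 0) (XT.nd (nat_lit 156) (nat_lit 2204) (nat_lit 0) (XT.nd (nat_lit 78) (nat_lit 532) (nat_lit 0) (XT.lf (nat_lit 0) (nat_lit 465476225) (nat_lit 532) (nat_lit 574743132) (nat_lit 76) (nat_lit 5518654756) (nat_lit 671) (nat_lit 5) (nat_lit 678) (nat_lit 5) (nat_lit 672) (nat_lit 5) (nat_lit 309) (nat_lit 300) (nat_lit 291)) (XT.lf (nat_lit 0) (nat_lit 4567147145)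 (nat_lit 608) (nat_lit 1776754444) (nat_lit 76) (nat_lit 242266255) (nat_lit 664) (nat_lit 5) (nat_lit 672) (nat_lit 5) (nat_lit 665) (nat_lit 5) (nat_lit 310) (nat_lit 300) (nat_lit 290))) (XT.nd (nat_lit 78) (nat_lit 1520) (nat_lit 0) (XT.lf (nat_lit 0) (nat_lit 2036031729) (nat_lit 684) (nat_lit 2934900632) (nat_lit 76) (nat_lit 1645406622) (nat_lit 655) (nat_lit 5) (nat_lit 664) (nat_lit 5) (nat_lit 656) (nat_lit 5) (nat_lit 311) (nat_lit 300) (nat_lit 289)) (XT.nd (nat_lit 78) (nat_lit 836) (nat_lit 0) (XT.lf (nat_lit 0) (nat_lit 2605520717) (nat_lit 684) (nat_lit 3464583487) (nat_lit 760) (nat_lit 579427209) (nat_lit 646) (nat_lit 5) (nat_lit 655) (nat_lit 5) (nat_lit 656) (nat_lit 5) (nat_lit 312) (nat_lit 300) (nat_lit 288)) (XT.lf (nat_lit 0) (nat_lit 1570476755) (nat_lit 760) (nat_lit 1812964651) (nat_lit 836) (nat_lit 3302125403) (nat_lit 635) (nat_lit 5) (nat_lit 645) (nat_lit 5) (nat_lit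 646) (nat_lit 5) (nat_lit 313) (nat_lit 300) (nat_lit 287))))) (XT.nd (nat_lit 234) (nat_lit 3268) (nat_lit 0) (XT.nd (nat_lit 78) (nat_lit 988) (nat_lit 0) (XT.lf (nat_lit 0) (nat_lit 589178336) (nat_lit 836) (nat_lit 28055195) (nat_lit 912) (nat_lit 6107506309) (nat_lit 623) (nat_lit 5) (nat_lit 634) (nat_lit 5) (nat_lit 635) (nat_lit 5) (nat_lit 314) (nat_lit 300) (nat_lit 286)) (XT.nd (nat_lit 78) (nat_lit 988) (nat_lit 0) (XT.lf (nat_lit 0) (nat_lit 4520641279) (nat_lit 912) (nat_lit 361726063) (nat_lit 76) (nat_lit 1884127096) (nat_lit 623) (nat_lit 5) (nat_lit 635) (nat_lit 5) (nat_lit 624) (nat_lit 5) (nat_lit 315) (nat_lit 300) (nat_lit 285)) (XT.lf (nat_lit 0) (nat_lit 1612926298) (nat_lit 988) (nat_lit 1258994416) (nat_lit 76) (nat_lit 3939342538) (nat_lit 610) (nat_lit 5) (nat_lit 623) (nat_lit 5) (nat_lit 611) (nat_lit 5) (nat_lit 316) (nat_lit 300) (nat_lit 284)))) (XT.nd (nat_lit 78)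 (nat_lit 2280) (nat_lit 0) (XT.lf (nat_lit 0) (nat_lit 4743235247) (nat_lit 988) (nat_lit 717849493) (nat_lit 1064) (nat_lit 1397975189) (nat_lit 597) (nat_lit 5) (nat_lit 610) (nat_lit 5) (nat_lit 611) (nat_lit 5) (nat_lit 317) (nat_lit 300) (nat_lit 283)) (XT.nd (nat_lit 78) (nat_lit 1140) (nat_lit 0) (XT.lf (nat_lit 0) (nat_lit 2401027063) (nat_lit 1140) (nat_lit 2945232070) (nat_lit 76) (nat_lit 1563413126) (nat_lit 582) (nat_lit 5) (nat_lit 597) (nat_lit 5) (nat_lit 583) (nat_lit 5) (nat_lit 318) (nat_lit 300) (nat_lit 282)) (XT.lf (nat_lit 0) (nat_lit 3225987396) (nat_lit 1140) (nat_lit 2985542729) (nat_lit 1216) (nat_lit 751816930) (nat_lit 567) (nat_lit 5) (nat_lit 582) (nat_lit 5) (nat_lit 583) (nat_lit 5) (nat_lit 319) (nat_lit 300) (nat_lit 281))))))))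
noncomputable def xc47 : XT := (XT.nd (nat_lit 1638) (nat_lit 10260) (nat_lit 0) (XT.nd (nat_lit 780) (nat_lit 8968) (nat_lit 0) (XT.nd (nat_lit 390) (nat_lit 7828) (nat_lit 0) (XT.nd (nat_lit 156) (nat_lit 2964) (nat_lit 0) (XT.nd (nat_lit 78) (nat_lit 1292) (nat_lit 0) (XT.lf (nat_lit 0) (nat_lit 2520364604) (nat_lit 1216) (nat_lit 471284006) (nat_lit 1292) (nat_lit 4028338728) (nat_lit 550) (nat_lit 5) (nat_lit 566) (nat_lit 5) (nat_lit 567) (nat_lit 5) (nat_lit 320) (nat_lit 300) (nat_lit 280)) (XT.lf (nat_lit 0) (nat_lit 1846674178) (nat_lit 1292) (nat_lit 4923270610) (nat_lit 1368) (nat_lit 309682710) (nat_lit 533) (nat_lit 5) (nat_lit 550) (nat_lit 5) (nat_lit 551) (nat_lit 5) (nat_lit 321) (nat_lit 300) (nat_lit 279))) (XT.nd (nat_lit 78) (nat_lit 1520) (nat_lit 0) (XT.lf (nat_lit 0) (nat_lit 1196213078) (nat_lit 1368) (nat_lit 2203213786) (nat_lit 1444) (nat_lit 3742723756) (nat_lit 514)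 (nat_lit 5) (nat_lit 532) (nat_lit 5) (nat_lit 533) (nat_lit 5) (nat_lit 322) (nat_lit 300) (nat_lit 278)) (XT.nd (nat_lit 78) (nat_lit 76) (nat_lit 0) (XT.lf (nat_lit 0) (nat_lit 586927089) (nat_lit 1444) (nat_lit 6558429910) (nat_lit 1520) (nat_lit 62607117) (nat_lit 495) (nat_lit 5) (nat_lit 514) (nat_lit 5) (nat_lit 515) (nat_lit 5) (nat_lit 323) (nat_lit 300) (nat_lit 277)) (XT.lf (nat_lit 0) (nat_lit 3622549490) (nat_lit 1520) (nat_lit 15540856) (nat_lit 76) (nat_lit 3638355286) (nat_lit 494) (nat_lit 5) (nat_lit 514) (nat_lit 5) (nat_lit 495) (nat_lit 5) (nat_lit 324) (nat_lit 300) (nat_lit 276))))) (XT.nd (nat_lit 156) (nat_lit 4636) (nat_lit 0) (XT.nd (nat_lit 78) (nat_lit 1596) (nat_lit 0) (XT.lf (nat_lit 0) (nat_lit 4562837) (nat_lit 1596) (nat_lit 567390759) (nat_lit 76) (nat_lit 6776355525) (nat_lit 473) (nat_lit 5) (nat_lit 494) (nat_lit 5) (nat_lit 474) (nat_lit 5) (nat_lit 325) (nat_lit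 300) (nat_lit 275)) (XT.lf (nat_lit 0) (nat_lit 3675161281) (nat_lit 1672) (nat_lit 1118452811) (nat_lit 76) (nat_lit 2629235430) (nat_lit 452) (nat_lit 5) (nat_lit 474) (nat_lit 5) (nat_lit 453) (nat_lit 5) (nat_lit 326) (nat_lit 300) (nat_lit 274))) (XT.nd (nat_lit 78) (nat_lit 2964) (nat_lit 0) (XT.lf (nat_lit 0) (nat_lit 5867418270) (nat_lit 1672) (nat_lit 1530107438) (nat_lit 1748) (nat_lit 103310774) (nat_lit 430) (nat_lit 5) (nat_lit 452) (nat_lit 5) (nat_lit 453) (nat_lit 5) (nat_lit 327) (nat_lit 300) (nat_lit 273)) (XT.nd (nat_lit 78) (nat_lit 1140) (nat_lit 0) (XT.lf (nat_lit 0) (nat_lit 3555462930) (nat_lit 1824) (nat_lit 2145497448) (nat_lit 76) (nat_lit 1880711070) (nat_lit 406) (nat_lit 5) (nat_lit 430) (nat_lit 5) (nat_lit 407) (nat_lit 5) (nat_lit 328) (nat_lit 300) (nat_lit 272)) (XT.lf (nat_lit 0) (nat_lit 5033927982) (nat_lit 1140) (nat_lit 2242701297) (nat_lit 1216) (nat_lit 389247888)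 (nat_lit 391) (nat_lit 5) (nat_lit 406) (nat_lit 5) (nat_lit 407) (nat_lit 5) (nat_lit 329) (nat_lit 300) (nat_lit 271)))))) (XT.nd (nat_lit 390) (nat_lit 4484) (nat_lit 0) (XT.nd (nat_lit 156) (nat_lit 2660) (nat_lit 0) (XT.nd (nat_lit 78) (nat_lit 836) (nat_lit 0) (XT.lf (nat_lit 0) (nat_lit 3268210361) (nat_lit 988) (nat_lit 3113820540) (nat_lit 76) (nat_lit 1371072073) (nat_lit 378) (nat_lit 5) (nat_lit 391) (nat_lit 5) (nat_lit 379) (nat_lit 5) (nat_lit 330) (nat_lit 300) (nat_lit 270)) (XT.lf (nat_lit 0) (nat_lit 4263503118) (nat_lit 836) (nat_lit 2731101388) (nat_lit 912) (nat_lit 849036566) (nat_lit 367) (nat_lit 5) (nat_lit 378) (nat_lit 5) (nat_lit 379) (nat_lit 5) (nat_lit 331) (nat_lit 300) (nat_lit 269))) (XT.nd (nat_lit 78) (nat_lit 1748) (nat_lit 0) (XT.lf (nat_lit 0) (nat_lit 2816969538) (nat_lit 912) (nat_lit 4040569229) (nat_lit 76) (nat_lit 1079834619) (nat_lit 355) (nat_lit 5)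 (nat_lit 367) (nat_lit 5) (nat_lit 356) (nat_lit 5) (nat_lit 332) (nat_lit 300) (nat_lit 268)) (XT.nd (nat_lit 78) (nat_lit 912) (nat_lit 0) (XT.lf (nat_lit 0) (nat_lit 3539132980) (nat_lit 836) (nat_lit 3015503697) (nat_lit 912) (nat_lit 1479738606) (nat_lit 344) (nat_lit 5) (nat_lit 355) (nat_lit 5) (nat_lit 356) (nat_lit 5) (nat_lit 333) (nat_lit 300) (nat_lit 267)) (XT.lf (nat_lit 0) (nat_lit 2204129146) (nat_lit 912) (nat_lit 4943036823) (nat_lit 76) (nat_lit 987583898) (nat_lit 332) (nat_lit 5) (nat_lit 344) (nat_lit 5) (nat_lit 333) (nat_lit 5) (nat_lit 334) (nat_lit 300) (nat_lit 266))))) (XT.nd (nat_lit 234) (nat_lit 2204) (nat_lit 0) (XT.nd (nat_lit 78) (nat_lit 1520) (nat_lit 0) (XT.lf (nat_lit 0) (nat_lit 2843624156) (nat_lit 760) (nat_lit 3115120604) (nat_lit 836) (nat_lit 2279620178) (nat_lit 322) (nat_lit 5) (nat_lit 332) (nat_lit 5) (nat_lit 333) (nat_lit 5) (nat_lit 335) (nat_lit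 300) (nat_lit 265)) (XT.nd (nat_lit 78) (nat_lit 684) (nat_lit 0) (XT.lf (nat_lit 0) (nat_lit 1430904474) (nat_lit 836) (nat_lit 5838811920) (nat_lit 76) (nat_lit 1075821500) (nat_lit 311) (nat_lit 5) (nat_lit 322) (nat_lit 5) (nat_lit 312) (nat_lit 5) (nat_lit 336) (nat_lit 300) (nat_lit 264)) (XT.lf (nat_lit 0) (nat_lit 2159448755) (nat_lit 684) (nat_lit 3048332813) (nat_lit 760) (nat_lit 3248152135) (nat_lit 302) (nat_lit 5) (nat_lit 311) (nat_lit 5) (nat_lit 312) (nat_lit 5) (nat_lit 337) (nat_lit 300) (nat_lit 263)))) (XT.nd (nat_lit 78) (nat_lit 1368) (nat_lit 0) (XT.lf (nat_lit 0) (nat_lit 497332350) (nat_lit 836) (nat_lit 6745933100) (nat_lit 76) (nat_lit 1326816359) (nat_lit 291) (nat_lit 5) (nat_lit 302) (nat_lit 5) (nat_lit 292) (nat_lit 5) (nat_lit 338) (nat_lit 300) (nat_lit 262)) (XT.nd (nat_lit 78) (nat_lit 684) (nat_lit 0) (XT.lf (nat_lit 0) (nat_lit 1468586586) (nat_lit 684) (nat_lit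 2832838342) (nat_lit 760) (nat_lit 4386019532) (nat_lit 282) (nat_lit 5) (nat_lit 291) (nat_lit 5) (nat_lit 292) (nat_lit 5) (nat_lit 339) (nat_lit 300) (nat_lit 261)) (XT.lf (nat_lit 0) (nat_lit 1121703913) (nat_lit 684) (nat_lit 7081296331) (nat_lit 760) (nat_lit 605686736) (nat_lit 273) (nat_lit 5) (nat_lit 282) (nat_lit 5) (nat_lit 283) (nat_lit 5) (nat_lit 340) (nat_lit 300) (nat_lit 260))))))) (XT.nd (nat_lit 780) (nat_lit 4636) (nat_lit 0) (XT.nd (nat_lit 390) (nat_lit 2888) (nat_lit 0) (XT.nd (nat_lit 156) (nat_lit 1368) (nat_lit 0) (XT.nd (nat_lit 78) (nat_lit 684) (nat_lit 0) (XT.lf (nat_lit 0) (nat_lit 752359901) (nat_lit 608) (nat_lit 2485799714) (nat_lit 684) (nat_lit 5695140579) (nat_lit 264) (nat_lit 5) (nat_lit 272) (nat_lit 5) (nat_lit 273) (nat_lit 5) (nat_lit 341) (nat_lit 300) (nat_lit 259)) (XT.lf (nat_lit 0) (nat_lit 379958641) (nat_lit 684) (nat_lit 6800442817) (nat_lit 760)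 (nat_lit 1881368296) (nat_lit 255) (nat_lit 5) (nat_lit 264) (nat_lit 5) (nat_lit 265) (nat_lit 5) (nat_lit 342) (nat_lit 300) (nat_lit 258))) (XT.nd (nat_lit 78) (nat_lit 1292) (nat_lit 0) (XT.lf (nat_lit 0) (nat_lit 2015306483) (nat_lit 760) (nat_lit 8626137) (nat_lit 76) (nat_lit 7170011355) (nat_lit 254) (nat_lit 5) (nat_lit 264) (nat_lit 5) (nat_lit 255) (nat_lit 5) (nat_lit 343) (nat_lit 300) (nat_lit 257)) (XT.nd (nat_lit 78) (nat_lit 684) (nat_lit 0) (XT.lf (nat_lit 0) (nat_lit 6005800749) (nat_lit 684) (nat_lit 412222383) (nat_lit 76) (nat_lit 2911784345) (nat_lit 246) (nat_lit 5) (nat_lit 255) (nat_lit 5) (nat_lit 247) (nat_lit 5) (nat_lit 344) (nat_lit 300) (nat_lit 256)) (XT.lf (nat_lit 0) (nat_lit 634124083) (nat_lit 684) (nat_lit 824286937) (nat_lit 76) (nat_lit 8011346490) (nat_lit 237) (nat_lit 5) (nat_lit 246) (nat_lit 5) (nat_lit 238) (nat_lit 5) (nat_lit 345) (nat_lit 300) (nat_lit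 255))))) (XT.nd (nat_lit 156) (nat_lit 1748) (nat_lit 0) (XT.nd (nat_lit 78) (nat_lit 608) (nat_lit 0) (XT.lf (nat_lit 0) (nat_lit 4674981833) (nat_lit 608) (nat_lit 1275393398) (nat_lit 76) (nat_lit 3662929182) (nat_lit 230) (nat_lit 5) (nat_lit 238) (nat_lit 5) (nat_lit 231) (nat_lit 5) (nat_lit 346) (nat_lit 300) (nat_lit 254)) (XT.lf (nat_lit 0) (nat_lit 8029279826) (nat_lit 608) (nat_lit 804369052) (nat_lit 684) (nat_lit 927597239) (nat_lit 222) (nat_lit 5) (nat_lit 230) (nat_lit 5) (nat_lit 231) (nat_lit 5) (nat_lit 347) (nat_lit 300) (nat_lit 253))) (XT.nd (nat_lit 78) (nat_lit 1140) (nat_lit 0) (XT.lf (nat_lit 0) (nat_lit 3179831374) (nat_lit 608) (nat_lit 2236634128) (nat_lit 76) (nat_lit 4496395783) (nat_lit 214) (nat_lit 5) (nat_lit 222) (nat_lit 5) (nat_lit 215) (nat_lit 5) (nat_lit 348) (nat_lit 300) (nat_lit 252)) (XT.nd (nat_lit 78) (nat_lit 608) (nat_lit 0) (XT.lf (nat_lit 0) (nat_lit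 7315174455) (nat_lit 532) (nat_lit 78864729) (nat_lit 608) (nat_lit 2674958462) (nat_lit 207) (nat_lit 5) (nat_lit 214) (nat_lit 5) (nat_lit 215) (nat_lit 5) (nat_lit 349) (nat_lit 300) (nat_lit 251)) (XT.lf (nat_lit 0) (nat_lit 1513327554) (nat_lit 608) (nat_lit 3319560308) (nat_lit 76) (nat_lit 5396188296) (nat_lit 199) (nat_lit 5) (nat_lit 207) (nat_lit 5) (nat_lit 200) (nat_lit 5) (nat_lit 350) (nat_lit 300) (nat_lit 250)))))) (XT.nd (nat_lit 390) (nat_lit 2128) (nat_lit 0) (XT.nd (nat_lit 156) (nat_lit 1520) (nat_lit 0) (XT.nd (nat_lit 78) (nat_lit 456) (nat_lit 0) (XT.lf (nat_lit 0) (nat_lit 5790665475) (nat_lit 608) (nat_lit 3914753742) (nat_lit 76) (nat_lit 688206405) (nat_lit 192) (nat_lit 5) (nat_lit 200) (nat_lit 5) (nat_lit 193) (nat_lit 5) (nat_lit 351) (nat_lit 300) (nat_lit 249)) (XT.lf (nat_lit 0) (nat_lit 6010822377) (nat_lit 456) (nat_lit 4214302324) (nat_lit 532) (nat_lit 337427481)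 (nat_lit 186) (nat_lit 5) (nat_lit 192) (nat_lit 5) (nat_lit 193) (nat_lit 5) (nat_lit 352) (nat_lit 300) (nat_lit 248))) (XT.nd (nat_lit 78) (nat_lit 988) (nat_lit 0) (XT.lf (nat_lit 0) (nat_lit 4010829863) (nat_lit 532) (nat_lit 5237382866) (nat_lit 76) (nat_lit 1487663854) (nat_lit 179) (nat_lit 5) (nat_lit 186) (nat_lit 5) (nat_lit 180) (nat_lit 5) (nat_lit 353) (nat_lit 300) (nat_lit 247)) (XT.nd (nat_lit 78) (nat_lit 532) (nat_lit 0) (XT.lf (nat_lit 0) (nat_lit 4944281158) (nat_lit 456) (nat_lit 3568872820) (nat_lit 532) (nat_lit 2400653436) (nat_lit 173) (nat_lit 5) (nat_lit 179) (nat_lit 5) (nat_lit 180) (nat_lit 5) (nat_lit 354) (nat_lit 300) (nat_lit 246)) (XT.lf (nat_lit 0) (nat_lit 2043435209) (nat_lit 532) (nat_lit 6749649045) (nat_lit 76) (nat_lit 2303401994) (nat_lit 166) (nat_lit 5) (nat_lit 173) (nat_lit 5) (nat_lit 167) (nat_lit 5) (nat_lit 355) (nat_lit 300) (nat_lit 245))))) (XT.nd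 (nat_lit 234) (nat_lit 836) (nat_lit 0) (XT.nd (nat_lit 78) (nat_lit 912) (nat_lit 0) (XT.lf (nat_lit 0) (nat_lit 3691077640) (nat_lit 380) (nat_lit 2924669430) (nat_lit 456) (nat_lit 4668044897) (nat_lit 161) (nat_lit 5) (nat_lit 166) (nat_lit 5) (nat_lit 167) (nat_lit 5) (nat_lit 356) (nat_lit 300) (nat_lit 244)) (XT.nd (nat_lit 78) (nat_lit 456) (nat_lit 0) (XT.lf (nat_lit 0) (nat_lit 2992979258) (nat_lit 456) (nat_lit 8357809364) (nat_lit 532) (nat_lit 125430823) (nat_lit 155) (nat_lit 5) (nat_lit 161) (nat_lit 5) (nat_lit 162) (nat_lit 5) (nat_lit 357) (nat_lit 300) (nat_lit 243)) (XT.lf (nat_lit 0) (nat_lit 2219716589) (nat_lit 380) (nat_lit 2300409793) (nat_lit 456) (nat_lit 7153187528) (nat_lit 149) (nat_lit 5) (nat_lit 154) (nat_lit 5) (nat_lit 155) (nat_lit 5) (nat_lit 358) (nat_lit 300) (nat_lit 242)))) (XT.nd (nat_lit 78) (nat_lit 456) (nat_lit 0) (XT.lf (nat_lit 0) (nat_lit 1389837080)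 (nat_lit 380) (nat_lit 7947603068) (nat_lit 456) (nat_lit 2538195346) (nat_lit 144) (nat_lit 5) (nat_lit 149) (nat_lit 5) (nat_lit 150) (nat_lit 5) (nat_lit 359) (nat_lit 300) (nat_lit 241)) (XT.nd (nat_lit 78) (nat_lit 0) (nat_lit 0) (XT.lf (nat_lit 0) (nat_lit 495856880) (nat_lit 380) (nat_lit 1715804249) (nat_lit 456) (nat_lit 9871580713) (nat_lit 138) (nat_lit 5) (nat_lit 143) (nat_lit 5) (nat_lit 144) (nat_lit 5) (nat_lit 360) (nat_lit 300) (nat_lit 240)) (XT.lf (nat_lit 0) (nat_lit 7115116250) (nat_lit 456) (nat_lit 478399049) (nat_lit 76) (nat_lit 4702325571) (nat_lit 138) (nat_lit 5) (nat_lit 144) (nat_lit 5) (nat_lit 139) (nat_lit 5) (nat_lit 361) (nat_lit 300) (nat_lit 239))))))))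
noncomputable def xc48 : XT := (XT.nd (nat_lit 1560) (nat_lit 912) (nat_lit 0) (XT.nd (nat_lit 780) (nat_lit 2584) (nat_lit 0) (XT.nd (nat_lit 390) (nat_lit 1368) (nat_lit 0) (XT.nd (nat_lit 156) (nat_lit 1140) (nat_lit 0) (XT.nd (nat_lit 78) (nat_lit 456) (nat_lit 0) (XT.lf (nat_lit 0) (nat_lit 11014059088) (nat_lit 380) (nat_lit 1179581630) (nat_lit 456) (nat_lit 320629272) (nat_lit 133) (nat_lit 5) (nat_lit 138) (nat_lit 5) (nat_lit 139) (nat_lit 5) (nat_lit 362) (nat_lit 300) (nat_lit 238)) (XT.lf (nat_lit 0) (nat_lit 4674312044) (nat_lit 456) (nat_lit 2635049453) (nat_lit 76) (nat_lit 5428283149) (nat_lit 127) (nat_lit 5) (nat_lit 133) (nat_lit 5) (nat_lit 128) (nat_lit 5) (nat_lit 363) (nat_lit 300) (nat_lit 237))) (XT.nd (nat_lit 78) (nat_lit 760) (nat_lit 0) (XT.lf (nat_lit 0) (nat_lit 9134475975) (nat_lit 380) (nat_lit 704287517) (nat_lit 456) (nat_lit 3128444872) (nat_lit 122) (nat_lit 5)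 (nat_lit 127) (nat_lit 5) (nat_lit 128) (nat_lit 5) (nat_lit 364) (nat_lit 300) (nat_lit 236)) (XT.nd (nat_lit 78) (nat_lit 380) (nat_lit 0) (XT.lf (nat_lit 0) (nat_lit 1986642382) (nat_lit 380) (nat_lit 5140829682) (nat_lit 76) (nat_lit 6074787463) (nat_lit 117) (nat_lit 5) (nat_lit 122) (nat_lit 5) (nat_lit 118) (nat_lit 5) (nat_lit 365) (nat_lit 300) (nat_lit 235)) (XT.lf (nat_lit 0) (nat_lit 6905136656) (nat_lit 380) (nat_lit 331549046) (nat_lit 456) (nat_lit 6206792575) (nat_lit 112) (nat_lit 5) (nat_lit 117) (nat_lit 5) (nat_lit 118) (nat_lit 5) (nat_lit 366) (nat_lit 300) (nat_lit 234))))) (XT.nd (nat_lit 156) (nat_lit 684) (nat_lit 0) (XT.nd (nat_lit 78) (nat_lit 380) (nat_lit 0) (XT.lf (nat_lit 0) (nat_lit 5641888274) (nat_lit 304) (nat_lit 7066224812) (nat_lit 380) (nat_lit 982552329) (nat_lit 108) (nat_lit 5) (nat_lit 112) (nat_lit 5) (nat_lit 113) (nat_lit 5) (nat_lit 367) (nat_lit 300)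 (nat_lit 233)) (XT.lf (nat_lit 0) (nat_lit 4278107929) (nat_lit 304) (nat_lit 86739893) (nat_lit 380) (nat_lit 9579375848) (nat_lit 103) (nat_lit 5) (nat_lit 107) (nat_lit 5) (nat_lit 108) (nat_lit 5) (nat_lit 368) (nat_lit 300) (nat_lit 232))) (XT.nd (nat_lit 78) (nat_lit 380) (nat_lit 0) (XT.lf (nat_lit 0) (nat_lit 2785063269) (nat_lit 304) (nat_lit 7143731194) (nat_lit 380) (nat_lit 4275083607) (nat_lit 99) (nat_lit 5) (nat_lit 103) (nat_lit 5) (nat_lit 104) (nat_lit 5) (nat_lit 369) (nat_lit 300) (nat_lit 231)) (XT.nd (nat_lit 78) (nat_lit 0) (nat_lit 0) (XT.lf (nat_lit 0) (nat_lit 1197991085) (nat_lit 380) (nat_lit 13270066715) (nat_lit 76) (nat_lit 2613553) (nat_lit 94) (nat_lit 5) (nat_lit 99) (nat_lit 5) (nat_lit 95) (nat_lit 5) (nat_lit 370) (nat_lit 300) (nat_lit 230)) (XT.lf (nat_lit 0) (nat_lit 6854822694) (nat_lit 380) (nat_lit 543868181) (nat_lit 76) (nat_lit 7344667567) (nat_lit 94)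 (nat_lit 5) (nat_lit 99) (nat_lit 5) (nat_lit 95) (nat_lit 5) (nat_lit 371) (nat_lit 300) (nat_lit 229)))))) (XT.nd (nat_lit 390) (nat_lit 1064) (nat_lit 0) (XT.nd (nat_lit 156) (nat_lit 836) (nat_lit 0) (XT.nd (nat_lit 78) (nat_lit 380) (nat_lit 0) (XT.lf (nat_lit 0) (nat_lit 12654370569) (nat_lit 304) (nat_lit 62209438) (nat_lit 380) (nat_lit 2306949582) (nat_lit 90) (nat_lit 5) (nat_lit 94) (nat_lit 5) (nat_lit 95) (nat_lit 5) (nat_lit 372) (nat_lit 300) (nat_lit 228)) (XT.lf (nat_lit 0) (nat_lit 3474757143) (nat_lit 380) (nat_lit 4369574512) (nat_lit 76) (nat_lit 7465778401) (nat_lit 85) (nat_lit 5) (nat_lit 90) (nat_lit 5) (nat_lit 86) (nat_lit 5) (nat_lit 373) (nat_lit 300) (nat_lit 227))) (XT.nd (nat_lit 78) (nat_lit 608) (nat_lit 0) (XT.lf (nat_lit 0) (nat_lit 9105838402) (nat_lit 228) (nat_lit 322928325) (nat_lit 304) (nat_lit 6175619615) (nat_lit 82) (nat_lit 5) (nat_lit 85) (nat_lit 5)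 (nat_lit 86) (nat_lit 5) (nat_lit 374) (nat_lit 300) (nat_lit 226)) (XT.nd (nat_lit 78) (nat_lit 304) (nat_lit 0) (XT.lf (nat_lit 0) (nat_lit 7109138332) (nat_lit 304) (nat_lit 8531409618) (nat_lit 380) (nat_lit 265366994) (nat_lit 78) (nat_lit 5) (nat_lit 82) (nat_lit 5) (nat_lit 83) (nat_lit 5) (nat_lit 375) (nat_lit 300) (nat_lit 225)) (XT.lf (nat_lit 0) (nat_lit 4949538554) (nat_lit 228) (nat_lit 830443035) (nat_lit 304) (nat_lit 10435075546) (nat_lit 74) (nat_lit 5) (nat_lit 77) (nat_lit 5) (nat_lit 78) (nat_lit 5) (nat_lit 376) (nat_lit 300) (nat_lit 224))))) (XT.nd (nat_lit 156) (nat_lit 532) (nat_lit 0) (XT.nd (nat_lit 78) (nat_lit 304) (nat_lit 0) (XT.lf (nat_lit 0) (nat_lit 2609294475) (nat_lit 228) (nat_lit 9473029160) (nat_lit 304) (nat_lit 4449536629) (nat_lit 71) (nat_lit 5) (nat_lit 74) (nat_lit 5) (nat_lit 75) (nat_lit 5) (nat_lit 377) (nat_lit 300) (nat_lit 223)) (XT.lf (nat_lit 0)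 (nat_lit 109736820) (nat_lit 228) (nat_lit 1623125095) (nat_lit 304) (nat_lit 15124293134) (nat_lit 67) (nat_lit 5) (nat_lit 70) (nat_lit 5) (nat_lit 71) (nat_lit 5) (nat_lit 378) (nat_lit 300) (nat_lit 222))) (XT.nd (nat_lit 78) (nat_lit 532) (nat_lit 0) (XT.lf (nat_lit 0) (nat_lit 8134846853) (nat_lit 304) (nat_lit 2580992250) (nat_lit 76) (nat_lit 6473896045) (nat_lit 67) (nat_lit 5) (nat_lit 71) (nat_lit 5) (nat_lit 68) (nat_lit 5) (nat_lit 379) (nat_lit 300) (nat_lit 221)) (XT.nd (nat_lit 78) (nat_lit 304) (nat_lit 0) (XT.lf (nat_lit 0) (nat_lit 12088291647) (nat_lit 228) (nat_lit 2688478995) (nat_lit 304) (nat_lit 2754570270) (nat_lit 64) (nat_lit 5) (nat_lit 67) (nat_lit 5) (nat_lit 68) (nat_lit 5) (nat_lit 380) (nat_lit 300) (nat_lit 220)) (XT.lf (nat_lit 0) (nat_lit 3760029113) (nat_lit 304) (nat_lit 8539138527) (nat_lit 76) (nat_lit 5582062728) (nat_lit 60) (nat_lit 5) (nat_lit 64) (nat_lit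 5) (nat_lit 61) (nat_lit 5) (nat_lit 381) (nat_lit 300) (nat_lit 219))))))) (XT.nd (nat_lit 40950) (nat_lit 0) (nat_lit 42712) (XT.nd (nat_lit 40560) (nat_lit 0) (nat_lit 48260) (XT.nd (nat_lit 156) (nat_lit 532) (nat_lit 0) (XT.nd (nat_lit 78) (nat_lit 152) (nat_lit 0) (XT.lf (nat_lit 0) (nat_lit 6382736837) (nat_lit 228) (nat_lit 4106263362) (nat_lit 304) (nat_lit 7751130408) (nat_lit 57) (nat_lit 5) (nat_lit 60) (nat_lit 5) (nat_lit 61) (nat_lit 5) (nat_lit 382) (nat_lit 300) (nat_lit 218)) (XT.lf (nat_lit 0) (nat_lit 3205800438) (nat_lit 152) (nat_lit 14281382552) (nat_lit 228) (nat_lit 1121273259) (nat_lit 55) (nat_lit 5) (nat_lit 57) (nat_lit 5) (nat_lit 58) (nat_lit 5) (nat_lit 383) (nat_lit 300) (nat_lit 217))) (XT.nd (nat_lit 78) (nat_lit 456) (nat_lit 0) (XT.lf (nat_lit 0) (nat_lit 5701579826) (nat_lit 228) (nat_lit 235743788) (nat_lit 76) (nat_lit 13048392807) (nat_lit 54) (nat_lit 5) (nat_lit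 57) (nat_lit 5) (nat_lit 55) (nat_lit 5) (nat_lit 384) (nat_lit 300) (nat_lit 216)) (XT.nd (nat_lit 78) (nat_lit 228) (nat_lit 0) (XT.lf (nat_lit 0) (nat_lit 12794264962) (nat_lit 304) (nat_lit 3874205897) (nat_lit 76) (nat_lit 2704072553) (nat_lit 51) (nat_lit 5) (nat_lit 55) (nat_lit 5) (nat_lit 52) (nat_lit 5) (nat_lit 385) (nat_lit 300) (nat_lit 215)) (XT.lf (nat_lit 0) (nat_lit 406411148) (nat_lit 228) (nat_lit 7782987130) (nat_lit 76) (nat_lit 11579899511) (nat_lit 48) (nat_lit 5) (nat_lit 51) (nat_lit 5) (nat_lit 49) (nat_lit 5) (nat_lit 386) (nat_lit 300) (nat_lit 214))))) (XT.nd (nat_lit 156) (nat_lit 684) (nat_lit 0) (XT.nd (nat_lit 78) (nat_lit 228) (nat_lit 0) (XT.lf (nat_lit 0) (nat_lit 1326429303) (nat_lit 228) (nat_lit 948405959) (nat_lit 228) (nat_lit 948405959) (nat_lit 695) (nat_lit 3) (nat_lit 698) (nat_lit 3) (nat_lit 698) (nat_lit 5) (nat_lit 301) (nat_lit 301) (nat_lit 298))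 (XT.lf (nat_lit 0) (nat_lit 628890643) (nat_lit 228) (nat_lit 3656003330) (nat_lit 304) (nat_lit 2167374218) (nat_lit 692) (nat_lit 5) (nat_lit 695) (nat_lit 3) (nat_lit 696) (nat_lit 5) (nat_lit 302) (nat_lit 301) (nat_lit 297))) (XT.nd (nat_lit 78) (nat_lit 684) (nat_lit 0) (XT.lf (nat_lit 76) (nat_lit 1096274861) (nat_lit 0) (nat_lit 3883903736) (nat_lit 304) (nat_lit 1480705193) (nat_lit 693) (nat_lit 5) (nat_lit 692) (nat_lit 5) (nat_lit 696) (nat_lit 5) (nat_lit 303) (nat_lit 301) (nat_lit 296)) (XT.nd (nat_lit 78) (nat_lit 380) (nat_lit 0) (XT.lf (nat_lit 0) (nat_lit 2808460597) (nat_lit 304) (nat_lit 539349159) (nat_lit 380) (nat_lit 3124555652) (nat_lit 688) (nat_lit 5) (nat_lit 692) (nat_lit 5) (nat_lit 693) (nat_lit 5) (nat_lit 304) (nat_lit 301) (nat_lit 295)) (XT.lf (nat_lit 0) (nat_lit 575784343) (nat_lit 380) (nat_lit 2101261990) (nat_lit 456) (nat_lit 3809694439) (nat_lit 683) (nat_lit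 5) (nat_lit 688) (nat_lit 5) (nat_lit 689) (nat_lit 5) (nat_lit 305) (nat_lit 301) (nat_lit 294)))))) (XT.nd (nat_lit 390) (nat_lit 4028) (nat_lit 0) (XT.nd (nat_lit 156) (nat_lit 1064) (nat_lit 0) (XT.nd (nat_lit 78) (nat_lit 456) (nat_lit 0) (XT.lf (nat_lit 76) (nat_lit 2887513690) (nat_lit 0) (nat_lit 1866602487) (nat_lit 456) (nat_lit 1749819510) (nat_lit 684) (nat_lit 5) (nat_lit 683) (nat_lit 5) (nat_lit 689) (nat_lit 5) (nat_lit 306) (nat_lit 301) (nat_lit 293)) (XT.lf (nat_lit 76) (nat_lit 1445214757) (nat_lit 0) (nat_lit 922905327) (nat_lit 532) (nat_lit 4155984994) (nat_lit 678) (nat_lit 5) (nat_lit 677) (nat_lit 5) (nat_lit 684) (nat_lit 5) (nat_lit 307) (nat_lit 301) (nat_lit 292))) (XT.nd (nat_lit 78) (nat_lit 684) (nat_lit 0) (XT.lf (nat_lit 0) (nat_lit 59747242) (nat_lit 456) (nat_lit 6397564586) (nat_lit 532) (nat_lit 89996533) (nat_lit 672) (nat_lit 5) (nat_lit 678) (nat_lit 5) (nat_lit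 679) (nat_lit 5) (nat_lit 308) (nat_lit 301) (nat_lit 291)) (XT.nd (nat_lit 78) (nat_lit 608) (nat_lit 0) (XT.lf (nat_lit 0) (nat_lit 3933832386) (nat_lit 532) (nat_lit 1274719786) (nat_lit 76) (nat_lit 1364416854) (nat_lit 671) (nat_lit 5) (nat_lit 678) (nat_lit 5) (nat_lit 672) (nat_lit 5) (nat_lit 309) (nat_lit 301) (nat_lit 290)) (XT.lf (nat_lit 0) (nat_lit 1337044495) (nat_lit 608) (nat_lit 2554110843) (nat_lit 76) (nat_lit 2710548614) (nat_lit 663) (nat_lit 5) (nat_lit 671) (nat_lit 5) (nat_lit 664) (nat_lit 5) (nat_lit 310) (nat_lit 301) (nat_lit 289))))) (XT.nd (nat_lit 234) (nat_lit 1900) (nat_lit 0) (XT.nd (nat_lit 78) (nat_lit 1520) (nat_lit 0) (XT.lf (nat_lit 0) (nat_lit 2844426940) (nat_lit 608) (nat_lit 2435460891) (nat_lit 684) (nat_lit 1353478611) (nat_lit 655) (nat_lit 5) (nat_lit 663) (nat_lit 5) (nat_lit 664) (nat_lit 5) (nat_lit 311) (nat_lit 301) (nat_lit 288)) (XT.nd (nat_lit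 78) (nat_lit 760) (nat_lit 0) (XT.lf (nat_lit 0) (nat_lit 1687350118) (nat_lit 684) (nat_lit 839456400) (nat_lit 760) (nat_lit 4141163126) (nat_lit 645) (nat_lit 5) (nat_lit 654) (nat_lit 5) (nat_lit 655) (nat_lit 5) (nat_lit 312) (nat_lit 301) (nat_lit 287)) (XT.lf (nat_lit 0) (nat_lit 576607610) (nat_lit 760) (nat_lit 5825744134) (nat_lit 836) (nat_lit 303208525) (nat_lit 635) (nat_lit 5) (nat_lit 645) (nat_lit 5) (nat_lit 646) (nat_lit 5) (nat_lit 313) (nat_lit 301) (nat_lit 286)))) (XT.nd (nat_lit 78) (nat_lit 1824) (nat_lit 0) (XT.lf (nat_lit 0) (nat_lit 3506382417) (nat_lit 836) (nat_lit 497970819) (nat_lit 76) (nat_lit 2741433633) (nat_lit 634) (nat_lit 5) (nat_lit 645) (nat_lit 5) (nat_lit 635) (nat_lit 5) (nat_lit 314) (nat_lit 301) (nat_lit 285)) (XT.nd (nat_lit 78) (nat_lit 912) (nat_lit 0) (XT.lf (nat_lit 0) (nat_lit 532883686) (nat_lit 912) (nat_lit 1514389033) (nat_lit 76) (nat_lit 4741844635)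 (nat_lit 622) (nat_lit 5) (nat_lit 634) (nat_lit 5) (nat_lit 623) (nat_lit 5) (nat_lit 315) (nat_lit 301) (nat_lit 284)) (XT.lf (nat_lit 0) (nat_lit 4277583274) (nat_lit 988) (nat_lit 2497908917) (nat_lit 76) (nat_lit 59826503) (nat_lit 610) (nat_lit 5) (nat_lit 623) (nat_lit 5) (nat_lit 611) (nat_lit 5) (nat_lit 316) (nat_lit 301) (nat_lit 283))))))))
noncomputable def xc49 : XT := (XT.nd (nat_lit 1560) (nat_lit 12160) (nat_lit 0) (XT.nd (nat_lit 780) (nat_lit 9956) (nat_lit 0) (XT.nd (nat_lit 390) (nat_lit 6080) (nat_lit 0) (XT.nd (nat_lit 156) (nat_lit 3800) (nat_lit 0) (XT.nd (nat_lit 78) (nat_lit 1064) (nat_lit 0) (XT.lf (nat_lit 0) (nat_lit 1155538774) (nat_lit 1064) (nat_lit 3450456356) (nat_lit 76) (nat_lit 2278404820) (nat_lit 596) (nat_lit 5) (nat_lit 610) (nat_lit 5) (nat_lit 597) (nat_lit 5) (nat_lit 317) (nat_lit 301) (nat_lit 282)) (XT.lf (nat_lit 0) (nat_lit 2567108714) (nat_lit 1064)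 (nat_lit 2288908795) (nat_lit 1140) (nat_lit 2080446268) (nat_lit 582) (nat_lit 5) (nat_lit 596) (nat_lit 5) (nat_lit 597) (nat_lit 5) (nat_lit 318) (nat_lit 301) (nat_lit 281))) (XT.nd (nat_lit 78) (nat_lit 2584) (nat_lit 0) (XT.lf (nat_lit 0) (nat_lit 1570186295) (nat_lit 1216) (nat_lit 5251004229) (nat_lit 76) (nat_lit 170442404) (nat_lit 566) (nat_lit 5) (nat_lit 582) (nat_lit 5) (nat_lit 567) (nat_lit 5) (nat_lit 319) (nat_lit 301) (nat_lit 280)) (XT.nd (nat_lit 78) (nat_lit 1368) (nat_lit 0) (XT.lf (nat_lit 0) (nat_lit 934775683) (nat_lit 1216) (nat_lit 4300549147) (nat_lit 1292) (nat_lit 1814247123) (nat_lit 550) (nat_lit 5) (nat_lit 566) (nat_lit 5) (nat_lit 567) (nat_lit 5) (nat_lit 320) (nat_lit 301) (nat_lit 279)) (XT.lf (nat_lit 0) (nat_lit 165059088) (nat_lit 1292) (nat_lit 1631999295) (nat_lit 1368) (nat_lit 5313579645) (nat_lit 532) (nat_lit 5) (nat_lit 549) (nat_lit 5) (nat_lit 550)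 (nat_lit 5) (nat_lit 321) (nat_lit 301) (nat_lit 278))))) (XT.nd (nat_lit 156) (nat_lit 4636) (nat_lit 0) (XT.nd (nat_lit 78) (nat_lit 1444) (nat_lit 0) (XT.lf (nat_lit 0) (nat_lit 5428004732) (nat_lit 1368) (nat_lit 570274893) (nat_lit 76) (nat_lit 1176348328) (nat_lit 532) (nat_lit 5) (nat_lit 550) (nat_lit 5) (nat_lit 533) (nat_lit 5) (nat_lit 322) (nat_lit 301) (nat_lit 277)) (XT.lf (nat_lit 0) (nat_lit 1841447831) (nat_lit 1444) (nat_lit 1282369251) (nat_lit 76) (nat_lit 4117730824) (nat_lit 513) (nat_lit 5) (nat_lit 532) (nat_lit 5) (nat_lit 514) (nat_lit 5) (nat_lit 323) (nat_lit 301) (nat_lit 276))) (XT.nd (nat_lit 78) (nat_lit 3192) (nat_lit 0) (XT.lf (nat_lit 0) (nat_lit 5348217032) (nat_lit 1444) (nat_lit 95962596) (nat_lit 1520) (nat_lit 1867496824) (nat_lit 494) (nat_lit 5) (nat_lit 513) (nat_lit 5) (nat_lit 514) (nat_lit 5) (nat_lit 324) (nat_lit 301) (nat_lit 275)) (XT.nd (nat_lit 78)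 (nat_lit 1596) (nat_lit 0) (XT.lf (nat_lit 0) (nat_lit 1701445675) (nat_lit 1596) (nat_lit 2634665546) (nat_lit 76) (nat_lit 3048540477) (nat_lit 473) (nat_lit 5) (nat_lit 494) (nat_lit 5) (nat_lit 474) (nat_lit 5) (nat_lit 325) (nat_lit 301) (nat_lit 274)) (XT.lf (nat_lit 0) (nat_lit 4180964776) (nat_lit 1596) (nat_lit 1108847104) (nat_lit 1672) (nat_lit 2171046197) (nat_lit 452) (nat_lit 5) (nat_lit 473) (nat_lit 5) (nat_lit 474) (nat_lit 5) (nat_lit 326) (nat_lit 301) (nat_lit 273)))))) (XT.nd (nat_lit 390) (nat_lit 3420) (nat_lit 0) (XT.nd (nat_lit 156) (nat_lit 3040) (nat_lit 0) (XT.nd (nat_lit 78) (nat_lit 1748) (nat_lit 0) (XT.lf (nat_lit 0) (nat_lit 1382032191) (nat_lit 1748) (nat_lit 3911478382) (nat_lit 76) (nat_lit 2246602976) (nat_lit 429) (nat_lit 5) (nat_lit 452) (nat_lit 5) (nat_lit 430) (nat_lit 5) (nat_lit 327) (nat_lit 301) (nat_lit 272)) (XT.lf (nat_lit 0) (nat_lit 3093218353) (nat_lit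 1748) (nat_lit 1869572797) (nat_lit 1824) (nat_lit 2659696861) (nat_lit 406) (nat_lit 5) (nat_lit 429) (nat_lit 5) (nat_lit 430) (nat_lit 5) (nat_lit 328) (nat_lit 301) (nat_lit 271))) (XT.nd (nat_lit 78) (nat_lit 1824) (nat_lit 0) (XT.lf (nat_lit 0) (nat_lit 888037968) (nat_lit 1216) (nat_lit 5130109944) (nat_lit 76) (nat_lit 1689965859) (nat_lit 390) (nat_lit 5) (nat_lit 406) (nat_lit 5) (nat_lit 391) (nat_lit 5) (nat_lit 329) (nat_lit 301) (nat_lit 270)) (XT.nd (nat_lit 78) (nat_lit 912) (nat_lit 0) (XT.lf (nat_lit 0) (nat_lit 2067855885) (nat_lit 912) (nat_lit 2399688336) (nat_lit 988) (nat_lit 3329219970) (nat_lit 378) (nat_lit 5) (nat_lit 390) (nat_lit 5) (nat_lit 391) (nat_lit 5) (nat_lit 330) (nat_lit 301) (nat_lit 269)) (XT.lf (nat_lit 0) (nat_lit 223096316) (nat_lit 912) (nat_lit 6307820523) (nat_lit 76) (nat_lit 1357953339) (nat_lit 366) (nat_lit 5) (nat_lit 378) (nat_lit 5) (nat_lit 367)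 (nat_lit 5) (nat_lit 331) (nat_lit 301) (nat_lit 268))))) (XT.nd (nat_lit 156) (nat_lit 1748) (nat_lit 0) (XT.nd (nat_lit 78) (nat_lit 836) (nat_lit 0) (XT.lf (nat_lit 0) (nat_lit 1087764117) (nat_lit 836) (nat_lit 2719552164) (nat_lit 912) (nat_lit 4176605812) (nat_lit 355) (nat_lit 5) (nat_lit 366) (nat_lit 5) (nat_lit 367) (nat_lit 5) (nat_lit 332) (nat_lit 301) (nat_lit 267)) (XT.lf (nat_lit 0) (nat_lit 616571621) (nat_lit 836) (nat_lit 6847533862) (nat_lit 912) (nat_lit 618452414) (nat_lit 344) (nat_lit 5) (nat_lit 355) (nat_lit 5) (nat_lit 356) (nat_lit 5) (nat_lit 333) (nat_lit 301) (nat_lit 266))) (XT.nd (nat_lit 78) (nat_lit 836) (nat_lit 0) (XT.lf (nat_lit 0) (nat_lit 135694034) (nat_lit 836) (nat_lit 2848488664) (nat_lit 912) (nat_lit 5200052235) (nat_lit 332) (nat_lit 5) (nat_lit 343) (nat_lit 5) (nat_lit 344) (nat_lit 5) (nat_lit 334) (nat_lit 301) (nat_lit 265)) (XT.nd (nat_lit 78) (nat_lit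 836) (nat_lit 0) (XT.lf (nat_lit 0) (nat_lit 6659242203) (nat_lit 912) (nat_lit 326923172) (nat_lit 76) (nat_lit 1303290857) (nat_lit 332) (nat_lit 5) (nat_lit 344) (nat_lit 5) (nat_lit 333) (nat_lit 5) (nat_lit 335) (nat_lit 301) (nat_lit 264)) (XT.lf (nat_lit 0) (nat_lit 2004284435) (nat_lit 836) (nat_lit 795318395) (nat_lit 76) (nat_lit 5598306591) (nat_lit 321) (nat_lit 5) (nat_lit 332) (nat_lit 5) (nat_lit 322) (nat_lit 5) (nat_lit 336) (nat_lit 301) (nat_lit 263))))))) (XT.nd (nat_lit 780) (nat_lit 5244) (nat_lit 0) (XT.nd (nat_lit 390) (nat_lit 3192) (nat_lit 0) (XT.nd (nat_lit 156) (nat_lit 2204) (nat_lit 0) (XT.nd (nat_lit 78) (nat_lit 760) (nat_lit 0) (XT.lf (nat_lit 0) (nat_lit 5702652509) (nat_lit 836) (nat_lit 1261874654) (nat_lit 76) (nat_lit 1545362206) (nat_lit 311) (nat_lit 5) (nat_lit 322) (nat_lit 5) (nat_lit 312) (nat_lit 5) (nat_lit 337) (nat_lit 301) (nat_lit 262)) (XT.lf (nat_lit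 0) (nat_lit 863054789) (nat_lit 760) (nat_lit 1731936626) (nat_lit 76) (nat_lit 6030390296) (nat_lit 301) (nat_lit 5) (nat_lit 311) (nat_lit 5) (nat_lit 302) (nat_lit 5) (nat_lit 338) (nat_lit 301) (nat_lit 261))) (XT.nd (nat_lit 78) (nat_lit 1444) (nat_lit 0) (XT.lf (nat_lit 0) (nat_lit 4589718620) (nat_lit 836) (nat_lit 2214327599) (nat_lit 76) (nat_lit 1940259618) (nat_lit 291) (nat_lit 5) (nat_lit 302) (nat_lit 5) (nat_lit 292) (nat_lit 5) (nat_lit 339) (nat_lit 301) (nat_lit 260)) (XT.nd (nat_lit 78) (nat_lit 760) (nat_lit 0) (XT.lf (nat_lit 0) (nat_lit 6169824419) (nat_lit 684) (nat_lit 2249585905) (nat_lit 760) (nat_lit 447588229) (nat_lit 282) (nat_lit 5) (nat_lit 291) (nat_lit 5) (nat_lit 292) (nat_lit 5) (nat_lit 340) (nat_lit 301) (nat_lit 259)) (XT.lf (nat_lit 0) (nat_lit 3318645758) (nat_lit 760) (nat_lit 3202920013) (nat_lit 76) (nat_lit 2471548167) (nat_lit 272) (nat_lit 5) (nat_lit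 282) (nat_lit 5) (nat_lit 273) (nat_lit 5) (nat_lit 341) (nat_lit 301) (nat_lit 258))))) (XT.nd (nat_lit 156) (nat_lit 1824) (nat_lit 0) (XT.nd (nat_lit 78) (nat_lit 760) (nat_lit 0) (XT.lf (nat_lit 0) (nat_lit 5409128502) (nat_lit 608) (nat_lit 1775993406) (nat_lit 684) (nat_lit 1937988477) (nat_lit 264) (nat_lit 5) (nat_lit 272) (nat_lit 5) (nat_lit 273) (nat_lit 5) (nat_lit 342) (nat_lit 301) (nat_lit 257)) (XT.lf (nat_lit 0) (nat_lit 1886430989) (nat_lit 760) (nat_lit 4247140828) (nat_lit 76) (nat_lit 3123191116) (nat_lit 254) (nat_lit 5) (nat_lit 264) (nat_lit 5) (nat_lit 255) (nat_lit 5) (nat_lit 343) (nat_lit 301) (nat_lit 256))) (XT.nd (nat_lit 78) (nat_lit 1216) (nat_lit 0) (XT.lf (nat_lit 0) (nat_lit 4597571380) (nat_lit 608) (nat_lit 1196224992) (nat_lit 684) (nat_lit 3600503337) (nat_lit 246) (nat_lit 5) (nat_lit 254) (nat_lit 5) (nat_lit 255) (nat_lit 5) (nat_lit 344) (nat_lit 301) (nat_lit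 255)) (XT.nd (nat_lit 78) (nat_lit 532) (nat_lit 0) (XT.lf (nat_lit 0) (nat_lit 288825457) (nat_lit 684) (nat_lit 5367511603) (nat_lit 76) (nat_lit 3879407333) (nat_lit 237) (nat_lit 5) (nat_lit 246) (nat_lit 5) (nat_lit 238) (nat_lit 5) (nat_lit 345) (nat_lit 301) (nat_lit 254)) (XT.lf (nat_lit 0) (nat_lit 3714487008) (nat_lit 532) (nat_lit 526332509) (nat_lit 608) (nat_lit 5440258937) (nat_lit 230) (nat_lit 5) (nat_lit 237) (nat_lit 5) (nat_lit 238) (nat_lit 5) (nat_lit 346) (nat_lit 301) (nat_lit 253)))))) (XT.nd (nat_lit 390) (nat_lit 2356) (nat_lit 0) (XT.nd (nat_lit 156) (nat_lit 1672) (nat_lit 0) (XT.nd (nat_lit 78) (nat_lit 608) (nat_lit 0) (XT.lf (nat_lit 0) (nat_lit 3234883781) (nat_lit 608) (nat_lit 5096136996) (nat_lit 684) (nat_lit 1499378292) (nat_lit 222) (nat_lit 5) (nat_lit 230) (nat_lit 5) (nat_lit 231) (nat_lit 5) (nat_lit 347) (nat_lit 301) (nat_lit 252)) (XT.lf (nat_lit 0) (nat_lit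 2521681650) (nat_lit 608) (nat_lit 7247495061) (nat_lit 76) (nat_lit 214798260) (nat_lit 214) (nat_lit 5) (nat_lit 222) (nat_lit 5) (nat_lit 215) (nat_lit 5) (nat_lit 348) (nat_lit 301) (nat_lit 251))) (XT.nd (nat_lit 78) (nat_lit 1140) (nat_lit 0) (XT.lf (nat_lit 0) (nat_lit 2193772280) (nat_lit 532) (nat_lit 4476056179) (nat_lit 608) (nat_lit 3471612961) (nat_lit 207) (nat_lit 5) (nat_lit 214) (nat_lit 5) (nat_lit 215) (nat_lit 5) (nat_lit 349) (nat_lit 301) (nat_lit 250)) (XT.nd (nat_lit 78) (nat_lit 532) (nat_lit 0) (XT.lf (nat_lit 0) (nat_lit 631468025) (nat_lit 608) (nat_lit 8665878892) (nat_lit 76) (nat_lit 1006197972) (nat_lit 199) (nat_lit 5) (nat_lit 207) (nat_lit 5) (nat_lit 200) (nat_lit 5) (nat_lit 350) (nat_lit 301) (nat_lit 249)) (XT.lf (nat_lit 0) (nat_lit 1022569831) (nat_lit 532) (nat_lit 3814497686) (nat_lit 608) (nat_lit 5632469798) (nat_lit 192) (nat_lit 5) (nat_lit 199) (nat_lit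 5) (nat_lit 200) (nat_lit 5) (nat_lit 351) (nat_lit 301) (nat_lit 248))))) (XT.nd (nat_lit 234) (nat_lit 1368) (nat_lit 0) (XT.nd (nat_lit 78) (nat_lit 532) (nat_lit 0) (XT.lf (nat_lit 0) (nat_lit 386773578) (nat_lit 456) (nat_lit 8792294808) (nat_lit 532) (nat_lit 1461252612) (nat_lit 186) (nat_lit 5) (nat_lit 192) (nat_lit 5) (nat_lit 193) (nat_lit 5) (nat_lit 352) (nat_lit 301) (nat_lit 247)) (XT.nd (nat_lit 78) (nat_lit 456) (nat_lit 0) (XT.lf (nat_lit 0) (nat_lit 2825439439) (nat_lit 532) (nat_lit 300851044) (nat_lit 76) (nat_lit 7689034511) (nat_lit 185) (nat_lit 5) (nat_lit 192) (nat_lit 5) (nat_lit 186) (nat_lit 5) (nat_lit 353) (nat_lit 301) (nat_lit 246)) (XT.lf (nat_lit 0) (nat_lit 7243166748) (nat_lit 532) (nat_lit 1025489102) (nat_lit 76) (nat_lit 2726299263) (nat_lit 179) (nat_lit 5) (nat_lit 186) (nat_lit 5) (nat_lit 180) (nat_lit 5) (nat_lit 354) (nat_lit 301) (nat_lit 245)))) (XT.nd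 (nat_lit 78) (nat_lit 836) (nat_lit 0) (XT.lf (nat_lit 0) (nat_lit 629953412) (nat_lit 532) (nat_lit 1792902300) (nat_lit 76) (nat_lit 8756562028) (nat_lit 172) (nat_lit 5) (nat_lit 179) (nat_lit 5) (nat_lit 173) (nat_lit 5) (nat_lit 355) (nat_lit 301) (nat_lit 244)) (XT.nd (nat_lit 78) (nat_lit 380) (nat_lit 0) (XT.lf (nat_lit 0) (nat_lit 5121416429) (nat_lit 532) (nat_lit 2630204543) (nat_lit 76) (nat_lit 3616726260) (nat_lit 166) (nat_lit 5) (nat_lit 173) (nat_lit 5) (nat_lit 167) (nat_lit 5) (nat_lit 356) (nat_lit 301) (nat_lit 243)) (XT.lf (nat_lit 0) (nat_lit 8053625699) (nat_lit 380) (nat_lit 1717013142) (nat_lit 456) (nat_lit 1791858846) (nat_lit 161) (nat_lit 5) (nat_lit 166) (nat_lit 5) (nat_lit 167) (nat_lit 5) (nat_lit 357) (nat_lit 301) (nat_lit 242))))))))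
noncomputable def xc50 : XT := (XT.nd (nat_lit 1560) (nat_lit 1748) (nat_lit 0) (XT.nd (nat_lit 780) (nat_lit 2888) (nat_lit 0) (XT.nd (nat_lit 390) (nat_lit 1596) (nat_lit 0) (XT.nd (nat_lit 156) (nat_lit 1216) (nat_lit 0) (XT.nd (nat_lit 78) (nat_lit 380) (nat_lit 0) (XT.lf (nat_lit 0) (nat_lit 2798358325) (nat_lit 532) (nat_lit 4463969882) (nat_lit 76) (nat_lit 4499030527) (nat_lit 154) (nat_lit 5) (nat_lit 161) (nat_lit 5) (nat_lit 155) (nat_lit 5) (nat_lit 358) (nat_lit 301) (nat_lit 241)) (XT.lf (nat_lit 0) (nat_lit 6489913595) (nat_lit 380) (nat_lit 1033747693) (nat_lit 456) (nat_lit 4441865342) (nat_lit 149) (nat_lit 5) (nat_lit 154) (nat_lit 5) (nat_lit 155) (nat_lit 5) (nat_lit 359) (nat_lit 301) (nat_lit 240))) (XT.nd (nat_lit 78) (nat_lit 760) (nat_lit 0) (XT.lf (nat_lit 0) (nat_lit 259206952) (nat_lit 456) (nat_lit 6561146680) (nat_lit 76) (nat_lit 5354507370) (nat_lit 143) (nat_lit 5)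 (nat_lit 149) (nat_lit 5) (nat_lit 144) (nat_lit 5) (nat_lit 360) (nat_lit 301) (nat_lit 239)) (XT.nd (nat_lit 78) (nat_lit 380) (nat_lit 0) (XT.lf (nat_lit 0) (nat_lit 4664483219) (nat_lit 380) (nat_lit 397060341) (nat_lit 456) (nat_lit 7327944472) (nat_lit 138) (nat_lit 5) (nat_lit 143) (nat_lit 5) (nat_lit 144) (nat_lit 5) (nat_lit 361) (nat_lit 301) (nat_lit 238)) (XT.lf (nat_lit 0) (nat_lit 3633647966) (nat_lit 380) (nat_lit 6429609903) (nat_lit 456) (nat_lit 2546200957) (nat_lit 133) (nat_lit 5) (nat_lit 138) (nat_lit 5) (nat_lit 139) (nat_lit 5) (nat_lit 362) (nat_lit 301) (nat_lit 237))))) (XT.nd (nat_lit 156) (nat_lit 760) (nat_lit 0) (XT.nd (nat_lit 78) (nat_lit 380) (nat_lit 0) (XT.lf (nat_lit 0) (nat_lit 2368012259) (nat_lit 456) (nat_lit 10297566404) (nat_lit 76) (nat_lit 169747360) (nat_lit 127) (nat_lit 5) (nat_lit 133) (nat_lit 5) (nat_lit 128) (nat_lit 5) (nat_lit 363) (nat_lit 301)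 (nat_lit 236)) (XT.lf (nat_lit 0) (nat_lit 1330521381) (nat_lit 380) (nat_lit 6125717641) (nat_lit 456) (nat_lit 5610180268) (nat_lit 122) (nat_lit 5) (nat_lit 127) (nat_lit 5) (nat_lit 128) (nat_lit 5) (nat_lit 364) (nat_lit 301) (nat_lit 235))) (XT.nd (nat_lit 78) (nat_lit 456) (nat_lit 0) (XT.lf (nat_lit 0) (nat_lit 62845123) (nat_lit 304) (nat_lit 12657828464) (nat_lit 380) (nat_lit 583310506) (nat_lit 118) (nat_lit 5) (nat_lit 122) (nat_lit 5) (nat_lit 123) (nat_lit 5) (nat_lit 365) (nat_lit 301) (nat_lit 234)) (XT.nd (nat_lit 78) (nat_lit 380) (nat_lit 0) (XT.lf (nat_lit 0) (nat_lit 4604717964) (nat_lit 380) (nat_lit 1320523943) (nat_lit 76) (nat_lit 7621434652) (nat_lit 117) (nat_lit 5) (nat_lit 122) (nat_lit 5) (nat_lit 118) (nat_lit 5) (nat_lit 366) (nat_lit 301) (nat_lit 233)) (XT.lf (nat_lit 0) (nat_lit 9970007572) (nat_lit 456) (nat_lit 2780666269) (nat_lit 76) (nat_lit 1045317147) (nat_lit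 112) (nat_lit 5) (nat_lit 118) (nat_lit 5) (nat_lit 113) (nat_lit 5) (nat_lit 367) (nat_lit 301) (nat_lit 232)))))) (XT.nd (nat_lit 390) (nat_lit 1216) (nat_lit 0) (XT.nd (nat_lit 156) (nat_lit 988) (nat_lit 0) (XT.nd (nat_lit 78) (nat_lit 304) (nat_lit 0) (XT.lf (nat_lit 0) (nat_lit 1488377625) (nat_lit 380) (nat_lit 4362674053) (nat_lit 76) (nat_lit 8200277734) (nat_lit 107) (nat_lit 5) (nat_lit 112) (nat_lit 5) (nat_lit 108) (nat_lit 5) (nat_lit 368) (nat_lit 301) (nat_lit 231)) (XT.lf (nat_lit 0) (nat_lit 6944154960) (nat_lit 380) (nat_lit 6058114785) (nat_lit 76) (nat_lit 1310881644) (nat_lit 103) (nat_lit 5) (nat_lit 108) (nat_lit 5) (nat_lit 104) (nat_lit 5) (nat_lit 369) (nat_lit 301) (nat_lit 230))) (XT.nd (nat_lit 78) (nat_lit 684) (nat_lit 0) (XT.lf (nat_lit 0) (nat_lit 6702788771) (nat_lit 304) (nat_lit 5926376894) (nat_lit 380) (nat_lit 1952359418) (nat_lit 99) (nat_lit 5) (nat_lit 103)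 (nat_lit 5) (nat_lit 104) (nat_lit 5) (nat_lit 370) (nat_lit 301) (nat_lit 229)) (XT.nd (nat_lit 78) (nat_lit 304) (nat_lit 0) (XT.lf (nat_lit 0) (nat_lit 3616299644) (nat_lit 380) (nat_lit 9825602154) (nat_lit 76) (nat_lit 1414843328) (nat_lit 94) (nat_lit 5) (nat_lit 99) (nat_lit 5) (nat_lit 95) (nat_lit 5) (nat_lit 371) (nat_lit 301) (nat_lit 228)) (XT.lf (nat_lit 0) (nat_lit 3212596704) (nat_lit 304) (nat_lit 6181708422) (nat_lit 380) (nat_lit 5744289944) (nat_lit 90) (nat_lit 5) (nat_lit 94) (nat_lit 5) (nat_lit 95) (nat_lit 5) (nat_lit 372) (nat_lit 301) (nat_lit 227))))) (XT.nd (nat_lit 156) (nat_lit 836) (nat_lit 0) (XT.nd (nat_lit 78) (nat_lit 76) (nat_lit 0) (XT.lf (nat_lit 0) (nat_lit 1283812220) (nat_lit 304) (nat_lit 14100718655) (nat_lit 380) (nat_lit 43599443) (nat_lit 86) (nat_lit 5) (nat_lit 90) (nat_lit 5) (nat_lit 91) (nat_lit 5) (nat_lit 373) (nat_lit 301) (nat_lit 226)) (XT.lf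 (nat_lit 0) (nat_lit 5830012683) (nat_lit 380) (nat_lit 823734741) (nat_lit 76) (nat_lit 9070287702) (nat_lit 85) (nat_lit 5) (nat_lit 90) (nat_lit 5) (nat_lit 86) (nat_lit 5) (nat_lit 374) (nat_lit 301) (nat_lit 225))) (XT.nd (nat_lit 78) (nat_lit 608) (nat_lit 0) (XT.lf (nat_lit 0) (nat_lit 11927549114) (nat_lit 304) (nat_lit 3038689195) (nat_lit 76) (nat_lit 1061613688) (nat_lit 82) (nat_lit 5) (nat_lit 86) (nat_lit 5) (nat_lit 83) (nat_lit 5) (nat_lit 375) (nat_lit 301) (nat_lit 224)) (XT.nd (nat_lit 78) (nat_lit 228) (nat_lit 0) (XT.lf (nat_lit 0) (nat_lit 1921811086) (nat_lit 380) (nat_lit 5436054250) (nat_lit 76) (nat_lit 8981100652) (nat_lit 77) (nat_lit 5) (nat_lit 82) (nat_lit 5) (nat_lit 78) (nat_lit 5) (nat_lit 376) (nat_lit 301) (nat_lit 223)) (XT.lf (nat_lit 0) (nat_lit 8107866005) (nat_lit 304) (nat_lit 7999693092) (nat_lit 76) (nat_lit 550538879) (nat_lit 74) (nat_lit 5) (nat_lit 78)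 (nat_lit 5) (nat_lit 75) (nat_lit 5) (nat_lit 377) (nat_lit 301) (nat_lit 222))))))) (XT.nd (nat_lit 41106) (nat_lit 0) (nat_lit 44308) (XT.nd (nat_lit 390) (nat_lit 684) (nat_lit 0) (XT.nd (nat_lit 156) (nat_lit 532) (nat_lit 0) (XT.nd (nat_lit 78) (nat_lit 304) (nat_lit 0) (XT.lf (nat_lit 0) (nat_lit 6227433688) (nat_lit 228) (nat_lit 8337467543) (nat_lit 304) (nat_lit 2420200864) (nat_lit 71) (nat_lit 5) (nat_lit 74) (nat_lit 5) (nat_lit 75) (nat_lit 5) (nat_lit 378) (nat_lit 301) (nat_lit 221)) (XT.lf (nat_lit 0) (nat_lit 3623665615) (nat_lit 228) (nat_lit 256262982) (nat_lit 304) (nat_lit 13440742685) (nat_lit 67) (nat_lit 5) (nat_lit 70) (nat_lit 5) (nat_lit 71) (nat_lit 5) (nat_lit 379) (nat_lit 301) (nat_lit 220))) (XT.nd (nat_lit 78) (nat_lit 304) (nat_lit 0) (XT.lf (nat_lit 0) (nat_lit 792401913) (nat_lit 228) (nat_lit 9634617234) (nat_lit 304) (nat_lit 7237157361) (nat_lit 64) (nat_lit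 5) (nat_lit 67) (nat_lit 5) (nat_lit 68) (nat_lit 5) (nat_lit 380) (nat_lit 301) (nat_lit 219)) (XT.nd (nat_lit 78) (nat_lit 304) (nat_lit 0) (XT.lf (nat_lit 0) (nat_lit 15835554922) (nat_lit 228) (nat_lit 1389971759) (nat_lit 304) (nat_lit 791365636) (nat_lit 64) (nat_lit 5) (nat_lit 67) (nat_lit 5) (nat_lit 68) (nat_lit 5) (nat_lit 381) (nat_lit 301) (nat_lit 218)) (XT.lf (nat_lit 0) (nat_lit 5863749144) (nat_lit 304) (nat_lit 5407960545) (nat_lit 76) (nat_lit 7105872917) (nat_lit 60) (nat_lit 5) (nat_lit 64) (nat_lit 5) (nat_lit 61) (nat_lit 5) (nat_lit 382) (nat_lit 301) (nat_lit 217))))) (XT.nd (nat_lit 156) (nat_lit 228) (nat_lit 0) (XT.nd (nat_lit 78) (nat_lit 228) (nat_lit 0) (XT.lf (nat_lit 0) (nat_lit 9906615315) (nat_lit 228) (nat_lit 2851622238) (nat_lit 304) (nat_lit 5989747091) (nat_lit 57) (nat_lit 5) (nat_lit 60) (nat_lit 5) (nat_lit 61) (nat_lit 5) (nat_lit 383) (nat_lit 301) (nat_lit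 216)) (XT.lf (nat_lit 0) (nat_lit 801052765) (nat_lit 228) (nat_lit 12522955480) (nat_lit 76) (nat_lit 5803789231) (nat_lit 54) (nat_lit 5) (nat_lit 57) (nat_lit 5) (nat_lit 55) (nat_lit 5) (nat_lit 384) (nat_lit 301) (nat_lit 215))) (XT.nd (nat_lit 40404) (nat_lit 0) (nat_lit 48336) (XT.lf (nat_lit 0) (nat_lit 3034143796) (nat_lit 228) (nat_lit 4742471788) (nat_lit 304) (nat_lit 11740353648) (nat_lit 51) (nat_lit 5) (nat_lit 54) (nat_lit 5) (nat_lit 55) (nat_lit 5) (nat_lit 385) (nat_lit 301) (nat_lit 214)) (XT.nd (nat_lit 78) (nat_lit 380) (nat_lit 0) (XT.lf (nat_lit 0) (nat_lit 1228143079) (nat_lit 0) (nat_lit 1228143079) (nat_lit 228) (nat_lit 773412524) (nat_lit 692) (nat_lit 5) (nat_lit 692) (nat_lit 3) (nat_lit 695) (nat_lit 3) (nat_lit 302) (nat_lit 302) (nat_lit 296)) (XT.lf (nat_lit 76) (nat_lit 685746542) (nat_lit 0) (nat_lit 1984583124) (nat_lit 380) (nat_lit 3799149085) (nat_lit 688)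 (nat_lit 5) (nat_lit 687) (nat_lit 3) (nat_lit 692) (nat_lit 5) (nat_lit 303) (nat_lit 302) (nat_lit 295)))))) (XT.nd (nat_lit 390) (nat_lit 2736) (nat_lit 0) (XT.nd (nat_lit 156) (nat_lit 912) (nat_lit 0) (XT.nd (nat_lit 78) (nat_lit 0) (nat_lit 0) (XT.lf (nat_lit 0) (nat_lit 367693160) (nat_lit 380) (nat_lit 1010421395) (nat_lit 456) (nat_lit 5104355054) (nat_lit 682) (nat_lit 5) (nat_lit 687) (nat_lit 3) (nat_lit 688) (nat_lit 5) (nat_lit 304) (nat_lit 302) (nat_lit 294)) (XT.lf (nat_lit 76) (nat_lit 3846294470) (nat_lit 0) (nat_lit 625481853) (nat_lit 456) (nat_lit 2026391856) (nat_lit 683) (nat_lit 5) (nat_lit 682) (nat_lit 5) (nat_lit 688) (nat_lit 5) (nat_lit 305) (nat_lit 302) (nat_lit 293))) (XT.nd (nat_lit 78) (nat_lit 532) (nat_lit 0) (XT.lf (nat_lit 0) (nat_lit 2020968220) (nat_lit 456) (nat_lit 4240223200) (nat_lit 532) (nat_lit 255655657) (nat_lit 677) (nat_lit 5) (nat_lit 683) (nat_lit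 5) (nat_lit 684) (nat_lit 5) (nat_lit 306) (nat_lit 302) (nat_lit 292)) (XT.nd (nat_lit 78) (nat_lit 532) (nat_lit 0) (XT.lf (nat_lit 76) (nat_lit 757737990) (nat_lit 0) (nat_lit 5277959210) (nat_lit 532) (nat_lit 502741553) (nat_lit 678) (nat_lit 5) (nat_lit 677) (nat_lit 5) (nat_lit 684) (nat_lit 5) (nat_lit 307) (nat_lit 302) (nat_lit 291)) (XT.lf (nat_lit 0) (nat_lit 3440736361) (nat_lit 532) (nat_lit 708616665) (nat_lit 608) (nat_lit 2413384011) (nat_lit 670) (nat_lit 5) (nat_lit 677) (nat_lit 5) (nat_lit 678) (nat_lit 5) (nat_lit 308) (nat_lit 302) (nat_lit 290))))) (XT.nd (nat_lit 234) (nat_lit 1520) (nat_lit 0) (XT.nd (nat_lit 78) (nat_lit 608) (nat_lit 0) (XT.lf (nat_lit 0) (nat_lit 777751672) (nat_lit 608) (nat_lit 2110138655) (nat_lit 684) (nat_lit 3702137608) (nat_lit 662) (nat_lit 5) (nat_lit 670) (nat_lit 5) (nat_lit 671) (nat_lit 5) (nat_lit 309) (nat_lit 302) (nat_lit 289)) (XT.nd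 (nat_lit 78) (nat_lit 608) (nat_lit 0) (XT.lf (nat_lit 76) (nat_lit 3149525728) (nat_lit 0) (nat_lit 1484145189) (nat_lit 684) (nat_lit 1986501170) (nat_lit 663) (nat_lit 5) (nat_lit 662) (nat_lit 5) (nat_lit 671) (nat_lit 5) (nat_lit 310) (nat_lit 302) (nat_lit 288)) (XT.lf (nat_lit 0) (nat_lit 1814014571) (nat_lit 684) (nat_lit 4784161042) (nat_lit 76) (nat_lit 55154559) (nat_lit 654) (nat_lit 5) (nat_lit 663) (nat_lit 5) (nat_lit 655) (nat_lit 5) (nat_lit 311) (nat_lit 302) (nat_lit 287)))) (XT.nd (nat_lit 78) (nat_lit 836) (nat_lit 0) (XT.lf (nat_lit 0) (nat_lit 625633078) (nat_lit 684) (nat_lit 4976335964) (nat_lit 760) (nat_lit 1087316157) (nat_lit 645) (nat_lit 5) (nat_lit 654) (nat_lit 5) (nat_lit 655) (nat_lit 5) (nat_lit 312) (nat_lit 302) (nat_lit 286)) (XT.nd (nat_lit 78) (nat_lit 760) (nat_lit 0) (XT.lf (nat_lit 0) (nat_lit 2638527090) (nat_lit 760) (nat_lit 570010102) (nat_lit 76) (nat_lit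 3519536433) (nat_lit 644) (nat_lit 5) (nat_lit 654) (nat_lit 5) (nat_lit 645) (nat_lit 5) (nat_lit 313) (nat_lit 302) (nat_lit 285)) (XT.lf (nat_lit 0) (nat_lit 5060844104) (nat_lit 760) (nat_lit 1302475792) (nat_lit 836) (nat_lit 406590642) (nat_lit 634) (nat_lit 5) (nat_lit 644) (nat_lit 5) (nat_lit 645) (nat_lit 5) (nat_lit 314) (nat_lit 302) (nat_lit 284))))))))
noncomputable def xc51 : XT := (XT.nd (nat_lit 1560) (nat_lit 12920) (nat_lit 0) (XT.nd (nat_lit 780) (nat_lit 11476) (nat_lit 0) (XT.nd (nat_lit 390) (nat_lit 5472) (nat_lit 0) (XT.nd (nat_lit 156) (nat_lit 3268) (nat_lit 0) (XT.nd (nat_lit 78) (nat_lit 988) (nat_lit 0) (XT.lf (nat_lit 0) (nat_lit 3248544660) (nat_lit 912) (nat_lit 2820641623) (nat_lit 76) (nat_lit 745318546) (nat_lit 622) (nat_lit 5) (nat_lit 634) (nat_lit 5) (nat_lit 623) (nat_lit 5) (nat_lit 315) (nat_lit 302) (nat_lit 283)) (XT.lf (nat_lit 0) (nat_lit 59352758) (nat_lit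 988) (nat_lit 3892514614) (nat_lit 76) (nat_lit 2910280658) (nat_lit 609) (nat_lit 5) (nat_lit 622) (nat_lit 5) (nat_lit 610) (nat_lit 5) (nat_lit 316) (nat_lit 302) (nat_lit 282))) (XT.nd (nat_lit 78) (nat_lit 2280) (nat_lit 0) (XT.lf (nat_lit 0) (nat_lit 1974568515) (nat_lit 988) (nat_lit 1679762779) (nat_lit 1064) (nat_lit 3258290125) (nat_lit 596) (nat_lit 5) (nat_lit 609) (nat_lit 5) (nat_lit 610) (nat_lit 5) (nat_lit 317) (nat_lit 302) (nat_lit 281)) (XT.nd (nat_lit 78) (nat_lit 1140) (nat_lit 0) (XT.lf (nat_lit 0) (nat_lit 304545329) (nat_lit 1140) (nat_lit 5942431557) (nat_lit 76) (nat_lit 719294804) (nat_lit 581) (nat_lit 5) (nat_lit 596) (nat_lit 5) (nat_lit 582) (nat_lit 5) (nat_lit 318) (nat_lit 302) (nat_lit 280)) (XT.lf (nat_lit 0) (nat_lit 89114034) (nat_lit 1140) (nat_lit 3768960801) (nat_lit 1216) (nat_lit 3164519240) (nat_lit 566) (nat_lit 5) (nat_lit 581) (nat_lit 5) (nat_lit 582)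 (nat_lit 5) (nat_lit 319) (nat_lit 302) (nat_lit 279))))) (XT.nd (nat_lit 156) (nat_lit 4180) (nat_lit 0) (XT.nd (nat_lit 78) (nat_lit 1216) (nat_lit 0) (XT.lf (nat_lit 0) (nat_lit 356766678) (nat_lit 1216) (nat_lit 790219140) (nat_lit 76) (nat_lit 5935117686) (nat_lit 565) (nat_lit 5) (nat_lit 581) (nat_lit 5) (nat_lit 566) (nat_lit 5) (nat_lit 320) (nat_lit 302) (nat_lit 278)) (XT.lf (nat_lit 0) (nat_lit 3875016225) (nat_lit 1292) (nat_lit 1654489581) (nat_lit 76) (nat_lit 1614838404) (nat_lit 549) (nat_lit 5) (nat_lit 566) (nat_lit 5) (nat_lit 550) (nat_lit 5) (nat_lit 321) (nat_lit 302) (nat_lit 277))) (XT.nd (nat_lit 78) (nat_lit 2812) (nat_lit 0) (XT.lf (nat_lit 0) (nat_lit 220414748) (nat_lit 1368) (nat_lit 2484778304) (nat_lit 76) (nat_lit 4504592419) (nat_lit 531) (nat_lit 5) (nat_lit 549) (nat_lit 5) (nat_lit 532) (nat_lit 5) (nat_lit 322) (nat_lit 302) (nat_lit 276)) (XT.nd (nat_lit 78)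 (nat_lit 1444) (nat_lit 0) (XT.lf (nat_lit 0) (nat_lit 3702133313) (nat_lit 1444) (nat_lit 3296808590) (nat_lit 76) (nat_lit 279228707) (nat_lit 513) (nat_lit 5) (nat_lit 532) (nat_lit 5) (nat_lit 514) (nat_lit 5) (nat_lit 323) (nat_lit 302) (nat_lit 275)) (XT.lf (nat_lit 0) (nat_lit 3262352424) (nat_lit 1444) (nat_lit 3977316985) (nat_lit 1520) (nat_lit 109956075) (nat_lit 494) (nat_lit 5) (nat_lit 513) (nat_lit 5) (nat_lit 514) (nat_lit 5) (nat_lit 324) (nat_lit 302) (nat_lit 274)))))) (XT.nd (nat_lit 390) (nat_lit 4712) (nat_lit 0) (XT.nd (nat_lit 156) (nat_lit 3572) (nat_lit 0) (XT.nd (nat_lit 78) (nat_lit 1596) (nat_lit 0) (XT.lf (nat_lit 0) (nat_lit 2562207226) (nat_lit 1520) (nat_lit 788549850) (nat_lit 1596) (nat_lit 4073340343) (nat_lit 473) (nat_lit 5) (nat_lit 493) (nat_lit 5) (nat_lit 494) (nat_lit 5) (nat_lit 325) (nat_lit 302) (nat_lit 273)) (XT.lf (nat_lit 0) (nat_lit 1884350956) (nat_lit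 1596) (nat_lit 4985194449) (nat_lit 1672) (nat_lit 632170663) (nat_lit 452) (nat_lit 5) (nat_lit 473) (nat_lit 5) (nat_lit 474) (nat_lit 5) (nat_lit 326) (nat_lit 302) (nat_lit 272))) (XT.nd (nat_lit 78) (nat_lit 1824) (nat_lit 0) (XT.lf (nat_lit 0) (nat_lit 1220126509) (nat_lit 1672) (nat_lit 1601355139) (nat_lit 1748) (nat_lit 4760894649) (nat_lit 429) (nat_lit 5) (nat_lit 451) (nat_lit 5) (nat_lit 452) (nat_lit 5) (nat_lit 327) (nat_lit 302) (nat_lit 271)) (XT.nd (nat_lit 78) (nat_lit 76) (nat_lit 0) (XT.lf (nat_lit 0) (nat_lit 575206752) (nat_lit 1748) (nat_lit 5752722422) (nat_lit 1824) (nat_lit 1338326954) (nat_lit 406) (nat_lit 5) (nat_lit 429) (nat_lit 5) (nat_lit 430) (nat_lit 5) (nat_lit 328) (nat_lit 302) (nat_lit 270)) (XT.lf (nat_lit 0) (nat_lit 2117356557) (nat_lit 1824) (nat_lit 59503594) (nat_lit 76) (nat_lit 5576362798) (nat_lit 405) (nat_lit 5) (nat_lit 429) (nat_lit 5) (nat_lit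 406) (nat_lit 5) (nat_lit 329) (nat_lit 302) (nat_lit 269))))) (XT.nd (nat_lit 156) (nat_lit 2584) (nat_lit 0) (XT.nd (nat_lit 78) (nat_lit 988) (nat_lit 0) (XT.lf (nat_lit 0) (nat_lit 5623208667) (nat_lit 1216) (nat_lit 673294629) (nat_lit 76) (nat_lit 1546860845) (nat_lit 390) (nat_lit 5) (nat_lit 406) (nat_lit 5) (nat_lit 391) (nat_lit 5) (nat_lit 330) (nat_lit 302) (nat_lit 268)) (XT.lf (nat_lit 0) (nat_lit 1248930032) (nat_lit 988) (nat_lit 1279290887) (nat_lit 76) (nat_lit 5408495733) (nat_lit 377) (nat_lit 5) (nat_lit 390) (nat_lit 5) (nat_lit 378) (nat_lit 5) (nat_lit 331) (nat_lit 302) (nat_lit 267))) (XT.nd (nat_lit 78) (nat_lit 1748) (nat_lit 0) (XT.lf (nat_lit 0) (nat_lit 4757257297) (nat_lit 912) (nat_lit 1880198725) (nat_lit 76) (nat_lit 1395846747) (nat_lit 366) (nat_lit 5) (nat_lit 378) (nat_lit 5) (nat_lit 367) (nat_lit 5) (nat_lit 332) (nat_lit 302) (nat_lit 266)) (XT.nd (nat_lit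 78) (nat_lit 836) (nat_lit 0) (XT.lf (nat_lit 0) (nat_lit 210524603) (nat_lit 912) (nat_lit 2472337454) (nat_lit 76) (nat_lit 5450413110) (nat_lit 354) (nat_lit 5) (nat_lit 366) (nat_lit 5) (nat_lit 355) (nat_lit 5) (nat_lit 333) (nat_lit 302) (nat_lit 265)) (XT.lf (nat_lit 0) (nat_lit 3728089430) (nat_lit 912) (nat_lit 3070181176) (nat_lit 76) (nat_lit 1438155578) (nat_lit 343) (nat_lit 5) (nat_lit 355) (nat_lit 5) (nat_lit 344) (nat_lit 5) (nat_lit 334) (nat_lit 302) (nat_lit 264))))))) (XT.nd (nat_lit 780) (nat_lit 5548) (nat_lit 0) (XT.nd (nat_lit 390) (nat_lit 3420) (nat_lit 0) (XT.nd (nat_lit 156) (nat_lit 2280) (nat_lit 0) (XT.nd (nat_lit 78) (nat_lit 836) (nat_lit 0) (XT.lf (nat_lit 0) (nat_lit 4680530260) (nat_lit 836) (nat_lit 2652505181) (nat_lit 912) (nat_lit 1010028977) (nat_lit 332) (nat_lit 5) (nat_lit 343) (nat_lit 5) (nat_lit 344) (nat_lit 5) (nat_lit 335) (nat_lit 302) (nat_lit 263))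 (XT.lf (nat_lit 0) (nat_lit 2536301278) (nat_lit 836) (nat_lit 4260687241) (nat_lit 76) (nat_lit 1656063202) (nat_lit 321) (nat_lit 5) (nat_lit 332) (nat_lit 5) (nat_lit 322) (nat_lit 5) (nat_lit 336) (nat_lit 302) (nat_lit 262))) (XT.nd (nat_lit 78) (nat_lit 1520) (nat_lit 0) (XT.lf (nat_lit 0) (nat_lit 3702965947) (nat_lit 760) (nat_lit 2458916091) (nat_lit 836) (nat_lit 2404618932) (nat_lit 311) (nat_lit 5) (nat_lit 321) (nat_lit 5) (nat_lit 322) (nat_lit 5) (nat_lit 337) (nat_lit 302) (nat_lit 261)) (XT.nd (nat_lit 78) (nat_lit 760) (nat_lit 0) (XT.lf (nat_lit 0) (nat_lit 1181329790) (nat_lit 760) (nat_lit 5469626917) (nat_lit 76) (nat_lit 2032578474) (nat_lit 301) (nat_lit 5) (nat_lit 311) (nat_lit 5) (nat_lit 302) (nat_lit 5) (nat_lit 338) (nat_lit 302) (nat_lit 260)) (XT.lf (nat_lit 0) (nat_lit 2711771540) (nat_lit 760) (nat_lit 2120479870) (nat_lit 836) (nat_lit 3971735266) (nat_lit 291) (nat_lit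 5) (nat_lit 301) (nat_lit 5) (nat_lit 302) (nat_lit 5) (nat_lit 339) (nat_lit 302) (nat_lit 259))))) (XT.nd (nat_lit 156) (nat_lit 1976) (nat_lit 0) (XT.nd (nat_lit 78) (nat_lit 760) (nat_lit 0) (XT.lf (nat_lit 0) (nat_lit 2210466715) (nat_lit 684) (nat_lit 6374698333) (nat_lit 760) (nat_lit 343062064) (nat_lit 282) (nat_lit 5) (nat_lit 291) (nat_lit 5) (nat_lit 292) (nat_lit 5) (nat_lit 340) (nat_lit 302) (nat_lit 258)) (XT.lf (nat_lit 0) (nat_lit 1688393720) (nat_lit 684) (nat_lit 1653660669) (nat_lit 760) (nat_lit 5713881042) (nat_lit 272) (nat_lit 5) (nat_lit 281) (nat_lit 5) (nat_lit 282) (nat_lit 5) (nat_lit 341) (nat_lit 302) (nat_lit 257))) (XT.nd (nat_lit 78) (nat_lit 1368) (nat_lit 0) (XT.lf (nat_lit 0) (nat_lit 1156371480) (nat_lit 608) (nat_lit 5977816550) (nat_lit 684) (nat_lit 2053241935) (nat_lit 264) (nat_lit 5) (nat_lit 272) (nat_lit 5) (nat_lit 273) (nat_lit 5) (nat_lit 342) (nat_lit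 302) (nat_lit 256)) (XT.nd (nat_lit 78) (nat_lit 608) (nat_lit 0) (XT.lf (nat_lit 0) (nat_lit 613441357) (nat_lit 684) (nat_lit 1074556395) (nat_lit 760) (nat_lit 7634804250) (nat_lit 254) (nat_lit 5) (nat_lit 263) (nat_lit 5) (nat_lit 264) (nat_lit 5) (nat_lit 343) (nat_lit 302) (nat_lit 255)) (XT.lf (nat_lit 0) (nat_lit 39711721) (nat_lit 608) (nat_lit 5484327519) (nat_lit 684) (nat_lit 3937736398) (nat_lit 246) (nat_lit 5) (nat_lit 254) (nat_lit 5) (nat_lit 255) (nat_lit 5) (nat_lit 344) (nat_lit 302) (nat_lit 254)))))) (XT.nd (nat_lit 390) (nat_lit 3116) (nat_lit 0) (XT.nd (nat_lit 156) (nat_lit 1748) (nat_lit 0) (XT.nd (nat_lit 78) (nat_lit 684) (nat_lit 0) (XT.lf (nat_lit 0) (nat_lit 9077636685) (nat_lit 608) (nat_lit 394629198) (nat_lit 684) (nat_lit 132730989) (nat_lit 246) (nat_lit 5) (nat_lit 254) (nat_lit 5) (nat_lit 255) (nat_lit 5) (nat_lit 345) (nat_lit 302) (nat_lit 253)) (XT.lf (nat_lit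 0) (nat_lit 3757252161) (nat_lit 684) (nat_lit 1145249194) (nat_lit 76) (nat_lit 4849131443) (nat_lit 237) (nat_lit 5) (nat_lit 246) (nat_lit 5) (nat_lit 238) (nat_lit 5) (nat_lit 346) (nat_lit 302) (nat_lit 252))) (XT.nd (nat_lit 78) (nat_lit 1216) (nat_lit 0) (XT.lf (nat_lit 0) (nat_lit 7757520864) (nat_lit 608) (nat_lit 1767202478) (nat_lit 76) (nat_lit 378038039) (nat_lit 230) (nat_lit 5) (nat_lit 238) (nat_lit 5) (nat_lit 231) (nat_lit 5) (nat_lit 347) (nat_lit 302) (nat_lit 251)) (XT.nd (nat_lit 78) (nat_lit 532) (nat_lit 0) (XT.lf (nat_lit 0) (nat_lit 1820930531) (nat_lit 684) (nat_lit 2434096441) (nat_lit 76) (nat_lit 5802670236) (nat_lit 221) (nat_lit 5) (nat_lit 230) (nat_lit 5) (nat_lit 222) (nat_lit 5) (nat_lit 348) (nat_lit 302) (nat_lit 250)) (XT.lf (nat_lit 0) (nat_lit 5879233769) (nat_lit 608) (nat_lit 3126343491) (nat_lit 76) (nat_lit 1211391878) (nat_lit 214) (nat_lit 5) (nat_lit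 222) (nat_lit 5) (nat_lit 215) (nat_lit 5) (nat_lit 349) (nat_lit 302) (nat_lit 249))))) (XT.nd (nat_lit 234) (nat_lit 1444) (nat_lit 0) (XT.nd (nat_lit 78) (nat_lit 1140) (nat_lit 0) (XT.lf (nat_lit 0) (nat_lit 6527773622) (nat_lit 532) (nat_lit 3556173900) (nat_lit 608) (nat_lit 296595444) (nat_lit 207) (nat_lit 5) (nat_lit 214) (nat_lit 5) (nat_lit 215) (nat_lit 5) (nat_lit 350) (nat_lit 302) (nat_lit 248)) (XT.nd (nat_lit 78) (nat_lit 532) (nat_lit 0) (XT.lf (nat_lit 0) (nat_lit 3826820741) (nat_lit 608) (nat_lit 4626529276) (nat_lit 76) (nat_lit 2094953312) (nat_lit 199) (nat_lit 5) (nat_lit 207) (nat_lit 5) (nat_lit 200) (nat_lit 5) (nat_lit 351) (nat_lit 302) (nat_lit 247)) (XT.lf (nat_lit 0) (nat_lit 5282821453) (nat_lit 532) (nat_lit 2810711210) (nat_lit 608) (nat_lit 2627067851) (nat_lit 192) (nat_lit 5) (nat_lit 199) (nat_lit 5) (nat_lit 200) (nat_lit 5) (nat_lit 352) (nat_lit 302) (nat_lit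 246)))) (XT.nd (nat_lit 78) (nat_lit 912) (nat_lit 0) (XT.lf (nat_lit 0) (nat_lit 1590796483) (nat_lit 532) (nat_lit 6293931189) (nat_lit 76) (nat_lit 3012717927) (nat_lit 185) (nat_lit 5) (nat_lit 192) (nat_lit 5) (nat_lit 186) (nat_lit 5) (nat_lit 353) (nat_lit 302) (nat_lit 245)) (XT.nd (nat_lit 78) (nat_lit 456) (nat_lit 0) (XT.lf (nat_lit 0) (nat_lit 3874383859) (nat_lit 456) (nat_lit 2047524460) (nat_lit 532) (nat_lit 5156906847) (nat_lit 179) (nat_lit 5) (nat_lit 185) (nat_lit 5) (nat_lit 186) (nat_lit 5) (nat_lit 354) (nat_lit 302) (nat_lit 244)) (XT.lf (nat_lit 0) (nat_lit 3102653990) (nat_lit 456) (nat_lit 7311322018) (nat_lit 532) (nat_lit 851043432) (nat_lit 173) (nat_lit 5) (nat_lit 179) (nat_lit 5) (nat_lit 180) (nat_lit 5) (nat_lit 355) (nat_lit 302) (nat_lit 243))))))))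
noncomputable def xc52 : XT := (XT.nd (nat_lit 1560) (nat_lit 2128) (nat_lit 0) (XT.nd (nat_lit 780) (nat_lit 3040) (nat_lit 0) (XT.nd (nat_lit 390) (nat_lit 2052) (nat_lit 0) (XT.nd (nat_lit 156) (nat_lit 912) (nat_lit 0) (XT.nd (nat_lit 78) (nat_lit 380) (nat_lit 0) (XT.lf (nat_lit 0) (nat_lit 2273671776) (nat_lit 456) (nat_lit 1283897463) (nat_lit 532) (nat_lit 7898377039) (nat_lit 166) (nat_lit 5) (nat_lit 172) (nat_lit 5) (nat_lit 173) (nat_lit 5) (nat_lit 356) (nat_lit 302) (nat_lit 242)) (XT.lf (nat_lit 0) (nat_lit 1382863102) (nat_lit 380) (nat_lit 6744682781) (nat_lit 456) (nat_lit 3524142171) (nat_lit 161) (nat_lit 5) (nat_lit 166) (nat_lit 5) (nat_lit 167) (nat_lit 5) (nat_lit 357) (nat_lit 302) (nat_lit 241))) (XT.nd (nat_lit 78) (nat_lit 380) (nat_lit 0) (XT.lf (nat_lit 0) (nat_lit 449398488) (nat_lit 456) (nat_lit 537906313) (nat_lit 532) (nat_lit 10865505125) (nat_lit 154) (nat_lit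 5) (nat_lit 160) (nat_lit 5) (nat_lit 161) (nat_lit 5) (nat_lit 358) (nat_lit 302) (nat_lit 240)) (XT.nd (nat_lit 78) (nat_lit 380) (nat_lit 0) (XT.lf (nat_lit 0) (nat_lit 5640210550) (nat_lit 532) (nat_lit 570243865) (nat_lit 76) (nat_lit 5847977270) (nat_lit 154) (nat_lit 5) (nat_lit 161) (nat_lit 5) (nat_lit 155) (nat_lit 5) (nat_lit 359) (nat_lit 302) (nat_lit 239)) (XT.lf (nat_lit 0) (nat_lit 10453932405) (nat_lit 456) (nat_lit 1624183189) (nat_lit 76) (nat_lit 191693588) (nat_lit 149) (nat_lit 5) (nat_lit 155) (nat_lit 5) (nat_lit 150) (nat_lit 5) (nat_lit 360) (nat_lit 302) (nat_lit 238))))) (XT.nd (nat_lit 156) (nat_lit 1216) (nat_lit 0) (XT.nd (nat_lit 78) (nat_lit 380) (nat_lit 0) (XT.lf (nat_lit 0) (nat_lit 2943258591) (nat_lit 456) (nat_lit 2778103948) (nat_lit 76) (nat_lit 6764655276) (nat_lit 143) (nat_lit 5) (nat_lit 149) (nat_lit 5) (nat_lit 144) (nat_lit 5) (nat_lit 361) (nat_lit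 302) (nat_lit 237)) (XT.lf (nat_lit 0) (nat_lit 7842866666) (nat_lit 456) (nat_lit 3994154939) (nat_lit 76) (nat_lit 871014438) (nat_lit 138) (nat_lit 5) (nat_lit 144) (nat_lit 5) (nat_lit 139) (nat_lit 5) (nat_lit 362) (nat_lit 302) (nat_lit 236))) (XT.nd (nat_lit 78) (nat_lit 760) (nat_lit 0) (XT.lf (nat_lit 0) (nat_lit 10185581) (nat_lit 456) (nat_lit 5297306503) (nat_lit 76) (nat_lit 7628102776) (nat_lit 132) (nat_lit 5) (nat_lit 138) (nat_lit 5) (nat_lit 133) (nat_lit 5) (nat_lit 363) (nat_lit 302) (nat_lit 235)) (XT.nd (nat_lit 78) (nat_lit 380) (nat_lit 0) (XT.lf (nat_lit 0) (nat_lit 4995420578) (nat_lit 456) (nat_lit 6696617385) (nat_lit 76) (nat_lit 1476714905) (nat_lit 127) (nat_lit 5) (nat_lit 133) (nat_lit 5) (nat_lit 128) (nat_lit 5) (nat_lit 364) (nat_lit 302) (nat_lit 234)) (XT.lf (nat_lit 0) (nat_lit 5216879940) (nat_lit 380) (nat_lit 4969930542) (nat_lit 456) (nat_lit 3220972847)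 (nat_lit 122) (nat_lit 5) (nat_lit 127) (nat_lit 5) (nat_lit 128) (nat_lit 5) (nat_lit 365) (nat_lit 302) (nat_lit 233)))))) (XT.nd (nat_lit 390) (nat_lit 1596) (nat_lit 0) (XT.nd (nat_lit 156) (nat_lit 684) (nat_lit 0) (XT.nd (nat_lit 78) (nat_lit 380) (nat_lit 0) (XT.lf (nat_lit 0) (nat_lit 1891027490) (nat_lit 380) (nat_lit 9775704683) (nat_lit 76) (nat_lit 1986303098) (nat_lit 117) (nat_lit 5) (nat_lit 122) (nat_lit 5) (nat_lit 118) (nat_lit 5) (nat_lit 366) (nat_lit 302) (nat_lit 232)) (XT.lf (nat_lit 0) (nat_lit 2417948480) (nat_lit 380) (nat_lit 4752219253) (nat_lit 456) (nat_lit 6733909356) (nat_lit 112) (nat_lit 5) (nat_lit 117) (nat_lit 5) (nat_lit 118) (nat_lit 5) (nat_lit 367) (nat_lit 302) (nat_lit 231))) (XT.nd (nat_lit 78) (nat_lit 380) (nat_lit 0) (XT.lf (nat_lit 0) (nat_lit 872121674) (nat_lit 304) (nat_lit 11776518358) (nat_lit 380) (nat_lit 1513199649) (nat_lit 108) (nat_lit 5)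 (nat_lit 112) (nat_lit 5) (nat_lit 113) (nat_lit 5) (nat_lit 368) (nat_lit 302) (nat_lit 230)) (XT.nd (nat_lit 78) (nat_lit 304) (nat_lit 0) (XT.lf (nat_lit 0) (nat_lit 3877390894) (nat_lit 380) (nat_lit 797639825) (nat_lit 76) (nat_lit 9750532155) (nat_lit 107) (nat_lit 5) (nat_lit 112) (nat_lit 5) (nat_lit 108) (nat_lit 5) (nat_lit 369) (nat_lit 302) (nat_lit 229)) (XT.lf (nat_lit 0) (nat_lit 9460842105) (nat_lit 380) (nat_lit 2566180822) (nat_lit 76) (nat_lit 2668948781) (nat_lit 103) (nat_lit 5) (nat_lit 108) (nat_lit 5) (nat_lit 104) (nat_lit 5) (nat_lit 370) (nat_lit 302) (nat_lit 228))))) (XT.nd (nat_lit 156) (nat_lit 912) (nat_lit 0) (XT.nd (nat_lit 78) (nat_lit 304) (nat_lit 0) (XT.lf (nat_lit 0) (nat_lit 295424372) (nat_lit 380) (nat_lit 4457278638) (nat_lit 76) (nat_lit 10220541964) (nat_lit 98) (nat_lit 5) (nat_lit 103) (nat_lit 5) (nat_lit 99) (nat_lit 5) (nat_lit 371) (nat_lit 302) (nat_lit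 227)) (XT.lf (nat_lit 0) (nat_lit 5970399743) (nat_lit 380) (nat_lit 6498382697) (nat_lit 76) (nat_lit 2788376730) (nat_lit 94) (nat_lit 5) (nat_lit 99) (nat_lit 5) (nat_lit 95) (nat_lit 5) (nat_lit 372) (nat_lit 302) (nat_lit 226))) (XT.nd (nat_lit 78) (nat_lit 608) (nat_lit 0) (XT.lf (nat_lit 0) (nat_lit 6872199683) (nat_lit 304) (nat_lit 5007274378) (nat_lit 380) (nat_lit 3668846931) (nat_lit 90) (nat_lit 5) (nat_lit 94) (nat_lit 5) (nat_lit 95) (nat_lit 5) (nat_lit 373) (nat_lit 302) (nat_lit 225)) (XT.nd (nat_lit 78) (nat_lit 228) (nat_lit 0) (XT.lf (nat_lit 0) (nat_lit 2141130888) (nat_lit 380) (nat_lit 10998524027) (nat_lit 76) (nat_lit 2707268609) (nat_lit 85) (nat_lit 5) (nat_lit 90) (nat_lit 5) (nat_lit 86) (nat_lit 5) (nat_lit 374) (nat_lit 302) (nat_lit 224)) (XT.lf (nat_lit 0) (nat_lit 2652193567) (nat_lit 228) (nat_lit 5491734778) (nat_lit 304) (nat_lit 8008710104) (nat_lit 82) (nat_lit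 5) (nat_lit 85) (nat_lit 5) (nat_lit 86) (nat_lit 5) (nat_lit 375) (nat_lit 302) (nat_lit 223))))))) (XT.nd (nat_lit 41184) (nat_lit 0) (nat_lit 44764) (XT.nd (nat_lit 390) (nat_lit 988) (nat_lit 0) (XT.nd (nat_lit 156) (nat_lit 760) (nat_lit 0) (XT.nd (nat_lit 78) (nat_lit 76) (nat_lit 0) (XT.lf (nat_lit 0) (nat_lit 317289683) (nat_lit 304) (nat_lit 14060898101) (nat_lit 380) (nat_lit 2088315931) (nat_lit 78) (nat_lit 5) (nat_lit 82) (nat_lit 5) (nat_lit 83) (nat_lit 5) (nat_lit 376) (nat_lit 302) (nat_lit 222)) (XT.lf (nat_lit 0) (nat_lit 4045215579) (nat_lit 380) (nat_lit 2184251314) (nat_lit 76) (nat_lit 10558041253) (nat_lit 77) (nat_lit 5) (nat_lit 82) (nat_lit 5) (nat_lit 78) (nat_lit 5) (nat_lit 377) (nat_lit 302) (nat_lit 221))) (XT.nd (nat_lit 78) (nat_lit 532) (nat_lit 0) (XT.lf (nat_lit 0) (nat_lit 10387145447) (nat_lit 304) (nat_lit 4847999930) (nat_lit 76) (nat_lit 1881671932) (nat_lit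 74) (nat_lit 5) (nat_lit 78) (nat_lit 5) (nat_lit 75) (nat_lit 5) (nat_lit 378) (nat_lit 302) (nat_lit 220)) (XT.nd (nat_lit 78) (nat_lit 304) (nat_lit 0) (XT.lf (nat_lit 0) (nat_lit 9750914610) (nat_lit 228) (nat_lit 7249338679) (nat_lit 304) (nat_lit 454139848) (nat_lit 71) (nat_lit 5) (nat_lit 74) (nat_lit 5) (nat_lit 75) (nat_lit 5) (nat_lit 379) (nat_lit 302) (nat_lit 219)) (XT.lf (nat_lit 0) (nat_lit 5978090469) (nat_lit 304) (nat_lit 10765977396) (nat_lit 76) (nat_lit 1056308512) (nat_lit 67) (nat_lit 5) (nat_lit 71) (nat_lit 5) (nat_lit 68) (nat_lit 5) (nat_lit 380) (nat_lit 302) (nat_lit 218))))) (XT.nd (nat_lit 156) (nat_lit 456) (nat_lit 0) (XT.nd (nat_lit 78) (nat_lit 304) (nat_lit 0) (XT.lf (nat_lit 0) (nat_lit 4102207490) (nat_lit 228) (nat_lit 8584663900) (nat_lit 304) (nat_lit 5468017964) (nat_lit 64) (nat_lit 5) (nat_lit 67) (nat_lit 5) (nat_lit 68) (nat_lit 5) (nat_lit 381) (nat_lit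 302) (nat_lit 217)) (XT.lf (nat_lit 0) (nat_lit 987337482) (nat_lit 228) (nat_lit 117767348) (nat_lit 304) (nat_lit 17413951145) (nat_lit 60) (nat_lit 5) (nat_lit 63) (nat_lit 5) (nat_lit 64) (nat_lit 5) (nat_lit 382) (nat_lit 302) (nat_lit 216))) (XT.nd (nat_lit 78) (nat_lit 456) (nat_lit 0) (XT.lf (nat_lit 0) (nat_lit 7916293872) (nat_lit 304) (nat_lit 2377295094) (nat_lit 76) (nat_lit 8597537470) (nat_lit 60) (nat_lit 5) (nat_lit 64) (nat_lit 5) (nat_lit 61) (nat_lit 5) (nat_lit 383) (nat_lit 302) (nat_lit 215)) (XT.nd (nat_lit 78) (nat_lit 228) (nat_lit 0) (XT.lf (nat_lit 0) (nat_lit 13344916964) (nat_lit 228) (nat_lit 1638434903) (nat_lit 304) (nat_lit 4289981281) (nat_lit 57) (nat_lit 5) (nat_lit 60) (nat_lit 5) (nat_lit 61) (nat_lit 5) (nat_lit 384) (nat_lit 302) (nat_lit 214)) (XT.lf (nat_lit 0) (nat_lit 2654490843) (nat_lit 228) (nat_lit 9755763992) (nat_lit 76) (nat_lit 7254556480) (nat_lit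 54) (nat_lit 5) (nat_lit 57) (nat_lit 5) (nat_lit 55) (nat_lit 5) (nat_lit 385) (nat_lit 302) (nat_lit 213)))))) (XT.nd (nat_lit 390) (nat_lit 1976) (nat_lit 0) (XT.nd (nat_lit 156) (nat_lit 988) (nat_lit 0) (XT.nd (nat_lit 78) (nat_lit 0) (nat_lit 0) (XT.lf (nat_lit 0) (nat_lit 73524083) (nat_lit 0) (nat_lit 73524083) (nat_lit 380) (nat_lit 3093517518) (nat_lit 682) (nat_lit 5) (nat_lit 682) (nat_lit 3) (nat_lit 687) (nat_lit 3) (nat_lit 303) (nat_lit 303) (nat_lit 294)) (XT.lf (nat_lit 0) (nat_lit 4330642187) (nat_lit 380) (nat_lit 1626273670) (nat_lit 456) (nat_lit 538370346) (nat_lit 682) (nat_lit 5) (nat_lit 687) (nat_lit 3) (nat_lit 688) (nat_lit 5) (nat_lit 304) (nat_lit 303) (nat_lit 293))) (XT.nd (nat_lit 78) (nat_lit 532) (nat_lit 0) (XT.lf (nat_lit 0) (nat_lit 1816406873) (nat_lit 456) (nat_lit 3343465281) (nat_lit 532) (nat_lit 1352550487) (nat_lit 676) (nat_lit 5) (nat_lit 682) (nat_lit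 5) (nat_lit 683) (nat_lit 5) (nat_lit 305) (nat_lit 303) (nat_lit 292)) (XT.nd (nat_lit 78) (nat_lit 532) (nat_lit 0) (XT.lf (nat_lit 76) (nat_lit 1522716074) (nat_lit 0) (nat_lit 4232133993) (nat_lit 532) (nat_lit 777679420) (nat_lit 677) (nat_lit 5) (nat_lit 676) (nat_lit 5) (nat_lit 683) (nat_lit 5) (nat_lit 306) (nat_lit 303) (nat_lit 291)) (XT.lf (nat_lit 0) (nat_lit 3087373450) (nat_lit 532) (nat_lit 77342973) (nat_lit 608) (nat_lit 3390747606) (nat_lit 669) (nat_lit 5) (nat_lit 676) (nat_lit 5) (nat_lit 677) (nat_lit 5) (nat_lit 307) (nat_lit 303) (nat_lit 290))))) (XT.nd (nat_lit 234) (nat_lit 760) (nat_lit 0) (XT.nd (nat_lit 78) (nat_lit 608) (nat_lit 0) (XT.lf (nat_lit 0) (nat_lit 357603541) (nat_lit 608) (nat_lit 1601920932) (nat_lit 684) (nat_lit 4621777476) (nat_lit 661) (nat_lit 5) (nat_lit 669) (nat_lit 5) (nat_lit 670) (nat_lit 5) (nat_lit 308) (nat_lit 303) (nat_lit 289)) (XT.nd (nat_lit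 78) (nat_lit 608) (nat_lit 0) (XT.lf (nat_lit 76) (nat_lit 3521828642) (nat_lit 0) (nat_lit 608993672) (nat_lit 684) (nat_lit 2479115835) (nat_lit 662) (nat_lit 5) (nat_lit 661) (nat_lit 5) (nat_lit 670) (nat_lit 5) (nat_lit 309) (nat_lit 303) (nat_lit 288)) (XT.lf (nat_lit 0) (nat_lit 1248961180) (nat_lit 684) (nat_lit 4529319729) (nat_lit 760) (nat_lit 863264321) (nat_lit 653) (nat_lit 5) (nat_lit 662) (nat_lit 5) (nat_lit 663) (nat_lit 5) (nat_lit 310) (nat_lit 303) (nat_lit 287)))) (XT.nd (nat_lit 78) (nat_lit 760) (nat_lit 0) (XT.lf (nat_lit 76) (nat_lit 741503807) (nat_lit 0) (nat_lit 4206654555) (nat_lit 760) (nat_lit 1727828292) (nat_lit 654) (nat_lit 5) (nat_lit 653) (nat_lit 5) (nat_lit 663) (nat_lit 5) (nat_lit 311) (nat_lit 303) (nat_lit 286)) (XT.nd (nat_lit 78) (nat_lit 0) (nat_lit 0) (XT.lf (nat_lit 0) (nat_lit 1916235953) (nat_lit 760) (nat_lit 576967431) (nat_lit 836) (nat_lit 4220137464)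 (nat_lit 643) (nat_lit 5) (nat_lit 653) (nat_lit 5) (nat_lit 654) (nat_lit 5) (nat_lit 312) (nat_lit 303) (nat_lit 285)) (XT.lf (nat_lit 76) (nat_lit 4911535189) (nat_lit 0) (nat_lit 635873653) (nat_lit 836) (nat_lit 1206220697) (nat_lit 644) (nat_lit 5) (nat_lit 643) (nat_lit 5) (nat_lit 654) (nat_lit 5) (nat_lit 313) (nat_lit 303) (nat_lit 284))))))))
noncomputable def xc53 : XT := (XT.nd (nat_lit 1560) (nat_lit 12844) (nat_lit 0) (XT.nd (nat_lit 780) (nat_lit 12084) (nat_lit 0) (XT.nd (nat_lit 390) (nat_lit 6232) (nat_lit 0) (XT.nd (nat_lit 156) (nat_lit 2052) (nat_lit 0) (XT.nd (nat_lit 78) (nat_lit 836) (nat_lit 0) (XT.lf (nat_lit 0) (nat_lit 2368327577) (nat_lit 836) (nat_lit 3078566066) (nat_lit 76) (nat_lit 1349801350) (nat_lit 633) (nat_lit 5) (nat_lit 644) (nat_lit 5) (nat_lit 634) (nat_lit 5) (nat_lit 314) (nat_lit 303) (nat_lit 283)) (XT.lf (nat_lit 0) (nat_lit 2566295942) (nat_lit 836)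 (nat_lit 3376103737) (nat_lit 912) (nat_lit 900382155) (nat_lit 622) (nat_lit 5) (nat_lit 633) (nat_lit 5) (nat_lit 634) (nat_lit 5) (nat_lit 315) (nat_lit 303) (nat_lit 282))) (XT.nd (nat_lit 78) (nat_lit 1064) (nat_lit 0) (XT.lf (nat_lit 0) (nat_lit 1449080031) (nat_lit 912) (nat_lit 1156254424) (nat_lit 988) (nat_lit 4286466435) (nat_lit 609) (nat_lit 5) (nat_lit 621) (nat_lit 5) (nat_lit 622) (nat_lit 5) (nat_lit 316) (nat_lit 303) (nat_lit 281)) (XT.nd (nat_lit 78) (nat_lit 76) (nat_lit 0) (XT.lf (nat_lit 0) (nat_lit 368361542) (nat_lit 988) (nat_lit 5755197567) (nat_lit 1064) (nat_lit 820278650) (nat_lit 596) (nat_lit 5) (nat_lit 609) (nat_lit 5) (nat_lit 610) (nat_lit 5) (nat_lit 317) (nat_lit 303) (nat_lit 280)) (XT.lf (nat_lit 0) (nat_lit 2641387574) (nat_lit 1064) (nat_lit 680625245) (nat_lit 76) (nat_lit 3676569546) (nat_lit 595) (nat_lit 5) (nat_lit 609) (nat_lit 5) (nat_lit 596) (nat_lit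 5) (nat_lit 318) (nat_lit 303) (nat_lit 279))))) (XT.nd (nat_lit 156) (nat_lit 3952) (nat_lit 0) (XT.nd (nat_lit 78) (nat_lit 1216) (nat_lit 0) (XT.lf (nat_lit 0) (nat_lit 5372184992) (nat_lit 1064) (nat_lit 744634186) (nat_lit 1140) (nat_lit 939673775) (nat_lit 581) (nat_lit 5) (nat_lit 595) (nat_lit 5) (nat_lit 596) (nat_lit 5) (nat_lit 319) (nat_lit 303) (nat_lit 278)) (XT.lf (nat_lit 0) (nat_lit 2481141078) (nat_lit 1216) (nat_lit 2672849104) (nat_lit 76) (nat_lit 1963174115) (nat_lit 565) (nat_lit 5) (nat_lit 581) (nat_lit 5) (nat_lit 566) (nat_lit 5) (nat_lit 320) (nat_lit 303) (nat_lit 277))) (XT.nd (nat_lit 78) (nat_lit 2736) (nat_lit 0) (XT.lf (nat_lit 0) (nat_lit 3550575475) (nat_lit 1216) (nat_lit 2371837729) (nat_lit 1292) (nat_lit 1258555603) (nat_lit 549) (nat_lit 5) (nat_lit 565) (nat_lit 5) (nat_lit 566) (nat_lit 5) (nat_lit 321) (nat_lit 303) (nat_lit 276)) (XT.nd (nat_lit 78) (nat_lit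 1368) (nat_lit 0) (XT.lf (nat_lit 0) (nat_lit 2123356735) (nat_lit 1368) (nat_lit 4565058720) (nat_lit 76) (nat_lit 559385767) (nat_lit 531) (nat_lit 5) (nat_lit 549) (nat_lit 5) (nat_lit 532) (nat_lit 5) (nat_lit 322) (nat_lit 303) (nat_lit 275)) (XT.lf (nat_lit 0) (nat_lit 1832354212) (nat_lit 1368) (nat_lit 3705488278) (nat_lit 1444) (nat_lit 1779710942) (nat_lit 513) (nat_lit 5) (nat_lit 531) (nat_lit 5) (nat_lit 532) (nat_lit 5) (nat_lit 323) (nat_lit 303) (nat_lit 274)))))) (XT.nd (nat_lit 390) (nat_lit 5700) (nat_lit 0) (XT.nd (nat_lit 156) (nat_lit 3344) (nat_lit 0) (XT.nd (nat_lit 78) (nat_lit 1520) (nat_lit 0) (XT.lf (nat_lit 0) (nat_lit 1011580022) (nat_lit 1444) (nat_lit 567018161) (nat_lit 1520) (nat_lit 5811925577) (nat_lit 493) (nat_lit 5) (nat_lit 512) (nat_lit 5) (nat_lit 513) (nat_lit 5) (nat_lit 324) (nat_lit 303) (nat_lit 273)) (XT.lf (nat_lit 0) (nat_lit 199753036) (nat_lit 1520)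 (nat_lit 4769789950) (nat_lit 1596) (nat_lit 2496825668) (nat_lit 473) (nat_lit 5) (nat_lit 493) (nat_lit 5) (nat_lit 494) (nat_lit 5) (nat_lit 325) (nat_lit 303) (nat_lit 272))) (XT.nd (nat_lit 78) (nat_lit 3268) (nat_lit 0) (XT.lf (nat_lit 0) (nat_lit 854576689) (nat_lit 1596) (nat_lit 577290892) (nat_lit 76) (nat_lit 6113564455) (nat_lit 472) (nat_lit 5) (nat_lit 493) (nat_lit 5) (nat_lit 473) (nat_lit 5) (nat_lit 326) (nat_lit 303) (nat_lit 271)) (XT.nd (nat_lit 78) (nat_lit 1672) (nat_lit 0) (XT.lf (nat_lit 0) (nat_lit 4231587951) (nat_lit 1672) (nat_lit 1346808282) (nat_lit 76) (nat_lit 2049000083) (nat_lit 451) (nat_lit 5) (nat_lit 473) (nat_lit 5) (nat_lit 452) (nat_lit 5) (nat_lit 327) (nat_lit 303) (nat_lit 270)) (XT.lf (nat_lit 0) (nat_lit 5619630307) (nat_lit 1672) (nat_lit 2047040079) (nat_lit 1748) (nat_lit 46051647) (nat_lit 429) (nat_lit 5) (nat_lit 451) (nat_lit 5) (nat_lit 452) (nat_lit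 5) (nat_lit 328) (nat_lit 303) (nat_lit 269))))) (XT.nd (nat_lit 156) (nat_lit 2736) (nat_lit 0) (XT.nd (nat_lit 78) (nat_lit 1140) (nat_lit 0) (XT.lf (nat_lit 0) (nat_lit 3320102645) (nat_lit 1824) (nat_lit 2840600210) (nat_lit 76) (nat_lit 1640287497) (nat_lit 405) (nat_lit 5) (nat_lit 429) (nat_lit 5) (nat_lit 406) (nat_lit 5) (nat_lit 329) (nat_lit 303) (nat_lit 268)) (XT.lf (nat_lit 0) (nat_lit 4319862865) (nat_lit 1140) (nat_lit 2433236986) (nat_lit 1216) (nat_lit 1139505965) (nat_lit 390) (nat_lit 5) (nat_lit 405) (nat_lit 5) (nat_lit 406) (nat_lit 5) (nat_lit 330) (nat_lit 303) (nat_lit 267))) (XT.nd (nat_lit 78) (nat_lit 1748) (nat_lit 0) (XT.lf (nat_lit 0) (nat_lit 2236748540) (nat_lit 988) (nat_lit 4301325754) (nat_lit 76) (nat_lit 1449333214) (nat_lit 377) (nat_lit 5) (nat_lit 390) (nat_lit 5) (nat_lit 378) (nat_lit 5) (nat_lit 331) (nat_lit 303) (nat_lit 266)) (XT.nd (nat_lit 78) (nat_lit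 912) (nat_lit 0) (XT.lf (nat_lit 0) (nat_lit 3057638480) (nat_lit 836) (nat_lit 2615708836) (nat_lit 912) (nat_lit 2412096750) (nat_lit 366) (nat_lit 5) (nat_lit 377) (nat_lit 5) (nat_lit 378) (nat_lit 5) (nat_lit 332) (nat_lit 303) (nat_lit 265)) (XT.lf (nat_lit 0) (nat_lit 983324565) (nat_lit 912) (nat_lit 5746192013) (nat_lit 76) (nat_lit 1457399163) (nat_lit 354) (nat_lit 5) (nat_lit 366) (nat_lit 5) (nat_lit 355) (nat_lit 5) (nat_lit 333) (nat_lit 303) (nat_lit 264))))))) (XT.nd (nat_lit 780) (nat_lit 5928) (nat_lit 0) (XT.nd (nat_lit 390) (nat_lit 3572) (nat_lit 0) (XT.nd (nat_lit 156) (nat_lit 1672) (nat_lit 0) (XT.nd (nat_lit 78) (nat_lit 836) (nat_lit 0) (XT.lf (nat_lit 0) (nat_lit 1815864171) (nat_lit 836) (nat_lit 2612981202) (nat_lit 912) (nat_lit 3862676931) (nat_lit 343) (nat_lit 5) (nat_lit 354) (nat_lit 5) (nat_lit 355) (nat_lit 5) (nat_lit 334) (nat_lit 303) (nat_lit 263)) (XT.lf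 (nat_lit 0) (nat_lit 1204198365) (nat_lit 836) (nat_lit 6750198417) (nat_lit 912) (nat_lit 445365887) (nat_lit 332) (nat_lit 5) (nat_lit 343) (nat_lit 5) (nat_lit 344) (nat_lit 5) (nat_lit 335) (nat_lit 303) (nat_lit 262))) (XT.nd (nat_lit 78) (nat_lit 836) (nat_lit 0) (XT.lf (nat_lit 0) (nat_lit 577143847) (nat_lit 760) (nat_lit 2442735913) (nat_lit 836) (nat_lit 5491284021) (nat_lit 321) (nat_lit 5) (nat_lit 331) (nat_lit 5) (nat_lit 332) (nat_lit 5) (nat_lit 336) (nat_lit 303) (nat_lit 261)) (XT.nd (nat_lit 78) (nat_lit 836) (nat_lit 0) (XT.lf (nat_lit 0) (nat_lit 6567173772) (nat_lit 836) (nat_lit 45227440) (nat_lit 76) (nat_lit 2013790710) (nat_lit 321) (nat_lit 5) (nat_lit 332) (nat_lit 5) (nat_lit 322) (nat_lit 5) (nat_lit 337) (nat_lit 303) (nat_lit 260)) (XT.lf (nat_lit 0) (nat_lit 1449973602) (nat_lit 836) (nat_lit 667501575) (nat_lit 76) (nat_lit 6627167090) (nat_lit 310) (nat_lit 5) (nat_lit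 321) (nat_lit 5) (nat_lit 311) (nat_lit 5) (nat_lit 338) (nat_lit 303) (nat_lit 259))))) (XT.nd (nat_lit 156) (nat_lit 2128) (nat_lit 0) (XT.nd (nat_lit 78) (nat_lit 760) (nat_lit 0) (XT.lf (nat_lit 0) (nat_lit 5028127312) (nat_lit 760) (nat_lit 1303520682) (nat_lit 76) (nat_lit 2534913286) (nat_lit 301) (nat_lit 5) (nat_lit 311) (nat_lit 5) (nat_lit 302) (nat_lit 5) (nat_lit 339) (nat_lit 303) (nat_lit 258)) (XT.lf (nat_lit 0) (nat_lit 7053067459) (nat_lit 760) (nat_lit 1652157079) (nat_lit 836) (nat_lit 287105312) (nat_lit 291) (nat_lit 5) (nat_lit 301) (nat_lit 5) (nat_lit 302) (nat_lit 5) (nat_lit 340) (nat_lit 303) (nat_lit 257))) (XT.nd (nat_lit 78) (nat_lit 1368) (nat_lit 0) (XT.lf (nat_lit 0) (nat_lit 3327068517) (nat_lit 760) (nat_lit 2605012330) (nat_lit 76) (nat_lit 3189365467) (nat_lit 281) (nat_lit 5) (nat_lit 291) (nat_lit 5) (nat_lit 282) (nat_lit 5) (nat_lit 341) (nat_lit 303) (nat_lit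 256)) (XT.nd (nat_lit 78) (nat_lit 684) (nat_lit 0) (XT.lf (nat_lit 0) (nat_lit 5981075342) (nat_lit 684) (nat_lit 1057509103) (nat_lit 760) (nat_lit 2215979668) (nat_lit 272) (nat_lit 5) (nat_lit 281) (nat_lit 5) (nat_lit 282) (nat_lit 5) (nat_lit 342) (nat_lit 303) (nat_lit 255)) (XT.lf (nat_lit 0) (nat_lit 1460434620) (nat_lit 684) (nat_lit 3969097052) (nat_lit 76) (nat_lit 3961775187) (nat_lit 263) (nat_lit 5) (nat_lit 272) (nat_lit 5) (nat_lit 264) (nat_lit 5) (nat_lit 343) (nat_lit 303) (nat_lit 254)))))) (XT.nd (nat_lit 390) (nat_lit 2736) (nat_lit 0) (XT.nd (nat_lit 156) (nat_lit 1900) (nat_lit 0) (XT.nd (nat_lit 78) (nat_lit 608) (nat_lit 0) (XT.lf (nat_lit 0) (nat_lit 4851420285) (nat_lit 684) (nat_lit 358824672) (nat_lit 760) (nat_lit 4321770245) (nat_lit 254) (nat_lit 5) (nat_lit 263) (nat_lit 5) (nat_lit 264) (nat_lit 5) (nat_lit 344) (nat_lit 303) (nat_lit 253)) (XT.lf (nat_lit 0) (nat_lit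 4256571193) (nat_lit 608) (nat_lit 4835767497) (nat_lit 684) (nat_lit 584230191) (nat_lit 246) (nat_lit 5) (nat_lit 254) (nat_lit 5) (nat_lit 255) (nat_lit 5) (nat_lit 345) (nat_lit 303) (nat_lit 252))) (XT.nd (nat_lit 78) (nat_lit 1216) (nat_lit 0) (XT.lf (nat_lit 0) (nat_lit 3217835984) (nat_lit 684) (nat_lit 6184448295) (nat_lit 76) (nat_lit 422865243) (nat_lit 237) (nat_lit 5) (nat_lit 246) (nat_lit 5) (nat_lit 238) (nat_lit 5) (nat_lit 346) (nat_lit 303) (nat_lit 251)) (XT.nd (nat_lit 78) (nat_lit 684) (nat_lit 0) (XT.lf (nat_lit 0) (nat_lit 2991293793) (nat_lit 532) (nat_lit 4159254847) (nat_lit 608) (nat_lit 2827089631) (nat_lit 230) (nat_lit 5) (nat_lit 237) (nat_lit 5) (nat_lit 238) (nat_lit 5) (nat_lit 347) (nat_lit 303) (nat_lit 250)) (XT.lf (nat_lit 0) (nat_lit 1054934507) (nat_lit 684) (nat_lit 7807486644) (nat_lit 76) (nat_lit 1272111887) (nat_lit 221) (nat_lit 5) (nat_lit 230) (nat_lit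 5) (nat_lit 222) (nat_lit 5) (nat_lit 348) (nat_lit 303) (nat_lit 249))))) (XT.nd (nat_lit 234) (nat_lit 1064) (nat_lit 0) (XT.nd (nat_lit 78) (nat_lit 1140) (nat_lit 0) (XT.lf (nat_lit 0) (nat_lit 1613635927) (nat_lit 532) (nat_lit 3425416204) (nat_lit 608) (nat_lit 5256244908) (nat_lit 214) (nat_lit 5) (nat_lit 221) (nat_lit 5) (nat_lit 222) (nat_lit 5) (nat_lit 349) (nat_lit 303) (nat_lit 248)) (XT.nd (nat_lit 78) (nat_lit 608) (nat_lit 0) (XT.lf (nat_lit 0) (nat_lit 880944333) (nat_lit 532) (nat_lit 8273893212) (nat_lit 608) (nat_lit 1305820005) (nat_lit 207) (nat_lit 5) (nat_lit 214) (nat_lit 5) (nat_lit 215) (nat_lit 5) (nat_lit 350) (nat_lit 303) (nat_lit 247)) (XT.lf (nat_lit 0) (nat_lit 99445941) (nat_lit 532) (nat_lit 2650103305) (nat_lit 608) (nat_lit 7880633102) (nat_lit 199) (nat_lit 5) (nat_lit 206) (nat_lit 5) (nat_lit 207) (nat_lit 5) (nat_lit 351) (nat_lit 303) (nat_lit 246)))) (XT.nd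 (nat_lit 78) (nat_lit 1064) (nat_lit 0) (XT.lf (nat_lit 0) (nat_lit 6935695186) (nat_lit 608) (nat_lit 712798070) (nat_lit 76) (nat_lit 3155605099) (nat_lit 199) (nat_lit 5) (nat_lit 207) (nat_lit 5) (nat_lit 200) (nat_lit 5) (nat_lit 352) (nat_lit 303) (nat_lit 245)) (XT.nd (nat_lit 78) (nat_lit 456) (nat_lit 0) (XT.lf (nat_lit 0) (nat_lit 282519448) (nat_lit 608) (nat_lit 1556586321) (nat_lit 76) (nat_lit 9143670441) (nat_lit 191) (nat_lit 5) (nat_lit 199) (nat_lit 5) (nat_lit 192) (nat_lit 5) (nat_lit 353) (nat_lit 303) (nat_lit 244)) (XT.lf (nat_lit 0) (nat_lit 4538084094) (nat_lit 532) (nat_lit 2469693597) (nat_lit 76) (nat_lit 4157885961) (nat_lit 185) (nat_lit 5) (nat_lit 192) (nat_lit 5) (nat_lit 186) (nat_lit 5) (nat_lit 354) (nat_lit 303) (nat_lit 243))))))))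
noncomputable def xc54 : XT := (XT.nd (nat_lit 1560) (nat_lit 2508) (nat_lit 0) (XT.nd (nat_lit 780) (nat_lit 3192) (nat_lit 0) (XT.nd (nat_lit 390) (nat_lit 1672) (nat_lit 0) (XT.nd (nat_lit 156) (nat_lit 1368) (nat_lit 0) (XT.nd (nat_lit 78) (nat_lit 532) (nat_lit 0) (XT.lf (nat_lit 0) (nat_lit 7938563845) (nat_lit 456) (nat_lit 1001744828) (nat_lit 532) (nat_lit 2413362842) (nat_lit 179) (nat_lit 5) (nat_lit 185) (nat_lit 5) (nat_lit 186) (nat_lit 5) (nat_lit 355) (nat_lit 303) (nat_lit 242)) (XT.lf (nat_lit 0) (nat_lit 1944586786) (nat_lit 532) (nat_lit 4430145565) (nat_lit 76) (nat_lit 5171498342) (nat_lit 172) (nat_lit 5) (nat_lit 179) (nat_lit 5) (nat_lit 173) (nat_lit 5) (nat_lit 356) (nat_lit 303) (nat_lit 241))) (XT.nd (nat_lit 78) (nat_lit 912) (nat_lit 0) (XT.lf (nat_lit 0) (nat_lit 6248850235) (nat_lit 456) (nat_lit 168642892) (nat_lit 532) (nat_lit 5326426966) (nat_lit 166) (nat_lit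 5) (nat_lit 172) (nat_lit 5) (nat_lit 173) (nat_lit 5) (nat_lit 357) (nat_lit 303) (nat_lit 240)) (XT.nd (nat_lit 78) (nat_lit 532) (nat_lit 0) (XT.lf (nat_lit 0) (nat_lit 5315362697) (nat_lit 380) (nat_lit 5761552080) (nat_lit 456) (nat_lit 869591091) (nat_lit 161) (nat_lit 5) (nat_lit 166) (nat_lit 5) (nat_lit 167) (nat_lit 5) (nat_lit 358) (nat_lit 303) (nat_lit 239)) (XT.lf (nat_lit 0) (nat_lit 3690900975) (nat_lit 532) (nat_lit 7831581503) (nat_lit 76) (nat_lit 631840184) (nat_lit 154) (nat_lit 5) (nat_lit 161) (nat_lit 5) (nat_lit 155) (nat_lit 5) (nat_lit 359) (nat_lit 303) (nat_lit 238))))) (XT.nd (nat_lit 156) (nat_lit 836) (nat_lit 0) (XT.nd (nat_lit 78) (nat_lit 456) (nat_lit 0) (XT.lf (nat_lit 0) (nat_lit 3251737750) (nat_lit 380) (nat_lit 5178378202) (nat_lit 456) (nat_lit 3937079924) (nat_lit 149) (nat_lit 5) (nat_lit 154) (nat_lit 5) (nat_lit 155) (nat_lit 5) (nat_lit 360) (nat_lit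 303) (nat_lit 237)) (XT.lf (nat_lit 0) (nat_lit 741423730) (nat_lit 456) (nat_lit 10457089498) (nat_lit 76) (nat_lit 1387341070) (nat_lit 143) (nat_lit 5) (nat_lit 149) (nat_lit 5) (nat_lit 144) (nat_lit 5) (nat_lit 361) (nat_lit 303) (nat_lit 236))) (XT.nd (nat_lit 78) (nat_lit 456) (nat_lit 0) (XT.lf (nat_lit 0) (nat_lit 901796053) (nat_lit 380) (nat_lit 4658261626) (nat_lit 456) (nat_lit 7249439485) (nat_lit 138) (nat_lit 5) (nat_lit 143) (nat_lit 5) (nat_lit 144) (nat_lit 5) (nat_lit 362) (nat_lit 303) (nat_lit 235)) (XT.nd (nat_lit 78) (nat_lit 456) (nat_lit 0) (XT.lf (nat_lit 0) (nat_lit 10559189631) (nat_lit 456) (nat_lit 381351912) (nat_lit 76) (nat_lit 2098599153) (nat_lit 138) (nat_lit 5) (nat_lit 144) (nat_lit 5) (nat_lit 139) (nat_lit 5) (nat_lit 363) (nat_lit 303) (nat_lit 234)) (XT.lf (nat_lit 0) (nat_lit 2459710554) (nat_lit 456) (nat_lit 1751115783) (nat_lit 76) (nat_lit 9063361128)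 (nat_lit 132) (nat_lit 5) (nat_lit 138) (nat_lit 5) (nat_lit 133) (nat_lit 5) (nat_lit 364) (nat_lit 303) (nat_lit 233)))))) (XT.nd (nat_lit 390) (nat_lit 1292) (nat_lit 0) (XT.nd (nat_lit 156) (nat_lit 1140) (nat_lit 0) (XT.nd (nat_lit 78) (nat_lit 380) (nat_lit 0) (XT.lf (nat_lit 0) (nat_lit 7554905167) (nat_lit 456) (nat_lit 3212082773) (nat_lit 76) (nat_lit 2748158518) (nat_lit 127) (nat_lit 5) (nat_lit 133) (nat_lit 5) (nat_lit 128) (nat_lit 5) (nat_lit 365) (nat_lit 303) (nat_lit 232)) (XT.lf (nat_lit 0) (nat_lit 8999027697) (nat_lit 380) (nat_lit 3856365976) (nat_lit 456) (nat_lit 906900903) (nat_lit 122) (nat_lit 5) (nat_lit 127) (nat_lit 5) (nat_lit 128) (nat_lit 5) (nat_lit 366) (nat_lit 303) (nat_lit 231))) (XT.nd (nat_lit 78) (nat_lit 760) (nat_lit 0) (XT.lf (nat_lit 0) (nat_lit 4289126571) (nat_lit 380) (nat_lit 6431717267) (nat_lit 76) (nat_lit 3294514734) (nat_lit 117) (nat_lit 5) (nat_lit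 122) (nat_lit 5) (nat_lit 118) (nat_lit 5) (nat_lit 367) (nat_lit 303) (nat_lit 230)) (XT.nd (nat_lit 78) (nat_lit 380) (nat_lit 0) (XT.lf (nat_lit 0) (nat_lit 6068735291) (nat_lit 380) (nat_lit 3612942900) (nat_lit 456) (nat_lit 4593165537) (nat_lit 112) (nat_lit 5) (nat_lit 117) (nat_lit 5) (nat_lit 118) (nat_lit 5) (nat_lit 368) (nat_lit 303) (nat_lit 229)) (XT.lf (nat_lit 0) (nat_lit 737925177) (nat_lit 380) (nat_lit 10090023656) (nat_lit 76) (nat_lit 3713019866) (nat_lit 107) (nat_lit 5) (nat_lit 112) (nat_lit 5) (nat_lit 108) (nat_lit 5) (nat_lit 369) (nat_lit 303) (nat_lit 228))))) (XT.nd (nat_lit 156) (nat_lit 684) (nat_lit 0) (XT.nd (nat_lit 78) (nat_lit 304) (nat_lit 0) (XT.lf (nat_lit 0) (nat_lit 2697563855) (nat_lit 304) (nat_lit 3523449114) (nat_lit 380) (nat_lit 8592375666) (nat_lit 103) (nat_lit 5) (nat_lit 107) (nat_lit 5) (nat_lit 108) (nat_lit 5) (nat_lit 370) (nat_lit 303) (nat_lit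 227)) (XT.lf (nat_lit 0) (nat_lit 830519458) (nat_lit 304) (nat_lit 11095393238) (nat_lit 380) (nat_lit 3166929647) (nat_lit 99) (nat_lit 5) (nat_lit 103) (nat_lit 5) (nat_lit 104) (nat_lit 5) (nat_lit 371) (nat_lit 303) (nat_lit 226))) (XT.nd (nat_lit 78) (nat_lit 608) (nat_lit 0) (XT.lf (nat_lit 0) (nat_lit 2453387737) (nat_lit 380) (nat_lit 1155457860) (nat_lit 76) (nat_lit 11770249579) (nat_lit 98) (nat_lit 5) (nat_lit 103) (nat_lit 5) (nat_lit 99) (nat_lit 5) (nat_lit 372) (nat_lit 303) (nat_lit 225)) (XT.nd (nat_lit 78) (nat_lit 304) (nat_lit 0) (XT.lf (nat_lit 0) (nat_lit 8266215580) (nat_lit 380) (nat_lit 3279263556) (nat_lit 76) (nat_lit 4126706232) (nat_lit 94) (nat_lit 5) (nat_lit 99) (nat_lit 5) (nat_lit 95) (nat_lit 5) (nat_lit 373) (nat_lit 303) (nat_lit 224)) (XT.lf (nat_lit 0) (nat_lit 10437047055) (nat_lit 304) (nat_lit 3875670292) (nat_lit 380) (nat_lit 1660171919) (nat_lit 90) (nat_lit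 5) (nat_lit 94) (nat_lit 5) (nat_lit 95) (nat_lit 5) (nat_lit 374) (nat_lit 303) (nat_lit 223))))))) (XT.nd (nat_lit 780) (nat_lit 0) (nat_lit 0) (XT.nd (nat_lit 390) (nat_lit 1292) (nat_lit 0) (XT.nd (nat_lit 156) (nat_lit 608) (nat_lit 0) (XT.nd (nat_lit 78) (nat_lit 228) (nat_lit 0) (XT.lf (nat_lit 0) (nat_lit 4265360428) (nat_lit 380) (nat_lit 7963570666) (nat_lit 76) (nat_lit 4051872627) (nat_lit 85) (nat_lit 5) (nat_lit 90) (nat_lit 5) (nat_lit 86) (nat_lit 5) (nat_lit 375) (nat_lit 303) (nat_lit 222)) (XT.lf (nat_lit 0) (nat_lit 6042076804) (nat_lit 228) (nat_lit 4367657909) (nat_lit 304) (nat_lit 6186735064) (nat_lit 82) (nat_lit 5) (nat_lit 85) (nat_lit 5) (nat_lit 86) (nat_lit 5) (nat_lit 376) (nat_lit 303) (nat_lit 221))) (XT.nd (nat_lit 78) (nat_lit 304) (nat_lit 0) (XT.lf (nat_lit 0) (nat_lit 3615274405) (nat_lit 304) (nat_lit 13186344333) (nat_lit 380) (nat_lit 118729590) (nat_lit 78)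 (nat_lit 5) (nat_lit 82) (nat_lit 5) (nat_lit 83) (nat_lit 5) (nat_lit 377) (nat_lit 303) (nat_lit 220)) (XT.nd (nat_lit 78) (nat_lit 0) (nat_lit 0) (XT.lf (nat_lit 0) (nat_lit 981955894) (nat_lit 228) (nat_lit 5138159311) (nat_lit 304) (nat_lit 11131653401) (nat_lit 74) (nat_lit 5) (nat_lit 77) (nat_lit 5) (nat_lit 78) (nat_lit 5) (nat_lit 378) (nat_lit 303) (nat_lit 219)) (XT.lf (nat_lit 0) (nat_lit 12617926048) (nat_lit 304) (nat_lit 1796452508) (nat_lit 76) (nat_lit 3177274589) (nat_lit 74) (nat_lit 5) (nat_lit 78) (nat_lit 5) (nat_lit 75) (nat_lit 5) (nat_lit 379) (nat_lit 303) (nat_lit 218))))) (XT.nd (nat_lit 156) (nat_lit 760) (nat_lit 0) (XT.nd (nat_lit 78) (nat_lit 228) (nat_lit 0) (XT.lf (nat_lit 0) (nat_lit 1434807334) (nat_lit 304) (nat_lit 4760951493) (nat_lit 76) (nat_lit 11744126499) (nat_lit 70) (nat_lit 5) (nat_lit 74) (nat_lit 5) (nat_lit 71) (nat_lit 5) (nat_lit 380) (nat_lit 303)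 (nat_lit 217)) (XT.lf (nat_lit 0) (nat_lit 8027051203) (nat_lit 304) (nat_lit 7940474583) (nat_lit 76) (nat_lit 2329205819) (nat_lit 67) (nat_lit 5) (nat_lit 71) (nat_lit 5) (nat_lit 68) (nat_lit 5) (nat_lit 381) (nat_lit 303) (nat_lit 216))) (XT.nd (nat_lit 78) (nat_lit 532) (nat_lit 0) (XT.lf (nat_lit 0) (nat_lit 7322675468) (nat_lit 228) (nat_lit 7580075577) (nat_lit 304) (nat_lit 3759823497) (nat_lit 64) (nat_lit 5) (nat_lit 67) (nat_lit 5) (nat_lit 68) (nat_lit 5) (nat_lit 382) (nat_lit 303) (nat_lit 215)) (XT.nd (nat_lit 78) (nat_lit 228) (nat_lit 0) (XT.lf (nat_lit 0) (nat_lit 2959443474) (nat_lit 304) (nat_lit 14956975429) (nat_lit 76) (nat_lit 1121541347) (nat_lit 60) (nat_lit 5) (nat_lit 64) (nat_lit 5) (nat_lit 61) (nat_lit 5) (nat_lit 383) (nat_lit 303) (nat_lit 214)) (XT.lf (nat_lit 0) (nat_lit 568460008) (nat_lit 228) (nat_lit 9357919384) (nat_lit 304) (nat_lit 9495792308) (nat_lit 57)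 (nat_lit 5) (nat_lit 60) (nat_lit 5) (nat_lit 61) (nat_lit 5) (nat_lit 384) (nat_lit 303) (nat_lit 213)))))) (XT.nd (nat_lit 40872) (nat_lit 0) (nat_lit 43700) (XT.nd (nat_lit 40638) (nat_lit 0) (nat_lit 45828) (XT.nd (nat_lit 40560) (nat_lit 0) (nat_lit 46968) (XT.lf (nat_lit 0) (nat_lit 16706055489) (nat_lit 228) (nat_lit 463404708) (nat_lit 304) (nat_lit 2647111086) (nat_lit 57) (nat_lit 5) (nat_lit 60) (nat_lit 5) (nat_lit 61) (nat_lit 5) (nat_lit 385) (nat_lit 303) (nat_lit 212)) (XT.lf (nat_lit 0) (nat_lit 874121084) (nat_lit 532) (nat_lit 1190676509) (nat_lit 532) (nat_lit 1190676509) (nat_lit 675) (nat_lit 3) (nat_lit 682) (nat_lit 3) (nat_lit 682) (nat_lit 5) (nat_lit 304) (nat_lit 304) (nat_lit 292))) (XT.nd (nat_lit 78) (nat_lit 1140) (nat_lit 0) (XT.lf (nat_lit 76) (nat_lit 2355904132) (nat_lit 0) (nat_lit 3258591135) (nat_lit 532) (nat_lit 915080728) (nat_lit 676) (nat_lit 5) (nat_lit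 675) (nat_lit 3) (nat_lit 682) (nat_lit 5) (nat_lit 305) (nat_lit 304) (nat_lit 291)) (XT.nd (nat_lit 78) (nat_lit 608) (nat_lit 0) (XT.lf (nat_lit 76) (nat_lit 628508987) (nat_lit 0) (nat_lit 2248966259) (nat_lit 608) (nat_lit 3673587597) (nat_lit 669) (nat_lit 5) (nat_lit 668) (nat_lit 5) (nat_lit 676) (nat_lit 5) (nat_lit 306) (nat_lit 304) (nat_lit 290)) (XT.lf (nat_lit 0) (nat_lit 76186003) (nat_lit 608) (nat_lit 1028333320) (nat_lit 684) (nat_lit 5470999986) (nat_lit 660) (nat_lit 5) (nat_lit 668) (nat_lit 5) (nat_lit 669) (nat_lit 5) (nat_lit 307) (nat_lit 304) (nat_lit 289))))) (XT.nd (nat_lit 234) (nat_lit 1520) (nat_lit 0) (XT.nd (nat_lit 78) (nat_lit 684) (nat_lit 0) (XT.lf (nat_lit 0) (nat_lit 3772093453) (nat_lit 608) (nat_lit 2641490215) (nat_lit 684) (nat_lit 189048202) (nat_lit 661) (nat_lit 5) (nat_lit 669) (nat_lit 5) (nat_lit 670) (nat_lit 5) (nat_lit 308) (nat_lit 304) (nat_lit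 288)) (XT.nd (nat_lit 78) (nat_lit 0) (nat_lit 0) (XT.lf (nat_lit 0) (nat_lit 825649152) (nat_lit 684) (nat_lit 4209610678) (nat_lit 760) (nat_lit 1597454761) (nat_lit 652) (nat_lit 5) (nat_lit 661) (nat_lit 5) (nat_lit 662) (nat_lit 5) (nat_lit 309) (nat_lit 304) (nat_lit 287)) (XT.lf (nat_lit 76) (nat_lit 925203885) (nat_lit 0) (nat_lit 3515086664) (nat_lit 760) (nat_lit 2225363621) (nat_lit 653) (nat_lit 5) (nat_lit 652) (nat_lit 5) (nat_lit 662) (nat_lit 5) (nat_lit 310) (nat_lit 304) (nat_lit 286)))) (XT.nd (nat_lit 78) (nat_lit 760) (nat_lit 0) (XT.lf (nat_lit 0) (nat_lit 1338809093) (nat_lit 760) (nat_lit 517907058) (nat_lit 836) (nat_lit 4844860892) (nat_lit 642) (nat_lit 5) (nat_lit 652) (nat_lit 5) (nat_lit 653) (nat_lit 5) (nat_lit 311) (nat_lit 304) (nat_lit 285)) (XT.nd (nat_lit 78) (nat_lit 760) (nat_lit 0) (XT.lf (nat_lit 76) (nat_lit 4831261753) (nat_lit 0) (nat_lit 49371886) (nat_lit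 836) (nat_lit 1859698069) (nat_lit 643) (nat_lit 5) (nat_lit 642) (nat_lit 5) (nat_lit 653) (nat_lit 5) (nat_lit 312) (nat_lit 304) (nat_lit 284)) (XT.lf (nat_lit 0) (nat_lit 1636092801) (nat_lit 836) (nat_lit 3270828644) (nat_lit 912) (nat_lit 1874953580) (nat_lit 632) (nat_lit 5) (nat_lit 643) (nat_lit 5) (nat_lit 644) (nat_lit 5) (nat_lit 313) (nat_lit 304) (nat_lit 283))))))))
noncomputable def xc55 : XT := (XT.nd (nat_lit 1638) (nat_lit 13300) (nat_lit 0) (XT.nd (nat_lit 780) (nat_lit 13452) (nat_lit 0) (XT.nd (nat_lit 390) (nat_lit 4864) (nat_lit 0) (XT.nd (nat_lit 156) (nat_lit 1900) (nat_lit 0) (XT.nd (nat_lit 78) (nat_lit 912) (nat_lit 0) (XT.lf (nat_lit 76) (nat_lit 2231292021) (nat_lit 0) (nat_lit 2883532674) (nat_lit 912) (nat_lit 1711589817) (nat_lit 633) (nat_lit 5) (nat_lit 632) (nat_lit 5) (nat_lit 644) (nat_lit 5) (nat_lit 314) (nat_lit 304) (nat_lit 282)) (XT.lf (nat_lit 76) (nat_lit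 991414193) (nat_lit 0) (nat_lit 716619595) (nat_lit 988) (nat_lit 5165951740) (nat_lit 621) (nat_lit 5) (nat_lit 620) (nat_lit 5) (nat_lit 633) (nat_lit 5) (nat_lit 315) (nat_lit 304) (nat_lit 281))) (XT.nd (nat_lit 78) (nat_lit 1976) (nat_lit 0) (XT.lf (nat_lit 0) (nat_lit 5129213729) (nat_lit 912) (nat_lit 217783640) (nat_lit 76) (nat_lit 1577373259) (nat_lit 621) (nat_lit 5) (nat_lit 633) (nat_lit 5) (nat_lit 622) (nat_lit 5) (nat_lit 316) (nat_lit 304) (nat_lit 280)) (XT.nd (nat_lit 78) (nat_lit 988) (nat_lit 0) (XT.lf (nat_lit 0) (nat_lit 1579785871) (nat_lit 988) (nat_lit 1382508674) (nat_lit 76) (nat_lit 4015309579) (nat_lit 608) (nat_lit 5) (nat_lit 621) (nat_lit 5) (nat_lit 609) (nat_lit 5) (nat_lit 317) (nat_lit 304) (nat_lit 279)) (XT.lf (nat_lit 0) (nat_lit 4519958753) (nat_lit 988) (nat_lit 429031660) (nat_lit 1064) (nat_lit 2084912119) (nat_lit 595) (nat_lit 5) (nat_lit 608) (nat_lit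 5) (nat_lit 609) (nat_lit 5) (nat_lit 318) (nat_lit 304) (nat_lit 278))))) (XT.nd (nat_lit 156) (nat_lit 2584) (nat_lit 0) (XT.nd (nat_lit 78) (nat_lit 1140) (nat_lit 0) (XT.lf (nat_lit 0) (nat_lit 1245087011) (nat_lit 1140) (nat_lit 3624735044) (nat_lit 76) (nat_lit 2223243893) (nat_lit 580) (nat_lit 5) (nat_lit 595) (nat_lit 5) (nat_lit 581) (nat_lit 5) (nat_lit 319) (nat_lit 304) (nat_lit 277)) (XT.lf (nat_lit 0) (nat_lit 2444367765) (nat_lit 1140) (nat_lit 2129711604) (nat_lit 1216) (nat_lit 2581150128) (nat_lit 565) (nat_lit 5) (nat_lit 580) (nat_lit 5) (nat_lit 581) (nat_lit 5) (nat_lit 320) (nat_lit 304) (nat_lit 276))) (XT.nd (nat_lit 78) (nat_lit 1292) (nat_lit 0) (XT.lf (nat_lit 0) (nat_lit 705783253) (nat_lit 1292) (nat_lit 5767031241) (nat_lit 76) (nat_lit 747741003) (nat_lit 548) (nat_lit 5) (nat_lit 565) (nat_lit 5) (nat_lit 549) (nat_lit 5) (nat_lit 321) (nat_lit 304) (nat_lit 275))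 (XT.nd (nat_lit 78) (nat_lit 0) (nat_lit 0) (XT.lf (nat_lit 0) (nat_lit 471910377) (nat_lit 1292) (nat_lit 3529991063) (nat_lit 1368) (nat_lit 3286731217) (nat_lit 531) (nat_lit 5) (nat_lit 548) (nat_lit 5) (nat_lit 549) (nat_lit 5) (nat_lit 322) (nat_lit 304) (nat_lit 274)) (XT.lf (nat_lit 0) (nat_lit 6895615958) (nat_lit 1292) (nat_lit 438871937) (nat_lit 1368) (nat_lit 25556719) (nat_lit 531) (nat_lit 5) (nat_lit 548) (nat_lit 5) (nat_lit 549) (nat_lit 5) (nat_lit 323) (nat_lit 304) (nat_lit 273)))))) (XT.nd (nat_lit 390) (nat_lit 5624) (nat_lit 0) (XT.nd (nat_lit 156) (nat_lit 4940) (nat_lit 0) (XT.nd (nat_lit 78) (nat_lit 1444) (nat_lit 0) (XT.lf (nat_lit 0) (nat_lit 3248168361) (nat_lit 1444) (nat_lit 1396876201) (nat_lit 76) (nat_lit 2788994871) (nat_lit 512) (nat_lit 5) (nat_lit 531) (nat_lit 5) (nat_lit 513) (nat_lit 5) (nat_lit 324) (nat_lit 304) (nat_lit 272)) (XT.lf (nat_lit 0) (nat_lit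 5214099885) (nat_lit 1444) (nat_lit 1348875984) (nat_lit 1520) (nat_lit 948451314) (nat_lit 493) (nat_lit 5) (nat_lit 512) (nat_lit 5) (nat_lit 513) (nat_lit 5) (nat_lit 325) (nat_lit 304) (nat_lit 271))) (XT.nd (nat_lit 78) (nat_lit 3344) (nat_lit 0) (XT.lf (nat_lit 0) (nat_lit 2311602126) (nat_lit 1596) (nat_lit 3192949936) (nat_lit 76) (nat_lit 2087177415) (nat_lit 472) (nat_lit 5) (nat_lit 493) (nat_lit 5) (nat_lit 473) (nat_lit 5) (nat_lit 326) (nat_lit 304) (nat_lit 270)) (XT.nd (nat_lit 78) (nat_lit 1748) (nat_lit 0) (XT.lf (nat_lit 0) (nat_lit 3603098846) (nat_lit 1596) (nat_lit 2008862111) (nat_lit 1672) (nat_lit 2063284433) (nat_lit 451) (nat_lit 5) (nat_lit 472) (nat_lit 5) (nat_lit 473) (nat_lit 5) (nat_lit 327) (nat_lit 304) (nat_lit 269)) (XT.lf (nat_lit 0) (nat_lit 1193333988) (nat_lit 1748) (nat_lit 4939777573) (nat_lit 76) (nat_lit 1628835502) (nat_lit 428) (nat_lit 5) (nat_lit 451)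 (nat_lit 5) (nat_lit 429) (nat_lit 5) (nat_lit 328) (nat_lit 304) (nat_lit 268))))) (XT.nd (nat_lit 234) (nat_lit 1748) (nat_lit 0) (XT.nd (nat_lit 78) (nat_lit 2128) (nat_lit 0) (XT.lf (nat_lit 0) (nat_lit 2045524013) (nat_lit 1748) (nat_lit 2439713459) (nat_lit 1824) (nat_lit 3366462039) (nat_lit 405) (nat_lit 5) (nat_lit 428) (nat_lit 5) (nat_lit 429) (nat_lit 5) (nat_lit 329) (nat_lit 304) (nat_lit 267)) (XT.nd (nat_lit 78) (nat_lit 988) (nat_lit 0) (XT.lf (nat_lit 0) (nat_lit 1289635181) (nat_lit 1140) (nat_lit 6550264274) (nat_lit 1216) (nat_lit 104998897) (nat_lit 390) (nat_lit 5) (nat_lit 405) (nat_lit 5) (nat_lit 406) (nat_lit 5) (nat_lit 330) (nat_lit 304) (nat_lit 266)) (XT.lf (nat_lit 0) (nat_lit 524310630) (nat_lit 912) (nat_lit 2661123842) (nat_lit 988) (nat_lit 4855592177) (nat_lit 377) (nat_lit 5) (nat_lit 389) (nat_lit 5) (nat_lit 390) (nat_lit 5) (nat_lit 331) (nat_lit 304) (nat_lit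 265)))) (XT.nd (nat_lit 78) (nat_lit 1748) (nat_lit 0) (XT.lf (nat_lit 0) (nat_lit 6543751158) (nat_lit 988) (nat_lit 221427064) (nat_lit 76) (nat_lit 1375466034) (nat_lit 377) (nat_lit 5) (nat_lit 390) (nat_lit 5) (nat_lit 378) (nat_lit 5) (nat_lit 332) (nat_lit 304) (nat_lit 264)) (XT.nd (nat_lit 78) (nat_lit 836) (nat_lit 0) (XT.lf (nat_lit 0) (nat_lit 1720376317) (nat_lit 912) (nat_lit 964897509) (nat_lit 76) (nat_lit 5558100122) (nat_lit 365) (nat_lit 5) (nat_lit 377) (nat_lit 5) (nat_lit 366) (nat_lit 5) (nat_lit 333) (nat_lit 304) (nat_lit 263)) (XT.lf (nat_lit 0) (nat_lit 5090703174) (nat_lit 912) (nat_lit 1706387128) (nat_lit 76) (nat_lit 1552408327) (nat_lit 354) (nat_lit 5) (nat_lit 366) (nat_lit 5) (nat_lit 355) (nat_lit 5) (nat_lit 334) (nat_lit 304) (nat_lit 262))))))) (XT.nd (nat_lit 780) (nat_lit 6384) (nat_lit 0) (XT.nd (nat_lit 390) (nat_lit 2888) (nat_lit 0) (XT.nd (nat_lit 156)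 (nat_lit 2280) (nat_lit 0) (XT.nd (nat_lit 78) (nat_lit 836) (nat_lit 0) (XT.lf (nat_lit 0) (nat_lit 87435614) (nat_lit 912) (nat_lit 2445505770) (nat_lit 76) (nat_lit 5926170599) (nat_lit 342) (nat_lit 5) (nat_lit 354) (nat_lit 5) (nat_lit 343) (nat_lit 5) (nat_lit 335) (nat_lit 304) (nat_lit 261)) (XT.lf (nat_lit 0) (nat_lit 3472355726) (nat_lit 912) (nat_lit 3199491540) (nat_lit 76) (nat_lit 1900110844) (nat_lit 331) (nat_lit 5) (nat_lit 343) (nat_lit 5) (nat_lit 332) (nat_lit 5) (nat_lit 336) (nat_lit 304) (nat_lit 260))) (XT.nd (nat_lit 78) (nat_lit 1520) (nat_lit 0) (XT.lf (nat_lit 0) (nat_lit 4735134099) (nat_lit 760) (nat_lit 2212970053) (nat_lit 836) (nat_lit 1740325786) (nat_lit 321) (nat_lit 5) (nat_lit 331) (nat_lit 5) (nat_lit 332) (nat_lit 5) (nat_lit 337) (nat_lit 304) (nat_lit 259)) (XT.nd (nat_lit 78) (nat_lit 684) (nat_lit 0) (XT.lf (nat_lit 0) (nat_lit 1687540608) (nat_lit 836)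 (nat_lit 4718552698) (nat_lit 76) (nat_lit 2402296666) (nat_lit 310) (nat_lit 5) (nat_lit 321) (nat_lit 5) (nat_lit 311) (nat_lit 5) (nat_lit 338) (nat_lit 304) (nat_lit 258)) (XT.lf (nat_lit 0) (nat_lit 3435061585) (nat_lit 684) (nat_lit 1751416140) (nat_lit 760) (nat_lit 3745427397) (nat_lit 301) (nat_lit 5) (nat_lit 310) (nat_lit 5) (nat_lit 311) (nat_lit 5) (nat_lit 339) (nat_lit 304) (nat_lit 257))))) (XT.nd (nat_lit 156) (nat_lit 1368) (nat_lit 0) (XT.nd (nat_lit 78) (nat_lit 760) (nat_lit 0) (XT.lf (nat_lit 0) (nat_lit 2775397670) (nat_lit 760) (nat_lit 6014163292) (nat_lit 836) (nat_lit 269604472) (nat_lit 291) (nat_lit 5) (nat_lit 301) (nat_lit 5) (nat_lit 302) (nat_lit 5) (nat_lit 340) (nat_lit 304) (nat_lit 256)) (XT.lf (nat_lit 0) (nat_lit 2095514986) (nat_lit 684) (nat_lit 1164656228) (nat_lit 760) (nat_lit 5929802693) (nat_lit 281) (nat_lit 5) (nat_lit 290) (nat_lit 5) (nat_lit 291)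 (nat_lit 5) (nat_lit 341) (nat_lit 304) (nat_lit 255))) (XT.nd (nat_lit 78) (nat_lit 684) (nat_lit 0) (XT.lf (nat_lit 0) (nat_lit 1399655023) (nat_lit 684) (nat_lit 5501095905) (nat_lit 760) (nat_lit 2423770094) (nat_lit 272) (nat_lit 5) (nat_lit 281) (nat_lit 5) (nat_lit 282) (nat_lit 5) (nat_lit 342) (nat_lit 304) (nat_lit 254)) (XT.nd (nat_lit 78) (nat_lit 0) (nat_lit 0) (XT.lf (nat_lit 0) (nat_lit 697189492) (nat_lit 608) (nat_lit 468135617) (nat_lit 684) (nat_lit 8297776610) (nat_lit 263) (nat_lit 5) (nat_lit 271) (nat_lit 5) (nat_lit 272) (nat_lit 5) (nat_lit 343) (nat_lit 304) (nat_lit 253)) (XT.lf (nat_lit 0) (nat_lit 4848141822) (nat_lit 684) (nat_lit 45223174) (nat_lit 76) (nat_lit 4711794725) (nat_lit 263) (nat_lit 5) (nat_lit 272) (nat_lit 5) (nat_lit 264) (nat_lit 5) (nat_lit 344) (nat_lit 304) (nat_lit 252)))))) (XT.nd (nat_lit 390) (nat_lit 3192) (nat_lit 0) (XT.nd (nat_lit 156) (nat_lit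 1824) (nat_lit 0) (XT.nd (nat_lit 78) (nat_lit 684) (nat_lit 0) (XT.lf (nat_lit 0) (nat_lit 8641053034) (nat_lit 760) (nat_lit 779410354) (nat_lit 76) (nat_lit 331043166) (nat_lit 254) (nat_lit 5) (nat_lit 264) (nat_lit 5) (nat_lit 255) (nat_lit 5) (nat_lit 345) (nat_lit 304) (nat_lit 251)) (XT.lf (nat_lit 0) (nat_lit 2635569627) (nat_lit 684) (nat_lit 1561169670) (nat_lit 76) (nat_lit 5704684166) (nat_lit 245) (nat_lit 5) (nat_lit 254) (nat_lit 5) (nat_lit 246) (nat_lit 5) (nat_lit 346) (nat_lit 304) (nat_lit 250))) (XT.nd (nat_lit 78) (nat_lit 1216) (nat_lit 0) (XT.lf (nat_lit 0) (nat_lit 6480543346) (nat_lit 684) (nat_lit 2358652513) (nat_lit 76) (nat_lit 1216479914) (nat_lit 237) (nat_lit 5) (nat_lit 246) (nat_lit 5) (nat_lit 238) (nat_lit 5) (nat_lit 347) (nat_lit 304) (nat_lit 249)) (XT.nd (nat_lit 78) (nat_lit 608) (nat_lit 0) (XT.lf (nat_lit 0) (nat_lit 247257052) (nat_lit 608) (nat_lit 3188441381)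 (nat_lit 76) (nat_lit 6778366509) (nat_lit 229) (nat_lit 5) (nat_lit 237) (nat_lit 5) (nat_lit 230) (nat_lit 5) (nat_lit 348) (nat_lit 304) (nat_lit 248)) (XT.lf (nat_lit 0) (nat_lit 4147763988) (nat_lit 684) (nat_lit 4061524703) (nat_lit 76) (nat_lit 2167220581) (nat_lit 221) (nat_lit 5) (nat_lit 230) (nat_lit 5) (nat_lit 222) (nat_lit 5) (nat_lit 349) (nat_lit 304) (nat_lit 247))))) (XT.nd (nat_lit 234) (nat_lit 1520) (nat_lit 0) (XT.nd (nat_lit 78) (nat_lit 1140) (nat_lit 0) (XT.lf (nat_lit 0) (nat_lit 5577657747) (nat_lit 532) (nat_lit 2610009524) (nat_lit 608) (nat_lit 2355728033) (nat_lit 214) (nat_lit 5) (nat_lit 221) (nat_lit 5) (nat_lit 222) (nat_lit 5) (nat_lit 350) (nat_lit 304) (nat_lit 246)) (XT.nd (nat_lit 78) (nat_lit 532) (nat_lit 0) (XT.lf (nat_lit 0) (nat_lit 1634189208) (nat_lit 608) (nat_lit 5912245171) (nat_lit 76) (nat_lit 3168213993) (nat_lit 206) (nat_lit 5) (nat_lit 214) (nat_lit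 5) (nat_lit 207) (nat_lit 5) (nat_lit 351) (nat_lit 304) (nat_lit 245)) (XT.lf (nat_lit 0) (nat_lit 3984534945) (nat_lit 532) (nat_lit 1747991388) (nat_lit 608) (nat_lit 5157801501) (nat_lit 199) (nat_lit 5) (nat_lit 206) (nat_lit 5) (nat_lit 207) (nat_lit 5) (nat_lit 352) (nat_lit 304) (nat_lit 244)))) (XT.nd (nat_lit 78) (nat_lit 988) (nat_lit 0) (XT.lf (nat_lit 0) (nat_lit 3126720945) (nat_lit 532) (nat_lit 6859543808) (nat_lit 608) (nat_lit 1084378254) (nat_lit 192) (nat_lit 5) (nat_lit 199) (nat_lit 5) (nat_lit 200) (nat_lit 5) (nat_lit 353) (nat_lit 304) (nat_lit 243)) (XT.nd (nat_lit 78) (nat_lit 456) (nat_lit 0) (XT.lf (nat_lit 0) (nat_lit 2221456265) (nat_lit 456) (nat_lit 867363983) (nat_lit 532) (nat_lit 8166789500) (nat_lit 185) (nat_lit 5) (nat_lit 191) (nat_lit 5) (nat_lit 192) (nat_lit 5) (nat_lit 354) (nat_lit 304) (nat_lit 242)) (XT.lf (nat_lit 0) (nat_lit 1255369719) (nat_lit 456)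 (nat_lit 6160124488) (nat_lit 532) (nat_lit 4029640950) (nat_lit 179) (nat_lit 5) (nat_lit 185) (nat_lit 5) (nat_lit 186) (nat_lit 5) (nat_lit 355) (nat_lit 304) (nat_lit 241))))))))
noncomputable def xc56 : XT := (XT.nd (nat_lit 1560) (nat_lit 2432) (nat_lit 0) (XT.nd (nat_lit 780) (nat_lit 2888) (nat_lit 0) (XT.nd (nat_lit 390) (nat_lit 2052) (nat_lit 0) (XT.nd (nat_lit 156) (nat_lit 1368) (nat_lit 0) (XT.nd (nat_lit 78) (nat_lit 0) (nat_lit 0) (XT.lf (nat_lit 0) (nat_lit 244673474) (nat_lit 532) (nat_lit 11380332624) (nat_lit 76) (nat_lit 15000992) (nat_lit 172) (nat_lit 5) (nat_lit 179) (nat_lit 5) (nat_lit 173) (nat_lit 5) (nat_lit 356) (nat_lit 304) (nat_lit 240)) (XT.lf (nat_lit 0) (nat_lit 4651303206) (nat_lit 532) (nat_lit 819624967) (nat_lit 76) (nat_lit 6368099887) (nat_lit 172) (nat_lit 5) (nat_lit 179) (nat_lit 5) (nat_lit 173) (nat_lit 5) (nat_lit 357) (nat_lit 304) (nat_lit 239))) (XT.nd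 (nat_lit 78) (nat_lit 912) (nat_lit 0) (XT.lf (nat_lit 0) (nat_lit 9211103215) (nat_lit 532) (nat_lit 1930655953) (nat_lit 76) (nat_lit 901852961) (nat_lit 166) (nat_lit 5) (nat_lit 173) (nat_lit 5) (nat_lit 167) (nat_lit 5) (nat_lit 358) (nat_lit 304) (nat_lit 238)) (XT.nd (nat_lit 78) (nat_lit 456) (nat_lit 0) (XT.lf (nat_lit 0) (nat_lit 1683769020) (nat_lit 456) (nat_lit 3121910357) (nat_lit 76) (nat_lit 7447409179) (nat_lit 160) (nat_lit 5) (nat_lit 166) (nat_lit 5) (nat_lit 161) (nat_lit 5) (nat_lit 359) (nat_lit 304) (nat_lit 237)) (XT.lf (nat_lit 0) (nat_lit 6325498536) (nat_lit 532) (nat_lit 4380663117) (nat_lit 76) (nat_lit 1761755242) (nat_lit 154) (nat_lit 5) (nat_lit 161) (nat_lit 5) (nat_lit 155) (nat_lit 5) (nat_lit 360) (nat_lit 304) (nat_lit 236))))) (XT.nd (nat_lit 156) (nat_lit 1216) (nat_lit 0) (XT.nd (nat_lit 78) (nat_lit 456) (nat_lit 0) (XT.lf (nat_lit 0) (nat_lit 6975356920)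 (nat_lit 380) (nat_lit 4181565083) (nat_lit 456) (nat_lit 1531269915) (nat_lit 149) (nat_lit 5) (nat_lit 154) (nat_lit 5) (nat_lit 155) (nat_lit 5) (nat_lit 361) (nat_lit 304) (nat_lit 235)) (XT.lf (nat_lit 0) (nat_lit 3212837581) (nat_lit 456) (nat_lit 7128650820) (nat_lit 76) (nat_lit 2572442414) (nat_lit 143) (nat_lit 5) (nat_lit 149) (nat_lit 5) (nat_lit 144) (nat_lit 5) (nat_lit 362) (nat_lit 304) (nat_lit 234))) (XT.nd (nat_lit 78) (nat_lit 836) (nat_lit 0) (XT.lf (nat_lit 0) (nat_lit 4511911719) (nat_lit 380) (nat_lit 3616047361) (nat_lit 456) (nat_lit 5017300336) (nat_lit 138) (nat_lit 5) (nat_lit 143) (nat_lit 5) (nat_lit 144) (nat_lit 5) (nat_lit 363) (nat_lit 304) (nat_lit 233)) (XT.nd (nat_lit 78) (nat_lit 456) (nat_lit 0) (XT.lf (nat_lit 0) (nat_lit 3167104248) (nat_lit 380) (nat_lit 10068039306) (nat_lit 456) (nat_lit 147501711) (nat_lit 133) (nat_lit 5) (nat_lit 138) (nat_lit 5) (nat_lit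 139) (nat_lit 5) (nat_lit 364) (nat_lit 304) (nat_lit 232)) (XT.lf (nat_lit 0) (nat_lit 1711215084) (nat_lit 380) (nat_lit 3142021322) (nat_lit 456) (nat_lit 8772319318) (nat_lit 127) (nat_lit 5) (nat_lit 132) (nat_lit 5) (nat_lit 133) (nat_lit 5) (nat_lit 365) (nat_lit 304) (nat_lit 231)))))) (XT.nd (nat_lit 390) (nat_lit 1368) (nat_lit 0) (XT.nd (nat_lit 156) (nat_lit 1064) (nat_lit 0) (XT.nd (nat_lit 78) (nat_lit 76) (nat_lit 0) (XT.lf (nat_lit 0) (nat_lit 167627401) (nat_lit 380) (nat_lit 9886313083) (nat_lit 456) (nat_lit 3820763406) (nat_lit 122) (nat_lit 5) (nat_lit 127) (nat_lit 5) (nat_lit 128) (nat_lit 5) (nat_lit 366) (nat_lit 304) (nat_lit 230)) (XT.lf (nat_lit 0) (nat_lit 1320658239) (nat_lit 456) (nat_lit 1452355914) (nat_lit 76) (nat_lit 11356992691) (nat_lit 121) (nat_lit 5) (nat_lit 127) (nat_lit 5) (nat_lit 122) (nat_lit 5) (nat_lit 367) (nat_lit 304) (nat_lit 229))) (XT.nd (nat_lit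 78) (nat_lit 760) (nat_lit 0) (XT.lf (nat_lit 0) (nat_lit 6624764509) (nat_lit 380) (nat_lit 3196203750) (nat_lit 76) (nat_lit 4570296676) (nat_lit 117) (nat_lit 5) (nat_lit 122) (nat_lit 5) (nat_lit 118) (nat_lit 5) (nat_lit 368) (nat_lit 304) (nat_lit 228)) (XT.nd (nat_lit 78) (nat_lit 380) (nat_lit 0) (XT.lf (nat_lit 0) (nat_lit 9623639613) (nat_lit 380) (nat_lit 2513071285) (nat_lit 456) (nat_lit 2522683475) (nat_lit 112) (nat_lit 5) (nat_lit 117) (nat_lit 5) (nat_lit 118) (nat_lit 5) (nat_lit 369) (nat_lit 304) (nat_lit 227)) (XT.lf (nat_lit 0) (nat_lit 2905486209) (nat_lit 380) (nat_lit 7010439083) (nat_lit 76) (nat_lit 5017980392) (nat_lit 107) (nat_lit 5) (nat_lit 112) (nat_lit 5) (nat_lit 108) (nat_lit 5) (nat_lit 370) (nat_lit 304) (nat_lit 226))))) (XT.nd (nat_lit 156) (nat_lit 760) (nat_lit 0) (XT.nd (nat_lit 78) (nat_lit 304) (nat_lit 0) (XT.lf (nat_lit 0) (nat_lit 6105902493) (nat_lit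 304) (nat_lit 2406279850) (nat_lit 380) (nat_lit 6703144736) (nat_lit 103) (nat_lit 5) (nat_lit 107) (nat_lit 5) (nat_lit 108) (nat_lit 5) (nat_lit 371) (nat_lit 304) (nat_lit 225)) (XT.lf (nat_lit 0) (nat_lit 4162826874) (nat_lit 304) (nat_lit 10193287164) (nat_lit 380) (nat_lit 1147703507) (nat_lit 99) (nat_lit 5) (nat_lit 103) (nat_lit 5) (nat_lit 104) (nat_lit 5) (nat_lit 372) (nat_lit 304) (nat_lit 224))) (XT.nd (nat_lit 78) (nat_lit 380) (nat_lit 0) (XT.lf (nat_lit 0) (nat_lit 2075423087) (nat_lit 304) (nat_lit 2490774771) (nat_lit 380) (nat_lit 11233141830) (nat_lit 94) (nat_lit 5) (nat_lit 98) (nat_lit 5) (nat_lit 99) (nat_lit 5) (nat_lit 373) (nat_lit 304) (nat_lit 223)) (XT.nd (nat_lit 78) (nat_lit 380) (nat_lit 0) (XT.lf (nat_lit 0) (nat_lit 10509398434) (nat_lit 380) (nat_lit 159552462) (nat_lit 76) (nat_lit 5433161958) (nat_lit 94) (nat_lit 5) (nat_lit 99) (nat_lit 5) (nat_lit 95) (nat_lit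 5) (nat_lit 374) (nat_lit 304) (nat_lit 222)) (XT.lf (nat_lit 0) (nat_lit 283373095) (nat_lit 380) (nat_lit 2498425250) (nat_lit 76) (nat_lit 13630763119) (nat_lit 89) (nat_lit 5) (nat_lit 94) (nat_lit 5) (nat_lit 90) (nat_lit 5) (nat_lit 375) (nat_lit 304) (nat_lit 221))))))) (XT.nd (nat_lit 780) (nat_lit 0) (nat_lit 0) (XT.nd (nat_lit 390) (nat_lit 1064) (nat_lit 0) (XT.nd (nat_lit 156) (nat_lit 836) (nat_lit 0) (XT.nd (nat_lit 78) (nat_lit 228) (nat_lit 0) (XT.lf (nat_lit 0) (nat_lit 6335064679) (nat_lit 380) (nat_lit 5030728250) (nat_lit 76) (nat_lit 5364291243) (nat_lit 85) (nat_lit 5) (nat_lit 90) (nat_lit 5) (nat_lit 86) (nat_lit 5) (nat_lit 376) (nat_lit 304) (nat_lit 220)) (XT.lf (nat_lit 0) (nat_lit 9343630775) (nat_lit 228) (nat_lit 3283842786) (nat_lit 304) (nat_lit 4428481575) (nat_lit 82) (nat_lit 5) (nat_lit 85) (nat_lit 5) (nat_lit 86) (nat_lit 5) (nat_lit 377) (nat_lit 304) (nat_lit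 219))) (XT.nd (nat_lit 78) (nat_lit 456) (nat_lit 0) (XT.lf (nat_lit 0) (nat_lit 1769766425) (nat_lit 380) (nat_lit 10578329018) (nat_lit 76) (nat_lit 5041784776) (nat_lit 77) (nat_lit 5) (nat_lit 82) (nat_lit 5) (nat_lit 78) (nat_lit 5) (nat_lit 378) (nat_lit 304) (nat_lit 218)) (XT.nd (nat_lit 78) (nat_lit 228) (nat_lit 0) (XT.lf (nat_lit 0) (nat_lit 4085816612) (nat_lit 228) (nat_lit 4073255369) (nat_lit 304) (nat_lit 9572865571) (nat_lit 74) (nat_lit 5) (nat_lit 77) (nat_lit 5) (nat_lit 78) (nat_lit 5) (nat_lit 379) (nat_lit 304) (nat_lit 217)) (XT.lf (nat_lit 0) (nat_lit 1178578448) (nat_lit 228) (nat_lit 13634535738) (nat_lit 304) (nat_lit 3269686567) (nat_lit 71) (nat_lit 5) (nat_lit 74) (nat_lit 5) (nat_lit 75) (nat_lit 5) (nat_lit 380) (nat_lit 304) (nat_lit 216))))) (XT.nd (nat_lit 156) (nat_lit 760) (nat_lit 0) (XT.nd (nat_lit 78) (nat_lit 228) (nat_lit 0) (XT.lf (nat_lit 0) (nat_lit 3265424906)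 (nat_lit 304) (nat_lit 1915190767) (nat_lit 76) (nat_lit 13261458721) (nat_lit 70) (nat_lit 5) (nat_lit 74) (nat_lit 5) (nat_lit 71) (nat_lit 5) (nat_lit 381) (nat_lit 304) (nat_lit 215)) (XT.lf (nat_lit 0) (nat_lit 10030157036) (nat_lit 304) (nat_lit 5210942440) (nat_lit 76) (nat_lit 3569039624) (nat_lit 67) (nat_lit 5) (nat_lit 71) (nat_lit 5) (nat_lit 68) (nat_lit 5) (nat_lit 382) (nat_lit 304) (nat_lit 214))) (XT.nd (nat_lit 78) (nat_lit 532) (nat_lit 0) (XT.lf (nat_lit 0) (nat_lit 10461953953) (nat_lit 228) (nat_lit 6617800928) (nat_lit 304) (nat_lit 2107857144) (nat_lit 64) (nat_lit 5) (nat_lit 67) (nat_lit 5) (nat_lit 68) (nat_lit 5) (nat_lit 383) (nat_lit 304) (nat_lit 213)) (XT.nd (nat_lit 78) (nat_lit 228) (nat_lit 0) (XT.lf (nat_lit 0) (nat_lit 4765611133) (nat_lit 304) (nat_lit 12483724983) (nat_lit 76) (nat_lit 2325185552) (nat_lit 60) (nat_lit 5) (nat_lit 64) (nat_lit 5) (nat_lit 61)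 (nat_lit 5) (nat_lit 384) (nat_lit 304) (nat_lit 212)) (XT.lf (nat_lit 0) (nat_lit 3460068193) (nat_lit 228) (nat_lit 8450129546) (nat_lit 304) (nat_lit 8060695560) (nat_lit 57) (nat_lit 5) (nat_lit 60) (nat_lit 5) (nat_lit 61) (nat_lit 5) (nat_lit 385) (nat_lit 304) (nat_lit 211)))))) (XT.nd (nat_lit 40872) (nat_lit 0) (nat_lit 42712) (XT.nd (nat_lit 40638) (nat_lit 0) (nat_lit 45144) (XT.nd (nat_lit 40560) (nat_lit 0) (nat_lit 46436) (XT.lf (nat_lit 0) (nat_lit 19325856344) (nat_lit 304) (nat_lit 384439821) (nat_lit 76) (nat_lit 667729493) (nat_lit 57) (nat_lit 5) (nat_lit 61) (nat_lit 5) (nat_lit 58) (nat_lit 5) (nat_lit 386) (nat_lit 304) (nat_lit 210)) (XT.lf (nat_lit 0) (nat_lit 701925384) (nat_lit 0) (nat_lit 701925384) (nat_lit 532) (nat_lit 1870945616) (nat_lit 668) (nat_lit 5) (nat_lit 668) (nat_lit 3) (nat_lit 675) (nat_lit 3) (nat_lit 305) (nat_lit 305) (nat_lit 290))) (XT.nd (nat_lit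 78) (nat_lit 1292) (nat_lit 0) (XT.lf (nat_lit 0) (nat_lit 6184038797) (nat_lit 0) (nat_lit 320960845) (nat_lit 532) (nat_lit 67667191) (nat_lit 668) (nat_lit 5) (nat_lit 668) (nat_lit 3) (nat_lit 675) (nat_lit 3) (nat_lit 306) (nat_lit 305) (nat_lit 289)) (XT.nd (nat_lit 78) (nat_lit 684) (nat_lit 0) (XT.lf (nat_lit 0) (nat_lit 3559366116) (nat_lit 608) (nat_lit 2131879354) (nat_lit 684) (nat_lit 906957492) (nat_lit 660) (nat_lit 5) (nat_lit 668) (nat_lit 5) (nat_lit 669) (nat_lit 5) (nat_lit 307) (nat_lit 305) (nat_lit 288)) (XT.lf (nat_lit 0) (nat_lit 543668663) (nat_lit 684) (nat_lit 3823937955) (nat_lit 760) (nat_lit 2259224720) (nat_lit 651) (nat_lit 5) (nat_lit 660) (nat_lit 5) (nat_lit 661) (nat_lit 5) (nat_lit 308) (nat_lit 305) (nat_lit 287))))) (XT.nd (nat_lit 234) (nat_lit 1672) (nat_lit 0) (XT.nd (nat_lit 78) (nat_lit 760) (nat_lit 0) (XT.lf (nat_lit 76) (nat_lit 1177780519) (nat_lit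 0) (nat_lit 2900096209) (nat_lit 760) (nat_lit 2580402894) (nat_lit 652) (nat_lit 5) (nat_lit 651) (nat_lit 5) (nat_lit 661) (nat_lit 5) (nat_lit 309) (nat_lit 305) (nat_lit 286)) (XT.nd (nat_lit 78) (nat_lit 0) (nat_lit 76) (XT.lf (nat_lit 0) (nat_lit 905685532) (nat_lit 760) (nat_lit 391832411) (nat_lit 836) (nat_lit 5395255113) (nat_lit 641) (nat_lit 5) (nat_lit 651) (nat_lit 5) (nat_lit 652) (nat_lit 5) (nat_lit 310) (nat_lit 305) (nat_lit 285)) (XT.lf (nat_lit 0) (nat_lit 4365328072) (nat_lit 760) (nat_lit 1912013673) (nat_lit 836) (nat_lit 452605353) (nat_lit 642) (nat_lit 5) (nat_lit 652) (nat_lit 5) (nat_lit 653) (nat_lit 5) (nat_lit 311) (nat_lit 305) (nat_lit 284)))) (XT.nd (nat_lit 78) (nat_lit 912) (nat_lit 0) (XT.lf (nat_lit 0) (nat_lit 1051141862) (nat_lit 836) (nat_lit 3396516553) (nat_lit 912) (nat_lit 2322374734) (nat_lit 631) (nat_lit 5) (nat_lit 642) (nat_lit 5) (nat_lit 643) (nat_lit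 5) (nat_lit 312) (nat_lit 305) (nat_lit 283)) (XT.nd (nat_lit 78) (nat_lit 912) (nat_lit 0) (XT.lf (nat_lit 76) (nat_lit 1965882332) (nat_lit 0) (nat_lit 2472904663) (nat_lit 912) (nat_lit 2374253825) (nat_lit 632) (nat_lit 5) (nat_lit 631) (nat_lit 5) (nat_lit 643) (nat_lit 5) (nat_lit 313) (nat_lit 305) (nat_lit 282)) (XT.lf (nat_lit 76) (nat_lit 602401248) (nat_lit 0) (nat_lit 359177989) (nat_lit 988) (nat_lit 5897581849) (nat_lit 620) (nat_lit 5) (nat_lit 619) (nat_lit 5) (nat_lit 632) (nat_lit 5) (nat_lit 314) (nat_lit 305) (nat_lit 281))))))))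
noncomputable def xc57 : XT := (XT.nd (nat_lit 1560) (nat_lit 12844) (nat_lit 0) (XT.nd (nat_lit 780) (nat_lit 12008) (nat_lit 0) (XT.nd (nat_lit 390) (nat_lit 5168) (nat_lit 0) (XT.nd (nat_lit 156) (nat_lit 2052) (nat_lit 0) (XT.nd (nat_lit 78) (nat_lit 988) (nat_lit 0) (XT.lf (nat_lit 0) (nat_lit 4291447190) (nat_lit 912) (nat_lit 730740728) (nat_lit 988) (nat_lit 1885696486) (nat_lit 620) (nat_lit 5) (nat_lit 632) (nat_lit 5) (nat_lit 633) (nat_lit 5) (nat_lit 315) (nat_lit 305) (nat_lit 280)) (XT.lf (nat_lit 0) (nat_lit 671692033) (nat_lit 988) (nat_lit 2016961348) (nat_lit 1064) (nat_lit 4271000642) (nat_lit 607) (nat_lit 5) (nat_lit 620) (nat_lit 5) (nat_lit 621) (nat_lit 5) (nat_lit 316) (nat_lit 305) (nat_lit 279))) (XT.nd (nat_lit 78) (nat_lit 2052) (nat_lit 0) (XT.lf (nat_lit 76) (nat_lit 3738291438) (nat_lit 0) (nat_lit 200786517) (nat_lit 1064) (nat_lit 3075282964) (nat_lit 608) (nat_lit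 5) (nat_lit 607) (nat_lit 5) (nat_lit 621) (nat_lit 5) (nat_lit 317) (nat_lit 305) (nat_lit 278)) (XT.nd (nat_lit 78) (nat_lit 1064) (nat_lit 0) (XT.lf (nat_lit 0) (nat_lit 165708303) (nat_lit 1064) (nat_lit 4509474388) (nat_lit 76) (nat_lit 2396846730) (nat_lit 594) (nat_lit 5) (nat_lit 608) (nat_lit 5) (nat_lit 595) (nat_lit 5) (nat_lit 318) (nat_lit 305) (nat_lit 277)) (XT.lf (nat_lit 0) (nat_lit 1408483752) (nat_lit 1064) (nat_lit 1978428324) (nat_lit 1140) (nat_lit 3745663311) (nat_lit 580) (nat_lit 5) (nat_lit 594) (nat_lit 5) (nat_lit 595) (nat_lit 5) (nat_lit 319) (nat_lit 305) (nat_lit 276))))) (XT.nd (nat_lit 156) (nat_lit 3952) (nat_lit 0) (XT.nd (nat_lit 78) (nat_lit 76) (nat_lit 0) (XT.lf (nat_lit 0) (nat_lit 290589010) (nat_lit 1140) (nat_lit 6346532639) (nat_lit 1216) (nat_lit 559216489) (nat_lit 565) (nat_lit 5) (nat_lit 580) (nat_lit 5) (nat_lit 581) (nat_lit 5) (nat_lit 320) (nat_lit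 305) (nat_lit 275)) (XT.lf (nat_lit 0) (nat_lit 2635761668) (nat_lit 1216) (nat_lit 807690174) (nat_lit 76) (nat_lit 3819280900) (nat_lit 564) (nat_lit 5) (nat_lit 580) (nat_lit 5) (nat_lit 565) (nat_lit 5) (nat_lit 321) (nat_lit 305) (nat_lit 274))) (XT.nd (nat_lit 78) (nat_lit 2736) (nat_lit 0) (XT.lf (nat_lit 0) (nat_lit 5464197246) (nat_lit 1216) (nat_lit 389705643) (nat_lit 1292) (nat_lit 1478488314) (nat_lit 548) (nat_lit 5) (nat_lit 564) (nat_lit 5) (nat_lit 565) (nat_lit 5) (nat_lit 322) (nat_lit 305) (nat_lit 273)) (XT.nd (nat_lit 78) (nat_lit 1368) (nat_lit 0) (XT.lf (nat_lit 0) (nat_lit 1695520186) (nat_lit 1368) (nat_lit 2921901746) (nat_lit 76) (nat_lit 2787446168) (nat_lit 530) (nat_lit 5) (nat_lit 548) (nat_lit 5) (nat_lit 531) (nat_lit 5) (nat_lit 323) (nat_lit 305) (nat_lit 272)) (XT.lf (nat_lit 0) (nat_lit 3526646830) (nat_lit 1368) (nat_lit 1360033565) (nat_lit 1444) (nat_lit 2593843908)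 (nat_lit 512) (nat_lit 5) (nat_lit 530) (nat_lit 5) (nat_lit 531) (nat_lit 5) (nat_lit 324) (nat_lit 305) (nat_lit 271)))))) (XT.nd (nat_lit 390) (nat_lit 5624) (nat_lit 0) (XT.nd (nat_lit 156) (nat_lit 3344) (nat_lit 0) (XT.nd (nat_lit 78) (nat_lit 1520) (nat_lit 0) (XT.lf (nat_lit 0) (nat_lit 562521254) (nat_lit 1520) (nat_lit 4970324992) (nat_lit 76) (nat_lit 2026453657) (nat_lit 492) (nat_lit 5) (nat_lit 512) (nat_lit 5) (nat_lit 493) (nat_lit 5) (nat_lit 325) (nat_lit 305) (nat_lit 270)) (XT.lf (nat_lit 0) (nat_lit 1658716590) (nat_lit 1520) (nat_lit 2074320923) (nat_lit 1596) (nat_lit 3908002070) (nat_lit 472) (nat_lit 5) (nat_lit 492) (nat_lit 5) (nat_lit 493) (nat_lit 5) (nat_lit 326) (nat_lit 305) (nat_lit 269))) (XT.nd (nat_lit 78) (nat_lit 1748) (nat_lit 0) (XT.lf (nat_lit 0) (nat_lit 750672967) (nat_lit 1596) (nat_lit 6206367848) (nat_lit 1672) (nat_lit 769059835) (nat_lit 451) (nat_lit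 5) (nat_lit 472) (nat_lit 5) (nat_lit 473) (nat_lit 5) (nat_lit 327) (nat_lit 305) (nat_lit 268)) (XT.nd (nat_lit 78) (nat_lit 1672) (nat_lit 0) (XT.lf (nat_lit 0) (nat_lit 2397844633) (nat_lit 1672) (nat_lit 154813957) (nat_lit 76) (nat_lit 5261447645) (nat_lit 450) (nat_lit 5) (nat_lit 472) (nat_lit 5) (nat_lit 451) (nat_lit 5) (nat_lit 328) (nat_lit 305) (nat_lit 267)) (XT.lf (nat_lit 0) (nat_lit 5616287091) (nat_lit 1748) (nat_lit 1035278561) (nat_lit 76) (nat_lit 1253778925) (nat_lit 428) (nat_lit 5) (nat_lit 451) (nat_lit 5) (nat_lit 429) (nat_lit 5) (nat_lit 329) (nat_lit 305) (nat_lit 266))))) (XT.nd (nat_lit 156) (nat_lit 2660) (nat_lit 0) (XT.nd (nat_lit 78) (nat_lit 1140) (nat_lit 0) (XT.lf (nat_lit 0) (nat_lit 893303324) (nat_lit 1824) (nat_lit 1911922582) (nat_lit 76) (nat_lit 5194534093) (nat_lit 404) (nat_lit 5) (nat_lit 428) (nat_lit 5) (nat_lit 405) (nat_lit 5) (nat_lit 330) (nat_lit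 305) (nat_lit 265)) (XT.lf (nat_lit 0) (nat_lit 4107180473) (nat_lit 1216) (nat_lit 2786511066) (nat_lit 76) (nat_lit 1203702114) (nat_lit 389) (nat_lit 5) (nat_lit 405) (nat_lit 5) (nat_lit 390) (nat_lit 5) (nat_lit 331) (nat_lit 305) (nat_lit 264))) (XT.nd (nat_lit 78) (nat_lit 1748) (nat_lit 0) (XT.lf (nat_lit 0) (nat_lit 4541754049) (nat_lit 912) (nat_lit 2856400916) (nat_lit 988) (nat_lit 800218097) (nat_lit 377) (nat_lit 5) (nat_lit 389) (nat_lit 5) (nat_lit 390) (nat_lit 5) (nat_lit 332) (nat_lit 305) (nat_lit 263)) (XT.nd (nat_lit 78) (nat_lit 836) (nat_lit 0) (XT.lf (nat_lit 0) (nat_lit 2425991494) (nat_lit 912) (nat_lit 4529954375) (nat_lit 76) (nat_lit 1346679900) (nat_lit 365) (nat_lit 5) (nat_lit 377) (nat_lit 5) (nat_lit 366) (nat_lit 5) (nat_lit 333) (nat_lit 305) (nat_lit 262)) (XT.lf (nat_lit 0) (nat_lit 3002181123) (nat_lit 836) (nat_lit 2722046145) (nat_lit 912) (nat_lit 2685978826)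 (nat_lit 354) (nat_lit 5) (nat_lit 365) (nat_lit 5) (nat_lit 366) (nat_lit 5) (nat_lit 334) (nat_lit 305) (nat_lit 261))))))) (XT.nd (nat_lit 780) (nat_lit 5928) (nat_lit 0) (XT.nd (nat_lit 390) (nat_lit 3572) (nat_lit 0) (XT.nd (nat_lit 156) (nat_lit 1596) (nat_lit 0) (XT.nd (nat_lit 78) (nat_lit 836) (nat_lit 0) (XT.lf (nat_lit 0) (nat_lit 572729140) (nat_lit 912) (nat_lit 6282979676) (nat_lit 76) (nat_lit 1665649620) (nat_lit 342) (nat_lit 5) (nat_lit 354) (nat_lit 5) (nat_lit 343) (nat_lit 5) (nat_lit 335) (nat_lit 305) (nat_lit 260)) (XT.lf (nat_lit 0) (nat_lit 1457823062) (nat_lit 836) (nat_lit 2425104829) (nat_lit 912) (nat_lit 4752783873) (nat_lit 331) (nat_lit 5) (nat_lit 342) (nat_lit 5) (nat_lit 343) (nat_lit 5) (nat_lit 336) (nat_lit 305) (nat_lit 259))) (XT.nd (nat_lit 78) (nat_lit 836) (nat_lit 0) (XT.lf (nat_lit 0) (nat_lit 680802293) (nat_lit 760) (nat_lit 6599895766) (nat_lit 836)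 (nat_lit 1473057501) (nat_lit 321) (nat_lit 5) (nat_lit 331) (nat_lit 5) (nat_lit 332) (nat_lit 5) (nat_lit 337) (nat_lit 305) (nat_lit 258)) (XT.nd (nat_lit 78) (nat_lit 760) (nat_lit 0) (XT.lf (nat_lit 0) (nat_lit 1873486532) (nat_lit 836) (nat_lit 107648795) (nat_lit 76) (nat_lit 6894113708) (nat_lit 320) (nat_lit 5) (nat_lit 331) (nat_lit 5) (nat_lit 321) (nat_lit 5) (nat_lit 338) (nat_lit 305) (nat_lit 257)) (XT.lf (nat_lit 0) (nat_lit 5301955387) (nat_lit 836) (nat_lit 901335727) (nat_lit 76) (nat_lit 2796893898) (nat_lit 310) (nat_lit 5) (nat_lit 321) (nat_lit 5) (nat_lit 311) (nat_lit 5) (nat_lit 339) (nat_lit 305) (nat_lit 256))))) (XT.nd (nat_lit 156) (nat_lit 2052) (nat_lit 0) (XT.nd (nat_lit 78) (nat_lit 836) (nat_lit 0) (XT.lf (nat_lit 0) (nat_lit 7432660586) (nat_lit 684) (nat_lit 1394686348) (nat_lit 760) (nat_lit 301663351) (nat_lit 301) (nat_lit 5) (nat_lit 310) (nat_lit 5) (nat_lit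 311) (nat_lit 5) (nat_lit 340) (nat_lit 305) (nat_lit 255)) (XT.lf (nat_lit 0) (nat_lit 3161294831) (nat_lit 836) (nat_lit 2525281528) (nat_lit 76) (nat_lit 3574601914) (nat_lit 290) (nat_lit 5) (nat_lit 301) (nat_lit 5) (nat_lit 291) (nat_lit 5) (nat_lit 341) (nat_lit 305) (nat_lit 254))) (XT.nd (nat_lit 78) (nat_lit 1368) (nat_lit 0) (XT.lf (nat_lit 0) (nat_lit 6039570618) (nat_lit 684) (nat_lit 678891838) (nat_lit 760) (nat_lit 2678941457) (nat_lit 281) (nat_lit 5) (nat_lit 290) (nat_lit 5) (nat_lit 291) (nat_lit 5) (nat_lit 342) (nat_lit 305) (nat_lit 253)) (XT.nd (nat_lit 78) (nat_lit 608) (nat_lit 0) (XT.lf (nat_lit 0) (nat_lit 850164154) (nat_lit 760) (nat_lit 4219296433) (nat_lit 76) (nat_lit 4467833671) (nat_lit 271) (nat_lit 5) (nat_lit 281) (nat_lit 5) (nat_lit 272) (nat_lit 5) (nat_lit 343) (nat_lit 305) (nat_lit 252)) (XT.lf (nat_lit 0) (nat_lit 4443653420) (nat_lit 684) (nat_lit 5100567907)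 (nat_lit 76) (nat_lit 136926984) (nat_lit 263) (nat_lit 5) (nat_lit 272) (nat_lit 5) (nat_lit 264) (nat_lit 5) (nat_lit 344) (nat_lit 305) (nat_lit 251)))))) (XT.nd (nat_lit 390) (nat_lit 2736) (nat_lit 0) (XT.nd (nat_lit 156) (nat_lit 1824) (nat_lit 0) (XT.nd (nat_lit 78) (nat_lit 684) (nat_lit 0) (XT.lf (nat_lit 0) (nat_lit 3814310604) (nat_lit 684) (nat_lit 4355981465) (nat_lit 760) (nat_lit 1658537752) (nat_lit 254) (nat_lit 5) (nat_lit 263) (nat_lit 5) (nat_lit 264) (nat_lit 5) (nat_lit 345) (nat_lit 305) (nat_lit 250)) (XT.lf (nat_lit 0) (nat_lit 2001290448) (nat_lit 684) (nat_lit 6949651897) (nat_lit 76) (nat_lit 1029752000) (nat_lit 245) (nat_lit 5) (nat_lit 254) (nat_lit 5) (nat_lit 246) (nat_lit 5) (nat_lit 346) (nat_lit 305) (nat_lit 249))) (XT.nd (nat_lit 78) (nat_lit 1216) (nat_lit 0) (XT.lf (nat_lit 0) (nat_lit 2207850400) (nat_lit 608) (nat_lit 3565172962) (nat_lit 684) (nat_lit 4363396636)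 (nat_lit 237) (nat_lit 5) (nat_lit 245) (nat_lit 5) (nat_lit 246) (nat_lit 5) (nat_lit 347) (nat_lit 305) (nat_lit 248)) (XT.nd (nat_lit 78) (nat_lit 684) (nat_lit 0) (XT.lf (nat_lit 0) (nat_lit 1369613157) (nat_lit 532) (nat_lit 8298659967) (nat_lit 608) (nat_lit 628353801) (nat_lit 230) (nat_lit 5) (nat_lit 237) (nat_lit 5) (nat_lit 238) (nat_lit 5) (nat_lit 348) (nat_lit 305) (nat_lit 247)) (XT.lf (nat_lit 0) (nat_lit 481851136) (nat_lit 608) (nat_lit 2717764973) (nat_lit 684) (nat_lit 7261160180) (nat_lit 221) (nat_lit 5) (nat_lit 229) (nat_lit 5) (nat_lit 230) (nat_lit 5) (nat_lit 349) (nat_lit 305) (nat_lit 246))))) (XT.nd (nat_lit 234) (nat_lit 1596) (nat_lit 0) (XT.nd (nat_lit 78) (nat_lit 1140) (nat_lit 0) (XT.lf (nat_lit 0) (nat_lit 7157654016) (nat_lit 684) (nat_lit 431662893) (nat_lit 76) (nat_lit 3039990368) (nat_lit 221) (nat_lit 5) (nat_lit 230) (nat_lit 5) (nat_lit 222) (nat_lit 5)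 (nat_lit 350) (nat_lit 305) (nat_lit 245)) (XT.nd (nat_lit 78) (nat_lit 532) (nat_lit 0) (XT.lf (nat_lit 0) (nat_lit 450267102) (nat_lit 608) (nat_lit 1369558678) (nat_lit 76) (nat_lit 8982539401) (nat_lit 213) (nat_lit 5) (nat_lit 221) (nat_lit 5) (nat_lit 214) (nat_lit 5) (nat_lit 351) (nat_lit 305) (nat_lit 244)) (XT.lf (nat_lit 0) (nat_lit 4474754112) (nat_lit 608) (nat_lit 2370009504) (nat_lit 76) (nat_lit 4134765099) (nat_lit 206) (nat_lit 5) (nat_lit 214) (nat_lit 5) (nat_lit 207) (nat_lit 5) (nat_lit 352) (nat_lit 305) (nat_lit 243)))) (XT.nd (nat_lit 78) (nat_lit 1064) (nat_lit 0) (XT.lf (nat_lit 0) (nat_lit 7763327875) (nat_lit 532) (nat_lit 875164832) (nat_lit 608) (nat_lit 2523158042) (nat_lit 199) (nat_lit 5) (nat_lit 206) (nat_lit 5) (nat_lit 207) (nat_lit 5) (nat_lit 353) (nat_lit 305) (nat_lit 242)) (XT.nd (nat_lit 78) (nat_lit 456) (nat_lit 0) (XT.lf (nat_lit 0) (nat_lit 1600070954)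 (nat_lit 608) (nat_lit 4489934242) (nat_lit 76) (nat_lit 5258182442) (nat_lit 191) (nat_lit 5) (nat_lit 199) (nat_lit 5) (nat_lit 192) (nat_lit 5) (nat_lit 354) (nat_lit 305) (nat_lit 241)) (XT.lf (nat_lit 0) (nat_lit 5829195959) (nat_lit 532) (nat_lit 5626863345) (nat_lit 76) (nat_lit 83611065) (nat_lit 185) (nat_lit 5) (nat_lit 192) (nat_lit 5) (nat_lit 186) (nat_lit 5) (nat_lit 355) (nat_lit 305) (nat_lit 240))))))))
noncomputable def xc58 : XT := (XT.nd (nat_lit 1560) (nat_lit 2508) (nat_lit 0) (XT.nd (nat_lit 780) (nat_lit 3192) (nat_lit 0) (XT.nd (nat_lit 390) (nat_lit 1672) (nat_lit 0) (XT.nd (nat_lit 156) (nat_lit 1368) (nat_lit 0) (XT.nd (nat_lit 78) (nat_lit 532) (nat_lit 0) (XT.lf (nat_lit 0) (nat_lit 4905962924) (nat_lit 456) (nat_lit 5331678467) (nat_lit 532) (nat_lit 1498219756) (nat_lit 179) (nat_lit 5) (nat_lit 185) (nat_lit 5) (nat_lit 186) (nat_lit 5) (nat_lit 356) (nat_lit 305)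 (nat_lit 239)) (XT.lf (nat_lit 0) (nat_lit 2823255247) (nat_lit 532) (nat_lit 8087349433) (nat_lit 76) (nat_lit 1026573929) (nat_lit 172) (nat_lit 5) (nat_lit 179) (nat_lit 5) (nat_lit 173) (nat_lit 5) (nat_lit 357) (nat_lit 305) (nat_lit 238))) (XT.nd (nat_lit 78) (nat_lit 912) (nat_lit 0) (XT.lf (nat_lit 0) (nat_lit 2719996585) (nat_lit 456) (nat_lit 4584856776) (nat_lit 532) (nat_lit 4838479045) (nat_lit 166) (nat_lit 5) (nat_lit 172) (nat_lit 5) (nat_lit 173) (nat_lit 5) (nat_lit 358) (nat_lit 305) (nat_lit 237)) (XT.nd (nat_lit 78) (nat_lit 532) (nat_lit 0) (XT.lf (nat_lit 0) (nat_lit 1545825980) (nat_lit 380) (nat_lit 10404482265) (nat_lit 456) (nat_lit 404785611) (nat_lit 161) (nat_lit 5) (nat_lit 166) (nat_lit 5) (nat_lit 167) (nat_lit 5) (nat_lit 359) (nat_lit 305) (nat_lit 236)) (XT.lf (nat_lit 0) (nat_lit 277898654) (nat_lit 456) (nat_lit 3878492061) (nat_lit 532) (nat_lit 8415306542) (nat_lit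 154) (nat_lit 5) (nat_lit 160) (nat_lit 5) (nat_lit 161) (nat_lit 5) (nat_lit 360) (nat_lit 305) (nat_lit 235))))) (XT.nd (nat_lit 156) (nat_lit 1216) (nat_lit 0) (XT.nd (nat_lit 78) (nat_lit 456) (nat_lit 0) (XT.lf (nat_lit 0) (nat_lit 8894253531) (nat_lit 532) (nat_lit 1037800956) (nat_lit 76) (nat_lit 2861794112) (nat_lit 154) (nat_lit 5) (nat_lit 161) (nat_lit 5) (nat_lit 155) (nat_lit 5) (nat_lit 361) (nat_lit 305) (nat_lit 234)) (XT.lf (nat_lit 0) (nat_lit 791314766) (nat_lit 456) (nat_lit 2424361619) (nat_lit 76) (nat_lit 9805908679) (nat_lit 148) (nat_lit 5) (nat_lit 154) (nat_lit 5) (nat_lit 149) (nat_lit 5) (nat_lit 362) (nat_lit 305) (nat_lit 233))) (XT.nd (nat_lit 78) (nat_lit 836) (nat_lit 0) (XT.lf (nat_lit 0) (nat_lit 5617801404) (nat_lit 456) (nat_lit 3909433370) (nat_lit 76) (nat_lit 3727456305) (nat_lit 143) (nat_lit 5) (nat_lit 149) (nat_lit 5) (nat_lit 144) (nat_lit 5) (nat_lit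 363) (nat_lit 305) (nat_lit 232)) (XT.nd (nat_lit 78) (nat_lit 456) (nat_lit 0) (XT.lf (nat_lit 0) (nat_lit 8024648450) (nat_lit 380) (nat_lit 2610416129) (nat_lit 456) (nat_lit 2858815356) (nat_lit 138) (nat_lit 5) (nat_lit 143) (nat_lit 5) (nat_lit 144) (nat_lit 5) (nat_lit 364) (nat_lit 305) (nat_lit 231)) (XT.lf (nat_lit 0) (nat_lit 2091448494) (nat_lit 456) (nat_lit 7130320404) (nat_lit 76) (nat_lit 4517098601) (nat_lit 132) (nat_lit 5) (nat_lit 138) (nat_lit 5) (nat_lit 133) (nat_lit 5) (nat_lit 365) (nat_lit 305) (nat_lit 230)))))) (XT.nd (nat_lit 390) (nat_lit 1672) (nat_lit 0) (XT.nd (nat_lit 156) (nat_lit 760) (nat_lit 0) (XT.nd (nat_lit 78) (nat_lit 380) (nat_lit 0) (XT.lf (nat_lit 0) (nat_lit 5098241886) (nat_lit 380) (nat_lit 2098348846) (nat_lit 456) (nat_lit 6793340403) (nat_lit 127) (nat_lit 5) (nat_lit 132) (nat_lit 5) (nat_lit 133) (nat_lit 5) (nat_lit 366) (nat_lit 305) (nat_lit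 229)) (XT.lf (nat_lit 0) (nat_lit 3490631672) (nat_lit 380) (nat_lit 9027387436) (nat_lit 456) (nat_lit 1729253276) (nat_lit 122) (nat_lit 5) (nat_lit 127) (nat_lit 5) (nat_lit 128) (nat_lit 5) (nat_lit 367) (nat_lit 305) (nat_lit 228))) (XT.nd (nat_lit 78) (nat_lit 380) (nat_lit 0) (XT.lf (nat_lit 0) (nat_lit 1777211361) (nat_lit 304) (nat_lit 1708391090) (nat_lit 380) (nat_lit 11025395087) (nat_lit 117) (nat_lit 5) (nat_lit 121) (nat_lit 5) (nat_lit 122) (nat_lit 5) (nat_lit 368) (nat_lit 305) (nat_lit 227)) (XT.nd (nat_lit 78) (nat_lit 380) (nat_lit 0) (XT.lf (nat_lit 0) (nat_lit 8903782814) (nat_lit 380) (nat_lit 60432746) (nat_lit 76) (nat_lit 5816790534) (nat_lit 117) (nat_lit 5) (nat_lit 122) (nat_lit 5) (nat_lit 118) (nat_lit 5) (nat_lit 369) (nat_lit 305) (nat_lit 226)) (XT.lf (nat_lit 0) (nat_lit 13091576120) (nat_lit 380) (nat_lit 1449562582) (nat_lit 456) (nat_lit 516851086) (nat_lit 112)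 (nat_lit 5) (nat_lit 117) (nat_lit 5) (nat_lit 118) (nat_lit 5) (nat_lit 370) (nat_lit 305) (nat_lit 225))))) (XT.nd (nat_lit 156) (nat_lit 988) (nat_lit 0) (XT.nd (nat_lit 78) (nat_lit 304) (nat_lit 0) (XT.lf (nat_lit 0) (nat_lit 5014917999) (nat_lit 380) (nat_lit 4032623985) (nat_lit 76) (nat_lit 6293573937) (nat_lit 107) (nat_lit 5) (nat_lit 112) (nat_lit 5) (nat_lit 108) (nat_lit 5) (nat_lit 371) (nat_lit 305) (nat_lit 224)) (XT.lf (nat_lit 0) (nat_lit 9425484245) (nat_lit 304) (nat_lit 1325793405) (nat_lit 380) (nat_lit 4880483587) (nat_lit 103) (nat_lit 5) (nat_lit 107) (nat_lit 5) (nat_lit 108) (nat_lit 5) (nat_lit 372) (nat_lit 305) (nat_lit 223))) (XT.nd (nat_lit 78) (nat_lit 608) (nat_lit 0) (XT.lf (nat_lit 0) (nat_lit 800100815) (nat_lit 380) (nat_lit 8529540203) (nat_lit 76) (nat_lit 6599775779) (nat_lit 98) (nat_lit 5) (nat_lit 103) (nat_lit 5) (nat_lit 99) (nat_lit 5) (nat_lit 373) (nat_lit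 305) (nat_lit 222)) (XT.nd (nat_lit 78) (nat_lit 304) (nat_lit 0) (XT.lf (nat_lit 0) (nat_lit 5230683021) (nat_lit 304) (nat_lit 1402030641) (nat_lit 380) (nat_lit 9601691203) (nat_lit 94) (nat_lit 5) (nat_lit 98) (nat_lit 5) (nat_lit 99) (nat_lit 5) (nat_lit 374) (nat_lit 305) (nat_lit 221)) (XT.lf (nat_lit 0) (nat_lit 2907146237) (nat_lit 304) (nat_lit 9817073222) (nat_lit 380) (nat_lit 3822651030) (nat_lit 90) (nat_lit 5) (nat_lit 94) (nat_lit 5) (nat_lit 95) (nat_lit 5) (nat_lit 375) (nat_lit 305) (nat_lit 220))))))) (XT.nd (nat_lit 780) (nat_lit 228) (nat_lit 0) (XT.nd (nat_lit 390) (nat_lit 1064) (nat_lit 0) (XT.nd (nat_lit 156) (nat_lit 836) (nat_lit 0) (XT.nd (nat_lit 78) (nat_lit 0) (nat_lit 0) (XT.lf (nat_lit 0) (nat_lit 441546636) (nat_lit 304) (nat_lit 1710978908) (nat_lit 380) (nat_lit 14714899941) (nat_lit 85) (nat_lit 5) (nat_lit 89) (nat_lit 5) (nat_lit 90) (nat_lit 5) (nat_lit 376)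 (nat_lit 305) (nat_lit 219)) (XT.lf (nat_lit 0) (nat_lit 8355396040) (nat_lit 380) (nat_lit 2191971961) (nat_lit 76) (nat_lit 6647722041) (nat_lit 85) (nat_lit 5) (nat_lit 90) (nat_lit 5) (nat_lit 86) (nat_lit 5) (nat_lit 377) (nat_lit 305) (nat_lit 218))) (XT.nd (nat_lit 78) (nat_lit 608) (nat_lit 0) (XT.lf (nat_lit 0) (nat_lit 12565113860) (nat_lit 228) (nat_lit 2237250274) (nat_lit 304) (nat_lit 2729065741) (nat_lit 82) (nat_lit 5) (nat_lit 85) (nat_lit 5) (nat_lit 86) (nat_lit 5) (nat_lit 378) (nat_lit 305) (nat_lit 217)) (XT.nd (nat_lit 78) (nat_lit 228) (nat_lit 0) (XT.lf (nat_lit 0) (nat_lit 3604793653) (nat_lit 380) (nat_lit 7949969466) (nat_lit 76) (nat_lit 6320905844) (nat_lit 77) (nat_lit 5) (nat_lit 82) (nat_lit 5) (nat_lit 78) (nat_lit 5) (nat_lit 379) (nat_lit 305) (nat_lit 216)) (XT.lf (nat_lit 0) (nat_lit 7106309897) (nat_lit 228) (nat_lit 3046382692) (nat_lit 304) (nat_lit 8075964976)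 (nat_lit 74) (nat_lit 5) (nat_lit 77) (nat_lit 5) (nat_lit 78) (nat_lit 5) (nat_lit 380) (nat_lit 305) (nat_lit 215))))) (XT.nd (nat_lit 156) (nat_lit 532) (nat_lit 0) (XT.nd (nat_lit 78) (nat_lit 304) (nat_lit 0) (XT.lf (nat_lit 0) (nat_lit 4092166227) (nat_lit 228) (nat_lit 12889183112) (nat_lit 304) (nat_lit 1609205066) (nat_lit 71) (nat_lit 5) (nat_lit 74) (nat_lit 5) (nat_lit 75) (nat_lit 5) (nat_lit 381) (nat_lit 305) (nat_lit 214)) (XT.lf (nat_lit 0) (nat_lit 855606968) (nat_lit 228) (nat_lit 4198295182) (nat_lit 304) (nat_lit 13907382861) (nat_lit 67) (nat_lit 5) (nat_lit 70) (nat_lit 5) (nat_lit 71) (nat_lit 5) (nat_lit 382) (nat_lit 305) (nat_lit 213))) (XT.nd (nat_lit 78) (nat_lit 532) (nat_lit 0) (XT.lf (nat_lit 0) (nat_lit 11992193142) (nat_lit 304) (nat_lit 2569885115) (nat_lit 76) (nat_lit 4778908090) (nat_lit 67) (nat_lit 5) (nat_lit 71) (nat_lit 5) (nat_lit 68) (nat_lit 5) (nat_lit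 383) (nat_lit 305) (nat_lit 212)) (XT.nd (nat_lit 78) (nat_lit 304) (nat_lit 0) (XT.lf (nat_lit 0) (nat_lit 13527813912) (nat_lit 228) (nat_lit 5694950362) (nat_lit 304) (nat_lit 507636304) (nat_lit 64) (nat_lit 5) (nat_lit 67) (nat_lit 5) (nat_lit 68) (nat_lit 5) (nat_lit 384) (nat_lit 305) (nat_lit 211)) (XT.lf (nat_lit 0) (nat_lit 6527378934) (nat_lit 304) (nat_lit 10104009463) (nat_lit 76) (nat_lit 3497776414) (nat_lit 60) (nat_lit 5) (nat_lit 64) (nat_lit 5) (nat_lit 61) (nat_lit 5) (nat_lit 385) (nat_lit 305) (nat_lit 210)))))) (XT.nd (nat_lit 40950) (nat_lit 0) (nat_lit 42636) (XT.nd (nat_lit 40716) (nat_lit 0) (nat_lit 44308) (XT.nd (nat_lit 40638) (nat_lit 0) (nat_lit 45752) (XT.lf (nat_lit 0) (nat_lit 6273413443) (nat_lit 228) (nat_lit 7583332348) (nat_lit 304) (nat_lit 6681279253) (nat_lit 57) (nat_lit 5) (nat_lit 60) (nat_lit 5) (nat_lit 61) (nat_lit 5) (nat_lit 386) (nat_lit 305) (nat_lit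 209)) (XT.lf (nat_lit 0) (nat_lit 1744239964) (nat_lit 684) (nat_lit 777061778) (nat_lit 684) (nat_lit 777061778) (nat_lit 659) (nat_lit 3) (nat_lit 668) (nat_lit 3) (nat_lit 668) (nat_lit 5) (nat_lit 306) (nat_lit 306) (nat_lit 288))) (XT.nd (nat_lit 78) (nat_lit 760) (nat_lit 0) (XT.lf (nat_lit 0) (nat_lit 402746657) (nat_lit 684) (nat_lit 3371142701) (nat_lit 760) (nat_lit 2850001504) (nat_lit 650) (nat_lit 5) (nat_lit 659) (nat_lit 3) (nat_lit 660) (nat_lit 5) (nat_lit 307) (nat_lit 306) (nat_lit 287)) (XT.nd (nat_lit 78) (nat_lit 760) (nat_lit 0) (XT.lf (nat_lit 76) (nat_lit 1500345625) (nat_lit 0) (nat_lit 2360222320) (nat_lit 760) (nat_lit 2793289264) (nat_lit 651) (nat_lit 5) (nat_lit 650) (nat_lit 5) (nat_lit 660) (nat_lit 5) (nat_lit 308) (nat_lit 306) (nat_lit 286)) (XT.lf (nat_lit 0) (nat_lit 616442830) (nat_lit 760) (nat_lit 197684507) (nat_lit 836) (nat_lit 5872794741) (nat_lit 640)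 (nat_lit 5) (nat_lit 650) (nat_lit 5) (nat_lit 651) (nat_lit 5) (nat_lit 309) (nat_lit 306) (nat_lit 285))))) (XT.nd (nat_lit 234) (nat_lit 912) (nat_lit 0) (XT.nd (nat_lit 78) (nat_lit 836) (nat_lit 0) (XT.lf (nat_lit 0) (nat_lit 3997832986) (nat_lit 760) (nat_lit 1846749408) (nat_lit 836) (nat_lit 877948421) (nat_lit 641) (nat_lit 5) (nat_lit 651) (nat_lit 5) (nat_lit 652) (nat_lit 5) (nat_lit 310) (nat_lit 306) (nat_lit 284)) (XT.nd (nat_lit 78) (nat_lit 0) (nat_lit 0) (XT.lf (nat_lit 0) (nat_lit 612916568) (nat_lit 836) (nat_lit 3454656175) (nat_lit 912) (nat_lit 2693587214) (nat_lit 630) (nat_lit 5) (nat_lit 641) (nat_lit 5) (nat_lit 642) (nat_lit 5) (nat_lit 311) (nat_lit 306) (nat_lit 283)) (XT.lf (nat_lit 76) (nat_lit 1770991824) (nat_lit 0) (nat_lit 2142652877) (nat_lit 912) (nat_lit 2889005394) (nat_lit 631) (nat_lit 5) (nat_lit 630) (nat_lit 5) (nat_lit 642) (nat_lit 5) (nat_lit 312) (nat_lit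 306) (nat_lit 282)))) (XT.nd (nat_lit 78) (nat_lit 0) (nat_lit 76) (XT.lf (nat_lit 76) (nat_lit 282932394) (nat_lit 0) (nat_lit 82330915) (nat_lit 988) (nat_lit 6482052407) (nat_lit 619) (nat_lit 5) (nat_lit 618) (nat_lit 5) (nat_lit 631) (nat_lit 5) (nat_lit 313) (nat_lit 306) (nat_lit 281)) (XT.nd (nat_lit 78) (nat_lit 0) (nat_lit 0) (XT.lf (nat_lit 0) (nat_lit 3607077571) (nat_lit 912) (nat_lit 1174508559) (nat_lit 988) (nat_lit 2112827550) (nat_lit 619) (nat_lit 5) (nat_lit 631) (nat_lit 5) (nat_lit 632) (nat_lit 5) (nat_lit 314) (nat_lit 306) (nat_lit 280)) (XT.lf (nat_lit 76) (nat_lit 4360974315) (nat_lit 0) (nat_lit 2498870232) (nat_lit 988) (nat_lit 84862045) (nat_lit 620) (nat_lit 5) (nat_lit 619) (nat_lit 5) (nat_lit 632) (nat_lit 5) (nat_lit 315) (nat_lit 306) (nat_lit 279))))))))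
noncomputable def xc59 : XT := (XT.nd (nat_lit 1560) (nat_lit 12768) (nat_lit 0) (XT.nd (nat_lit 780) (nat_lit 12008) (nat_lit 0) (XT.nd (nat_lit 390) (nat_lit 5168) (nat_lit 0) (XT.nd (nat_lit 156) (nat_lit 2052) (nat_lit 0) (XT.nd (nat_lit 78) (nat_lit 0) (nat_lit 76) (XT.lf (nat_lit 76) (nat_lit 3027934750) (nat_lit 0) (nat_lit 58200307) (nat_lit 1064) (nat_lit 3911717268) (nat_lit 607) (nat_lit 5) (nat_lit 606) (nat_lit 5) (nat_lit 620) (nat_lit 5) (nat_lit 316) (nat_lit 306) (nat_lit 278)) (XT.lf (nat_lit 76) (nat_lit 1722613112) (nat_lit 0) (nat_lit 4563256303) (nat_lit 1064) (nat_lit 768068319) (nat_lit 608) (nat_lit 5) (nat_lit 607) (nat_lit 5) (nat_lit 621) (nat_lit 5) (nat_lit 317) (nat_lit 306) (nat_lit 277))) (XT.nd (nat_lit 78) (nat_lit 1064) (nat_lit 0) (XT.lf (nat_lit 76) (nat_lit 443601993) (nat_lit 0) (nat_lit 1916213744) (nat_lit 1140) (nat_lit 4753172108) (nat_lit 594) (nat_lit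 5) (nat_lit 593) (nat_lit 5) (nat_lit 608) (nat_lit 5) (nat_lit 318) (nat_lit 306) (nat_lit 276)) (XT.nd (nat_lit 78) (nat_lit 1140) (nat_lit 0) (XT.lf (nat_lit 0) (nat_lit 5507633370) (nat_lit 1064) (nat_lit 794826002) (nat_lit 76) (nat_lit 872565709) (nat_lit 594) (nat_lit 5) (nat_lit 608) (nat_lit 5) (nat_lit 595) (nat_lit 5) (nat_lit 319) (nat_lit 306) (nat_lit 275)) (XT.lf (nat_lit 0) (nat_lit 1435466999) (nat_lit 1140) (nat_lit 2011308741) (nat_lit 76) (nat_lit 3793110561) (nat_lit 579) (nat_lit 5) (nat_lit 594) (nat_lit 5) (nat_lit 580) (nat_lit 5) (nat_lit 320) (nat_lit 306) (nat_lit 274))))) (XT.nd (nat_lit 156) (nat_lit 2736) (nat_lit 0) (XT.nd (nat_lit 78) (nat_lit 1292) (nat_lit 0) (XT.lf (nat_lit 0) (nat_lit 4105811461) (nat_lit 1140) (nat_lit 434863016) (nat_lit 1216) (nat_lit 2767204300) (nat_lit 564) (nat_lit 5) (nat_lit 579) (nat_lit 5) (nat_lit 580) (nat_lit 5) (nat_lit 321) (nat_lit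 306) (nat_lit 273)) (XT.lf (nat_lit 0) (nat_lit 308896526) (nat_lit 1292) (nat_lit 4377401720) (nat_lit 76) (nat_lit 2692557823) (nat_lit 547) (nat_lit 5) (nat_lit 564) (nat_lit 5) (nat_lit 548) (nat_lit 5) (nat_lit 322) (nat_lit 306) (nat_lit 272))) (XT.nd (nat_lit 78) (nat_lit 1444) (nat_lit 0) (XT.lf (nat_lit 0) (nat_lit 1912005658) (nat_lit 1292) (nat_lit 1469073744) (nat_lit 1368) (nat_lit 4071730387) (nat_lit 530) (nat_lit 5) (nat_lit 547) (nat_lit 5) (nat_lit 548) (nat_lit 5) (nat_lit 323) (nat_lit 306) (nat_lit 271)) (XT.nd (nat_lit 78) (nat_lit 76) (nat_lit 0) (XT.lf (nat_lit 0) (nat_lit 844807243) (nat_lit 1368) (nat_lit 5654404617) (nat_lit 1444) (nat_lit 1030734211) (nat_lit 512) (nat_lit 5) (nat_lit 530) (nat_lit 5) (nat_lit 531) (nat_lit 5) (nat_lit 324) (nat_lit 306) (nat_lit 270)) (XT.lf (nat_lit 0) (nat_lit 2029610899) (nat_lit 1444) (nat_lit 210287704) (nat_lit 76) (nat_lit 5370149069)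 (nat_lit 511) (nat_lit 5) (nat_lit 530) (nat_lit 5) (nat_lit 512) (nat_lit 5) (nat_lit 325) (nat_lit 306) (nat_lit 269)))))) (XT.nd (nat_lit 390) (nat_lit 3876) (nat_lit 0) (XT.nd (nat_lit 156) (nat_lit 5092) (nat_lit 0) (XT.nd (nat_lit 78) (nat_lit 1596) (nat_lit 0) (XT.lf (nat_lit 0) (nat_lit 5129261549) (nat_lit 1520) (nat_lit 1238981705) (nat_lit 76) (nat_lit 1324979453) (nat_lit 492) (nat_lit 5) (nat_lit 512) (nat_lit 5) (nat_lit 493) (nat_lit 5) (nat_lit 326) (nat_lit 306) (nat_lit 268)) (XT.lf (nat_lit 0) (nat_lit 500878861) (nat_lit 1596) (nat_lit 2256943284) (nat_lit 76) (nat_lit 5021735362) (nat_lit 471) (nat_lit 5) (nat_lit 492) (nat_lit 5) (nat_lit 472) (nat_lit 5) (nat_lit 327) (nat_lit 306) (nat_lit 267))) (XT.nd (nat_lit 78) (nat_lit 3496) (nat_lit 0) (XT.lf (nat_lit 0) (nat_lit 3582485903) (nat_lit 1672) (nat_lit 3271101949) (nat_lit 76) (nat_lit 1015396271) (nat_lit 450) (nat_lit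 5) (nat_lit 472) (nat_lit 5) (nat_lit 451) (nat_lit 5) (nat_lit 328) (nat_lit 306) (nat_lit 266)) (XT.nd (nat_lit 78) (nat_lit 1824) (nat_lit 0) (XT.lf (nat_lit 0) (nat_lit 3683458141) (nat_lit 1672) (nat_lit 3047352414) (nat_lit 1748) (nat_lit 1230830454) (nat_lit 428) (nat_lit 5) (nat_lit 450) (nat_lit 5) (nat_lit 451) (nat_lit 5) (nat_lit 329) (nat_lit 306) (nat_lit 265)) (XT.lf (nat_lit 0) (nat_lit 1855726062) (nat_lit 1824) (nat_lit 5279716119) (nat_lit 76) (nat_lit 922130753) (nat_lit 404) (nat_lit 5) (nat_lit 428) (nat_lit 5) (nat_lit 405) (nat_lit 5) (nat_lit 330) (nat_lit 306) (nat_lit 264))))) (XT.nd (nat_lit 156) (nat_lit 1824) (nat_lit 0) (XT.nd (nat_lit 78) (nat_lit 912) (nat_lit 0) (XT.lf (nat_lit 0) (nat_lit 1868903244) (nat_lit 1140) (nat_lit 3130901364) (nat_lit 1216) (nat_lit 3156812911) (nat_lit 389) (nat_lit 5) (nat_lit 404) (nat_lit 5) (nat_lit 405) (nat_lit 5) (nat_lit 331) (nat_lit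 306) (nat_lit 263)) (XT.lf (nat_lit 0) (nat_lit 976910718) (nat_lit 912) (nat_lit 7231843141) (nat_lit 988) (nat_lit 50498097) (nat_lit 377) (nat_lit 5) (nat_lit 389) (nat_lit 5) (nat_lit 390) (nat_lit 5) (nat_lit 332) (nat_lit 306) (nat_lit 262))) (XT.nd (nat_lit 78) (nat_lit 912) (nat_lit 0) (XT.lf (nat_lit 0) (nat_lit 65247786) (nat_lit 836) (nat_lit 3029711315) (nat_lit 912) (nat_lit 5269880425) (nat_lit 365) (nat_lit 5) (nat_lit 376) (nat_lit 5) (nat_lit 377) (nat_lit 5) (nat_lit 333) (nat_lit 306) (nat_lit 261)) (XT.nd (nat_lit 78) (nat_lit 912) (nat_lit 0) (XT.lf (nat_lit 0) (nat_lit 6316972706) (nat_lit 912) (nat_lit 824443867) (nat_lit 76) (nat_lit 1332541144) (nat_lit 365) (nat_lit 5) (nat_lit 377) (nat_lit 5) (nat_lit 366) (nat_lit 5) (nat_lit 334) (nat_lit 306) (nat_lit 260)) (XT.lf (nat_lit 0) (nat_lit 1027290789) (nat_lit 912) (nat_lit 1721964293) (nat_lit 76) (nat_lit 5837148945) (nat_lit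 353) (nat_lit 5) (nat_lit 365) (nat_lit 5) (nat_lit 354) (nat_lit 5) (nat_lit 335) (nat_lit 306) (nat_lit 259))))))) (XT.nd (nat_lit 780) (nat_lit 5928) (nat_lit 0) (XT.nd (nat_lit 390) (nat_lit 2888) (nat_lit 0) (XT.nd (nat_lit 156) (nat_lit 2280) (nat_lit 0) (XT.nd (nat_lit 78) (nat_lit 836) (nat_lit 0) (XT.lf (nat_lit 0) (nat_lit 4263118833) (nat_lit 912) (nat_lit 2629163829) (nat_lit 76) (nat_lit 1809974511) (nat_lit 342) (nat_lit 5) (nat_lit 354) (nat_lit 5) (nat_lit 343) (nat_lit 5) (nat_lit 336) (nat_lit 306) (nat_lit 258)) (XT.lf (nat_lit 0) (nat_lit 5281526153) (nat_lit 836) (nat_lit 2308652819) (nat_lit 912) (nat_lit 1231548238) (nat_lit 331) (nat_lit 5) (nat_lit 342) (nat_lit 5) (nat_lit 343) (nat_lit 5) (nat_lit 337) (nat_lit 306) (nat_lit 257))) (XT.nd (nat_lit 78) (nat_lit 1444) (nat_lit 0) (XT.lf (nat_lit 0) (nat_lit 2039069834) (nat_lit 836) (nat_lit 4467807781) (nat_lit 76) (nat_lit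 2437778343) (nat_lit 320) (nat_lit 5) (nat_lit 331) (nat_lit 5) (nat_lit 321) (nat_lit 5) (nat_lit 338) (nat_lit 306) (nat_lit 256)) (XT.nd (nat_lit 78) (nat_lit 684) (nat_lit 0) (XT.lf (nat_lit 0) (nat_lit 3662872719) (nat_lit 760) (nat_lit 1724017746) (nat_lit 836) (nat_lit 3684325562) (nat_lit 310) (nat_lit 5) (nat_lit 320) (nat_lit 5) (nat_lit 321) (nat_lit 5) (nat_lit 339) (nat_lit 306) (nat_lit 255)) (XT.lf (nat_lit 0) (nat_lit 2840400316) (nat_lit 684) (nat_lit 5998268014) (nat_lit 760) (nat_lit 362856048) (nat_lit 301) (nat_lit 5) (nat_lit 310) (nat_lit 5) (nat_lit 311) (nat_lit 5) (nat_lit 340) (nat_lit 306) (nat_lit 254))))) (XT.nd (nat_lit 156) (nat_lit 1368) (nat_lit 0) (XT.nd (nat_lit 78) (nat_lit 684) (nat_lit 0) (XT.lf (nat_lit 0) (nat_lit 1996973496) (nat_lit 760) (nat_lit 1017382666) (nat_lit 836) (nat_lit 6321085403) (nat_lit 290) (nat_lit 5) (nat_lit 300) (nat_lit 5) (nat_lit 301)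 (nat_lit 5) (nat_lit 341) (nat_lit 306) (nat_lit 253)) (XT.lf (nat_lit 0) (nat_lit 1132539381) (nat_lit 684) (nat_lit 5369090059) (nat_lit 760) (nat_lit 2971445636) (nat_lit 281) (nat_lit 5) (nat_lit 290) (nat_lit 5) (nat_lit 291) (nat_lit 5) (nat_lit 342) (nat_lit 306) (nat_lit 252))) (XT.nd (nat_lit 78) (nat_lit 608) (nat_lit 0) (XT.lf (nat_lit 0) (nat_lit 264577384) (nat_lit 684) (nat_lit 203562951) (nat_lit 760) (nat_lit 9146739688) (nat_lit 271) (nat_lit 5) (nat_lit 280) (nat_lit 5) (nat_lit 281) (nat_lit 5) (nat_lit 343) (nat_lit 306) (nat_lit 251)) (XT.nd (nat_lit 78) (nat_lit 608) (nat_lit 0) (XT.lf (nat_lit 0) (nat_lit 3999342869) (nat_lit 760) (nat_lit 644200595) (nat_lit 76) (nat_lit 5116445573) (nat_lit 271) (nat_lit 5) (nat_lit 281) (nat_lit 5) (nat_lit 272) (nat_lit 5) (nat_lit 344) (nat_lit 306) (nat_lit 250)) (XT.lf (nat_lit 0) (nat_lit 7637099875) (nat_lit 684) (nat_lit 1553715910)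 (nat_lit 76) (nat_lit 718641352) (nat_lit 263) (nat_lit 5) (nat_lit 272) (nat_lit 5) (nat_lit 264) (nat_lit 5) (nat_lit 345) (nat_lit 306) (nat_lit 249)))))) (XT.nd (nat_lit 390) (nat_lit 2736) (nat_lit 0) (XT.nd (nat_lit 156) (nat_lit 1824) (nat_lit 0) (XT.nd (nat_lit 78) (nat_lit 608) (nat_lit 0) (XT.lf (nat_lit 0) (nat_lit 1329465924) (nat_lit 760) (nat_lit 2503069443) (nat_lit 76) (nat_lit 6230195635) (nat_lit 253) (nat_lit 5) (nat_lit 263) (nat_lit 5) (nat_lit 254) (nat_lit 5) (nat_lit 346) (nat_lit 306) (nat_lit 248)) (XT.lf (nat_lit 0) (nat_lit 5016719275) (nat_lit 684) (nat_lit 3481540672) (nat_lit 76) (nat_lit 1721894576) (nat_lit 245) (nat_lit 5) (nat_lit 254) (nat_lit 5) (nat_lit 246) (nat_lit 5) (nat_lit 347) (nat_lit 306) (nat_lit 247))) (XT.nd (nat_lit 78) (nat_lit 1216) (nat_lit 0) (XT.lf (nat_lit 0) (nat_lit 5891038214) (nat_lit 608) (nat_lit 2947970292) (nat_lit 684) (nat_lit 1542820192)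 (nat_lit 237) (nat_lit 5) (nat_lit 245) (nat_lit 5) (nat_lit 246) (nat_lit 5) (nat_lit 348) (nat_lit 306) (nat_lit 246)) (XT.nd (nat_lit 78) (nat_lit 608) (nat_lit 0) (XT.lf (nat_lit 0) (nat_lit 2217412765) (nat_lit 608) (nat_lit 5540499582) (nat_lit 76) (nat_lit 2789786717) (nat_lit 229) (nat_lit 5) (nat_lit 237) (nat_lit 5) (nat_lit 230) (nat_lit 5) (nat_lit 349) (nat_lit 306) (nat_lit 245)) (XT.lf (nat_lit 0) (nat_lit 4087210288) (nat_lit 608) (nat_lit 2004649588) (nat_lit 684) (nat_lit 4626049420) (nat_lit 221) (nat_lit 5) (nat_lit 229) (nat_lit 5) (nat_lit 230) (nat_lit 5) (nat_lit 350) (nat_lit 306) (nat_lit 244))))) (XT.nd (nat_lit 234) (nat_lit 1064) (nat_lit 0) (XT.nd (nat_lit 78) (nat_lit 1140) (nat_lit 0) (XT.lf (nat_lit 0) (nat_lit 3132818892) (nat_lit 532) (nat_lit 6979725149) (nat_lit 608) (nat_lit 780096358) (nat_lit 214) (nat_lit 5) (nat_lit 221) (nat_lit 5) (nat_lit 222) (nat_lit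 5) (nat_lit 351) (nat_lit 306) (nat_lit 243)) (XT.nd (nat_lit 78) (nat_lit 532) (nat_lit 0) (XT.lf (nat_lit 0) (nat_lit 2132639058) (nat_lit 532) (nat_lit 1026521169) (nat_lit 608) (nat_lit 7912661098) (nat_lit 206) (nat_lit 5) (nat_lit 213) (nat_lit 5) (nat_lit 214) (nat_lit 5) (nat_lit 352) (nat_lit 306) (nat_lit 242)) (XT.lf (nat_lit 0) (nat_lit 1079125730) (nat_lit 532) (nat_lit 6168170863) (nat_lit 608) (nat_lit 4008165474) (nat_lit 199) (nat_lit 5) (nat_lit 206) (nat_lit 5) (nat_lit 207) (nat_lit 5) (nat_lit 353) (nat_lit 306) (nat_lit 241)))) (XT.nd (nat_lit 78) (nat_lit 456) (nat_lit 0) (XT.lf (nat_lit 0) (nat_lit 950561) (nat_lit 532) (nat_lit 29059909) (nat_lit 608) (nat_lit 11414278245) (nat_lit 191) (nat_lit 5) (nat_lit 198) (nat_lit 5) (nat_lit 199) (nat_lit 5) (nat_lit 354) (nat_lit 306) (nat_lit 240)) (XT.nd (nat_lit 78) (nat_lit 456) (nat_lit 0) (XT.lf (nat_lit 0) (nat_lit 4195280253)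 (nat_lit 608) (nat_lit 1151115665) (nat_lit 76) (nat_lit 6290658789) (nat_lit 191) (nat_lit 5) (nat_lit 199) (nat_lit 5) (nat_lit 192) (nat_lit 5) (nat_lit 355) (nat_lit 306) (nat_lit 239)) (XT.lf (nat_lit 0) (nat_lit 8505260970) (nat_lit 532) (nat_lit 2333972294) (nat_lit 76) (nat_lit 995987494) (nat_lit 185) (nat_lit 5) (nat_lit 192) (nat_lit 5) (nat_lit 186) (nat_lit 5) (nat_lit 356) (nat_lit 306) (nat_lit 238))))))))
noncomputable def xc60 : XT := (XT.nd (nat_lit 1560) (nat_lit 2280) (nat_lit 0) (XT.nd (nat_lit 780) (nat_lit 3192) (nat_lit 0) (XT.nd (nat_lit 390) (nat_lit 1672) (nat_lit 0) (XT.nd (nat_lit 156) (nat_lit 1368) (nat_lit 0) (XT.nd (nat_lit 78) (nat_lit 456) (nat_lit 0) (XT.lf (nat_lit 0) (nat_lit 944340811) (nat_lit 532) (nat_lit 3585865910) (nat_lit 76) (nat_lit 7507999007) (nat_lit 178) (nat_lit 5) (nat_lit 185) (nat_lit 5) (nat_lit 179) (nat_lit 5) (nat_lit 357) (nat_lit 306) (nat_lit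 237)) (XT.lf (nat_lit 0) (nat_lit 5331594689) (nat_lit 532) (nat_lit 4904205782) (nat_lit 76) (nat_lit 2010451463) (nat_lit 172) (nat_lit 5) (nat_lit 179) (nat_lit 5) (nat_lit 173) (nat_lit 5) (nat_lit 358) (nat_lit 306) (nat_lit 236))) (XT.nd (nat_lit 78) (nat_lit 912) (nat_lit 0) (XT.lf (nat_lit 0) (nat_lit 6171781663) (nat_lit 456) (nat_lit 3727149053) (nat_lit 532) (nat_lit 2560650409) (nat_lit 166) (nat_lit 5) (nat_lit 172) (nat_lit 5) (nat_lit 173) (nat_lit 5) (nat_lit 359) (nat_lit 306) (nat_lit 235)) (XT.nd (nat_lit 78) (nat_lit 456) (nat_lit 0) (XT.lf (nat_lit 0) (nat_lit 1938348943) (nat_lit 456) (nat_lit 7742662591) (nat_lit 76) (nat_lit 2997267074) (nat_lit 160) (nat_lit 5) (nat_lit 166) (nat_lit 5) (nat_lit 161) (nat_lit 5) (nat_lit 360) (nat_lit 306) (nat_lit 234)) (XT.lf (nat_lit 0) (nat_lit 3619442819) (nat_lit 456) (nat_lit 2964649963) (nat_lit 532) (nat_lit 6318184503) (nat_lit 154)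 (nat_lit 5) (nat_lit 160) (nat_lit 5) (nat_lit 161) (nat_lit 5) (nat_lit 361) (nat_lit 306) (nat_lit 233))))) (XT.nd (nat_lit 156) (nat_lit 836) (nat_lit 0) (XT.nd (nat_lit 78) (nat_lit 456) (nat_lit 0) (XT.lf (nat_lit 0) (nat_lit 2235224437) (nat_lit 380) (nat_lit 9182795537) (nat_lit 456) (nat_lit 1714009497) (nat_lit 149) (nat_lit 5) (nat_lit 154) (nat_lit 5) (nat_lit 155) (nat_lit 5) (nat_lit 362) (nat_lit 306) (nat_lit 232)) (XT.lf (nat_lit 0) (nat_lit 764530440) (nat_lit 380) (nat_lit 2268549547) (nat_lit 456) (nat_lit 10334320184) (nat_lit 143) (nat_lit 5) (nat_lit 148) (nat_lit 5) (nat_lit 149) (nat_lit 5) (nat_lit 363) (nat_lit 306) (nat_lit 231))) (XT.nd (nat_lit 78) (nat_lit 836) (nat_lit 0) (XT.lf (nat_lit 0) (nat_lit 7962392281) (nat_lit 456) (nat_lit 790712059) (nat_lit 76) (nat_lit 4855248152) (nat_lit 143) (nat_lit 5) (nat_lit 149) (nat_lit 5) (nat_lit 144) (nat_lit 5) (nat_lit 364)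 (nat_lit 306) (nat_lit 230)) (XT.nd (nat_lit 78) (nat_lit 456) (nat_lit 0) (XT.lf (nat_lit 0) (nat_lit 11448891890) (nat_lit 380) (nat_lit 1638570584) (nat_lit 456) (nat_lit 768122102) (nat_lit 138) (nat_lit 5) (nat_lit 143) (nat_lit 5) (nat_lit 144) (nat_lit 5) (nat_lit 365) (nat_lit 306) (nat_lit 229)) (XT.lf (nat_lit 0) (nat_lit 4266910123) (nat_lit 456) (nat_lit 4148169656) (nat_lit 76) (nat_lit 5693275967) (nat_lit 132) (nat_lit 5) (nat_lit 138) (nat_lit 5) (nat_lit 133) (nat_lit 5) (nat_lit 366) (nat_lit 306) (nat_lit 228)))))) (XT.nd (nat_lit 390) (nat_lit 1292) (nat_lit 0) (XT.nd (nat_lit 156) (nat_lit 1064) (nat_lit 0) (XT.nd (nat_lit 78) (nat_lit 456) (nat_lit 0) (XT.lf (nat_lit 0) (nat_lit 8395397220) (nat_lit 380) (nat_lit 1088688212) (nat_lit 456) (nat_lit 4883700617) (nat_lit 127) (nat_lit 5) (nat_lit 132) (nat_lit 5) (nat_lit 133) (nat_lit 5) (nat_lit 367) (nat_lit 306) (nat_lit 227))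 (XT.lf (nat_lit 0) (nat_lit 294448036) (nat_lit 456) (nat_lit 7912601373) (nat_lit 76) (nat_lit 6426436771) (nat_lit 121) (nat_lit 5) (nat_lit 127) (nat_lit 5) (nat_lit 122) (nat_lit 5) (nat_lit 368) (nat_lit 306) (nat_lit 226))) (XT.nd (nat_lit 78) (nat_lit 760) (nat_lit 0) (XT.lf (nat_lit 0) (nat_lit 4934513026) (nat_lit 304) (nat_lit 668256319) (nat_lit 380) (nat_lit 9302926257) (nat_lit 117) (nat_lit 5) (nat_lit 121) (nat_lit 5) (nat_lit 122) (nat_lit 5) (nat_lit 369) (nat_lit 306) (nat_lit 225)) (XT.nd (nat_lit 78) (nat_lit 380) (nat_lit 0) (XT.lf (nat_lit 0) (nat_lit 3023555523) (nat_lit 380) (nat_lit 8127830758) (nat_lit 456) (nat_lit 4033071376) (nat_lit 112) (nat_lit 5) (nat_lit 117) (nat_lit 5) (nat_lit 118) (nat_lit 5) (nat_lit 370) (nat_lit 306) (nat_lit 224)) (XT.lf (nat_lit 0) (nat_lit 1014161280) (nat_lit 304) (nat_lit 403341880) (nat_lit 380) (nat_lit 14053086837) (nat_lit 107) (nat_lit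 5) (nat_lit 111) (nat_lit 5) (nat_lit 112) (nat_lit 5) (nat_lit 371) (nat_lit 306) (nat_lit 223))))) (XT.nd (nat_lit 156) (nat_lit 988) (nat_lit 0) (XT.nd (nat_lit 78) (nat_lit 304) (nat_lit 0) (XT.lf (nat_lit 0) (nat_lit 7071546333) (nat_lit 380) (nat_lit 1148486039) (nat_lit 76) (nat_lit 7542852579) (nat_lit 107) (nat_lit 5) (nat_lit 112) (nat_lit 5) (nat_lit 108) (nat_lit 5) (nat_lit 372) (nat_lit 306) (nat_lit 222)) (XT.lf (nat_lit 0) (nat_lit 12664610990) (nat_lit 304) (nat_lit 279060619) (nat_lit 380) (nat_lit 3119314447) (nat_lit 103) (nat_lit 5) (nat_lit 107) (nat_lit 5) (nat_lit 108) (nat_lit 5) (nat_lit 373) (nat_lit 306) (nat_lit 221))) (XT.nd (nat_lit 78) (nat_lit 608) (nat_lit 0) (XT.lf (nat_lit 0) (nat_lit 2677936925) (nat_lit 380) (nat_lit 5821900170) (nat_lit 76) (nat_lit 7870070576) (nat_lit 98) (nat_lit 5) (nat_lit 103) (nat_lit 5) (nat_lit 99) (nat_lit 5) (nat_lit 374) (nat_lit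 306) (nat_lit 220)) (XT.nd (nat_lit 78) (nat_lit 304) (nat_lit 0) (XT.lf (nat_lit 0) (nat_lit 8303050058) (nat_lit 304) (nat_lit 347411973) (nat_lit 380) (nat_lit 8034293846) (nat_lit 94) (nat_lit 5) (nat_lit 98) (nat_lit 5) (nat_lit 99) (nat_lit 5) (nat_lit 375) (nat_lit 306) (nat_lit 219)) (XT.lf (nat_lit 0) (nat_lit 5891588688) (nat_lit 304) (nat_lit 9005874227) (nat_lit 380) (nat_lit 2109686464) (nat_lit 90) (nat_lit 5) (nat_lit 94) (nat_lit 5) (nat_lit 95) (nat_lit 5) (nat_lit 376) (nat_lit 306) (nat_lit 218))))))) (XT.nd (nat_lit 41418) (nat_lit 0) (nat_lit 40432) (XT.nd (nat_lit 390) (nat_lit 1064) (nat_lit 0) (XT.nd (nat_lit 156) (nat_lit 608) (nat_lit 0) (XT.nd (nat_lit 78) (nat_lit 228) (nat_lit 0) (XT.lf (nat_lit 0) (nat_lit 3328884358) (nat_lit 304) (nat_lit 658017476) (nat_lit 380) (nat_lit 13350867817) (nat_lit 85) (nat_lit 5) (nat_lit 89) (nat_lit 5) (nat_lit 90) (nat_lit 5) (nat_lit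 377) (nat_lit 306) (nat_lit 217)) (XT.lf (nat_lit 0) (nat_lit 567773716) (nat_lit 228) (nat_lit 9767184464) (nat_lit 304) (nat_lit 7341132201) (nat_lit 82) (nat_lit 5) (nat_lit 85) (nat_lit 5) (nat_lit 86) (nat_lit 5) (nat_lit 378) (nat_lit 306) (nat_lit 216))) (XT.nd (nat_lit 78) (nat_lit 608) (nat_lit 0) (XT.lf (nat_lit 0) (nat_lit 15714406008) (nat_lit 228) (nat_lit 1224993858) (nat_lit 304) (nat_lit 1083847242) (nat_lit 82) (nat_lit 5) (nat_lit 85) (nat_lit 5) (nat_lit 86) (nat_lit 5) (nat_lit 379) (nat_lit 306) (nat_lit 215)) (XT.nd (nat_lit 78) (nat_lit 228) (nat_lit 0) (XT.lf (nat_lit 0) (nat_lit 5392581382) (nat_lit 380) (nat_lit 5411854898) (nat_lit 76) (nat_lit 7573656335) (nat_lit 77) (nat_lit 5) (nat_lit 82) (nat_lit 5) (nat_lit 78) (nat_lit 5) (nat_lit 380) (nat_lit 306) (nat_lit 214)) (XT.lf (nat_lit 0) (nat_lit 10051065588) (nat_lit 228) (nat_lit 2054665172) (nat_lit 304) (nat_lit 6636571231)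 (nat_lit 74) (nat_lit 5) (nat_lit 77) (nat_lit 5) (nat_lit 78) (nat_lit 5) (nat_lit 381) (nat_lit 306) (nat_lit 213))))) (XT.nd (nat_lit 156) (nat_lit 532) (nat_lit 0) (XT.nd (nat_lit 78) (nat_lit 228) (nat_lit 0) (XT.lf (nat_lit 0) (nat_lit 139789) (nat_lit 304) (nat_lit 12187595812) (nat_lit 76) (nat_lit 6927798710) (nat_lit 70) (nat_lit 5) (nat_lit 74) (nat_lit 5) (nat_lit 71) (nat_lit 5) (nat_lit 382) (nat_lit 306) (nat_lit 212)) (XT.lf (nat_lit 0) (nat_lit 3571885878) (nat_lit 228) (nat_lit 3239338336) (nat_lit 304) (nat_lit 12686557773) (nat_lit 67) (nat_lit 5) (nat_lit 70) (nat_lit 5) (nat_lit 71) (nat_lit 5) (nat_lit 383) (nat_lit 306) (nat_lit 211))) (XT.nd (nat_lit 78) (nat_lit 532) (nat_lit 0) (XT.lf (nat_lit 0) (nat_lit 13917734594) (nat_lit 304) (nat_lit 10177448) (nat_lit 76) (nat_lit 5961767535) (nat_lit 67) (nat_lit 5) (nat_lit 71) (nat_lit 5) (nat_lit 68) (nat_lit 5) (nat_lit 384)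 (nat_lit 306) (nat_lit 210)) (XT.nd (nat_lit 78) (nat_lit 228) (nat_lit 0) (XT.lf (nat_lit 0) (nat_lit 1031395248) (nat_lit 304) (nat_lit 3770469888) (nat_lit 76) (nat_lit 15489357080) (nat_lit 63) (nat_lit 5) (nat_lit 67) (nat_lit 5) (nat_lit 64) (nat_lit 5) (nat_lit 385) (nat_lit 306) (nat_lit 209)) (XT.lf (nat_lit 0) (nat_lit 8249074057) (nat_lit 304) (nat_lit 7811006391) (nat_lit 76) (nat_lit 4642237743) (nat_lit 60) (nat_lit 5) (nat_lit 64) (nat_lit 5) (nat_lit 61) (nat_lit 5) (nat_lit 386) (nat_lit 306) (nat_lit 208)))))) (XT.nd (nat_lit 390) (nat_lit 2812) (nat_lit 0) (XT.nd (nat_lit 156) (nat_lit 760) (nat_lit 0) (XT.nd (nat_lit 78) (nat_lit 836) (nat_lit 0) (XT.lf (nat_lit 0) (nat_lit 947038733) (nat_lit 0) (nat_lit 947038733) (nat_lit 684) (nat_lit 1432114263) (nat_lit 650) (nat_lit 5) (nat_lit 650) (nat_lit 3) (nat_lit 659) (nat_lit 3) (nat_lit 307) (nat_lit 307) (nat_lit 286)) (XT.lf (nat_lit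 76) (nat_lit 66532252) (nat_lit 0) (nat_lit 404696496) (nat_lit 836) (nat_lit 6212782236) (nat_lit 640) (nat_lit 5) (nat_lit 639) (nat_lit 3) (nat_lit 650) (nat_lit 5) (nat_lit 308) (nat_lit 307) (nat_lit 285))) (XT.nd (nat_lit 78) (nat_lit 836) (nat_lit 0) (XT.lf (nat_lit 0) (nat_lit 3777476424) (nat_lit 760) (nat_lit 1711883400) (nat_lit 836) (nat_lit 1228723567) (nat_lit 640) (nat_lit 5) (nat_lit 650) (nat_lit 5) (nat_lit 651) (nat_lit 5) (nat_lit 309) (nat_lit 307) (nat_lit 284)) (XT.nd (nat_lit 78) (nat_lit 0) (nat_lit 0) (XT.lf (nat_lit 0) (nat_lit 320998614) (nat_lit 836) (nat_lit 3444211445) (nat_lit 912) (nat_lit 2990038349) (nat_lit 629) (nat_lit 5) (nat_lit 640) (nat_lit 5) (nat_lit 641) (nat_lit 5) (nat_lit 310) (nat_lit 307) (nat_lit 283)) (XT.lf (nat_lit 76) (nat_lit 1647609646) (nat_lit 0) (nat_lit 1891289389) (nat_lit 912) (nat_lit 3256335021) (nat_lit 630) (nat_lit 5) (nat_lit 629)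 (nat_lit 5) (nat_lit 641) (nat_lit 5) (nat_lit 311) (nat_lit 307) (nat_lit 282))))) (XT.nd (nat_lit 234) (nat_lit 1976) (nat_lit 0) (XT.nd (nat_lit 78) (nat_lit 912) (nat_lit 0) (XT.lf (nat_lit 76) (nat_lit 32655202) (nat_lit 0) (nat_lit 6723956395) (nat_lit 912) (nat_lit 81802746) (nat_lit 631) (nat_lit 5) (nat_lit 630) (nat_lit 5) (nat_lit 642) (nat_lit 5) (nat_lit 312) (nat_lit 307) (nat_lit 281)) (XT.nd (nat_lit 78) (nat_lit 0) (nat_lit 0) (XT.lf (nat_lit 0) (nat_lit 3075459021) (nat_lit 912) (nat_lit 1548193193) (nat_lit 988) (nat_lit 2260295427) (nat_lit 618) (nat_lit 5) (nat_lit 630) (nat_lit 5) (nat_lit 631) (nat_lit 5) (nat_lit 313) (nat_lit 307) (nat_lit 280)) (XT.lf (nat_lit 76) (nat_lit 3847864516) (nat_lit 0) (nat_lit 2388445602) (nat_lit 988) (nat_lit 696382324) (nat_lit 619) (nat_lit 5) (nat_lit 618) (nat_lit 5) (nat_lit 631) (nat_lit 5) (nat_lit 314) (nat_lit 307) (nat_lit 279))))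 (XT.nd (nat_lit 78) (nat_lit 1064) (nat_lit 0) (XT.lf (nat_lit 0) (nat_lit 2389363914) (nat_lit 988) (nat_lit 4594663542) (nat_lit 1064) (nat_lit 335919) (nat_lit 606) (nat_lit 5) (nat_lit 619) (nat_lit 5) (nat_lit 620) (nat_lit 5) (nat_lit 315) (nat_lit 307) (nat_lit 278)) (XT.nd (nat_lit 78) (nat_lit 1064) (nat_lit 0) (XT.lf (nat_lit 76) (nat_lit 954291217) (nat_lit 0) (nat_lit 4537414236) (nat_lit 1064) (nat_lit 1547168969) (nat_lit 607) (nat_lit 5) (nat_lit 606) (nat_lit 5) (nat_lit 620) (nat_lit 5) (nat_lit 316) (nat_lit 307) (nat_lit 277)) (XT.lf (nat_lit 0) (nat_lit 1494762000) (nat_lit 1064) (nat_lit 443643478) (nat_lit 1140) (nat_lit 5157986896) (nat_lit 592) (nat_lit 5) (nat_lit 606) (nat_lit 5) (nat_lit 607) (nat_lit 5) (nat_lit 317) (nat_lit 307) (nat_lit 276))))))))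
noncomputable def xc61 : XT := (XT.nd (nat_lit 1560) (nat_lit 11628) (nat_lit 0) (XT.nd (nat_lit 780) (nat_lit 10640) (nat_lit 0) (XT.nd (nat_lit 390) (nat_lit 5776) (nat_lit 0) (XT.nd (nat_lit 156) (nat_lit 2356) (nat_lit 0) (XT.nd (nat_lit 78) (nat_lit 1140) (nat_lit 0) (XT.lf (nat_lit 0) (nat_lit 4542502230) (nat_lit 1064) (nat_lit 1804992162) (nat_lit 1140) (nat_lit 809273315) (nat_lit 593) (nat_lit 5) (nat_lit 607) (nat_lit 5) (nat_lit 608) (nat_lit 5) (nat_lit 318) (nat_lit 307) (nat_lit 275)) (XT.lf (nat_lit 0) (nat_lit 396852257) (nat_lit 1140) (nat_lit 3144475005) (nat_lit 1216) (nat_lit 3678808439) (nat_lit 578) (nat_lit 5) (nat_lit 593) (nat_lit 5) (nat_lit 594) (nat_lit 5) (nat_lit 319) (nat_lit 307) (nat_lit 274))) (XT.nd (nat_lit 78) (nat_lit 2356) (nat_lit 0) (XT.lf (nat_lit 76) (nat_lit 2821067299) (nat_lit 0) (nat_lit 572534581) (nat_lit 1216) (nat_lit 3892885106) (nat_lit 579) (nat_lit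 5) (nat_lit 578) (nat_lit 5) (nat_lit 594) (nat_lit 5) (nat_lit 320) (nat_lit 307) (nat_lit 273)) (XT.nd (nat_lit 78) (nat_lit 1292) (nat_lit 0) (XT.lf (nat_lit 0) (nat_lit 1587074895) (nat_lit 1140) (nat_lit 4843697877) (nat_lit 1216) (nat_lit 925088549) (nat_lit 564) (nat_lit 5) (nat_lit 579) (nat_lit 5) (nat_lit 580) (nat_lit 5) (nat_lit 321) (nat_lit 307) (nat_lit 272)) (XT.lf (nat_lit 0) (nat_lit 370721241) (nat_lit 1216) (nat_lit 1674094777) (nat_lit 1292) (nat_lit 5383444232) (nat_lit 547) (nat_lit 5) (nat_lit 563) (nat_lit 5) (nat_lit 564) (nat_lit 5) (nat_lit 322) (nat_lit 307) (nat_lit 271))))) (XT.nd (nat_lit 156) (nat_lit 4408) (nat_lit 0) (XT.nd (nat_lit 78) (nat_lit 1368) (nat_lit 0) (XT.lf (nat_lit 0) (nat_lit 5047810023) (nat_lit 1292) (nat_lit 818158888) (nat_lit 76) (nat_lit 1637648359) (nat_lit 547) (nat_lit 5) (nat_lit 564) (nat_lit 5) (nat_lit 548) (nat_lit 5) (nat_lit 323) (nat_lit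 307) (nat_lit 270)) (XT.lf (nat_lit 0) (nat_lit 509077297) (nat_lit 1368) (nat_lit 1985425380) (nat_lit 76) (nat_lit 5087562207) (nat_lit 529) (nat_lit 5) (nat_lit 547) (nat_lit 5) (nat_lit 530) (nat_lit 5) (nat_lit 324) (nat_lit 307) (nat_lit 269))) (XT.nd (nat_lit 78) (nat_lit 3040) (nat_lit 0) (XT.lf (nat_lit 0) (nat_lit 3482588772) (nat_lit 1444) (nat_lit 3145926319) (nat_lit 76) (nat_lit 1035001899) (nat_lit 511) (nat_lit 5) (nat_lit 530) (nat_lit 5) (nat_lit 512) (nat_lit 5) (nat_lit 325) (nat_lit 307) (nat_lit 268)) (XT.nd (nat_lit 78) (nat_lit 1596) (nat_lit 0) (XT.lf (nat_lit 0) (nat_lit 3452837469) (nat_lit 1444) (nat_lit 3058449962) (nat_lit 1520) (nat_lit 1236841149) (nat_lit 492) (nat_lit 5) (nat_lit 511) (nat_lit 5) (nat_lit 512) (nat_lit 5) (nat_lit 326) (nat_lit 307) (nat_lit 267)) (XT.lf (nat_lit 0) (nat_lit 1728342367) (nat_lit 1596) (nat_lit 5434353313) (nat_lit 76) (nat_lit 673257065)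 (nat_lit 471) (nat_lit 5) (nat_lit 492) (nat_lit 5) (nat_lit 472) (nat_lit 5) (nat_lit 327) (nat_lit 307) (nat_lit 266)))))) (XT.nd (nat_lit 390) (nat_lit 4332) (nat_lit 0) (XT.nd (nat_lit 156) (nat_lit 3040) (nat_lit 0) (XT.nd (nat_lit 78) (nat_lit 1672) (nat_lit 0) (XT.lf (nat_lit 0) (nat_lit 1349102901) (nat_lit 1596) (nat_lit 3392103420) (nat_lit 1672) (nat_lit 3185564089) (nat_lit 450) (nat_lit 5) (nat_lit 471) (nat_lit 5) (nat_lit 472) (nat_lit 5) (nat_lit 328) (nat_lit 307) (nat_lit 265)) (XT.lf (nat_lit 0) (nat_lit 319033938) (nat_lit 1672) (nat_lit 7486701932) (nat_lit 1748) (nat_lit 215383044) (nat_lit 428) (nat_lit 5) (nat_lit 450) (nat_lit 5) (nat_lit 451) (nat_lit 5) (nat_lit 329) (nat_lit 307) (nat_lit 264))) (XT.nd (nat_lit 78) (nat_lit 2964) (nat_lit 0) (XT.lf (nat_lit 0) (nat_lit 2794447184) (nat_lit 1748) (nat_lit 718677576) (nat_lit 76) (nat_lit 4605077350) (nat_lit 427) (nat_lit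 5) (nat_lit 450) (nat_lit 5) (nat_lit 428) (nat_lit 5) (nat_lit 330) (nat_lit 307) (nat_lit 263)) (XT.nd (nat_lit 78) (nat_lit 1216) (nat_lit 0) (XT.lf (nat_lit 0) (nat_lit 5860493014) (nat_lit 1824) (nat_lit 1735512940) (nat_lit 76) (nat_lit 622815918) (nat_lit 404) (nat_lit 5) (nat_lit 428) (nat_lit 5) (nat_lit 405) (nat_lit 5) (nat_lit 331) (nat_lit 307) (nat_lit 262)) (XT.lf (nat_lit 0) (nat_lit 675831144) (nat_lit 1216) (nat_lit 2759660280) (nat_lit 76) (nat_lit 4887128478) (nat_lit 388) (nat_lit 5) (nat_lit 404) (nat_lit 5) (nat_lit 389) (nat_lit 5) (nat_lit 332) (nat_lit 307) (nat_lit 261))))) (XT.nd (nat_lit 156) (nat_lit 2584) (nat_lit 0) (XT.nd (nat_lit 78) (nat_lit 836) (nat_lit 0) (XT.lf (nat_lit 0) (nat_lit 3742795581) (nat_lit 988) (nat_lit 3786533753) (nat_lit 76) (nat_lit 900441611) (nat_lit 376) (nat_lit 5) (nat_lit 389) (nat_lit 5) (nat_lit 377) (nat_lit 5) (nat_lit 333) (nat_lit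 307) (nat_lit 260)) (XT.lf (nat_lit 0) (nat_lit 3720890975) (nat_lit 836) (nat_lit 3174256974) (nat_lit 912) (nat_lit 1645147442) (nat_lit 365) (nat_lit 5) (nat_lit 376) (nat_lit 5) (nat_lit 377) (nat_lit 5) (nat_lit 334) (nat_lit 307) (nat_lit 259))) (XT.nd (nat_lit 78) (nat_lit 1672) (nat_lit 0) (XT.lf (nat_lit 0) (nat_lit 1449941101) (nat_lit 912) (nat_lit 5855512950) (nat_lit 76) (nat_lit 1348883078) (nat_lit 353) (nat_lit 5) (nat_lit 365) (nat_lit 5) (nat_lit 354) (nat_lit 5) (nat_lit 335) (nat_lit 307) (nat_lit 258)) (XT.nd (nat_lit 78) (nat_lit 836) (nat_lit 0) (XT.lf (nat_lit 0) (nat_lit 1861249361) (nat_lit 836) (nat_lit 2750810082) (nat_lit 912) (nat_lit 4159617066) (nat_lit 342) (nat_lit 5) (nat_lit 353) (nat_lit 5) (nat_lit 354) (nat_lit 5) (nat_lit 336) (nat_lit 307) (nat_lit 257)) (XT.lf (nat_lit 0) (nat_lit 925845079) (nat_lit 836) (nat_lit 6933529183) (nat_lit 912) (nat_lit 1033378883)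 (nat_lit 331) (nat_lit 5) (nat_lit 342) (nat_lit 5) (nat_lit 343) (nat_lit 5) (nat_lit 337) (nat_lit 307) (nat_lit 256))))))) (XT.nd (nat_lit 780) (nat_lit 5092) (nat_lit 0) (XT.nd (nat_lit 390) (nat_lit 3420) (nat_lit 0) (XT.nd (nat_lit 156) (nat_lit 2280) (nat_lit 0) (XT.nd (nat_lit 78) (nat_lit 760) (nat_lit 0) (XT.lf (nat_lit 0) (nat_lit 2156349507) (nat_lit 912) (nat_lit 28748652) (nat_lit 76) (nat_lit 6832134940) (nat_lit 330) (nat_lit 5) (nat_lit 342) (nat_lit 5) (nat_lit 331) (nat_lit 5) (nat_lit 338) (nat_lit 307) (nat_lit 255)) (XT.lf (nat_lit 0) (nat_lit 5433657015) (nat_lit 836) (nat_lit 984646146) (nat_lit 76) (nat_lit 2726911075) (nat_lit 320) (nat_lit 5) (nat_lit 331) (nat_lit 5) (nat_lit 321) (nat_lit 5) (nat_lit 339) (nat_lit 307) (nat_lit 254))) (XT.nd (nat_lit 78) (nat_lit 1520) (nat_lit 0) (XT.lf (nat_lit 0) (nat_lit 7331270064) (nat_lit 760) (nat_lit 1476656656) (nat_lit 836)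 (nat_lit 469156517) (nat_lit 310) (nat_lit 5) (nat_lit 320) (nat_lit 5) (nat_lit 321) (nat_lit 5) (nat_lit 340) (nat_lit 307) (nat_lit 253)) (XT.nd (nat_lit 78) (nat_lit 760) (nat_lit 0) (XT.lf (nat_lit 0) (nat_lit 2842838288) (nat_lit 760) (nat_lit 2941758715) (nat_lit 76) (nat_lit 3627759440) (nat_lit 300) (nat_lit 5) (nat_lit 310) (nat_lit 5) (nat_lit 301) (nat_lit 5) (nat_lit 341) (nat_lit 307) (nat_lit 252)) (XT.lf (nat_lit 0) (nat_lit 5606123368) (nat_lit 760) (nat_lit 639841802) (nat_lit 836) (nat_lit 3305717405) (nat_lit 290) (nat_lit 5) (nat_lit 300) (nat_lit 5) (nat_lit 301) (nat_lit 5) (nat_lit 342) (nat_lit 307) (nat_lit 251))))) (XT.nd (nat_lit 156) (nat_lit 1976) (nat_lit 0) (XT.nd (nat_lit 78) (nat_lit 684) (nat_lit 0) (XT.lf (nat_lit 0) (nat_lit 76195229) (nat_lit 760) (nat_lit 4976938227) (nat_lit 76) (nat_lit 4641647845) (nat_lit 280) (nat_lit 5) (nat_lit 290) (nat_lit 5) (nat_lit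 281) (nat_lit 5) (nat_lit 343) (nat_lit 307) (nat_lit 250)) (XT.lf (nat_lit 0) (nat_lit 3513516231) (nat_lit 760) (nat_lit 6035591442) (nat_lit 76) (nat_lit 292669232) (nat_lit 271) (nat_lit 5) (nat_lit 281) (nat_lit 5) (nat_lit 272) (nat_lit 5) (nat_lit 344) (nat_lit 307) (nat_lit 249))) (XT.nd (nat_lit 78) (nat_lit 1368) (nat_lit 0) (XT.lf (nat_lit 0) (nat_lit 2863208336) (nat_lit 608) (nat_lit 4219066804) (nat_lit 684) (nat_lit 2910358525) (nat_lit 263) (nat_lit 5) (nat_lit 271) (nat_lit 5) (nat_lit 272) (nat_lit 5) (nat_lit 345) (nat_lit 307) (nat_lit 248)) (XT.nd (nat_lit 78) (nat_lit 608) (nat_lit 0) (XT.lf (nat_lit 0) (nat_lit 607099617) (nat_lit 760) (nat_lit 8239693952) (nat_lit 76) (nat_lit 1301059735) (nat_lit 253) (nat_lit 5) (nat_lit 263) (nat_lit 5) (nat_lit 254) (nat_lit 5) (nat_lit 346) (nat_lit 307) (nat_lit 247)) (XT.lf (nat_lit 0) (nat_lit 903185252) (nat_lit 608) (nat_lit 3314290230)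 (nat_lit 684) (nat_lit 6089346929) (nat_lit 245) (nat_lit 5) (nat_lit 253) (nat_lit 5) (nat_lit 254) (nat_lit 5) (nat_lit 347) (nat_lit 307) (nat_lit 246)))))) (XT.nd (nat_lit 390) (nat_lit 2660) (nat_lit 0) (XT.nd (nat_lit 156) (nat_lit 1748) (nat_lit 0) (XT.nd (nat_lit 78) (nat_lit 684) (nat_lit 0) (XT.lf (nat_lit 0) (nat_lit 7952959485) (nat_lit 684) (nat_lit 120438035) (nat_lit 76) (nat_lit 2396842973) (nat_lit 245) (nat_lit 5) (nat_lit 254) (nat_lit 5) (nat_lit 246) (nat_lit 5) (nat_lit 348) (nat_lit 307) (nat_lit 245)) (XT.lf (nat_lit 0) (nat_lit 1177300903) (nat_lit 684) (nat_lit 1168619953) (nat_lit 76) (nat_lit 8291892592) (nat_lit 236) (nat_lit 5) (nat_lit 245) (nat_lit 5) (nat_lit 237) (nat_lit 5) (nat_lit 349) (nat_lit 307) (nat_lit 244))) (XT.nd (nat_lit 78) (nat_lit 1216) (nat_lit 0) (XT.lf (nat_lit 0) (nat_lit 4976110639) (nat_lit 608) (nat_lit 2266124015) (nat_lit 76) (nat_lit 3567308983)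 (nat_lit 229) (nat_lit 5) (nat_lit 237) (nat_lit 5) (nat_lit 230) (nat_lit 5) (nat_lit 350) (nat_lit 307) (nat_lit 243)) (XT.nd (nat_lit 78) (nat_lit 608) (nat_lit 0) (XT.lf (nat_lit 0) (nat_lit 7594597657) (nat_lit 608) (nat_lit 1315756807) (nat_lit 684) (nat_lit 2075656084) (nat_lit 221) (nat_lit 5) (nat_lit 229) (nat_lit 5) (nat_lit 230) (nat_lit 5) (nat_lit 351) (nat_lit 307) (nat_lit 242)) (XT.lf (nat_lit 0) (nat_lit 1810474326) (nat_lit 608) (nat_lit 4574472553) (nat_lit 76) (nat_lit 4781821844) (nat_lit 213) (nat_lit 5) (nat_lit 221) (nat_lit 5) (nat_lit 214) (nat_lit 5) (nat_lit 352) (nat_lit 307) (nat_lit 241))))) (XT.nd (nat_lit 234) (nat_lit 988) (nat_lit 0) (XT.nd (nat_lit 78) (nat_lit 1140) (nat_lit 0) (XT.lf (nat_lit 0) (nat_lit 5554174298) (nat_lit 532) (nat_lit 249167537) (nat_lit 608) (nat_lit 5548979476) (nat_lit 206) (nat_lit 5) (nat_lit 213) (nat_lit 5) (nat_lit 214) (nat_lit 5)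 (nat_lit 353) (nat_lit 307) (nat_lit 240)) (XT.nd (nat_lit 78) (nat_lit 608) (nat_lit 0) (XT.lf (nat_lit 0) (nat_lit 4460237916) (nat_lit 532) (nat_lit 5506466253) (nat_lit 608) (nat_lit 1575734880) (nat_lit 199) (nat_lit 5) (nat_lit 206) (nat_lit 5) (nat_lit 207) (nat_lit 5) (nat_lit 354) (nat_lit 307) (nat_lit 239)) (XT.lf (nat_lit 0) (nat_lit 2503733118) (nat_lit 608) (nat_lit 8414097745) (nat_lit 76) (nat_lit 819714128) (nat_lit 191) (nat_lit 5) (nat_lit 199) (nat_lit 5) (nat_lit 192) (nat_lit 5) (nat_lit 355) (nat_lit 307) (nat_lit 238)))) (XT.nd (nat_lit 78) (nat_lit 532) (nat_lit 0) (XT.lf (nat_lit 0) (nat_lit 2116228117) (nat_lit 456) (nat_lit 4619637557) (nat_lit 532) (nat_lit 5201408135) (nat_lit 185) (nat_lit 5) (nat_lit 191) (nat_lit 5) (nat_lit 192) (nat_lit 5) (nat_lit 356) (nat_lit 307) (nat_lit 237)) (XT.nd (nat_lit 78) (nat_lit 76) (nat_lit 0) (XT.lf (nat_lit 0) (nat_lit 870405445)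 (nat_lit 456) (nat_lit 10253275248) (nat_lit 532) (nat_lit 1018750870) (nat_lit 179) (nat_lit 5) (nat_lit 185) (nat_lit 5) (nat_lit 186) (nat_lit 5) (nat_lit 357) (nat_lit 307) (nat_lit 236)) (XT.lf (nat_lit 0) (nat_lit 3298308001) (nat_lit 532) (nat_lit 451939389) (nat_lit 76) (nat_lit 8602039152) (nat_lit 178) (nat_lit 5) (nat_lit 185) (nat_lit 5) (nat_lit 179) (nat_lit 5) (nat_lit 358) (nat_lit 307) (nat_lit 235))))))))
noncomputable def xc62 : XT := (XT.nd (nat_lit 1560) (nat_lit 1672) (nat_lit 0) (XT.nd (nat_lit 780) (nat_lit 3192) (nat_lit 0) (XT.nd (nat_lit 390) (nat_lit 1596) (nat_lit 0) (XT.nd (nat_lit 156) (nat_lit 1368) (nat_lit 0) (XT.nd (nat_lit 78) (nat_lit 456) (nat_lit 0) (XT.lf (nat_lit 0) (nat_lit 7776057362) (nat_lit 532) (nat_lit 1822220697) (nat_lit 76) (nat_lit 2969134615) (nat_lit 172) (nat_lit 5) (nat_lit 179) (nat_lit 5) (nat_lit 173) (nat_lit 5) (nat_lit 359) (nat_lit 307)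 (nat_lit 234)) (XT.lf (nat_lit 0) (nat_lit 9533657878) (nat_lit 456) (nat_lit 2900841716) (nat_lit 532) (nat_lit 353576050) (nat_lit 166) (nat_lit 5) (nat_lit 172) (nat_lit 5) (nat_lit 173) (nat_lit 5) (nat_lit 360) (nat_lit 307) (nat_lit 233))) (XT.nd (nat_lit 78) (nat_lit 912) (nat_lit 0) (XT.lf (nat_lit 0) (nat_lit 4211420725) (nat_lit 456) (nat_lit 4781261310) (nat_lit 76) (nat_lit 4021150696) (nat_lit 160) (nat_lit 5) (nat_lit 166) (nat_lit 5) (nat_lit 161) (nat_lit 5) (nat_lit 361) (nat_lit 307) (nat_lit 232)) (XT.nd (nat_lit 78) (nat_lit 456) (nat_lit 0) (XT.lf (nat_lit 0) (nat_lit 6869893580) (nat_lit 456) (nat_lit 2082530116) (nat_lit 532) (nat_lit 4293024378) (nat_lit 154) (nat_lit 5) (nat_lit 160) (nat_lit 5) (nat_lit 161) (nat_lit 5) (nat_lit 362) (nat_lit 307) (nat_lit 231)) (XT.lf (nat_lit 0) (nat_lit 406327972) (nat_lit 456) (nat_lit 8055357568) (nat_lit 76) (nat_lit 5021103803) (nat_lit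 148) (nat_lit 5) (nat_lit 154) (nat_lit 5) (nat_lit 149) (nat_lit 5) (nat_lit 363) (nat_lit 307) (nat_lit 230))))) (XT.nd (nat_lit 156) (nat_lit 836) (nat_lit 0) (XT.nd (nat_lit 78) (nat_lit 380) (nat_lit 0) (XT.lf (nat_lit 0) (nat_lit 3893138852) (nat_lit 380) (nat_lit 1337120752) (nat_lit 456) (nat_lit 8495593990) (nat_lit 143) (nat_lit 5) (nat_lit 148) (nat_lit 5) (nat_lit 149) (nat_lit 5) (nat_lit 364) (nat_lit 307) (nat_lit 229)) (XT.lf (nat_lit 0) (nat_lit 2265523756) (nat_lit 380) (nat_lit 8001591845) (nat_lit 456) (nat_lit 3707738552) (nat_lit 138) (nat_lit 5) (nat_lit 143) (nat_lit 5) (nat_lit 144) (nat_lit 5) (nat_lit 365) (nat_lit 307) (nat_lit 228))) (XT.nd (nat_lit 78) (nat_lit 380) (nat_lit 0) (XT.lf (nat_lit 0) (nat_lit 561684874) (nat_lit 380) (nat_lit 685786555) (nat_lit 456) (nat_lit 12982907121) (nat_lit 132) (nat_lit 5) (nat_lit 137) (nat_lit 5) (nat_lit 138) (nat_lit 5) (nat_lit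 366) (nat_lit 307) (nat_lit 227)) (XT.nd (nat_lit 78) (nat_lit 380) (nat_lit 0) (XT.lf (nat_lit 0) (nat_lit 6386356935) (nat_lit 456) (nat_lit 1260021326) (nat_lit 76) (nat_lit 6845000261) (nat_lit 132) (nat_lit 5) (nat_lit 138) (nat_lit 5) (nat_lit 133) (nat_lit 5) (nat_lit 367) (nat_lit 307) (nat_lit 226)) (XT.lf (nat_lit 0) (nat_lit 11610976808) (nat_lit 380) (nat_lit 110310024) (nat_lit 456) (nat_lit 3038091739) (nat_lit 127) (nat_lit 5) (nat_lit 132) (nat_lit 5) (nat_lit 133) (nat_lit 5) (nat_lit 368) (nat_lit 307) (nat_lit 225)))))) (XT.nd (nat_lit 390) (nat_lit 1368) (nat_lit 0) (XT.nd (nat_lit 156) (nat_lit 1064) (nat_lit 0) (XT.nd (nat_lit 78) (nat_lit 304) (nat_lit 0) (XT.lf (nat_lit 0) (nat_lit 2237694767) (nat_lit 456) (nat_lit 5175925047) (nat_lit 76) (nat_lit 7619813865) (nat_lit 121) (nat_lit 5) (nat_lit 127) (nat_lit 5) (nat_lit 122) (nat_lit 5) (nat_lit 369) (nat_lit 307) (nat_lit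 224)) (XT.lf (nat_lit 0) (nat_lit 7670130155) (nat_lit 380) (nat_lit 7308425072) (nat_lit 76) (nat_lit 335967611) (nat_lit 117) (nat_lit 5) (nat_lit 122) (nat_lit 5) (nat_lit 118) (nat_lit 5) (nat_lit 370) (nat_lit 307) (nat_lit 223))) (XT.nd (nat_lit 78) (nat_lit 684) (nat_lit 0) (XT.lf (nat_lit 0) (nat_lit 6023705553) (nat_lit 380) (nat_lit 7329410075) (nat_lit 456) (nat_lit 2249184355) (nat_lit 112) (nat_lit 5) (nat_lit 117) (nat_lit 5) (nat_lit 118) (nat_lit 5) (nat_lit 371) (nat_lit 307) (nat_lit 222)) (XT.nd (nat_lit 78) (nat_lit 304) (nat_lit 0) (XT.lf (nat_lit 0) (nat_lit 3307991894) (nat_lit 380) (nat_lit 11969835257) (nat_lit 76) (nat_lit 619590367) (nat_lit 107) (nat_lit 5) (nat_lit 112) (nat_lit 5) (nat_lit 108) (nat_lit 5) (nat_lit 372) (nat_lit 307) (nat_lit 221)) (XT.lf (nat_lit 0) (nat_lit 1671593301) (nat_lit 304) (nat_lit 7419710732) (nat_lit 380) (nat_lit 7107993973) (nat_lit 103)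 (nat_lit 5) (nat_lit 107) (nat_lit 5) (nat_lit 108) (nat_lit 5) (nat_lit 373) (nat_lit 307) (nat_lit 220))))) (XT.nd (nat_lit 156) (nat_lit 988) (nat_lit 0) (XT.nd (nat_lit 78) (nat_lit 380) (nat_lit 0) (XT.lf (nat_lit 0) (nat_lit 15099283197) (nat_lit 380) (nat_lit 682892283) (nat_lit 76) (nat_lit 727042219) (nat_lit 103) (nat_lit 5) (nat_lit 108) (nat_lit 5) (nat_lit 104) (nat_lit 5) (nat_lit 374) (nat_lit 307) (nat_lit 219)) (XT.lf (nat_lit 0) (nat_lit 4505690515) (nat_lit 380) (nat_lit 3203149466) (nat_lit 76) (nat_lit 9116919723) (nat_lit 98) (nat_lit 5) (nat_lit 103) (nat_lit 5) (nat_lit 99) (nat_lit 5) (nat_lit 375) (nat_lit 307) (nat_lit 218))) (XT.nd (nat_lit 78) (nat_lit 684) (nat_lit 0) (XT.lf (nat_lit 0) (nat_lit 10628726524) (nat_lit 380) (nat_lit 5854881855) (nat_lit 76) (nat_lit 667026922) (nat_lit 94) (nat_lit 5) (nat_lit 99) (nat_lit 5) (nat_lit 95) (nat_lit 5) (nat_lit 376) (nat_lit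 307) (nat_lit 217)) (XT.nd (nat_lit 78) (nat_lit 380) (nat_lit 0) (XT.lf (nat_lit 0) (nat_lit 8799251670) (nat_lit 304) (nat_lit 8233811609) (nat_lit 380) (nat_lit 450247208) (nat_lit 90) (nat_lit 5) (nat_lit 94) (nat_lit 5) (nat_lit 95) (nat_lit 5) (nat_lit 377) (nat_lit 307) (nat_lit 216)) (XT.lf (nat_lit 0) (nat_lit 5777073382) (nat_lit 380) (nat_lit 11688772386) (nat_lit 76) (nat_lit 358379315) (nat_lit 85) (nat_lit 5) (nat_lit 90) (nat_lit 5) (nat_lit 86) (nat_lit 5) (nat_lit 378) (nat_lit 307) (nat_lit 215))))))) (XT.nd (nat_lit 41496) (nat_lit 0) (nat_lit 39064) (XT.nd (nat_lit 390) (nat_lit 532) (nat_lit 0) (XT.nd (nat_lit 156) (nat_lit 532) (nat_lit 0) (XT.nd (nat_lit 78) (nat_lit 380) (nat_lit 0) (XT.lf (nat_lit 0) (nat_lit 3276397930) (nat_lit 228) (nat_lit 9012264150) (nat_lit 304) (nat_lit 5884579302) (nat_lit 82) (nat_lit 5) (nat_lit 85) (nat_lit 5) (nat_lit 86) (nat_lit 5) (nat_lit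 379) (nat_lit 307) (nat_lit 214)) (XT.lf (nat_lit 0) (nat_lit 267441513) (nat_lit 304) (nat_lit 239171108) (nat_lit 380) (nat_lit 18025064031) (nat_lit 77) (nat_lit 5) (nat_lit 81) (nat_lit 5) (nat_lit 82) (nat_lit 5) (nat_lit 380) (nat_lit 307) (nat_lit 213))) (XT.nd (nat_lit 78) (nat_lit 532) (nat_lit 0) (XT.lf (nat_lit 0) (nat_lit 7137584312) (nat_lit 380) (nat_lit 2956985876) (nat_lit 76) (nat_lit 8802961712) (nat_lit 77) (nat_lit 5) (nat_lit 82) (nat_lit 5) (nat_lit 78) (nat_lit 5) (nat_lit 381) (nat_lit 307) (nat_lit 212)) (XT.nd (nat_lit 78) (nat_lit 304) (nat_lit 0) (XT.lf (nat_lit 0) (nat_lit 12927360863) (nat_lit 228) (nat_lit 1095371015) (nat_lit 304) (nat_lit 5250530566) (nat_lit 74) (nat_lit 5) (nat_lit 77) (nat_lit 5) (nat_lit 78) (nat_lit 5) (nat_lit 382) (nat_lit 307) (nat_lit 211)) (XT.lf (nat_lit 0) (nat_lit 1542120459) (nat_lit 304) (nat_lit 9975240329) (nat_lit 76) (nat_lit 8140579175)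 (nat_lit 70) (nat_lit 5) (nat_lit 74) (nat_lit 5) (nat_lit 71) (nat_lit 5) (nat_lit 383) (nat_lit 307) (nat_lit 210))))) (XT.nd (nat_lit 156) (nat_lit 76) (nat_lit 0) (XT.nd (nat_lit 78) (nat_lit 228) (nat_lit 0) (XT.lf (nat_lit 0) (nat_lit 6215201095) (nat_lit 228) (nat_lit 2313890810) (nat_lit 304) (nat_lit 11523138507) (nat_lit 67) (nat_lit 5) (nat_lit 70) (nat_lit 5) (nat_lit 71) (nat_lit 5) (nat_lit 384) (nat_lit 307) (nat_lit 209)) (XT.lf (nat_lit 0) (nat_lit 2507848990) (nat_lit 228) (nat_lit 13319593990) (nat_lit 304) (nat_lit 4628875287) (nat_lit 64) (nat_lit 5) (nat_lit 67) (nat_lit 5) (nat_lit 68) (nat_lit 5) (nat_lit 385) (nat_lit 307) (nat_lit 208))) (XT.nd (nat_lit 40794) (nat_lit 0) (nat_lit 42940) (XT.lf (nat_lit 0) (nat_lit 2520913002) (nat_lit 304) (nat_lit 1418884588) (nat_lit 76) (nat_lit 16930791630) (nat_lit 63) (nat_lit 5) (nat_lit 67) (nat_lit 5) (nat_lit 64) (nat_lit 5) (nat_lit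 386) (nat_lit 307) (nat_lit 207)) (XT.nd (nat_lit 78) (nat_lit 836) (nat_lit 0) (XT.lf (nat_lit 0) (nat_lit 1852023824) (nat_lit 836) (nat_lit 753138415) (nat_lit 836) (nat_lit 753138415) (nat_lit 639) (nat_lit 3) (nat_lit 650) (nat_lit 3) (nat_lit 650) (nat_lit 5) (nat_lit 308) (nat_lit 308) (nat_lit 284)) (XT.lf (nat_lit 0) (nat_lit 175109290) (nat_lit 836) (nat_lit 3364082173) (nat_lit 912) (nat_lit 3213102342) (nat_lit 628) (nat_lit 5) (nat_lit 639) (nat_lit 3) (nat_lit 640) (nat_lit 5) (nat_lit 309) (nat_lit 308) (nat_lit 283)))))) (XT.nd (nat_lit 390) (nat_lit 2052) (nat_lit 0) (XT.nd (nat_lit 156) (nat_lit 1824) (nat_lit 0) (XT.nd (nat_lit 78) (nat_lit 0) (nat_lit 76) (XT.lf (nat_lit 76) (nat_lit 1596790830) (nat_lit 0) (nat_lit 1717403145) (nat_lit 912) (nat_lit 3476592819) (nat_lit 629) (nat_lit 5) (nat_lit 628) (nat_lit 5) (nat_lit 640) (nat_lit 5) (nat_lit 310) (nat_lit 308) (nat_lit 282))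 (XT.lf (nat_lit 0) (nat_lit 6450844234) (nat_lit 836) (nat_lit 145651455) (nat_lit 912) (nat_lit 235931595) (nat_lit 629) (nat_lit 5) (nat_lit 640) (nat_lit 5) (nat_lit 641) (nat_lit 5) (nat_lit 311) (nat_lit 308) (nat_lit 281))) (XT.nd (nat_lit 78) (nat_lit 988) (nat_lit 0) (XT.lf (nat_lit 0) (nat_lit 2696089669) (nat_lit 912) (nat_lit 1850837366) (nat_lit 988) (nat_lit 2329550854) (nat_lit 617) (nat_lit 5) (nat_lit 629) (nat_lit 5) (nat_lit 630) (nat_lit 5) (nat_lit 312) (nat_lit 308) (nat_lit 280)) (XT.nd (nat_lit 78) (nat_lit 988) (nat_lit 0) (XT.lf (nat_lit 76) (nat_lit 3408780939) (nat_lit 0) (nat_lit 2360390610) (nat_lit 988) (nat_lit 1154518730) (nat_lit 618) (nat_lit 5) (nat_lit 617) (nat_lit 5) (nat_lit 630) (nat_lit 5) (nat_lit 313) (nat_lit 308) (nat_lit 279)) (XT.lf (nat_lit 76) (nat_lit 1824470259) (nat_lit 0) (nat_lit 23633812) (nat_lit 1064) (nat_lit 5125779243) (nat_lit 605) (nat_lit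 5) (nat_lit 604) (nat_lit 5) (nat_lit 618) (nat_lit 5) (nat_lit 314) (nat_lit 308) (nat_lit 278))))) (XT.nd (nat_lit 234) (nat_lit 1064) (nat_lit 0) (XT.nd (nat_lit 78) (nat_lit 1064) (nat_lit 0) (XT.lf (nat_lit 76) (nat_lit 259531408) (nat_lit 0) (nat_lit 4597206385) (nat_lit 1064) (nat_lit 2170111096) (nat_lit 606) (nat_lit 5) (nat_lit 605) (nat_lit 5) (nat_lit 619) (nat_lit 5) (nat_lit 315) (nat_lit 308) (nat_lit 277)) (XT.nd (nat_lit 78) (nat_lit 0) (nat_lit 76) (XT.lf (nat_lit 0) (nat_lit 790442188) (nat_lit 1064) (nat_lit 1253482219) (nat_lit 1140) (nat_lit 5038861124) (nat_lit 591) (nat_lit 5) (nat_lit 605) (nat_lit 5) (nat_lit 606) (nat_lit 5) (nat_lit 316) (nat_lit 308) (nat_lit 276)) (XT.lf (nat_lit 0) (nat_lit 3738955738) (nat_lit 1064) (nat_lit 2742975808) (nat_lit 1140) (nat_lit 659657100) (nat_lit 592) (nat_lit 5) (nat_lit 606) (nat_lit 5) (nat_lit 607) (nat_lit 5) (nat_lit 317) (nat_lit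 308) (nat_lit 275)))) (XT.nd (nat_lit 78) (nat_lit 1140) (nat_lit 0) (XT.lf (nat_lit 76) (nat_lit 2993765641) (nat_lit 0) (nat_lit 3722208416) (nat_lit 1140) (nat_lit 487427221) (nat_lit 593) (nat_lit 5) (nat_lit 592) (nat_lit 5) (nat_lit 607) (nat_lit 5) (nat_lit 318) (nat_lit 308) (nat_lit 274)) (XT.nd (nat_lit 78) (nat_lit 0) (nat_lit 76) (XT.lf (nat_lit 76) (nat_lit 1610633603) (nat_lit 0) (nat_lit 801003416) (nat_lit 1216) (nat_lit 4856561031) (nat_lit 578) (nat_lit 5) (nat_lit 577) (nat_lit 5) (nat_lit 593) (nat_lit 5) (nat_lit 319) (nat_lit 308) (nat_lit 273)) (XT.lf (nat_lit 76) (nat_lit 245612728) (nat_lit 0) (nat_lit 5093018277) (nat_lit 1216) (nat_lit 1997334569) (nat_lit 579) (nat_lit 5) (nat_lit 578) (nat_lit 5) (nat_lit 594) (nat_lit 5) (nat_lit 320) (nat_lit 308) (nat_lit 272))))))))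
noncomputable def xc63 : XT := (XT.nd (nat_lit 1638) (nat_lit 10640) (nat_lit 0) (XT.nd (nat_lit 780) (nat_lit 9652) (nat_lit 0) (XT.nd (nat_lit 390) (nat_lit 6384) (nat_lit 0) (XT.nd (nat_lit 156) (nat_lit 3876) (nat_lit 0) (XT.nd (nat_lit 78) (nat_lit 0) (nat_lit 76) (XT.lf (nat_lit 0) (nat_lit 883807751) (nat_lit 1216) (nat_lit 1082221645) (nat_lit 1292) (nat_lit 5440683135) (nat_lit 562) (nat_lit 5) (nat_lit 578) (nat_lit 5) (nat_lit 579) (nat_lit 5) (nat_lit 321) (nat_lit 308) (nat_lit 271)) (XT.lf (nat_lit 0) (nat_lit 3773488804) (nat_lit 1216) (nat_lit 2396359677) (nat_lit 76) (nat_lit 1310524193) (nat_lit 563) (nat_lit 5) (nat_lit 579) (nat_lit 5) (nat_lit 564) (nat_lit 5) (nat_lit 322) (nat_lit 308) (nat_lit 270))) (XT.nd (nat_lit 78) (nat_lit 2736) (nat_lit 0) (XT.lf (nat_lit 0) (nat_lit 3863725742) (nat_lit 1216) (nat_lit 2841578659) (nat_lit 1292) (nat_lit 851867817) (nat_lit 547) (nat_lit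 5) (nat_lit 563) (nat_lit 5) (nat_lit 564) (nat_lit 5) (nat_lit 323) (nat_lit 308) (nat_lit 269)) (XT.nd (nat_lit 78) (nat_lit 1368) (nat_lit 0) (XT.lf (nat_lit 0) (nat_lit 2010691033) (nat_lit 1368) (nat_lit 4979509327) (nat_lit 76) (nat_lit 646855032) (nat_lit 529) (nat_lit 5) (nat_lit 547) (nat_lit 5) (nat_lit 530) (nat_lit 5) (nat_lit 324) (nat_lit 308) (nat_lit 268)) (XT.lf (nat_lit 0) (nat_lit 1456414256) (nat_lit 1368) (nat_lit 3458535749) (nat_lit 1444) (nat_lit 2804960059) (nat_lit 511) (nat_lit 5) (nat_lit 529) (nat_lit 5) (nat_lit 530) (nat_lit 5) (nat_lit 325) (nat_lit 308) (nat_lit 267))))) (XT.nd (nat_lit 156) (nat_lit 4864) (nat_lit 0) (XT.nd (nat_lit 78) (nat_lit 0) (nat_lit 0) (XT.lf (nat_lit 0) (nat_lit 52236853) (nat_lit 1520) (nat_lit 7524586450) (nat_lit 76) (nat_lit 229398270) (nat_lit 491) (nat_lit 5) (nat_lit 511) (nat_lit 5) (nat_lit 492) (nat_lit 5) (nat_lit 326) (nat_lit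 308) (nat_lit 266)) (XT.lf (nat_lit 0) (nat_lit 2940405585) (nat_lit 1520) (nat_lit 896919750) (nat_lit 76) (nat_lit 4057791849) (nat_lit 491) (nat_lit 5) (nat_lit 511) (nat_lit 5) (nat_lit 492) (nat_lit 5) (nat_lit 327) (nat_lit 308) (nat_lit 265))) (XT.nd (nat_lit 78) (nat_lit 3344) (nat_lit 0) (XT.lf (nat_lit 0) (nat_lit 5873922563) (nat_lit 1596) (nat_lit 2047810361) (nat_lit 76) (nat_lit 65804580) (nat_lit 471) (nat_lit 5) (nat_lit 492) (nat_lit 5) (nat_lit 472) (nat_lit 5) (nat_lit 328) (nat_lit 308) (nat_lit 264)) (XT.nd (nat_lit 78) (nat_lit 1672) (nat_lit 0) (XT.lf (nat_lit 0) (nat_lit 787091724) (nat_lit 1672) (nat_lit 3206674424) (nat_lit 76) (nat_lit 4089188401) (nat_lit 449) (nat_lit 5) (nat_lit 471) (nat_lit 5) (nat_lit 450) (nat_lit 5) (nat_lit 329) (nat_lit 308) (nat_lit 263)) (XT.lf (nat_lit 0) (nat_lit 3708808404) (nat_lit 1748) (nat_lit 4359260882) (nat_lit 76) (nat_lit 113660787)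 (nat_lit 427) (nat_lit 5) (nat_lit 450) (nat_lit 5) (nat_lit 428) (nat_lit 5) (nat_lit 330) (nat_lit 308) (nat_lit 262)))))) (XT.nd (nat_lit 390) (nat_lit 4864) (nat_lit 0) (XT.nd (nat_lit 156) (nat_lit 1824) (nat_lit 0) (XT.nd (nat_lit 78) (nat_lit 1216) (nat_lit 0) (XT.lf (nat_lit 0) (nat_lit 2764412309) (nat_lit 1748) (nat_lit 3945159805) (nat_lit 1824) (nat_lit 1574097465) (nat_lit 404) (nat_lit 5) (nat_lit 427) (nat_lit 5) (nat_lit 428) (nat_lit 5) (nat_lit 331) (nat_lit 308) (nat_lit 261)) (XT.lf (nat_lit 0) (nat_lit 1362498297) (nat_lit 1216) (nat_lit 6673170640) (nat_lit 76) (nat_lit 353455836) (nat_lit 388) (nat_lit 5) (nat_lit 404) (nat_lit 5) (nat_lit 389) (nat_lit 5) (nat_lit 332) (nat_lit 308) (nat_lit 260))) (XT.nd (nat_lit 78) (nat_lit 912) (nat_lit 0) (XT.lf (nat_lit 0) (nat_lit 649501567) (nat_lit 912) (nat_lit 3712527801) (nat_lit 988) (nat_lit 4135608145) (nat_lit 376) (nat_lit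 5) (nat_lit 388) (nat_lit 5) (nat_lit 389) (nat_lit 5) (nat_lit 333) (nat_lit 308) (nat_lit 259)) (XT.nd (nat_lit 78) (nat_lit 912) (nat_lit 0) (XT.lf (nat_lit 0) (nat_lit 7431407530) (nat_lit 988) (nat_lit 399385095) (nat_lit 76) (nat_lit 779041469) (nat_lit 376) (nat_lit 5) (nat_lit 389) (nat_lit 5) (nat_lit 377) (nat_lit 5) (nat_lit 334) (nat_lit 308) (nat_lit 258)) (XT.lf (nat_lit 0) (nat_lit 1846636816) (nat_lit 912) (nat_lit 1461030304) (nat_lit 76) (nat_lit 5417438229) (nat_lit 364) (nat_lit 5) (nat_lit 376) (nat_lit 5) (nat_lit 365) (nat_lit 5) (nat_lit 335) (nat_lit 308) (nat_lit 257))))) (XT.nd (nat_lit 234) (nat_lit 2280) (nat_lit 0) (XT.nd (nat_lit 78) (nat_lit 1748) (nat_lit 0) (XT.lf (nat_lit 0) (nat_lit 4932143669) (nat_lit 912) (nat_lit 2525875461) (nat_lit 76) (nat_lit 1385969520) (nat_lit 353) (nat_lit 5) (nat_lit 365) (nat_lit 5) (nat_lit 354) (nat_lit 5) (nat_lit 336) (nat_lit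 308) (nat_lit 256)) (XT.nd (nat_lit 78) (nat_lit 912) (nat_lit 0) (XT.lf (nat_lit 0) (nat_lit 5365520344) (nat_lit 836) (nat_lit 2745838299) (nat_lit 912) (nat_lit 855079991) (nat_lit 342) (nat_lit 5) (nat_lit 353) (nat_lit 5) (nat_lit 354) (nat_lit 5) (nat_lit 337) (nat_lit 308) (nat_lit 255)) (XT.lf (nat_lit 0) (nat_lit 2258518761) (nat_lit 912) (nat_lit 4694710929) (nat_lit 76) (nat_lit 2139152374) (nat_lit 330) (nat_lit 5) (nat_lit 342) (nat_lit 5) (nat_lit 331) (nat_lit 5) (nat_lit 338) (nat_lit 308) (nat_lit 254)))) (XT.nd (nat_lit 78) (nat_lit 1520) (nat_lit 0) (XT.lf (nat_lit 0) (nat_lit 3417436086) (nat_lit 760) (nat_lit 2038354763) (nat_lit 836) (nat_lit 3766183547) (nat_lit 320) (nat_lit 5) (nat_lit 330) (nat_lit 5) (nat_lit 331) (nat_lit 5) (nat_lit 339) (nat_lit 308) (nat_lit 253)) (XT.nd (nat_lit 78) (nat_lit 760) (nat_lit 0) (XT.lf (nat_lit 0) (nat_lit 2427201684) (nat_lit 760) (nat_lit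 6327287468) (nat_lit 836) (nat_lit 600875859) (nat_lit 310) (nat_lit 5) (nat_lit 320) (nat_lit 5) (nat_lit 321) (nat_lit 5) (nat_lit 340) (nat_lit 308) (nat_lit 252)) (XT.lf (nat_lit 0) (nat_lit 1413842760) (nat_lit 684) (nat_lit 1212120053) (nat_lit 760) (nat_lit 6866439873) (nat_lit 300) (nat_lit 5) (nat_lit 309) (nat_lit 5) (nat_lit 310) (nat_lit 5) (nat_lit 341) (nat_lit 308) (nat_lit 251))))))) (XT.nd (nat_lit 780) (nat_lit 4636) (nat_lit 0) (XT.nd (nat_lit 390) (nat_lit 3192) (nat_lit 0) (XT.nd (nat_lit 156) (nat_lit 2052) (nat_lit 0) (XT.nd (nat_lit 78) (nat_lit 0) (nat_lit 0) (XT.lf (nat_lit 0) (nat_lit 375585990) (nat_lit 760) (nat_lit 5582290852) (nat_lit 836) (nat_lit 3675285643) (nat_lit 290) (nat_lit 5) (nat_lit 300) (nat_lit 5) (nat_lit 301) (nat_lit 5) (nat_lit 342) (nat_lit 308) (nat_lit 250)) (XT.lf (nat_lit 0) (nat_lit 9119806803) (nat_lit 760) (nat_lit 274399160) (nat_lit 836) (nat_lit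 383868510) (nat_lit 290) (nat_lit 5) (nat_lit 300) (nat_lit 5) (nat_lit 301) (nat_lit 5) (nat_lit 343) (nat_lit 308) (nat_lit 249))) (XT.nd (nat_lit 78) (nat_lit 1292) (nat_lit 0) (XT.lf (nat_lit 0) (nat_lit 2997365110) (nat_lit 760) (nat_lit 1738611192) (nat_lit 76) (nat_lit 5190374754) (nat_lit 280) (nat_lit 5) (nat_lit 290) (nat_lit 5) (nat_lit 281) (nat_lit 5) (nat_lit 344) (nat_lit 308) (nat_lit 248)) (XT.nd (nat_lit 78) (nat_lit 608) (nat_lit 0) (XT.lf (nat_lit 0) (nat_lit 6477525734) (nat_lit 760) (nat_lit 2829102430) (nat_lit 76) (nat_lit 772360060) (nat_lit 271) (nat_lit 5) (nat_lit 281) (nat_lit 5) (nat_lit 272) (nat_lit 5) (nat_lit 345) (nat_lit 308) (nat_lit 247)) (XT.lf (nat_lit 0) (nat_lit 6281702257) (nat_lit 608) (nat_lit 3810022276) (nat_lit 684) (nat_lit 143903948) (nat_lit 263) (nat_lit 5) (nat_lit 271) (nat_lit 5) (nat_lit 272) (nat_lit 5) (nat_lit 346) (nat_lit 308) (nat_lit 246)))))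 (XT.nd (nat_lit 156) (nat_lit 1824) (nat_lit 0) (XT.nd (nat_lit 78) (nat_lit 608) (nat_lit 0) (XT.lf (nat_lit 0) (nat_lit 3384789792) (nat_lit 760) (nat_lit 5118436865) (nat_lit 76) (nat_lit 1893068808) (nat_lit 253) (nat_lit 5) (nat_lit 263) (nat_lit 5) (nat_lit 254) (nat_lit 5) (nat_lit 347) (nat_lit 308) (nat_lit 245)) (XT.lf (nat_lit 0) (nat_lit 4244079650) (nat_lit 608) (nat_lit 2800539542) (nat_lit 684) (nat_lit 3516615023) (nat_lit 245) (nat_lit 5) (nat_lit 253) (nat_lit 5) (nat_lit 254) (nat_lit 5) (nat_lit 348) (nat_lit 308) (nat_lit 244))) (XT.nd (nat_lit 78) (nat_lit 1140) (nat_lit 0) (XT.lf (nat_lit 0) (nat_lit 105980474) (nat_lit 684) (nat_lit 7547033210) (nat_lit 76) (nat_lit 3077632320) (nat_lit 236) (nat_lit 5) (nat_lit 245) (nat_lit 5) (nat_lit 237) (nat_lit 5) (nat_lit 349) (nat_lit 308) (nat_lit 243)) (XT.nd (nat_lit 78) (nat_lit 608) (nat_lit 0) (XT.lf (nat_lit 0) (nat_lit 2072228214)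 (nat_lit 532) (nat_lit 1741803680) (nat_lit 608) (nat_lit 7090166467) (nat_lit 229) (nat_lit 5) (nat_lit 236) (nat_lit 5) (nat_lit 237) (nat_lit 5) (nat_lit 350) (nat_lit 308) (nat_lit 242)) (XT.lf (nat_lit 0) (nat_lit 921058696) (nat_lit 608) (nat_lit 6747948991) (nat_lit 684) (nat_lit 3413249741) (nat_lit 221) (nat_lit 5) (nat_lit 229) (nat_lit 5) (nat_lit 230) (nat_lit 5) (nat_lit 351) (nat_lit 308) (nat_lit 241)))))) (XT.nd (nat_lit 390) (nat_lit 2356) (nat_lit 0) (XT.nd (nat_lit 156) (nat_lit 1672) (nat_lit 0) (XT.nd (nat_lit 78) (nat_lit 532) (nat_lit 0) (XT.lf (nat_lit 0) (nat_lit 391674271) (nat_lit 684) (nat_lit 254892147) (nat_lit 76) (nat_lit 10618604330) (nat_lit 220) (nat_lit 5) (nat_lit 229) (nat_lit 5) (nat_lit 221) (nat_lit 5) (nat_lit 352) (nat_lit 308) (nat_lit 240)) (XT.lf (nat_lit 0) (nat_lit 4318776245) (nat_lit 608) (nat_lit 1494695936) (nat_lit 76) (nat_lit 5638572745) (nat_lit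 213) (nat_lit 5) (nat_lit 221) (nat_lit 5) (nat_lit 214) (nat_lit 5) (nat_lit 353) (nat_lit 308) (nat_lit 239))) (XT.nd (nat_lit 78) (nat_lit 1140) (nat_lit 0) (XT.lf (nat_lit 0) (nat_lit 8383782057) (nat_lit 608) (nat_lit 2761862889) (nat_lit 76) (nat_lit 498490947) (nat_lit 206) (nat_lit 5) (nat_lit 214) (nat_lit 5) (nat_lit 207) (nat_lit 5) (nat_lit 354) (nat_lit 308) (nat_lit 238)) (XT.nd (nat_lit 78) (nat_lit 532) (nat_lit 0) (XT.lf (nat_lit 0) (nat_lit 772863659) (nat_lit 608) (nat_lit 4095467422) (nat_lit 76) (nat_lit 6972502203) (nat_lit 198) (nat_lit 5) (nat_lit 206) (nat_lit 5) (nat_lit 199) (nat_lit 5) (nat_lit 355) (nat_lit 308) (nat_lit 237)) (XT.lf (nat_lit 0) (nat_lit 4909900508) (nat_lit 608) (nat_lit 5487760929) (nat_lit 76) (nat_lit 1644808215) (nat_lit 191) (nat_lit 5) (nat_lit 199) (nat_lit 5) (nat_lit 192) (nat_lit 5) (nat_lit 356) (nat_lit 308) (nat_lit 236))))) (XT.nd (nat_lit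 234) (nat_lit 912) (nat_lit 0) (XT.nd (nat_lit 78) (nat_lit 988) (nat_lit 0) (XT.lf (nat_lit 0) (nat_lit 5306903109) (nat_lit 456) (nat_lit 3914502894) (nat_lit 532) (nat_lit 3027753062) (nat_lit 185) (nat_lit 5) (nat_lit 191) (nat_lit 5) (nat_lit 192) (nat_lit 5) (nat_lit 357) (nat_lit 308) (nat_lit 235)) (XT.nd (nat_lit 78) (nat_lit 456) (nat_lit 0) (XT.lf (nat_lit 0) (nat_lit 1222348504) (nat_lit 532) (nat_lit 8456284259) (nat_lit 76) (nat_lit 2782513481) (nat_lit 178) (nat_lit 5) (nat_lit 185) (nat_lit 5) (nat_lit 179) (nat_lit 5) (nat_lit 358) (nat_lit 308) (nat_lit 234)) (XT.lf (nat_lit 0) (nat_lit 2624348222) (nat_lit 456) (nat_lit 2982083919) (nat_lit 532) (nat_lit 7071718604) (nat_lit 172) (nat_lit 5) (nat_lit 178) (nat_lit 5) (nat_lit 179) (nat_lit 5) (nat_lit 359) (nat_lit 308) (nat_lit 233)))) (XT.nd (nat_lit 78) (nat_lit 456) (nat_lit 0) (XT.lf (nat_lit 0) (nat_lit 1182366695) (nat_lit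 456) (nat_lit 8988023431) (nat_lit 532) (nat_lit 2730318183) (nat_lit 166) (nat_lit 5) (nat_lit 172) (nat_lit 5) (nat_lit 173) (nat_lit 5) (nat_lit 360) (nat_lit 308) (nat_lit 232)) (XT.nd (nat_lit 78) (nat_lit 380) (nat_lit 0) (XT.lf (nat_lit 0) (nat_lit 1765147802) (nat_lit 532) (nat_lit 326604315) (nat_lit 76) (nat_lit 11037040623) (nat_lit 165) (nat_lit 5) (nat_lit 172) (nat_lit 5) (nat_lit 166) (nat_lit 5) (nat_lit 361) (nat_lit 308) (nat_lit 231)) (XT.lf (nat_lit 0) (nat_lit 6425539117) (nat_lit 456) (nat_lit 1914348354) (nat_lit 76) (nat_lit 5022137381) (nat_lit 160) (nat_lit 5) (nat_lit 166) (nat_lit 5) (nat_lit 161) (nat_lit 5) (nat_lit 362) (nat_lit 308) (nat_lit 230))))))))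
noncomputable def xc64 : XT := (XT.nd (nat_lit 1560) (nat_lit 988) (nat_lit 0) (XT.nd (nat_lit 780) (nat_lit 2660) (nat_lit 0) (XT.nd (nat_lit 390) (nat_lit 1520) (nat_lit 0) (XT.nd (nat_lit 156) (nat_lit 1216) (nat_lit 0) (XT.nd (nat_lit 78) (nat_lit 456) (nat_lit 0) (XT.lf (nat_lit 0) (nat_lit 10037501817) (nat_lit 456) (nat_lit 1229689453) (nat_lit 532) (nat_lit 2334242614) (nat_lit 154) (nat_lit 5) (nat_lit 160) (nat_lit 5) (nat_lit 161) (nat_lit 5) (nat_lit 363) (nat_lit 308) (nat_lit 229)) (XT.lf (nat_lit 0) (nat_lit 2443782987) (nat_lit 456) (nat_lit 5321347377) (nat_lit 76) (nat_lit 6081205473) (nat_lit 148) (nat_lit 5) (nat_lit 154) (nat_lit 5) (nat_lit 149) (nat_lit 5) (nat_lit 364) (nat_lit 308) (nat_lit 228))) (XT.nd (nat_lit 78) (nat_lit 836) (nat_lit 0) (XT.lf (nat_lit 0) (nat_lit 6937327210) (nat_lit 380) (nat_lit 435123637) (nat_lit 456) (nat_lit 6725053384) (nat_lit 143) (nat_lit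 5) (nat_lit 148) (nat_lit 5) (nat_lit 149) (nat_lit 5) (nat_lit 365) (nat_lit 308) (nat_lit 227)) (XT.nd (nat_lit 78) (nat_lit 456) (nat_lit 0) (XT.lf (nat_lit 0) (nat_lit 5246846590) (nat_lit 380) (nat_lit 7280596240) (nat_lit 456) (nat_lit 1827203584) (nat_lit 138) (nat_lit 5) (nat_lit 143) (nat_lit 5) (nat_lit 144) (nat_lit 5) (nat_lit 366) (nat_lit 308) (nat_lit 226)) (XT.lf (nat_lit 0) (nat_lit 3213745829) (nat_lit 456) (nat_lit 11149320347) (nat_lit 76) (nat_lit 255259242) (nat_lit 132) (nat_lit 5) (nat_lit 138) (nat_lit 5) (nat_lit 133) (nat_lit 5) (nat_lit 367) (nat_lit 308) (nat_lit 225))))) (XT.nd (nat_lit 156) (nat_lit 1140) (nat_lit 0) (XT.nd (nat_lit 78) (nat_lit 0) (nat_lit 0) (XT.lf (nat_lit 0) (nat_lit 1562326460) (nat_lit 380) (nat_lit 6902887576) (nat_lit 456) (nat_lit 6422784316) (nat_lit 127) (nat_lit 5) (nat_lit 132) (nat_lit 5) (nat_lit 133) (nat_lit 5) (nat_lit 368) (nat_lit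 308) (nat_lit 224)) (XT.lf (nat_lit 0) (nat_lit 13918962343) (nat_lit 456) (nat_lit 417538505) (nat_lit 76) (nat_lit 828373101) (nat_lit 127) (nat_lit 5) (nat_lit 133) (nat_lit 5) (nat_lit 128) (nat_lit 5) (nat_lit 369) (nat_lit 308) (nat_lit 223))) (XT.nd (nat_lit 78) (nat_lit 684) (nat_lit 0) (XT.lf (nat_lit 0) (nat_lit 4128195664) (nat_lit 456) (nat_lit 2527871318) (nat_lit 76) (nat_lit 8791554657) (nat_lit 121) (nat_lit 5) (nat_lit 127) (nat_lit 5) (nat_lit 122) (nat_lit 5) (nat_lit 370) (nat_lit 308) (nat_lit 222)) (XT.nd (nat_lit 78) (nat_lit 380) (nat_lit 0) (XT.lf (nat_lit 0) (nat_lit 9694697868) (nat_lit 380) (nat_lit 4740022007) (nat_lit 76) (nat_lit 1303011849) (nat_lit 117) (nat_lit 5) (nat_lit 122) (nat_lit 5) (nat_lit 118) (nat_lit 5) (nat_lit 371) (nat_lit 308) (nat_lit 221)) (XT.lf (nat_lit 0) (nat_lit 8946846132) (nat_lit 380) (nat_lit 6566866507) (nat_lit 456) (nat_lit 521128579)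 (nat_lit 112) (nat_lit 5) (nat_lit 117) (nat_lit 5) (nat_lit 118) (nat_lit 5) (nat_lit 372) (nat_lit 308) (nat_lit 220)))))) (XT.nd (nat_lit 390) (nat_lit 1292) (nat_lit 0) (XT.nd (nat_lit 156) (nat_lit 684) (nat_lit 0) (XT.nd (nat_lit 78) (nat_lit 304) (nat_lit 0) (XT.lf (nat_lit 0) (nat_lit 5151657106) (nat_lit 380) (nat_lit 9578822863) (nat_lit 76) (nat_lit 1608659657) (nat_lit 107) (nat_lit 5) (nat_lit 112) (nat_lit 5) (nat_lit 108) (nat_lit 5) (nat_lit 373) (nat_lit 308) (nat_lit 219)) (XT.lf (nat_lit 0) (nat_lit 4427231326) (nat_lit 304) (nat_lit 6647994611) (nat_lit 380) (nat_lit 5575524528) (nat_lit 103) (nat_lit 5) (nat_lit 107) (nat_lit 5) (nat_lit 108) (nat_lit 5) (nat_lit 374) (nat_lit 308) (nat_lit 218))) (XT.nd (nat_lit 78) (nat_lit 304) (nat_lit 0) (XT.lf (nat_lit 0) (nat_lit 258675499) (nat_lit 380) (nat_lit 14995807548) (nat_lit 76) (nat_lit 1716074285) (nat_lit 98) (nat_lit 5) (nat_lit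 103) (nat_lit 5) (nat_lit 99) (nat_lit 5) (nat_lit 375) (nat_lit 308) (nat_lit 217)) (XT.nd (nat_lit 78) (nat_lit 304) (nat_lit 0) (XT.lf (nat_lit 0) (nat_lit 6287967916) (nat_lit 380) (nat_lit 666189270) (nat_lit 76) (nat_lit 10343153331) (nat_lit 98) (nat_lit 5) (nat_lit 103) (nat_lit 5) (nat_lit 99) (nat_lit 5) (nat_lit 376) (nat_lit 308) (nat_lit 216)) (XT.lf (nat_lit 0) (nat_lit 12569865564) (nat_lit 380) (nat_lit 3413927461) (nat_lit 76) (nat_lit 1648644096) (nat_lit 94) (nat_lit 5) (nat_lit 99) (nat_lit 5) (nat_lit 95) (nat_lit 5) (nat_lit 377) (nat_lit 308) (nat_lit 215))))) (XT.nd (nat_lit 156) (nat_lit 608) (nat_lit 0) (XT.nd (nat_lit 78) (nat_lit 304) (nat_lit 0) (XT.lf (nat_lit 0) (nat_lit 1144868781) (nat_lit 380) (nat_lit 6345864432) (nat_lit 76) (nat_lit 10484827376) (nat_lit 89) (nat_lit 5) (nat_lit 94) (nat_lit 5) (nat_lit 90) (nat_lit 5) (nat_lit 378) (nat_lit 308) (nat_lit 214))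 (XT.lf (nat_lit 0) (nat_lit 7529200690) (nat_lit 380) (nat_lit 9460512935) (nat_lit 76) (nat_lit 1337410834) (nat_lit 85) (nat_lit 5) (nat_lit 90) (nat_lit 5) (nat_lit 86) (nat_lit 5) (nat_lit 379) (nat_lit 308) (nat_lit 213))) (XT.nd (nat_lit 78) (nat_lit 380) (nat_lit 0) (XT.lf (nat_lit 0) (nat_lit 5911772535) (nat_lit 228) (nat_lit 8294852030) (nat_lit 304) (nat_lit 4480584241) (nat_lit 82) (nat_lit 5) (nat_lit 85) (nat_lit 5) (nat_lit 86) (nat_lit 5) (nat_lit 380) (nat_lit 308) (nat_lit 212)) (XT.nd (nat_lit 78) (nat_lit 0) (nat_lit 0) (XT.lf (nat_lit 0) (nat_lit 2057323681) (nat_lit 380) (nat_lit 16269567925) (nat_lit 76) (nat_lit 729793068) (nat_lit 77) (nat_lit 5) (nat_lit 82) (nat_lit 5) (nat_lit 78) (nat_lit 5) (nat_lit 381) (nat_lit 308) (nat_lit 211)) (XT.lf (nat_lit 0) (nat_lit 8844053709) (nat_lit 380) (nat_lit 578710187) (nat_lit 76) (nat_lit 10011621860) (nat_lit 77) (nat_lit 5) (nat_lit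 82) (nat_lit 5) (nat_lit 78) (nat_lit 5) (nat_lit 382) (nat_lit 308) (nat_lit 210))))))) (XT.nd (nat_lit 41574) (nat_lit 0) (nat_lit 35340) (XT.nd (nat_lit 41184) (nat_lit 0) (nat_lit 40964) (XT.nd (nat_lit 156) (nat_lit 456) (nat_lit 0) (XT.nd (nat_lit 78) (nat_lit 304) (nat_lit 0) (XT.lf (nat_lit 0) (nat_lit 15742143050) (nat_lit 228) (nat_lit 165903827) (nat_lit 304) (nat_lit 3913902076) (nat_lit 74) (nat_lit 5) (nat_lit 77) (nat_lit 5) (nat_lit 78) (nat_lit 5) (nat_lit 383) (nat_lit 308) (nat_lit 209)) (XT.lf (nat_lit 0) (nat_lit 3041844791) (nat_lit 304) (nat_lit 7844500973) (nat_lit 76) (nat_lit 9332055013) (nat_lit 70) (nat_lit 5) (nat_lit 74) (nat_lit 5) (nat_lit 71) (nat_lit 5) (nat_lit 384) (nat_lit 308) (nat_lit 208))) (XT.nd (nat_lit 78) (nat_lit 228) (nat_lit 0) (XT.lf (nat_lit 0) (nat_lit 8792229887) (nat_lit 228) (nat_lit 1419382871) (nat_lit 304) (nat_lit 10413449498) (nat_lit 67)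 (nat_lit 5) (nat_lit 70) (nat_lit 5) (nat_lit 71) (nat_lit 5) (nat_lit 385) (nat_lit 308) (nat_lit 207)) (XT.nd (nat_lit 40872) (nat_lit 0) (nat_lit 42864) (XT.lf (nat_lit 0) (nat_lit 4956984990) (nat_lit 228) (nat_lit 12751865608) (nat_lit 304) (nat_lit 3332829310) (nat_lit 64) (nat_lit 5) (nat_lit 67) (nat_lit 5) (nat_lit 68) (nat_lit 5) (nat_lit 386) (nat_lit 308) (nat_lit 206)) (XT.lf (nat_lit 0) (nat_lit 809829001) (nat_lit 0) (nat_lit 809829001) (nat_lit 836) (nat_lit 1774994380) (nat_lit 628) (nat_lit 5) (nat_lit 628) (nat_lit 3) (nat_lit 639) (nat_lit 3) (nat_lit 309) (nat_lit 309) (nat_lit 282))))) (XT.nd (nat_lit 156) (nat_lit 988) (nat_lit 0) (XT.nd (nat_lit 78) (nat_lit 912) (nat_lit 0) (XT.lf (nat_lit 0) (nat_lit 6298138782) (nat_lit 836) (nat_lit 250400723) (nat_lit 912) (nat_lit 280893326) (nat_lit 628) (nat_lit 5) (nat_lit 639) (nat_lit 3) (nat_lit 640) (nat_lit 5) (nat_lit 310) (nat_lit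 309) (nat_lit 281)) (XT.lf (nat_lit 0) (nat_lit 2468611283) (nat_lit 912) (nat_lit 2081418774) (nat_lit 988) (nat_lit 2321968376) (nat_lit 616) (nat_lit 5) (nat_lit 628) (nat_lit 5) (nat_lit 629) (nat_lit 5) (nat_lit 311) (nat_lit 309) (nat_lit 280))) (XT.nd (nat_lit 78) (nat_lit 988) (nat_lit 0) (XT.lf (nat_lit 76) (nat_lit 3044700638) (nat_lit 0) (nat_lit 2413289029) (nat_lit 988) (nat_lit 1459703192) (nat_lit 617) (nat_lit 5) (nat_lit 616) (nat_lit 5) (nat_lit 629) (nat_lit 5) (nat_lit 312) (nat_lit 309) (nat_lit 279)) (XT.nd (nat_lit 78) (nat_lit 0) (nat_lit 76) (XT.lf (nat_lit 76) (nat_lit 1333181222) (nat_lit 0) (nat_lit 128672868) (nat_lit 1064) (nat_lit 5504549467) (nat_lit 604) (nat_lit 5) (nat_lit 603) (nat_lit 5) (nat_lit 617) (nat_lit 5) (nat_lit 313) (nat_lit 309) (nat_lit 278)) (XT.lf (nat_lit 0) (nat_lit 4382725278) (nat_lit 988) (nat_lit 356039695) (nat_lit 1064) (nat_lit 2279039381)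 (nat_lit 604) (nat_lit 5) (nat_lit 617) (nat_lit 5) (nat_lit 618) (nat_lit 5) (nat_lit 314) (nat_lit 309) (nat_lit 277)))))) (XT.nd (nat_lit 390) (nat_lit 3572) (nat_lit 0) (XT.nd (nat_lit 156) (nat_lit 1064) (nat_lit 0) (XT.nd (nat_lit 78) (nat_lit 0) (nat_lit 76) (XT.lf (nat_lit 0) (nat_lit 243318772) (nat_lit 1064) (nat_lit 1990880554) (nat_lit 1140) (nat_lit 4838014541) (nat_lit 590) (nat_lit 5) (nat_lit 604) (nat_lit 5) (nat_lit 605) (nat_lit 5) (nat_lit 315) (nat_lit 309) (nat_lit 276)) (XT.lf (nat_lit 0) (nat_lit 3096257852) (nat_lit 1064) (nat_lit 3607970007) (nat_lit 1140) (nat_lit 425247458) (nat_lit 591) (nat_lit 5) (nat_lit 605) (nat_lit 5) (nat_lit 606) (nat_lit 5) (nat_lit 316) (nat_lit 309) (nat_lit 275))) (XT.nd (nat_lit 78) (nat_lit 1140) (nat_lit 0) (XT.lf (nat_lit 76) (nat_lit 1985294993) (nat_lit 0) (nat_lit 3989475596) (nat_lit 1140) (nat_lit 1214930722) (nat_lit 592) (nat_lit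 5) (nat_lit 591) (nat_lit 5) (nat_lit 606) (nat_lit 5) (nat_lit 317) (nat_lit 309) (nat_lit 274)) (XT.nd (nat_lit 78) (nat_lit 0) (nat_lit 76) (XT.lf (nat_lit 76) (nat_lit 475241190) (nat_lit 0) (nat_lit 1118642654) (nat_lit 1216) (nat_lit 5659112908) (nat_lit 577) (nat_lit 5) (nat_lit 576) (nat_lit 5) (nat_lit 592) (nat_lit 5) (nat_lit 318) (nat_lit 309) (nat_lit 273)) (XT.lf (nat_lit 0) (nat_lit 4421115224) (nat_lit 1140) (nat_lit 1006792424) (nat_lit 1216) (nat_lit 1891152513) (nat_lit 577) (nat_lit 5) (nat_lit 592) (nat_lit 5) (nat_lit 593) (nat_lit 5) (nat_lit 319) (nat_lit 309) (nat_lit 272))))) (XT.nd (nat_lit 234) (nat_lit 2508) (nat_lit 0) (XT.nd (nat_lit 78) (nat_lit 1140) (nat_lit 0) (XT.lf (nat_lit 76) (nat_lit 4930866921) (nat_lit 0) (nat_lit 2347742051) (nat_lit 1216) (nat_lit 109629230) (nat_lit 578) (nat_lit 5) (nat_lit 577) (nat_lit 5) (nat_lit 593) (nat_lit 5) (nat_lit 320) (nat_lit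 309) (nat_lit 271)) (XT.nd (nat_lit 78) (nat_lit 0) (nat_lit 0) (XT.lf (nat_lit 0) (nat_lit 2669621653) (nat_lit 1216) (nat_lit 3900262503) (nat_lit 1292) (nat_lit 890418078) (nat_lit 562) (nat_lit 5) (nat_lit 578) (nat_lit 5) (nat_lit 579) (nat_lit 5) (nat_lit 321) (nat_lit 309) (nat_lit 270)) (XT.lf (nat_lit 76) (nat_lit 2204952252) (nat_lit 0) (nat_lit 3282690595) (nat_lit 1292) (nat_lit 2047771683) (nat_lit 563) (nat_lit 5) (nat_lit 562) (nat_lit 5) (nat_lit 579) (nat_lit 5) (nat_lit 322) (nat_lit 309) (nat_lit 269)))) (XT.nd (nat_lit 78) (nat_lit 1292) (nat_lit 0) (XT.lf (nat_lit 0) (nat_lit 712268774) (nat_lit 1292) (nat_lit 6739178178) (nat_lit 76) (nat_lit 162368109) (nat_lit 546) (nat_lit 5) (nat_lit 563) (nat_lit 5) (nat_lit 547) (nat_lit 5) (nat_lit 323) (nat_lit 309) (nat_lit 268)) (XT.nd (nat_lit 78) (nat_lit 1292) (nat_lit 0) (XT.lf (nat_lit 0) (nat_lit 3499744155) (nat_lit 1292) (nat_lit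 456722423) (nat_lit 76) (nat_lit 3738416778) (nat_lit 546) (nat_lit 5) (nat_lit 563) (nat_lit 5) (nat_lit 547) (nat_lit 5) (nat_lit 324) (nat_lit 309) (nat_lit 267)) (XT.lf (nat_lit 0) (nat_lit 6029356807) (nat_lit 1292) (nat_lit 297122308) (nat_lit 1368) (nat_lit 1452826400) (nat_lit 529) (nat_lit 5) (nat_lit 546) (nat_lit 5) (nat_lit 547) (nat_lit 5) (nat_lit 325) (nat_lit 309) (nat_lit 266))))))))
noncomputable def xc65 : XT := (XT.nd (nat_lit 1560) (nat_lit 9728) (nat_lit 0) (XT.nd (nat_lit 780) (nat_lit 7068) (nat_lit 0) (XT.nd (nat_lit 390) (nat_lit 4788) (nat_lit 0) (XT.nd (nat_lit 156) (nat_lit 4864) (nat_lit 0) (XT.nd (nat_lit 78) (nat_lit 1444) (nat_lit 0) (XT.lf (nat_lit 0) (nat_lit 1329196374) (nat_lit 1444) (nat_lit 3049395036) (nat_lit 76) (nat_lit 3488015034) (nat_lit 510) (nat_lit 5) (nat_lit 529) (nat_lit 5) (nat_lit 511) (nat_lit 5) (nat_lit 326) (nat_lit 309) (nat_lit 265)) (XT.lf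 (nat_lit 0) (nat_lit 3620028205) (nat_lit 1444) (nat_lit 512485610) (nat_lit 1520) (nat_lit 3824700984) (nat_lit 491) (nat_lit 5) (nat_lit 510) (nat_lit 5) (nat_lit 511) (nat_lit 5) (nat_lit 327) (nat_lit 309) (nat_lit 264))) (XT.nd (nat_lit 78) (nat_lit 3344) (nat_lit 0) (XT.lf (nat_lit 0) (nat_lit 2424932239) (nat_lit 1520) (nat_lit 4576111782) (nat_lit 1596) (nat_lit 1049906091) (nat_lit 471) (nat_lit 5) (nat_lit 491) (nat_lit 5) (nat_lit 492) (nat_lit 5) (nat_lit 328) (nat_lit 309) (nat_lit 263)) (XT.nd (nat_lit 78) (nat_lit 1672) (nat_lit 0) (XT.lf (nat_lit 0) (nat_lit 1237905281) (nat_lit 1596) (nat_lit 510923695) (nat_lit 1672) (nat_lit 6399174994) (nat_lit 449) (nat_lit 5) (nat_lit 470) (nat_lit 5) (nat_lit 471) (nat_lit 5) (nat_lit 329) (nat_lit 309) (nat_lit 262)) (XT.lf (nat_lit 0) (nat_lit 41070372) (nat_lit 1672) (nat_lit 4564028494) (nat_lit 1748) (nat_lit 3643003667) (nat_lit 427) (nat_lit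 5) (nat_lit 449) (nat_lit 5) (nat_lit 450) (nat_lit 5) (nat_lit 330) (nat_lit 309) (nat_lit 261))))) (XT.nd (nat_lit 156) (nat_lit 2964) (nat_lit 0) (XT.nd (nat_lit 78) (nat_lit 1824) (nat_lit 0) (XT.lf (nat_lit 0) (nat_lit 7227092461) (nat_lit 1672) (nat_lit 297184585) (nat_lit 1748) (nat_lit 827410391) (nat_lit 427) (nat_lit 5) (nat_lit 449) (nat_lit 5) (nat_lit 450) (nat_lit 5) (nat_lit 331) (nat_lit 309) (nat_lit 260)) (XT.lf (nat_lit 0) (nat_lit 2041191756) (nat_lit 1824) (nat_lit 2311833888) (nat_lit 76) (nat_lit 4105197071) (nat_lit 403) (nat_lit 5) (nat_lit 427) (nat_lit 5) (nat_lit 404) (nat_lit 5) (nat_lit 332) (nat_lit 309) (nat_lit 259))) (XT.nd (nat_lit 78) (nat_lit 1824) (nat_lit 0) (XT.lf (nat_lit 0) (nat_lit 4958427901) (nat_lit 1216) (nat_lit 3491391656) (nat_lit 76) (nat_lit 118574449) (nat_lit 388) (nat_lit 5) (nat_lit 404) (nat_lit 5) (nat_lit 389) (nat_lit 5) (nat_lit 333) (nat_lit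 309) (nat_lit 258)) (XT.nd (nat_lit 78) (nat_lit 912) (nat_lit 0) (XT.lf (nat_lit 0) (nat_lit 3996092206) (nat_lit 912) (nat_lit 3969909194) (nat_lit 988) (nat_lit 715837563) (nat_lit 376) (nat_lit 5) (nat_lit 388) (nat_lit 5) (nat_lit 389) (nat_lit 5) (nat_lit 334) (nat_lit 309) (nat_lit 257)) (XT.lf (nat_lit 0) (nat_lit 2215837605) (nat_lit 912) (nat_lit 5886871152) (nat_lit 76) (nat_lit 696099508) (nat_lit 364) (nat_lit 5) (nat_lit 376) (nat_lit 5) (nat_lit 365) (nat_lit 5) (nat_lit 335) (nat_lit 309) (nat_lit 256)))))) (XT.nd (nat_lit 390) (nat_lit 3724) (nat_lit 0) (XT.nd (nat_lit 156) (nat_lit 1672) (nat_lit 0) (XT.nd (nat_lit 78) (nat_lit 836) (nat_lit 0) (XT.lf (nat_lit 0) (nat_lit 1810384248) (nat_lit 836) (nat_lit 3420320758) (nat_lit 912) (nat_lit 3688410700) (nat_lit 353) (nat_lit 5) (nat_lit 364) (nat_lit 5) (nat_lit 365) (nat_lit 5) (nat_lit 336) (nat_lit 309) (nat_lit 255)) (XT.lf (nat_lit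 0) (nat_lit 711767384) (nat_lit 836) (nat_lit 7614270500) (nat_lit 912) (nat_lit 717216466) (nat_lit 342) (nat_lit 5) (nat_lit 353) (nat_lit 5) (nat_lit 354) (nat_lit 5) (nat_lit 337) (nat_lit 309) (nat_lit 254))) (XT.nd (nat_lit 78) (nat_lit 1596) (nat_lit 0) (XT.lf (nat_lit 0) (nat_lit 2320892439) (nat_lit 912) (nat_lit 409273146) (nat_lit 76) (nat_lit 6440498418) (nat_lit 341) (nat_lit 5) (nat_lit 353) (nat_lit 5) (nat_lit 342) (nat_lit 5) (nat_lit 338) (nat_lit 309) (nat_lit 253)) (XT.nd (nat_lit 78) (nat_lit 760) (nat_lit 0) (XT.lf (nat_lit 0) (nat_lit 5445267135) (nat_lit 912) (nat_lit 1532419334) (nat_lit 76) (nat_lit 2324037996) (nat_lit 330) (nat_lit 5) (nat_lit 342) (nat_lit 5) (nat_lit 331) (nat_lit 5) (nat_lit 339) (nat_lit 309) (nat_lit 252)) (XT.lf (nat_lit 0) (nat_lit 6769502684) (nat_lit 760) (nat_lit 1899208443) (nat_lit 836) (nat_lit 767918926) (nat_lit 320) (nat_lit 5) (nat_lit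 330) (nat_lit 5) (nat_lit 331) (nat_lit 5) (nat_lit 340) (nat_lit 309) (nat_lit 251))))) (XT.nd (nat_lit 156) (nat_lit 2204) (nat_lit 0) (XT.nd (nat_lit 78) (nat_lit 684) (nat_lit 0) (XT.lf (nat_lit 0) (nat_lit 2392784546) (nat_lit 836) (nat_lit 3834562650) (nat_lit 76) (nat_lit 3347718155) (nat_lit 309) (nat_lit 5) (nat_lit 320) (nat_lit 5) (nat_lit 310) (nat_lit 5) (nat_lit 341) (nat_lit 309) (nat_lit 250)) (XT.lf (nat_lit 0) (nat_lit 4700188457) (nat_lit 684) (nat_lit 941702046) (nat_lit 760) (nat_lit 4075599946) (nat_lit 300) (nat_lit 5) (nat_lit 309) (nat_lit 5) (nat_lit 310) (nat_lit 5) (nat_lit 342) (nat_lit 309) (nat_lit 249))) (XT.nd (nat_lit 78) (nat_lit 1444) (nat_lit 0) (XT.lf (nat_lit 0) (nat_lit 3634911564) (nat_lit 760) (nat_lit 5376324727) (nat_lit 836) (nat_lit 852514681) (nat_lit 290) (nat_lit 5) (nat_lit 300) (nat_lit 5) (nat_lit 301) (nat_lit 5) (nat_lit 343) (nat_lit 309) (nat_lit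 248)) (XT.nd (nat_lit 78) (nat_lit 684) (nat_lit 0) (XT.lf (nat_lit 0) (nat_lit 2437343759) (nat_lit 760) (nat_lit 7465134228) (nat_lit 76) (nat_lit 111569299) (nat_lit 280) (nat_lit 5) (nat_lit 290) (nat_lit 5) (nat_lit 281) (nat_lit 5) (nat_lit 344) (nat_lit 309) (nat_lit 247)) (XT.lf (nat_lit 0) (nat_lit 1421038714) (nat_lit 684) (nat_lit 4426801814) (nat_lit 760) (nat_lit 4320245400) (nat_lit 271) (nat_lit 5) (nat_lit 280) (nat_lit 5) (nat_lit 281) (nat_lit 5) (nat_lit 345) (nat_lit 309) (nat_lit 246))))))) (XT.nd (nat_lit 780) (nat_lit 4256) (nat_lit 0) (XT.nd (nat_lit 390) (nat_lit 2812) (nat_lit 0) (XT.nd (nat_lit 156) (nat_lit 1976) (nat_lit 0) (XT.nd (nat_lit 78) (nat_lit 76) (nat_lit 0) (XT.lf (nat_lit 0) (nat_lit 282831015) (nat_lit 608) (nat_lit 9085365269) (nat_lit 684) (nat_lit 958414720) (nat_lit 263) (nat_lit 5) (nat_lit 271) (nat_lit 5) (nat_lit 272) (nat_lit 5) (nat_lit 346) (nat_lit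 309) (nat_lit 245)) (XT.lf (nat_lit 0) (nat_lit 2508391262) (nat_lit 684) (nat_lit 894229105) (nat_lit 76) (nat_lit 7086222368) (nat_lit 262) (nat_lit 5) (nat_lit 271) (nat_lit 5) (nat_lit 263) (nat_lit 5) (nat_lit 347) (nat_lit 309) (nat_lit 244))) (XT.nd (nat_lit 78) (nat_lit 1292) (nat_lit 0) (XT.lf (nat_lit 0) (nat_lit 6087405394) (nat_lit 760) (nat_lit 2096904755) (nat_lit 76) (nat_lit 2471094995) (nat_lit 253) (nat_lit 5) (nat_lit 263) (nat_lit 5) (nat_lit 254) (nat_lit 5) (nat_lit 348) (nat_lit 309) (nat_lit 243)) (XT.nd (nat_lit 78) (nat_lit 684) (nat_lit 0) (XT.lf (nat_lit 0) (nat_lit 7494975269) (nat_lit 608) (nat_lit 2306575340) (nat_lit 684) (nat_lit 1024873099) (nat_lit 245) (nat_lit 5) (nat_lit 253) (nat_lit 5) (nat_lit 254) (nat_lit 5) (nat_lit 349) (nat_lit 309) (nat_lit 242)) (XT.lf (nat_lit 0) (nat_lit 2621740165) (nat_lit 684) (nat_lit 4619338264) (nat_lit 76) (nat_lit 3760535106)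 (nat_lit 236) (nat_lit 5) (nat_lit 245) (nat_lit 5) (nat_lit 237) (nat_lit 5) (nat_lit 350) (nat_lit 309) (nat_lit 241))))) (XT.nd (nat_lit 156) (nat_lit 1672) (nat_lit 0) (XT.nd (nat_lit 78) (nat_lit 608) (nat_lit 0) (XT.lf (nat_lit 0) (nat_lit 5237329381) (nat_lit 532) (nat_lit 1150668103) (nat_lit 608) (nat_lit 4793456086) (nat_lit 229) (nat_lit 5) (nat_lit 236) (nat_lit 5) (nat_lit 237) (nat_lit 5) (nat_lit 351) (nat_lit 309) (nat_lit 240)) (XT.lf (nat_lit 0) (nat_lit 4046235462) (nat_lit 608) (nat_lit 6264916827) (nat_lit 684) (nat_lit 1054671327) (nat_lit 221) (nat_lit 5) (nat_lit 229) (nat_lit 5) (nat_lit 230) (nat_lit 5) (nat_lit 352) (nat_lit 309) (nat_lit 239))) (XT.nd (nat_lit 78) (nat_lit 1064) (nat_lit 0) (XT.lf (nat_lit 0) (nat_lit 2779874274) (nat_lit 608) (nat_lit 8741541567) (nat_lit 76) (nat_lit 33552776) (nat_lit 213) (nat_lit 5) (nat_lit 221) (nat_lit 5) (nat_lit 214) (nat_lit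 5) (nat_lit 353) (nat_lit 309) (nat_lit 238)) (XT.nd (nat_lit 78) (nat_lit 532) (nat_lit 0) (XT.lf (nat_lit 0) (nat_lit 1512642982) (nat_lit 532) (nat_lit 5258636388) (nat_lit 608) (nat_lit 4977258149) (nat_lit 206) (nat_lit 5) (nat_lit 213) (nat_lit 5) (nat_lit 214) (nat_lit 5) (nat_lit 354) (nat_lit 309) (nat_lit 237)) (XT.lf (nat_lit 0) (nat_lit 182046438) (nat_lit 532) (nat_lit 10724207897) (nat_lit 608) (nat_lit 1041194266) (nat_lit 199) (nat_lit 5) (nat_lit 206) (nat_lit 5) (nat_lit 207) (nat_lit 5) (nat_lit 355) (nat_lit 309) (nat_lit 236)))))) (XT.nd (nat_lit 390) (nat_lit 2204) (nat_lit 0) (XT.nd (nat_lit 156) (nat_lit 1444) (nat_lit 0) (XT.nd (nat_lit 78) (nat_lit 532) (nat_lit 0) (XT.lf (nat_lit 0) (nat_lit 3034323260) (nat_lit 608) (nat_lit 1212711586) (nat_lit 76) (nat_lit 7903694291) (nat_lit 198) (nat_lit 5) (nat_lit 206) (nat_lit 5) (nat_lit 199) (nat_lit 5) (nat_lit 356) (nat_lit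 309) (nat_lit 235)) (XT.lf (nat_lit 0) (nat_lit 7254440804) (nat_lit 608) (nat_lit 2656107821) (nat_lit 76) (nat_lit 2448702997) (nat_lit 191) (nat_lit 5) (nat_lit 199) (nat_lit 5) (nat_lit 192) (nat_lit 5) (nat_lit 357) (nat_lit 309) (nat_lit 234))) (XT.nd (nat_lit 78) (nat_lit 988) (nat_lit 0) (XT.lf (nat_lit 0) (nat_lit 8413784958) (nat_lit 456) (nat_lit 3236647389) (nat_lit 532) (nat_lit 922622494) (nat_lit 185) (nat_lit 5) (nat_lit 191) (nat_lit 5) (nat_lit 192) (nat_lit 5) (nat_lit 358) (nat_lit 309) (nat_lit 233)) (XT.nd (nat_lit 78) (nat_lit 456) (nat_lit 0) (XT.lf (nat_lit 0) (nat_lit 3387306231) (nat_lit 532) (nat_lit 5743538811) (nat_lit 76) (nat_lit 3661064119) (nat_lit 178) (nat_lit 5) (nat_lit 185) (nat_lit 5) (nat_lit 179) (nat_lit 5) (nat_lit 359) (nat_lit 309) (nat_lit 232)) (XT.lf (nat_lit 0) (nat_lit 5621385776) (nat_lit 456) (nat_lit 2238485236) (nat_lit 532) (nat_lit 5156428342)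 (nat_lit 172) (nat_lit 5) (nat_lit 178) (nat_lit 5) (nat_lit 179) (nat_lit 5) (nat_lit 360) (nat_lit 309) (nat_lit 231))))) (XT.nd (nat_lit 234) (nat_lit 836) (nat_lit 0) (XT.nd (nat_lit 78) (nat_lit 912) (nat_lit 0) (XT.lf (nat_lit 0) (nat_lit 4124989037) (nat_lit 456) (nat_lit 8399149785) (nat_lit 532) (nat_lit 722141302) (nat_lit 166) (nat_lit 5) (nat_lit 172) (nat_lit 5) (nat_lit 173) (nat_lit 5) (nat_lit 361) (nat_lit 309) (nat_lit 230)) (XT.nd (nat_lit 78) (nat_lit 456) (nat_lit 0) (XT.lf (nat_lit 0) (nat_lit 2546540107) (nat_lit 380) (nat_lit 1290692623) (nat_lit 456) (nat_lit 9644587447) (nat_lit 160) (nat_lit 5) (nat_lit 165) (nat_lit 5) (nat_lit 166) (nat_lit 5) (nat_lit 362) (nat_lit 309) (nat_lit 229)) (XT.lf (nat_lit 0) (nat_lit 877271107) (nat_lit 456) (nat_lit 7714658908) (nat_lit 532) (nat_lit 5131042568) (nat_lit 154) (nat_lit 5) (nat_lit 160) (nat_lit 5) (nat_lit 161) (nat_lit 5)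 (nat_lit 363) (nat_lit 309) (nat_lit 228)))) (XT.nd (nat_lit 78) (nat_lit 836) (nat_lit 0) (XT.lf (nat_lit 0) (nat_lit 13130135430) (nat_lit 456) (nat_lit 403806485) (nat_lit 532) (nat_lit 436532599) (nat_lit 154) (nat_lit 5) (nat_lit 160) (nat_lit 5) (nat_lit 161) (nat_lit 5) (nat_lit 364) (nat_lit 309) (nat_lit 227)) (XT.nd (nat_lit 78) (nat_lit 380) (nat_lit 0) (XT.lf (nat_lit 0) (nat_lit 4426103146) (nat_lit 456) (nat_lit 2676132565) (nat_lit 76) (nat_lit 7120902979) (nat_lit 148) (nat_lit 5) (nat_lit 154) (nat_lit 5) (nat_lit 149) (nat_lit 5) (nat_lit 365) (nat_lit 309) (nat_lit 226)) (XT.lf (nat_lit 0) (nat_lit 9467800249) (nat_lit 456) (nat_lit 4580666721) (nat_lit 76) (nat_lit 434083637) (nat_lit 143) (nat_lit 5) (nat_lit 149) (nat_lit 5) (nat_lit 144) (nat_lit 5) (nat_lit 366) (nat_lit 309) (nat_lit 225))))))))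
noncomputable def xc66 : XT := (XT.nd (nat_lit 42432) (nat_lit 0) (nat_lit 29032) (XT.nd (nat_lit 780) (nat_lit 2356) (nat_lit 0) (XT.nd (nat_lit 390) (nat_lit 1444) (nat_lit 0) (XT.nd (nat_lit 156) (nat_lit 1140) (nat_lit 0) (XT.nd (nat_lit 78) (nat_lit 456) (nat_lit 0) (XT.lf (nat_lit 0) (nat_lit 8150370492) (nat_lit 380) (nat_lit 6593138586) (nat_lit 456) (nat_lit 4588147) (nat_lit 138) (nat_lit 5) (nat_lit 143) (nat_lit 5) (nat_lit 144) (nat_lit 5) (nat_lit 367) (nat_lit 309) (nat_lit 224)) (XT.lf (nat_lit 0) (nat_lit 5132607460) (nat_lit 456) (nat_lit 8726850216) (nat_lit 76) (nat_lit 1160603279) (nat_lit 132) (nat_lit 5) (nat_lit 138) (nat_lit 5) (nat_lit 133) (nat_lit 5) (nat_lit 368) (nat_lit 309) (nat_lit 223))) (XT.nd (nat_lit 78) (nat_lit 760) (nat_lit 0) (XT.lf (nat_lit 0) (nat_lit 4321417761) (nat_lit 380) (nat_lit 6184730447) (nat_lit 456) (nat_lit 4792395938) (nat_lit 127) (nat_lit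 5) (nat_lit 132) (nat_lit 5) (nat_lit 133) (nat_lit 5) (nat_lit 369) (nat_lit 309) (nat_lit 222)) (XT.nd (nat_lit 78) (nat_lit 304) (nat_lit 0) (XT.lf (nat_lit 0) (nat_lit 500955688) (nat_lit 456) (nat_lit 13325625000) (nat_lit 76) (nat_lit 1757720315) (nat_lit 121) (nat_lit 5) (nat_lit 127) (nat_lit 5) (nat_lit 122) (nat_lit 5) (nat_lit 370) (nat_lit 309) (nat_lit 221)) (XT.lf (nat_lit 0) (nat_lit 39215648) (nat_lit 304) (nat_lit 5931781654) (nat_lit 380) (nat_lit 9905346179) (nat_lit 117) (nat_lit 5) (nat_lit 121) (nat_lit 5) (nat_lit 122) (nat_lit 5) (nat_lit 371) (nat_lit 309) (nat_lit 220))))) (XT.nd (nat_lit 156) (nat_lit 988) (nat_lit 0) (XT.nd (nat_lit 78) (nat_lit 456) (nat_lit 0) (XT.lf (nat_lit 0) (nat_lit 11676993049) (nat_lit 380) (nat_lit 2254589699) (nat_lit 76) (nat_lit 2244133695) (nat_lit 117) (nat_lit 5) (nat_lit 122) (nat_lit 5) (nat_lit 118) (nat_lit 5) (nat_lit 372) (nat_lit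 309) (nat_lit 219)) (XT.lf (nat_lit 0) (nat_lit 1140540839) (nat_lit 456) (nat_lit 4689647427) (nat_lit 76) (nat_lit 10652059793) (nat_lit 111) (nat_lit 5) (nat_lit 117) (nat_lit 5) (nat_lit 112) (nat_lit 5) (nat_lit 373) (nat_lit 309) (nat_lit 218))) (XT.nd (nat_lit 78) (nat_lit 684) (nat_lit 0) (XT.lf (nat_lit 0) (nat_lit 6950495116) (nat_lit 380) (nat_lit 7273947515) (nat_lit 76) (nat_lit 2571691412) (nat_lit 107) (nat_lit 5) (nat_lit 112) (nat_lit 5) (nat_lit 108) (nat_lit 5) (nat_lit 374) (nat_lit 309) (nat_lit 217)) (XT.nd (nat_lit 78) (nat_lit 380) (nat_lit 0) (XT.lf (nat_lit 0) (nat_lit 7110232285) (nat_lit 304) (nat_lit 5910204322) (nat_lit 380) (nat_lit 4097291853) (nat_lit 103) (nat_lit 5) (nat_lit 107) (nat_lit 5) (nat_lit 108) (nat_lit 5) (nat_lit 375) (nat_lit 309) (nat_lit 216)) (XT.lf (nat_lit 0) (nat_lit 1865568468) (nat_lit 380) (nat_lit 12889318008) (nat_lit 76) (nat_lit 2692533228)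 (nat_lit 98) (nat_lit 5) (nat_lit 103) (nat_lit 5) (nat_lit 99) (nat_lit 5) (nat_lit 376) (nat_lit 309) (nat_lit 215)))))) (XT.nd (nat_lit 390) (nat_lit 1140) (nat_lit 0) (XT.nd (nat_lit 156) (nat_lit 912) (nat_lit 0) (XT.nd (nat_lit 78) (nat_lit 0) (nat_lit 0) (XT.lf (nat_lit 0) (nat_lit 1819595948) (nat_lit 304) (nat_lit 6221381052) (nat_lit 380) (nat_lit 9743701651) (nat_lit 94) (nat_lit 5) (nat_lit 98) (nat_lit 5) (nat_lit 99) (nat_lit 5) (nat_lit 377) (nat_lit 309) (nat_lit 214)) (XT.lf (nat_lit 0) (nat_lit 14476113425) (nat_lit 380) (nat_lit 1049948028) (nat_lit 76) (nat_lit 2604509646) (nat_lit 94) (nat_lit 5) (nat_lit 99) (nat_lit 5) (nat_lit 95) (nat_lit 5) (nat_lit 378) (nat_lit 309) (nat_lit 213))) (XT.nd (nat_lit 78) (nat_lit 532) (nat_lit 0) (XT.lf (nat_lit 0) (nat_lit 2689763605) (nat_lit 380) (nat_lit 4089539312) (nat_lit 76) (nat_lit 11705069751) (nat_lit 89) (nat_lit 5) (nat_lit 94)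 (nat_lit 5) (nat_lit 90) (nat_lit 5) (nat_lit 379) (nat_lit 309) (nat_lit 212)) (XT.nd (nat_lit 78) (nat_lit 228) (nat_lit 0) (XT.lf (nat_lit 0) (nat_lit 9243261372) (nat_lit 380) (nat_lit 7313446408) (nat_lit 76) (nat_lit 2290230056) (nat_lit 85) (nat_lit 5) (nat_lit 90) (nat_lit 5) (nat_lit 86) (nat_lit 5) (nat_lit 380) (nat_lit 309) (nat_lit 211)) (XT.lf (nat_lit 0) (nat_lit 8480569455) (nat_lit 228) (nat_lit 7612620163) (nat_lit 304) (nat_lit 3125198356) (nat_lit 82) (nat_lit 5) (nat_lit 85) (nat_lit 5) (nat_lit 86) (nat_lit 5) (nat_lit 381) (nat_lit 309) (nat_lit 210))))) (XT.nd (nat_lit 156) (nat_lit 532) (nat_lit 0) (XT.nd (nat_lit 78) (nat_lit 228) (nat_lit 0) (XT.lf (nat_lit 0) (nat_lit 3567918992) (nat_lit 380) (nat_lit 14362523637) (nat_lit 76) (nat_lit 1668746371) (nat_lit 77) (nat_lit 5) (nat_lit 82) (nat_lit 5) (nat_lit 78) (nat_lit 5) (nat_lit 382) (nat_lit 309) (nat_lit 209)) (XT.lf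 (nat_lit 0) (nat_lit 1752280196) (nat_lit 228) (nat_lit 8775147429) (nat_lit 304) (nat_lit 9461416323) (nat_lit 74) (nat_lit 5) (nat_lit 77) (nat_lit 5) (nat_lit 78) (nat_lit 5) (nat_lit 383) (nat_lit 309) (nat_lit 208))) (XT.nd (nat_lit 78) (nat_lit 532) (nat_lit 0) (XT.lf (nat_lit 0) (nat_lit 17770625335) (nat_lit 304) (nat_lit 1891518874) (nat_lit 76) (nat_lit 726550322) (nat_lit 74) (nat_lit 5) (nat_lit 78) (nat_lit 5) (nat_lit 75) (nat_lit 5) (nat_lit 384) (nat_lit 309) (nat_lit 207)) (XT.nd (nat_lit 78) (nat_lit 228) (nat_lit 0) (XT.lf (nat_lit 0) (nat_lit 4503126262) (nat_lit 304) (nat_lit 5789331179) (nat_lit 76) (nat_lit 10504898616) (nat_lit 70) (nat_lit 5) (nat_lit 74) (nat_lit 5) (nat_lit 71) (nat_lit 5) (nat_lit 385) (nat_lit 309) (nat_lit 206)) (XT.lf (nat_lit 0) (nat_lit 11309340886) (nat_lit 228) (nat_lit 553372912) (nat_lit 304) (nat_lit 9354014766) (nat_lit 67) (nat_lit 5) (nat_lit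 70) (nat_lit 5) (nat_lit 71) (nat_lit 5) (nat_lit 386) (nat_lit 309) (nat_lit 205))))))) (XT.nd (nat_lit 780) (nat_lit 9576) (nat_lit 0) (XT.nd (nat_lit 390) (nat_lit 2052) (nat_lit 0) (XT.nd (nat_lit 156) (nat_lit 988) (nat_lit 0) (XT.nd (nat_lit 78) (nat_lit 0) (nat_lit 0) (XT.lf (nat_lit 0) (nat_lit 1196404510) (nat_lit 988) (nat_lit 1119424165) (nat_lit 988) (nat_lit 1119424165) (nat_lit 615) (nat_lit 3) (nat_lit 628) (nat_lit 3) (nat_lit 628) (nat_lit 5) (nat_lit 310) (nat_lit 310) (nat_lit 280)) (XT.lf (nat_lit 76) (nat_lit 2756669219) (nat_lit 0) (nat_lit 2545802637) (nat_lit 988) (nat_lit 1612223499) (nat_lit 616) (nat_lit 5) (nat_lit 615) (nat_lit 3) (nat_lit 628) (nat_lit 5) (nat_lit 311) (nat_lit 310) (nat_lit 279))) (XT.nd (nat_lit 78) (nat_lit 0) (nat_lit 76) (XT.lf (nat_lit 76) (nat_lit 916843861) (nat_lit 0) (nat_lit 313405236) (nat_lit 1064) (nat_lit 5731669016) (nat_lit 603) (nat_lit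 5) (nat_lit 602) (nat_lit 5) (nat_lit 616) (nat_lit 5) (nat_lit 312) (nat_lit 310) (nat_lit 278)) (XT.nd (nat_lit 78) (nat_lit 0) (nat_lit 0) (XT.lf (nat_lit 0) (nat_lit 4068085509) (nat_lit 988) (nat_lit 893777223) (nat_lit 1064) (nat_lit 2049893545) (nat_lit 603) (nat_lit 5) (nat_lit 616) (nat_lit 5) (nat_lit 617) (nat_lit 5) (nat_lit 313) (nat_lit 310) (nat_lit 277)) (XT.lf (nat_lit 76) (nat_lit 4408758848) (nat_lit 0) (nat_lit 2506816382) (nat_lit 1064) (nat_lit 149074213) (nat_lit 604) (nat_lit 5) (nat_lit 603) (nat_lit 5) (nat_lit 617) (nat_lit 5) (nat_lit 314) (nat_lit 310) (nat_lit 276))))) (XT.nd (nat_lit 156) (nat_lit 1140) (nat_lit 0) (XT.nd (nat_lit 78) (nat_lit 0) (nat_lit 0) (XT.lf (nat_lit 0) (nat_lit 2613821803) (nat_lit 1064) (nat_lit 4399103876) (nat_lit 1140) (nat_lit 107491958) (nat_lit 590) (nat_lit 5) (nat_lit 604) (nat_lit 5) (nat_lit 605) (nat_lit 5) (nat_lit 315) (nat_lit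 310) (nat_lit 275)) (XT.lf (nat_lit 76) (nat_lit 1053736620) (nat_lit 0) (nat_lit 4344291763) (nat_lit 1140) (nat_lit 1781048216) (nat_lit 591) (nat_lit 5) (nat_lit 590) (nat_lit 5) (nat_lit 605) (nat_lit 5) (nat_lit 316) (nat_lit 310) (nat_lit 274))) (XT.nd (nat_lit 78) (nat_lit 0) (nat_lit 76) (XT.lf (nat_lit 0) (nat_lit 943391516) (nat_lit 1140) (nat_lit 576651903) (nat_lit 1216) (nat_lit 5720751116) (nat_lit 575) (nat_lit 5) (nat_lit 590) (nat_lit 5) (nat_lit 591) (nat_lit 5) (nat_lit 317) (nat_lit 310) (nat_lit 273)) (XT.nd (nat_lit 78) (nat_lit 0) (nat_lit 0) (XT.lf (nat_lit 0) (nat_lit 3671873102) (nat_lit 1140) (nat_lit 2180550778) (nat_lit 1216) (nat_lit 1452817438) (nat_lit 576) (nat_lit 5) (nat_lit 591) (nat_lit 5) (nat_lit 592) (nat_lit 5) (nat_lit 318) (nat_lit 310) (nat_lit 272)) (XT.lf (nat_lit 76) (nat_lit 3609901668) (nat_lit 0) (nat_lit 2815980449) (nat_lit 1216) (nat_lit 946907569)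 (nat_lit 577) (nat_lit 5) (nat_lit 576) (nat_lit 5) (nat_lit 592) (nat_lit 5) (nat_lit 319) (nat_lit 310) (nat_lit 271)))))) (XT.nd (nat_lit 390) (nat_lit 7296) (nat_lit 0) (XT.nd (nat_lit 156) (nat_lit 1216) (nat_lit 0) (XT.nd (nat_lit 78) (nat_lit 0) (nat_lit 0) (XT.lf (nat_lit 0) (nat_lit 1735222614) (nat_lit 1216) (nat_lit 5329194595) (nat_lit 1292) (nat_lit 378971631) (nat_lit 561) (nat_lit 5) (nat_lit 577) (nat_lit 5) (nat_lit 578) (nat_lit 5) (nat_lit 320) (nat_lit 310) (nat_lit 270)) (XT.lf (nat_lit 76) (nat_lit 624359525) (nat_lit 0) (nat_lit 3819544583) (nat_lit 1292) (nat_lit 3072936116) (nat_lit 562) (nat_lit 5) (nat_lit 561) (nat_lit 5) (nat_lit 578) (nat_lit 5) (nat_lit 321) (nat_lit 310) (nat_lit 269))) (XT.nd (nat_lit 78) (nat_lit 1216) (nat_lit 0) (XT.lf (nat_lit 76) (nat_lit 6768476857) (nat_lit 0) (nat_lit 414023356) (nat_lit 1292) (nat_lit 411059211) (nat_lit 562) (nat_lit 5) (nat_lit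 561) (nat_lit 5) (nat_lit 578) (nat_lit 5) (nat_lit 322) (nat_lit 310) (nat_lit 268)) (XT.nd (nat_lit 78) (nat_lit 0) (nat_lit 0) (XT.lf (nat_lit 0) (nat_lit 2270369950) (nat_lit 1292) (nat_lit 2273999551) (nat_lit 1368) (nat_lit 3128538350) (nat_lit 545) (nat_lit 5) (nat_lit 562) (nat_lit 5) (nat_lit 563) (nat_lit 5) (nat_lit 323) (nat_lit 310) (nat_lit 267)) (XT.lf (nat_lit 76) (nat_lit 4052720777) (nat_lit 0) (nat_lit 925429843) (nat_lit 1368) (nat_lit 2777436427) (nat_lit 546) (nat_lit 5) (nat_lit 545) (nat_lit 5) (nat_lit 563) (nat_lit 5) (nat_lit 324) (nat_lit 310) (nat_lit 266))))) (XT.nd (nat_lit 234) (nat_lit 3192) (nat_lit 0) (XT.nd (nat_lit 78) (nat_lit 2888) (nat_lit 0) (XT.lf (nat_lit 0) (nat_lit 2715181884) (nat_lit 1292) (nat_lit 5022237025) (nat_lit 1368) (nat_lit 103956141) (nat_lit 529) (nat_lit 5) (nat_lit 546) (nat_lit 5) (nat_lit 547) (nat_lit 5) (nat_lit 325) (nat_lit 310) (nat_lit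 265)) (XT.nd (nat_lit 78) (nat_lit 1444) (nat_lit 0) (XT.lf (nat_lit 0) (nat_lit 1379609017) (nat_lit 1368) (nat_lit 1196102076) (nat_lit 1444) (nat_lit 5354498746) (nat_lit 510) (nat_lit 5) (nat_lit 528) (nat_lit 5) (nat_lit 529) (nat_lit 5) (nat_lit 326) (nat_lit 310) (nat_lit 264)) (XT.lf (nat_lit 0) (nat_lit 48798494) (nat_lit 1444) (nat_lit 5261031789) (nat_lit 1520) (nat_lit 2712387133) (nat_lit 491) (nat_lit 5) (nat_lit 510) (nat_lit 5) (nat_lit 511) (nat_lit 5) (nat_lit 327) (nat_lit 310) (nat_lit 263)))) (XT.nd (nat_lit 78) (nat_lit 3192) (nat_lit 0) (XT.lf (nat_lit 0) (nat_lit 6865926122) (nat_lit 1444) (nat_lit 1236603575) (nat_lit 1520) (nat_lit 14954462) (nat_lit 491) (nat_lit 5) (nat_lit 510) (nat_lit 5) (nat_lit 511) (nat_lit 5) (nat_lit 328) (nat_lit 310) (nat_lit 262)) (XT.nd (nat_lit 78) (nat_lit 1596) (nat_lit 0) (XT.lf (nat_lit 0) (nat_lit 2709198822) (nat_lit 1596) (nat_lit 2568038331)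 (nat_lit 76) (nat_lit 2938400736) (nat_lit 470) (nat_lit 5) (nat_lit 491) (nat_lit 5) (nat_lit 471) (nat_lit 5) (nat_lit 329) (nat_lit 310) (nat_lit 261)) (XT.lf (nat_lit 0) (nat_lit 4442544892) (nat_lit 1596) (nat_lit 1045740983) (nat_lit 1672) (nat_lit 2829007922) (nat_lit 449) (nat_lit 5) (nat_lit 470) (nat_lit 5) (nat_lit 471) (nat_lit 5) (nat_lit 330) (nat_lit 310) (nat_lit 260))))))))
noncomputable def xc67 : XT := (XT.nd (nat_lit 1560) (nat_lit 9348) (nat_lit 0) (XT.nd (nat_lit 780) (nat_lit 5776) (nat_lit 0) (XT.nd (nat_lit 390) (nat_lit 4180) (nat_lit 0) (XT.nd (nat_lit 156) (nat_lit 2128) (nat_lit 0) (XT.nd (nat_lit 78) (nat_lit 1824) (nat_lit 0) (XT.lf (nat_lit 0) (nat_lit 3235665189) (nat_lit 1672) (nat_lit 5104649352) (nat_lit 1748) (nat_lit 81920443) (nat_lit 427) (nat_lit 5) (nat_lit 449) (nat_lit 5) (nat_lit 450) (nat_lit 5) (nat_lit 331) (nat_lit 310) (nat_lit 259)) (XT.lf (nat_lit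 0) (nat_lit 2022111893) (nat_lit 1748) (nat_lit 666695196) (nat_lit 1824) (nat_lit 5841640969) (nat_lit 403) (nat_lit 5) (nat_lit 426) (nat_lit 5) (nat_lit 427) (nat_lit 5) (nat_lit 332) (nat_lit 310) (nat_lit 258))) (XT.nd (nat_lit 78) (nat_lit 988) (nat_lit 0) (XT.lf (nat_lit 0) (nat_lit 798741356) (nat_lit 1140) (nat_lit 4741097804) (nat_lit 1216) (nat_lit 3102116551) (nat_lit 388) (nat_lit 5) (nat_lit 403) (nat_lit 5) (nat_lit 404) (nat_lit 5) (nat_lit 333) (nat_lit 310) (nat_lit 257)) (XT.nd (nat_lit 78) (nat_lit 988) (nat_lit 0) (XT.lf (nat_lit 0) (nat_lit 8348165979) (nat_lit 1140) (nat_lit 110713560) (nat_lit 1216) (nat_lit 298303716) (nat_lit 388) (nat_lit 5) (nat_lit 403) (nat_lit 5) (nat_lit 404) (nat_lit 5) (nat_lit 334) (nat_lit 310) (nat_lit 256)) (XT.lf (nat_lit 0) (nat_lit 2568955228) (nat_lit 988) (nat_lit 1640436443) (nat_lit 76) (nat_lit 4665896823) (nat_lit 375) (nat_lit 5) (nat_lit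 388) (nat_lit 5) (nat_lit 376) (nat_lit 5) (nat_lit 335) (nat_lit 310) (nat_lit 255))))) (XT.nd (nat_lit 156) (nat_lit 2508) (nat_lit 0) (XT.nd (nat_lit 78) (nat_lit 836) (nat_lit 0) (XT.lf (nat_lit 0) (nat_lit 5502618432) (nat_lit 912) (nat_lit 2867844329) (nat_lit 76) (nat_lit 626768276) (nat_lit 364) (nat_lit 5) (nat_lit 376) (nat_lit 5) (nat_lit 365) (nat_lit 5) (nat_lit 336) (nat_lit 310) (nat_lit 254)) (XT.lf (nat_lit 0) (nat_lit 5008483385) (nat_lit 836) (nat_lit 3526064713) (nat_lit 912) (nat_lit 588100348) (nat_lit 353) (nat_lit 5) (nat_lit 364) (nat_lit 5) (nat_lit 365) (nat_lit 5) (nat_lit 337) (nat_lit 310) (nat_lit 253))) (XT.nd (nat_lit 78) (nat_lit 1596) (nat_lit 0) (XT.lf (nat_lit 0) (nat_lit 2368114749) (nat_lit 912) (nat_lit 5378621256) (nat_lit 76) (nat_lit 1504919518) (nat_lit 341) (nat_lit 5) (nat_lit 353) (nat_lit 5) (nat_lit 342) (nat_lit 5) (nat_lit 338) (nat_lit 310) (nat_lit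 252)) (XT.nd (nat_lit 78) (nat_lit 760) (nat_lit 0) (XT.lf (nat_lit 0) (nat_lit 2718976461) (nat_lit 836) (nat_lit 2696146725) (nat_lit 912) (nat_lit 3969150012) (nat_lit 330) (nat_lit 5) (nat_lit 341) (nat_lit 5) (nat_lit 342) (nat_lit 5) (nat_lit 339) (nat_lit 310) (nat_lit 251)) (XT.lf (nat_lit 0) (nat_lit 1555528703) (nat_lit 760) (nat_lit 7003145834) (nat_lit 836) (nat_lit 962111700) (nat_lit 320) (nat_lit 5) (nat_lit 330) (nat_lit 5) (nat_lit 331) (nat_lit 5) (nat_lit 340) (nat_lit 310) (nat_lit 250)))))) (XT.nd (nat_lit 390) (nat_lit 2736) (nat_lit 0) (XT.nd (nat_lit 156) (nat_lit 2204) (nat_lit 0) (XT.nd (nat_lit 78) (nat_lit 0) (nat_lit 0) (XT.lf (nat_lit 0) (nat_lit 365193825) (nat_lit 760) (nat_lit 1750783685) (nat_lit 836) (nat_lit 7544981601) (nat_lit 309) (nat_lit 5) (nat_lit 319) (nat_lit 5) (nat_lit 320) (nat_lit 5) (nat_lit 341) (nat_lit 310) (nat_lit 249)) (XT.lf (nat_lit 0) (nat_lit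 5295720564) (nat_lit 836) (nat_lit 841458090) (nat_lit 76) (nat_lit 3667601683) (nat_lit 309) (nat_lit 5) (nat_lit 320) (nat_lit 5) (nat_lit 310) (nat_lit 5) (nat_lit 342) (nat_lit 310) (nat_lit 248))) (XT.nd (nat_lit 78) (nat_lit 1520) (nat_lit 0) (XT.lf (nat_lit 0) (nat_lit 7898909648) (nat_lit 684) (nat_lit 680782017) (nat_lit 760) (nat_lit 1373065302) (nat_lit 300) (nat_lit 5) (nat_lit 309) (nat_lit 5) (nat_lit 310) (nat_lit 5) (nat_lit 343) (nat_lit 310) (nat_lit 247)) (XT.nd (nat_lit 78) (nat_lit 684) (nat_lit 0) (XT.lf (nat_lit 0) (nat_lit 1861828790) (nat_lit 836) (nat_lit 3311293665) (nat_lit 76) (nat_lit 4931242447) (nat_lit 289) (nat_lit 5) (nat_lit 300) (nat_lit 5) (nat_lit 290) (nat_lit 5) (nat_lit 344) (nat_lit 310) (nat_lit 246)) (XT.lf (nat_lit 0) (nat_lit 5181656440) (nat_lit 760) (nat_lit 4588922173) (nat_lit 76) (nat_lit 489646272) (nat_lit 280) (nat_lit 5) (nat_lit 290) (nat_lit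 5) (nat_lit 281) (nat_lit 5) (nat_lit 345) (nat_lit 310) (nat_lit 245))))) (XT.nd (nat_lit 156) (nat_lit 1368) (nat_lit 0) (XT.nd (nat_lit 78) (nat_lit 684) (nat_lit 0) (XT.lf (nat_lit 0) (nat_lit 4513539446) (nat_lit 684) (nat_lit 4122928723) (nat_lit 760) (nat_lit 1783600399) (nat_lit 271) (nat_lit 5) (nat_lit 280) (nat_lit 5) (nat_lit 281) (nat_lit 5) (nat_lit 346) (nat_lit 310) (nat_lit 244)) (XT.lf (nat_lit 0) (nat_lit 1603127657) (nat_lit 684) (nat_lit 7253875738) (nat_lit 76) (nat_lit 1727229420) (nat_lit 262) (nat_lit 5) (nat_lit 271) (nat_lit 5) (nat_lit 263) (nat_lit 5) (nat_lit 347) (nat_lit 310) (nat_lit 243))) (XT.nd (nat_lit 78) (nat_lit 684) (nat_lit 0) (XT.lf (nat_lit 0) (nat_lit 2101464629) (nat_lit 684) (nat_lit 2998102030) (nat_lit 760) (nat_lit 5652887208) (nat_lit 253) (nat_lit 5) (nat_lit 262) (nat_lit 5) (nat_lit 263) (nat_lit 5) (nat_lit 348) (nat_lit 310) (nat_lit 242)) (XT.nd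 (nat_lit 78) (nat_lit 76) (nat_lit 0) (XT.lf (nat_lit 0) (nat_lit 844080707) (nat_lit 608) (nat_lit 7883186920) (nat_lit 684) (nat_lit 2197940622) (nat_lit 245) (nat_lit 5) (nat_lit 253) (nat_lit 5) (nat_lit 254) (nat_lit 5) (nat_lit 349) (nat_lit 310) (nat_lit 241)) (XT.lf (nat_lit 0) (nat_lit 1374265592) (nat_lit 684) (nat_lit 447483011) (nat_lit 76) (nat_lit 9280604238) (nat_lit 244) (nat_lit 5) (nat_lit 253) (nat_lit 5) (nat_lit 245) (nat_lit 5) (nat_lit 350) (nat_lit 310) (nat_lit 240))))))) (XT.nd (nat_lit 780) (nat_lit 4332) (nat_lit 0) (XT.nd (nat_lit 390) (nat_lit 2128) (nat_lit 0) (XT.nd (nat_lit 156) (nat_lit 1748) (nat_lit 0) (XT.nd (nat_lit 78) (nat_lit 532) (nat_lit 0) (XT.lf (nat_lit 0) (nat_lit 5068740259) (nat_lit 684) (nat_lit 1784871054) (nat_lit 76) (nat_lit 4430023623) (nat_lit 236) (nat_lit 5) (nat_lit 245) (nat_lit 5) (nat_lit 237) (nat_lit 5) (nat_lit 351) (nat_lit 310) (nat_lit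 239)) (XT.lf (nat_lit 0) (nat_lit 8319262459) (nat_lit 532) (nat_lit 578731660) (nat_lit 608) (nat_lit 2571895102) (nat_lit 229) (nat_lit 5) (nat_lit 236) (nat_lit 5) (nat_lit 237) (nat_lit 5) (nat_lit 352) (nat_lit 310) (nat_lit 238))) (XT.nd (nat_lit 78) (nat_lit 1064) (nat_lit 0) (XT.lf (nat_lit 0) (nat_lit 1217218164) (nat_lit 684) (nat_lit 4581356177) (nat_lit 76) (nat_lit 5861969436) (nat_lit 220) (nat_lit 5) (nat_lit 229) (nat_lit 5) (nat_lit 221) (nat_lit 5) (nat_lit 353) (nat_lit 310) (nat_lit 237)) (XT.nd (nat_lit 78) (nat_lit 532) (nat_lit 0) (XT.lf (nat_lit 0) (nat_lit 5109016867) (nat_lit 608) (nat_lit 6059767219) (nat_lit 76) (nat_lit 687326469) (nat_lit 213) (nat_lit 5) (nat_lit 221) (nat_lit 5) (nat_lit 214) (nat_lit 5) (nat_lit 354) (nat_lit 310) (nat_lit 236)) (XT.lf (nat_lit 0) (nat_lit 4454279630) (nat_lit 532) (nat_lit 4719278822) (nat_lit 608) (nat_lit 2882877433) (nat_lit 206)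 (nat_lit 5) (nat_lit 213) (nat_lit 5) (nat_lit 214) (nat_lit 5) (nat_lit 355) (nat_lit 310) (nat_lit 235))))) (XT.nd (nat_lit 156) (nat_lit 988) (nat_lit 0) (XT.nd (nat_lit 78) (nat_lit 532) (nat_lit 0) (XT.lf (nat_lit 0) (nat_lit 1114716272) (nat_lit 608) (nat_lit 9193323768) (nat_lit 76) (nat_lit 1953962399) (nat_lit 198) (nat_lit 5) (nat_lit 206) (nat_lit 5) (nat_lit 199) (nat_lit 5) (nat_lit 356) (nat_lit 310) (nat_lit 234)) (XT.lf (nat_lit 0) (nat_lit 1605042469) (nat_lit 532) (nat_lit 3640519114) (nat_lit 608) (nat_lit 7226753942) (nat_lit 191) (nat_lit 5) (nat_lit 198) (nat_lit 5) (nat_lit 199) (nat_lit 5) (nat_lit 357) (nat_lit 310) (nat_lit 233))) (XT.nd (nat_lit 78) (nat_lit 532) (nat_lit 0) (XT.lf (nat_lit 0) (nat_lit 89671871) (nat_lit 456) (nat_lit 9454096893) (nat_lit 532) (nat_lit 3144310673) (nat_lit 185) (nat_lit 5) (nat_lit 191) (nat_lit 5) (nat_lit 192) (nat_lit 5) (nat_lit 358)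 (nat_lit 310) (nat_lit 232)) (XT.nd (nat_lit 78) (nat_lit 456) (nat_lit 0) (XT.lf (nat_lit 0) (nat_lit 1104920905) (nat_lit 532) (nat_lit 1471773645) (nat_lit 76) (nat_lit 10332329167) (nat_lit 184) (nat_lit 5) (nat_lit 191) (nat_lit 5) (nat_lit 185) (nat_lit 5) (nat_lit 359) (nat_lit 310) (nat_lit 231)) (XT.lf (nat_lit 0) (nat_lit 5495040294) (nat_lit 532) (nat_lit 3119696446) (nat_lit 76) (nat_lit 4520330705) (nat_lit 178) (nat_lit 5) (nat_lit 185) (nat_lit 5) (nat_lit 179) (nat_lit 5) (nat_lit 360) (nat_lit 310) (nat_lit 230)))))) (XT.nd (nat_lit 390) (nat_lit 2052) (nat_lit 0) (XT.nd (nat_lit 156) (nat_lit 1292) (nat_lit 0) (XT.nd (nat_lit 78) (nat_lit 532) (nat_lit 0) (XT.lf (nat_lit 0) (nat_lit 8540811692) (nat_lit 456) (nat_lit 1520399714) (nat_lit 532) (nat_lit 3305803235) (nat_lit 172) (nat_lit 5) (nat_lit 178) (nat_lit 5) (nat_lit 179) (nat_lit 5) (nat_lit 361) (nat_lit 310) (nat_lit 229))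 (XT.lf (nat_lit 0) (nat_lit 1210218211) (nat_lit 532) (nat_lit 6623552753) (nat_lit 76) (nat_lit 5770668258) (nat_lit 165) (nat_lit 5) (nat_lit 172) (nat_lit 5) (nat_lit 166) (nat_lit 5) (nat_lit 362) (nat_lit 310) (nat_lit 228))) (XT.nd (nat_lit 78) (nat_lit 912) (nat_lit 0) (XT.lf (nat_lit 0) (nat_lit 5344600147) (nat_lit 380) (nat_lit 513059838) (nat_lit 456) (nat_lit 7990080903) (nat_lit 160) (nat_lit 5) (nat_lit 165) (nat_lit 5) (nat_lit 166) (nat_lit 5) (nat_lit 363) (nat_lit 310) (nat_lit 227)) (XT.nd (nat_lit 78) (nat_lit 456) (nat_lit 0) (XT.lf (nat_lit 0) (nat_lit 3613791725) (nat_lit 456) (nat_lit 7108454354) (nat_lit 532) (nat_lit 3374549288) (nat_lit 154) (nat_lit 5) (nat_lit 160) (nat_lit 5) (nat_lit 161) (nat_lit 5) (nat_lit 364) (nat_lit 310) (nat_lit 226)) (XT.lf (nat_lit 0) (nat_lit 1401240369) (nat_lit 456) (nat_lit 12537936738) (nat_lit 76) (nat_lit 413175356) (nat_lit 148) (nat_lit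 5) (nat_lit 154) (nat_lit 5) (nat_lit 149) (nat_lit 5) (nat_lit 365) (nat_lit 310) (nat_lit 225))))) (XT.nd (nat_lit 234) (nat_lit 1216) (nat_lit 0) (XT.nd (nat_lit 78) (nat_lit 836) (nat_lit 0) (XT.lf (nat_lit 0) (nat_lit 6358308118) (nat_lit 456) (nat_lit 112571472) (nat_lit 76) (nat_lit 8142581101) (nat_lit 148) (nat_lit 5) (nat_lit 154) (nat_lit 5) (nat_lit 149) (nat_lit 5) (nat_lit 366) (nat_lit 310) (nat_lit 224)) (XT.nd (nat_lit 78) (nat_lit 456) (nat_lit 0) (XT.lf (nat_lit 0) (nat_lit 11521167597) (nat_lit 456) (nat_lit 2086919085) (nat_lit 76) (nat_lit 1273181231) (nat_lit 143) (nat_lit 5) (nat_lit 149) (nat_lit 5) (nat_lit 144) (nat_lit 5) (nat_lit 367) (nat_lit 310) (nat_lit 223)) (XT.lf (nat_lit 0) (nat_lit 1741786080) (nat_lit 456) (nat_lit 4183583783) (nat_lit 76) (nat_lit 9229887293) (nat_lit 137) (nat_lit 5) (nat_lit 143) (nat_lit 5) (nat_lit 138) (nat_lit 5) (nat_lit 368) (nat_lit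 310) (nat_lit 222)))) (XT.nd (nat_lit 78) (nat_lit 836) (nat_lit 0) (XT.lf (nat_lit 0) (nat_lit 7004418897) (nat_lit 456) (nat_lit 6389966175) (nat_lit 76) (nat_lit 2041576774) (nat_lit 132) (nat_lit 5) (nat_lit 138) (nat_lit 5) (nat_lit 133) (nat_lit 5) (nat_lit 369) (nat_lit 310) (nat_lit 221)) (XT.nd (nat_lit 78) (nat_lit 456) (nat_lit 0) (XT.lf (nat_lit 0) (nat_lit 7007589191) (nat_lit 380) (nat_lit 5498141381) (nat_lit 456) (nat_lit 3217747694) (nat_lit 127) (nat_lit 5) (nat_lit 132) (nat_lit 5) (nat_lit 133) (nat_lit 5) (nat_lit 370) (nat_lit 310) (nat_lit 220)) (XT.lf (nat_lit 0) (nat_lit 2184626255) (nat_lit 456) (nat_lit 11159948327) (nat_lit 76) (nat_lit 2673564464) (nat_lit 121) (nat_lit 5) (nat_lit 127) (nat_lit 5) (nat_lit 122) (nat_lit 5) (nat_lit 371) (nat_lit 310) (nat_lit 219))))))))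
noncomputable def xc68 : XT := (XT.nd (nat_lit 42510) (nat_lit 0) (nat_lit 22344) (XT.nd (nat_lit 780) (nat_lit 1140) (nat_lit 0) (XT.nd (nat_lit 390) (nat_lit 1368) (nat_lit 0) (XT.nd (nat_lit 156) (nat_lit 684) (nat_lit 0) (XT.nd (nat_lit 78) (nat_lit 380) (nat_lit 0) (XT.lf (nat_lit 0) (nat_lit 2564216236) (nat_lit 304) (nat_lit 5222338001) (nat_lit 380) (nat_lit 8533042125) (nat_lit 117) (nat_lit 5) (nat_lit 121) (nat_lit 5) (nat_lit 122) (nat_lit 5) (nat_lit 372) (nat_lit 310) (nat_lit 218)) (XT.lf (nat_lit 0) (nat_lit 156622834) (nat_lit 380) (nat_lit 13466054757) (nat_lit 456) (nat_lit 3006102965) (nat_lit 112) (nat_lit 5) (nat_lit 117) (nat_lit 5) (nat_lit 118) (nat_lit 5) (nat_lit 373) (nat_lit 310) (nat_lit 217))) (XT.nd (nat_lit 78) (nat_lit 608) (nat_lit 0) (XT.lf (nat_lit 0) (nat_lit 2749140645) (nat_lit 456) (nat_lit 2372515665) (nat_lit 76) (nat_lit 11823286077) (nat_lit 111) (nat_lit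 5) (nat_lit 117) (nat_lit 5) (nat_lit 112) (nat_lit 5) (nat_lit 374) (nat_lit 310) (nat_lit 216)) (XT.nd (nat_lit 78) (nat_lit 304) (nat_lit 0) (XT.lf (nat_lit 0) (nat_lit 8708909392) (nat_lit 380) (nat_lit 5048731089) (nat_lit 76) (nat_lit 3511102467) (nat_lit 107) (nat_lit 5) (nat_lit 112) (nat_lit 5) (nat_lit 108) (nat_lit 5) (nat_lit 375) (nat_lit 310) (nat_lit 215)) (XT.lf (nat_lit 0) (nat_lit 9727332277) (nat_lit 304) (nat_lit 5204081167) (nat_lit 380) (nat_lit 2669170538) (nat_lit 103) (nat_lit 5) (nat_lit 107) (nat_lit 5) (nat_lit 108) (nat_lit 5) (nat_lit 376) (nat_lit 310) (nat_lit 214))))) (XT.nd (nat_lit 156) (nat_lit 684) (nat_lit 0) (XT.nd (nat_lit 78) (nat_lit 304) (nat_lit 0) (XT.lf (nat_lit 0) (nat_lit 3428871467) (nat_lit 380) (nat_lit 10866379520) (nat_lit 76) (nat_lit 3645188492) (nat_lit 98) (nat_lit 5) (nat_lit 103) (nat_lit 5) (nat_lit 99) (nat_lit 5) (nat_lit 377) (nat_lit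 310) (nat_lit 213)) (XT.lf (nat_lit 0) (nat_lit 4244708666) (nat_lit 304) (nat_lit 5516321621) (nat_lit 380) (nat_lit 8527363606) (nat_lit 94) (nat_lit 5) (nat_lit 98) (nat_lit 5) (nat_lit 99) (nat_lit 5) (nat_lit 378) (nat_lit 310) (nat_lit 212))) (XT.nd (nat_lit 78) (nat_lit 380) (nat_lit 0) (XT.lf (nat_lit 0) (nat_lit 1259893221) (nat_lit 304) (nat_lit 15100055989) (nat_lit 380) (nat_lit 2285306578) (nat_lit 90) (nat_lit 5) (nat_lit 94) (nat_lit 5) (nat_lit 95) (nat_lit 5) (nat_lit 379) (nat_lit 310) (nat_lit 211)) (XT.nd (nat_lit 78) (nat_lit 304) (nat_lit 0) (XT.lf (nat_lit 0) (nat_lit 4194293596) (nat_lit 380) (nat_lit 1905975089) (nat_lit 76) (nat_lit 12909928652) (nat_lit 89) (nat_lit 5) (nat_lit 94) (nat_lit 5) (nat_lit 90) (nat_lit 5) (nat_lit 380) (nat_lit 310) (nat_lit 210)) (XT.lf (nat_lit 0) (nat_lit 10923315986) (nat_lit 380) (nat_lit 5241510451) (nat_lit 76) (nat_lit 3219241320) (nat_lit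 85) (nat_lit 5) (nat_lit 90) (nat_lit 5) (nat_lit 86) (nat_lit 5) (nat_lit 381) (nat_lit 310) (nat_lit 209)))))) (XT.nd (nat_lit 41340) (nat_lit 0) (nat_lit 39368) (XT.nd (nat_lit 156) (nat_lit 532) (nat_lit 0) (XT.nd (nat_lit 78) (nat_lit 380) (nat_lit 0) (XT.lf (nat_lit 0) (nat_lit 10989151629) (nat_lit 228) (nat_lit 6963368993) (nat_lit 304) (nat_lit 1814671705) (nat_lit 82) (nat_lit 5) (nat_lit 85) (nat_lit 5) (nat_lit 86) (nat_lit 5) (nat_lit 382) (nat_lit 310) (nat_lit 208)) (XT.lf (nat_lit 0) (nat_lit 5040660775) (nat_lit 380) (nat_lit 12535758356) (nat_lit 76) (nat_lit 2583225305) (nat_lit 77) (nat_lit 5) (nat_lit 82) (nat_lit 5) (nat_lit 78) (nat_lit 5) (nat_lit 383) (nat_lit 310) (nat_lit 207))) (XT.nd (nat_lit 78) (nat_lit 304) (nat_lit 0) (XT.lf (nat_lit 0) (nat_lit 4025862050) (nat_lit 228) (nat_lit 8157735118) (nat_lit 304) (nat_lit 8377905020) (nat_lit 74) (nat_lit 5) (nat_lit 77) (nat_lit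 5) (nat_lit 78) (nat_lit 5) (nat_lit 384) (nat_lit 310) (nat_lit 206)) (XT.nd (nat_lit 78) (nat_lit 76) (nat_lit 0) (XT.lf (nat_lit 0) (nat_lit 231768107) (nat_lit 228) (nat_lit 19380339602) (nat_lit 304) (nat_lit 1361886071) (nat_lit 71) (nat_lit 5) (nat_lit 74) (nat_lit 5) (nat_lit 75) (nat_lit 5) (nat_lit 385) (nat_lit 310) (nat_lit 205)) (XT.lf (nat_lit 0) (nat_lit 5929601073) (nat_lit 304) (nat_lit 3803990639) (nat_lit 76) (nat_lit 11661672450) (nat_lit 70) (nat_lit 5) (nat_lit 74) (nat_lit 5) (nat_lit 71) (nat_lit 5) (nat_lit 386) (nat_lit 310) (nat_lit 204))))) (XT.nd (nat_lit 156) (nat_lit 1064) (nat_lit 0) (XT.nd (nat_lit 78) (nat_lit 0) (nat_lit 0) (XT.lf (nat_lit 0) (nat_lit 288267898) (nat_lit 0) (nat_lit 288267898) (nat_lit 988) (nat_lit 2903675886) (nat_lit 602) (nat_lit 5) (nat_lit 602) (nat_lit 3) (nat_lit 615) (nat_lit 3) (nat_lit 311) (nat_lit 311) (nat_lit 278)) (XT.lf (nat_lit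 0) (nat_lit 3910839168) (nat_lit 988) (nat_lit 1356068147) (nat_lit 1064) (nat_lit 1741826148) (nat_lit 602) (nat_lit 5) (nat_lit 615) (nat_lit 3) (nat_lit 616) (nat_lit 5) (nat_lit 312) (nat_lit 311) (nat_lit 277))) (XT.nd (nat_lit 78) (nat_lit 1064) (nat_lit 0) (XT.lf (nat_lit 76) (nat_lit 3812959006) (nat_lit 0) (nat_lit 2860832612) (nat_lit 1064) (nat_lit 386302427) (nat_lit 603) (nat_lit 5) (nat_lit 602) (nat_lit 5) (nat_lit 616) (nat_lit 5) (nat_lit 313) (nat_lit 311) (nat_lit 276)) (XT.nd (nat_lit 78) (nat_lit 0) (nat_lit 76) (XT.lf (nat_lit 76) (nat_lit 1997006147) (nat_lit 0) (nat_lit 296126212) (nat_lit 1140) (nat_lit 4821237207) (nat_lit 589) (nat_lit 5) (nat_lit 588) (nat_lit 5) (nat_lit 603) (nat_lit 5) (nat_lit 314) (nat_lit 311) (nat_lit 275)) (XT.lf (nat_lit 76) (nat_lit 199982800) (nat_lit 0) (nat_lit 4785241470) (nat_lit 1140) (nat_lit 2186293974) (nat_lit 590) (nat_lit 5) (nat_lit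 589) (nat_lit 5) (nat_lit 604) (nat_lit 5) (nat_lit 315) (nat_lit 311) (nat_lit 274))))))) (XT.nd (nat_lit 780) (nat_lit 12388) (nat_lit 0) (XT.nd (nat_lit 390) (nat_lit 2432) (nat_lit 0) (XT.nd (nat_lit 156) (nat_lit 1140) (nat_lit 0) (XT.nd (nat_lit 78) (nat_lit 0) (nat_lit 76) (XT.lf (nat_lit 0) (nat_lit 458360255) (nat_lit 1140) (nat_lit 1546621769) (nat_lit 1216) (nat_lit 5226623338) (nat_lit 574) (nat_lit 5) (nat_lit 589) (nat_lit 5) (nat_lit 590) (nat_lit 5) (nat_lit 316) (nat_lit 311) (nat_lit 273)) (XT.lf (nat_lit 0) (nat_lit 3088631262) (nat_lit 1140) (nat_lit 3278078261) (nat_lit 1216) (nat_lit 927819825) (nat_lit 575) (nat_lit 5) (nat_lit 590) (nat_lit 5) (nat_lit 591) (nat_lit 5) (nat_lit 317) (nat_lit 311) (nat_lit 272))) (XT.nd (nat_lit 78) (nat_lit 1216) (nat_lit 0) (XT.lf (nat_lit 76) (nat_lit 2368285003) (nat_lit 0) (nat_lit 3375145313) (nat_lit 1216) (nat_lit 1617039980) (nat_lit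 576) (nat_lit 5) (nat_lit 575) (nat_lit 5) (nat_lit 591) (nat_lit 5) (nat_lit 318) (nat_lit 311) (nat_lit 271)) (XT.nd (nat_lit 78) (nat_lit 0) (nat_lit 76) (XT.lf (nat_lit 76) (nat_lit 745705588) (nat_lit 0) (nat_lit 225217334) (nat_lit 1292) (nat_lit 6458665839) (nat_lit 560) (nat_lit 5) (nat_lit 559) (nat_lit 5) (nat_lit 576) (nat_lit 5) (nat_lit 319) (nat_lit 311) (nat_lit 270)) (XT.lf (nat_lit 0) (nat_lit 3578857250) (nat_lit 1216) (nat_lit 865857419) (nat_lit 1292) (nat_lit 3056604782) (nat_lit 560) (nat_lit 5) (nat_lit 576) (nat_lit 5) (nat_lit 577) (nat_lit 5) (nat_lit 320) (nat_lit 311) (nat_lit 269))))) (XT.nd (nat_lit 156) (nat_lit 1292) (nat_lit 0) (XT.nd (nat_lit 78) (nat_lit 1216) (nat_lit 0) (XT.lf (nat_lit 76) (nat_lit 5135094719) (nat_lit 0) (nat_lit 1077908818) (nat_lit 1292) (nat_lit 1363276405) (nat_lit 561) (nat_lit 5) (nat_lit 560) (nat_lit 5) (nat_lit 577) (nat_lit 5) (nat_lit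 321) (nat_lit 311) (nat_lit 268)) (XT.lf (nat_lit 0) (nat_lit 1216281204) (nat_lit 1292) (nat_lit 4013903518) (nat_lit 1368) (nat_lit 2423969068) (nat_lit 544) (nat_lit 5) (nat_lit 561) (nat_lit 5) (nat_lit 562) (nat_lit 5) (nat_lit 322) (nat_lit 311) (nat_lit 267))) (XT.nd (nat_lit 78) (nat_lit 1292) (nat_lit 0) (XT.lf (nat_lit 76) (nat_lit 2156735314) (nat_lit 0) (nat_lit 1652919048) (nat_lit 1368) (nat_lit 3925464783) (nat_lit 545) (nat_lit 5) (nat_lit 544) (nat_lit 5) (nat_lit 562) (nat_lit 5) (nat_lit 323) (nat_lit 311) (nat_lit 266)) (XT.nd (nat_lit 78) (nat_lit 1368) (nat_lit 0) (XT.lf (nat_lit 76) (nat_lit 685607503) (nat_lit 0) (nat_lit 5759419585) (nat_lit 1368) (nat_lit 1374235922) (nat_lit 546) (nat_lit 5) (nat_lit 545) (nat_lit 5) (nat_lit 563) (nat_lit 5) (nat_lit 324) (nat_lit 311) (nat_lit 265)) (XT.lf (nat_lit 0) (nat_lit 1206790867) (nat_lit 1368) (nat_lit 770343933) (nat_lit 1444)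 (nat_lit 5929271492) (nat_lit 527) (nat_lit 5) (nat_lit 545) (nat_lit 5) (nat_lit 546) (nat_lit 5) (nat_lit 325) (nat_lit 311) (nat_lit 264)))))) (XT.nd (nat_lit 390) (nat_lit 6460) (nat_lit 0) (XT.nd (nat_lit 156) (nat_lit 4636) (nat_lit 0) (XT.nd (nat_lit 78) (nat_lit 1368) (nat_lit 0) (XT.lf (nat_lit 0) (nat_lit 3820095739) (nat_lit 1368) (nat_lit 2216908350) (nat_lit 76) (nat_lit 1959538730) (nat_lit 528) (nat_lit 5) (nat_lit 546) (nat_lit 5) (nat_lit 529) (nat_lit 5) (nat_lit 326) (nat_lit 311) (nat_lit 263)) (XT.lf (nat_lit 0) (nat_lit 4433689296) (nat_lit 1368) (nat_lit 2050277077) (nat_lit 1444) (nat_lit 1606003807) (nat_lit 510) (nat_lit 5) (nat_lit 528) (nat_lit 5) (nat_lit 529) (nat_lit 5) (nat_lit 327) (nat_lit 311) (nat_lit 262))) (XT.nd (nat_lit 78) (nat_lit 3116) (nat_lit 0) (XT.lf (nat_lit 0) (nat_lit 1003092766) (nat_lit 1520) (nat_lit 5097139081) (nat_lit 76) (nat_lit 2086357888)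 (nat_lit 490) (nat_lit 5) (nat_lit 510) (nat_lit 5) (nat_lit 491) (nat_lit 5) (nat_lit 328) (nat_lit 311) (nat_lit 261)) (XT.nd (nat_lit 78) (nat_lit 1596) (nat_lit 0) (XT.lf (nat_lit 0) (nat_lit 1740957788) (nat_lit 1520) (nat_lit 1905834742) (nat_lit 1596) (nat_lit 4639567831) (nat_lit 470) (nat_lit 5) (nat_lit 490) (nat_lit 5) (nat_lit 491) (nat_lit 5) (nat_lit 329) (nat_lit 311) (nat_lit 260)) (XT.lf (nat_lit 0) (nat_lit 395013904) (nat_lit 1596) (nat_lit 5957662957) (nat_lit 1672) (nat_lit 2036816754) (nat_lit 449) (nat_lit 5) (nat_lit 470) (nat_lit 5) (nat_lit 471) (nat_lit 5) (nat_lit 330) (nat_lit 311) (nat_lit 259))))) (XT.nd (nat_lit 234) (nat_lit 2964) (nat_lit 0) (XT.nd (nat_lit 78) (nat_lit 3420) (nat_lit 0) (XT.lf (nat_lit 0) (nat_lit 624009049) (nat_lit 1672) (nat_lit 938585484) (nat_lit 76) (nat_lit 6933299615) (nat_lit 448) (nat_lit 5) (nat_lit 470) (nat_lit 5) (nat_lit 449) (nat_lit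 5) (nat_lit 331) (nat_lit 311) (nat_lit 258)) (XT.nd (nat_lit 78) (nat_lit 1748) (nat_lit 0) (XT.lf (nat_lit 0) (nat_lit 3331033155) (nat_lit 1748) (nat_lit 2284928664) (nat_lit 76) (nat_lit 2989399627) (nat_lit 426) (nat_lit 5) (nat_lit 449) (nat_lit 5) (nat_lit 427) (nat_lit 5) (nat_lit 332) (nat_lit 311) (nat_lit 257)) (XT.lf (nat_lit 0) (nat_lit 5089874467) (nat_lit 1748) (nat_lit 1013979731) (nat_lit 1824) (nat_lit 2614591047) (nat_lit 403) (nat_lit 5) (nat_lit 426) (nat_lit 5) (nat_lit 427) (nat_lit 5) (nat_lit 333) (nat_lit 311) (nat_lit 256)))) (XT.nd (nat_lit 78) (nat_lit 1748) (nat_lit 0) (XT.lf (nat_lit 0) (nat_lit 124314422) (nat_lit 1216) (nat_lit 4985821235) (nat_lit 76) (nat_lit 3724772425) (nat_lit 387) (nat_lit 5) (nat_lit 403) (nat_lit 5) (nat_lit 388) (nat_lit 5) (nat_lit 334) (nat_lit 311) (nat_lit 255)) (XT.nd (nat_lit 78) (nat_lit 836) (nat_lit 0) (XT.lf (nat_lit 0) (nat_lit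 2597240587) (nat_lit 912) (nat_lit 298524618) (nat_lit 988) (nat_lit 6059058316) (nat_lit 375) (nat_lit 5) (nat_lit 387) (nat_lit 5) (nat_lit 388) (nat_lit 5) (nat_lit 335) (nat_lit 311) (nat_lit 254)) (XT.lf (nat_lit 0) (nat_lit 1326231927) (nat_lit 836) (nat_lit 4435762457) (nat_lit 912) (nat_lit 3316131061) (nat_lit 364) (nat_lit 5) (nat_lit 375) (nat_lit 5) (nat_lit 376) (nat_lit 5) (nat_lit 336) (nat_lit 311) (nat_lit 253))))))))
noncomputable def xc69 : XT := (XT.nd (nat_lit 1560) (nat_lit 7828) (nat_lit 0) (XT.nd (nat_lit 780) (nat_lit 5624) (nat_lit 0) (XT.nd (nat_lit 390) (nat_lit 2964) (nat_lit 0) (XT.nd (nat_lit 156) (nat_lit 2508) (nat_lit 0) (XT.nd (nat_lit 78) (nat_lit 76) (nat_lit 0) (XT.lf (nat_lit 0) (nat_lit 59085814) (nat_lit 836) (nat_lit 8644441773) (nat_lit 912) (nat_lit 501833582) (nat_lit 353) (nat_lit 5) (nat_lit 364) (nat_lit 5) (nat_lit 365) (nat_lit 5) (nat_lit 337) (nat_lit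 311) (nat_lit 252)) (XT.lf (nat_lit 0) (nat_lit 2389146423) (nat_lit 912) (nat_lit 1229622209) (nat_lit 76) (nat_lit 5716880373) (nat_lit 352) (nat_lit 5) (nat_lit 364) (nat_lit 5) (nat_lit 353) (nat_lit 5) (nat_lit 338) (nat_lit 311) (nat_lit 251))) (XT.nd (nat_lit 78) (nat_lit 1672) (nat_lit 0) (XT.lf (nat_lit 0) (nat_lit 5358527683) (nat_lit 912) (nat_lit 2525545004) (nat_lit 76) (nat_lit 1585756137) (nat_lit 341) (nat_lit 5) (nat_lit 353) (nat_lit 5) (nat_lit 342) (nat_lit 5) (nat_lit 339) (nat_lit 311) (nat_lit 250)) (XT.nd (nat_lit 78) (nat_lit 836) (nat_lit 0) (XT.lf (nat_lit 0) (nat_lit 5766075021) (nat_lit 836) (nat_lit 2665095357) (nat_lit 912) (nat_lit 1176598977) (nat_lit 330) (nat_lit 5) (nat_lit 341) (nat_lit 5) (nat_lit 342) (nat_lit 5) (nat_lit 340) (nat_lit 311) (nat_lit 249)) (XT.lf (nat_lit 0) (nat_lit 1831914374) (nat_lit 836) (nat_lit 5185732630) (nat_lit 76) (nat_lit 2731779725)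 (nat_lit 319) (nat_lit 5) (nat_lit 330) (nat_lit 5) (nat_lit 320) (nat_lit 5) (nat_lit 341) (nat_lit 311) (nat_lit 248))))) (XT.nd (nat_lit 156) (nat_lit 1520) (nat_lit 0) (XT.nd (nat_lit 78) (nat_lit 684) (nat_lit 0) (XT.lf (nat_lit 0) (nat_lit 3339331294) (nat_lit 760) (nat_lit 1587415560) (nat_lit 836) (nat_lit 4968207924) (nat_lit 309) (nat_lit 5) (nat_lit 319) (nat_lit 5) (nat_lit 320) (nat_lit 5) (nat_lit 342) (nat_lit 311) (nat_lit 247)) (XT.lf (nat_lit 0) (nat_lit 2090436017) (nat_lit 684) (nat_lit 6046361409) (nat_lit 760) (nat_lit 1907620754) (nat_lit 300) (nat_lit 5) (nat_lit 309) (nat_lit 5) (nat_lit 310) (nat_lit 5) (nat_lit 343) (nat_lit 311) (nat_lit 246))) (XT.nd (nat_lit 78) (nat_lit 684) (nat_lit 0) (XT.lf (nat_lit 0) (nat_lit 822437196) (nat_lit 760) (nat_lit 414919903) (nat_lit 836) (nat_lit 8960684929) (nat_lit 289) (nat_lit 5) (nat_lit 299) (nat_lit 5) (nat_lit 300) (nat_lit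 5) (nat_lit 344) (nat_lit 311) (nat_lit 245)) (XT.nd (nat_lit 78) (nat_lit 684) (nat_lit 0) (XT.lf (nat_lit 0) (nat_lit 4489464786) (nat_lit 836) (nat_lit 489801310) (nat_lit 76) (nat_lit 5375998041) (nat_lit 289) (nat_lit 5) (nat_lit 300) (nat_lit 5) (nat_lit 290) (nat_lit 5) (nat_lit 345) (nat_lit 311) (nat_lit 244)) (XT.lf (nat_lit 0) (nat_lit 7854961132) (nat_lit 760) (nat_lit 1804385972) (nat_lit 76) (nat_lit 857554526) (nat_lit 280) (nat_lit 5) (nat_lit 290) (nat_lit 5) (nat_lit 281) (nat_lit 5) (nat_lit 346) (nat_lit 311) (nat_lit 243)))))) (XT.nd (nat_lit 390) (nat_lit 2280) (nat_lit 0) (XT.nd (nat_lit 156) (nat_lit 1976) (nat_lit 0) (XT.nd (nat_lit 78) (nat_lit 608) (nat_lit 0) (XT.lf (nat_lit 0) (nat_lit 667223113) (nat_lit 760) (nat_lit 3163305962) (nat_lit 76) (nat_lit 6852039678) (nat_lit 270) (nat_lit 5) (nat_lit 280) (nat_lit 5) (nat_lit 271) (nat_lit 5) (nat_lit 347) (nat_lit 311)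 (nat_lit 242)) (XT.lf (nat_lit 0) (nat_lit 4080619115) (nat_lit 684) (nat_lit 4563764319) (nat_lit 76) (nat_lit 2208074163) (nat_lit 262) (nat_lit 5) (nat_lit 271) (nat_lit 5) (nat_lit 263) (nat_lit 5) (nat_lit 348) (nat_lit 311) (nat_lit 241))) (XT.nd (nat_lit 78) (nat_lit 1292) (nat_lit 0) (XT.lf (nat_lit 0) (nat_lit 5025061831) (nat_lit 684) (nat_lit 2604702912) (nat_lit 760) (nat_lit 3397025073) (nat_lit 253) (nat_lit 5) (nat_lit 262) (nat_lit 5) (nat_lit 263) (nat_lit 5) (nat_lit 349) (nat_lit 311) (nat_lit 240)) (XT.nd (nat_lit 78) (nat_lit 608) (nat_lit 0) (XT.lf (nat_lit 0) (nat_lit 111482481) (nat_lit 684) (nat_lit 7478518008) (nat_lit 76) (nat_lit 3615684529) (nat_lit 244) (nat_lit 5) (nat_lit 253) (nat_lit 5) (nat_lit 245) (nat_lit 5) (nat_lit 350) (nat_lit 311) (nat_lit 239)) (XT.lf (nat_lit 0) (nat_lit 2376419627) (nat_lit 608) (nat_lit 1331852880) (nat_lit 684) (nat_lit 7680654519) (nat_lit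 236) (nat_lit 5) (nat_lit 244) (nat_lit 5) (nat_lit 245) (nat_lit 5) (nat_lit 351) (nat_lit 311) (nat_lit 238))))) (XT.nd (nat_lit 156) (nat_lit 1748) (nat_lit 0) (XT.nd (nat_lit 78) (nat_lit 0) (nat_lit 0) (XT.lf (nat_lit 0) (nat_lit 976775680) (nat_lit 532) (nat_lit 6482763694) (nat_lit 608) (nat_lit 4117207715) (nat_lit 229) (nat_lit 5) (nat_lit 236) (nat_lit 5) (nat_lit 237) (nat_lit 5) (nat_lit 352) (nat_lit 311) (nat_lit 237)) (XT.lf (nat_lit 0) (nat_lit 11325757288) (nat_lit 532) (nat_lit 24450206) (nat_lit 608) (nat_lit 419468896) (nat_lit 229) (nat_lit 5) (nat_lit 236) (nat_lit 5) (nat_lit 237) (nat_lit 5) (nat_lit 353) (nat_lit 311) (nat_lit 236))) (XT.nd (nat_lit 78) (nat_lit 1064) (nat_lit 0) (XT.lf (nat_lit 0) (nat_lit 3411602993) (nat_lit 684) (nat_lit 1937416367) (nat_lit 76) (nat_lit 6617608420) (nat_lit 220) (nat_lit 5) (nat_lit 229) (nat_lit 5) (nat_lit 221) (nat_lit 5) (nat_lit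 354) (nat_lit 311) (nat_lit 235)) (XT.nd (nat_lit 78) (nat_lit 532) (nat_lit 0) (XT.lf (nat_lit 0) (nat_lit 7379118711) (nat_lit 608) (nat_lit 3466538466) (nat_lit 76) (nat_lit 1323241870) (nat_lit 213) (nat_lit 5) (nat_lit 221) (nat_lit 5) (nat_lit 214) (nat_lit 5) (nat_lit 355) (nat_lit 311) (nat_lit 234)) (XT.lf (nat_lit 0) (nat_lit 7317908357) (nat_lit 532) (nat_lit 4203757877) (nat_lit 608) (nat_lit 854462767) (nat_lit 206) (nat_lit 5) (nat_lit 213) (nat_lit 5) (nat_lit 214) (nat_lit 5) (nat_lit 356) (nat_lit 311) (nat_lit 233))))))) (XT.nd (nat_lit 780) (nat_lit 3420) (nat_lit 0) (XT.nd (nat_lit 390) (nat_lit 2280) (nat_lit 0) (XT.nd (nat_lit 156) (nat_lit 988) (nat_lit 0) (XT.nd (nat_lit 78) (nat_lit 532) (nat_lit 0) (XT.lf (nat_lit 0) (nat_lit 3196495260) (nat_lit 608) (nat_lit 6718555536) (nat_lit 76) (nat_lit 2673329127) (nat_lit 198) (nat_lit 5) (nat_lit 206) (nat_lit 5) (nat_lit 199) (nat_lit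 5) (nat_lit 357) (nat_lit 311) (nat_lit 232)) (XT.lf (nat_lit 0) (nat_lit 4359136991) (nat_lit 532) (nat_lit 3050037402) (nat_lit 608) (nat_lit 5396684864) (nat_lit 191) (nat_lit 5) (nat_lit 198) (nat_lit 5) (nat_lit 199) (nat_lit 5) (nat_lit 358) (nat_lit 311) (nat_lit 231))) (XT.nd (nat_lit 78) (nat_lit 532) (nat_lit 0) (XT.lf (nat_lit 0) (nat_lit 2789901994) (nat_lit 456) (nat_lit 9009916248) (nat_lit 532) (nat_lit 1229022623) (nat_lit 185) (nat_lit 5) (nat_lit 191) (nat_lit 5) (nat_lit 192) (nat_lit 5) (nat_lit 359) (nat_lit 311) (nat_lit 230)) (XT.nd (nat_lit 78) (nat_lit 0) (nat_lit 0) (XT.lf (nat_lit 0) (nat_lit 1144100711) (nat_lit 456) (nat_lit 1926892079) (nat_lit 532) (nat_lit 10186180344) (nat_lit 178) (nat_lit 5) (nat_lit 184) (nat_lit 5) (nat_lit 185) (nat_lit 5) (nat_lit 360) (nat_lit 311) (nat_lit 229)) (XT.lf (nat_lit 0) (nat_lit 7550847178) (nat_lit 532) (nat_lit 577649174) (nat_lit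 76) (nat_lit 5362354673) (nat_lit 178) (nat_lit 5) (nat_lit 185) (nat_lit 5) (nat_lit 179) (nat_lit 5) (nat_lit 361) (nat_lit 311) (nat_lit 228))))) (XT.nd (nat_lit 156) (nat_lit 1292) (nat_lit 0) (XT.nd (nat_lit 78) (nat_lit 532) (nat_lit 0) (XT.lf (nat_lit 0) (nat_lit 11389914110) (nat_lit 456) (nat_lit 825847618) (nat_lit 532) (nat_lit 1514772829) (nat_lit 172) (nat_lit 5) (nat_lit 178) (nat_lit 5) (nat_lit 179) (nat_lit 5) (nat_lit 362) (nat_lit 311) (nat_lit 227)) (XT.lf (nat_lit 0) (nat_lit 3079184395) (nat_lit 532) (nat_lit 4214522708) (nat_lit 76) (nat_lit 6681796871) (nat_lit 165) (nat_lit 5) (nat_lit 172) (nat_lit 5) (nat_lit 166) (nat_lit 5) (nat_lit 363) (nat_lit 311) (nat_lit 226))) (XT.nd (nat_lit 78) (nat_lit 912) (nat_lit 0) (XT.lf (nat_lit 0) (nat_lit 7830892446) (nat_lit 456) (nat_lit 6158048866) (nat_lit 76) (nat_lit 237878613) (nat_lit 160) (nat_lit 5) (nat_lit 166) (nat_lit 5)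 (nat_lit 161) (nat_lit 5) (nat_lit 364) (nat_lit 311) (nat_lit 225)) (XT.nd (nat_lit 78) (nat_lit 456) (nat_lit 0) (XT.lf (nat_lit 0) (nat_lit 6276831251) (nat_lit 456) (nat_lit 6532147873) (nat_lit 532) (nat_lit 1675027394) (nat_lit 154) (nat_lit 5) (nat_lit 160) (nat_lit 5) (nat_lit 161) (nat_lit 5) (nat_lit 365) (nat_lit 311) (nat_lit 224)) (XT.lf (nat_lit 0) (nat_lit 3190289111) (nat_lit 456) (nat_lit 10347234967) (nat_lit 76) (nat_lit 1210086183) (nat_lit 148) (nat_lit 5) (nat_lit 154) (nat_lit 5) (nat_lit 149) (nat_lit 5) (nat_lit 366) (nat_lit 311) (nat_lit 223)))))) (XT.nd (nat_lit 390) (nat_lit 1824) (nat_lit 0) (XT.nd (nat_lit 156) (nat_lit 836) (nat_lit 0) (XT.nd (nat_lit 78) (nat_lit 380) (nat_lit 0) (XT.lf (nat_lit 0) (nat_lit 2407706432) (nat_lit 380) (nat_lit 5853111057) (nat_lit 456) (nat_lit 6756450127) (nat_lit 143) (nat_lit 5) (nat_lit 148) (nat_lit 5) (nat_lit 149) (nat_lit 5)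 (nat_lit 367) (nat_lit 311) (nat_lit 222)) (XT.lf (nat_lit 0) (nat_lit 334994708) (nat_lit 380) (nat_lit 13201749293) (nat_lit 456) (nat_lit 1757211964) (nat_lit 138) (nat_lit 5) (nat_lit 143) (nat_lit 5) (nat_lit 144) (nat_lit 5) (nat_lit 368) (nat_lit 311) (nat_lit 221))) (XT.nd (nat_lit 78) (nat_lit 760) (nat_lit 0) (XT.lf (nat_lit 0) (nat_lit 3440236187) (nat_lit 456) (nat_lit 1846989242) (nat_lit 76) (nat_lit 10289431265) (nat_lit 137) (nat_lit 5) (nat_lit 143) (nat_lit 5) (nat_lit 138) (nat_lit 5) (nat_lit 369) (nat_lit 311) (nat_lit 220)) (XT.nd (nat_lit 78) (nat_lit 380) (nat_lit 0) (XT.lf (nat_lit 0) (nat_lit 8833774024) (nat_lit 456) (nat_lit 4132151023) (nat_lit 76) (nat_lit 2900406693) (nat_lit 132) (nat_lit 5) (nat_lit 138) (nat_lit 5) (nat_lit 133) (nat_lit 5) (nat_lit 370) (nat_lit 311) (nat_lit 219)) (XT.lf (nat_lit 0) (nat_lit 9627590547) (nat_lit 380) (nat_lit 4841018528) (nat_lit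 456) (nat_lit 1694504347) (nat_lit 127) (nat_lit 5) (nat_lit 132) (nat_lit 5) (nat_lit 133) (nat_lit 5) (nat_lit 371) (nat_lit 311) (nat_lit 218))))) (XT.nd (nat_lit 234) (nat_lit 684) (nat_lit 0) (XT.nd (nat_lit 78) (nat_lit 684) (nat_lit 0) (XT.lf (nat_lit 0) (nat_lit 3823020068) (nat_lit 456) (nat_lit 9076568416) (nat_lit 76) (nat_lit 3567337747) (nat_lit 121) (nat_lit 5) (nat_lit 127) (nat_lit 5) (nat_lit 122) (nat_lit 5) (nat_lit 372) (nat_lit 311) (nat_lit 217)) (XT.nd (nat_lit 78) (nat_lit 380) (nat_lit 0) (XT.lf (nat_lit 0) (nat_lit 5020089012) (nat_lit 304) (nat_lit 4542551263) (nat_lit 380) (nat_lit 7215403039) (nat_lit 117) (nat_lit 5) (nat_lit 121) (nat_lit 5) (nat_lit 122) (nat_lit 5) (nat_lit 373) (nat_lit 311) (nat_lit 216)) (XT.lf (nat_lit 0) (nat_lit 2526965221) (nat_lit 380) (nat_lit 13022587214) (nat_lit 456) (nat_lit 1547444976) (nat_lit 112) (nat_lit 5) (nat_lit 117) (nat_lit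 5) (nat_lit 118) (nat_lit 5) (nat_lit 374) (nat_lit 311) (nat_lit 215)))) (XT.nd (nat_lit 78) (nat_lit 608) (nat_lit 0) (XT.lf (nat_lit 0) (nat_lit 4315622387) (nat_lit 456) (nat_lit 126958941) (nat_lit 76) (nat_lit 12980760124) (nat_lit 111) (nat_lit 5) (nat_lit 117) (nat_lit 5) (nat_lit 112) (nat_lit 5) (nat_lit 375) (nat_lit 311) (nat_lit 214)) (XT.nd (nat_lit 78) (nat_lit 304) (nat_lit 0) (XT.lf (nat_lit 0) (nat_lit 10431105529) (nat_lit 380) (nat_lit 2897021326) (nat_lit 76) (nat_lit 4429198585) (nat_lit 107) (nat_lit 5) (nat_lit 112) (nat_lit 5) (nat_lit 108) (nat_lit 5) (nat_lit 376) (nat_lit 311) (nat_lit 213)) (XT.lf (nat_lit 0) (nat_lit 12284957716) (nat_lit 304) (nat_lit 4527486773) (nat_lit 380) (nat_lit 1287241629) (nat_lit 103) (nat_lit 5) (nat_lit 107) (nat_lit 5) (nat_lit 108) (nat_lit 5) (nat_lit 377) (nat_lit 311) (nat_lit 212))))))))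
noncomputable def xc70 : XT := (XT.nd (nat_lit 42588) (nat_lit 0) (nat_lit 18088) (XT.nd (nat_lit 41808) (nat_lit 0) (nat_lit 35872) (XT.nd (nat_lit 390) (nat_lit 1064) (nat_lit 0) (XT.nd (nat_lit 156) (nat_lit 684) (nat_lit 0) (XT.nd (nat_lit 78) (nat_lit 304) (nat_lit 0) (XT.lf (nat_lit 0) (nat_lit 4952546307) (nat_lit 380) (nat_lit 8921074809) (nat_lit 76) (nat_lit 4576373977) (nat_lit 98) (nat_lit 5) (nat_lit 103) (nat_lit 5) (nat_lit 99) (nat_lit 5) (nat_lit 378) (nat_lit 311) (nat_lit 211)) (XT.lf (nat_lit 0) (nat_lit 6606496941) (nat_lit 304) (nat_lit 4841297684) (nat_lit 380) (nat_lit 7361138050) (nat_lit 94) (nat_lit 5) (nat_lit 98) (nat_lit 5) (nat_lit 99) (nat_lit 5) (nat_lit 379) (nat_lit 311) (nat_lit 210))) (XT.nd (nat_lit 78) (nat_lit 380) (nat_lit 0) (XT.lf (nat_lit 0) (nat_lit 3518174083) (nat_lit 304) (nat_lit 14705622111) (nat_lit 380) (nat_lit 953128758) (nat_lit 90) (nat_lit 5)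 (nat_lit 94) (nat_lit 5) (nat_lit 95) (nat_lit 5) (nat_lit 380) (nat_lit 311) (nat_lit 209)) (XT.nd (nat_lit 78) (nat_lit 0) (nat_lit 0) (XT.lf (nat_lit 0) (nat_lit 213508050) (nat_lit 304) (nat_lit 5450103598) (nat_lit 380) (nat_lit 13889805243) (nat_lit 85) (nat_lit 5) (nat_lit 89) (nat_lit 5) (nat_lit 90) (nat_lit 5) (nat_lit 381) (nat_lit 311) (nat_lit 208)) (XT.lf (nat_lit 0) (nat_lit 12573248262) (nat_lit 380) (nat_lit 3238948668) (nat_lit 76) (nat_lit 4126737932) (nat_lit 85) (nat_lit 5) (nat_lit 90) (nat_lit 5) (nat_lit 86) (nat_lit 5) (nat_lit 382) (nat_lit 311) (nat_lit 207))))) (XT.nd (nat_lit 156) (nat_lit 456) (nat_lit 0) (XT.nd (nat_lit 78) (nat_lit 380) (nat_lit 0) (XT.lf (nat_lit 0) (nat_lit 13443592970) (nat_lit 228) (nat_lit 6345019827) (nat_lit 304) (nat_lit 545440821) (nat_lit 82) (nat_lit 5) (nat_lit 85) (nat_lit 5) (nat_lit 86) (nat_lit 5) (nat_lit 383) (nat_lit 311) (nat_lit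 206)) (XT.lf (nat_lit 0) (nat_lit 6479187803) (nat_lit 380) (nat_lit 10783787945) (nat_lit 76) (nat_lit 3475517561) (nat_lit 77) (nat_lit 5) (nat_lit 82) (nat_lit 5) (nat_lit 78) (nat_lit 5) (nat_lit 384) (nat_lit 311) (nat_lit 205))) (XT.nd (nat_lit 78) (nat_lit 228) (nat_lit 0) (XT.lf (nat_lit 0) (nat_lit 6240156101) (nat_lit 228) (nat_lit 7572354310) (nat_lit 304) (nat_lit 7340380080) (nat_lit 74) (nat_lit 5) (nat_lit 77) (nat_lit 5) (nat_lit 78) (nat_lit 5) (nat_lit 385) (nat_lit 311) (nat_lit 204)) (XT.nd (nat_lit 41106) (nat_lit 0) (nat_lit 40356) (XT.lf (nat_lit 0) (nat_lit 2318016048) (nat_lit 228) (nat_lit 19127794832) (nat_lit 304) (nat_lit 132312753) (nat_lit 71) (nat_lit 5) (nat_lit 74) (nat_lit 5) (nat_lit 75) (nat_lit 5) (nat_lit 386) (nat_lit 311) (nat_lit 203)) (XT.lf (nat_lit 0) (nat_lit 1648305527) (nat_lit 0) (nat_lit 1648305527) (nat_lit 988) (nat_lit 232676941) (nat_lit 602) (nat_lit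 5) (nat_lit 602) (nat_lit 3) (nat_lit 615) (nat_lit 3) (nat_lit 312) (nat_lit 312) (nat_lit 276)))))) (XT.nd (nat_lit 390) (nat_lit 2280) (nat_lit 0) (XT.nd (nat_lit 156) (nat_lit 1064) (nat_lit 0) (XT.nd (nat_lit 78) (nat_lit 0) (nat_lit 76) (XT.lf (nat_lit 76) (nat_lit 1350279927) (nat_lit 0) (nat_lit 782935714) (nat_lit 1140) (nat_lit 4978124049) (nat_lit 588) (nat_lit 5) (nat_lit 587) (nat_lit 3) (nat_lit 602) (nat_lit 5) (nat_lit 313) (nat_lit 312) (nat_lit 275)) (XT.lf (nat_lit 0) (nat_lit 4739720224) (nat_lit 1064) (nat_lit 567463536) (nat_lit 1140) (nat_lit 1859761425) (nat_lit 588) (nat_lit 5) (nat_lit 602) (nat_lit 5) (nat_lit 603) (nat_lit 5) (nat_lit 314) (nat_lit 312) (nat_lit 274))) (XT.nd (nat_lit 78) (nat_lit 0) (nat_lit 76) (XT.lf (nat_lit 0) (nat_lit 135255412) (nat_lit 1140) (nat_lit 2439985551) (nat_lit 1216) (nat_lit 4650242461) (nat_lit 573) (nat_lit 5) (nat_lit 588) (nat_lit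 5) (nat_lit 589) (nat_lit 5) (nat_lit 315) (nat_lit 312) (nat_lit 273)) (XT.nd (nat_lit 78) (nat_lit 0) (nat_lit 0) (XT.lf (nat_lit 0) (nat_lit 2670863898) (nat_lit 1140) (nat_lit 4298503124) (nat_lit 1216) (nat_lit 317548192) (nat_lit 574) (nat_lit 5) (nat_lit 589) (nat_lit 5) (nat_lit 590) (nat_lit 5) (nat_lit 316) (nat_lit 312) (nat_lit 272)) (XT.lf (nat_lit 76) (nat_lit 1206844124) (nat_lit 0) (nat_lit 4023794653) (nat_lit 1216) (nat_lit 2120630859) (nat_lit 575) (nat_lit 5) (nat_lit 574) (nat_lit 5) (nat_lit 590) (nat_lit 5) (nat_lit 317) (nat_lit 312) (nat_lit 271))))) (XT.nd (nat_lit 156) (nat_lit 1140) (nat_lit 0) (XT.nd (nat_lit 78) (nat_lit 0) (nat_lit 76) (XT.lf (nat_lit 0) (nat_lit 381204856) (nat_lit 1216) (nat_lit 539118573) (nat_lit 1292) (nat_lit 6498463507) (nat_lit 558) (nat_lit 5) (nat_lit 574) (nat_lit 5) (nat_lit 575) (nat_lit 5) (nat_lit 318) (nat_lit 312) (nat_lit 270)) (XT.lf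 (nat_lit 0) (nat_lit 2889573088) (nat_lit 1216) (nat_lit 2269306953) (nat_lit 1292) (nat_lit 2330002075) (nat_lit 559) (nat_lit 5) (nat_lit 575) (nat_lit 5) (nat_lit 576) (nat_lit 5) (nat_lit 319) (nat_lit 312) (nat_lit 269))) (XT.nd (nat_lit 78) (nat_lit 1216) (nat_lit 0) (XT.lf (nat_lit 76) (nat_lit 3583476999) (nat_lit 0) (nat_lit 1836096032) (nat_lit 1292) (nat_lit 2142616866) (nat_lit 560) (nat_lit 5) (nat_lit 559) (nat_lit 5) (nat_lit 576) (nat_lit 5) (nat_lit 320) (nat_lit 312) (nat_lit 268)) (XT.nd (nat_lit 78) (nat_lit 0) (nat_lit 0) (XT.lf (nat_lit 0) (nat_lit 336546733) (nat_lit 1292) (nat_lit 5675757022) (nat_lit 1368) (nat_lit 1626301234) (nat_lit 543) (nat_lit 5) (nat_lit 560) (nat_lit 5) (nat_lit 561) (nat_lit 5) (nat_lit 321) (nat_lit 312) (nat_lit 267)) (XT.lf (nat_lit 76) (nat_lit 342030775) (nat_lit 0) (nat_lit 2477928182) (nat_lit 1368) (nat_lit 4897925176) (nat_lit 544) (nat_lit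 5) (nat_lit 543) (nat_lit 5) (nat_lit 561) (nat_lit 5) (nat_lit 322) (nat_lit 312) (nat_lit 266))))))) (XT.nd (nat_lit 780) (nat_lit 8892) (nat_lit 0) (XT.nd (nat_lit 390) (nat_lit 6384) (nat_lit 0) (XT.nd (nat_lit 156) (nat_lit 1216) (nat_lit 0) (XT.nd (nat_lit 78) (nat_lit 1368) (nat_lit 0) (XT.lf (nat_lit 0) (nat_lit 5343536190) (nat_lit 1292) (nat_lit 1245451252) (nat_lit 1368) (nat_lit 1211274475) (nat_lit 544) (nat_lit 5) (nat_lit 561) (nat_lit 5) (nat_lit 562) (nat_lit 5) (nat_lit 323) (nat_lit 312) (nat_lit 265)) (XT.lf (nat_lit 0) (nat_lit 27923362) (nat_lit 1368) (nat_lit 2822465142) (nat_lit 1444) (nat_lit 5035327529) (nat_lit 526) (nat_lit 5) (nat_lit 544) (nat_lit 5) (nat_lit 545) (nat_lit 5) (nat_lit 324) (nat_lit 312) (nat_lit 264))) (XT.nd (nat_lit 78) (nat_lit 1292) (nat_lit 0) (XT.lf (nat_lit 0) (nat_lit 2515752519) (nat_lit 1368) (nat_lit 4401548468) (nat_lit 1444) (nat_lit 1056898623)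 (nat_lit 527) (nat_lit 5) (nat_lit 545) (nat_lit 5) (nat_lit 546) (nat_lit 5) (nat_lit 325) (nat_lit 312) (nat_lit 263)) (XT.nd (nat_lit 78) (nat_lit 1292) (nat_lit 0) (XT.lf (nat_lit 76) (nat_lit 2085279594) (nat_lit 0) (nat_lit 2969944763) (nat_lit 1444) (nat_lit 3010603255) (nat_lit 528) (nat_lit 5) (nat_lit 527) (nat_lit 5) (nat_lit 546) (nat_lit 5) (nat_lit 326) (nat_lit 312) (nat_lit 262)) (XT.lf (nat_lit 0) (nat_lit 611182705) (nat_lit 1368) (nat_lit 7027895326) (nat_lit 1444) (nat_lit 521791664) (nat_lit 510) (nat_lit 5) (nat_lit 528) (nat_lit 5) (nat_lit 529) (nat_lit 5) (nat_lit 327) (nat_lit 312) (nat_lit 261))))) (XT.nd (nat_lit 156) (nat_lit 4864) (nat_lit 0) (XT.nd (nat_lit 78) (nat_lit 1444) (nat_lit 0) (XT.lf (nat_lit 0) (nat_lit 2003914956) (nat_lit 1444) (nat_lit 865741744) (nat_lit 76) (nat_lit 5389088857) (nat_lit 509) (nat_lit 5) (nat_lit 528) (nat_lit 5) (nat_lit 510) (nat_lit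 5) (nat_lit 328) (nat_lit 312) (nat_lit 260)) (XT.lf (nat_lit 0) (nat_lit 4577544928) (nat_lit 1520) (nat_lit 2330509966) (nat_lit 76) (nat_lit 1451875977) (nat_lit 490) (nat_lit 5) (nat_lit 510) (nat_lit 5) (nat_lit 491) (nat_lit 5) (nat_lit 329) (nat_lit 312) (nat_lit 259))) (XT.nd (nat_lit 78) (nat_lit 3344) (nat_lit 0) (XT.lf (nat_lit 0) (nat_lit 4665363688) (nat_lit 1520) (nat_lit 2550606307) (nat_lit 1596) (nat_lit 1248456217) (nat_lit 470) (nat_lit 5) (nat_lit 490) (nat_lit 5) (nat_lit 491) (nat_lit 5) (nat_lit 330) (nat_lit 312) (nat_lit 258)) (XT.nd (nat_lit 78) (nat_lit 1672) (nat_lit 0) (XT.lf (nat_lit 0) (nat_lit 1327332361) (nat_lit 1672) (nat_lit 5275559939) (nat_lit 76) (nat_lit 1969338312) (nat_lit 448) (nat_lit 5) (nat_lit 470) (nat_lit 5) (nat_lit 449) (nat_lit 5) (nat_lit 331) (nat_lit 312) (nat_lit 257)) (XT.lf (nat_lit 0) (nat_lit 1917761226) (nat_lit 1672) (nat_lit 2036195204)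 (nat_lit 1748) (nat_lit 4729361405) (nat_lit 426) (nat_lit 5) (nat_lit 448) (nat_lit 5) (nat_lit 449) (nat_lit 5) (nat_lit 332) (nat_lit 312) (nat_lit 256)))))) (XT.nd (nat_lit 390) (nat_lit 4180) (nat_lit 0) (XT.nd (nat_lit 156) (nat_lit 2888) (nat_lit 0) (XT.nd (nat_lit 78) (nat_lit 76) (nat_lit 0) (XT.lf (nat_lit 0) (nat_lit 534760814) (nat_lit 1748) (nat_lit 6117984885) (nat_lit 1824) (nat_lit 2145148148) (nat_lit 403) (nat_lit 5) (nat_lit 426) (nat_lit 5) (nat_lit 427) (nat_lit 5) (nat_lit 333) (nat_lit 312) (nat_lit 255)) (XT.lf (nat_lit 0) (nat_lit 507223744) (nat_lit 1824) (nat_lit 842267898) (nat_lit 76) (nat_lit 7566422638) (nat_lit 402) (nat_lit 5) (nat_lit 426) (nat_lit 5) (nat_lit 403) (nat_lit 5) (nat_lit 334) (nat_lit 312) (nat_lit 254))) (XT.nd (nat_lit 78) (nat_lit 1748) (nat_lit 0) (XT.lf (nat_lit 0) (nat_lit 3217485942) (nat_lit 1216) (nat_lit 2239793720) (nat_lit 76) (nat_lit 3579784528)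 (nat_lit 387) (nat_lit 5) (nat_lit 403) (nat_lit 5) (nat_lit 388) (nat_lit 5) (nat_lit 335) (nat_lit 312) (nat_lit 253)) (XT.nd (nat_lit 78) (nat_lit 836) (nat_lit 0) (XT.lf (nat_lit 0) (nat_lit 5523782251) (nat_lit 912) (nat_lit 476809406) (nat_lit 988) (nat_lit 3161447312) (nat_lit 375) (nat_lit 5) (nat_lit 387) (nat_lit 5) (nat_lit 388) (nat_lit 5) (nat_lit 336) (nat_lit 312) (nat_lit 252)) (XT.lf (nat_lit 0) (nat_lit 4229941984) (nat_lit 836) (nat_lit 4652491282) (nat_lit 912) (nat_lit 408045344) (nat_lit 364) (nat_lit 5) (nat_lit 375) (nat_lit 5) (nat_lit 376) (nat_lit 5) (nat_lit 337) (nat_lit 312) (nat_lit 251))))) (XT.nd (nat_lit 234) (nat_lit 1596) (nat_lit 0) (XT.nd (nat_lit 78) (nat_lit 1672) (nat_lit 0) (XT.lf (nat_lit 0) (nat_lit 2389837437) (nat_lit 912) (nat_lit 6500768879) (nat_lit 76) (nat_lit 531994894) (nat_lit 352) (nat_lit 5) (nat_lit 364) (nat_lit 5) (nat_lit 353) (nat_lit 5)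 (nat_lit 338) (nat_lit 312) (nat_lit 250)) (XT.nd (nat_lit 78) (nat_lit 836) (nat_lit 0) (XT.lf (nat_lit 0) (nat_lit 1585879237) (nat_lit 836) (nat_lit 3700720625) (nat_lit 912) (nat_lit 4271642863) (nat_lit 341) (nat_lit 5) (nat_lit 352) (nat_lit 5) (nat_lit 353) (nat_lit 5) (nat_lit 339) (nat_lit 312) (nat_lit 249)) (XT.lf (nat_lit 0) (nat_lit 243273213) (nat_lit 836) (nat_lit 8029375531) (nat_lit 912) (nat_lit 1425275436) (nat_lit 330) (nat_lit 5) (nat_lit 341) (nat_lit 5) (nat_lit 342) (nat_lit 5) (nat_lit 340) (nat_lit 312) (nat_lit 248)))) (XT.nd (nat_lit 78) (nat_lit 1520) (nat_lit 0) (XT.lf (nat_lit 0) (nat_lit 1512489185) (nat_lit 912) (nat_lit 1116899235) (nat_lit 76) (nat_lit 7211714241) (nat_lit 329) (nat_lit 5) (nat_lit 341) (nat_lit 5) (nat_lit 330) (nat_lit 5) (nat_lit 341) (nat_lit 312) (nat_lit 247)) (XT.nd (nat_lit 78) (nat_lit 760) (nat_lit 0) (XT.lf (nat_lit 0) (nat_lit 4535465085)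 (nat_lit 836) (nat_lit 2502159955) (nat_lit 76) (nat_lit 2950451164) (nat_lit 319) (nat_lit 5) (nat_lit 330) (nat_lit 5) (nat_lit 320) (nat_lit 5) (nat_lit 342) (nat_lit 312) (nat_lit 246)) (XT.lf (nat_lit 0) (nat_lit 6232594138) (nat_lit 760) (nat_lit 1431539455) (nat_lit 836) (nat_lit 2475041771) (nat_lit 309) (nat_lit 5) (nat_lit 319) (nat_lit 5) (nat_lit 320) (nat_lit 5) (nat_lit 343) (nat_lit 312) (nat_lit 245))))))))
noncomputable def xc71 : XT := (XT.nd (nat_lit 1638) (nat_lit 6688) (nat_lit 0) (XT.nd (nat_lit 780) (nat_lit 4864) (nat_lit 0) (XT.nd (nat_lit 390) (nat_lit 3116) (nat_lit 0) (XT.nd (nat_lit 156) (nat_lit 1444) (nat_lit 0) (XT.nd (nat_lit 78) (nat_lit 760) (nat_lit 0) (XT.lf (nat_lit 0) (nat_lit 612110572) (nat_lit 760) (nat_lit 5346901583) (nat_lit 76) (nat_lit 4335173811) (nat_lit 299) (nat_lit 5) (nat_lit 309) (nat_lit 5) (nat_lit 300) (nat_lit 5) (nat_lit 344) (nat_lit 312)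 (nat_lit 244)) (XT.lf (nat_lit 0) (nat_lit 3634092119) (nat_lit 760) (nat_lit 135364703) (nat_lit 836) (nat_lit 6683853985) (nat_lit 289) (nat_lit 5) (nat_lit 299) (nat_lit 5) (nat_lit 300) (nat_lit 5) (nat_lit 345) (nat_lit 312) (nat_lit 243))) (XT.nd (nat_lit 78) (nat_lit 760) (nat_lit 0) (XT.lf (nat_lit 0) (nat_lit 2278551773) (nat_lit 684) (nat_lit 4784541199) (nat_lit 760) (nat_lit 3553299814) (nat_lit 280) (nat_lit 5) (nat_lit 289) (nat_lit 5) (nat_lit 290) (nat_lit 5) (nat_lit 346) (nat_lit 312) (nat_lit 242)) (XT.nd (nat_lit 78) (nat_lit 76) (nat_lit 0) (XT.lf (nat_lit 0) (nat_lit 907846427) (nat_lit 684) (nat_lit 9561977701) (nat_lit 760) (nat_lit 314271733) (nat_lit 271) (nat_lit 5) (nat_lit 280) (nat_lit 5) (nat_lit 281) (nat_lit 5) (nat_lit 347) (nat_lit 312) (nat_lit 241)) (XT.lf (nat_lit 0) (nat_lit 3025101545) (nat_lit 760) (nat_lit 516673133) (nat_lit 76) (nat_lit 7413820458) (nat_lit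 270) (nat_lit 5) (nat_lit 280) (nat_lit 5) (nat_lit 271) (nat_lit 5) (nat_lit 348) (nat_lit 312) (nat_lit 240))))) (XT.nd (nat_lit 156) (nat_lit 1824) (nat_lit 0) (XT.nd (nat_lit 78) (nat_lit 684) (nat_lit 0) (XT.lf (nat_lit 0) (nat_lit 6492977956) (nat_lit 684) (nat_lit 1959865023) (nat_lit 76) (nat_lit 2678716294) (nat_lit 262) (nat_lit 5) (nat_lit 271) (nat_lit 5) (nat_lit 263) (nat_lit 5) (nat_lit 349) (nat_lit 312) (nat_lit 239)) (XT.lf (nat_lit 0) (nat_lit 7872159490) (nat_lit 684) (nat_lit 2227247638) (nat_lit 760) (nat_lit 1212717755) (nat_lit 253) (nat_lit 5) (nat_lit 262) (nat_lit 5) (nat_lit 263) (nat_lit 5) (nat_lit 350) (nat_lit 312) (nat_lit 238))) (XT.nd (nat_lit 78) (nat_lit 1140) (nat_lit 0) (XT.lf (nat_lit 0) (nat_lit 2325846038) (nat_lit 684) (nat_lit 4978446403) (nat_lit 76) (nat_lit 4192720588) (nat_lit 244) (nat_lit 5) (nat_lit 253) (nat_lit 5) (nat_lit 245) (nat_lit 5) (nat_lit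 351) (nat_lit 312) (nat_lit 237)) (XT.nd (nat_lit 78) (nat_lit 532) (nat_lit 0) (XT.lf (nat_lit 0) (nat_lit 5127938767) (nat_lit 608) (nat_lit 855604192) (nat_lit 684) (nat_lit 5703167395) (nat_lit 236) (nat_lit 5) (nat_lit 244) (nat_lit 5) (nat_lit 245) (nat_lit 5) (nat_lit 352) (nat_lit 312) (nat_lit 236)) (XT.lf (nat_lit 0) (nat_lit 3682697352) (nat_lit 532) (nat_lit 6122253009) (nat_lit 608) (nat_lit 2076080200) (nat_lit 229) (nat_lit 5) (nat_lit 236) (nat_lit 5) (nat_lit 237) (nat_lit 5) (nat_lit 353) (nat_lit 312) (nat_lit 235)))))) (XT.nd (nat_lit 390) (nat_lit 2508) (nat_lit 0) (XT.nd (nat_lit 156) (nat_lit 1140) (nat_lit 0) (XT.nd (nat_lit 78) (nat_lit 532) (nat_lit 0) (XT.lf (nat_lit 0) (nat_lit 1665439673) (nat_lit 684) (nat_lit 9882781938) (nat_lit 76) (nat_lit 532206452) (nat_lit 220) (nat_lit 5) (nat_lit 229) (nat_lit 5) (nat_lit 221) (nat_lit 5) (nat_lit 354) (nat_lit 312) (nat_lit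 234)) (XT.lf (nat_lit 0) (nat_lit 634500607) (nat_lit 532) (nat_lit 4917567891) (nat_lit 608) (nat_lit 6732253827) (nat_lit 213) (nat_lit 5) (nat_lit 220) (nat_lit 5) (nat_lit 221) (nat_lit 5) (nat_lit 355) (nat_lit 312) (nat_lit 233))) (XT.nd (nat_lit 78) (nat_lit 1140) (nat_lit 0) (XT.lf (nat_lit 0) (nat_lit 9595808831) (nat_lit 608) (nat_lit 954810453) (nat_lit 76) (nat_lit 1942914248) (nat_lit 213) (nat_lit 5) (nat_lit 221) (nat_lit 5) (nat_lit 214) (nat_lit 5) (nat_lit 356) (nat_lit 312) (nat_lit 232)) (XT.nd (nat_lit 78) (nat_lit 532) (nat_lit 0) (XT.lf (nat_lit 0) (nat_lit 1098797924) (nat_lit 608) (nat_lit 2604320056) (nat_lit 76) (nat_lit 9004561322) (nat_lit 205) (nat_lit 5) (nat_lit 213) (nat_lit 5) (nat_lit 206) (nat_lit 5) (nat_lit 357) (nat_lit 312) (nat_lit 231)) (XT.lf (nat_lit 0) (nat_lit 5223144666) (nat_lit 608) (nat_lit 4327438110) (nat_lit 76) (nat_lit 3376347226) (nat_lit 198)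 (nat_lit 5) (nat_lit 206) (nat_lit 5) (nat_lit 199) (nat_lit 5) (nat_lit 358) (nat_lit 312) (nat_lit 230))))) (XT.nd (nat_lit 234) (nat_lit 988) (nat_lit 0) (XT.nd (nat_lit 78) (nat_lit 988) (nat_lit 0) (XT.lf (nat_lit 0) (nat_lit 7040522137) (nat_lit 532) (nat_lit 2482006726) (nat_lit 608) (nat_lit 3629212522) (nat_lit 191) (nat_lit 5) (nat_lit 198) (nat_lit 5) (nat_lit 199) (nat_lit 5) (nat_lit 359) (nat_lit 312) (nat_lit 229)) (XT.nd (nat_lit 78) (nat_lit 456) (nat_lit 0) (XT.lf (nat_lit 0) (nat_lit 620122706) (nat_lit 532) (nat_lit 7969905028) (nat_lit 76) (nat_lit 4792005136) (nat_lit 184) (nat_lit 5) (nat_lit 191) (nat_lit 5) (nat_lit 185) (nat_lit 5) (nat_lit 360) (nat_lit 312) (nat_lit 228)) (XT.lf (nat_lit 0) (nat_lit 3704744249) (nat_lit 456) (nat_lit 1289745523) (nat_lit 532) (nat_lit 8623334969) (nat_lit 178) (nat_lit 5) (nat_lit 184) (nat_lit 5) (nat_lit 185) (nat_lit 5) (nat_lit 361)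 (nat_lit 312) (nat_lit 227)))) (XT.nd (nat_lit 78) (nat_lit 532) (nat_lit 0) (XT.lf (nat_lit 0) (nat_lit 1914471744) (nat_lit 456) (nat_lit 7657737954) (nat_lit 532) (nat_lit 4287046580) (nat_lit 172) (nat_lit 5) (nat_lit 178) (nat_lit 5) (nat_lit 179) (nat_lit 5) (nat_lit 362) (nat_lit 312) (nat_lit 226)) (XT.nd (nat_lit 78) (nat_lit 0) (nat_lit 0) (XT.lf (nat_lit 0) (nat_lit 67989286) (nat_lit 456) (nat_lit 151030372) (nat_lit 532) (nat_lit 13888054935) (nat_lit 165) (nat_lit 5) (nat_lit 171) (nat_lit 5) (nat_lit 172) (nat_lit 5) (nat_lit 363) (nat_lit 312) (nat_lit 225)) (XT.lf (nat_lit 0) (nat_lit 4899017403) (nat_lit 532) (nat_lit 1882916513) (nat_lit 76) (nat_lit 7577894632) (nat_lit 165) (nat_lit 5) (nat_lit 172) (nat_lit 5) (nat_lit 166) (nat_lit 5) (nat_lit 364) (nat_lit 312) (nat_lit 224))))))) (XT.nd (nat_lit 780) (nat_lit 3040) (nat_lit 0) (XT.nd (nat_lit 390) (nat_lit 1596) (nat_lit 0)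 (XT.nd (nat_lit 156) (nat_lit 1216) (nat_lit 0) (XT.nd (nat_lit 78) (nat_lit 456) (nat_lit 0) (XT.lf (nat_lit 0) (nat_lit 9763371975) (nat_lit 456) (nat_lit 3895099654) (nat_lit 76) (nat_lit 960821843) (nat_lit 160) (nat_lit 5) (nat_lit 166) (nat_lit 5) (nat_lit 161) (nat_lit 5) (nat_lit 365) (nat_lit 312) (nat_lit 223)) (XT.lf (nat_lit 0) (nat_lit 8873115993) (nat_lit 456) (nat_lit 5983876179) (nat_lit 532) (nat_lit 27890741) (nat_lit 154) (nat_lit 5) (nat_lit 160) (nat_lit 5) (nat_lit 161) (nat_lit 5) (nat_lit 366) (nat_lit 312) (nat_lit 222))) (XT.nd (nat_lit 78) (nat_lit 760) (nat_lit 0) (XT.lf (nat_lit 0) (nat_lit 4932723707) (nat_lit 456) (nat_lit 8238159252) (nat_lit 76) (nat_lit 1985869932) (nat_lit 148) (nat_lit 5) (nat_lit 154) (nat_lit 5) (nat_lit 149) (nat_lit 5) (nat_lit 367) (nat_lit 312) (nat_lit 221)) (XT.nd (nat_lit 78) (nat_lit 380) (nat_lit 0) (XT.lf (nat_lit 0) (nat_lit 4860176993)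 (nat_lit 380) (nat_lit 5262682145) (nat_lit 456) (nat_lit 5312301232) (nat_lit 143) (nat_lit 5) (nat_lit 148) (nat_lit 5) (nat_lit 149) (nat_lit 5) (nat_lit 368) (nat_lit 312) (nat_lit 220)) (XT.lf (nat_lit 0) (nat_lit 2713870494) (nat_lit 380) (nat_lit 12816385573) (nat_lit 456) (nat_lit 190439381) (nat_lit 138) (nat_lit 5) (nat_lit 143) (nat_lit 5) (nat_lit 144) (nat_lit 5) (nat_lit 369) (nat_lit 312) (nat_lit 219))))) (XT.nd (nat_lit 156) (nat_lit 1140) (nat_lit 0) (XT.nd (nat_lit 78) (nat_lit 0) (nat_lit 0) (XT.lf (nat_lit 0) (nat_lit 423928300) (nat_lit 380) (nat_lit 4673965505) (nat_lit 456) (nat_lit 10914658520) (nat_lit 132) (nat_lit 5) (nat_lit 137) (nat_lit 5) (nat_lit 138) (nat_lit 5) (nat_lit 370) (nat_lit 312) (nat_lit 218)) (XT.lf (nat_lit 0) (nat_lit 10625059805) (nat_lit 456) (nat_lit 1947213549) (nat_lit 76) (nat_lit 3739217004) (nat_lit 132) (nat_lit 5) (nat_lit 138) (nat_lit 5)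 (nat_lit 133) (nat_lit 5) (nat_lit 371) (nat_lit 312) (nat_lit 217))) (XT.nd (nat_lit 78) (nat_lit 760) (nat_lit 0) (XT.lf (nat_lit 0) (nat_lit 12187861077) (nat_lit 380) (nat_lit 4211372004) (nat_lit 456) (nat_lit 218545456) (nat_lit 127) (nat_lit 5) (nat_lit 132) (nat_lit 5) (nat_lit 133) (nat_lit 5) (nat_lit 372) (nat_lit 312) (nat_lit 216)) (XT.nd (nat_lit 78) (nat_lit 304) (nat_lit 0) (XT.lf (nat_lit 0) (nat_lit 5420277383) (nat_lit 456) (nat_lit 7069500439) (nat_lit 76) (nat_lit 4441222192) (nat_lit 121) (nat_lit 5) (nat_lit 127) (nat_lit 5) (nat_lit 122) (nat_lit 5) (nat_lit 373) (nat_lit 312) (nat_lit 215)) (XT.lf (nat_lit 0) (nat_lit 7413076723) (nat_lit 304) (nat_lit 3890386970) (nat_lit 380) (nat_lit 5948567599) (nat_lit 117) (nat_lit 5) (nat_lit 121) (nat_lit 5) (nat_lit 122) (nat_lit 5) (nat_lit 374) (nat_lit 312) (nat_lit 214)))))) (XT.nd (nat_lit 390) (nat_lit 1596) (nat_lit 0) (XT.nd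 (nat_lit 156) (nat_lit 684) (nat_lit 0) (XT.nd (nat_lit 78) (nat_lit 380) (nat_lit 0) (XT.lf (nat_lit 0) (nat_lit 4832620254) (nat_lit 380) (nat_lit 12614462695) (nat_lit 456) (nat_lit 133937062) (nat_lit 112) (nat_lit 5) (nat_lit 117) (nat_lit 5) (nat_lit 118) (nat_lit 5) (nat_lit 375) (nat_lit 312) (nat_lit 213)) (XT.lf (nat_lit 0) (nat_lit 2080257529) (nat_lit 304) (nat_lit 3777159361) (nat_lit 380) (nat_lit 12060124678) (nat_lit 107) (nat_lit 5) (nat_lit 111) (nat_lit 5) (nat_lit 112) (nat_lit 5) (nat_lit 376) (nat_lit 312) (nat_lit 212))) (XT.nd (nat_lit 78) (nat_lit 684) (nat_lit 0) (XT.lf (nat_lit 0) (nat_lit 12121104257) (nat_lit 380) (nat_lit 812971748) (nat_lit 76) (nat_lit 5328181662) (nat_lit 107) (nat_lit 5) (nat_lit 112) (nat_lit 5) (nat_lit 108) (nat_lit 5) (nat_lit 377) (nat_lit 312) (nat_lit 211)) (XT.nd (nat_lit 78) (nat_lit 304) (nat_lit 0) (XT.lf (nat_lit 0) (nat_lit 51535258)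 (nat_lit 380) (nat_lit 3826514812) (nat_lit 76) (nat_lit 14737364328) (nat_lit 102) (nat_lit 5) (nat_lit 107) (nat_lit 5) (nat_lit 103) (nat_lit 5) (nat_lit 378) (nat_lit 312) (nat_lit 210)) (XT.lf (nat_lit 0) (nat_lit 6440371160) (nat_lit 380) (nat_lit 7047792644) (nat_lit 76) (nat_lit 5488318632) (nat_lit 98) (nat_lit 5) (nat_lit 103) (nat_lit 5) (nat_lit 99) (nat_lit 5) (nat_lit 379) (nat_lit 312) (nat_lit 209))))) (XT.nd (nat_lit 234) (nat_lit 608) (nat_lit 0) (XT.nd (nat_lit 78) (nat_lit 684) (nat_lit 0) (XT.lf (nat_lit 0) (nat_lit 8910872466) (nat_lit 304) (nat_lit 4194271947) (nat_lit 380) (nat_lit 6241557011) (nat_lit 94) (nat_lit 5) (nat_lit 98) (nat_lit 5) (nat_lit 99) (nat_lit 5) (nat_lit 380) (nat_lit 312) (nat_lit 208)) (XT.nd (nat_lit 78) (nat_lit 304) (nat_lit 0) (XT.lf (nat_lit 0) (nat_lit 334165477) (nat_lit 380) (nat_lit 14011593580) (nat_lit 76) (nat_lit 5380330598) (nat_lit 89)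 (nat_lit 5) (nat_lit 94) (nat_lit 5) (nat_lit 90) (nat_lit 5) (nat_lit 381) (nat_lit 312) (nat_lit 207)) (XT.lf (nat_lit 0) (nat_lit 2296218013) (nat_lit 304) (nat_lit 4815843537) (nat_lit 380) (nat_lit 13002182868) (nat_lit 85) (nat_lit 5) (nat_lit 89) (nat_lit 5) (nat_lit 90) (nat_lit 5) (nat_lit 382) (nat_lit 312) (nat_lit 206)))) (XT.nd (nat_lit 78) (nat_lit 608) (nat_lit 0) (XT.lf (nat_lit 0) (nat_lit 14196776934) (nat_lit 380) (nat_lit 1300291795) (nat_lit 76) (nat_lit 5014909353) (nat_lit 85) (nat_lit 5) (nat_lit 90) (nat_lit 5) (nat_lit 86) (nat_lit 5) (nat_lit 383) (nat_lit 312) (nat_lit 205)) (XT.nd (nat_lit 78) (nat_lit 304) (nat_lit 0) (XT.lf (nat_lit 0) (nat_lit 676887380) (nat_lit 304) (nat_lit 5074178083) (nat_lit 76) (nat_lit 15168267595) (nat_lit 81) (nat_lit 5) (nat_lit 85) (nat_lit 5) (nat_lit 82) (nat_lit 5) (nat_lit 384) (nat_lit 312) (nat_lit 204)) (XT.lf (nat_lit 0) (nat_lit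 7886973942) (nat_lit 380) (nat_lit 9101416805) (nat_lit 76) (nat_lit 4347805991) (nat_lit 77) (nat_lit 5) (nat_lit 82) (nat_lit 5) (nat_lit 78) (nat_lit 5) (nat_lit 385) (nat_lit 312) (nat_lit 203))))))))
noncomputable def xc72 : XT := (XT.nd (nat_lit 1560) (nat_lit 16112) (nat_lit 0) (XT.nd (nat_lit 780) (nat_lit 7144) (nat_lit 0) (XT.nd (nat_lit 390) (nat_lit 2280) (nat_lit 0) (XT.nd (nat_lit 156) (nat_lit 1140) (nat_lit 0) (XT.nd (nat_lit 78) (nat_lit 0) (nat_lit 0) (XT.lf (nat_lit 0) (nat_lit 2329171752) (nat_lit 1140) (nat_lit 626767272) (nat_lit 1140) (nat_lit 626767272) (nat_lit 587) (nat_lit 3) (nat_lit 602) (nat_lit 3) (nat_lit 602) (nat_lit 5) (nat_lit 313) (nat_lit 313) (nat_lit 274)) (XT.lf (nat_lit 76) (nat_lit 3966488821) (nat_lit 0) (nat_lit 3229360725) (nat_lit 1140) (nat_lit 26570709) (nat_lit 588) (nat_lit 5) (nat_lit 587) (nat_lit 3) (nat_lit 602) (nat_lit 5) (nat_lit 314) (nat_lit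 313) (nat_lit 273))) (XT.nd (nat_lit 78) (nat_lit 0) (nat_lit 76) (XT.lf (nat_lit 76) (nat_lit 2038979346) (nat_lit 0) (nat_lit 381696637) (nat_lit 1216) (nat_lit 4861666879) (nat_lit 573) (nat_lit 5) (nat_lit 572) (nat_lit 5) (nat_lit 588) (nat_lit 5) (nat_lit 315) (nat_lit 313) (nat_lit 272)) (XT.nd (nat_lit 78) (nat_lit 0) (nat_lit 0) (XT.lf (nat_lit 76) (nat_lit 126476300) (nat_lit 0) (nat_lit 4760572260) (nat_lit 1216) (nat_lit 2458131322) (nat_lit 574) (nat_lit 5) (nat_lit 573) (nat_lit 5) (nat_lit 589) (nat_lit 5) (nat_lit 316) (nat_lit 313) (nat_lit 271)) (XT.lf (nat_lit 76) (nat_lit 5675463496) (nat_lit 0) (nat_lit 1698878977) (nat_lit 1216) (nat_lit 36661364) (nat_lit 574) (nat_lit 5) (nat_lit 573) (nat_lit 5) (nat_lit 589) (nat_lit 5) (nat_lit 317) (nat_lit 313) (nat_lit 270))))) (XT.nd (nat_lit 156) (nat_lit 1216) (nat_lit 0) (XT.nd (nat_lit 78) (nat_lit 0) (nat_lit 0) (XT.lf (nat_lit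 0) (nat_lit 2371380325) (nat_lit 1216) (nat_lit 3593366490) (nat_lit 1292) (nat_lit 1514851915) (nat_lit 558) (nat_lit 5) (nat_lit 574) (nat_lit 5) (nat_lit 575) (nat_lit 5) (nat_lit 318) (nat_lit 313) (nat_lit 269)) (XT.lf (nat_lit 76) (nat_lit 2114390116) (nat_lit 0) (nat_lit 2687108308) (nat_lit 1292) (nat_lit 2749778893) (nat_lit 559) (nat_lit 5) (nat_lit 558) (nat_lit 5) (nat_lit 575) (nat_lit 5) (nat_lit 319) (nat_lit 313) (nat_lit 268))) (XT.nd (nat_lit 78) (nat_lit 1292) (nat_lit 0) (XT.lf (nat_lit 76) (nat_lit 364949500) (nat_lit 0) (nat_lit 6886731706) (nat_lit 1292) (nat_lit 374518102) (nat_lit 560) (nat_lit 5) (nat_lit 559) (nat_lit 5) (nat_lit 576) (nat_lit 5) (nat_lit 320) (nat_lit 313) (nat_lit 267)) (XT.nd (nat_lit 78) (nat_lit 0) (nat_lit 76) (XT.lf (nat_lit 0) (nat_lit 2017224244) (nat_lit 1292) (nat_lit 1372457035) (nat_lit 1368) (nat_lit 4314005181) (nat_lit 542) (nat_lit 5) (nat_lit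 559) (nat_lit 5) (nat_lit 560) (nat_lit 5) (nat_lit 321) (nat_lit 313) (nat_lit 266)) (XT.lf (nat_lit 0) (nat_lit 4427708146) (nat_lit 1292) (nat_lit 3085982230) (nat_lit 1368) (nat_lit 270750306) (nat_lit 543) (nat_lit 5) (nat_lit 560) (nat_lit 5) (nat_lit 561) (nat_lit 5) (nat_lit 322) (nat_lit 313) (nat_lit 265)))))) (XT.nd (nat_lit 390) (nat_lit 4560) (nat_lit 0) (XT.nd (nat_lit 156) (nat_lit 1368) (nat_lit 0) (XT.nd (nat_lit 78) (nat_lit 1292) (nat_lit 0) (XT.lf (nat_lit 76) (nat_lit 3067560710) (nat_lit 0) (nat_lit 3816825383) (nat_lit 1368) (nat_lit 983786388) (nat_lit 544) (nat_lit 5) (nat_lit 543) (nat_lit 5) (nat_lit 561) (nat_lit 5) (nat_lit 323) (nat_lit 313) (nat_lit 264)) (XT.lf (nat_lit 0) (nat_lit 1395355717) (nat_lit 1368) (nat_lit 6505176494) (nat_lit 1444) (nat_lit 54642161) (nat_lit 526) (nat_lit 5) (nat_lit 544) (nat_lit 5) (nat_lit 545) (nat_lit 5) (nat_lit 324) (nat_lit 313)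 (nat_lit 263))) (XT.nd (nat_lit 78) (nat_lit 1368) (nat_lit 0) (XT.lf (nat_lit 0) (nat_lit 3816228701) (nat_lit 1368) (nat_lit 176420950) (nat_lit 1444) (nat_lit 4052362236) (nat_lit 526) (nat_lit 5) (nat_lit 544) (nat_lit 5) (nat_lit 545) (nat_lit 5) (nat_lit 325) (nat_lit 313) (nat_lit 262)) (XT.nd (nat_lit 78) (nat_lit 1444) (nat_lit 0) (XT.lf (nat_lit 0) (nat_lit 6279274363) (nat_lit 1368) (nat_lit 1765259943) (nat_lit 1444) (nat_lit 93648488) (nat_lit 527) (nat_lit 5) (nat_lit 545) (nat_lit 5) (nat_lit 546) (nat_lit 5) (nat_lit 326) (nat_lit 313) (nat_lit 261)) (XT.lf (nat_lit 0) (nat_lit 563310084) (nat_lit 1444) (nat_lit 3366843500) (nat_lit 1520) (nat_lit 4304169824) (nat_lit 508) (nat_lit 5) (nat_lit 527) (nat_lit 5) (nat_lit 528) (nat_lit 5) (nat_lit 327) (nat_lit 313) (nat_lit 260))))) (XT.nd (nat_lit 156) (nat_lit 3192) (nat_lit 0) (XT.nd (nat_lit 78) (nat_lit 1444) (nat_lit 0) (XT.lf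 (nat_lit 0) (nat_lit 3000092558) (nat_lit 1444) (nat_lit 4967360470) (nat_lit 76) (nat_lit 366333391) (nat_lit 509) (nat_lit 5) (nat_lit 528) (nat_lit 5) (nat_lit 510) (nat_lit 5) (nat_lit 328) (nat_lit 313) (nat_lit 259)) (XT.lf (nat_lit 0) (nat_lit 1856250162) (nat_lit 1444) (nat_lit 3647493744) (nat_lit 1520) (nat_lit 2932640302) (nat_lit 490) (nat_lit 5) (nat_lit 509) (nat_lit 5) (nat_lit 510) (nat_lit 5) (nat_lit 329) (nat_lit 313) (nat_lit 258))) (XT.nd (nat_lit 78) (nat_lit 1672) (nat_lit 0) (XT.lf (nat_lit 0) (nat_lit 356195867) (nat_lit 1520) (nat_lit 7701886719) (nat_lit 1596) (nat_lit 484491222) (nat_lit 470) (nat_lit 5) (nat_lit 490) (nat_lit 5) (nat_lit 491) (nat_lit 5) (nat_lit 330) (nat_lit 313) (nat_lit 257)) (XT.nd (nat_lit 78) (nat_lit 1596) (nat_lit 0) (XT.lf (nat_lit 0) (nat_lit 2014957435) (nat_lit 1596) (nat_lit 1152511715) (nat_lit 76) (nat_lit 5484148185) (nat_lit 469) (nat_lit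 5) (nat_lit 490) (nat_lit 5) (nat_lit 470) (nat_lit 5) (nat_lit 331) (nat_lit 313) (nat_lit 256)) (XT.lf (nat_lit 0) (nat_lit 4569847217) (nat_lit 1672) (nat_lit 2657756357) (nat_lit 76) (nat_lit 1536547248) (nat_lit 448) (nat_lit 5) (nat_lit 470) (nat_lit 5) (nat_lit 449) (nat_lit 5) (nat_lit 332) (nat_lit 313) (nat_lit 255))))))) (XT.nd (nat_lit 780) (nat_lit 6308) (nat_lit 0) (XT.nd (nat_lit 390) (nat_lit 4256) (nat_lit 0) (XT.nd (nat_lit 156) (nat_lit 2052) (nat_lit 0) (XT.nd (nat_lit 78) (nat_lit 1824) (nat_lit 0) (XT.lf (nat_lit 0) (nat_lit 4706326000) (nat_lit 1672) (nat_lit 2493393304) (nat_lit 1748) (nat_lit 1680397113) (nat_lit 426) (nat_lit 5) (nat_lit 448) (nat_lit 5) (nat_lit 449) (nat_lit 5) (nat_lit 333) (nat_lit 313) (nat_lit 254)) (XT.lf (nat_lit 0) (nat_lit 892225884) (nat_lit 1824) (nat_lit 5702822172) (nat_lit 76) (nat_lit 2404512216) (nat_lit 402) (nat_lit 5) (nat_lit 426) (nat_lit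 5) (nat_lit 403) (nat_lit 5) (nat_lit 334) (nat_lit 313) (nat_lit 253))) (XT.nd (nat_lit 78) (nat_lit 912) (nat_lit 0) (XT.lf (nat_lit 0) (nat_lit 1869467217) (nat_lit 1140) (nat_lit 1648363928) (nat_lit 1216) (nat_lit 5604582563) (nat_lit 387) (nat_lit 5) (nat_lit 402) (nat_lit 5) (nat_lit 403) (nat_lit 5) (nat_lit 335) (nat_lit 313) (nat_lit 252)) (XT.nd (nat_lit 78) (nat_lit 0) (nat_lit 0) (XT.lf (nat_lit 0) (nat_lit 428008619) (nat_lit 912) (nat_lit 5800876288) (nat_lit 988) (nat_lit 3019954703) (nat_lit 375) (nat_lit 5) (nat_lit 387) (nat_lit 5) (nat_lit 388) (nat_lit 5) (nat_lit 336) (nat_lit 313) (nat_lit 251)) (XT.lf (nat_lit 0) (nat_lit 8374597469) (nat_lit 912) (nat_lit 650722557) (nat_lit 988) (nat_lit 353677146) (nat_lit 375) (nat_lit 5) (nat_lit 387) (nat_lit 5) (nat_lit 388) (nat_lit 5) (nat_lit 337) (nat_lit 313) (nat_lit 250))))) (XT.nd (nat_lit 156) (nat_lit 2508) (nat_lit 0) (XT.nd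 (nat_lit 78) (nat_lit 836) (nat_lit 0) (XT.lf (nat_lit 0) (nat_lit 2382967755) (nat_lit 912) (nat_lit 2471961055) (nat_lit 76) (nat_lit 4657403719) (nat_lit 363) (nat_lit 5) (nat_lit 375) (nat_lit 5) (nat_lit 364) (nat_lit 5) (nat_lit 338) (nat_lit 313) (nat_lit 249)) (XT.lf (nat_lit 0) (nat_lit 5195010683) (nat_lit 912) (nat_lit 3946674448) (nat_lit 76) (nat_lit 507992349) (nat_lit 352) (nat_lit 5) (nat_lit 364) (nat_lit 5) (nat_lit 353) (nat_lit 5) (nat_lit 339) (nat_lit 313) (nat_lit 248))) (XT.nd (nat_lit 78) (nat_lit 1672) (nat_lit 0) (XT.lf (nat_lit 0) (nat_lit 4337971946) (nat_lit 836) (nat_lit 3778647681) (nat_lit 912) (nat_lit 1674036892) (nat_lit 341) (nat_lit 5) (nat_lit 352) (nat_lit 5) (nat_lit 353) (nat_lit 5) (nat_lit 340) (nat_lit 313) (nat_lit 247)) (XT.nd (nat_lit 78) (nat_lit 760) (nat_lit 0) (XT.lf (nat_lit 0) (nat_lit 1180823599) (nat_lit 912) (nat_lit 6979072163) (nat_lit 76)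 (nat_lit 1775703235) (nat_lit 329) (nat_lit 5) (nat_lit 341) (nat_lit 5) (nat_lit 330) (nat_lit 5) (nat_lit 341) (nat_lit 313) (nat_lit 246)) (XT.lf (nat_lit 0) (nat_lit 1539381976) (nat_lit 760) (nat_lit 2581489945) (nat_lit 836) (nat_lit 5963367288) (nat_lit 319) (nat_lit 5) (nat_lit 329) (nat_lit 5) (nat_lit 330) (nat_lit 5) (nat_lit 342) (nat_lit 313) (nat_lit 245)))))) (XT.nd (nat_lit 390) (nat_lit 3344) (nat_lit 0) (XT.nd (nat_lit 156) (nat_lit 2204) (nat_lit 0) (XT.nd (nat_lit 78) (nat_lit 0) (nat_lit 0) (XT.lf (nat_lit 0) (nat_lit 100256260) (nat_lit 760) (nat_lit 7068476897) (nat_lit 836) (nat_lit 3068229239) (nat_lit 309) (nat_lit 5) (nat_lit 319) (nat_lit 5) (nat_lit 320) (nat_lit 5) (nat_lit 343) (nat_lit 313) (nat_lit 244)) (XT.lf (nat_lit 0) (nat_lit 9052320482) (nat_lit 760) (nat_lit 1282668717) (nat_lit 836) (nat_lit 58754434) (nat_lit 309) (nat_lit 5) (nat_lit 319) (nat_lit 5) (nat_lit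 320) (nat_lit 5) (nat_lit 344) (nat_lit 313) (nat_lit 243))) (XT.nd (nat_lit 78) (nat_lit 1444) (nat_lit 0) (XT.lf (nat_lit 0) (nat_lit 3035215710) (nat_lit 760) (nat_lit 2836988205) (nat_lit 76) (nat_lit 4681962405) (nat_lit 299) (nat_lit 5) (nat_lit 309) (nat_lit 5) (nat_lit 300) (nat_lit 5) (nat_lit 345) (nat_lit 313) (nat_lit 242)) (XT.nd (nat_lit 78) (nat_lit 684) (nat_lit 0) (XT.lf (nat_lit 0) (nat_lit 6235179336) (nat_lit 836) (nat_lit 4349915727) (nat_lit 76) (nat_lit 134033758) (nat_lit 289) (nat_lit 5) (nat_lit 300) (nat_lit 5) (nat_lit 290) (nat_lit 5) (nat_lit 346) (nat_lit 313) (nat_lit 241)) (XT.lf (nat_lit 0) (nat_lit 4976516773) (nat_lit 684) (nat_lit 4600536377) (nat_lit 760) (nat_lit 1311082758) (nat_lit 280) (nat_lit 5) (nat_lit 289) (nat_lit 5) (nat_lit 290) (nat_lit 5) (nat_lit 347) (nat_lit 313) (nat_lit 240))))) (XT.nd (nat_lit 234) (nat_lit 1292) (nat_lit 0) (XT.nd (nat_lit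 78) (nat_lit 1292) (nat_lit 0) (XT.lf (nat_lit 0) (nat_lit 1950314174) (nat_lit 760) (nat_lit 7508753682) (nat_lit 76) (nat_lit 1602524293) (nat_lit 270) (nat_lit 5) (nat_lit 280) (nat_lit 5) (nat_lit 271) (nat_lit 5) (nat_lit 348) (nat_lit 313) (nat_lit 239)) (XT.nd (nat_lit 78) (nat_lit 684) (nat_lit 0) (XT.lf (nat_lit 0) (nat_lit 2079253310) (nat_lit 608) (nat_lit 3253760084) (nat_lit 684) (nat_lit 5906252781) (nat_lit 262) (nat_lit 5) (nat_lit 270) (nat_lit 5) (nat_lit 271) (nat_lit 5) (nat_lit 349) (nat_lit 313) (nat_lit 238)) (XT.lf (nat_lit 0) (nat_lit 572323544) (nat_lit 684) (nat_lit 8277647981) (nat_lit 760) (nat_lit 2571655840) (nat_lit 253) (nat_lit 5) (nat_lit 262) (nat_lit 5) (nat_lit 263) (nat_lit 5) (nat_lit 350) (nat_lit 313) (nat_lit 237)))) (XT.nd (nat_lit 78) (nat_lit 1216) (nat_lit 0) (XT.lf (nat_lit 0) (nat_lit 893999727) (nat_lit 760) (nat_lit 964622865) (nat_lit 76) (nat_lit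 9749889864) (nat_lit 252) (nat_lit 5) (nat_lit 262) (nat_lit 5) (nat_lit 253) (nat_lit 5) (nat_lit 351) (nat_lit 313) (nat_lit 236)) (XT.nd (nat_lit 78) (nat_lit 608) (nat_lit 0) (XT.lf (nat_lit 0) (nat_lit 4479718961) (nat_lit 684) (nat_lit 2559765914) (nat_lit 76) (nat_lit 4760170151) (nat_lit 244) (nat_lit 5) (nat_lit 253) (nat_lit 5) (nat_lit 245) (nat_lit 5) (nat_lit 352) (nat_lit 313) (nat_lit 235)) (XT.lf (nat_lit 0) (nat_lit 7808147512) (nat_lit 608) (nat_lit 394700280) (nat_lit 684) (nat_lit 3793098538) (nat_lit 236) (nat_lit 5) (nat_lit 244) (nat_lit 5) (nat_lit 245) (nat_lit 5) (nat_lit 353) (nat_lit 313) (nat_lit 234))))))))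
noncomputable def xc73 : XT := (XT.nd (nat_lit 1560) (nat_lit 3420) (nat_lit 0) (XT.nd (nat_lit 780) (nat_lit 3496) (nat_lit 0) (XT.nd (nat_lit 390) (nat_lit 2508) (nat_lit 0) (XT.nd (nat_lit 156) (nat_lit 1140) (nat_lit 0) (XT.nd (nat_lit 78) (nat_lit 684) (nat_lit 0) (XT.lf (nat_lit 0) (nat_lit 6316147829) (nat_lit 532) (nat_lit 5782785906) (nat_lit 608) (nat_lit 97978266) (nat_lit 229) (nat_lit 5) (nat_lit 236) (nat_lit 5) (nat_lit 237) (nat_lit 5) (nat_lit 354) (nat_lit 313) (nat_lit 233)) (XT.lf (nat_lit 0) (nat_lit 3690158025) (nat_lit 684) (nat_lit 7633908234) (nat_lit 76) (nat_lit 1078753387) (nat_lit 220) (nat_lit 5) (nat_lit 229) (nat_lit 5) (nat_lit 221) (nat_lit 5) (nat_lit 355) (nat_lit 313) (nat_lit 232))) (XT.nd (nat_lit 78) (nat_lit 608) (nat_lit 0) (XT.lf (nat_lit 0) (nat_lit 3157597391) (nat_lit 532) (nat_lit 4494529214) (nat_lit 608) (nat_lit 4961544639) (nat_lit 213) (nat_lit 5)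 (nat_lit 220) (nat_lit 5) (nat_lit 221) (nat_lit 5) (nat_lit 356) (nat_lit 313) (nat_lit 231)) (XT.nd (nat_lit 78) (nat_lit 76) (nat_lit 0) (XT.lf (nat_lit 0) (nat_lit 1501812676) (nat_lit 532) (nat_lit 10272398409) (nat_lit 608) (nat_lit 1055821940) (nat_lit 206) (nat_lit 5) (nat_lit 213) (nat_lit 5) (nat_lit 214) (nat_lit 5) (nat_lit 357) (nat_lit 313) (nat_lit 230)) (XT.lf (nat_lit 0) (nat_lit 2986179760) (nat_lit 608) (nat_lit 231763413) (nat_lit 76) (nat_lit 9833406083) (nat_lit 205) (nat_lit 5) (nat_lit 213) (nat_lit 5) (nat_lit 206) (nat_lit 5) (nat_lit 358) (nat_lit 313) (nat_lit 229))))) (XT.nd (nat_lit 156) (nat_lit 1444) (nat_lit 0) (XT.nd (nat_lit 78) (nat_lit 532) (nat_lit 0) (XT.lf (nat_lit 0) (nat_lit 7199760344) (nat_lit 608) (nat_lit 2013417260) (nat_lit 76) (nat_lit 4064703555) (nat_lit 198) (nat_lit 5) (nat_lit 206) (nat_lit 5) (nat_lit 199) (nat_lit 5) (nat_lit 359) (nat_lit 313)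 (nat_lit 228)) (XT.lf (nat_lit 0) (nat_lit 9655933329) (nat_lit 532) (nat_lit 1934794952) (nat_lit 608) (nat_lit 1919469907) (nat_lit 191) (nat_lit 5) (nat_lit 198) (nat_lit 5) (nat_lit 199) (nat_lit 5) (nat_lit 360) (nat_lit 313) (nat_lit 227))) (XT.nd (nat_lit 78) (nat_lit 912) (nat_lit 0) (XT.lf (nat_lit 0) (nat_lit 2400827989) (nat_lit 532) (nat_lit 5788431917) (nat_lit 76) (nat_lit 5558568381) (nat_lit 184) (nat_lit 5) (nat_lit 191) (nat_lit 5) (nat_lit 185) (nat_lit 5) (nat_lit 361) (nat_lit 313) (nat_lit 226)) (XT.nd (nat_lit 78) (nat_lit 456) (nat_lit 0) (XT.lf (nat_lit 0) (nat_lit 6197185961) (nat_lit 456) (nat_lit 673377734) (nat_lit 532) (nat_lit 7120859804) (nat_lit 178) (nat_lit 5) (nat_lit 184) (nat_lit 5) (nat_lit 185) (nat_lit 5) (nat_lit 362) (nat_lit 313) (nat_lit 225)) (XT.lf (nat_lit 0) (nat_lit 4344756633) (nat_lit 456) (nat_lit 7210115102) (nat_lit 532) (nat_lit 2685853092) (nat_lit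 172) (nat_lit 5) (nat_lit 178) (nat_lit 5) (nat_lit 179) (nat_lit 5) (nat_lit 363) (nat_lit 313) (nat_lit 224)))))) (XT.nd (nat_lit 390) (nat_lit 1672) (nat_lit 0) (XT.nd (nat_lit 156) (nat_lit 912) (nat_lit 0) (XT.nd (nat_lit 78) (nat_lit 380) (nat_lit 0) (XT.lf (nat_lit 0) (nat_lit 1901723423) (nat_lit 532) (nat_lit 12072799435) (nat_lit 76) (nat_lit 521861314) (nat_lit 165) (nat_lit 5) (nat_lit 172) (nat_lit 5) (nat_lit 166) (nat_lit 5) (nat_lit 364) (nat_lit 313) (nat_lit 223)) (XT.lf (nat_lit 0) (nat_lit 382553466) (nat_lit 380) (nat_lit 6294212601) (nat_lit 456) (nat_lit 8080872847) (nat_lit 160) (nat_lit 5) (nat_lit 165) (nat_lit 5) (nat_lit 166) (nat_lit 5) (nat_lit 365) (nat_lit 313) (nat_lit 222))) (XT.nd (nat_lit 78) (nat_lit 912) (nat_lit 0) (XT.lf (nat_lit 0) (nat_lit 11656379418) (nat_lit 456) (nat_lit 1704769424) (nat_lit 76) (nat_lit 1664363126) (nat_lit 160) (nat_lit 5) (nat_lit 166)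 (nat_lit 5) (nat_lit 161) (nat_lit 5) (nat_lit 366) (nat_lit 313) (nat_lit 221)) (XT.nd (nat_lit 78) (nat_lit 380) (nat_lit 0) (XT.lf (nat_lit 0) (nat_lit 1550616154) (nat_lit 532) (nat_lit 3900856927) (nat_lit 76) (nat_lit 9848039781) (nat_lit 153) (nat_lit 5) (nat_lit 160) (nat_lit 5) (nat_lit 154) (nat_lit 5) (nat_lit 367) (nat_lit 313) (nat_lit 220)) (XT.lf (nat_lit 0) (nat_lit 6632902537) (nat_lit 456) (nat_lit 6204700049) (nat_lit 76) (nat_lit 2742477949) (nat_lit 148) (nat_lit 5) (nat_lit 154) (nat_lit 5) (nat_lit 149) (nat_lit 5) (nat_lit 368) (nat_lit 313) (nat_lit 219))))) (XT.nd (nat_lit 156) (nat_lit 836) (nat_lit 0) (XT.nd (nat_lit 78) (nat_lit 456) (nat_lit 0) (XT.lf (nat_lit 0) (nat_lit 7249586194) (nat_lit 380) (nat_lit 4698513177) (nat_lit 456) (nat_lit 3919363361) (nat_lit 143) (nat_lit 5) (nat_lit 148) (nat_lit 5) (nat_lit 149) (nat_lit 5) (nat_lit 369) (nat_lit 313) (nat_lit 218))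 (XT.lf (nat_lit 0) (nat_lit 1312923032) (nat_lit 456) (nat_lit 11142583990) (nat_lit 76) (nat_lit 3706398816) (nat_lit 137) (nat_lit 5) (nat_lit 143) (nat_lit 5) (nat_lit 138) (nat_lit 5) (nat_lit 370) (nat_lit 313) (nat_lit 217))) (XT.nd (nat_lit 78) (nat_lit 456) (nat_lit 0) (XT.lf (nat_lit 0) (nat_lit 2653263268) (nat_lit 380) (nat_lit 4074583391) (nat_lit 456) (nat_lit 9735244942) (nat_lit 132) (nat_lit 5) (nat_lit 137) (nat_lit 5) (nat_lit 138) (nat_lit 5) (nat_lit 371) (nat_lit 313) (nat_lit 216)) (XT.nd (nat_lit 78) (nat_lit 76) (nat_lit 0) (XT.lf (nat_lit 0) (nat_lit 173000562) (nat_lit 380) (nat_lit 12210592543) (nat_lit 456) (nat_lit 4388158010) (nat_lit 127) (nat_lit 5) (nat_lit 132) (nat_lit 5) (nat_lit 133) (nat_lit 5) (nat_lit 372) (nat_lit 313) (nat_lit 215)) (XT.lf (nat_lit 0) (nat_lit 1198125521) (nat_lit 456) (nat_lit 2401151625) (nat_lit 76) (nat_lit 13488384039) (nat_lit 126) (nat_lit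 5) (nat_lit 132) (nat_lit 5) (nat_lit 127) (nat_lit 5) (nat_lit 373) (nat_lit 313) (nat_lit 214))))))) (XT.nd (nat_lit 780) (nat_lit 304) (nat_lit 0) (XT.nd (nat_lit 390) (nat_lit 1368) (nat_lit 0) (XT.nd (nat_lit 156) (nat_lit 1064) (nat_lit 0) (XT.nd (nat_lit 78) (nat_lit 304) (nat_lit 0) (XT.lf (nat_lit 0) (nat_lit 6980347024) (nat_lit 456) (nat_lit 5133065299) (nat_lit 76) (nat_lit 5297302022) (nat_lit 121) (nat_lit 5) (nat_lit 127) (nat_lit 5) (nat_lit 122) (nat_lit 5) (nat_lit 374) (nat_lit 313) (nat_lit 213)) (XT.lf (nat_lit 0) (nat_lit 9749131991) (nat_lit 304) (nat_lit 3263917477) (nat_lit 380) (nat_lit 4728874443) (nat_lit 117) (nat_lit 5) (nat_lit 121) (nat_lit 5) (nat_lit 122) (nat_lit 5) (nat_lit 375) (nat_lit 313) (nat_lit 212))) (XT.nd (nat_lit 78) (nat_lit 608) (nat_lit 0) (XT.lf (nat_lit 0) (nat_lit 1221931239) (nat_lit 456) (nat_lit 11009817910) (nat_lit 76) (nat_lit 5849311610)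 (nat_lit 111) (nat_lit 5) (nat_lit 117) (nat_lit 5) (nat_lit 112) (nat_lit 5) (nat_lit 376) (nat_lit 313) (nat_lit 211)) (XT.nd (nat_lit 78) (nat_lit 304) (nat_lit 0) (XT.lf (nat_lit 0) (nat_lit 4228406677) (nat_lit 304) (nat_lit 3136796200) (nat_lit 380) (nat_lit 11062984617) (nat_lit 107) (nat_lit 5) (nat_lit 111) (nat_lit 5) (nat_lit 112) (nat_lit 5) (nat_lit 377) (nat_lit 313) (nat_lit 210)) (XT.lf (nat_lit 0) (nat_lit 1225043991) (nat_lit 304) (nat_lit 12565663558) (nat_lit 380) (nat_lit 4993066356) (nat_lit 103) (nat_lit 5) (nat_lit 107) (nat_lit 5) (nat_lit 108) (nat_lit 5) (nat_lit 378) (nat_lit 313) (nat_lit 209))))) (XT.nd (nat_lit 156) (nat_lit 988) (nat_lit 0) (XT.nd (nat_lit 78) (nat_lit 304) (nat_lit 0) (XT.lf (nat_lit 0) (nat_lit 1335016710) (nat_lit 380) (nat_lit 1910914283) (nat_lit 76) (nat_lit 15902086216) (nat_lit 102) (nat_lit 5) (nat_lit 107) (nat_lit 5) (nat_lit 103) (nat_lit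 5) (nat_lit 379) (nat_lit 313) (nat_lit 208)) (XT.lf (nat_lit 0) (nat_lit 7895952418) (nat_lit 380) (nat_lit 5241209260) (nat_lit 76) (nat_lit 6383153351) (nat_lit 98) (nat_lit 5) (nat_lit 103) (nat_lit 5) (nat_lit 99) (nat_lit 5) (nat_lit 380) (nat_lit 313) (nat_lit 207))) (XT.nd (nat_lit 78) (nat_lit 684) (nat_lit 0) (XT.lf (nat_lit 0) (nat_lit 11163475872) (nat_lit 304) (nat_lit 3573314671) (nat_lit 380) (nat_lit 5165333857) (nat_lit 94) (nat_lit 5) (nat_lit 98) (nat_lit 5) (nat_lit 99) (nat_lit 5) (nat_lit 381) (nat_lit 313) (nat_lit 206)) (XT.nd (nat_lit 78) (nat_lit 304) (nat_lit 0) (XT.lf (nat_lit 0) (nat_lit 1572404816) (nat_lit 380) (nat_lit 12442549531) (nat_lit 76) (nat_lit 6278155509) (nat_lit 89) (nat_lit 5) (nat_lit 94) (nat_lit 5) (nat_lit 90) (nat_lit 5) (nat_lit 382) (nat_lit 313) (nat_lit 205)) (XT.lf (nat_lit 0) (nat_lit 4322220891) (nat_lit 304) (nat_lit 4208350544) (nat_lit 380)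 (nat_lit 12162804926) (nat_lit 85) (nat_lit 5) (nat_lit 89) (nat_lit 5) (nat_lit 90) (nat_lit 5) (nat_lit 383) (nat_lit 313) (nat_lit 204)))))) (XT.nd (nat_lit 41652) (nat_lit 0) (nat_lit 34960) (XT.nd (nat_lit 41418) (nat_lit 0) (nat_lit 37316) (XT.nd (nat_lit 78) (nat_lit 76) (nat_lit 0) (XT.lf (nat_lit 0) (nat_lit 587363459) (nat_lit 228) (nat_lit 15213917049) (nat_lit 304) (nat_lit 5302298086) (nat_lit 82) (nat_lit 5) (nat_lit 85) (nat_lit 5) (nat_lit 86) (nat_lit 5) (nat_lit 384) (nat_lit 313) (nat_lit 203)) (XT.lf (nat_lit 0) (nat_lit 1857834273) (nat_lit 304) (nat_lit 3322973526) (nat_lit 76) (nat_lit 16342714618) (nat_lit 81) (nat_lit 5) (nat_lit 85) (nat_lit 5) (nat_lit 82) (nat_lit 5) (nat_lit 385) (nat_lit 313) (nat_lit 202))) (XT.nd (nat_lit 78) (nat_lit 0) (nat_lit 0) (XT.lf (nat_lit 0) (nat_lit 584500457) (nat_lit 0) (nat_lit 584500457) (nat_lit 1140) (nat_lit 2471401704) (nat_lit 572)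 (nat_lit 5) (nat_lit 572) (nat_lit 3) (nat_lit 587) (nat_lit 3) (nat_lit 314) (nat_lit 314) (nat_lit 272)) (XT.nd (nat_lit 78) (nat_lit 0) (nat_lit 0) (XT.lf (nat_lit 0) (nat_lit 4718016910) (nat_lit 1140) (nat_lit 860414708) (nat_lit 1216) (nat_lit 1763650950) (nat_lit 572) (nat_lit 5) (nat_lit 587) (nat_lit 3) (nat_lit 588) (nat_lit 5) (nat_lit 315) (nat_lit 314) (nat_lit 271)) (XT.lf (nat_lit 76) (nat_lit 4552719468) (nat_lit 0) (nat_lit 2563321682) (nat_lit 1216) (nat_lit 290265319) (nat_lit 573) (nat_lit 5) (nat_lit 572) (nat_lit 5) (nat_lit 588) (nat_lit 5) (nat_lit 316) (nat_lit 314) (nat_lit 270))))) (XT.nd (nat_lit 234) (nat_lit 1216) (nat_lit 0) (XT.nd (nat_lit 78) (nat_lit 0) (nat_lit 0) (XT.lf (nat_lit 0) (nat_lit 2023817937) (nat_lit 1216) (nat_lit 4837155914) (nat_lit 1292) (nat_lit 612487496) (nat_lit 557) (nat_lit 5) (nat_lit 573) (nat_lit 5) (nat_lit 574) (nat_lit 5) (nat_lit 317)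 (nat_lit 314) (nat_lit 269)) (XT.nd (nat_lit 78) (nat_lit 0) (nat_lit 0) (XT.lf (nat_lit 76) (nat_lit 728671157) (nat_lit 0) (nat_lit 3629558169) (nat_lit 1292) (nat_lit 3185303545) (nat_lit 558) (nat_lit 5) (nat_lit 557) (nat_lit 5) (nat_lit 574) (nat_lit 5) (nat_lit 318) (nat_lit 314) (nat_lit 268)) (XT.lf (nat_lit 76) (nat_lit 6479100918) (nat_lit 0) (nat_lit 232043318) (nat_lit 1292) (nat_lit 905629153) (nat_lit 558) (nat_lit 5) (nat_lit 557) (nat_lit 5) (nat_lit 574) (nat_lit 5) (nat_lit 319) (nat_lit 314) (nat_lit 267)))) (XT.nd (nat_lit 78) (nat_lit 0) (nat_lit 0) (XT.lf (nat_lit 0) (nat_lit 1393396260) (nat_lit 1292) (nat_lit 3000801884) (nat_lit 1368) (nat_lit 3298462625) (nat_lit 541) (nat_lit 5) (nat_lit 558) (nat_lit 5) (nat_lit 559) (nat_lit 5) (nat_lit 320) (nat_lit 314) (nat_lit 266)) (XT.nd (nat_lit 78) (nat_lit 0) (nat_lit 76) (XT.lf (nat_lit 76) (nat_lit 2922479403) (nat_lit 0) (nat_lit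 774843176) (nat_lit 1368) (nat_lit 4074451303) (nat_lit 542) (nat_lit 5) (nat_lit 541) (nat_lit 5) (nat_lit 559) (nat_lit 5) (nat_lit 321) (nat_lit 314) (nat_lit 265)) (XT.lf (nat_lit 76) (nat_lit 1157195646) (nat_lit 0) (nat_lit 4882414141) (nat_lit 1368) (nat_lit 1814298281) (nat_lit 543) (nat_lit 5) (nat_lit 542) (nat_lit 5) (nat_lit 560) (nat_lit 5) (nat_lit 322) (nat_lit 314) (nat_lit 264))))))))
noncomputable def xc74 : XT := (XT.nd (nat_lit 1560) (nat_lit 11476) (nat_lit 0) (XT.nd (nat_lit 780) (nat_lit 9044) (nat_lit 0) (XT.nd (nat_lit 390) (nat_lit 4484) (nat_lit 0) (XT.nd (nat_lit 156) (nat_lit 1292) (nat_lit 0) (XT.nd (nat_lit 78) (nat_lit 0) (nat_lit 76) (XT.lf (nat_lit 0) (nat_lit 468683036) (nat_lit 1368) (nat_lit 586909681) (nat_lit 1444) (nat_lit 6883642628) (nat_lit 524) (nat_lit 5) (nat_lit 542) (nat_lit 5) (nat_lit 543) (nat_lit 5) (nat_lit 323) (nat_lit 314) (nat_lit 263)) (XT.lf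 (nat_lit 0) (nat_lit 2777739460) (nat_lit 1368) (nat_lit 2326919066) (nat_lit 1444) (nat_lit 2922609439) (nat_lit 525) (nat_lit 5) (nat_lit 543) (nat_lit 5) (nat_lit 544) (nat_lit 5) (nat_lit 324) (nat_lit 314) (nat_lit 262))) (XT.nd (nat_lit 78) (nat_lit 1368) (nat_lit 0) (XT.lf (nat_lit 76) (nat_lit 4062645021) (nat_lit 0) (nat_lit 1058597532) (nat_lit 1444) (nat_lit 2997424708) (nat_lit 526) (nat_lit 5) (nat_lit 525) (nat_lit 5) (nat_lit 544) (nat_lit 5) (nat_lit 325) (nat_lit 314) (nat_lit 261)) (XT.nd (nat_lit 78) (nat_lit 1444) (nat_lit 0) (XT.lf (nat_lit 76) (nat_lit 2424041921) (nat_lit 0) (nat_lit 5092463631) (nat_lit 1444) (nat_lit 696702232) (nat_lit 527) (nat_lit 5) (nat_lit 526) (nat_lit 5) (nat_lit 545) (nat_lit 5) (nat_lit 326) (nat_lit 314) (nat_lit 260)) (XT.lf (nat_lit 76) (nat_lit 785331319) (nat_lit 0) (nat_lit 836515997) (nat_lit 1520) (nat_lit 6689131985) (nat_lit 508) (nat_lit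 5) (nat_lit 507) (nat_lit 5) (nat_lit 527) (nat_lit 5) (nat_lit 327) (nat_lit 314) (nat_lit 259))))) (XT.nd (nat_lit 156) (nat_lit 4560) (nat_lit 0) (XT.nd (nat_lit 78) (nat_lit 0) (nat_lit 0) (XT.lf (nat_lit 0) (nat_lit 3995764382) (nat_lit 1444) (nat_lit 854041925) (nat_lit 1520) (nat_lit 3561906218) (nat_lit 508) (nat_lit 5) (nat_lit 527) (nat_lit 5) (nat_lit 528) (nat_lit 5) (nat_lit 328) (nat_lit 314) (nat_lit 258)) (XT.lf (nat_lit 76) (nat_lit 6041351736) (nat_lit 0) (nat_lit 379029260) (nat_lit 1520) (nat_lit 2095522541) (nat_lit 509) (nat_lit 5) (nat_lit 508) (nat_lit 5) (nat_lit 528) (nat_lit 5) (nat_lit 329) (nat_lit 314) (nat_lit 257))) (XT.nd (nat_lit 78) (nat_lit 3116) (nat_lit 0) (XT.lf (nat_lit 0) (nat_lit 289529483) (nat_lit 1520) (nat_lit 4111844022) (nat_lit 76) (nat_lit 4221855211) (nat_lit 489) (nat_lit 5) (nat_lit 509) (nat_lit 5) (nat_lit 490) (nat_lit 5) (nat_lit 330) (nat_lit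 314) (nat_lit 256)) (XT.nd (nat_lit 78) (nat_lit 1596) (nat_lit 0) (XT.lf (nat_lit 0) (nat_lit 2695870701) (nat_lit 1596) (nat_lit 5756715965) (nat_lit 76) (nat_lit 281369308) (nat_lit 469) (nat_lit 5) (nat_lit 490) (nat_lit 5) (nat_lit 470) (nat_lit 5) (nat_lit 331) (nat_lit 314) (nat_lit 255)) (XT.lf (nat_lit 0) (nat_lit 1425800236) (nat_lit 1596) (nat_lit 3754350392) (nat_lit 1672) (nat_lit 3667762270) (nat_lit 448) (nat_lit 5) (nat_lit 469) (nat_lit 5) (nat_lit 470) (nat_lit 5) (nat_lit 332) (nat_lit 314) (nat_lit 254)))))) (XT.nd (nat_lit 390) (nat_lit 3496) (nat_lit 0) (XT.nd (nat_lit 156) (nat_lit 3800) (nat_lit 0) (XT.nd (nat_lit 78) (nat_lit 1748) (nat_lit 0) (XT.lf (nat_lit 0) (nat_lit 7725789731) (nat_lit 1672) (nat_lit 120776463) (nat_lit 76) (nat_lit 1119007872) (nat_lit 448) (nat_lit 5) (nat_lit 470) (nat_lit 5) (nat_lit 449) (nat_lit 5) (nat_lit 333) (nat_lit 314) (nat_lit 253)) (XT.lf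 (nat_lit 0) (nat_lit 1260122181) (nat_lit 1748) (nat_lit 1672990619) (nat_lit 76) (nat_lit 6153197047) (nat_lit 425) (nat_lit 5) (nat_lit 448) (nat_lit 5) (nat_lit 426) (nat_lit 5) (nat_lit 334) (nat_lit 314) (nat_lit 252))) (XT.nd (nat_lit 78) (nat_lit 2052) (nat_lit 0) (XT.lf (nat_lit 0) (nat_lit 3815354668) (nat_lit 1824) (nat_lit 3240426493) (nat_lit 76) (nat_lit 2154799662) (nat_lit 402) (nat_lit 5) (nat_lit 426) (nat_lit 5) (nat_lit 403) (nat_lit 5) (nat_lit 335) (nat_lit 314) (nat_lit 251)) (XT.nd (nat_lit 78) (nat_lit 912) (nat_lit 0) (XT.lf (nat_lit 0) (nat_lit 4516306487) (nat_lit 1140) (nat_lit 1935882442) (nat_lit 1216) (nat_lit 2886311978) (nat_lit 387) (nat_lit 5) (nat_lit 402) (nat_lit 5) (nat_lit 403) (nat_lit 5) (nat_lit 336) (nat_lit 314) (nat_lit 250)) (XT.lf (nat_lit 0) (nat_lit 3047743781) (nat_lit 912) (nat_lit 6129862644) (nat_lit 988) (nat_lit 292481902) (nat_lit 375) (nat_lit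 5) (nat_lit 387) (nat_lit 5) (nat_lit 388) (nat_lit 5) (nat_lit 337) (nat_lit 314) (nat_lit 249))))) (XT.nd (nat_lit 156) (nat_lit 1748) (nat_lit 0) (XT.nd (nat_lit 78) (nat_lit 836) (nat_lit 0) (XT.lf (nat_lit 0) (nat_lit 1556022162) (nat_lit 836) (nat_lit 794679468) (nat_lit 912) (nat_lit 7254576330) (nat_lit 363) (nat_lit 5) (nat_lit 374) (nat_lit 5) (nat_lit 375) (nat_lit 5) (nat_lit 338) (nat_lit 314) (nat_lit 248)) (XT.lf (nat_lit 0) (nat_lit 34846979) (nat_lit 836) (nat_lit 5056976528) (nat_lit 912) (nat_lit 4652226612) (nat_lit 352) (nat_lit 5) (nat_lit 363) (nat_lit 5) (nat_lit 364) (nat_lit 5) (nat_lit 339) (nat_lit 314) (nat_lit 247))) (XT.nd (nat_lit 78) (nat_lit 1748) (nat_lit 0) (XT.lf (nat_lit 0) (nat_lit 7927426300) (nat_lit 912) (nat_lit 1473767775) (nat_lit 76) (nat_lit 485563733) (nat_lit 352) (nat_lit 5) (nat_lit 364) (nat_lit 5) (nat_lit 353) (nat_lit 5) (nat_lit 340) (nat_lit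 314) (nat_lit 246)) (XT.nd (nat_lit 78) (nat_lit 836) (nat_lit 0) (XT.lf (nat_lit 0) (nat_lit 833945063) (nat_lit 912) (nat_lit 3021271038) (nat_lit 76) (nat_lit 6177835862) (nat_lit 340) (nat_lit 5) (nat_lit 352) (nat_lit 5) (nat_lit 341) (nat_lit 5) (nat_lit 341) (nat_lit 314) (nat_lit 245)) (XT.lf (nat_lit 0) (nat_lit 3694902067) (nat_lit 912) (nat_lit 4596600719) (nat_lit 76) (nat_lit 1891779096) (nat_lit 329) (nat_lit 5) (nat_lit 341) (nat_lit 5) (nat_lit 330) (nat_lit 5) (nat_lit 342) (nat_lit 314) (nat_lit 244))))))) (XT.nd (nat_lit 780) (nat_lit 5016) (nat_lit 0) (XT.nd (nat_lit 390) (nat_lit 3420) (nat_lit 0) (XT.nd (nat_lit 156) (nat_lit 1520) (nat_lit 0) (XT.nd (nat_lit 78) (nat_lit 760) (nat_lit 0) (XT.lf (nat_lit 0) (nat_lit 4135357461) (nat_lit 760) (nat_lit 2532155533) (nat_lit 836) (nat_lit 3670004733) (nat_lit 319) (nat_lit 5) (nat_lit 329) (nat_lit 5) (nat_lit 330) (nat_lit 5) (nat_lit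 343) (nat_lit 314) (nat_lit 243)) (XT.lf (nat_lit 0) (nat_lit 2659330473) (nat_lit 760) (nat_lit 7094301183) (nat_lit 836) (nat_lit 742277485) (nat_lit 309) (nat_lit 5) (nat_lit 319) (nat_lit 5) (nat_lit 320) (nat_lit 5) (nat_lit 344) (nat_lit 314) (nat_lit 242))) (XT.nd (nat_lit 78) (nat_lit 760) (nat_lit 0) (XT.lf (nat_lit 0) (nat_lit 1146904266) (nat_lit 684) (nat_lit 1117601484) (nat_lit 760) (nat_lit 8393844933) (nat_lit 299) (nat_lit 5) (nat_lit 308) (nat_lit 5) (nat_lit 309) (nat_lit 5) (nat_lit 345) (nat_lit 314) (nat_lit 241)) (XT.nd (nat_lit 78) (nat_lit 760) (nat_lit 0) (XT.lf (nat_lit 0) (nat_lit 5392971984) (nat_lit 760) (nat_lit 405064741) (nat_lit 76) (nat_lit 5026713273) (nat_lit 299) (nat_lit 5) (nat_lit 309) (nat_lit 5) (nat_lit 300) (nat_lit 5) (nat_lit 346) (nat_lit 314) (nat_lit 240)) (XT.lf (nat_lit 0) (nat_lit 8640675712) (nat_lit 836) (nat_lit 1960878578) (nat_lit 76) (nat_lit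 394092863) (nat_lit 289) (nat_lit 5) (nat_lit 300) (nat_lit 5) (nat_lit 290) (nat_lit 5) (nat_lit 347) (nat_lit 314) (nat_lit 239))))) (XT.nd (nat_lit 156) (nat_lit 1976) (nat_lit 0) (XT.nd (nat_lit 78) (nat_lit 684) (nat_lit 0) (XT.lf (nat_lit 0) (nat_lit 852243294) (nat_lit 760) (nat_lit 3571851311) (nat_lit 76) (nat_lit 6746508146) (nat_lit 279) (nat_lit 5) (nat_lit 289) (nat_lit 5) (nat_lit 280) (nat_lit 5) (nat_lit 348) (nat_lit 314) (nat_lit 238)) (XT.lf (nat_lit 0) (nat_lit 4148298270) (nat_lit 760) (nat_lit 5225126141) (nat_lit 76) (nat_lit 1976591409) (nat_lit 270) (nat_lit 5) (nat_lit 280) (nat_lit 5) (nat_lit 271) (nat_lit 5) (nat_lit 349) (nat_lit 314) (nat_lit 237))) (XT.nd (nat_lit 78) (nat_lit 1368) (nat_lit 0) (XT.lf (nat_lit 0) (nat_lit 4609817299) (nat_lit 608) (nat_lit 2976371474) (nat_lit 684) (nat_lit 3947775570) (nat_lit 262) (nat_lit 5) (nat_lit 270) (nat_lit 5) (nat_lit 271)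 (nat_lit 5) (nat_lit 350) (nat_lit 314) (nat_lit 236)) (XT.nd (nat_lit 78) (nat_lit 684) (nat_lit 0) (XT.lf (nat_lit 0) (nat_lit 3057031624) (nat_lit 684) (nat_lit 8109042211) (nat_lit 760) (nat_lit 556592116) (nat_lit 253) (nat_lit 5) (nat_lit 262) (nat_lit 5) (nat_lit 263) (nat_lit 5) (nat_lit 351) (nat_lit 314) (nat_lit 235)) (XT.lf (nat_lit 0) (nat_lit 1448311539) (nat_lit 608) (nat_lit 1486546183) (nat_lit 684) (nat_lit 8981059984) (nat_lit 244) (nat_lit 5) (nat_lit 252) (nat_lit 5) (nat_lit 253) (nat_lit 5) (nat_lit 352) (nat_lit 314) (nat_lit 234)))))) (XT.nd (nat_lit 390) (nat_lit 2660) (nat_lit 0) (XT.nd (nat_lit 156) (nat_lit 1748) (nat_lit 0) (XT.nd (nat_lit 78) (nat_lit 608) (nat_lit 0) (XT.lf (nat_lit 0) (nat_lit 6578572347) (nat_lit 684) (nat_lit 215940660) (nat_lit 76) (nat_lit 5319289653) (nat_lit 244) (nat_lit 5) (nat_lit 253) (nat_lit 5) (nat_lit 245) (nat_lit 5) (nat_lit 353) (nat_lit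 314) (nat_lit 233)) (XT.lf (nat_lit 0) (nat_lit 10371977256) (nat_lit 684) (nat_lit 1893433678) (nat_lit 76) (nat_lit 51416227) (nat_lit 236) (nat_lit 5) (nat_lit 245) (nat_lit 5) (nat_lit 237) (nat_lit 5) (nat_lit 354) (nat_lit 314) (nat_lit 232))) (XT.nd (nat_lit 78) (nat_lit 1140) (nat_lit 0) (XT.lf (nat_lit 0) (nat_lit 1798439996) (nat_lit 608) (nat_lit 3652656387) (nat_lit 76) (nat_lit 7073264572) (nat_lit 228) (nat_lit 5) (nat_lit 236) (nat_lit 5) (nat_lit 229) (nat_lit 5) (nat_lit 355) (nat_lit 314) (nat_lit 231)) (XT.nd (nat_lit 78) (nat_lit 532) (nat_lit 0) (XT.lf (nat_lit 0) (nat_lit 5662258903) (nat_lit 684) (nat_lit 5463682233) (nat_lit 76) (nat_lit 1611239224) (nat_lit 220) (nat_lit 5) (nat_lit 229) (nat_lit 5) (nat_lit 221) (nat_lit 5) (nat_lit 356) (nat_lit 314) (nat_lit 230)) (XT.lf (nat_lit 0) (nat_lit 5612643690) (nat_lit 532) (nat_lit 4091552182) (nat_lit 608) (nat_lit 3250953893)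 (nat_lit 213) (nat_lit 5) (nat_lit 220) (nat_lit 5) (nat_lit 221) (nat_lit 5) (nat_lit 357) (nat_lit 314) (nat_lit 229))))) (XT.nd (nat_lit 234) (nat_lit 988) (nat_lit 0) (XT.nd (nat_lit 78) (nat_lit 1064) (nat_lit 0) (XT.lf (nat_lit 0) (nat_lit 727171841) (nat_lit 608) (nat_lit 9281699178) (nat_lit 76) (nat_lit 3169737782) (nat_lit 205) (nat_lit 5) (nat_lit 213) (nat_lit 5) (nat_lit 206) (nat_lit 5) (nat_lit 358) (nat_lit 314) (nat_lit 228)) (XT.nd (nat_lit 78) (nat_lit 532) (nat_lit 0) (XT.lf (nat_lit 0) (nat_lit 2098816873) (nat_lit 532) (nat_lit 2738541916) (nat_lit 608) (nat_lit 8569854105) (nat_lit 198) (nat_lit 5) (nat_lit 205) (nat_lit 5) (nat_lit 206) (nat_lit 5) (nat_lit 359) (nat_lit 314) (nat_lit 227)) (XT.lf (nat_lit 0) (nat_lit 232790664) (nat_lit 532) (nat_lit 8899924330) (nat_lit 608) (nat_lit 4508731356) (nat_lit 191) (nat_lit 5) (nat_lit 198) (nat_lit 5) (nat_lit 199) (nat_lit 5)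 (nat_lit 360) (nat_lit 314) (nat_lit 226)))) (XT.nd (nat_lit 78) (nat_lit 988) (nat_lit 0) (XT.lf (nat_lit 0) (nat_lit 12211796198) (nat_lit 532) (nat_lit 1406853340) (nat_lit 608) (nat_lit 262831182) (nat_lit 191) (nat_lit 5) (nat_lit 198) (nat_lit 5) (nat_lit 199) (nat_lit 5) (nat_lit 361) (nat_lit 314) (nat_lit 225)) (XT.nd (nat_lit 78) (nat_lit 456) (nat_lit 0) (XT.lf (nat_lit 0) (nat_lit 4133802590) (nat_lit 532) (nat_lit 3680465249) (nat_lit 76) (nat_lit 6312377078) (nat_lit 184) (nat_lit 5) (nat_lit 191) (nat_lit 5) (nat_lit 185) (nat_lit 5) (nat_lit 362) (nat_lit 314) (nat_lit 224)) (XT.lf (nat_lit 0) (nat_lit 8627704598) (nat_lit 456) (nat_lit 76122043) (nat_lit 532) (nat_lit 5674409046) (nat_lit 178) (nat_lit 5) (nat_lit 184) (nat_lit 5) (nat_lit 185) (nat_lit 5) (nat_lit 363) (nat_lit 314) (nat_lit 223))))))))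
noncomputable def xc75 : XT := (XT.nd (nat_lit 1560) (nat_lit 532) (nat_lit 0) (XT.nd (nat_lit 780) (nat_lit 2888) (nat_lit 0) (XT.nd (nat_lit 390) (nat_lit 1976) (nat_lit 0) (XT.nd (nat_lit 156) (nat_lit 912) (nat_lit 0) (XT.nd (nat_lit 78) (nat_lit 532) (nat_lit 0) (XT.lf (nat_lit 0) (nat_lit 6711738730) (nat_lit 456) (nat_lit 6787946512) (nat_lit 532) (nat_lit 1135921676) (nat_lit 172) (nat_lit 5) (nat_lit 178) (nat_lit 5) (nat_lit 179) (nat_lit 5) (nat_lit 364) (nat_lit 314) (nat_lit 222)) (XT.lf (nat_lit 0) (nat_lit 3539643427) (nat_lit 532) (nat_lit 10185526896) (nat_lit 76) (nat_lit 1174129825) (nat_lit 165) (nat_lit 5) (nat_lit 172) (nat_lit 5) (nat_lit 166) (nat_lit 5) (nat_lit 365) (nat_lit 314) (nat_lit 221))) (XT.nd (nat_lit 78) (nat_lit 532) (nat_lit 0) (XT.lf (nat_lit 0) (nat_lit 2606991832) (nat_lit 380) (nat_lit 5819268826) (nat_lit 456) (nat_lit 6742775841) (nat_lit 160) (nat_lit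 5) (nat_lit 165) (nat_lit 5) (nat_lit 166) (nat_lit 5) (nat_lit 366) (nat_lit 314) (nat_lit 220)) (XT.nd (nat_lit 78) (nat_lit 76) (nat_lit 0) (XT.lf (nat_lit 0) (nat_lit 424394973) (nat_lit 456) (nat_lit 13092684917) (nat_lit 532) (nat_lit 1928639634) (nat_lit 154) (nat_lit 5) (nat_lit 160) (nat_lit 5) (nat_lit 161) (nat_lit 5) (nat_lit 367) (nat_lit 314) (nat_lit 219)) (XT.lf (nat_lit 0) (nat_lit 3085462334) (nat_lit 532) (nat_lit 1858323315) (nat_lit 76) (nat_lit 10784624685) (nat_lit 153) (nat_lit 5) (nat_lit 160) (nat_lit 5) (nat_lit 154) (nat_lit 5) (nat_lit 368) (nat_lit 314) (nat_lit 218))))) (XT.nd (nat_lit 156) (nat_lit 1216) (nat_lit 0) (XT.nd (nat_lit 78) (nat_lit 380) (nat_lit 0) (XT.lf (nat_lit 0) (nat_lit 8294984267) (nat_lit 456) (nat_lit 4241153067) (nat_lit 76) (nat_lit 3481771723) (nat_lit 148) (nat_lit 5) (nat_lit 154) (nat_lit 5) (nat_lit 149) (nat_lit 5) (nat_lit 369) (nat_lit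 314) (nat_lit 217)) (XT.lf (nat_lit 0) (nat_lit 9581885629) (nat_lit 380) (nat_lit 4158867730) (nat_lit 456) (nat_lit 2573746121) (nat_lit 143) (nat_lit 5) (nat_lit 148) (nat_lit 5) (nat_lit 149) (nat_lit 5) (nat_lit 370) (nat_lit 314) (nat_lit 216))) (XT.nd (nat_lit 78) (nat_lit 760) (nat_lit 0) (XT.lf (nat_lit 0) (nat_lit 2772334306) (nat_lit 456) (nat_lit 9353030649) (nat_lit 76) (nat_lit 4492709263) (nat_lit 137) (nat_lit 5) (nat_lit 143) (nat_lit 5) (nat_lit 138) (nat_lit 5) (nat_lit 371) (nat_lit 314) (nat_lit 215)) (XT.nd (nat_lit 78) (nat_lit 380) (nat_lit 0) (XT.lf (nat_lit 0) (nat_lit 4822235394) (nat_lit 380) (nat_lit 3499675941) (nat_lit 456) (nat_lit 8606948502) (nat_lit 132) (nat_lit 5) (nat_lit 137) (nat_lit 5) (nat_lit 138) (nat_lit 5) (nat_lit 372) (nat_lit 314) (nat_lit 214)) (XT.lf (nat_lit 0) (nat_lit 2256882524) (nat_lit 380) (nat_lit 11867788022) (nat_lit 456) (nat_lit 3122569936)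 (nat_lit 127) (nat_lit 5) (nat_lit 132) (nat_lit 5) (nat_lit 133) (nat_lit 5) (nat_lit 373) (nat_lit 314) (nat_lit 213)))))) (XT.nd (nat_lit 390) (nat_lit 1368) (nat_lit 0) (XT.nd (nat_lit 156) (nat_lit 1064) (nat_lit 0) (XT.nd (nat_lit 78) (nat_lit 380) (nat_lit 0) (XT.lf (nat_lit 0) (nat_lit 2572814776) (nat_lit 456) (nat_lit 436988748) (nat_lit 76) (nat_lit 14563453903) (nat_lit 126) (nat_lit 5) (nat_lit 132) (nat_lit 5) (nat_lit 127) (nat_lit 5) (nat_lit 374) (nat_lit 314) (nat_lit 212)) (XT.lf (nat_lit 0) (nat_lit 8506998756) (nat_lit 456) (nat_lit 3261870951) (nat_lit 76) (nat_lit 6137570092) (nat_lit 121) (nat_lit 5) (nat_lit 127) (nat_lit 5) (nat_lit 122) (nat_lit 5) (nat_lit 375) (nat_lit 314) (nat_lit 211))) (XT.nd (nat_lit 78) (nat_lit 760) (nat_lit 0) (XT.lf (nat_lit 0) (nat_lit 12033936016) (nat_lit 304) (nat_lit 2661315534) (nat_lit 380) (nat_lit 3552850032) (nat_lit 117) (nat_lit 5)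 (nat_lit 121) (nat_lit 5) (nat_lit 122) (nat_lit 5) (nat_lit 376) (nat_lit 314) (nat_lit 210)) (XT.nd (nat_lit 78) (nat_lit 304) (nat_lit 0) (XT.lf (nat_lit 0) (nat_lit 2538707101) (nat_lit 456) (nat_lit 9341678906) (nat_lit 76) (nat_lit 6717272126) (nat_lit 111) (nat_lit 5) (nat_lit 117) (nat_lit 5) (nat_lit 112) (nat_lit 5) (nat_lit 377) (nat_lit 314) (nat_lit 209)) (XT.lf (nat_lit 0) (nat_lit 6321270208) (nat_lit 304) (nat_lit 2520486341) (nat_lit 380) (nat_lit 10113939286) (nat_lit 107) (nat_lit 5) (nat_lit 111) (nat_lit 5) (nat_lit 112) (nat_lit 5) (nat_lit 378) (nat_lit 314) (nat_lit 208))))) (XT.nd (nat_lit 156) (nat_lit 988) (nat_lit 0) (XT.nd (nat_lit 78) (nat_lit 76) (nat_lit 0) (XT.lf (nat_lit 0) (nat_lit 3216299013) (nat_lit 304) (nat_lit 12224324613) (nat_lit 380) (nat_lit 3881720831) (nat_lit 103) (nat_lit 5) (nat_lit 107) (nat_lit 5) (nat_lit 108) (nat_lit 5) (nat_lit 379) (nat_lit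 314) (nat_lit 207)) (XT.lf (nat_lit 0) (nat_lit 2583414269) (nat_lit 380) (nat_lit 54398774) (nat_lit 76) (nat_lit 17060269510) (nat_lit 102) (nat_lit 5) (nat_lit 107) (nat_lit 5) (nat_lit 103) (nat_lit 5) (nat_lit 380) (nat_lit 314) (nat_lit 206))) (XT.nd (nat_lit 78) (nat_lit 684) (nat_lit 0) (XT.lf (nat_lit 0) (nat_lit 9322735905) (nat_lit 380) (nat_lit 3496270815) (nat_lit 76) (nat_lit 7262917496) (nat_lit 98) (nat_lit 5) (nat_lit 103) (nat_lit 5) (nat_lit 99) (nat_lit 5) (nat_lit 381) (nat_lit 314) (nat_lit 205)) (XT.nd (nat_lit 78) (nat_lit 380) (nat_lit 0) (XT.lf (nat_lit 0) (nat_lit 13369694347) (nat_lit 304) (nat_lit 2976597216) (nat_lit 380) (nat_lit 4129352346) (nat_lit 94) (nat_lit 5) (nat_lit 98) (nat_lit 5) (nat_lit 99) (nat_lit 5) (nat_lit 382) (nat_lit 314) (nat_lit 204)) (XT.lf (nat_lit 0) (nat_lit 2777286806) (nat_lit 380) (nat_lit 10940633391) (nat_lit 76) (nat_lit 7160641934) (nat_lit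 89) (nat_lit 5) (nat_lit 94) (nat_lit 5) (nat_lit 90) (nat_lit 5) (nat_lit 383) (nat_lit 314) (nat_lit 203))))))) (XT.nd (nat_lit 42120) (nat_lit 0) (nat_lit 27816) (XT.nd (nat_lit 41730) (nat_lit 0) (nat_lit 34808) (XT.nd (nat_lit 41496) (nat_lit 0) (nat_lit 35948) (XT.nd (nat_lit 78) (nat_lit 228) (nat_lit 0) (XT.lf (nat_lit 0) (nat_lit 6296657371) (nat_lit 304) (nat_lit 3625798818) (nat_lit 380) (nat_lit 11368820728) (nat_lit 85) (nat_lit 5) (nat_lit 89) (nat_lit 5) (nat_lit 90) (nat_lit 5) (nat_lit 384) (nat_lit 314) (nat_lit 202)) (XT.lf (nat_lit 0) (nat_lit 2437826862) (nat_lit 228) (nat_lit 14956741241) (nat_lit 304) (nat_lit 4319556766) (nat_lit 82) (nat_lit 5) (nat_lit 85) (nat_lit 5) (nat_lit 86) (nat_lit 5) (nat_lit 385) (nat_lit 314) (nat_lit 201))) (XT.nd (nat_lit 78) (nat_lit 1292) (nat_lit 0) (XT.lf (nat_lit 0) (nat_lit 1757491758) (nat_lit 0) (nat_lit 1757491758) (nat_lit 1140) (nat_lit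 187387038) (nat_lit 572) (nat_lit 5) (nat_lit 572) (nat_lit 3) (nat_lit 587) (nat_lit 3) (nat_lit 315) (nat_lit 315) (nat_lit 270)) (XT.nd (nat_lit 78) (nat_lit 0) (nat_lit 76) (XT.lf (nat_lit 76) (nat_lit 1468218380) (nat_lit 0) (nat_lit 380835374) (nat_lit 1292) (nat_lit 5621361418) (nat_lit 556) (nat_lit 5) (nat_lit 555) (nat_lit 3) (nat_lit 572) (nat_lit 5) (nat_lit 316) (nat_lit 315) (nat_lit 269)) (XT.lf (nat_lit 0) (nat_lit 4093093689) (nat_lit 1216) (nat_lit 565258103) (nat_lit 1292) (nat_lit 2880523698) (nat_lit 556) (nat_lit 5) (nat_lit 572) (nat_lit 5) (nat_lit 573) (nat_lit 5) (nat_lit 317) (nat_lit 315) (nat_lit 268))))) (XT.nd (nat_lit 156) (nat_lit 0) (nat_lit 0) (XT.nd (nat_lit 78) (nat_lit 1216) (nat_lit 0) (XT.lf (nat_lit 76) (nat_lit 5053140582) (nat_lit 0) (nat_lit 1302728001) (nat_lit 1292) (nat_lit 1254529030) (nat_lit 557) (nat_lit 5) (nat_lit 556) (nat_lit 5) (nat_lit 573)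 (nat_lit 5) (nat_lit 318) (nat_lit 315) (nat_lit 267)) (XT.lf (nat_lit 0) (nat_lit 945701723) (nat_lit 1292) (nat_lit 4546665310) (nat_lit 1368) (nat_lit 2192474959) (nat_lit 540) (nat_lit 5) (nat_lit 557) (nat_lit 5) (nat_lit 558) (nat_lit 5) (nat_lit 319) (nat_lit 315) (nat_lit 266))) (XT.nd (nat_lit 78) (nat_lit 0) (nat_lit 76) (XT.lf (nat_lit 76) (nat_lit 1230332171) (nat_lit 0) (nat_lit 1918776476) (nat_lit 1368) (nat_lit 4613194457) (nat_lit 541) (nat_lit 5) (nat_lit 540) (nat_lit 5) (nat_lit 558) (nat_lit 5) (nat_lit 320) (nat_lit 315) (nat_lit 265)) (XT.nd (nat_lit 78) (nat_lit 0) (nat_lit 0) (XT.lf (nat_lit 0) (nat_lit 5383282567) (nat_lit 1292) (nat_lit 658171644) (nat_lit 1368) (nat_lit 1801373084) (nat_lit 541) (nat_lit 5) (nat_lit 558) (nat_lit 5) (nat_lit 559) (nat_lit 5) (nat_lit 321) (nat_lit 315) (nat_lit 264)) (XT.lf (nat_lit 76) (nat_lit 5403341156) (nat_lit 0) (nat_lit 2253530930)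 (nat_lit 1368) (nat_lit 269478913) (nat_lit 542) (nat_lit 5) (nat_lit 541) (nat_lit 5) (nat_lit 559) (nat_lit 5) (nat_lit 322) (nat_lit 315) (nat_lit 263)))))) (XT.nd (nat_lit 390) (nat_lit 4408) (nat_lit 0) (XT.nd (nat_lit 156) (nat_lit 1368) (nat_lit 0) (XT.nd (nat_lit 78) (nat_lit 0) (nat_lit 0) (XT.lf (nat_lit 0) (nat_lit 1925314972) (nat_lit 1368) (nat_lit 4392900955) (nat_lit 1444) (nat_lit 1694635099) (nat_lit 524) (nat_lit 5) (nat_lit 542) (nat_lit 5) (nat_lit 543) (nat_lit 5) (nat_lit 323) (nat_lit 315) (nat_lit 262)) (XT.lf (nat_lit 76) (nat_lit 1839589993) (nat_lit 0) (nat_lit 2314838643) (nat_lit 1444) (nat_lit 3948068248) (nat_lit 525) (nat_lit 5) (nat_lit 524) (nat_lit 5) (nat_lit 543) (nat_lit 5) (nat_lit 324) (nat_lit 315) (nat_lit 261))) (XT.nd (nat_lit 78) (nat_lit 1444) (nat_lit 0) (XT.lf (nat_lit 76) (nat_lit 65373124) (nat_lit 0) (nat_lit 6357014500) (nat_lit 1444) (nat_lit 1773033400)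 (nat_lit 526) (nat_lit 5) (nat_lit 525) (nat_lit 5) (nat_lit 544) (nat_lit 5) (nat_lit 325) (nat_lit 315) (nat_lit 260)) (XT.nd (nat_lit 78) (nat_lit 0) (nat_lit 76) (XT.lf (nat_lit 0) (nat_lit 450418432) (nat_lit 1444) (nat_lit 1688499840) (nat_lit 1520) (nat_lit 6152395043) (nat_lit 506) (nat_lit 5) (nat_lit 525) (nat_lit 5) (nat_lit 526) (nat_lit 5) (nat_lit 326) (nat_lit 315) (nat_lit 259)) (XT.lf (nat_lit 0) (nat_lit 2696615563) (nat_lit 1444) (nat_lit 3453153372) (nat_lit 1520) (nat_lit 2240502633) (nat_lit 507) (nat_lit 5) (nat_lit 526) (nat_lit 5) (nat_lit 527) (nat_lit 5) (nat_lit 327) (nat_lit 315) (nat_lit 258))))) (XT.nd (nat_lit 234) (nat_lit 3040) (nat_lit 0) (XT.nd (nat_lit 78) (nat_lit 1444) (nat_lit 0) (XT.lf (nat_lit 76) (nat_lit 3273278461) (nat_lit 0) (nat_lit 1718862931) (nat_lit 1520) (nat_lit 3500443752) (nat_lit 508) (nat_lit 5) (nat_lit 507) (nat_lit 5) (nat_lit 527) (nat_lit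 5) (nat_lit 328) (nat_lit 315) (nat_lit 257)) (XT.nd (nat_lit 78) (nat_lit 1520) (nat_lit 0) (XT.lf (nat_lit 76) (nat_lit 1605152352) (nat_lit 0) (nat_lit 5740394843) (nat_lit 1520) (nat_lit 1252665342) (nat_lit 509) (nat_lit 5) (nat_lit 508) (nat_lit 5) (nat_lit 528) (nat_lit 5) (nat_lit 329) (nat_lit 315) (nat_lit 256)) (XT.lf (nat_lit 0) (nat_lit 1033378003) (nat_lit 1520) (nat_lit 67749122) (nat_lit 1596) (nat_lit 7606071809) (nat_lit 488) (nat_lit 5) (nat_lit 508) (nat_lit 5) (nat_lit 509) (nat_lit 5) (nat_lit 330) (nat_lit 315) (nat_lit 255)))) (XT.nd (nat_lit 78) (nat_lit 3116) (nat_lit 0) (XT.lf (nat_lit 0) (nat_lit 3381006419) (nat_lit 1520) (nat_lit 1741013104) (nat_lit 76) (nat_lit 3697092165) (nat_lit 489) (nat_lit 5) (nat_lit 509) (nat_lit 5) (nat_lit 490) (nat_lit 5) (nat_lit 331) (nat_lit 315) (nat_lit 254)) (XT.nd (nat_lit 78) (nat_lit 1596) (nat_lit 0) (XT.lf (nat_lit 0) (nat_lit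 5522223020) (nat_lit 1520) (nat_lit 261549360) (nat_lit 1596) (nat_lit 3150937423) (nat_lit 469) (nat_lit 5) (nat_lit 489) (nat_lit 5) (nat_lit 490) (nat_lit 5) (nat_lit 332) (nat_lit 315) (nat_lit 253)) (XT.lf (nat_lit 0) (nat_lit 3946341295) (nat_lit 1596) (nat_lit 4323094757) (nat_lit 1672) (nat_lit 784145023) (nat_lit 448) (nat_lit 5) (nat_lit 469) (nat_lit 5) (nat_lit 470) (nat_lit 5) (nat_lit 333) (nat_lit 315) (nat_lit 252))))))))
noncomputable def xc76 : XT := (XT.nd (nat_lit 1560) (nat_lit 8892) (nat_lit 0) (XT.nd (nat_lit 780) (nat_lit 6460) (nat_lit 0) (XT.nd (nat_lit 390) (nat_lit 3420) (nat_lit 0) (XT.nd (nat_lit 156) (nat_lit 2128) (nat_lit 0) (XT.nd (nat_lit 78) (nat_lit 1748) (nat_lit 0) (XT.lf (nat_lit 0) (nat_lit 1620724086) (nat_lit 1748) (nat_lit 6813696786) (nat_lit 76) (nat_lit 741628135) (nat_lit 425) (nat_lit 5) (nat_lit 448) (nat_lit 5) (nat_lit 426) (nat_lit 5) (nat_lit 334)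 (nat_lit 315) (nat_lit 251)) (XT.lf (nat_lit 0) (nat_lit 751350878) (nat_lit 1748) (nat_lit 3349295952) (nat_lit 1824) (nat_lit 5201189139) (nat_lit 402) (nat_lit 5) (nat_lit 425) (nat_lit 5) (nat_lit 426) (nat_lit 5) (nat_lit 335) (nat_lit 315) (nat_lit 250))) (XT.nd (nat_lit 78) (nat_lit 2128) (nat_lit 0) (XT.lf (nat_lit 0) (nat_lit 6659914287) (nat_lit 1824) (nat_lit 855331489) (nat_lit 76) (nat_lit 1916071119) (nat_lit 402) (nat_lit 5) (nat_lit 426) (nat_lit 5) (nat_lit 403) (nat_lit 5) (nat_lit 336) (nat_lit 315) (nat_lit 249)) (XT.nd (nat_lit 78) (nat_lit 988) (nat_lit 0) (XT.lf (nat_lit 0) (nat_lit 7093830986) (nat_lit 1140) (nat_lit 2218360458) (nat_lit 1216) (nat_lit 252184906) (nat_lit 387) (nat_lit 5) (nat_lit 402) (nat_lit 5) (nat_lit 403) (nat_lit 5) (nat_lit 337) (nat_lit 315) (nat_lit 248)) (XT.lf (nat_lit 0) (nat_lit 2324159398) (nat_lit 988) (nat_lit 4120067517) (nat_lit 76) (nat_lit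 3256668834) (nat_lit 374) (nat_lit 5) (nat_lit 387) (nat_lit 5) (nat_lit 375) (nat_lit 5) (nat_lit 338) (nat_lit 315) (nat_lit 247))))) (XT.nd (nat_lit 156) (nat_lit 1748) (nat_lit 0) (XT.nd (nat_lit 78) (nat_lit 836) (nat_lit 0) (XT.lf (nat_lit 0) (nat_lit 4055248413) (nat_lit 836) (nat_lit 927009205) (nat_lit 912) (nat_lit 4859079292) (nat_lit 363) (nat_lit 5) (nat_lit 374) (nat_lit 5) (nat_lit 375) (nat_lit 5) (nat_lit 339) (nat_lit 315) (nat_lit 246)) (XT.lf (nat_lit 0) (nat_lit 2500595432) (nat_lit 836) (nat_lit 5245743085) (nat_lit 912) (nat_lit 2239144800) (nat_lit 352) (nat_lit 5) (nat_lit 363) (nat_lit 5) (nat_lit 364) (nat_lit 5) (nat_lit 340) (nat_lit 315) (nat_lit 245))) (XT.nd (nat_lit 78) (nat_lit 836) (nat_lit 0) (XT.lf (nat_lit 0) (nat_lit 460040587) (nat_lit 912) (nat_lit 9200002433) (nat_lit 76) (nat_lit 473733887) (nat_lit 340) (nat_lit 5) (nat_lit 352) (nat_lit 5) (nat_lit 341)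 (nat_lit 5) (nat_lit 341) (nat_lit 315) (nat_lit 244)) (XT.nd (nat_lit 78) (nat_lit 836) (nat_lit 0) (XT.lf (nat_lit 0) (nat_lit 3248999337) (nat_lit 912) (nat_lit 676430758) (nat_lit 76) (nat_lit 6360024349) (nat_lit 340) (nat_lit 5) (nat_lit 352) (nat_lit 5) (nat_lit 341) (nat_lit 5) (nat_lit 342) (nat_lit 315) (nat_lit 243)) (XT.lf (nat_lit 0) (nat_lit 6142118022) (nat_lit 912) (nat_lit 2291437558) (nat_lit 76) (nat_lit 2007731982) (nat_lit 329) (nat_lit 5) (nat_lit 341) (nat_lit 5) (nat_lit 330) (nat_lit 5) (nat_lit 343) (nat_lit 315) (nat_lit 242)))))) (XT.nd (nat_lit 390) (nat_lit 2736) (nat_lit 0) (XT.nd (nat_lit 156) (nat_lit 2128) (nat_lit 0) (XT.nd (nat_lit 78) (nat_lit 836) (nat_lit 0) (XT.lf (nat_lit 0) (nat_lit 6662843603) (nat_lit 760) (nat_lit 2488618727) (nat_lit 836) (nat_lit 1449759346) (nat_lit 319) (nat_lit 5) (nat_lit 329) (nat_lit 5) (nat_lit 330) (nat_lit 5) (nat_lit 344) (nat_lit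 315) (nat_lit 241)) (XT.lf (nat_lit 0) (nat_lit 1494784902) (nat_lit 836) (nat_lit 5626774866) (nat_lit 76) (nat_lit 3643632540) (nat_lit 308) (nat_lit 5) (nat_lit 319) (nat_lit 5) (nat_lit 309) (nat_lit 5) (nat_lit 345) (nat_lit 315) (nat_lit 240))) (XT.nd (nat_lit 78) (nat_lit 1444) (nat_lit 0) (XT.lf (nat_lit 0) (nat_lit 3581663536) (nat_lit 684) (nat_lit 950151927) (nat_lit 760) (nat_lit 6401611538) (nat_lit 299) (nat_lit 5) (nat_lit 308) (nat_lit 5) (nat_lit 309) (nat_lit 5) (nat_lit 346) (nat_lit 315) (nat_lit 239)) (XT.nd (nat_lit 78) (nat_lit 684) (nat_lit 0) (XT.lf (nat_lit 0) (nat_lit 1981313713) (nat_lit 760) (nat_lit 5722893393) (nat_lit 836) (nat_lit 3401629761) (nat_lit 289) (nat_lit 5) (nat_lit 299) (nat_lit 5) (nat_lit 300) (nat_lit 5) (nat_lit 347) (nat_lit 315) (nat_lit 238)) (XT.lf (nat_lit 0) (nat_lit 359918485) (nat_lit 684) (nat_lit 10633407734) (nat_lit 760) (nat_lit 289674450)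 (nat_lit 280) (nat_lit 5) (nat_lit 289) (nat_lit 5) (nat_lit 290) (nat_lit 5) (nat_lit 348) (nat_lit 315) (nat_lit 237))))) (XT.nd (nat_lit 156) (nat_lit 1976) (nat_lit 0) (XT.nd (nat_lit 78) (nat_lit 684) (nat_lit 0) (XT.lf (nat_lit 0) (nat_lit 2937333259) (nat_lit 760) (nat_lit 1314647714) (nat_lit 76) (nat_lit 7211933289) (nat_lit 279) (nat_lit 5) (nat_lit 289) (nat_lit 5) (nat_lit 280) (nat_lit 5) (nat_lit 349) (nat_lit 315) (nat_lit 236)) (XT.lf (nat_lit 0) (nat_lit 6289407291) (nat_lit 760) (nat_lit 3017010331) (nat_lit 76) (nat_lit 2343167299) (nat_lit 270) (nat_lit 5) (nat_lit 280) (nat_lit 5) (nat_lit 271) (nat_lit 5) (nat_lit 350) (nat_lit 315) (nat_lit 235))) (XT.nd (nat_lit 78) (nat_lit 1368) (nat_lit 0) (XT.lf (nat_lit 0) (nat_lit 7074614211) (nat_lit 608) (nat_lit 2712187822) (nat_lit 684) (nat_lit 2053139938) (nat_lit 262) (nat_lit 5) (nat_lit 270) (nat_lit 5) (nat_lit 271) (nat_lit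 5) (nat_lit 351) (nat_lit 315) (nat_lit 234)) (XT.nd (nat_lit 78) (nat_lit 608) (nat_lit 0) (XT.lf (nat_lit 0) (nat_lit 1380476109) (nat_lit 760) (nat_lit 6569572223) (nat_lit 76) (nat_lit 4084894318) (nat_lit 252) (nat_lit 5) (nat_lit 262) (nat_lit 5) (nat_lit 253) (nat_lit 5) (nat_lit 352) (nat_lit 315) (nat_lit 233)) (XT.lf (nat_lit 0) (nat_lit 3805906424) (nat_lit 608) (nat_lit 1121582377) (nat_lit 684) (nat_lit 7307278051) (nat_lit 244) (nat_lit 5) (nat_lit 252) (nat_lit 5) (nat_lit 253) (nat_lit 5) (nat_lit 353) (nat_lit 315) (nat_lit 232))))))) (XT.nd (nat_lit 780) (nat_lit 4332) (nat_lit 0) (XT.nd (nat_lit 390) (nat_lit 2204) (nat_lit 0) (XT.nd (nat_lit 156) (nat_lit 1216) (nat_lit 0) (XT.nd (nat_lit 78) (nat_lit 532) (nat_lit 0) (XT.lf (nat_lit 0) (nat_lit 2086612256) (nat_lit 608) (nat_lit 6554558605) (nat_lit 684) (nat_lit 3798220006) (nat_lit 236) (nat_lit 5) (nat_lit 244) (nat_lit 5)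 (nat_lit 245) (nat_lit 5) (nat_lit 354) (nat_lit 315) (nat_lit 231)) (XT.lf (nat_lit 0) (nat_lit 332720238) (nat_lit 532) (nat_lit 12167718027) (nat_lit 608) (nat_lit 149041807) (nat_lit 229) (nat_lit 5) (nat_lit 236) (nat_lit 5) (nat_lit 237) (nat_lit 5) (nat_lit 355) (nat_lit 315) (nat_lit 230))) (XT.nd (nat_lit 78) (nat_lit 1140) (nat_lit 0) (XT.lf (nat_lit 0) (nat_lit 3641472334) (nat_lit 608) (nat_lit 1496352878) (nat_lit 76) (nat_lit 7726003481) (nat_lit 228) (nat_lit 5) (nat_lit 236) (nat_lit 5) (nat_lit 229) (nat_lit 5) (nat_lit 356) (nat_lit 315) (nat_lit 229)) (XT.nd (nat_lit 78) (nat_lit 532) (nat_lit 0) (XT.lf (nat_lit 0) (nat_lit 7586671055) (nat_lit 684) (nat_lit 3366075829) (nat_lit 76) (nat_lit 2130990517) (nat_lit 220) (nat_lit 5) (nat_lit 229) (nat_lit 5) (nat_lit 221) (nat_lit 5) (nat_lit 357) (nat_lit 315) (nat_lit 228)) (XT.lf (nat_lit 0) (nat_lit 8005849447) (nat_lit 532) (nat_lit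 3707358500) (nat_lit 608) (nat_lit 1595784721) (nat_lit 213) (nat_lit 5) (nat_lit 220) (nat_lit 5) (nat_lit 221) (nat_lit 5) (nat_lit 358) (nat_lit 315) (nat_lit 227))))) (XT.nd (nat_lit 156) (nat_lit 1064) (nat_lit 0) (XT.nd (nat_lit 78) (nat_lit 532) (nat_lit 0) (XT.lf (nat_lit 0) (nat_lit 2446042069) (nat_lit 608) (nat_lit 7317425076) (nat_lit 76) (nat_lit 3776126810) (nat_lit 205) (nat_lit 5) (nat_lit 213) (nat_lit 5) (nat_lit 206) (nat_lit 5) (nat_lit 359) (nat_lit 315) (nat_lit 226)) (XT.lf (nat_lit 0) (nat_lit 4368120906) (nat_lit 532) (nat_lit 2276309951) (nat_lit 608) (nat_lit 7131339974) (nat_lit 198) (nat_lit 5) (nat_lit 205) (nat_lit 5) (nat_lit 206) (nat_lit 5) (nat_lit 360) (nat_lit 315) (nat_lit 225))) (XT.nd (nat_lit 78) (nat_lit 532) (nat_lit 0) (XT.lf (nat_lit 0) (nat_lit 2439953869) (nat_lit 532) (nat_lit 8598004137) (nat_lit 608) (nat_lit 2979699296) (nat_lit 191) (nat_lit 5) (nat_lit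 198) (nat_lit 5) (nat_lit 199) (nat_lit 5) (nat_lit 361) (nat_lit 315) (nat_lit 224)) (XT.nd (nat_lit 78) (nat_lit 0) (nat_lit 0) (XT.lf (nat_lit 0) (nat_lit 445501385) (nat_lit 456) (nat_lit 884853133) (nat_lit 532) (nat_lit 12935267779) (nat_lit 184) (nat_lit 5) (nat_lit 190) (nat_lit 5) (nat_lit 191) (nat_lit 5) (nat_lit 362) (nat_lit 315) (nat_lit 223)) (XT.lf (nat_lit 0) (nat_lit 5823421119) (nat_lit 532) (nat_lit 1640233881) (nat_lit 76) (nat_lit 7055100870) (nat_lit 184) (nat_lit 5) (nat_lit 191) (nat_lit 5) (nat_lit 185) (nat_lit 5) (nat_lit 363) (nat_lit 315) (nat_lit 222)))))) (XT.nd (nat_lit 390) (nat_lit 2052) (nat_lit 0) (XT.nd (nat_lit 156) (nat_lit 1292) (nat_lit 0) (XT.nd (nat_lit 78) (nat_lit 532) (nat_lit 0) (XT.lf (nat_lit 0) (nat_lit 10501952387) (nat_lit 532) (nat_lit 3779522941) (nat_lit 76) (nat_lit 497001864) (nat_lit 178) (nat_lit 5) (nat_lit 185) (nat_lit 5) (nat_lit 179)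 (nat_lit 5) (nat_lit 364) (nat_lit 315) (nat_lit 221)) (XT.lf (nat_lit 0) (nat_lit 362097819) (nat_lit 532) (nat_lit 6025236085) (nat_lit 76) (nat_lit 8656810353) (nat_lit 171) (nat_lit 5) (nat_lit 178) (nat_lit 5) (nat_lit 172) (nat_lit 5) (nat_lit 365) (nat_lit 315) (nat_lit 220))) (XT.nd (nat_lit 78) (nat_lit 836) (nat_lit 0) (XT.lf (nat_lit 0) (nat_lit 5135952724) (nat_lit 532) (nat_lit 8370764187) (nat_lit 76) (nat_lit 1809422219) (nat_lit 165) (nat_lit 5) (nat_lit 172) (nat_lit 5) (nat_lit 166) (nat_lit 5) (nat_lit 366) (nat_lit 315) (nat_lit 219)) (XT.nd (nat_lit 78) (nat_lit 456) (nat_lit 0) (XT.lf (nat_lit 0) (nat_lit 4771130292) (nat_lit 380) (nat_lit 5368179860) (nat_lit 456) (nat_lit 5455264421) (nat_lit 160) (nat_lit 5) (nat_lit 165) (nat_lit 5) (nat_lit 166) (nat_lit 5) (nat_lit 367) (nat_lit 315) (nat_lit 218)) (XT.lf (nat_lit 0) (nat_lit 2514271354) (nat_lit 456) (nat_lit 12843480841)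 (nat_lit 532) (nat_lit 522317476) (nat_lit 154) (nat_lit 5) (nat_lit 160) (nat_lit 5) (nat_lit 161) (nat_lit 5) (nat_lit 368) (nat_lit 315) (nat_lit 217))))) (XT.nd (nat_lit 234) (nat_lit 1216) (nat_lit 0) (XT.nd (nat_lit 78) (nat_lit 380) (nat_lit 0) (XT.lf (nat_lit 0) (nat_lit 123133686) (nat_lit 380) (nat_lit 4458583580) (nat_lit 456) (nat_lit 11590168644) (nat_lit 148) (nat_lit 5) (nat_lit 153) (nat_lit 5) (nat_lit 154) (nat_lit 5) (nat_lit 369) (nat_lit 315) (nat_lit 216)) (XT.nd (nat_lit 78) (nat_lit 380) (nat_lit 0) (XT.lf (nat_lit 0) (nat_lit 9922940830) (nat_lit 456) (nat_lit 2342100560) (nat_lit 76) (nat_lit 4205528707) (nat_lit 148) (nat_lit 5) (nat_lit 154) (nat_lit 5) (nat_lit 149) (nat_lit 5) (nat_lit 370) (nat_lit 315) (nat_lit 215)) (XT.lf (nat_lit 0) (nat_lit 11862755196) (nat_lit 380) (nat_lit 3642102193) (nat_lit 456) (nat_lit 1271753923) (nat_lit 143) (nat_lit 5) (nat_lit 148)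 (nat_lit 5) (nat_lit 149) (nat_lit 5) (nat_lit 371) (nat_lit 315) (nat_lit 214)))) (XT.nd (nat_lit 78) (nat_lit 760) (nat_lit 0) (XT.lf (nat_lit 0) (nat_lit 4194012756) (nat_lit 456) (nat_lit 7631707288) (nat_lit 76) (nat_lit 5263854460) (nat_lit 137) (nat_lit 5) (nat_lit 143) (nat_lit 5) (nat_lit 138) (nat_lit 5) (nat_lit 372) (nat_lit 315) (nat_lit 213)) (XT.nd (nat_lit 78) (nat_lit 380) (nat_lit 0) (XT.lf (nat_lit 0) (nat_lit 6936338056) (nat_lit 380) (nat_lit 2947540240) (nat_lit 456) (nat_lit 7526337287) (nat_lit 132) (nat_lit 5) (nat_lit 137) (nat_lit 5) (nat_lit 138) (nat_lit 5) (nat_lit 373) (nat_lit 315) (nat_lit 212)) (XT.lf (nat_lit 0) (nat_lit 4283955524) (nat_lit 380) (nat_lit 11555405887) (nat_lit 456) (nat_lit 1899221099) (nat_lit 127) (nat_lit 5) (nat_lit 132) (nat_lit 5) (nat_lit 133) (nat_lit 5) (nat_lit 374) (nat_lit 315) (nat_lit 211))))))))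
noncomputable def xc77 : XT := (XT.nd (nat_lit 42978) (nat_lit 0) (nat_lit 17708) (XT.nd (nat_lit 780) (nat_lit 304) (nat_lit 0) (XT.nd (nat_lit 390) (nat_lit 1368) (nat_lit 0) (XT.nd (nat_lit 156) (nat_lit 1064) (nat_lit 0) (XT.nd (nat_lit 78) (nat_lit 0) (nat_lit 0) (XT.lf (nat_lit 0) (nat_lit 1488738020) (nat_lit 380) (nat_lit 2432823096) (nat_lit 456) (nat_lit 14153218961) (nat_lit 121) (nat_lit 5) (nat_lit 126) (nat_lit 5) (nat_lit 127) (nat_lit 5) (nat_lit 375) (nat_lit 315) (nat_lit 210)) (XT.lf (nat_lit 0) (nat_lit 10003835001) (nat_lit 456) (nat_lit 1450794751) (nat_lit 76) (nat_lit 6963933984) (nat_lit 121) (nat_lit 5) (nat_lit 127) (nat_lit 5) (nat_lit 122) (nat_lit 5) (nat_lit 376) (nat_lit 315) (nat_lit 209))) (XT.nd (nat_lit 78) (nat_lit 760) (nat_lit 0) (XT.lf (nat_lit 0) (nat_lit 14272916265) (nat_lit 304) (nat_lit 2080848217) (nat_lit 380) (nat_lit 2417197203) (nat_lit 117) (nat_lit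 5) (nat_lit 121) (nat_lit 5) (nat_lit 122) (nat_lit 5) (nat_lit 377) (nat_lit 315) (nat_lit 208)) (XT.nd (nat_lit 78) (nat_lit 304) (nat_lit 0) (XT.lf (nat_lit 0) (nat_lit 3821502233) (nat_lit 456) (nat_lit 7738213993) (nat_lit 76) (nat_lit 7571520205) (nat_lit 111) (nat_lit 5) (nat_lit 117) (nat_lit 5) (nat_lit 112) (nat_lit 5) (nat_lit 378) (nat_lit 315) (nat_lit 207)) (XT.lf (nat_lit 0) (nat_lit 8364062553) (nat_lit 304) (nat_lit 1926467841) (nat_lit 380) (nat_lit 9209953498) (nat_lit 107) (nat_lit 5) (nat_lit 111) (nat_lit 5) (nat_lit 112) (nat_lit 5) (nat_lit 379) (nat_lit 315) (nat_lit 206))))) (XT.nd (nat_lit 156) (nat_lit 684) (nat_lit 0) (XT.nd (nat_lit 78) (nat_lit 380) (nat_lit 0) (XT.lf (nat_lit 0) (nat_lit 5155095178) (nat_lit 304) (nat_lit 11913979366) (nat_lit 380) (nat_lit 2809429394) (nat_lit 103) (nat_lit 5) (nat_lit 107) (nat_lit 5) (nat_lit 108) (nat_lit 5) (nat_lit 380) (nat_lit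 315) (nat_lit 205)) (XT.lf (nat_lit 0) (nat_lit 1771179118) (nat_lit 304) (nat_lit 2040220242) (nat_lit 380) (nat_lit 16454419739) (nat_lit 98) (nat_lit 5) (nat_lit 102) (nat_lit 5) (nat_lit 103) (nat_lit 5) (nat_lit 381) (nat_lit 315) (nat_lit 204))) (XT.nd (nat_lit 78) (nat_lit 684) (nat_lit 0) (XT.lf (nat_lit 0) (nat_lit 10724017487) (nat_lit 380) (nat_lit 1808176827) (nat_lit 76) (nat_lit 8129565078) (nat_lit 98) (nat_lit 5) (nat_lit 103) (nat_lit 5) (nat_lit 99) (nat_lit 5) (nat_lit 382) (nat_lit 315) (nat_lit 203)) (XT.nd (nat_lit 78) (nat_lit 380) (nat_lit 0) (XT.lf (nat_lit 0) (nat_lit 15534678285) (nat_lit 304) (nat_lit 2402385947) (nat_lit 380) (nat_lit 3130656306) (nat_lit 94) (nat_lit 5) (nat_lit 98) (nat_lit 5) (nat_lit 99) (nat_lit 5) (nat_lit 383) (nat_lit 315) (nat_lit 202)) (XT.lf (nat_lit 0) (nat_lit 3951857974) (nat_lit 380) (nat_lit 9501303495) (nat_lit 76) (nat_lit 8029756375)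 (nat_lit 89) (nat_lit 5) (nat_lit 94) (nat_lit 5) (nat_lit 90) (nat_lit 5) (nat_lit 384) (nat_lit 315) (nat_lit 201)))))) (XT.nd (nat_lit 41808) (nat_lit 0) (nat_lit 33288) (XT.nd (nat_lit 41574) (nat_lit 0) (nat_lit 34504) (XT.nd (nat_lit 41496) (nat_lit 0) (nat_lit 35720) (XT.lf (nat_lit 0) (nat_lit 8224429610) (nat_lit 304) (nat_lit 3066458688) (nat_lit 380) (nat_lit 10617540789) (nat_lit 85) (nat_lit 5) (nat_lit 89) (nat_lit 5) (nat_lit 90) (nat_lit 5) (nat_lit 385) (nat_lit 315) (nat_lit 200)) (XT.lf (nat_lit 0) (nat_lit 2003159291) (nat_lit 1292) (nat_lit 882743336) (nat_lit 1292) (nat_lit 882743336) (nat_lit 555) (nat_lit 3) (nat_lit 572) (nat_lit 3) (nat_lit 572) (nat_lit 5) (nat_lit 316) (nat_lit 316) (nat_lit 268))) (XT.nd (nat_lit 78) (nat_lit 1216) (nat_lit 0) (XT.lf (nat_lit 76) (nat_lit 3714405990) (nat_lit 0) (nat_lit 2463905679) (nat_lit 1292) (nat_lit 1428899381) (nat_lit 556) (nat_lit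 5) (nat_lit 555) (nat_lit 3) (nat_lit 572) (nat_lit 5) (nat_lit 317) (nat_lit 316) (nat_lit 267)) (XT.nd (nat_lit 78) (nat_lit 0) (nat_lit 0) (XT.lf (nat_lit 0) (nat_lit 673748184) (nat_lit 1292) (nat_lit 6009151532) (nat_lit 1368) (nat_lit 997323604) (nat_lit 539) (nat_lit 5) (nat_lit 556) (nat_lit 5) (nat_lit 557) (nat_lit 5) (nat_lit 318) (nat_lit 316) (nat_lit 266)) (XT.lf (nat_lit 0) (nat_lit 2783239710) (nat_lit 1292) (nat_lit 370389827) (nat_lit 1368) (nat_lit 4602377486) (nat_lit 539) (nat_lit 5) (nat_lit 556) (nat_lit 5) (nat_lit 557) (nat_lit 5) (nat_lit 319) (nat_lit 316) (nat_lit 265))))) (XT.nd (nat_lit 156) (nat_lit 1292) (nat_lit 0) (XT.nd (nat_lit 78) (nat_lit 0) (nat_lit 0) (XT.lf (nat_lit 0) (nat_lit 4917456008) (nat_lit 1292) (nat_lit 2372441534) (nat_lit 1368) (nat_lit 544970436) (nat_lit 540) (nat_lit 5) (nat_lit 557) (nat_lit 5) (nat_lit 558) (nat_lit 5) (nat_lit 320) (nat_lit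 316) (nat_lit 264)) (XT.lf (nat_lit 76) (nat_lit 3540378746) (nat_lit 0) (nat_lit 3546489282) (nat_lit 1368) (nat_lit 829834943) (nat_lit 541) (nat_lit 5) (nat_lit 540) (nat_lit 5) (nat_lit 558) (nat_lit 5) (nat_lit 321) (nat_lit 316) (nat_lit 263))) (XT.nd (nat_lit 78) (nat_lit 0) (nat_lit 0) (XT.lf (nat_lit 0) (nat_lit 1258219960) (nat_lit 1368) (nat_lit 6373634668) (nat_lit 1444) (nat_lit 369893654) (nat_lit 523) (nat_lit 5) (nat_lit 541) (nat_lit 5) (nat_lit 542) (nat_lit 5) (nat_lit 322) (nat_lit 316) (nat_lit 262)) (XT.nd (nat_lit 78) (nat_lit 0) (nat_lit 76) (XT.lf (nat_lit 0) (nat_lit 3379295898) (nat_lit 1368) (nat_lit 291058212) (nat_lit 1444) (nat_lit 4419277264) (nat_lit 523) (nat_lit 5) (nat_lit 541) (nat_lit 5) (nat_lit 542) (nat_lit 5) (nat_lit 323) (nat_lit 316) (nat_lit 261)) (XT.lf (nat_lit 0) (nat_lit 5536221286) (nat_lit 1368) (nat_lit 2175192439) (nat_lit 1444) (nat_lit 469321235)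 (nat_lit 524) (nat_lit 5) (nat_lit 542) (nat_lit 5) (nat_lit 543) (nat_lit 5) (nat_lit 324) (nat_lit 316) (nat_lit 260))))))) (XT.nd (nat_lit 780) (nat_lit 9804) (nat_lit 0) (XT.nd (nat_lit 390) (nat_lit 4484) (nat_lit 0) (XT.nd (nat_lit 156) (nat_lit 0) (nat_lit 0) (XT.nd (nat_lit 78) (nat_lit 1368) (nat_lit 0) (XT.lf (nat_lit 76) (nat_lit 4206155463) (nat_lit 0) (nat_lit 3537570179) (nat_lit 1444) (nat_lit 531156108) (nat_lit 525) (nat_lit 5) (nat_lit 524) (nat_lit 5) (nat_lit 543) (nat_lit 5) (nat_lit 325) (nat_lit 316) (nat_lit 259)) (XT.lf (nat_lit 0) (nat_lit 1593139251) (nat_lit 1444) (nat_lit 5964851541) (nat_lit 1520) (nat_lit 814292271) (nat_lit 506) (nat_lit 5) (nat_lit 525) (nat_lit 5) (nat_lit 526) (nat_lit 5) (nat_lit 326) (nat_lit 316) (nat_lit 258))) (XT.nd (nat_lit 78) (nat_lit 0) (nat_lit 76) (XT.lf (nat_lit 76) (nat_lit 596081065) (nat_lit 0) (nat_lit 3168236959) (nat_lit 1520)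 (nat_lit 4708436187) (nat_lit 507) (nat_lit 5) (nat_lit 506) (nat_lit 5) (nat_lit 526) (nat_lit 5) (nat_lit 327) (nat_lit 316) (nat_lit 257)) (XT.nd (nat_lit 78) (nat_lit 0) (nat_lit 0) (XT.lf (nat_lit 0) (nat_lit 5986871526) (nat_lit 1444) (nat_lit 1195518535) (nat_lit 1520) (nat_lit 1394149337) (nat_lit 507) (nat_lit 5) (nat_lit 526) (nat_lit 5) (nat_lit 527) (nat_lit 5) (nat_lit 328) (nat_lit 316) (nat_lit 256)) (XT.lf (nat_lit 76) (nat_lit 5694398111) (nat_lit 0) (nat_lit 2578470533) (nat_lit 1520) (nat_lit 410658128) (nat_lit 508) (nat_lit 5) (nat_lit 507) (nat_lit 5) (nat_lit 527) (nat_lit 5) (nat_lit 329) (nat_lit 316) (nat_lit 255))))) (XT.nd (nat_lit 156) (nat_lit 3116) (nat_lit 0) (XT.nd (nat_lit 78) (nat_lit 0) (nat_lit 0) (XT.lf (nat_lit 0) (nat_lit 1797995497) (nat_lit 1520) (nat_lit 4799304430) (nat_lit 1596) (nat_lit 2196442078) (nat_lit 488) (nat_lit 5) (nat_lit 508) (nat_lit 5) (nat_lit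 509) (nat_lit 5) (nat_lit 330) (nat_lit 316) (nat_lit 254)) (XT.lf (nat_lit 76) (nat_lit 2285602680) (nat_lit 0) (nat_lit 1775479419) (nat_lit 1596) (nat_lit 4846274410) (nat_lit 489) (nat_lit 5) (nat_lit 488) (nat_lit 5) (nat_lit 509) (nat_lit 5) (nat_lit 331) (nat_lit 316) (nat_lit 253))) (XT.nd (nat_lit 78) (nat_lit 1672) (nat_lit 0) (XT.lf (nat_lit 0) (nat_lit 565178667) (nat_lit 1520) (nat_lit 5826753693) (nat_lit 1596) (nat_lit 2632471173) (nat_lit 469) (nat_lit 5) (nat_lit 489) (nat_lit 5) (nat_lit 490) (nat_lit 5) (nat_lit 332) (nat_lit 316) (nat_lit 252)) (XT.nd (nat_lit 78) (nat_lit 1672) (nat_lit 0) (XT.lf (nat_lit 0) (nat_lit 8000757116) (nat_lit 1520) (nat_lit 792735623) (nat_lit 1596) (nat_lit 351474417) (nat_lit 469) (nat_lit 5) (nat_lit 489) (nat_lit 5) (nat_lit 490) (nat_lit 5) (nat_lit 333) (nat_lit 316) (nat_lit 251)) (XT.lf (nat_lit 0) (nat_lit 1987717260) (nat_lit 1672) (nat_lit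 2881662762) (nat_lit 76) (nat_lit 4399208731) (nat_lit 447) (nat_lit 5) (nat_lit 469) (nat_lit 5) (nat_lit 448) (nat_lit 5) (nat_lit 334) (nat_lit 316) (nat_lit 250)))))) (XT.nd (nat_lit 390) (nat_lit 4256) (nat_lit 0) (XT.nd (nat_lit 156) (nat_lit 2128) (nat_lit 0) (XT.nd (nat_lit 78) (nat_lit 1748) (nat_lit 0) (XT.lf (nat_lit 0) (nat_lit 4385697960) (nat_lit 1748) (nat_lit 4625217287) (nat_lit 76) (nat_lit 385108815) (nat_lit 425) (nat_lit 5) (nat_lit 448) (nat_lit 5) (nat_lit 426) (nat_lit 5) (nat_lit 335) (nat_lit 316) (nat_lit 249)) (XT.lf (nat_lit 0) (nat_lit 3127960003) (nat_lit 1748) (nat_lit 3748225505) (nat_lit 1824) (nat_lit 2650704306) (nat_lit 402) (nat_lit 5) (nat_lit 425) (nat_lit 5) (nat_lit 426) (nat_lit 5) (nat_lit 336) (nat_lit 316) (nat_lit 248))) (XT.nd (nat_lit 78) (nat_lit 988) (nat_lit 0) (XT.lf (nat_lit 0) (nat_lit 1478208715) (nat_lit 1140) (nat_lit 7964480642) (nat_lit 1216)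 (nat_lit 218984340) (nat_lit 387) (nat_lit 5) (nat_lit 402) (nat_lit 5) (nat_lit 403) (nat_lit 5) (nat_lit 337) (nat_lit 316) (nat_lit 247)) (XT.nd (nat_lit 78) (nat_lit 912) (nat_lit 0) (XT.lf (nat_lit 0) (nat_lit 2274558044) (nat_lit 1216) (nat_lit 206609722) (nat_lit 76) (nat_lit 7318676877) (nat_lit 386) (nat_lit 5) (nat_lit 402) (nat_lit 5) (nat_lit 387) (nat_lit 5) (nat_lit 338) (nat_lit 316) (nat_lit 246)) (XT.lf (nat_lit 0) (nat_lit 4864866108) (nat_lit 988) (nat_lit 1893786038) (nat_lit 76) (nat_lit 3182997739) (nat_lit 374) (nat_lit 5) (nat_lit 387) (nat_lit 5) (nat_lit 375) (nat_lit 5) (nat_lit 339) (nat_lit 316) (nat_lit 245))))) (XT.nd (nat_lit 234) (nat_lit 1672) (nat_lit 0) (XT.nd (nat_lit 78) (nat_lit 1748) (nat_lit 0) (XT.lf (nat_lit 0) (nat_lit 6488665301) (nat_lit 836) (nat_lit 1057081100) (nat_lit 912) (nat_lit 2541721943) (nat_lit 363) (nat_lit 5) (nat_lit 374) (nat_lit 5) (nat_lit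 375) (nat_lit 5) (nat_lit 340) (nat_lit 316) (nat_lit 244)) (XT.nd (nat_lit 78) (nat_lit 836) (nat_lit 0) (XT.lf (nat_lit 0) (nat_lit 98488137) (nat_lit 912) (nat_lit 5338896357) (nat_lit 76) (nat_lit 4799683256) (nat_lit 351) (nat_lit 5) (nat_lit 363) (nat_lit 5) (nat_lit 352) (nat_lit 5) (nat_lit 341) (nat_lit 316) (nat_lit 243)) (XT.lf (nat_lit 0) (nat_lit 2794265029) (nat_lit 912) (nat_lit 7111460360) (nat_lit 76) (nat_lit 484890963) (nat_lit 340) (nat_lit 5) (nat_lit 352) (nat_lit 5) (nat_lit 341) (nat_lit 5) (nat_lit 342) (nat_lit 316) (nat_lit 242)))) (XT.nd (nat_lit 78) (nat_lit 836) (nat_lit 0) (XT.lf (nat_lit 0) (nat_lit 1620197487) (nat_lit 836) (nat_lit 3989629308) (nat_lit 912) (nat_lit 4938181027) (nat_lit 329) (nat_lit 5) (nat_lit 340) (nat_lit 5) (nat_lit 341) (nat_lit 5) (nat_lit 343) (nat_lit 316) (nat_lit 241)) (XT.nd (nat_lit 78) (nat_lit 836) (nat_lit 0) (XT.lf (nat_lit 0) (nat_lit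 8528633325) (nat_lit 912) (nat_lit 57361207) (nat_lit 76) (nat_lit 2123765161) (nat_lit 329) (nat_lit 5) (nat_lit 341) (nat_lit 5) (nat_lit 330) (nat_lit 5) (nat_lit 344) (nat_lit 316) (nat_lit 240)) (XT.lf (nat_lit 0) (nat_lit 694097841) (nat_lit 836) (nat_lit 1751880087) (nat_lit 76) (nat_lit 8429432274) (nat_lit 318) (nat_lit 5) (nat_lit 329) (nat_lit 5) (nat_lit 319) (nat_lit 5) (nat_lit 345) (nat_lit 316) (nat_lit 239))))))))
noncomputable def xc78 : XT := (XT.nd (nat_lit 1560) (nat_lit 6764) (nat_lit 0) (XT.nd (nat_lit 780) (nat_lit 4408) (nat_lit 0) (XT.nd (nat_lit 390) (nat_lit 2584) (nat_lit 0) (XT.nd (nat_lit 156) (nat_lit 2204) (nat_lit 0) (XT.nd (nat_lit 78) (nat_lit 684) (nat_lit 0) (XT.lf (nat_lit 0) (nat_lit 3659812781) (nat_lit 836) (nat_lit 3495703265) (nat_lit 76) (nat_lit 3889561632) (nat_lit 308) (nat_lit 5) (nat_lit 319) (nat_lit 5) (nat_lit 309) (nat_lit 5) (nat_lit 346) (nat_lit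 316) (nat_lit 238)) (XT.lf (nat_lit 0) (nat_lit 5951675551) (nat_lit 684) (nat_lit 789215820) (nat_lit 760) (nat_lit 4478428718) (nat_lit 299) (nat_lit 5) (nat_lit 308) (nat_lit 5) (nat_lit 309) (nat_lit 5) (nat_lit 347) (nat_lit 316) (nat_lit 237))) (XT.nd (nat_lit 78) (nat_lit 1444) (nat_lit 0) (XT.lf (nat_lit 0) (nat_lit 4306824374) (nat_lit 760) (nat_lit 5657155200) (nat_lit 836) (nat_lit 1433831035) (nat_lit 289) (nat_lit 5) (nat_lit 299) (nat_lit 5) (nat_lit 300) (nat_lit 5) (nat_lit 348) (nat_lit 316) (nat_lit 236)) (XT.nd (nat_lit 78) (nat_lit 684) (nat_lit 0) (XT.lf (nat_lit 0) (nat_lit 1705084992) (nat_lit 760) (nat_lit 8953343162) (nat_lit 76) (nat_lit 922512376) (nat_lit 279) (nat_lit 5) (nat_lit 289) (nat_lit 5) (nat_lit 280) (nat_lit 5) (nat_lit 349) (nat_lit 316) (nat_lit 235)) (XT.lf (nat_lit 0) (nat_lit 886170386) (nat_lit 684) (nat_lit 4086334116) (nat_lit 760) (nat_lit 6795805413)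 (nat_lit 270) (nat_lit 5) (nat_lit 279) (nat_lit 5) (nat_lit 280) (nat_lit 5) (nat_lit 350) (nat_lit 316) (nat_lit 234))))) (XT.nd (nat_lit 156) (nat_lit 1976) (nat_lit 0) (XT.nd (nat_lit 78) (nat_lit 608) (nat_lit 0) (XT.lf (nat_lit 0) (nat_lit 8378985044) (nat_lit 760) (nat_lit 878404237) (nat_lit 76) (nat_lit 2703101442) (nat_lit 270) (nat_lit 5) (nat_lit 280) (nat_lit 5) (nat_lit 271) (nat_lit 5) (nat_lit 351) (nat_lit 316) (nat_lit 233)) (XT.lf (nat_lit 0) (nat_lit 9479804277) (nat_lit 608) (nat_lit 2460369559) (nat_lit 684) (nat_lit 217223628) (nat_lit 262) (nat_lit 5) (nat_lit 270) (nat_lit 5) (nat_lit 271) (nat_lit 5) (nat_lit 352) (nat_lit 316) (nat_lit 232))) (XT.nd (nat_lit 78) (nat_lit 1216) (nat_lit 0) (XT.lf (nat_lit 0) (nat_lit 3256415032) (nat_lit 760) (nat_lit 4549382590) (nat_lit 76) (nat_lit 4552981767) (nat_lit 252) (nat_lit 5) (nat_lit 262) (nat_lit 5) (nat_lit 253) (nat_lit 5)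 (nat_lit 353) (nat_lit 316) (nat_lit 231)) (XT.nd (nat_lit 78) (nat_lit 608) (nat_lit 0) (XT.lf (nat_lit 0) (nat_lit 6101387734) (nat_lit 608) (nat_lit 769180087) (nat_lit 684) (nat_lit 5694831078) (nat_lit 244) (nat_lit 5) (nat_lit 252) (nat_lit 5) (nat_lit 253) (nat_lit 5) (nat_lit 354) (nat_lit 316) (nat_lit 230)) (XT.lf (nat_lit 0) (nat_lit 4328480081) (nat_lit 608) (nat_lit 6331474049) (nat_lit 684) (nat_lit 2116936362) (nat_lit 236) (nat_lit 5) (nat_lit 244) (nat_lit 5) (nat_lit 245) (nat_lit 5) (nat_lit 355) (nat_lit 316) (nat_lit 229)))))) (XT.nd (nat_lit 390) (nat_lit 2052) (nat_lit 0) (XT.nd (nat_lit 156) (nat_lit 1140) (nat_lit 0) (XT.nd (nat_lit 78) (nat_lit 608) (nat_lit 0) (XT.lf (nat_lit 0) (nat_lit 1585470327) (nat_lit 608) (nat_lit 10485379318) (nat_lit 76) (nat_lit 922927880) (nat_lit 228) (nat_lit 5) (nat_lit 236) (nat_lit 5) (nat_lit 229) (nat_lit 5) (nat_lit 356) (nat_lit 316)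 (nat_lit 228)) (XT.lf (nat_lit 0) (nat_lit 602470276) (nat_lit 608) (nat_lit 4838536542) (nat_lit 684) (nat_lit 7774477064) (nat_lit 220) (nat_lit 5) (nat_lit 228) (nat_lit 5) (nat_lit 229) (nat_lit 5) (nat_lit 357) (nat_lit 316) (nat_lit 227))) (XT.nd (nat_lit 78) (nat_lit 1140) (nat_lit 0) (XT.lf (nat_lit 0) (nat_lit 9468097546) (nat_lit 684) (nat_lit 1335361553) (nat_lit 76) (nat_lit 2639273250) (nat_lit 220) (nat_lit 5) (nat_lit 229) (nat_lit 5) (nat_lit 221) (nat_lit 5) (nat_lit 358) (nat_lit 316) (nat_lit 226)) (XT.nd (nat_lit 78) (nat_lit 532) (nat_lit 0) (XT.lf (nat_lit 0) (nat_lit 8316974) (nat_lit 608) (nat_lit 3332366665) (nat_lit 76) (nat_lit 10334764451) (nat_lit 212) (nat_lit 5) (nat_lit 220) (nat_lit 5) (nat_lit 213) (nat_lit 5) (nat_lit 359) (nat_lit 316) (nat_lit 225)) (XT.lf (nat_lit 0) (nat_lit 4119060501) (nat_lit 608) (nat_lit 5422964346) (nat_lit 76) (nat_lit 4371356976) (nat_lit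 205) (nat_lit 5) (nat_lit 213) (nat_lit 5) (nat_lit 206) (nat_lit 5) (nat_lit 360) (nat_lit 316) (nat_lit 224))))) (XT.nd (nat_lit 156) (nat_lit 988) (nat_lit 0) (XT.nd (nat_lit 78) (nat_lit 532) (nat_lit 0) (XT.lf (nat_lit 0) (nat_lit 6578851145) (nat_lit 532) (nat_lit 1831461138) (nat_lit 608) (nat_lit 5747005355) (nat_lit 198) (nat_lit 5) (nat_lit 205) (nat_lit 5) (nat_lit 206) (nat_lit 5) (nat_lit 361) (nat_lit 316) (nat_lit 223)) (XT.lf (nat_lit 0) (nat_lit 4587032667) (nat_lit 532) (nat_lit 8319684555) (nat_lit 608) (nat_lit 1500333557) (nat_lit 191) (nat_lit 5) (nat_lit 198) (nat_lit 5) (nat_lit 199) (nat_lit 5) (nat_lit 362) (nat_lit 316) (nat_lit 222))) (XT.nd (nat_lit 78) (nat_lit 456) (nat_lit 0) (XT.lf (nat_lit 0) (nat_lit 2519711297) (nat_lit 456) (nat_lit 367023734) (nat_lit 532) (nat_lit 11776161192) (nat_lit 184) (nat_lit 5) (nat_lit 190) (nat_lit 5) (nat_lit 191) (nat_lit 5) (nat_lit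 363) (nat_lit 316) (nat_lit 221)) (XT.nd (nat_lit 78) (nat_lit 0) (nat_lit 0) (XT.lf (nat_lit 0) (nat_lit 342237088) (nat_lit 456) (nat_lit 7133841044) (nat_lit 532) (nat_lit 7448326620) (nat_lit 178) (nat_lit 5) (nat_lit 184) (nat_lit 5) (nat_lit 185) (nat_lit 5) (nat_lit 364) (nat_lit 316) (nat_lit 220)) (XT.lf (nat_lit 0) (nat_lit 12266271029) (nat_lit 532) (nat_lit 1872911439) (nat_lit 76) (nat_lit 1053319466) (nat_lit 178) (nat_lit 5) (nat_lit 185) (nat_lit 5) (nat_lit 179) (nat_lit 5) (nat_lit 365) (nat_lit 316) (nat_lit 219))))))) (XT.nd (nat_lit 780) (nat_lit 2888) (nat_lit 0) (XT.nd (nat_lit 390) (nat_lit 1596) (nat_lit 0) (XT.nd (nat_lit 156) (nat_lit 1292) (nat_lit 0) (XT.nd (nat_lit 78) (nat_lit 456) (nat_lit 0) (XT.lf (nat_lit 0) (nat_lit 1802645356) (nat_lit 532) (nat_lit 4199440488) (nat_lit 76) (nat_lit 9464461260) (nat_lit 171) (nat_lit 5) (nat_lit 178) (nat_lit 5) (nat_lit 172) (nat_lit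 5) (nat_lit 366) (nat_lit 316) (nat_lit 218)) (XT.lf (nat_lit 0) (nat_lit 6694612317) (nat_lit 532) (nat_lit 6623274128) (nat_lit 76) (nat_lit 2429326999) (nat_lit 165) (nat_lit 5) (nat_lit 172) (nat_lit 5) (nat_lit 166) (nat_lit 5) (nat_lit 367) (nat_lit 316) (nat_lit 217))) (XT.nd (nat_lit 78) (nat_lit 912) (nat_lit 0) (XT.lf (nat_lit 0) (nat_lit 6880452064) (nat_lit 380) (nat_lit 4939474073) (nat_lit 456) (nat_lit 4214647969) (nat_lit 160) (nat_lit 5) (nat_lit 165) (nat_lit 5) (nat_lit 166) (nat_lit 5) (nat_lit 368) (nat_lit 316) (nat_lit 216)) (XT.nd (nat_lit 78) (nat_lit 380) (nat_lit 0) (XT.lf (nat_lit 0) (nat_lit 831099471) (nat_lit 532) (nat_lit 11786976599) (nat_lit 76) (nat_lit 3710930847) (nat_lit 153) (nat_lit 5) (nat_lit 160) (nat_lit 5) (nat_lit 154) (nat_lit 5) (nat_lit 369) (nat_lit 316) (nat_lit 215)) (XT.lf (nat_lit 0) (nat_lit 2071067232) (nat_lit 380) (nat_lit 3983084724) (nat_lit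 456) (nat_lit 10575905342) (nat_lit 148) (nat_lit 5) (nat_lit 153) (nat_lit 5) (nat_lit 154) (nat_lit 5) (nat_lit 370) (nat_lit 316) (nat_lit 214))))) (XT.nd (nat_lit 156) (nat_lit 1216) (nat_lit 0) (XT.nd (nat_lit 78) (nat_lit 380) (nat_lit 0) (XT.lf (nat_lit 0) (nat_lit 11520569705) (nat_lit 456) (nat_lit 502393647) (nat_lit 76) (nat_lit 4915447827) (nat_lit 148) (nat_lit 5) (nat_lit 154) (nat_lit 5) (nat_lit 149) (nat_lit 5) (nat_lit 371) (nat_lit 316) (nat_lit 213)) (XT.lf (nat_lit 0) (nat_lit 14097620789) (nat_lit 380) (nat_lit 3146660226) (nat_lit 456) (nat_lit 9873944) (nat_lit 143) (nat_lit 5) (nat_lit 148) (nat_lit 5) (nat_lit 149) (nat_lit 5) (nat_lit 372) (nat_lit 316) (nat_lit 212))) (XT.nd (nat_lit 78) (nat_lit 760) (nat_lit 0) (XT.lf (nat_lit 0) (nat_lit 5581505700) (nat_lit 456) (nat_lit 5973662295) (nat_lit 76) (nat_lit 6021604120) (nat_lit 137) (nat_lit 5) (nat_lit 143) (nat_lit 5)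 (nat_lit 138) (nat_lit 5) (nat_lit 373) (nat_lit 316) (nat_lit 211)) (XT.nd (nat_lit 78) (nat_lit 380) (nat_lit 0) (XT.lf (nat_lit 0) (nat_lit 9000810137) (nat_lit 380) (nat_lit 2416562187) (nat_lit 456) (nat_lit 6490161462) (nat_lit 132) (nat_lit 5) (nat_lit 137) (nat_lit 5) (nat_lit 138) (nat_lit 5) (nat_lit 374) (nat_lit 316) (nat_lit 210)) (XT.lf (nat_lit 0) (nat_lit 6259365059) (nat_lit 380) (nat_lit 11272022088) (nat_lit 456) (nat_lit 714774474) (nat_lit 127) (nat_lit 5) (nat_lit 132) (nat_lit 5) (nat_lit 133) (nat_lit 5) (nat_lit 375) (nat_lit 316) (nat_lit 209)))))) (XT.nd (nat_lit 390) (nat_lit 1368) (nat_lit 0) (XT.nd (nat_lit 156) (nat_lit 760) (nat_lit 0) (XT.nd (nat_lit 78) (nat_lit 304) (nat_lit 0) (XT.lf (nat_lit 0) (nat_lit 3366577653) (nat_lit 380) (nat_lit 1873990529) (nat_lit 456) (nat_lit 13352198256) (nat_lit 121) (nat_lit 5) (nat_lit 126) (nat_lit 5) (nat_lit 127) (nat_lit 5)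 (nat_lit 376) (nat_lit 316) (nat_lit 208)) (XT.lf (nat_lit 0) (nat_lit 309086939) (nat_lit 304) (nat_lit 11167221762) (nat_lit 380) (nat_lit 7471141631) (nat_lit 117) (nat_lit 5) (nat_lit 121) (nat_lit 5) (nat_lit 122) (nat_lit 5) (nat_lit 377) (nat_lit 316) (nat_lit 207))) (XT.nd (nat_lit 78) (nat_lit 760) (nat_lit 0) (XT.lf (nat_lit 0) (nat_lit 16471263211) (nat_lit 304) (nat_lit 1520871190) (nat_lit 380) (nat_lit 1318784351) (nat_lit 117) (nat_lit 5) (nat_lit 121) (nat_lit 5) (nat_lit 122) (nat_lit 5) (nat_lit 378) (nat_lit 316) (nat_lit 206)) (XT.nd (nat_lit 78) (nat_lit 304) (nat_lit 0) (XT.lf (nat_lit 0) (nat_lit 5073515497) (nat_lit 456) (nat_lit 6194778095) (nat_lit 76) (nat_lit 8413926360) (nat_lit 111) (nat_lit 5) (nat_lit 117) (nat_lit 5) (nat_lit 112) (nat_lit 5) (nat_lit 379) (nat_lit 316) (nat_lit 205)) (XT.lf (nat_lit 0) (nat_lit 10361760034) (nat_lit 304) (nat_lit 1353068466) (nat_lit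 380) (nat_lit 8348158063) (nat_lit 107) (nat_lit 5) (nat_lit 111) (nat_lit 5) (nat_lit 112) (nat_lit 5) (nat_lit 380) (nat_lit 316) (nat_lit 204))))) (XT.nd (nat_lit 234) (nat_lit 684) (nat_lit 0) (XT.nd (nat_lit 78) (nat_lit 380) (nat_lit 0) (XT.lf (nat_lit 0) (nat_lit 7046299259) (nat_lit 304) (nat_lit 11633190635) (nat_lit 380) (nat_lit 1773207928) (nat_lit 103) (nat_lit 5) (nat_lit 107) (nat_lit 5) (nat_lit 108) (nat_lit 5) (nat_lit 381) (nat_lit 316) (nat_lit 203)) (XT.nd (nat_lit 78) (nat_lit 0) (nat_lit 0) (XT.lf (nat_lit 0) (nat_lit 3547336902) (nat_lit 304) (nat_lit 1463192154) (nat_lit 380) (nat_lit 15841383852) (nat_lit 98) (nat_lit 5) (nat_lit 102) (nat_lit 5) (nat_lit 103) (nat_lit 5) (nat_lit 382) (nat_lit 316) (nat_lit 202)) (XT.lf (nat_lit 0) (nat_lit 12102953116) (nat_lit 380) (nat_lit 172364528) (nat_lit 76) (nat_lit 8984970606) (nat_lit 98) (nat_lit 5) (nat_lit 103) (nat_lit 5)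 (nat_lit 99) (nat_lit 5) (nat_lit 383) (nat_lit 316) (nat_lit 201)))) (XT.nd (nat_lit 78) (nat_lit 380) (nat_lit 0) (XT.lf (nat_lit 0) (nat_lit 17663357061) (nat_lit 304) (nat_lit 1849036481) (nat_lit 380) (nat_lit 2166439874) (nat_lit 94) (nat_lit 5) (nat_lit 98) (nat_lit 5) (nat_lit 99) (nat_lit 5) (nat_lit 384) (nat_lit 316) (nat_lit 200)) (XT.nd (nat_lit 41574) (nat_lit 0) (nat_lit 34124) (XT.lf (nat_lit 0) (nat_lit 5099023916) (nat_lit 380) (nat_lit 8120258239) (nat_lit 76) (nat_lit 8887385028) (nat_lit 89) (nat_lit 5) (nat_lit 94) (nat_lit 5) (nat_lit 90) (nat_lit 5) (nat_lit 385) (nat_lit 316) (nat_lit 199)) (XT.lf (nat_lit 0) (nat_lit 144795829) (nat_lit 0) (nat_lit 144795829) (nat_lit 1292) (nat_lit 3549789847) (nat_lit 538) (nat_lit 5) (nat_lit 538) (nat_lit 3) (nat_lit 555) (nat_lit 3) (nat_lit 317) (nat_lit 317) (nat_lit 266))))))))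
noncomputable def xc79 : XT := (XT.nd (nat_lit 1638) (nat_lit 13148) (nat_lit 0) (XT.nd (nat_lit 780) (nat_lit 8968) (nat_lit 0) (XT.nd (nat_lit 390) (nat_lit 1292) (nat_lit 0) (XT.nd (nat_lit 156) (nat_lit 1292) (nat_lit 0) (XT.nd (nat_lit 78) (nat_lit 0) (nat_lit 0) (XT.lf (nat_lit 0) (nat_lit 2604380523) (nat_lit 1292) (nat_lit 1868689892) (nat_lit 1368) (nat_lit 3279710034) (nat_lit 538) (nat_lit 5) (nat_lit 555) (nat_lit 3) (nat_lit 556) (nat_lit 5) (nat_lit 318) (nat_lit 317) (nat_lit 265)) (XT.lf (nat_lit 76) (nat_lit 3824862404) (nat_lit 0) (nat_lit 814637526) (nat_lit 1368) (nat_lit 3190567696) (nat_lit 539) (nat_lit 5) (nat_lit 538) (nat_lit 5) (nat_lit 556) (nat_lit 5) (nat_lit 319) (nat_lit 317) (nat_lit 264))) (XT.nd (nat_lit 78) (nat_lit 1368) (nat_lit 0) (XT.lf (nat_lit 76) (nat_lit 1767416347) (nat_lit 0) (nat_lit 4936281358) (nat_lit 1368) (nat_lit 1206646808) (nat_lit 540) (nat_lit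 5) (nat_lit 539) (nat_lit 5) (nat_lit 557) (nat_lit 5) (nat_lit 320) (nat_lit 317) (nat_lit 263)) (XT.nd (nat_lit 78) (nat_lit 0) (nat_lit 76) (XT.lf (nat_lit 0) (nat_lit 784622765) (nat_lit 1368) (nat_lit 277723937) (nat_lit 1444) (nat_lit 6931428305) (nat_lit 521) (nat_lit 5) (nat_lit 539) (nat_lit 5) (nat_lit 540) (nat_lit 5) (nat_lit 321) (nat_lit 317) (nat_lit 262)) (XT.lf (nat_lit 0) (nat_lit 2804628518) (nat_lit 1368) (nat_lit 2309451414) (nat_lit 1444) (nat_lit 2965790326) (nat_lit 522) (nat_lit 5) (nat_lit 540) (nat_lit 5) (nat_lit 541) (nat_lit 5) (nat_lit 322) (nat_lit 317) (nat_lit 261))))) (XT.nd (nat_lit 156) (nat_lit 1368) (nat_lit 0) (XT.nd (nat_lit 78) (nat_lit 0) (nat_lit 76) (XT.lf (nat_lit 76) (nat_lit 3836554191) (nat_lit 0) (nat_lit 1012802607) (nat_lit 1444) (nat_lit 3319937468) (nat_lit 523) (nat_lit 5) (nat_lit 522) (nat_lit 5) (nat_lit 541) (nat_lit 5) (nat_lit 323) (nat_lit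 317) (nat_lit 260)) (XT.lf (nat_lit 76) (nat_lit 1898585495) (nat_lit 0) (nat_lit 5037925334) (nat_lit 1444) (nat_lit 1325296008) (nat_lit 524) (nat_lit 5) (nat_lit 523) (nat_lit 5) (nat_lit 542) (nat_lit 5) (nat_lit 324) (nat_lit 317) (nat_lit 259))) (XT.nd (nat_lit 78) (nat_lit 0) (nat_lit 76) (XT.lf (nat_lit 0) (nat_lit 689339557) (nat_lit 1444) (nat_lit 35091976) (nat_lit 1520) (nat_lit 7633200395) (nat_lit 504) (nat_lit 5) (nat_lit 523) (nat_lit 5) (nat_lit 524) (nat_lit 5) (nat_lit 325) (nat_lit 317) (nat_lit 258)) (XT.nd (nat_lit 78) (nat_lit 0) (nat_lit 0) (XT.lf (nat_lit 0) (nat_lit 2748789635) (nat_lit 1444) (nat_lit 1963544844) (nat_lit 1520) (nat_lit 3743799898) (nat_lit 505) (nat_lit 5) (nat_lit 524) (nat_lit 5) (nat_lit 525) (nat_lit 5) (nat_lit 326) (nat_lit 317) (nat_lit 257)) (XT.lf (nat_lit 76) (nat_lit 4672897137) (nat_lit 0) (nat_lit 169639536) (nat_lit 1520) (nat_lit 3715629651)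 (nat_lit 506) (nat_lit 5) (nat_lit 505) (nat_lit 5) (nat_lit 525) (nat_lit 5) (nat_lit 327) (nat_lit 317) (nat_lit 256)))))) (XT.nd (nat_lit 390) (nat_lit 7676) (nat_lit 0) (XT.nd (nat_lit 156) (nat_lit 0) (nat_lit 0) (XT.nd (nat_lit 78) (nat_lit 1444) (nat_lit 0) (XT.lf (nat_lit 76) (nat_lit 2836933009) (nat_lit 0) (nat_lit 4162030881) (nat_lit 1520) (nat_lit 1664321954) (nat_lit 507) (nat_lit 5) (nat_lit 506) (nat_lit 5) (nat_lit 526) (nat_lit 5) (nat_lit 328) (nat_lit 317) (nat_lit 255)) (XT.lf (nat_lit 0) (nat_lit 420536685) (nat_lit 1520) (nat_lit 7767272809) (nat_lit 1596) (nat_lit 584156148) (nat_lit 487) (nat_lit 5) (nat_lit 507) (nat_lit 5) (nat_lit 508) (nat_lit 5) (nat_lit 329) (nat_lit 317) (nat_lit 254))) (XT.nd (nat_lit 78) (nat_lit 0) (nat_lit 76) (XT.lf (nat_lit 0) (nat_lit 2554478857) (nat_lit 1520) (nat_lit 845860708) (nat_lit 1596) (nat_lit 5483185410) (nat_lit 487) (nat_lit 5)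 (nat_lit 507) (nat_lit 5) (nat_lit 508) (nat_lit 5) (nat_lit 330) (nat_lit 317) (nat_lit 253)) (XT.nd (nat_lit 78) (nat_lit 0) (nat_lit 0) (XT.lf (nat_lit 0) (nat_lit 4746948088) (nat_lit 1520) (nat_lit 2685605712) (nat_lit 1596) (nat_lit 1566008620) (nat_lit 488) (nat_lit 5) (nat_lit 508) (nat_lit 5) (nat_lit 509) (nat_lit 5) (nat_lit 331) (nat_lit 317) (nat_lit 252)) (XT.lf (nat_lit 76) (nat_lit 4575220470) (nat_lit 0) (nat_lit 2432806586) (nat_lit 1596) (nat_lit 2108988100) (nat_lit 489) (nat_lit 5) (nat_lit 488) (nat_lit 5) (nat_lit 509) (nat_lit 5) (nat_lit 332) (nat_lit 317) (nat_lit 251))))) (XT.nd (nat_lit 234) (nat_lit 4636) (nat_lit 0) (XT.nd (nat_lit 78) (nat_lit 1596) (nat_lit 0) (XT.lf (nat_lit 0) (nat_lit 96966187) (nat_lit 1596) (nat_lit 6412036299) (nat_lit 76) (nat_lit 2730019481) (nat_lit 468) (nat_lit 5) (nat_lit 489) (nat_lit 5) (nat_lit 469) (nat_lit 5) (nat_lit 333) (nat_lit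 317) (nat_lit 250)) (XT.nd (nat_lit 78) (nat_lit 0) (nat_lit 0) (XT.lf (nat_lit 0) (nat_lit 1054499226) (nat_lit 1596) (nat_lit 1287164340) (nat_lit 1672) (nat_lit 7022741556) (nat_lit 447) (nat_lit 5) (nat_lit 468) (nat_lit 5) (nat_lit 469) (nat_lit 5) (nat_lit 334) (nat_lit 317) (nat_lit 249)) (XT.lf (nat_lit 0) (nat_lit 4672284122) (nat_lit 1672) (nat_lit 730813855) (nat_lit 76) (nat_lit 4090098885) (nat_lit 447) (nat_lit 5) (nat_lit 469) (nat_lit 5) (nat_lit 448) (nat_lit 5) (nat_lit 335) (nat_lit 317) (nat_lit 248)))) (XT.nd (nat_lit 78) (nat_lit 2964) (nat_lit 0) (XT.lf (nat_lit 0) (nat_lit 7077691325) (nat_lit 1748) (nat_lit 2508445100) (nat_lit 76) (nat_lit 39636757) (nat_lit 425) (nat_lit 5) (nat_lit 448) (nat_lit 5) (nat_lit 426) (nat_lit 5) (nat_lit 336) (nat_lit 317) (nat_lit 247)) (XT.nd (nat_lit 78) (nat_lit 1216) (nat_lit 0) (XT.lf (nat_lit 0) (nat_lit 5440734235) (nat_lit 1748) (nat_lit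 4141990655) (nat_lit 1824) (nat_lit 179070278) (nat_lit 402) (nat_lit 5) (nat_lit 425) (nat_lit 5) (nat_lit 426) (nat_lit 5) (nat_lit 337) (nat_lit 317) (nat_lit 246)) (XT.lf (nat_lit 0) (nat_lit 2234590546) (nat_lit 1216) (nat_lit 6159188436) (nat_lit 76) (nat_lit 1507777391) (nat_lit 386) (nat_lit 5) (nat_lit 402) (nat_lit 5) (nat_lit 387) (nat_lit 5) (nat_lit 338) (nat_lit 317) (nat_lit 245))))))) (XT.nd (nat_lit 780) (nat_lit 6536) (nat_lit 0) (XT.nd (nat_lit 390) (nat_lit 3116) (nat_lit 0) (XT.nd (nat_lit 156) (nat_lit 1748) (nat_lit 0) (XT.nd (nat_lit 78) (nat_lit 836) (nat_lit 0) (XT.lf (nat_lit 0) (nat_lit 2015879196) (nat_lit 912) (nat_lit 2725621720) (nat_lit 988) (nat_lit 5303536693) (nat_lit 374) (nat_lit 5) (nat_lit 386) (nat_lit 5) (nat_lit 387) (nat_lit 5) (nat_lit 339) (nat_lit 317) (nat_lit 244)) (XT.lf (nat_lit 0) (nat_lit 267904574) (nat_lit 836) (nat_lit 7073784387) (nat_lit 912)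 (nat_lit 2850788757) (nat_lit 363) (nat_lit 5) (nat_lit 374) (nat_lit 5) (nat_lit 375) (nat_lit 5) (nat_lit 340) (nat_lit 317) (nat_lit 243))) (XT.nd (nat_lit 78) (nat_lit 1748) (nat_lit 0) (XT.lf (nat_lit 0) (nat_lit 8862380248) (nat_lit 836) (nat_lit 1185184918) (nat_lit 912) (nat_lit 296237596) (nat_lit 363) (nat_lit 5) (nat_lit 374) (nat_lit 5) (nat_lit 375) (nat_lit 5) (nat_lit 341) (nat_lit 317) (nat_lit 242)) (XT.nd (nat_lit 78) (nat_lit 836) (nat_lit 0) (XT.lf (nat_lit 0) (nat_lit 2339692843) (nat_lit 912) (nat_lit 3278718247) (nat_lit 76) (nat_lit 4880260587) (nat_lit 351) (nat_lit 5) (nat_lit 363) (nat_lit 5) (nat_lit 352) (nat_lit 5) (nat_lit 342) (nat_lit 317) (nat_lit 241)) (XT.lf (nat_lit 0) (nat_lit 5065314419) (nat_lit 912) (nat_lit 5095996416) (nat_lit 76) (nat_lit 496558118) (nat_lit 340) (nat_lit 5) (nat_lit 352) (nat_lit 5) (nat_lit 341) (nat_lit 5) (nat_lit 343) (nat_lit 317)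 (nat_lit 240))))) (XT.nd (nat_lit 156) (nat_lit 1520) (nat_lit 0) (XT.nd (nat_lit 78) (nat_lit 760) (nat_lit 0) (XT.lf (nat_lit 0) (nat_lit 3861451408) (nat_lit 836) (nat_lit 4054422277) (nat_lit 912) (nat_lit 2905118883) (nat_lit 329) (nat_lit 5) (nat_lit 340) (nat_lit 5) (nat_lit 341) (nat_lit 5) (nat_lit 344) (nat_lit 317) (nat_lit 239)) (XT.lf (nat_lit 0) (nat_lit 2139607511) (nat_lit 760) (nat_lit 8734610065) (nat_lit 836) (nat_lit 114360357) (nat_lit 319) (nat_lit 5) (nat_lit 329) (nat_lit 5) (nat_lit 330) (nat_lit 5) (nat_lit 345) (nat_lit 317) (nat_lit 238))) (XT.nd (nat_lit 78) (nat_lit 684) (nat_lit 0) (XT.lf (nat_lit 0) (nat_lit 363545868) (nat_lit 760) (nat_lit 2397062368) (nat_lit 836) (nat_lit 8399503230) (nat_lit 308) (nat_lit 5) (nat_lit 318) (nat_lit 5) (nat_lit 319) (nat_lit 5) (nat_lit 346) (nat_lit 317) (nat_lit 237)) (XT.nd (nat_lit 78) (nat_lit 684) (nat_lit 0) (XT.lf (nat_lit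 0) (nat_lit 5768084243) (nat_lit 836) (nat_lit 1432721742) (nat_lit 76) (nat_lit 4135026043) (nat_lit 308) (nat_lit 5) (nat_lit 319) (nat_lit 5) (nat_lit 309) (nat_lit 5) (nat_lit 347) (nat_lit 317) (nat_lit 236)) (XT.lf (nat_lit 0) (nat_lit 8262907606) (nat_lit 684) (nat_lit 634326299) (nat_lit 760) (nat_lit 2618973335) (nat_lit 299) (nat_lit 5) (nat_lit 308) (nat_lit 5) (nat_lit 309) (nat_lit 5) (nat_lit 348) (nat_lit 317) (nat_lit 235)))))) (XT.nd (nat_lit 390) (nat_lit 3648) (nat_lit 0) (XT.nd (nat_lit 156) (nat_lit 1368) (nat_lit 0) (XT.nd (nat_lit 78) (nat_lit 684) (nat_lit 0) (XT.lf (nat_lit 0) (nat_lit 467964923) (nat_lit 836) (nat_lit 5131968812) (nat_lit 76) (nat_lit 6100913380) (nat_lit 288) (nat_lit 5) (nat_lit 299) (nat_lit 5) (nat_lit 289) (nat_lit 5) (nat_lit 349) (nat_lit 317) (nat_lit 234)) (XT.lf (nat_lit 0) (nat_lit 3640992532) (nat_lit 760) (nat_lit 7058219914) (nat_lit 76) (nat_lit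 1190897365) (nat_lit 279) (nat_lit 5) (nat_lit 289) (nat_lit 5) (nat_lit 280) (nat_lit 5) (nat_lit 350) (nat_lit 317) (nat_lit 233))) (XT.nd (nat_lit 78) (nat_lit 684) (nat_lit 0) (XT.lf (nat_lit 0) (nat_lit 3041375197) (nat_lit 684) (nat_lit 3923984065) (nat_lit 760) (nat_lit 5118578945) (nat_lit 270) (nat_lit 5) (nat_lit 279) (nat_lit 5) (nat_lit 280) (nat_lit 5) (nat_lit 351) (nat_lit 317) (nat_lit 232)) (XT.nd (nat_lit 78) (nat_lit 76) (nat_lit 0) (XT.lf (nat_lit 0) (nat_lit 1212299160) (nat_lit 608) (nat_lit 9217702839) (nat_lit 684) (nat_lit 1852779029) (nat_lit 262) (nat_lit 5) (nat_lit 270) (nat_lit 5) (nat_lit 271) (nat_lit 5) (nat_lit 352) (nat_lit 317) (nat_lit 231)) (XT.lf (nat_lit 0) (nat_lit 1544322078) (nat_lit 684) (nat_lit 665437575) (nat_lit 76) (nat_lit 10276580357) (nat_lit 261) (nat_lit 5) (nat_lit 270) (nat_lit 5) (nat_lit 262) (nat_lit 5) (nat_lit 353) (nat_lit 317) (nat_lit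 230))))) (XT.nd (nat_lit 234) (nat_lit 1748) (nat_lit 0) (XT.nd (nat_lit 78) (nat_lit 1216) (nat_lit 0) (XT.lf (nat_lit 0) (nat_lit 5083322903) (nat_lit 760) (nat_lit 2595868028) (nat_lit 76) (nat_lit 5015276394) (nat_lit 252) (nat_lit 5) (nat_lit 262) (nat_lit 5) (nat_lit 253) (nat_lit 5) (nat_lit 354) (nat_lit 317) (nat_lit 229)) (XT.nd (nat_lit 78) (nat_lit 608) (nat_lit 0) (XT.lf (nat_lit 0) (nat_lit 8340517704) (nat_lit 608) (nat_lit 428366564) (nat_lit 684) (nat_lit 4139155778) (nat_lit 244) (nat_lit 5) (nat_lit 252) (nat_lit 5) (nat_lit 253) (nat_lit 5) (nat_lit 355) (nat_lit 317) (nat_lit 228)) (XT.lf (nat_lit 0) (nat_lit 6512504959) (nat_lit 608) (nat_lit 6125790678) (nat_lit 684) (nat_lit 488267770) (nat_lit 236) (nat_lit 5) (nat_lit 244) (nat_lit 5) (nat_lit 245) (nat_lit 5) (nat_lit 356) (nat_lit 317) (nat_lit 227)))) (XT.nd (nat_lit 78) (nat_lit 1140) (nat_lit 0) (XT.lf (nat_lit 0) (nat_lit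 3270295288) (nat_lit 608) (nat_lit 8726336586) (nat_lit 76) (nat_lit 1353773112) (nat_lit 228) (nat_lit 5) (nat_lit 236) (nat_lit 5) (nat_lit 229) (nat_lit 5) (nat_lit 357) (nat_lit 317) (nat_lit 226)) (XT.nd (nat_lit 78) (nat_lit 532) (nat_lit 0) (XT.lf (nat_lit 0) (nat_lit 2660506732) (nat_lit 608) (nat_lit 4546548721) (nat_lit 684) (nat_lit 6372408763) (nat_lit 220) (nat_lit 5) (nat_lit 228) (nat_lit 5) (nat_lit 229) (nat_lit 5) (nat_lit 358) (nat_lit 317) (nat_lit 225)) (XT.lf (nat_lit 0) (nat_lit 642330325) (nat_lit 532) (nat_lit 10672870541) (nat_lit 608) (nat_lit 2499136892) (nat_lit 213) (nat_lit 5) (nat_lit 220) (nat_lit 5) (nat_lit 221) (nat_lit 5) (nat_lit 359) (nat_lit 317) (nat_lit 224))))))))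
noncomputable def xc80 : XT := (XT.nd (nat_lit 1560) (nat_lit 1748) (nat_lit 0) (XT.nd (nat_lit 780) (nat_lit 3268) (nat_lit 0) (XT.nd (nat_lit 390) (nat_lit 1824) (nat_lit 0) (XT.nd (nat_lit 156) (nat_lit 1596) (nat_lit 0) (XT.nd (nat_lit 78) (nat_lit 532) (nat_lit 0) (XT.lf (nat_lit 0) (nat_lit 1545392164) (nat_lit 608) (nat_lit 1434789232) (nat_lit 76) (nat_lit 11074398276) (nat_lit 212) (nat_lit 5) (nat_lit 220) (nat_lit 5) (nat_lit 213) (nat_lit 5) (nat_lit 360) (nat_lit 317) (nat_lit 223)) (XT.lf (nat_lit 0) (nat_lit 5750443768) (nat_lit 608) (nat_lit 3593021094) (nat_lit 76) (nat_lit 4956778354) (nat_lit 205) (nat_lit 5) (nat_lit 213) (nat_lit 5) (nat_lit 206) (nat_lit 5) (nat_lit 361) (nat_lit 317) (nat_lit 222))) (XT.nd (nat_lit 78) (nat_lit 1064) (nat_lit 0) (XT.lf (nat_lit 0) (nat_lit 8736520772) (nat_lit 532) (nat_lit 1402723088) (nat_lit 608) (nat_lit 4412888211) (nat_lit 198) (nat_lit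 5) (nat_lit 205) (nat_lit 5) (nat_lit 206) (nat_lit 5) (nat_lit 362) (nat_lit 317) (nat_lit 221)) (XT.nd (nat_lit 78) (nat_lit 532) (nat_lit 0) (XT.lf (nat_lit 0) (nat_lit 6679474622) (nat_lit 532) (nat_lit 8063798886) (nat_lit 608) (nat_lit 66639900) (nat_lit 191) (nat_lit 5) (nat_lit 198) (nat_lit 5) (nat_lit 199) (nat_lit 5) (nat_lit 363) (nat_lit 317) (nat_lit 220)) (XT.lf (nat_lit 0) (nat_lit 4403632487) (nat_lit 532) (nat_lit 10536880892) (nat_lit 76) (nat_lit 133319449) (nat_lit 184) (nat_lit 5) (nat_lit 191) (nat_lit 5) (nat_lit 185) (nat_lit 5) (nat_lit 364) (nat_lit 317) (nat_lit 219))))) (XT.nd (nat_lit 156) (nat_lit 1368) (nat_lit 0) (XT.nd (nat_lit 78) (nat_lit 0) (nat_lit 0) (XT.lf (nat_lit 0) (nat_lit 2288718517) (nat_lit 456) (nat_lit 6815232424) (nat_lit 532) (nat_lit 6239779802) (nat_lit 178) (nat_lit 5) (nat_lit 184) (nat_lit 5) (nat_lit 185) (nat_lit 5) (nat_lit 365) (nat_lit 317)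 (nat_lit 218)) (XT.lf (nat_lit 0) (nat_lit 14000325773) (nat_lit 532) (nat_lit 25057694) (nat_lit 76) (nat_lit 1595247587) (nat_lit 178) (nat_lit 5) (nat_lit 185) (nat_lit 5) (nat_lit 179) (nat_lit 5) (nat_lit 366) (nat_lit 317) (nat_lit 217))) (XT.nd (nat_lit 78) (nat_lit 836) (nat_lit 0) (XT.lf (nat_lit 0) (nat_lit 3204339574) (nat_lit 532) (nat_lit 2434055356) (nat_lit 76) (nat_lit 10264887319) (nat_lit 171) (nat_lit 5) (nat_lit 178) (nat_lit 5) (nat_lit 172) (nat_lit 5) (nat_lit 367) (nat_lit 317) (nat_lit 216)) (XT.nd (nat_lit 78) (nat_lit 380) (nat_lit 0) (XT.lf (nat_lit 0) (nat_lit 8219403001) (nat_lit 532) (nat_lit 4938087929) (nat_lit 76) (nat_lit 3035359899) (nat_lit 165) (nat_lit 5) (nat_lit 172) (nat_lit 5) (nat_lit 166) (nat_lit 5) (nat_lit 368) (nat_lit 317) (nat_lit 215)) (XT.lf (nat_lit 0) (nat_lit 8940186262) (nat_lit 380) (nat_lit 4531761242) (nat_lit 456) (nat_lit 3017424118) (nat_lit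 160) (nat_lit 5) (nat_lit 165) (nat_lit 5) (nat_lit 166) (nat_lit 5) (nat_lit 369) (nat_lit 317) (nat_lit 214)))))) (XT.nd (nat_lit 390) (nat_lit 1520) (nat_lit 0) (XT.nd (nat_lit 156) (nat_lit 836) (nat_lit 0) (XT.nd (nat_lit 78) (nat_lit 380) (nat_lit 0) (XT.lf (nat_lit 0) (nat_lit 2139876999) (nat_lit 532) (nat_lit 10277731057) (nat_lit 76) (nat_lit 4375314969) (nat_lit 153) (nat_lit 5) (nat_lit 160) (nat_lit 5) (nat_lit 154) (nat_lit 5) (nat_lit 370) (nat_lit 317) (nat_lit 213)) (XT.lf (nat_lit 0) (nat_lit 3965831483) (nat_lit 380) (nat_lit 3528294710) (nat_lit 456) (nat_lit 9609396697) (nat_lit 148) (nat_lit 5) (nat_lit 153) (nat_lit 5) (nat_lit 154) (nat_lit 5) (nat_lit 371) (nat_lit 317) (nat_lit 212))) (XT.nd (nat_lit 78) (nat_lit 456) (nat_lit 0) (XT.lf (nat_lit 0) (nat_lit 1299912978) (nat_lit 380) (nat_lit 11800032454) (nat_lit 456) (nat_lit 4321681615) (nat_lit 143) (nat_lit 5) (nat_lit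 148) (nat_lit 5) (nat_lit 149) (nat_lit 5) (nat_lit 372) (nat_lit 317) (nat_lit 211)) (XT.nd (nat_lit 78) (nat_lit 380) (nat_lit 0) (XT.lf (nat_lit 0) (nat_lit 1199297216) (nat_lit 456) (nat_lit 1463722411) (nat_lit 76) (nat_lit 15084325911) (nat_lit 142) (nat_lit 5) (nat_lit 148) (nat_lit 5) (nat_lit 143) (nat_lit 5) (nat_lit 373) (nat_lit 317) (nat_lit 210)) (XT.lf (nat_lit 0) (nat_lit 6938198266) (nat_lit 456) (nat_lit 4374197254) (nat_lit 76) (nat_lit 6767653344) (nat_lit 137) (nat_lit 5) (nat_lit 143) (nat_lit 5) (nat_lit 138) (nat_lit 5) (nat_lit 374) (nat_lit 317) (nat_lit 209))))) (XT.nd (nat_lit 156) (nat_lit 684) (nat_lit 0) (XT.nd (nat_lit 78) (nat_lit 456) (nat_lit 0) (XT.lf (nat_lit 0) (nat_lit 11020652464) (nat_lit 380) (nat_lit 1905211131) (nat_lit 456) (nat_lit 5495342370) (nat_lit 132) (nat_lit 5) (nat_lit 137) (nat_lit 5) (nat_lit 138) (nat_lit 5) (nat_lit 375) (nat_lit 317) (nat_lit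 208)) (XT.lf (nat_lit 0) (nat_lit 428251539) (nat_lit 456) (nat_lit 10585178659) (nat_lit 76) (nat_lit 7756892457) (nat_lit 126) (nat_lit 5) (nat_lit 132) (nat_lit 5) (nat_lit 127) (nat_lit 5) (nat_lit 376) (nat_lit 317) (nat_lit 207))) (XT.nd (nat_lit 78) (nat_lit 304) (nat_lit 0) (XT.lf (nat_lit 0) (nat_lit 5195520588) (nat_lit 380) (nat_lit 1334661881) (nat_lit 456) (nat_lit 12597502375) (nat_lit 121) (nat_lit 5) (nat_lit 126) (nat_lit 5) (nat_lit 127) (nat_lit 5) (nat_lit 377) (nat_lit 317) (nat_lit 206)) (XT.nd (nat_lit 78) (nat_lit 0) (nat_lit 0) (XT.lf (nat_lit 0) (nat_lit 2036960963) (nat_lit 304) (nat_lit 10897964169) (nat_lit 380) (nat_lit 6558451833) (nat_lit 117) (nat_lit 5) (nat_lit 121) (nat_lit 5) (nat_lit 122) (nat_lit 5) (nat_lit 378) (nat_lit 317) (nat_lit 205)) (XT.lf (nat_lit 0) (nat_lit 18633946171) (nat_lit 304) (nat_lit 979823301) (nat_lit 380) (nat_lit 254635215) (nat_lit 117)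 (nat_lit 5) (nat_lit 121) (nat_lit 5) (nat_lit 122) (nat_lit 5) (nat_lit 379) (nat_lit 317) (nat_lit 204))))))) (XT.nd (nat_lit 42354) (nat_lit 0) (nat_lit 29792) (XT.nd (nat_lit 390) (nat_lit 0) (nat_lit 0) (XT.nd (nat_lit 156) (nat_lit 988) (nat_lit 0) (XT.nd (nat_lit 78) (nat_lit 304) (nat_lit 0) (XT.lf (nat_lit 0) (nat_lit 6297799571) (nat_lit 456) (nat_lit 4706964809) (nat_lit 76) (nat_lit 9246286226) (nat_lit 111) (nat_lit 5) (nat_lit 117) (nat_lit 5) (nat_lit 112) (nat_lit 5) (nat_lit 380) (nat_lit 317) (nat_lit 203)) (XT.lf (nat_lit 0) (nat_lit 12319116373) (nat_lit 304) (nat_lit 798700193) (nat_lit 380) (nat_lit 7525840019) (nat_lit 107) (nat_lit 5) (nat_lit 111) (nat_lit 5) (nat_lit 112) (nat_lit 5) (nat_lit 381) (nat_lit 317) (nat_lit 202))) (XT.nd (nat_lit 78) (nat_lit 684) (nat_lit 0) (XT.lf (nat_lit 0) (nat_lit 8894554317) (nat_lit 304) (nat_lit 11380613999) (nat_lit 380) (nat_lit 770221351)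 (nat_lit 103) (nat_lit 5) (nat_lit 107) (nat_lit 5) (nat_lit 108) (nat_lit 5) (nat_lit 382) (nat_lit 317) (nat_lit 201)) (XT.nd (nat_lit 78) (nat_lit 304) (nat_lit 0) (XT.lf (nat_lit 0) (nat_lit 5277870885) (nat_lit 304) (nat_lit 905490505) (nat_lit 380) (nat_lit 15273484186) (nat_lit 98) (nat_lit 5) (nat_lit 102) (nat_lit 5) (nat_lit 103) (nat_lit 5) (nat_lit 383) (nat_lit 317) (nat_lit 200)) (XT.lf (nat_lit 0) (nat_lit 1434317248) (nat_lit 304) (nat_lit 12037563633) (nat_lit 380) (nat_lit 8405929922) (nat_lit 94) (nat_lit 5) (nat_lit 98) (nat_lit 5) (nat_lit 99) (nat_lit 5) (nat_lit 384) (nat_lit 317) (nat_lit 199))))) (XT.nd (nat_lit 41730) (nat_lit 0) (nat_lit 32376) (XT.nd (nat_lit 41652) (nat_lit 0) (nat_lit 33744) (XT.lf (nat_lit 0) (nat_lit 19760453953) (nat_lit 304) (nat_lit 1314988257) (nat_lit 380) (nat_lit 1234038291) (nat_lit 94) (nat_lit 5) (nat_lit 98) (nat_lit 5) (nat_lit 99) (nat_lit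 5) (nat_lit 385) (nat_lit 317) (nat_lit 198)) (XT.lf (nat_lit 0) (nat_lit 1137017656) (nat_lit 0) (nat_lit 1137017656) (nat_lit 1292) (nat_lit 1640186716) (nat_lit 538) (nat_lit 5) (nat_lit 538) (nat_lit 3) (nat_lit 555) (nat_lit 3) (nat_lit 318) (nat_lit 318) (nat_lit 264))) (XT.nd (nat_lit 78) (nat_lit 1368) (nat_lit 0) (XT.lf (nat_lit 76) (nat_lit 85364777) (nat_lit 0) (nat_lit 6421666347) (nat_lit 1368) (nat_lit 1400238851) (nat_lit 539) (nat_lit 5) (nat_lit 538) (nat_lit 5) (nat_lit 556) (nat_lit 5) (nat_lit 319) (nat_lit 318) (nat_lit 263)) (XT.nd (nat_lit 78) (nat_lit 0) (nat_lit 76) (XT.lf (nat_lit 0) (nat_lit 508442957) (nat_lit 1368) (nat_lit 2076238987) (nat_lit 1444) (nat_lit 5404155621) (nat_lit 520) (nat_lit 5) (nat_lit 538) (nat_lit 5) (nat_lit 539) (nat_lit 5) (nat_lit 320) (nat_lit 318) (nat_lit 262)) (XT.lf (nat_lit 0) (nat_lit 2417982277) (nat_lit 1368) (nat_lit 4238890835) (nat_lit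 1444) (nat_lit 1416570738) (nat_lit 521) (nat_lit 5) (nat_lit 539) (nat_lit 5) (nat_lit 540) (nat_lit 5) (nat_lit 321) (nat_lit 318) (nat_lit 261)))))) (XT.nd (nat_lit 390) (nat_lit 1292) (nat_lit 0) (XT.nd (nat_lit 156) (nat_lit 1368) (nat_lit 0) (XT.nd (nat_lit 78) (nat_lit 0) (nat_lit 76) (XT.lf (nat_lit 76) (nat_lit 1756648931) (nat_lit 0) (nat_lit 2601294875) (nat_lit 1444) (nat_lit 3803210144) (nat_lit 522) (nat_lit 5) (nat_lit 521) (nat_lit 5) (nat_lit 540) (nat_lit 5) (nat_lit 322) (nat_lit 318) (nat_lit 260)) (XT.lf (nat_lit 0) (nat_lit 6327497294) (nat_lit 1368) (nat_lit 311986853) (nat_lit 1444) (nat_lit 1612610864) (nat_lit 522) (nat_lit 5) (nat_lit 540) (nat_lit 5) (nat_lit 541) (nat_lit 5) (nat_lit 323) (nat_lit 318) (nat_lit 259))) (XT.nd (nat_lit 78) (nat_lit 0) (nat_lit 76) (XT.lf (nat_lit 0) (nat_lit 621433) (nat_lit 1444) (nat_lit 2361117246) (nat_lit 1520) (nat_lit 5984242784)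 (nat_lit 503) (nat_lit 5) (nat_lit 522) (nat_lit 5) (nat_lit 523) (nat_lit 5) (nat_lit 324) (nat_lit 318) (nat_lit 258)) (XT.nd (nat_lit 78) (nat_lit 0) (nat_lit 0) (XT.lf (nat_lit 0) (nat_lit 1935048248) (nat_lit 1444) (nat_lit 4424410606) (nat_lit 1520) (nat_lit 2083444679) (nat_lit 504) (nat_lit 5) (nat_lit 523) (nat_lit 5) (nat_lit 524) (nat_lit 5) (nat_lit 325) (nat_lit 318) (nat_lit 257)) (XT.lf (nat_lit 76) (nat_lit 2049811272) (nat_lit 0) (nat_lit 1860119338) (nat_lit 1520) (nat_lit 4633178891) (nat_lit 505) (nat_lit 5) (nat_lit 504) (nat_lit 5) (nat_lit 524) (nat_lit 5) (nat_lit 326) (nat_lit 318) (nat_lit 256))))) (XT.nd (nat_lit 234) (nat_lit 0) (nat_lit 0) (XT.nd (nat_lit 78) (nat_lit 1444) (nat_lit 0) (XT.lf (nat_lit 76) (nat_lit 74568981) (nat_lit 0) (nat_lit 5857088593) (nat_lit 1520) (nat_lit 2714936082) (nat_lit 506) (nat_lit 5) (nat_lit 505) (nat_lit 5) (nat_lit 525) (nat_lit 5)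 (nat_lit 327) (nat_lit 318) (nat_lit 255)) (XT.nd (nat_lit 78) (nat_lit 1444) (nat_lit 0) (XT.lf (nat_lit 76) (nat_lit 6875120443) (nat_lit 0) (nat_lit 1135711602) (nat_lit 1520) (nat_lit 742437652) (nat_lit 506) (nat_lit 5) (nat_lit 505) (nat_lit 5) (nat_lit 525) (nat_lit 5) (nat_lit 328) (nat_lit 318) (nat_lit 254)) (XT.lf (nat_lit 0) (nat_lit 1271366794) (nat_lit 1520) (nat_lit 3854148543) (nat_lit 1596) (nat_lit 3737504632) (nat_lit 486) (nat_lit 5) (nat_lit 506) (nat_lit 5) (nat_lit 507) (nat_lit 5) (nat_lit 329) (nat_lit 318) (nat_lit 253)))) (XT.nd (nat_lit 78) (nat_lit 0) (nat_lit 76) (XT.lf (nat_lit 76) (nat_lit 3140084164) (nat_lit 0) (nat_lit 179583429) (nat_lit 1596) (nat_lit 5656635131) (nat_lit 487) (nat_lit 5) (nat_lit 486) (nat_lit 5) (nat_lit 507) (nat_lit 5) (nat_lit 330) (nat_lit 318) (nat_lit 252)) (XT.nd (nat_lit 78) (nat_lit 0) (nat_lit 76) (XT.lf (nat_lit 76) (nat_lit 1247295181)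 (nat_lit 0) (nat_lit 4193225855) (nat_lit 1596) (nat_lit 3652261735) (nat_lit 488) (nat_lit 5) (nat_lit 487) (nat_lit 5) (nat_lit 508) (nat_lit 5) (nat_lit 331) (nat_lit 318) (nat_lit 251)) (XT.lf (nat_lit 0) (nat_lit 7618183683) (nat_lit 1520) (nat_lit 638095977) (nat_lit 1596) (nat_lit 956634160) (nat_lit 488) (nat_lit 5) (nat_lit 508) (nat_lit 5) (nat_lit 509) (nat_lit 5) (nat_lit 332) (nat_lit 318) (nat_lit 250))))))))
noncomputable def xc81 : XT := (XT.nd (nat_lit 1560) (nat_lit 9652) (nat_lit 0) (XT.nd (nat_lit 780) (nat_lit 6156) (nat_lit 0) (XT.nd (nat_lit 390) (nat_lit 5624) (nat_lit 0) (XT.nd (nat_lit 156) (nat_lit 3192) (nat_lit 0) (XT.nd (nat_lit 78) (nat_lit 0) (nat_lit 76) (XT.lf (nat_lit 0) (nat_lit 537792507) (nat_lit 1596) (nat_lit 2533776516) (nat_lit 1672) (nat_lit 6264628076) (nat_lit 467) (nat_lit 5) (nat_lit 488) (nat_lit 5) (nat_lit 489) (nat_lit 5) (nat_lit 333) (nat_lit 318)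 (nat_lit 249)) (XT.lf (nat_lit 0) (nat_lit 2713552618) (nat_lit 1596) (nat_lit 4452110828) (nat_lit 76) (nat_lit 2297304783) (nat_lit 468) (nat_lit 5) (nat_lit 489) (nat_lit 5) (nat_lit 469) (nat_lit 5) (nat_lit 334) (nat_lit 318) (nat_lit 248))) (XT.nd (nat_lit 78) (nat_lit 1672) (nat_lit 0) (XT.lf (nat_lit 0) (nat_lit 3203502471) (nat_lit 1596) (nat_lit 1759709280) (nat_lit 1672) (nat_lit 4630176406) (nat_lit 447) (nat_lit 5) (nat_lit 468) (nat_lit 5) (nat_lit 469) (nat_lit 5) (nat_lit 335) (nat_lit 318) (nat_lit 247)) (XT.nd (nat_lit 78) (nat_lit 0) (nat_lit 0) (XT.lf (nat_lit 0) (nat_lit 1374152675) (nat_lit 1672) (nat_lit 5921475197) (nat_lit 1748) (nat_lit 2431805126) (nat_lit 425) (nat_lit 5) (nat_lit 447) (nat_lit 5) (nat_lit 448) (nat_lit 5) (nat_lit 336) (nat_lit 318) (nat_lit 246)) (XT.lf (nat_lit 0) (nat_lit 9405776686) (nat_lit 1672) (nat_lit 299634508) (nat_lit 1748) (nat_lit 159957241)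 (nat_lit 425) (nat_lit 5) (nat_lit 447) (nat_lit 5) (nat_lit 448) (nat_lit 5) (nat_lit 337) (nat_lit 318) (nat_lit 245))))) (XT.nd (nat_lit 156) (nat_lit 2660) (nat_lit 0) (XT.nd (nat_lit 78) (nat_lit 1140) (nat_lit 0) (XT.lf (nat_lit 0) (nat_lit 2191146839) (nat_lit 1824) (nat_lit 2325569346) (nat_lit 76) (nat_lit 5489665134) (nat_lit 401) (nat_lit 5) (nat_lit 425) (nat_lit 5) (nat_lit 402) (nat_lit 5) (nat_lit 338) (nat_lit 318) (nat_lit 244)) (XT.lf (nat_lit 0) (nat_lit 4617761958) (nat_lit 1216) (nat_lit 4205858659) (nat_lit 76) (nat_lit 1327855646) (nat_lit 386) (nat_lit 5) (nat_lit 402) (nat_lit 5) (nat_lit 387) (nat_lit 5) (nat_lit 339) (nat_lit 318) (nat_lit 243))) (XT.nd (nat_lit 78) (nat_lit 1748) (nat_lit 0) (XT.lf (nat_lit 0) (nat_lit 4179772781) (nat_lit 912) (nat_lit 2966303432) (nat_lit 988) (nat_lit 3154285212) (nat_lit 374) (nat_lit 5) (nat_lit 386) (nat_lit 5) (nat_lit 387) (nat_lit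 5) (nat_lit 340) (nat_lit 318) (nat_lit 242)) (XT.nd (nat_lit 78) (nat_lit 912) (nat_lit 0) (XT.lf (nat_lit 0) (nat_lit 2391529078) (nat_lit 836) (nat_lit 7379581787) (nat_lit 912) (nat_lit 682199793) (nat_lit 363) (nat_lit 5) (nat_lit 374) (nat_lit 5) (nat_lit 375) (nat_lit 5) (nat_lit 341) (nat_lit 318) (nat_lit 241)) (XT.lf (nat_lit 0) (nat_lit 566943253) (nat_lit 836) (nat_lit 1295371587) (nat_lit 912) (nat_lit 8747851409) (nat_lit 351) (nat_lit 5) (nat_lit 362) (nat_lit 5) (nat_lit 363) (nat_lit 5) (nat_lit 342) (nat_lit 318) (nat_lit 240)))))) (XT.nd (nat_lit 390) (nat_lit 2888) (nat_lit 0) (XT.nd (nat_lit 156) (nat_lit 2432) (nat_lit 0) (XT.nd (nat_lit 78) (nat_lit 836) (nat_lit 0) (XT.lf (nat_lit 0) (nat_lit 4519648981) (nat_lit 912) (nat_lit 1284191679) (nat_lit 76) (nat_lit 4966895413) (nat_lit 351) (nat_lit 5) (nat_lit 363) (nat_lit 5) (nat_lit 352) (nat_lit 5) (nat_lit 343) (nat_lit 318)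 (nat_lit 239)) (XT.lf (nat_lit 0) (nat_lit 7278939833) (nat_lit 912) (nat_lit 3148011237) (nat_lit 76) (nat_lit 508740586) (nat_lit 340) (nat_lit 5) (nat_lit 352) (nat_lit 5) (nat_lit 341) (nat_lit 5) (nat_lit 344) (nat_lit 318) (nat_lit 238))) (XT.nd (nat_lit 78) (nat_lit 1596) (nat_lit 0) (XT.lf (nat_lit 0) (nat_lit 6044075982) (nat_lit 836) (nat_lit 4124310284) (nat_lit 912) (nat_lit 936275113) (nat_lit 329) (nat_lit 5) (nat_lit 340) (nat_lit 5) (nat_lit 341) (nat_lit 5) (nat_lit 345) (nat_lit 318) (nat_lit 237)) (XT.nd (nat_lit 78) (nat_lit 760) (nat_lit 0) (XT.lf (nat_lit 0) (nat_lit 1867566382) (nat_lit 836) (nat_lit 7013466612) (nat_lit 76) (nat_lit 2396912879) (nat_lit 318) (nat_lit 5) (nat_lit 329) (nat_lit 5) (nat_lit 319) (nat_lit 5) (nat_lit 346) (nat_lit 318) (nat_lit 236)) (XT.lf (nat_lit 0) (nat_lit 2440587006) (nat_lit 760) (nat_lit 2342285940) (nat_lit 836) (nat_lit 6672642799) (nat_lit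 308) (nat_lit 5) (nat_lit 318) (nat_lit 5) (nat_lit 319) (nat_lit 5) (nat_lit 347) (nat_lit 318) (nat_lit 235))))) (XT.nd (nat_lit 156) (nat_lit 2204) (nat_lit 0) (XT.nd (nat_lit 78) (nat_lit 0) (nat_lit 0) (XT.lf (nat_lit 0) (nat_lit 575250126) (nat_lit 684) (nat_lit 7253367866) (nat_lit 760) (nat_lit 3808946807) (nat_lit 299) (nat_lit 5) (nat_lit 308) (nat_lit 5) (nat_lit 309) (nat_lit 5) (nat_lit 348) (nat_lit 318) (nat_lit 234)) (XT.lf (nat_lit 0) (nat_lit 10521051963) (nat_lit 684) (nat_lit 485040510) (nat_lit 760) (nat_lit 818187041) (nat_lit 299) (nat_lit 5) (nat_lit 308) (nat_lit 5) (nat_lit 309) (nat_lit 5) (nat_lit 349) (nat_lit 318) (nat_lit 233))) (XT.nd (nat_lit 78) (nat_lit 1368) (nat_lit 0) (XT.lf (nat_lit 0) (nat_lit 2296917425) (nat_lit 836) (nat_lit 3247886264) (nat_lit 76) (nat_lit 6470223156) (nat_lit 288) (nat_lit 5) (nat_lit 299) (nat_lit 5) (nat_lit 289) (nat_lit 5) (nat_lit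 350) (nat_lit 318) (nat_lit 232)) (XT.nd (nat_lit 78) (nat_lit 684) (nat_lit 0) (XT.lf (nat_lit 0) (nat_lit 5526784651) (nat_lit 760) (nat_lit 5230449552) (nat_lit 76) (nat_lit 1453516187) (nat_lit 279) (nat_lit 5) (nat_lit 289) (nat_lit 5) (nat_lit 280) (nat_lit 5) (nat_lit 351) (nat_lit 318) (nat_lit 231)) (XT.lf (nat_lit 0) (nat_lit 5139044673) (nat_lit 684) (nat_lit 3773120239) (nat_lit 760) (nat_lit 3499018556) (nat_lit 270) (nat_lit 5) (nat_lit 279) (nat_lit 5) (nat_lit 280) (nat_lit 5) (nat_lit 352) (nat_lit 318) (nat_lit 230))))))) (XT.nd (nat_lit 780) (nat_lit 4712) (nat_lit 0) (XT.nd (nat_lit 390) (nat_lit 2280) (nat_lit 0) (XT.nd (nat_lit 156) (nat_lit 1292) (nat_lit 0) (XT.nd (nat_lit 78) (nat_lit 760) (nat_lit 0) (XT.lf (nat_lit 0) (nat_lit 3255529537) (nat_lit 608) (nat_lit 9189323459) (nat_lit 684) (nat_lit 171871484) (nat_lit 262) (nat_lit 5) (nat_lit 270) (nat_lit 5) (nat_lit 271)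 (nat_lit 5) (nat_lit 353) (nat_lit 318) (nat_lit 229)) (XT.lf (nat_lit 0) (nat_lit 1302681215) (nat_lit 684) (nat_lit 1960230847) (nat_lit 760) (nat_lit 9564096109) (nat_lit 252) (nat_lit 5) (nat_lit 261) (nat_lit 5) (nat_lit 262) (nat_lit 5) (nat_lit 354) (nat_lit 318) (nat_lit 228))) (XT.nd (nat_lit 78) (nat_lit 1292) (nat_lit 0) (XT.lf (nat_lit 0) (nat_lit 6865773972) (nat_lit 760) (nat_lit 703722351) (nat_lit 76) (nat_lit 5472743051) (nat_lit 252) (nat_lit 5) (nat_lit 262) (nat_lit 5) (nat_lit 253) (nat_lit 5) (nat_lit 355) (nat_lit 318) (nat_lit 227)) (XT.nd (nat_lit 78) (nat_lit 684) (nat_lit 0) (XT.lf (nat_lit 0) (nat_lit 10528793691) (nat_lit 608) (nat_lit 98217348) (nat_lit 684) (nat_lit 2635919543) (nat_lit 244) (nat_lit 5) (nat_lit 252) (nat_lit 5) (nat_lit 253) (nat_lit 5) (nat_lit 356) (nat_lit 318) (nat_lit 226)) (XT.lf (nat_lit 0) (nat_lit 1077799626) (nat_lit 684) (nat_lit 4851615218)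 (nat_lit 76) (nat_lit 7559100565) (nat_lit 235) (nat_lit 5) (nat_lit 244) (nat_lit 5) (nat_lit 236) (nat_lit 5) (nat_lit 357) (nat_lit 318) (nat_lit 225))))) (XT.nd (nat_lit 156) (nat_lit 1140) (nat_lit 0) (XT.nd (nat_lit 78) (nat_lit 608) (nat_lit 0) (XT.lf (nat_lit 0) (nat_lit 4911679528) (nat_lit 608) (nat_lit 7033555931) (nat_lit 76) (nat_lit 1774400818) (nat_lit 228) (nat_lit 5) (nat_lit 236) (nat_lit 5) (nat_lit 229) (nat_lit 5) (nat_lit 358) (nat_lit 318) (nat_lit 224)) (XT.lf (nat_lit 0) (nat_lit 4663182099) (nat_lit 608) (nat_lit 4270895114) (nat_lit 684) (nat_lit 5022151474) (nat_lit 220) (nat_lit 5) (nat_lit 228) (nat_lit 5) (nat_lit 229) (nat_lit 5) (nat_lit 359) (nat_lit 318) (nat_lit 223))) (XT.nd (nat_lit 78) (nat_lit 608) (nat_lit 0) (XT.lf (nat_lit 0) (nat_lit 2580755071) (nat_lit 532) (nat_lit 10555765547) (nat_lit 608) (nat_lit 1062218490) (nat_lit 213) (nat_lit 5) (nat_lit 220)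 (nat_lit 5) (nat_lit 221) (nat_lit 5) (nat_lit 360) (nat_lit 318) (nat_lit 222)) (XT.nd (nat_lit 78) (nat_lit 0) (nat_lit 0) (XT.lf (nat_lit 0) (nat_lit 410430947) (nat_lit 532) (nat_lit 2632593370) (nat_lit 608) (nat_lit 11403794684) (nat_lit 205) (nat_lit 5) (nat_lit 212) (nat_lit 5) (nat_lit 213) (nat_lit 5) (nat_lit 361) (nat_lit 318) (nat_lit 221)) (XT.lf (nat_lit 0) (nat_lit 7344213987) (nat_lit 608) (nat_lit 1822564784) (nat_lit 76) (nat_lit 5533684805) (nat_lit 205) (nat_lit 5) (nat_lit 213) (nat_lit 5) (nat_lit 206) (nat_lit 5) (nat_lit 362) (nat_lit 318) (nat_lit 220)))))) (XT.nd (nat_lit 390) (nat_lit 2204) (nat_lit 0) (XT.nd (nat_lit 156) (nat_lit 1368) (nat_lit 0) (XT.nd (nat_lit 78) (nat_lit 608) (nat_lit 0) (XT.lf (nat_lit 0) (nat_lit 10846391013) (nat_lit 532) (nat_lit 988888215) (nat_lit 608) (nat_lit 3125228382) (nat_lit 198) (nat_lit 5) (nat_lit 205) (nat_lit 5) (nat_lit 206) (nat_lit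 5) (nat_lit 363) (nat_lit 318) (nat_lit 219)) (XT.lf (nat_lit 0) (nat_lit 1307800941) (nat_lit 608) (nat_lit 6512676075) (nat_lit 76) (nat_lit 7405897568) (nat_lit 190) (nat_lit 5) (nat_lit 198) (nat_lit 5) (nat_lit 191) (nat_lit 5) (nat_lit 364) (nat_lit 318) (nat_lit 218))) (XT.nd (nat_lit 78) (nat_lit 912) (nat_lit 0) (XT.lf (nat_lit 0) (nat_lit 5886245614) (nat_lit 532) (nat_lit 8997821769) (nat_lit 76) (nat_lit 614645742) (nat_lit 184) (nat_lit 5) (nat_lit 191) (nat_lit 5) (nat_lit 185) (nat_lit 5) (nat_lit 365) (nat_lit 318) (nat_lit 217)) (XT.nd (nat_lit 78) (nat_lit 456) (nat_lit 0) (XT.lf (nat_lit 0) (nat_lit 4182447765) (nat_lit 456) (nat_lit 6517640333) (nat_lit 532) (nat_lit 5077179043) (nat_lit 178) (nat_lit 5) (nat_lit 184) (nat_lit 5) (nat_lit 185) (nat_lit 5) (nat_lit 366) (nat_lit 318) (nat_lit 216)) (XT.lf (nat_lit 0) (nat_lit 1792440089) (nat_lit 456) (nat_lit 13927181968) (nat_lit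 532) (nat_lit 343336228) (nat_lit 172) (nat_lit 5) (nat_lit 178) (nat_lit 5) (nat_lit 179) (nat_lit 5) (nat_lit 367) (nat_lit 318) (nat_lit 215))))) (XT.nd (nat_lit 234) (nat_lit 1292) (nat_lit 0) (XT.nd (nat_lit 78) (nat_lit 836) (nat_lit 0) (XT.lf (nat_lit 0) (nat_lit 4570726013) (nat_lit 532) (nat_lit 724280950) (nat_lit 76) (nat_lit 11059677393) (nat_lit 171) (nat_lit 5) (nat_lit 178) (nat_lit 5) (nat_lit 172) (nat_lit 5) (nat_lit 368) (nat_lit 318) (nat_lit 214)) (XT.nd (nat_lit 78) (nat_lit 380) (nat_lit 0) (XT.lf (nat_lit 0) (nat_lit 9713937127) (nat_lit 532) (nat_lit 3310488816) (nat_lit 76) (nat_lit 3628968618) (nat_lit 165) (nat_lit 5) (nat_lit 172) (nat_lit 5) (nat_lit 166) (nat_lit 5) (nat_lit 369) (nat_lit 318) (nat_lit 213)) (XT.lf (nat_lit 0) (nat_lit 10955324301) (nat_lit 380) (nat_lit 4143727791) (nat_lit 456) (nat_lit 1860267238) (nat_lit 160) (nat_lit 5) (nat_lit 165) (nat_lit 5)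 (nat_lit 166) (nat_lit 5) (nat_lit 370) (nat_lit 318) (nat_lit 212)))) (XT.nd (nat_lit 78) (nat_lit 760) (nat_lit 0) (XT.lf (nat_lit 0) (nat_lit 3414219924) (nat_lit 532) (nat_lit 8830143637) (nat_lit 76) (nat_lit 5027882926) (nat_lit 153) (nat_lit 5) (nat_lit 160) (nat_lit 5) (nat_lit 154) (nat_lit 5) (nat_lit 371) (nat_lit 318) (nat_lit 211)) (XT.nd (nat_lit 78) (nat_lit 380) (nat_lit 0) (XT.lf (nat_lit 0) (nat_lit 5812238073) (nat_lit 380) (nat_lit 3092827164) (nat_lit 456) (nat_lit 8687587349) (nat_lit 148) (nat_lit 5) (nat_lit 153) (nat_lit 5) (nat_lit 154) (nat_lit 5) (nat_lit 372) (nat_lit 318) (nat_lit 210)) (XT.lf (nat_lit 0) (nat_lit 3058445930) (nat_lit 380) (nat_lit 11600642661) (nat_lit 456) (nat_lit 3261618076) (nat_lit 143) (nat_lit 5) (nat_lit 148) (nat_lit 5) (nat_lit 149) (nat_lit 5) (nat_lit 373) (nat_lit 318) (nat_lit 209))))))))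
noncomputable def xc82 : XT := (XT.nd (nat_lit 43212) (nat_lit 0) (nat_lit 17024) (XT.nd (nat_lit 780) (nat_lit 608) (nat_lit 0) (XT.nd (nat_lit 390) (nat_lit 1444) (nat_lit 0) (XT.nd (nat_lit 156) (nat_lit 1216) (nat_lit 0) (XT.nd (nat_lit 78) (nat_lit 0) (nat_lit 0) (XT.lf (nat_lit 0) (nat_lit 179556110) (nat_lit 380) (nat_lit 2196799096) (nat_lit 456) (nat_lit 15880354683) (nat_lit 137) (nat_lit 5) (nat_lit 142) (nat_lit 5) (nat_lit 143) (nat_lit 5) (nat_lit 374) (nat_lit 318) (nat_lit 208)) (XT.lf (nat_lit 0) (nat_lit 8267323943) (nat_lit 456) (nat_lit 2828851478) (nat_lit 76) (nat_lit 7503627708) (nat_lit 137) (nat_lit 5) (nat_lit 143) (nat_lit 5) (nat_lit 138) (nat_lit 5) (nat_lit 375) (nat_lit 318) (nat_lit 207))) (XT.nd (nat_lit 78) (nat_lit 836) (nat_lit 0) (XT.lf (nat_lit 0) (nat_lit 13000643347) (nat_lit 380) (nat_lit 1412034802) (nat_lit 456) (nat_lit 4538962245) (nat_lit 132) (nat_lit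 5) (nat_lit 137) (nat_lit 5) (nat_lit 138) (nat_lit 5) (nat_lit 376) (nat_lit 318) (nat_lit 206)) (XT.nd (nat_lit 78) (nat_lit 380) (nat_lit 0) (XT.lf (nat_lit 0) (nat_lit 1529621678) (nat_lit 456) (nat_lit 9247119176) (nat_lit 76) (nat_lit 8534710694) (nat_lit 126) (nat_lit 5) (nat_lit 132) (nat_lit 5) (nat_lit 127) (nat_lit 5) (nat_lit 377) (nat_lit 318) (nat_lit 205)) (XT.lf (nat_lit 0) (nat_lit 6980140664) (nat_lit 380) (nat_lit 813340285) (nat_lit 456) (nat_lit 11886482372) (nat_lit 121) (nat_lit 5) (nat_lit 126) (nat_lit 5) (nat_lit 127) (nat_lit 5) (nat_lit 378) (nat_lit 318) (nat_lit 204))))) (XT.nd (nat_lit 156) (nat_lit 684) (nat_lit 0) (XT.nd (nat_lit 78) (nat_lit 456) (nat_lit 0) (XT.lf (nat_lit 0) (nat_lit 3718016455) (nat_lit 304) (nat_lit 10655316662) (nat_lit 380) (nat_lit 5683639692) (nat_lit 117) (nat_lit 5) (nat_lit 121) (nat_lit 5) (nat_lit 122) (nat_lit 5) (nat_lit 379) (nat_lit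 318) (nat_lit 203)) (XT.lf (nat_lit 0) (nat_lit 321017696) (nat_lit 380) (nat_lit 448942666) (nat_lit 456) (nat_lit 19673765915) (nat_lit 111) (nat_lit 5) (nat_lit 116) (nat_lit 5) (nat_lit 117) (nat_lit 5) (nat_lit 380) (nat_lit 318) (nat_lit 202))) (XT.nd (nat_lit 78) (nat_lit 684) (nat_lit 0) (XT.lf (nat_lit 0) (nat_lit 7497270469) (nat_lit 456) (nat_lit 3270591861) (nat_lit 76) (nat_lit 10070325841) (nat_lit 111) (nat_lit 5) (nat_lit 117) (nat_lit 5) (nat_lit 112) (nat_lit 5) (nat_lit 381) (nat_lit 318) (nat_lit 201)) (XT.nd (nat_lit 78) (nat_lit 380) (nat_lit 0) (XT.lf (nat_lit 0) (nat_lit 14240677364) (nat_lit 304) (nat_lit 261854028) (nat_lit 380) (nat_lit 6740433405) (nat_lit 107) (nat_lit 5) (nat_lit 111) (nat_lit 5) (nat_lit 112) (nat_lit 5) (nat_lit 382) (nat_lit 318) (nat_lit 200)) (XT.lf (nat_lit 0) (nat_lit 199573382) (nat_lit 380) (nat_lit 10954080153) (nat_lit 76) (nat_lit 10503381593)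 (nat_lit 102) (nat_lit 5) (nat_lit 107) (nat_lit 5) (nat_lit 103) (nat_lit 5) (nat_lit 383) (nat_lit 318) (nat_lit 199)))))) (XT.nd (nat_lit 42042) (nat_lit 0) (nat_lit 31084) (XT.nd (nat_lit 41808) (nat_lit 0) (nat_lit 32300) (XT.nd (nat_lit 78) (nat_lit 304) (nat_lit 0) (XT.lf (nat_lit 0) (nat_lit 6967090107) (nat_lit 304) (nat_lit 365591959) (nat_lit 380) (nat_lit 14748428101) (nat_lit 98) (nat_lit 5) (nat_lit 102) (nat_lit 5) (nat_lit 103) (nat_lit 5) (nat_lit 384) (nat_lit 318) (nat_lit 198)) (XT.lf (nat_lit 0) (nat_lit 2998896455) (nat_lit 304) (nat_lit 11826341690) (nat_lit 380) (nat_lit 7689763375) (nat_lit 94) (nat_lit 5) (nat_lit 98) (nat_lit 5) (nat_lit 99) (nat_lit 5) (nat_lit 385) (nat_lit 318) (nat_lit 197))) (XT.nd (nat_lit 78) (nat_lit 0) (nat_lit 0) (XT.lf (nat_lit 0) (nat_lit 208205363) (nat_lit 1444) (nat_lit 1892695371) (nat_lit 1444) (nat_lit 1892695371) (nat_lit 519) (nat_lit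 3) (nat_lit 538) (nat_lit 3) (nat_lit 538) (nat_lit 5) (nat_lit 319) (nat_lit 319) (nat_lit 262)) (XT.nd (nat_lit 78) (nat_lit 0) (nat_lit 76) (XT.lf (nat_lit 76) (nat_lit 1990347674) (nat_lit 0) (nat_lit 230172826) (nat_lit 1444) (nat_lit 5849796012) (nat_lit 520) (nat_lit 5) (nat_lit 519) (nat_lit 3) (nat_lit 538) (nat_lit 5) (nat_lit 320) (nat_lit 319) (nat_lit 261)) (XT.lf (nat_lit 0) (nat_lit 4059964952) (nat_lit 1368) (nat_lit 227143697) (nat_lit 1444) (nat_lit 3869230010) (nat_lit 520) (nat_lit 5) (nat_lit 538) (nat_lit 5) (nat_lit 539) (nat_lit 5) (nat_lit 321) (nat_lit 319) (nat_lit 260))))) (XT.nd (nat_lit 156) (nat_lit 1292) (nat_lit 0) (XT.nd (nat_lit 78) (nat_lit 0) (nat_lit 76) (XT.lf (nat_lit 76) (nat_lit 5839753270) (nat_lit 0) (nat_lit 86648559) (nat_lit 1444) (nat_lit 2319130979) (nat_lit 521) (nat_lit 5) (nat_lit 520) (nat_lit 5) (nat_lit 539) (nat_lit 5) (nat_lit 322) (nat_lit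 319) (nat_lit 259)) (XT.lf (nat_lit 76) (nat_lit 3738376691) (nat_lit 0) (nat_lit 4098089672) (nat_lit 1444) (nat_lit 501210446) (nat_lit 522) (nat_lit 5) (nat_lit 521) (nat_lit 5) (nat_lit 540) (nat_lit 5) (nat_lit 323) (nat_lit 319) (nat_lit 258))) (XT.nd (nat_lit 78) (nat_lit 0) (nat_lit 0) (XT.lf (nat_lit 0) (nat_lit 1318534142) (nat_lit 1444) (nat_lit 6793594491) (nat_lit 1520) (nat_lit 320998456) (nat_lit 503) (nat_lit 5) (nat_lit 522) (nat_lit 5) (nat_lit 523) (nat_lit 5) (nat_lit 324) (nat_lit 319) (nat_lit 257)) (XT.nd (nat_lit 78) (nat_lit 0) (nat_lit 76) (XT.lf (nat_lit 0) (nat_lit 3182192722) (nat_lit 1444) (nat_lit 471913871) (nat_lit 1520) (nat_lit 4877370094) (nat_lit 503) (nat_lit 5) (nat_lit 522) (nat_lit 5) (nat_lit 523) (nat_lit 5) (nat_lit 325) (nat_lit 319) (nat_lit 256)) (XT.lf (nat_lit 0) (nat_lit 5086888173) (nat_lit 1444) (nat_lit 2558043541) (nat_lit 1520) (nat_lit 988166487)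 (nat_lit 504) (nat_lit 5) (nat_lit 523) (nat_lit 5) (nat_lit 524) (nat_lit 5) (nat_lit 326) (nat_lit 319) (nat_lit 255))))))) (XT.nd (nat_lit 780) (nat_lit 9804) (nat_lit 0) (XT.nd (nat_lit 390) (nat_lit 2888) (nat_lit 0) (XT.nd (nat_lit 156) (nat_lit 0) (nat_lit 0) (XT.nd (nat_lit 78) (nat_lit 1444) (nat_lit 0) (XT.lf (nat_lit 76) (nat_lit 4077971980) (nat_lit 0) (nat_lit 2965703584) (nat_lit 1520) (nat_lit 1694217050) (nat_lit 505) (nat_lit 5) (nat_lit 504) (nat_lit 5) (nat_lit 524) (nat_lit 5) (nat_lit 327) (nat_lit 319) (nat_lit 254)) (XT.lf (nat_lit 0) (nat_lit 195829756) (nat_lit 1520) (nat_lit 6768650462) (nat_lit 1596) (nat_lit 1881639253) (nat_lit 485) (nat_lit 5) (nat_lit 505) (nat_lit 5) (nat_lit 506) (nat_lit 5) (nat_lit 328) (nat_lit 319) (nat_lit 253))) (XT.nd (nat_lit 78) (nat_lit 0) (nat_lit 76) (XT.lf (nat_lit 76) (nat_lit 54072656) (nat_lit 0) (nat_lit 2061052140) (nat_lit 1596)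 (nat_lit 6842354576) (nat_lit 486) (nat_lit 5) (nat_lit 485) (nat_lit 5) (nat_lit 506) (nat_lit 5) (nat_lit 329) (nat_lit 319) (nat_lit 252)) (XT.nd (nat_lit 78) (nat_lit 0) (nat_lit 0) (XT.lf (nat_lit 0) (nat_lit 4102547376) (nat_lit 1520) (nat_lit 1956515557) (nat_lit 1596) (nat_lit 3012927045) (nat_lit 486) (nat_lit 5) (nat_lit 506) (nat_lit 5) (nat_lit 507) (nat_lit 5) (nat_lit 330) (nat_lit 319) (nat_lit 251)) (XT.lf (nat_lit 76) (nat_lit 5214881420) (nat_lit 0) (nat_lit 928924447) (nat_lit 1596) (nat_lit 3046266044) (nat_lit 487) (nat_lit 5) (nat_lit 486) (nat_lit 5) (nat_lit 507) (nat_lit 5) (nat_lit 331) (nat_lit 319) (nat_lit 250))))) (XT.nd (nat_lit 156) (nat_lit 1520) (nat_lit 0) (XT.nd (nat_lit 78) (nat_lit 1520) (nat_lit 0) (XT.lf (nat_lit 76) (nat_lit 3292546997) (nat_lit 0) (nat_lit 4964728773) (nat_lit 1596) (nat_lit 1054220742) (nat_lit 488) (nat_lit 5) (nat_lit 487) (nat_lit 5) (nat_lit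 508) (nat_lit 5) (nat_lit 332) (nat_lit 319) (nat_lit 249)) (XT.lf (nat_lit 0) (nat_lit 978075000) (nat_lit 1596) (nat_lit 8076543090) (nat_lit 1672) (nat_lit 381963503) (nat_lit 467) (nat_lit 5) (nat_lit 488) (nat_lit 5) (nat_lit 489) (nat_lit 5) (nat_lit 333) (nat_lit 319) (nat_lit 248))) (XT.nd (nat_lit 78) (nat_lit 1520) (nat_lit 0) (XT.lf (nat_lit 0) (nat_lit 3081554429) (nat_lit 1596) (nat_lit 601901910) (nat_lit 1672) (nat_lit 5881350958) (nat_lit 467) (nat_lit 5) (nat_lit 488) (nat_lit 5) (nat_lit 489) (nat_lit 5) (nat_lit 334) (nat_lit 319) (nat_lit 247)) (XT.nd (nat_lit 78) (nat_lit 1596) (nat_lit 0) (XT.lf (nat_lit 0) (nat_lit 5258600865) (nat_lit 1596) (nat_lit 2556937646) (nat_lit 76) (nat_lit 1881149666) (nat_lit 468) (nat_lit 5) (nat_lit 489) (nat_lit 5) (nat_lit 469) (nat_lit 5) (nat_lit 335) (nat_lit 319) (nat_lit 246)) (XT.lf (nat_lit 0) (nat_lit 5295430213) (nat_lit 1596) (nat_lit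 2221521211) (nat_lit 1672) (nat_lit 2315271352) (nat_lit 447) (nat_lit 5) (nat_lit 468) (nat_lit 5) (nat_lit 469) (nat_lit 5) (nat_lit 336) (nat_lit 319) (nat_lit 245)))))) (XT.nd (nat_lit 390) (nat_lit 4256) (nat_lit 0) (XT.nd (nat_lit 156) (nat_lit 2052) (nat_lit 0) (XT.nd (nat_lit 78) (nat_lit 1824) (nat_lit 0) (XT.lf (nat_lit 0) (nat_lit 3429605215) (nat_lit 1672) (nat_lit 6430190253) (nat_lit 1748) (nat_lit 111709730) (nat_lit 425) (nat_lit 5) (nat_lit 447) (nat_lit 5) (nat_lit 448) (nat_lit 5) (nat_lit 337) (nat_lit 319) (nat_lit 244)) (XT.lf (nat_lit 0) (nat_lit 1534653857) (nat_lit 1748) (nat_lit 605592915) (nat_lit 1824) (nat_lit 7974243145) (nat_lit 401) (nat_lit 5) (nat_lit 424) (nat_lit 5) (nat_lit 425) (nat_lit 5) (nat_lit 338) (nat_lit 319) (nat_lit 243))) (XT.nd (nat_lit 78) (nat_lit 2052) (nat_lit 0) (XT.lf (nat_lit 0) (nat_lit 4493821796) (nat_lit 1824) (nat_lit 393332567) (nat_lit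 76) (nat_lit 5373898878) (nat_lit 401) (nat_lit 5) (nat_lit 425) (nat_lit 5) (nat_lit 402) (nat_lit 5) (nat_lit 339) (nat_lit 319) (nat_lit 242)) (XT.nd (nat_lit 78) (nat_lit 912) (nat_lit 0) (XT.lf (nat_lit 0) (nat_lit 6939472963) (nat_lit 1216) (nat_lit 2316664988) (nat_lit 76) (nat_lit 1155461071) (nat_lit 386) (nat_lit 5) (nat_lit 402) (nat_lit 5) (nat_lit 387) (nat_lit 5) (nat_lit 340) (nat_lit 319) (nat_lit 241)) (XT.lf (nat_lit 0) (nat_lit 6287838421) (nat_lit 912) (nat_lit 3205083337) (nat_lit 988) (nat_lit 1073065355) (nat_lit 374) (nat_lit 5) (nat_lit 386) (nat_lit 5) (nat_lit 387) (nat_lit 5) (nat_lit 341) (nat_lit 319) (nat_lit 240))))) (XT.nd (nat_lit 234) (nat_lit 1672) (nat_lit 0) (XT.nd (nat_lit 78) (nat_lit 1672) (nat_lit 0) (XT.lf (nat_lit 0) (nat_lit 1403401090) (nat_lit 912) (nat_lit 6276362361) (nat_lit 76) (nat_lit 3044600296) (nat_lit 362) (nat_lit 5) (nat_lit 374) (nat_lit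 5) (nat_lit 363) (nat_lit 5) (nat_lit 342) (nat_lit 319) (nat_lit 239)) (XT.nd (nat_lit 78) (nat_lit 836) (nat_lit 0) (XT.lf (nat_lit 0) (nat_lit 2573845971) (nat_lit 836) (nat_lit 1393035981) (nat_lit 912) (nat_lit 6919935286) (nat_lit 351) (nat_lit 5) (nat_lit 362) (nat_lit 5) (nat_lit 363) (nat_lit 5) (nat_lit 343) (nat_lit 319) (nat_lit 238)) (XT.lf (nat_lit 0) (nat_lit 658668906) (nat_lit 836) (nat_lit 5989502250) (nat_lit 912) (nat_lit 4405168106) (nat_lit 340) (nat_lit 5) (nat_lit 351) (nat_lit 5) (nat_lit 352) (nat_lit 5) (nat_lit 344) (nat_lit 319) (nat_lit 237)))) (XT.nd (nat_lit 78) (nat_lit 1672) (nat_lit 0) (XT.lf (nat_lit 0) (nat_lit 9440625948) (nat_lit 912) (nat_lit 1262184752) (nat_lit 76) (nat_lit 521444339) (nat_lit 340) (nat_lit 5) (nat_lit 352) (nat_lit 5) (nat_lit 341) (nat_lit 5) (nat_lit 345) (nat_lit 319) (nat_lit 236)) (XT.nd (nat_lit 78) (nat_lit 760) (nat_lit 0) (XT.lf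 (nat_lit 0) (nat_lit 960842225) (nat_lit 912) (nat_lit 3231975305) (nat_lit 76) (nat_lit 7206247625) (nat_lit 328) (nat_lit 5) (nat_lit 340) (nat_lit 5) (nat_lit 329) (nat_lit 5) (nat_lit 346) (nat_lit 319) (nat_lit 235)) (XT.lf (nat_lit 0) (nat_lit 3793527107) (nat_lit 836) (nat_lit 5244223005) (nat_lit 76) (nat_lit 2540543097) (nat_lit 318) (nat_lit 5) (nat_lit 329) (nat_lit 5) (nat_lit 319) (nat_lit 5) (nat_lit 347) (nat_lit 319) (nat_lit 234))))))))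
noncomputable def xc83 : XT := (XT.nd (nat_lit 1560) (nat_lit 6080) (nat_lit 0) (XT.nd (nat_lit 780) (nat_lit 5016) (nat_lit 0) (XT.nd (nat_lit 390) (nat_lit 2660) (nat_lit 0) (XT.nd (nat_lit 156) (nat_lit 1520) (nat_lit 0) (XT.nd (nat_lit 78) (nat_lit 684) (nat_lit 0) (XT.lf (nat_lit 0) (nat_lit 4461334792) (nat_lit 760) (nat_lit 2293138645) (nat_lit 836) (nat_lit 5007570383) (nat_lit 308) (nat_lit 5) (nat_lit 318) (nat_lit 5) (nat_lit 319) (nat_lit 5) (nat_lit 348) (nat_lit 319) (nat_lit 233)) (XT.lf (nat_lit 0) (nat_lit 2544213581) (nat_lit 684) (nat_lit 7307555721) (nat_lit 760) (nat_lit 2098598226) (nat_lit 299) (nat_lit 5) (nat_lit 308) (nat_lit 5) (nat_lit 309) (nat_lit 5) (nat_lit 349) (nat_lit 319) (nat_lit 232))) (XT.nd (nat_lit 78) (nat_lit 684) (nat_lit 0) (XT.lf (nat_lit 0) (nat_lit 589503442) (nat_lit 760) (nat_lit 330883558) (nat_lit 836) (nat_lit 11223157522) (nat_lit 288) (nat_lit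 5) (nat_lit 298) (nat_lit 5) (nat_lit 299) (nat_lit 5) (nat_lit 350) (nat_lit 319) (nat_lit 231)) (XT.nd (nat_lit 78) (nat_lit 684) (nat_lit 0) (XT.lf (nat_lit 0) (nat_lit 4076555039) (nat_lit 836) (nat_lit 1424273165) (nat_lit 76) (nat_lit 6839918856) (nat_lit 288) (nat_lit 5) (nat_lit 299) (nat_lit 5) (nat_lit 289) (nat_lit 5) (nat_lit 351) (nat_lit 319) (nat_lit 230)) (XT.lf (nat_lit 0) (nat_lit 7367168588) (nat_lit 760) (nat_lit 3464922695) (nat_lit 76) (nat_lit 1710989051) (nat_lit 279) (nat_lit 5) (nat_lit 289) (nat_lit 5) (nat_lit 280) (nat_lit 5) (nat_lit 352) (nat_lit 319) (nat_lit 229))))) (XT.nd (nat_lit 156) (nat_lit 1292) (nat_lit 0) (XT.nd (nat_lit 78) (nat_lit 684) (nat_lit 0) (XT.lf (nat_lit 0) (nat_lit 7184467046) (nat_lit 684) (nat_lit 3633148281) (nat_lit 760) (nat_lit 1932655567) (nat_lit 270) (nat_lit 5) (nat_lit 279) (nat_lit 5) (nat_lit 280) (nat_lit 5) (nat_lit 353) (nat_lit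 319) (nat_lit 228)) (XT.lf (nat_lit 0) (nat_lit 1440636305) (nat_lit 684) (nat_lit 7727292073) (nat_lit 76) (nat_lit 3794551037) (nat_lit 261) (nat_lit 5) (nat_lit 270) (nat_lit 5) (nat_lit 262) (nat_lit 5) (nat_lit 354) (nat_lit 319) (nat_lit 227))) (XT.nd (nat_lit 78) (nat_lit 608) (nat_lit 0) (XT.lf (nat_lit 0) (nat_lit 3224305276) (nat_lit 684) (nat_lit 1717010253) (nat_lit 760) (nat_lit 8238443104) (nat_lit 252) (nat_lit 5) (nat_lit 261) (nat_lit 5) (nat_lit 262) (nat_lit 5) (nat_lit 355) (nat_lit 319) (nat_lit 226)) (XT.nd (nat_lit 78) (nat_lit 0) (nat_lit 0) (XT.lf (nat_lit 0) (nat_lit 1147145408) (nat_lit 608) (nat_lit 7468435315) (nat_lit 684) (nat_lit 4786612792) (nat_lit 244) (nat_lit 5) (nat_lit 252) (nat_lit 5) (nat_lit 253) (nat_lit 5) (nat_lit 356) (nat_lit 319) (nat_lit 225)) (XT.lf (nat_lit 0) (nat_lit 12450760954) (nat_lit 684) (nat_lit 960301861) (nat_lit 76) (nat_lit 219233233)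 (nat_lit 244) (nat_lit 5) (nat_lit 253) (nat_lit 5) (nat_lit 245) (nat_lit 5) (nat_lit 357) (nat_lit 319) (nat_lit 224)))))) (XT.nd (nat_lit 390) (nat_lit 2052) (nat_lit 0) (XT.nd (nat_lit 156) (nat_lit 1748) (nat_lit 0) (XT.nd (nat_lit 78) (nat_lit 532) (nat_lit 0) (XT.lf (nat_lit 0) (nat_lit 2593892309) (nat_lit 684) (nat_lit 3151938187) (nat_lit 76) (nat_lit 8117261948) (nat_lit 235) (nat_lit 5) (nat_lit 244) (nat_lit 5) (nat_lit 236) (nat_lit 5) (nat_lit 358) (nat_lit 319) (nat_lit 223)) (XT.lf (nat_lit 0) (nat_lit 6513714974) (nat_lit 608) (nat_lit 5402192213) (nat_lit 76) (nat_lit 2185832967) (nat_lit 228) (nat_lit 5) (nat_lit 236) (nat_lit 5) (nat_lit 229) (nat_lit 5) (nat_lit 359) (nat_lit 319) (nat_lit 222))) (XT.nd (nat_lit 78) (nat_lit 1140) (nat_lit 0) (XT.lf (nat_lit 0) (nat_lit 6615557687) (nat_lit 608) (nat_lit 4010625259) (nat_lit 684) (nat_lit 3719870828) (nat_lit 220) (nat_lit 5)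 (nat_lit 228) (nat_lit 5) (nat_lit 229) (nat_lit 5) (nat_lit 360) (nat_lit 319) (nat_lit 221)) (XT.nd (nat_lit 78) (nat_lit 532) (nat_lit 0) (XT.lf (nat_lit 0) (nat_lit 326677280) (nat_lit 608) (nat_lit 10131380245) (nat_lit 76) (nat_lit 4138295764) (nat_lit 212) (nat_lit 5) (nat_lit 220) (nat_lit 5) (nat_lit 213) (nat_lit 5) (nat_lit 361) (nat_lit 319) (nat_lit 220)) (XT.lf (nat_lit 0) (nat_lit 2221125890) (nat_lit 532) (nat_lit 2290315158) (nat_lit 608) (nat_lit 10340888742) (nat_lit 205) (nat_lit 5) (nat_lit 212) (nat_lit 5) (nat_lit 213) (nat_lit 5) (nat_lit 362) (nat_lit 319) (nat_lit 219))))) (XT.nd (nat_lit 156) (nat_lit 1520) (nat_lit 0) (XT.nd (nat_lit 78) (nat_lit 532) (nat_lit 0) (XT.lf (nat_lit 0) (nat_lit 8904211353) (nat_lit 608) (nat_lit 106813842) (nat_lit 76) (nat_lit 6103317839) (nat_lit 205) (nat_lit 5) (nat_lit 213) (nat_lit 5) (nat_lit 206) (nat_lit 5) (nat_lit 363) (nat_lit 319)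 (nat_lit 218)) (XT.lf (nat_lit 0) (nat_lit 12913487540) (nat_lit 532) (nat_lit 588809772) (nat_lit 608) (nat_lit 1880455236) (nat_lit 198) (nat_lit 5) (nat_lit 205) (nat_lit 5) (nat_lit 206) (nat_lit 5) (nat_lit 364) (nat_lit 319) (nat_lit 217))) (XT.nd (nat_lit 78) (nat_lit 912) (nat_lit 0) (XT.lf (nat_lit 0) (nat_lit 2643613180) (nat_lit 608) (nat_lit 4953668362) (nat_lit 76) (nat_lit 8059637564) (nat_lit 190) (nat_lit 5) (nat_lit 198) (nat_lit 5) (nat_lit 191) (nat_lit 5) (nat_lit 365) (nat_lit 319) (nat_lit 216)) (XT.nd (nat_lit 78) (nat_lit 456) (nat_lit 0) (XT.lf (nat_lit 0) (nat_lit 7335812671) (nat_lit 532) (nat_lit 7519084964) (nat_lit 76) (nat_lit 1083011318) (nat_lit 184) (nat_lit 5) (nat_lit 191) (nat_lit 5) (nat_lit 185) (nat_lit 5) (nat_lit 366) (nat_lit 319) (nat_lit 215)) (XT.lf (nat_lit 0) (nat_lit 6028222539) (nat_lit 456) (nat_lit 6239940150) (nat_lit 532) (nat_lit 3957183968) (nat_lit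 178) (nat_lit 5) (nat_lit 184) (nat_lit 5) (nat_lit 185) (nat_lit 5) (nat_lit 367) (nat_lit 319) (nat_lit 214))))))) (XT.nd (nat_lit 780) (nat_lit 2584) (nat_lit 0) (XT.nd (nat_lit 390) (nat_lit 1596) (nat_lit 0) (XT.nd (nat_lit 156) (nat_lit 912) (nat_lit 0) (XT.nd (nat_lit 78) (nat_lit 456) (nat_lit 0) (XT.lf (nat_lit 0) (nat_lit 884260185) (nat_lit 532) (nat_lit 12965467733) (nat_lit 76) (nat_lit 2670217113) (nat_lit 171) (nat_lit 5) (nat_lit 178) (nat_lit 5) (nat_lit 172) (nat_lit 5) (nat_lit 368) (nat_lit 319) (nat_lit 213)) (XT.lf (nat_lit 0) (nat_lit 946865207) (nat_lit 456) (nat_lit 4964468610) (nat_lit 532) (nat_lit 10909646833) (nat_lit 165) (nat_lit 5) (nat_lit 171) (nat_lit 5) (nat_lit 172) (nat_lit 5) (nat_lit 369) (nat_lit 319) (nat_lit 212))) (XT.nd (nat_lit 78) (nat_lit 912) (nat_lit 0) (XT.lf (nat_lit 0) (nat_lit 11181669725) (nat_lit 532) (nat_lit 1735996571) (nat_lit 76) (nat_lit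 4211537292) (nat_lit 165) (nat_lit 5) (nat_lit 172) (nat_lit 5) (nat_lit 166) (nat_lit 5) (nat_lit 370) (nat_lit 319) (nat_lit 211)) (XT.nd (nat_lit 78) (nat_lit 532) (nat_lit 0) (XT.lf (nat_lit 0) (nat_lit 12930635411) (nat_lit 380) (nat_lit 3774132294) (nat_lit 456) (nat_lit 740017566) (nat_lit 160) (nat_lit 5) (nat_lit 165) (nat_lit 5) (nat_lit 166) (nat_lit 5) (nat_lit 371) (nat_lit 319) (nat_lit 210)) (XT.lf (nat_lit 0) (nat_lit 4657325771) (nat_lit 532) (nat_lit 7439925549) (nat_lit 76) (nat_lit 5670102682) (nat_lit 153) (nat_lit 5) (nat_lit 160) (nat_lit 5) (nat_lit 154) (nat_lit 5) (nat_lit 372) (nat_lit 319) (nat_lit 209))))) (XT.nd (nat_lit 156) (nat_lit 836) (nat_lit 0) (XT.nd (nat_lit 78) (nat_lit 380) (nat_lit 0) (XT.lf (nat_lit 0) (nat_lit 7614875218) (nat_lit 380) (nat_lit 2675369366) (nat_lit 456) (nat_lit 7807587909) (nat_lit 148) (nat_lit 5) (nat_lit 153) (nat_lit 5) (nat_lit 154)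 (nat_lit 5) (nat_lit 373) (nat_lit 319) (nat_lit 208)) (XT.lf (nat_lit 0) (nat_lit 4771026495) (nat_lit 380) (nat_lit 11427038067) (nat_lit 456) (nat_lit 2238047080) (nat_lit 143) (nat_lit 5) (nat_lit 148) (nat_lit 5) (nat_lit 149) (nat_lit 5) (nat_lit 374) (nat_lit 319) (nat_lit 207))) (XT.nd (nat_lit 78) (nat_lit 380) (nat_lit 0) (XT.lf (nat_lit 0) (nat_lit 1794166903) (nat_lit 380) (nat_lit 1738404700) (nat_lit 456) (nat_lit 15249920091) (nat_lit 137) (nat_lit 5) (nat_lit 142) (nat_lit 5) (nat_lit 143) (nat_lit 5) (nat_lit 375) (nat_lit 319) (nat_lit 206)) (XT.nd (nat_lit 78) (nat_lit 380) (nat_lit 0) (XT.lf (nat_lit 0) (nat_lit 9571974569) (nat_lit 456) (nat_lit 1333387403) (nat_lit 76) (nat_lit 8231088094) (nat_lit 137) (nat_lit 5) (nat_lit 143) (nat_lit 5) (nat_lit 138) (nat_lit 5) (nat_lit 376) (nat_lit 319) (nat_lit 205)) (XT.lf (nat_lit 0) (nat_lit 14945353297) (nat_lit 380) (nat_lit 935654530)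 (nat_lit 456) (nat_lit 3618254501) (nat_lit 132) (nat_lit 5) (nat_lit 137) (nat_lit 5) (nat_lit 138) (nat_lit 5) (nat_lit 377) (nat_lit 319) (nat_lit 204)))))) (XT.nd (nat_lit 390) (nat_lit 988) (nat_lit 0) (XT.nd (nat_lit 156) (nat_lit 760) (nat_lit 0) (XT.nd (nat_lit 78) (nat_lit 380) (nat_lit 0) (XT.lf (nat_lit 0) (nat_lit 2601547273) (nat_lit 456) (nat_lit 7963956974) (nat_lit 76) (nat_lit 9304571851) (nat_lit 126) (nat_lit 5) (nat_lit 132) (nat_lit 5) (nat_lit 127) (nat_lit 5) (nat_lit 378) (nat_lit 319) (nat_lit 203)) (XT.lf (nat_lit 0) (nat_lit 8724802173) (nat_lit 380) (nat_lit 308603485) (nat_lit 456) (nat_lit 11216641672) (nat_lit 121) (nat_lit 5) (nat_lit 126) (nat_lit 5) (nat_lit 127) (nat_lit 5) (nat_lit 379) (nat_lit 319) (nat_lit 202))) (XT.nd (nat_lit 78) (nat_lit 456) (nat_lit 0) (XT.lf (nat_lit 0) (nat_lit 5356512047) (nat_lit 304) (nat_lit 10438086322) (nat_lit 380) (nat_lit 4844095442)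 (nat_lit 117) (nat_lit 5) (nat_lit 121) (nat_lit 5) (nat_lit 122) (nat_lit 5) (nat_lit 380) (nat_lit 319) (nat_lit 201)) (XT.nd (nat_lit 78) (nat_lit 0) (nat_lit 0) (XT.lf (nat_lit 0) (nat_lit 1771160692) (nat_lit 456) (nat_lit 19191754656) (nat_lit 76) (nat_lit 74382809) (nat_lit 111) (nat_lit 5) (nat_lit 117) (nat_lit 5) (nat_lit 112) (nat_lit 5) (nat_lit 381) (nat_lit 319) (nat_lit 200)) (XT.lf (nat_lit 0) (nat_lit 8674716541) (nat_lit 456) (nat_lit 1881687380) (nat_lit 76) (nat_lit 10887706640) (nat_lit 111) (nat_lit 5) (nat_lit 117) (nat_lit 5) (nat_lit 112) (nat_lit 5) (nat_lit 382) (nat_lit 319) (nat_lit 199))))) (XT.nd (nat_lit 41964) (nat_lit 0) (nat_lit 31996) (XT.nd (nat_lit 78) (nat_lit 684) (nat_lit 0) (XT.lf (nat_lit 0) (nat_lit 15873570841) (nat_lit 380) (nat_lit 5732286654) (nat_lit 76) (nat_lit 255509310) (nat_lit 107) (nat_lit 5) (nat_lit 112) (nat_lit 5) (nat_lit 108) (nat_lit 5)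 (nat_lit 383) (nat_lit 319) (nat_lit 198)) (XT.nd (nat_lit 78) (nat_lit 304) (nat_lit 0) (XT.lf (nat_lit 0) (nat_lit 1131657988) (nat_lit 380) (nat_lit 9815901307) (nat_lit 76) (nat_lit 11340505348) (nat_lit 102) (nat_lit 5) (nat_lit 107) (nat_lit 5) (nat_lit 103) (nat_lit 5) (nat_lit 384) (nat_lit 319) (nat_lit 197)) (XT.lf (nat_lit 0) (nat_lit 8462180689) (nat_lit 380) (nat_lit 14107137252) (nat_lit 76) (nat_lit 155880225) (nat_lit 98) (nat_lit 5) (nat_lit 103) (nat_lit 5) (nat_lit 99) (nat_lit 5) (nat_lit 385) (nat_lit 319) (nat_lit 196)))) (XT.nd (nat_lit 78) (nat_lit 0) (nat_lit 0) (XT.lf (nat_lit 0) (nat_lit 1982234535) (nat_lit 1444) (nat_lit 1047547232) (nat_lit 1444) (nat_lit 1047547232) (nat_lit 519) (nat_lit 3) (nat_lit 538) (nat_lit 3) (nat_lit 538) (nat_lit 5) (nat_lit 320) (nat_lit 320) (nat_lit 260)) (XT.nd (nat_lit 78) (nat_lit 0) (nat_lit 76) (XT.lf (nat_lit 76) (nat_lit 3824650653)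 (nat_lit 0) (nat_lit 1906595666) (nat_lit 1444) (nat_lit 2510900727) (nat_lit 520) (nat_lit 5) (nat_lit 519) (nat_lit 3) (nat_lit 538) (nat_lit 5) (nat_lit 321) (nat_lit 320) (nat_lit 259)) (XT.lf (nat_lit 76) (nat_lit 1588537230) (nat_lit 0) (nat_lit 5936812923) (nat_lit 1444) (nat_lit 807450865) (nat_lit 521) (nat_lit 5) (nat_lit 520) (nat_lit 5) (nat_lit 539) (nat_lit 5) (nat_lit 322) (nat_lit 320) (nat_lit 258))))))))
noncomputable def xc84 : XT := (XT.nd (nat_lit 1560) (nat_lit 12768) (nat_lit 0) (XT.nd (nat_lit 780) (nat_lit 8436) (nat_lit 0) (XT.nd (nat_lit 390) (nat_lit 1292) (nat_lit 0) (XT.nd (nat_lit 156) (nat_lit 0) (nat_lit 76) (XT.nd (nat_lit 78) (nat_lit 0) (nat_lit 76) (XT.lf (nat_lit 0) (nat_lit 913125219) (nat_lit 1444) (nat_lit 645258384) (nat_lit 1520) (nat_lit 6868124571) (nat_lit 501) (nat_lit 5) (nat_lit 520) (nat_lit 5) (nat_lit 521) (nat_lit 5) (nat_lit 323) (nat_lit 320)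 (nat_lit 257)) (XT.lf (nat_lit 0) (nat_lit 2668291172) (nat_lit 1444) (nat_lit 2872149106) (nat_lit 1520) (nat_lit 2982625359) (nat_lit 502) (nat_lit 5) (nat_lit 521) (nat_lit 5) (nat_lit 522) (nat_lit 5) (nat_lit 324) (nat_lit 320) (nat_lit 256))) (XT.nd (nat_lit 78) (nat_lit 0) (nat_lit 76) (XT.lf (nat_lit 76) (nat_lit 3522510327) (nat_lit 0) (nat_lit 930507374) (nat_lit 1520) (nat_lit 4169987983) (nat_lit 503) (nat_lit 5) (nat_lit 502) (nat_lit 5) (nat_lit 522) (nat_lit 5) (nat_lit 325) (nat_lit 320) (nat_lit 255)) (XT.nd (nat_lit 78) (nat_lit 0) (nat_lit 0) (XT.lf (nat_lit 76) (nat_lit 1379544442) (nat_lit 0) (nat_lit 4905989487) (nat_lit 1520) (nat_lit 2440548319) (nat_lit 504) (nat_lit 5) (nat_lit 503) (nat_lit 5) (nat_lit 523) (nat_lit 5) (nat_lit 326) (nat_lit 320) (nat_lit 254)) (XT.lf (nat_lit 76) (nat_lit 8081685247) (nat_lit 0) (nat_lit 74485544) (nat_lit 1520) (nat_lit 676440012) (nat_lit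 504) (nat_lit 5) (nat_lit 503) (nat_lit 5) (nat_lit 523) (nat_lit 5) (nat_lit 327) (nat_lit 320) (nat_lit 253))))) (XT.nd (nat_lit 156) (nat_lit 0) (nat_lit 76) (XT.nd (nat_lit 78) (nat_lit 0) (nat_lit 76) (XT.lf (nat_lit 0) (nat_lit 1141062194) (nat_lit 1520) (nat_lit 2895474331) (nat_lit 1596) (nat_lit 4905363493) (nat_lit 484) (nat_lit 5) (nat_lit 504) (nat_lit 5) (nat_lit 505) (nat_lit 5) (nat_lit 328) (nat_lit 320) (nat_lit 252)) (XT.lf (nat_lit 0) (nat_lit 2987583468) (nat_lit 1520) (nat_lit 5046571910) (nat_lit 1596) (nat_lit 1020570303) (nat_lit 485) (nat_lit 5) (nat_lit 505) (nat_lit 5) (nat_lit 506) (nat_lit 5) (nat_lit 329) (nat_lit 320) (nat_lit 251))) (XT.nd (nat_lit 78) (nat_lit 0) (nat_lit 76) (XT.lf (nat_lit 76) (nat_lit 1949599823) (nat_lit 0) (nat_lit 2946011923) (nat_lit 1596) (nat_lit 4275222414) (nat_lit 486) (nat_lit 5) (nat_lit 485) (nat_lit 5) (nat_lit 506) (nat_lit 5) (nat_lit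 330) (nat_lit 320) (nat_lit 250)) (XT.nd (nat_lit 78) (nat_lit 0) (nat_lit 0) (XT.lf (nat_lit 0) (nat_lit 6858331479) (nat_lit 1520) (nat_lit 117522796) (nat_lit 1596) (nat_lit 2314642289) (nat_lit 486) (nat_lit 5) (nat_lit 506) (nat_lit 5) (nat_lit 507) (nat_lit 5) (nat_lit 331) (nat_lit 320) (nat_lit 249)) (XT.lf (nat_lit 76) (nat_lit 7238228355) (nat_lit 0) (nat_lit 1658039720) (nat_lit 1596) (nat_lit 517173169) (nat_lit 487) (nat_lit 5) (nat_lit 486) (nat_lit 5) (nat_lit 507) (nat_lit 5) (nat_lit 332) (nat_lit 320) (nat_lit 248)))))) (XT.nd (nat_lit 390) (nat_lit 5624) (nat_lit 0) (XT.nd (nat_lit 156) (nat_lit 1444) (nat_lit 0) (XT.nd (nat_lit 78) (nat_lit 0) (nat_lit 0) (XT.lf (nat_lit 0) (nat_lit 1447102426) (nat_lit 1596) (nat_lit 4265497360) (nat_lit 1672) (nat_lit 3827085295) (nat_lit 466) (nat_lit 5) (nat_lit 487) (nat_lit 5) (nat_lit 488) (nat_lit 5) (nat_lit 333) (nat_lit 320) (nat_lit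 247)) (XT.lf (nat_lit 76) (nat_lit 3299187521) (nat_lit 0) (nat_lit 163297875) (nat_lit 1672) (nat_lit 6207196016) (nat_lit 467) (nat_lit 5) (nat_lit 466) (nat_lit 5) (nat_lit 488) (nat_lit 5) (nat_lit 334) (nat_lit 320) (nat_lit 246))) (XT.nd (nat_lit 78) (nat_lit 1520) (nat_lit 0) (XT.lf (nat_lit 76) (nat_lit 1289581040) (nat_lit 0) (nat_lit 4275324787) (nat_lit 1672) (nat_lit 4238157433) (nat_lit 468) (nat_lit 5) (nat_lit 467) (nat_lit 5) (nat_lit 489) (nat_lit 5) (nat_lit 335) (nat_lit 320) (nat_lit 245)) (XT.nd (nat_lit 78) (nat_lit 1596) (nat_lit 0) (XT.lf (nat_lit 0) (nat_lit 7738577450) (nat_lit 1596) (nat_lit 721367043) (nat_lit 76) (nat_lit 1480355143) (nat_lit 468) (nat_lit 5) (nat_lit 489) (nat_lit 5) (nat_lit 469) (nat_lit 5) (nat_lit 336) (nat_lit 320) (nat_lit 244)) (XT.lf (nat_lit 0) (nat_lit 7335547401) (nat_lit 1596) (nat_lit 2673708041) (nat_lit 1672) (nat_lit 71777899) (nat_lit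 447) (nat_lit 5) (nat_lit 468) (nat_lit 5) (nat_lit 469) (nat_lit 5) (nat_lit 337) (nat_lit 320) (nat_lit 243))))) (XT.nd (nat_lit 156) (nat_lit 2128) (nat_lit 0) (XT.nd (nat_lit 78) (nat_lit 1748) (nat_lit 0) (XT.lf (nat_lit 0) (nat_lit 2112543107) (nat_lit 1748) (nat_lit 4808442557) (nat_lit 76) (nat_lit 3304377023) (nat_lit 424) (nat_lit 5) (nat_lit 447) (nat_lit 5) (nat_lit 425) (nat_lit 5) (nat_lit 338) (nat_lit 320) (nat_lit 242)) (XT.lf (nat_lit 0) (nat_lit 3478365641) (nat_lit 1748) (nat_lit 899666843) (nat_lit 1824) (nat_lit 5995662597) (nat_lit 401) (nat_lit 5) (nat_lit 424) (nat_lit 5) (nat_lit 425) (nat_lit 5) (nat_lit 339) (nat_lit 320) (nat_lit 241))) (XT.nd (nat_lit 78) (nat_lit 988) (nat_lit 0) (XT.lf (nat_lit 0) (nat_lit 1501642413) (nat_lit 1140) (nat_lit 5245274708) (nat_lit 1216) (nat_lit 3778866214) (nat_lit 386) (nat_lit 5) (nat_lit 401) (nat_lit 5) (nat_lit 402) (nat_lit 5)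 (nat_lit 340) (nat_lit 320) (nat_lit 240)) (XT.nd (nat_lit 78) (nat_lit 988) (nat_lit 0) (XT.lf (nat_lit 0) (nat_lit 9205511941) (nat_lit 1216) (nat_lit 486485956) (nat_lit 76) (nat_lit 990077543) (nat_lit 386) (nat_lit 5) (nat_lit 402) (nat_lit 5) (nat_lit 387) (nat_lit 5) (nat_lit 341) (nat_lit 320) (nat_lit 239)) (XT.lf (nat_lit 0) (nat_lit 933285621) (nat_lit 988) (nat_lit 2502879574) (nat_lit 76) (nat_lit 7405784061) (nat_lit 373) (nat_lit 5) (nat_lit 386) (nat_lit 5) (nat_lit 374) (nat_lit 5) (nat_lit 342) (nat_lit 320) (nat_lit 238))))))) (XT.nd (nat_lit 780) (nat_lit 5624) (nat_lit 0) (XT.nd (nat_lit 390) (nat_lit 3724) (nat_lit 0) (XT.nd (nat_lit 156) (nat_lit 1748) (nat_lit 0) (XT.nd (nat_lit 78) (nat_lit 836) (nat_lit 0) (XT.lf (nat_lit 0) (nat_lit 3421986571) (nat_lit 912) (nat_lit 4558054595) (nat_lit 76) (nat_lit 3025863587) (nat_lit 362) (nat_lit 5) (nat_lit 374) (nat_lit 5) (nat_lit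 363) (nat_lit 5) (nat_lit 343) (nat_lit 320) (nat_lit 237)) (XT.lf (nat_lit 0) (nat_lit 4526727689) (nat_lit 836) (nat_lit 1490254760) (nat_lit 912) (nat_lit 5157176416) (nat_lit 351) (nat_lit 5) (nat_lit 362) (nat_lit 5) (nat_lit 363) (nat_lit 5) (nat_lit 344) (nat_lit 320) (nat_lit 236))) (XT.nd (nat_lit 78) (nat_lit 912) (nat_lit 0) (XT.lf (nat_lit 0) (nat_lit 2562644785) (nat_lit 836) (nat_lit 6171704274) (nat_lit 912) (nat_lit 2612233387) (nat_lit 340) (nat_lit 5) (nat_lit 351) (nat_lit 5) (nat_lit 352) (nat_lit 5) (nat_lit 345) (nat_lit 320) (nat_lit 235)) (XT.nd (nat_lit 78) (nat_lit 0) (nat_lit 0) (XT.lf (nat_lit 0) (nat_lit 35199051) (nat_lit 912) (nat_lit 10949830093) (nat_lit 76) (nat_lit 538634888) (nat_lit 328) (nat_lit 5) (nat_lit 340) (nat_lit 5) (nat_lit 329) (nat_lit 5) (nat_lit 346) (nat_lit 320) (nat_lit 234)) (XT.lf (nat_lit 0) (nat_lit 2792436643) (nat_lit 912) (nat_lit 1468093422)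 (nat_lit 76) (nat_lit 7443876550) (nat_lit 328) (nat_lit 5) (nat_lit 340) (nat_lit 5) (nat_lit 329) (nat_lit 5) (nat_lit 347) (nat_lit 320) (nat_lit 233))))) (XT.nd (nat_lit 156) (nat_lit 2204) (nat_lit 0) (XT.nd (nat_lit 78) (nat_lit 760) (nat_lit 0) (XT.lf (nat_lit 0) (nat_lit 5669924808) (nat_lit 836) (nat_lit 3535541961) (nat_lit 76) (nat_lit 2684365038) (nat_lit 318) (nat_lit 5) (nat_lit 329) (nat_lit 5) (nat_lit 319) (nat_lit 5) (nat_lit 348) (nat_lit 320) (nat_lit 232)) (XT.lf (nat_lit 0) (nat_lit 6430908811) (nat_lit 760) (nat_lit 2249371891) (nat_lit 836) (nat_lit 3399618873) (nat_lit 308) (nat_lit 5) (nat_lit 318) (nat_lit 5) (nat_lit 319) (nat_lit 5) (nat_lit 349) (nat_lit 320) (nat_lit 231))) (XT.nd (nat_lit 78) (nat_lit 1520) (nat_lit 0) (XT.lf (nat_lit 0) (nat_lit 4460210033) (nat_lit 684) (nat_lit 7372749795) (nat_lit 760) (nat_lit 441679667) (nat_lit 299) (nat_lit 5) (nat_lit 308)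 (nat_lit 5) (nat_lit 309) (nat_lit 5) (nat_lit 350) (nat_lit 320) (nat_lit 230)) (XT.nd (nat_lit 78) (nat_lit 684) (nat_lit 0) (XT.lf (nat_lit 0) (nat_lit 2439710284) (nat_lit 760) (nat_lit 168069783) (nat_lit 836) (nat_lit 9866374202) (nat_lit 288) (nat_lit 5) (nat_lit 298) (nat_lit 5) (nat_lit 299) (nat_lit 5) (nat_lit 351) (nat_lit 320) (nat_lit 229)) (XT.lf (nat_lit 0) (nat_lit 348340767) (nat_lit 684) (nat_lit 5465299768) (nat_lit 760) (nat_lit 6864546790) (nat_lit 279) (nat_lit 5) (nat_lit 288) (nat_lit 5) (nat_lit 289) (nat_lit 5) (nat_lit 352) (nat_lit 320) (nat_lit 228)))))) (XT.nd (nat_lit 390) (nat_lit 2964) (nat_lit 0) (XT.nd (nat_lit 156) (nat_lit 1976) (nat_lit 0) (XT.nd (nat_lit 78) (nat_lit 684) (nat_lit 0) (XT.lf (nat_lit 0) (nat_lit 9166636278) (nat_lit 760) (nat_lit 1756785973) (nat_lit 76) (nat_lit 1963909238) (nat_lit 279) (nat_lit 5) (nat_lit 289) (nat_lit 5) (nat_lit 280) (nat_lit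 5) (nat_lit 353) (nat_lit 320) (nat_lit 227)) (XT.lf (nat_lit 0) (nat_lit 9182686544) (nat_lit 684) (nat_lit 3503509904) (nat_lit 760) (nat_lit 415243071) (nat_lit 270) (nat_lit 5) (nat_lit 279) (nat_lit 5) (nat_lit 280) (nat_lit 5) (nat_lit 354) (nat_lit 320) (nat_lit 226))) (XT.nd (nat_lit 78) (nat_lit 1292) (nat_lit 0) (XT.lf (nat_lit 0) (nat_lit 3006470330) (nat_lit 684) (nat_lit 6155369352) (nat_lit 76) (nat_lit 4158625447) (nat_lit 261) (nat_lit 5) (nat_lit 270) (nat_lit 5) (nat_lit 262) (nat_lit 5) (nat_lit 355) (nat_lit 320) (nat_lit 225)) (XT.nd (nat_lit 78) (nat_lit 608) (nat_lit 0) (XT.lf (nat_lit 0) (nat_lit 5095512355) (nat_lit 684) (nat_lit 1483830657) (nat_lit 760) (nat_lit 6965588962) (nat_lit 252) (nat_lit 5) (nat_lit 261) (nat_lit 5) (nat_lit 262) (nat_lit 5) (nat_lit 356) (nat_lit 320) (nat_lit 224)) (XT.lf (nat_lit 0) (nat_lit 2955159632) (nat_lit 608) (nat_lit 7378594591) (nat_lit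 684) (nat_lit 3440899657) (nat_lit 244) (nat_lit 5) (nat_lit 252) (nat_lit 5) (nat_lit 253) (nat_lit 5) (nat_lit 357) (nat_lit 320) (nat_lit 223))))) (XT.nd (nat_lit 234) (nat_lit 1748) (nat_lit 0) (XT.nd (nat_lit 78) (nat_lit 532) (nat_lit 0) (XT.lf (nat_lit 0) (nat_lit 235004778) (nat_lit 684) (nat_lit 13242178534) (nat_lit 76) (nat_lit 533108030) (nat_lit 235) (nat_lit 5) (nat_lit 244) (nat_lit 5) (nat_lit 236) (nat_lit 5) (nat_lit 358) (nat_lit 320) (nat_lit 222)) (XT.nd (nat_lit 78) (nat_lit 532) (nat_lit 0) (XT.lf (nat_lit 0) (nat_lit 4070293953) (nat_lit 684) (nat_lit 1507194336) (nat_lit 76) (nat_lit 8673145124) (nat_lit 235) (nat_lit 5) (nat_lit 244) (nat_lit 5) (nat_lit 236) (nat_lit 5) (nat_lit 359) (nat_lit 320) (nat_lit 221)) (XT.lf (nat_lit 0) (nat_lit 8080306611) (nat_lit 608) (nat_lit 3827647181) (nat_lit 76) (nat_lit 2589045928) (nat_lit 228) (nat_lit 5) (nat_lit 236) (nat_lit 5)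 (nat_lit 229) (nat_lit 5) (nat_lit 360) (nat_lit 320) (nat_lit 220)))) (XT.nd (nat_lit 78) (nat_lit 1140) (nat_lit 0) (XT.lf (nat_lit 0) (nat_lit 8522460769) (nat_lit 608) (nat_lit 3764842867) (nat_lit 684) (nat_lit 2461926760) (nat_lit 220) (nat_lit 5) (nat_lit 228) (nat_lit 5) (nat_lit 229) (nat_lit 5) (nat_lit 361) (nat_lit 320) (nat_lit 219)) (XT.nd (nat_lit 78) (nat_lit 532) (nat_lit 0) (XT.lf (nat_lit 0) (nat_lit 1662156930) (nat_lit 608) (nat_lit 8712218826) (nat_lit 76) (nat_lit 4633013514) (nat_lit 212) (nat_lit 5) (nat_lit 220) (nat_lit 5) (nat_lit 213) (nat_lit 5) (nat_lit 362) (nat_lit 320) (nat_lit 218)) (XT.lf (nat_lit 0) (nat_lit 3982907196) (nat_lit 532) (nat_lit 1961950418) (nat_lit 608) (nat_lit 9326749506) (nat_lit 205) (nat_lit 5) (nat_lit 212) (nat_lit 5) (nat_lit 213) (nat_lit 5) (nat_lit 363) (nat_lit 320) (nat_lit 217))))))))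
noncomputable def xc85 : XT := (XT.nd (nat_lit 1560) (nat_lit 684) (nat_lit 0) (XT.nd (nat_lit 780) (nat_lit 3192) (nat_lit 0) (XT.nd (nat_lit 390) (nat_lit 1900) (nat_lit 0) (XT.nd (nat_lit 156) (nat_lit 1520) (nat_lit 0) (XT.nd (nat_lit 78) (nat_lit 0) (nat_lit 0) (XT.lf (nat_lit 0) (nat_lit 1579495187) (nat_lit 532) (nat_lit 8864865989) (nat_lit 608) (nat_lit 5097630225) (nat_lit 198) (nat_lit 5) (nat_lit 205) (nat_lit 5) (nat_lit 206) (nat_lit 5) (nat_lit 364) (nat_lit 320) (nat_lit 216)) (XT.lf (nat_lit 0) (nat_lit 14942615982) (nat_lit 532) (nat_lit 201398101) (nat_lit 608) (nat_lit 675175993) (nat_lit 198) (nat_lit 5) (nat_lit 205) (nat_lit 5) (nat_lit 206) (nat_lit 5) (nat_lit 365) (nat_lit 320) (nat_lit 215))) (XT.nd (nat_lit 78) (nat_lit 912) (nat_lit 0) (XT.lf (nat_lit 0) (nat_lit 3945070893) (nat_lit 608) (nat_lit 3448599465) (nat_lit 76) (nat_lit 8708216274) (nat_lit 190) (nat_lit 5)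 (nat_lit 198) (nat_lit 5) (nat_lit 191) (nat_lit 5) (nat_lit 366) (nat_lit 320) (nat_lit 214)) (XT.nd (nat_lit 78) (nat_lit 456) (nat_lit 0) (XT.lf (nat_lit 0) (nat_lit 8755792498) (nat_lit 532) (nat_lit 6096366950) (nat_lit 76) (nat_lit 1539600257) (nat_lit 184) (nat_lit 5) (nat_lit 191) (nat_lit 5) (nat_lit 185) (nat_lit 5) (nat_lit 367) (nat_lit 320) (nat_lit 213)) (XT.lf (nat_lit 0) (nat_lit 7830618222) (nat_lit 456) (nat_lit 5981074264) (nat_lit 532) (nat_lit 2876624865) (nat_lit 178) (nat_lit 5) (nat_lit 184) (nat_lit 5) (nat_lit 185) (nat_lit 5) (nat_lit 368) (nat_lit 320) (nat_lit 212))))) (XT.nd (nat_lit 156) (nat_lit 912) (nat_lit 0) (XT.nd (nat_lit 78) (nat_lit 456) (nat_lit 0) (XT.lf (nat_lit 0) (nat_lit 2073252405) (nat_lit 532) (nat_lit 11722920814) (nat_lit 76) (nat_lit 3195854353) (nat_lit 171) (nat_lit 5) (nat_lit 178) (nat_lit 5) (nat_lit 172) (nat_lit 5) (nat_lit 369) (nat_lit 320)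 (nat_lit 211)) (XT.lf (nat_lit 0) (nat_lit 2580312787) (nat_lit 456) (nat_lit 4647388266) (nat_lit 532) (nat_lit 10074869712) (nat_lit 165) (nat_lit 5) (nat_lit 171) (nat_lit 5) (nat_lit 172) (nat_lit 5) (nat_lit 370) (nat_lit 320) (nat_lit 210))) (XT.nd (nat_lit 78) (nat_lit 912) (nat_lit 0) (XT.lf (nat_lit 0) (nat_lit 12625909037) (nat_lit 532) (nat_lit 210352922) (nat_lit 76) (nat_lit 4784390730) (nat_lit 165) (nat_lit 5) (nat_lit 172) (nat_lit 5) (nat_lit 166) (nat_lit 5) (nat_lit 371) (nat_lit 320) (nat_lit 209)) (XT.nd (nat_lit 78) (nat_lit 456) (nat_lit 0) (XT.lf (nat_lit 0) (nat_lit 341786905) (nat_lit 456) (nat_lit 3077720757) (nat_lit 76) (nat_lit 14526600854) (nat_lit 159) (nat_lit 5) (nat_lit 165) (nat_lit 5) (nat_lit 160) (nat_lit 5) (nat_lit 372) (nat_lit 320) (nat_lit 208)) (XT.lf (nat_lit 0) (nat_lit 5872245138) (nat_lit 532) (nat_lit 6103011715) (nat_lit 76) (nat_lit 6303381620) (nat_lit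 153) (nat_lit 5) (nat_lit 160) (nat_lit 5) (nat_lit 154) (nat_lit 5) (nat_lit 373) (nat_lit 320) (nat_lit 207)))))) (XT.nd (nat_lit 390) (nat_lit 1596) (nat_lit 0) (XT.nd (nat_lit 156) (nat_lit 836) (nat_lit 0) (XT.nd (nat_lit 78) (nat_lit 380) (nat_lit 0) (XT.lf (nat_lit 0) (nat_lit 9378122119) (nat_lit 380) (nat_lit 2274677848) (nat_lit 456) (nat_lit 6966665146) (nat_lit 148) (nat_lit 5) (nat_lit 153) (nat_lit 5) (nat_lit 154) (nat_lit 5) (nat_lit 374) (nat_lit 320) (nat_lit 206)) (XT.lf (nat_lit 0) (nat_lit 6441942366) (nat_lit 380) (nat_lit 11278168680) (nat_lit 456) (nat_lit 1248143023) (nat_lit 143) (nat_lit 5) (nat_lit 148) (nat_lit 5) (nat_lit 149) (nat_lit 5) (nat_lit 375) (nat_lit 320) (nat_lit 205))) (XT.nd (nat_lit 78) (nat_lit 380) (nat_lit 0) (XT.lf (nat_lit 0) (nat_lit 3364839973) (nat_lit 380) (nat_lit 1296355344) (nat_lit 456) (nat_lit 14664109906) (nat_lit 137) (nat_lit 5) (nat_lit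 142) (nat_lit 5) (nat_lit 143) (nat_lit 5) (nat_lit 376) (nat_lit 320) (nat_lit 204)) (XT.nd (nat_lit 78) (nat_lit 0) (nat_lit 0) (XT.lf (nat_lit 0) (nat_lit 117767753) (nat_lit 380) (nat_lit 10738106649) (nat_lit 456) (nat_lit 8834532129) (nat_lit 132) (nat_lit 5) (nat_lit 137) (nat_lit 5) (nat_lit 138) (nat_lit 5) (nat_lit 377) (nat_lit 320) (nat_lit 203)) (XT.lf (nat_lit 0) (nat_lit 16859158941) (nat_lit 380) (nat_lit 474760723) (nat_lit 456) (nat_lit 2730594567) (nat_lit 132) (nat_lit 5) (nat_lit 137) (nat_lit 5) (nat_lit 138) (nat_lit 5) (nat_lit 378) (nat_lit 320) (nat_lit 202))))) (XT.nd (nat_lit 156) (nat_lit 760) (nat_lit 0) (XT.nd (nat_lit 78) (nat_lit 380) (nat_lit 0) (XT.lf (nat_lit 0) (nat_lit 3646731917) (nat_lit 456) (nat_lit 6731883339) (nat_lit 76) (nat_lit 10068033481) (nat_lit 126) (nat_lit 5) (nat_lit 132) (nat_lit 5) (nat_lit 127) (nat_lit 5) (nat_lit 379) (nat_lit 320) (nat_lit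 201)) (XT.lf (nat_lit 0) (nat_lit 10253947218) (nat_lit 456) (nat_lit 10405901067) (nat_lit 76) (nat_lit 178528242) (nat_lit 121) (nat_lit 5) (nat_lit 127) (nat_lit 5) (nat_lit 122) (nat_lit 5) (nat_lit 380) (nat_lit 320) (nat_lit 200))) (XT.nd (nat_lit 78) (nat_lit 456) (nat_lit 0) (XT.lf (nat_lit 0) (nat_lit 6956509038) (nat_lit 304) (nat_lit 10245158744) (nat_lit 380) (nat_lit 4037346064) (nat_lit 117) (nat_lit 5) (nat_lit 121) (nat_lit 5) (nat_lit 122) (nat_lit 5) (nat_lit 381) (nat_lit 320) (nat_lit 199)) (XT.nd (nat_lit 78) (nat_lit 0) (nat_lit 0) (XT.lf (nat_lit 0) (nat_lit 2749079938) (nat_lit 456) (nat_lit 18323796385) (nat_lit 76) (nat_lit 576877423) (nat_lit 111) (nat_lit 5) (nat_lit 117) (nat_lit 5) (nat_lit 112) (nat_lit 5) (nat_lit 382) (nat_lit 320) (nat_lit 198)) (XT.lf (nat_lit 0) (nat_lit 9832806994) (nat_lit 456) (nat_lit 536476923) (nat_lit 76) (nat_lit 11700030197) (nat_lit 111)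 (nat_lit 5) (nat_lit 117) (nat_lit 5) (nat_lit 112) (nat_lit 5) (nat_lit 383) (nat_lit 320) (nat_lit 197))))))) (XT.nd (nat_lit 42588) (nat_lit 0) (nat_lit 24472) (XT.nd (nat_lit 42198) (nat_lit 0) (nat_lit 28956) (XT.nd (nat_lit 41964) (nat_lit 0) (nat_lit 30248) (XT.nd (nat_lit 78) (nat_lit 380) (nat_lit 0) (XT.lf (nat_lit 0) (nat_lit 17233663949) (nat_lit 380) (nat_lit 4510798500) (nat_lit 76) (nat_lit 754909597) (nat_lit 107) (nat_lit 5) (nat_lit 112) (nat_lit 5) (nat_lit 108) (nat_lit 5) (nat_lit 384) (nat_lit 320) (nat_lit 196)) (XT.lf (nat_lit 0) (nat_lit 2038543352) (nat_lit 380) (nat_lit 8727777488) (nat_lit 76) (nat_lit 12172776599) (nat_lit 102) (nat_lit 5) (nat_lit 107) (nat_lit 5) (nat_lit 103) (nat_lit 5) (nat_lit 385) (nat_lit 320) (nat_lit 195))) (XT.nd (nat_lit 78) (nat_lit 1444) (nat_lit 0) (XT.lf (nat_lit 0) (nat_lit 3708006606) (nat_lit 1444) (nat_lit 228819062) (nat_lit 1444)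 (nat_lit 228819062) (nat_lit 519) (nat_lit 3) (nat_lit 538) (nat_lit 3) (nat_lit 538) (nat_lit 5) (nat_lit 321) (nat_lit 321) (nat_lit 258)) (XT.nd (nat_lit 78) (nat_lit 0) (nat_lit 76) (XT.lf (nat_lit 0) (nat_lit 716893956) (nat_lit 1444) (nat_lit 2815769355) (nat_lit 1520) (nat_lit 4890409156) (nat_lit 500) (nat_lit 5) (nat_lit 519) (nat_lit 3) (nat_lit 520) (nat_lit 5) (nat_lit 322) (nat_lit 321) (nat_lit 257)) (XT.lf (nat_lit 0) (nat_lit 2354477665) (nat_lit 1444) (nat_lit 5176934169) (nat_lit 1520) (nat_lit 986723152) (nat_lit 501) (nat_lit 5) (nat_lit 520) (nat_lit 5) (nat_lit 521) (nat_lit 5) (nat_lit 323) (nat_lit 321) (nat_lit 256))))) (XT.nd (nat_lit 156) (nat_lit 1368) (nat_lit 0) (XT.nd (nat_lit 78) (nat_lit 0) (nat_lit 76) (XT.lf (nat_lit 76) (nat_lit 1062186230) (nat_lit 0) (nat_lit 2967990812) (nat_lit 1520) (nat_lit 4586116549) (nat_lit 502) (nat_lit 5) (nat_lit 501) (nat_lit 5) (nat_lit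 521) (nat_lit 5) (nat_lit 324) (nat_lit 321) (nat_lit 255)) (XT.lf (nat_lit 0) (nat_lit 5743690329) (nat_lit 1444) (nat_lit 1203409065) (nat_lit 1520) (nat_lit 1770569973) (nat_lit 502) (nat_lit 5) (nat_lit 521) (nat_lit 5) (nat_lit 522) (nat_lit 5) (nat_lit 325) (nat_lit 321) (nat_lit 254))) (XT.nd (nat_lit 78) (nat_lit 1444) (nat_lit 0) (XT.lf (nat_lit 76) (nat_lit 5354618910) (nat_lit 0) (nat_lit 2151305678) (nat_lit 1520) (nat_lit 1316238114) (nat_lit 503) (nat_lit 5) (nat_lit 502) (nat_lit 5) (nat_lit 522) (nat_lit 5) (nat_lit 326) (nat_lit 321) (nat_lit 253)) (XT.nd (nat_lit 78) (nat_lit 0) (nat_lit 0) (XT.lf (nat_lit 0) (nat_lit 377324062) (nat_lit 1520) (nat_lit 5746927829) (nat_lit 1596) (nat_lit 2805685247) (nat_lit 483) (nat_lit 5) (nat_lit 503) (nat_lit 5) (nat_lit 504) (nat_lit 5) (nat_lit 327) (nat_lit 321) (nat_lit 252)) (XT.lf (nat_lit 76) (nat_lit 995274095) (nat_lit 0) (nat_lit 1098466583)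 (nat_lit 1596) (nat_lit 6947252403) (nat_lit 484) (nat_lit 5) (nat_lit 483) (nat_lit 5) (nat_lit 504) (nat_lit 5) (nat_lit 328) (nat_lit 321) (nat_lit 251)))))) (XT.nd (nat_lit 390) (nat_lit 3116) (nat_lit 0) (XT.nd (nat_lit 156) (nat_lit 1444) (nat_lit 0) (XT.nd (nat_lit 78) (nat_lit 0) (nat_lit 76) (XT.lf (nat_lit 0) (nat_lit 3874152761) (nat_lit 1520) (nat_lit 1198085623) (nat_lit 1596) (nat_lit 4082912531) (nat_lit 484) (nat_lit 5) (nat_lit 504) (nat_lit 5) (nat_lit 505) (nat_lit 5) (nat_lit 329) (nat_lit 321) (nat_lit 250)) (XT.lf (nat_lit 0) (nat_lit 5703168952) (nat_lit 1520) (nat_lit 3383341802) (nat_lit 1596) (nat_lit 186338578) (nat_lit 485) (nat_lit 5) (nat_lit 505) (nat_lit 5) (nat_lit 506) (nat_lit 5) (nat_lit 330) (nat_lit 321) (nat_lit 249))) (XT.nd (nat_lit 78) (nat_lit 1520) (nat_lit 0) (XT.lf (nat_lit 76) (nat_lit 3793274912) (nat_lit 0) (nat_lit 3810269572) (nat_lit 1596) (nat_lit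 1790223549) (nat_lit 486) (nat_lit 5) (nat_lit 485) (nat_lit 5) (nat_lit 506) (nat_lit 5) (nat_lit 331) (nat_lit 321) (nat_lit 248)) (XT.nd (nat_lit 78) (nat_lit 0) (nat_lit 0) (XT.lf (nat_lit 0) (nat_lit 37712652) (nat_lit 1596) (nat_lit 7828799332) (nat_lit 1672) (nat_lit 1651901874) (nat_lit 465) (nat_lit 5) (nat_lit 486) (nat_lit 5) (nat_lit 487) (nat_lit 5) (nat_lit 332) (nat_lit 321) (nat_lit 247)) (XT.lf (nat_lit 0) (nat_lit 1911957264) (nat_lit 1596) (nat_lit 443986470) (nat_lit 1672) (nat_lit 7290320467) (nat_lit 465) (nat_lit 5) (nat_lit 486) (nat_lit 5) (nat_lit 487) (nat_lit 5) (nat_lit 333) (nat_lit 321) (nat_lit 246))))) (XT.nd (nat_lit 234) (nat_lit 3192) (nat_lit 0) (XT.nd (nat_lit 78) (nat_lit 0) (nat_lit 0) (XT.lf (nat_lit 0) (nat_lit 3864640023) (nat_lit 1596) (nat_lit 2577107676) (nat_lit 1672) (nat_lit 3335775284) (nat_lit 466) (nat_lit 5) (nat_lit 487) (nat_lit 5) (nat_lit 488)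 (nat_lit 5) (nat_lit 334) (nat_lit 321) (nat_lit 245)) (XT.nd (nat_lit 78) (nat_lit 0) (nat_lit 76) (XT.lf (nat_lit 76) (nat_lit 5185049556) (nat_lit 0) (nat_lit 697887320) (nat_lit 1672) (nat_lit 4029658625) (nat_lit 467) (nat_lit 5) (nat_lit 466) (nat_lit 5) (nat_lit 488) (nat_lit 5) (nat_lit 335) (nat_lit 321) (nat_lit 244)) (XT.lf (nat_lit 76) (nat_lit 3135959052) (nat_lit 0) (nat_lit 4853395546) (nat_lit 1672) (nat_lit 2061830319) (nat_lit 468) (nat_lit 5) (nat_lit 467) (nat_lit 5) (nat_lit 489) (nat_lit 5) (nat_lit 336) (nat_lit 321) (nat_lit 243)))) (XT.nd (nat_lit 78) (nat_lit 1748) (nat_lit 0) (XT.lf (nat_lit 0) (nat_lit 1073578226) (nat_lit 1596) (nat_lit 9093040641) (nat_lit 1672) (nat_lit 27175756) (nat_lit 447) (nat_lit 5) (nat_lit 468) (nat_lit 5) (nat_lit 469) (nat_lit 5) (nat_lit 337) (nat_lit 321) (nat_lit 242)) (XT.nd (nat_lit 78) (nat_lit 1672) (nat_lit 0) (XT.lf (nat_lit 0) (nat_lit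 2078623660) (nat_lit 1672) (nat_lit 1024756515) (nat_lit 76) (nat_lit 7236304094) (nat_lit 446) (nat_lit 5) (nat_lit 468) (nat_lit 5) (nat_lit 447) (nat_lit 5) (nat_lit 338) (nat_lit 321) (nat_lit 241)) (XT.lf (nat_lit 0) (nat_lit 4274227519) (nat_lit 1748) (nat_lit 3134459080) (nat_lit 76) (nat_lit 3080734916) (nat_lit 424) (nat_lit 5) (nat_lit 447) (nat_lit 5) (nat_lit 425) (nat_lit 5) (nat_lit 339) (nat_lit 321) (nat_lit 240))))))))
noncomputable def xc86 : XT := (XT.nd (nat_lit 1560) (nat_lit 8284) (nat_lit 0) (XT.nd (nat_lit 780) (nat_lit 6308) (nat_lit 0) (XT.nd (nat_lit 390) (nat_lit 3344) (nat_lit 0) (XT.nd (nat_lit 156) (nat_lit 1824) (nat_lit 0) (XT.nd (nat_lit 78) (nat_lit 1140) (nat_lit 0) (XT.lf (nat_lit 0) (nat_lit 5371454633) (nat_lit 1748) (nat_lit 1186724848) (nat_lit 1824) (nat_lit 4085035876) (nat_lit 401) (nat_lit 5) (nat_lit 424) (nat_lit 5) (nat_lit 425) (nat_lit 5) (nat_lit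 340) (nat_lit 321) (nat_lit 239)) (XT.lf (nat_lit 0) (nat_lit 3349084895) (nat_lit 1140) (nat_lit 5599434779) (nat_lit 1216) (nat_lit 1852359614) (nat_lit 386) (nat_lit 5) (nat_lit 401) (nat_lit 5) (nat_lit 402) (nat_lit 5) (nat_lit 341) (nat_lit 321) (nat_lit 238))) (XT.nd (nat_lit 78) (nat_lit 836) (nat_lit 0) (XT.lf (nat_lit 0) (nat_lit 460861994) (nat_lit 988) (nat_lit 9659245531) (nat_lit 76) (nat_lit 842731908) (nat_lit 373) (nat_lit 5) (nat_lit 386) (nat_lit 5) (nat_lit 374) (nat_lit 5) (nat_lit 342) (nat_lit 321) (nat_lit 237)) (XT.nd (nat_lit 78) (nat_lit 836) (nat_lit 0) (XT.lf (nat_lit 0) (nat_lit 2869142885) (nat_lit 988) (nat_lit 790391717) (nat_lit 76) (nat_lit 7468874949) (nat_lit 373) (nat_lit 5) (nat_lit 386) (nat_lit 5) (nat_lit 374) (nat_lit 5) (nat_lit 343) (nat_lit 321) (nat_lit 236)) (XT.lf (nat_lit 0) (nat_lit 5387671381) (nat_lit 912) (nat_lit 2897644157) (nat_lit 76) (nat_lit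 3012883515) (nat_lit 362) (nat_lit 5) (nat_lit 374) (nat_lit 5) (nat_lit 363) (nat_lit 5) (nat_lit 344) (nat_lit 321) (nat_lit 235))))) (XT.nd (nat_lit 156) (nat_lit 1672) (nat_lit 0) (XT.nd (nat_lit 78) (nat_lit 836) (nat_lit 0) (XT.lf (nat_lit 0) (nat_lit 6430524939) (nat_lit 836) (nat_lit 1587208325) (nat_lit 912) (nat_lit 3454641328) (nat_lit 351) (nat_lit 5) (nat_lit 362) (nat_lit 5) (nat_lit 363) (nat_lit 5) (nat_lit 345) (nat_lit 321) (nat_lit 234)) (XT.lf (nat_lit 0) (nat_lit 4415578245) (nat_lit 836) (nat_lit 6359227875) (nat_lit 912) (nat_lit 876018653) (nat_lit 340) (nat_lit 5) (nat_lit 351) (nat_lit 5) (nat_lit 352) (nat_lit 5) (nat_lit 346) (nat_lit 321) (nat_lit 233))) (XT.nd (nat_lit 78) (nat_lit 760) (nat_lit 0) (XT.lf (nat_lit 0) (nat_lit 1786516334) (nat_lit 912) (nat_lit 9471683110) (nat_lit 76) (nat_lit 575610922) (nat_lit 328) (nat_lit 5) (nat_lit 340) (nat_lit 5) (nat_lit 329)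 (nat_lit 5) (nat_lit 347) (nat_lit 321) (nat_lit 232)) (XT.nd (nat_lit 78) (nat_lit 0) (nat_lit 0) (XT.lf (nat_lit 0) (nat_lit 245099548) (nat_lit 760) (nat_lit 4331984370) (nat_lit 836) (nat_lit 7443895314) (nat_lit 318) (nat_lit 5) (nat_lit 328) (nat_lit 5) (nat_lit 329) (nat_lit 5) (nat_lit 348) (nat_lit 321) (nat_lit 231)) (XT.lf (nat_lit 0) (nat_lit 7501434455) (nat_lit 836) (nat_lit 1882716963) (nat_lit 76) (nat_lit 2828620797) (nat_lit 318) (nat_lit 5) (nat_lit 329) (nat_lit 5) (nat_lit 319) (nat_lit 5) (nat_lit 349) (nat_lit 321) (nat_lit 230)))))) (XT.nd (nat_lit 390) (nat_lit 3344) (nat_lit 0) (XT.nd (nat_lit 156) (nat_lit 1444) (nat_lit 0) (XT.nd (nat_lit 78) (nat_lit 760) (nat_lit 0) (XT.lf (nat_lit 0) (nat_lit 8354191411) (nat_lit 760) (nat_lit 2210753592) (nat_lit 836) (nat_lit 1844355463) (nat_lit 308) (nat_lit 5) (nat_lit 318) (nat_lit 5) (nat_lit 319) (nat_lit 5) (nat_lit 350) (nat_lit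 321) (nat_lit 229)) (XT.lf (nat_lit 0) (nat_lit 1150923334) (nat_lit 760) (nat_lit 6290095158) (nat_lit 76) (nat_lit 5169435156) (nat_lit 298) (nat_lit 5) (nat_lit 308) (nat_lit 5) (nat_lit 299) (nat_lit 5) (nat_lit 351) (nat_lit 321) (nat_lit 228))) (XT.nd (nat_lit 78) (nat_lit 684) (nat_lit 0) (XT.lf (nat_lit 0) (nat_lit 4240229087) (nat_lit 760) (nat_lit 10287594) (nat_lit 836) (nat_lit 8566099949) (nat_lit 288) (nat_lit 5) (nat_lit 298) (nat_lit 5) (nat_lit 299) (nat_lit 5) (nat_lit 352) (nat_lit 321) (nat_lit 227)) (XT.nd (nat_lit 78) (nat_lit 0) (nat_lit 0) (XT.lf (nat_lit 0) (nat_lit 2088301598) (nat_lit 684) (nat_lit 5430938813) (nat_lit 760) (nat_lit 5508210273) (nat_lit 279) (nat_lit 5) (nat_lit 288) (nat_lit 5) (nat_lit 289) (nat_lit 5) (nat_lit 353) (nat_lit 321) (nat_lit 226)) (XT.lf (nat_lit 0) (nat_lit 10929478360) (nat_lit 760) (nat_lit 101426207) (nat_lit 76) (nat_lit 2212844910)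 (nat_lit 279) (nat_lit 5) (nat_lit 289) (nat_lit 5) (nat_lit 280) (nat_lit 5) (nat_lit 354) (nat_lit 321) (nat_lit 225))))) (XT.nd (nat_lit 156) (nat_lit 1976) (nat_lit 0) (XT.nd (nat_lit 78) (nat_lit 608) (nat_lit 0) (XT.lf (nat_lit 0) (nat_lit 1043391717) (nat_lit 760) (nat_lit 2333287450) (nat_lit 76) (nat_lit 10088125762) (nat_lit 269) (nat_lit 5) (nat_lit 279) (nat_lit 5) (nat_lit 270) (nat_lit 5) (nat_lit 355) (nat_lit 321) (nat_lit 224)) (XT.lf (nat_lit 0) (nat_lit 4531875050) (nat_lit 684) (nat_lit 4639831090) (nat_lit 76) (nat_lit 4519257411) (nat_lit 261) (nat_lit 5) (nat_lit 270) (nat_lit 5) (nat_lit 262) (nat_lit 5) (nat_lit 356) (nat_lit 321) (nat_lit 223))) (XT.nd (nat_lit 78) (nat_lit 1292) (nat_lit 0) (XT.lf (nat_lit 0) (nat_lit 6920993353) (nat_lit 684) (nat_lit 1259998038) (nat_lit 760) (nat_lit 5741803840) (nat_lit 252) (nat_lit 5) (nat_lit 261) (nat_lit 5) (nat_lit 262) (nat_lit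 5) (nat_lit 357) (nat_lit 321) (nat_lit 222)) (XT.nd (nat_lit 78) (nat_lit 684) (nat_lit 0) (XT.lf (nat_lit 0) (nat_lit 4715602395) (nat_lit 608) (nat_lit 7304077432) (nat_lit 684) (nat_lit 2140307701) (nat_lit 244) (nat_lit 5) (nat_lit 252) (nat_lit 5) (nat_lit 253) (nat_lit 5) (nat_lit 358) (nat_lit 321) (nat_lit 221)) (XT.lf (nat_lit 0) (nat_lit 1599904315) (nat_lit 684) (nat_lit 11950801175) (nat_lit 76) (nat_lit 852368570) (nat_lit 235) (nat_lit 5) (nat_lit 244) (nat_lit 5) (nat_lit 236) (nat_lit 5) (nat_lit 359) (nat_lit 321) (nat_lit 220))))))) (XT.nd (nat_lit 780) (nat_lit 3952) (nat_lit 0) (XT.nd (nat_lit 390) (nat_lit 2052) (nat_lit 0) (XT.nd (nat_lit 156) (nat_lit 1748) (nat_lit 0) (XT.nd (nat_lit 78) (nat_lit 0) (nat_lit 0) (XT.lf (nat_lit 0) (nat_lit 88205612) (nat_lit 532) (nat_lit 5423070230) (nat_lit 608) (nat_lit 9140140825) (nat_lit 228) (nat_lit 5) (nat_lit 235) (nat_lit 5) (nat_lit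 236) (nat_lit 5) (nat_lit 360) (nat_lit 321) (nat_lit 219)) (XT.lf (nat_lit 0) (nat_lit 9615184644) (nat_lit 608) (nat_lit 2305554362) (nat_lit 76) (nat_lit 2984973477) (nat_lit 228) (nat_lit 5) (nat_lit 236) (nat_lit 5) (nat_lit 229) (nat_lit 5) (nat_lit 361) (nat_lit 321) (nat_lit 218))) (XT.nd (nat_lit 78) (nat_lit 1140) (nat_lit 0) (XT.lf (nat_lit 0) (nat_lit 10388499707) (nat_lit 608) (nat_lit 3532702708) (nat_lit 684) (nat_lit 1244861579) (nat_lit 220) (nat_lit 5) (nat_lit 228) (nat_lit 5) (nat_lit 229) (nat_lit 5) (nat_lit 362) (nat_lit 321) (nat_lit 217)) (XT.nd (nat_lit 78) (nat_lit 532) (nat_lit 0) (XT.lf (nat_lit 0) (nat_lit 2961601553) (nat_lit 608) (nat_lit 7349395716) (nat_lit 76) (nat_lit 5121300627) (nat_lit 212) (nat_lit 5) (nat_lit 220) (nat_lit 5) (nat_lit 213) (nat_lit 5) (nat_lit 363) (nat_lit 321) (nat_lit 216)) (XT.lf (nat_lit 0) (nat_lit 5700233539) (nat_lit 532) (nat_lit 1646528418)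 (nat_lit 608) (nat_lit 8358210113) (nat_lit 205) (nat_lit 5) (nat_lit 212) (nat_lit 5) (nat_lit 213) (nat_lit 5) (nat_lit 364) (nat_lit 321) (nat_lit 215))))) (XT.nd (nat_lit 156) (nat_lit 912) (nat_lit 0) (XT.nd (nat_lit 78) (nat_lit 608) (nat_lit 0) (XT.lf (nat_lit 0) (nat_lit 3220786660) (nat_lit 532) (nat_lit 8737534334) (nat_lit 608) (nat_lit 4025614568) (nat_lit 198) (nat_lit 5) (nat_lit 205) (nat_lit 5) (nat_lit 206) (nat_lit 5) (nat_lit 365) (nat_lit 321) (nat_lit 214)) (XT.lf (nat_lit 0) (nat_lit 492916050) (nat_lit 608) (nat_lit 15597339662) (nat_lit 76) (nat_lit 179727430) (nat_lit 190) (nat_lit 5) (nat_lit 198) (nat_lit 5) (nat_lit 191) (nat_lit 5) (nat_lit 366) (nat_lit 321) (nat_lit 213))) (XT.nd (nat_lit 78) (nat_lit 912) (nat_lit 0) (XT.lf (nat_lit 0) (nat_lit 5215415967) (nat_lit 608) (nat_lit 1993306438) (nat_lit 76) (nat_lit 9352900960) (nat_lit 190) (nat_lit 5) (nat_lit 198) (nat_lit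 5) (nat_lit 191) (nat_lit 5) (nat_lit 367) (nat_lit 321) (nat_lit 212)) (XT.nd (nat_lit 78) (nat_lit 456) (nat_lit 0) (XT.lf (nat_lit 0) (nat_lit 10149492239) (nat_lit 532) (nat_lit 4725586017) (nat_lit 76) (nat_lit 1985541869) (nat_lit 184) (nat_lit 5) (nat_lit 191) (nat_lit 5) (nat_lit 185) (nat_lit 5) (nat_lit 368) (nat_lit 321) (nat_lit 211)) (XT.lf (nat_lit 0) (nat_lit 9594002229) (nat_lit 456) (nat_lit 5740048305) (nat_lit 532) (nat_lit 1832492258) (nat_lit 178) (nat_lit 5) (nat_lit 184) (nat_lit 5) (nat_lit 185) (nat_lit 5) (nat_lit 369) (nat_lit 321) (nat_lit 210)))))) (XT.nd (nat_lit 390) (nat_lit 2052) (nat_lit 0) (XT.nd (nat_lit 156) (nat_lit 912) (nat_lit 0) (XT.nd (nat_lit 78) (nat_lit 456) (nat_lit 0) (XT.lf (nat_lit 0) (nat_lit 3231184179) (nat_lit 532) (nat_lit 10536752891) (nat_lit 76) (nat_lit 3711685424) (nat_lit 171) (nat_lit 5) (nat_lit 178) (nat_lit 5) (nat_lit 172) (nat_lit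 5) (nat_lit 370) (nat_lit 321) (nat_lit 209)) (XT.lf (nat_lit 0) (nat_lit 4170627840) (nat_lit 456) (nat_lit 4347546646) (nat_lit 532) (nat_lit 9281756651) (nat_lit 165) (nat_lit 5) (nat_lit 171) (nat_lit 5) (nat_lit 172) (nat_lit 5) (nat_lit 371) (nat_lit 321) (nat_lit 208))) (XT.nd (nat_lit 78) (nat_lit 532) (nat_lit 0) (XT.lf (nat_lit 0) (nat_lit 1287376423) (nat_lit 380) (nat_lit 12770808569) (nat_lit 456) (nat_lit 4069780503) (nat_lit 160) (nat_lit 5) (nat_lit 165) (nat_lit 5) (nat_lit 166) (nat_lit 5) (nat_lit 372) (nat_lit 321) (nat_lit 207)) (XT.nd (nat_lit 78) (nat_lit 456) (nat_lit 0) (XT.lf (nat_lit 0) (nat_lit 1383248327) (nat_lit 456) (nat_lit 1693094350) (nat_lit 76) (nat_lit 15387299542) (nat_lit 159) (nat_lit 5) (nat_lit 165) (nat_lit 5) (nat_lit 160) (nat_lit 5) (nat_lit 373) (nat_lit 321) (nat_lit 206)) (XT.lf (nat_lit 0) (nat_lit 7061891230) (nat_lit 532) (nat_lit 4815547253) (nat_lit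 76) (nat_lit 6929070737) (nat_lit 153) (nat_lit 5) (nat_lit 160) (nat_lit 5) (nat_lit 154) (nat_lit 5) (nat_lit 374) (nat_lit 321) (nat_lit 205))))) (XT.nd (nat_lit 234) (nat_lit 836) (nat_lit 0) (XT.nd (nat_lit 78) (nat_lit 836) (nat_lit 0) (XT.lf (nat_lit 0) (nat_lit 11106162590) (nat_lit 380) (nat_lit 1889574231) (nat_lit 456) (nat_lit 6162232730) (nat_lit 148) (nat_lit 5) (nat_lit 153) (nat_lit 5) (nat_lit 154) (nat_lit 5) (nat_lit 375) (nat_lit 321) (nat_lit 204)) (XT.nd (nat_lit 78) (nat_lit 456) (nat_lit 0) (XT.lf (nat_lit 0) (nat_lit 8075284600) (nat_lit 380) (nat_lit 11153057686) (nat_lit 456) (nat_lit 289220579) (nat_lit 143) (nat_lit 5) (nat_lit 148) (nat_lit 5) (nat_lit 149) (nat_lit 5) (nat_lit 376) (nat_lit 321) (nat_lit 203)) (XT.lf (nat_lit 0) (nat_lit 4895559951) (nat_lit 380) (nat_lit 869413695) (nat_lit 456) (nat_lit 14120615550) (nat_lit 137) (nat_lit 5) (nat_lit 142) (nat_lit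 5) (nat_lit 143) (nat_lit 5) (nat_lit 377) (nat_lit 321) (nat_lit 202)))) (XT.nd (nat_lit 78) (nat_lit 456) (nat_lit 0) (XT.lf (nat_lit 0) (nat_lit 1544062966) (nat_lit 380) (nat_lit 10585528059) (nat_lit 456) (nat_lit 8132376278) (nat_lit 132) (nat_lit 5) (nat_lit 137) (nat_lit 5) (nat_lit 138) (nat_lit 5) (nat_lit 378) (nat_lit 321) (nat_lit 201)) (XT.nd (nat_lit 78) (nat_lit 456) (nat_lit 0) (XT.lf (nat_lit 0) (nat_lit 18746256215) (nat_lit 380) (nat_lit 28108604) (nat_lit 456) (nat_lit 1873491224) (nat_lit 132) (nat_lit 5) (nat_lit 137) (nat_lit 5) (nat_lit 138) (nat_lit 5) (nat_lit 379) (nat_lit 321) (nat_lit 200)) (XT.lf (nat_lit 0) (nat_lit 4667754410) (nat_lit 456) (nat_lit 5547288474) (nat_lit 76) (nat_lit 10826596754) (nat_lit 126) (nat_lit 5) (nat_lit 132) (nat_lit 5) (nat_lit 127) (nat_lit 5) (nat_lit 380) (nat_lit 321) (nat_lit 199))))))))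
noncomputable def xc87 : XT := (XT.nd (nat_lit 43524) (nat_lit 0) (nat_lit 11020) (XT.nd (nat_lit 42666) (nat_lit 0) (nat_lit 25688) (XT.nd (nat_lit 42276) (nat_lit 0) (nat_lit 29868) (XT.nd (nat_lit 156) (nat_lit 760) (nat_lit 0) (XT.nd (nat_lit 78) (nat_lit 304) (nat_lit 0) (XT.lf (nat_lit 0) (nat_lit 11458542878) (nat_lit 456) (nat_lit 9339024769) (nat_lit 76) (nat_lit 647849610) (nat_lit 121) (nat_lit 5) (nat_lit 127) (nat_lit 5) (nat_lit 122) (nat_lit 5) (nat_lit 381) (nat_lit 321) (nat_lit 198)) (XT.lf (nat_lit 0) (nat_lit 8521884136) (nat_lit 304) (nat_lit 10075493837) (nat_lit 380) (nat_lit 3261047045) (nat_lit 117) (nat_lit 5) (nat_lit 121) (nat_lit 5) (nat_lit 122) (nat_lit 5) (nat_lit 382) (nat_lit 321) (nat_lit 197))) (XT.nd (nat_lit 78) (nat_lit 304) (nat_lit 0) (XT.lf (nat_lit 0) (nat_lit 3703250353) (nat_lit 456) (nat_lit 17512674279) (nat_lit 76) (nat_lit 1065729724) (nat_lit 111)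 (nat_lit 5) (nat_lit 117) (nat_lit 5) (nat_lit 112) (nat_lit 5) (nat_lit 383) (nat_lit 321) (nat_lit 196)) (XT.nd (nat_lit 78) (nat_lit 0) (nat_lit 0) (XT.lf (nat_lit 0) (nat_lit 778843438) (nat_lit 304) (nat_lit 10200313288) (nat_lit 380) (nat_lit 11735056063) (nat_lit 107) (nat_lit 5) (nat_lit 111) (nat_lit 5) (nat_lit 112) (nat_lit 5) (nat_lit 384) (nat_lit 321) (nat_lit 195)) (XT.lf (nat_lit 0) (nat_lit 18583821180) (nat_lit 380) (nat_lit 3332655820) (nat_lit 76) (nat_lit 1241064292) (nat_lit 107) (nat_lit 5) (nat_lit 112) (nat_lit 5) (nat_lit 108) (nat_lit 5) (nat_lit 385) (nat_lit 321) (nat_lit 194))))) (XT.nd (nat_lit 156) (nat_lit 0) (nat_lit 0) (XT.nd (nat_lit 78) (nat_lit 0) (nat_lit 0) (XT.lf (nat_lit 0) (nat_lit 561947096) (nat_lit 0) (nat_lit 561947096) (nat_lit 1444) (nat_lit 3134372916) (nat_lit 500) (nat_lit 5) (nat_lit 500) (nat_lit 3) (nat_lit 519) (nat_lit 3) (nat_lit 322) (nat_lit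 322) (nat_lit 256)) (XT.lf (nat_lit 0) (nat_lit 3819938022) (nat_lit 1444) (nat_lit 1281371265) (nat_lit 1520) (nat_lit 3511607943) (nat_lit 500) (nat_lit 5) (nat_lit 519) (nat_lit 3) (nat_lit 520) (nat_lit 5) (nat_lit 323) (nat_lit 322) (nat_lit 255))) (XT.nd (nat_lit 78) (nat_lit 0) (nat_lit 76) (XT.lf (nat_lit 76) (nat_lit 5040863826) (nat_lit 0) (nat_lit 379685816) (nat_lit 1520) (nat_lit 3292039411) (nat_lit 501) (nat_lit 5) (nat_lit 500) (nat_lit 5) (nat_lit 520) (nat_lit 5) (nat_lit 324) (nat_lit 322) (nat_lit 254)) (XT.nd (nat_lit 78) (nat_lit 0) (nat_lit 76) (XT.lf (nat_lit 76) (nat_lit 2730054046) (nat_lit 0) (nat_lit 4337448838) (nat_lit 1520) (nat_lit 1747804279) (nat_lit 502) (nat_lit 5) (nat_lit 501) (nat_lit 5) (nat_lit 521) (nat_lit 5) (nat_lit 325) (nat_lit 322) (nat_lit 253)) (XT.lf (nat_lit 76) (nat_lit 420165017) (nat_lit 0) (nat_lit 8321969065) (nat_lit 1520) (nat_lit 179429282)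 (nat_lit 503) (nat_lit 5) (nat_lit 502) (nat_lit 5) (nat_lit 522) (nat_lit 5) (nat_lit 326) (nat_lit 322) (nat_lit 252)))))) (XT.nd (nat_lit 390) (nat_lit 2812) (nat_lit 0) (XT.nd (nat_lit 156) (nat_lit 0) (nat_lit 76) (XT.nd (nat_lit 78) (nat_lit 0) (nat_lit 76) (XT.lf (nat_lit 0) (nat_lit 1433081207) (nat_lit 1520) (nat_lit 1897553625) (nat_lit 1596) (nat_lit 5699888482) (nat_lit 482) (nat_lit 5) (nat_lit 502) (nat_lit 5) (nat_lit 503) (nat_lit 5) (nat_lit 327) (nat_lit 322) (nat_lit 251)) (XT.lf (nat_lit 0) (nat_lit 3082696339) (nat_lit 1520) (nat_lit 4219189483) (nat_lit 1596) (nat_lit 1841039451) (nat_lit 483) (nat_lit 5) (nat_lit 503) (nat_lit 5) (nat_lit 504) (nat_lit 5) (nat_lit 328) (nat_lit 322) (nat_lit 250))) (XT.nd (nat_lit 78) (nat_lit 0) (nat_lit 76) (XT.lf (nat_lit 76) (nat_lit 2697695647) (nat_lit 0) (nat_lit 2085301646) (nat_lit 1596) (nat_lit 4475697732) (nat_lit 484) (nat_lit 5)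 (nat_lit 483) (nat_lit 5) (nat_lit 504) (nat_lit 5) (nat_lit 329) (nat_lit 322) (nat_lit 249)) (XT.nd (nat_lit 78) (nat_lit 0) (nat_lit 0) (XT.lf (nat_lit 76) (nat_lit 453752372) (nat_lit 0) (nat_lit 6083504203) (nat_lit 1596) (nat_lit 2840641417) (nat_lit 485) (nat_lit 5) (nat_lit 484) (nat_lit 5) (nat_lit 505) (nat_lit 5) (nat_lit 330) (nat_lit 322) (nat_lit 248)) (XT.lf (nat_lit 76) (nat_lit 7722024533) (nat_lit 0) (nat_lit 631557224) (nat_lit 1596) (nat_lit 1146925084) (nat_lit 485) (nat_lit 5) (nat_lit 484) (nat_lit 5) (nat_lit 505) (nat_lit 5) (nat_lit 331) (nat_lit 322) (nat_lit 247))))) (XT.nd (nat_lit 234) (nat_lit 1444) (nat_lit 0) (XT.nd (nat_lit 78) (nat_lit 0) (nat_lit 76) (XT.lf (nat_lit 0) (nat_lit 611191311) (nat_lit 1596) (nat_lit 4040623692) (nat_lit 1672) (nat_lit 4974490484) (nat_lit 464) (nat_lit 5) (nat_lit 485) (nat_lit 5) (nat_lit 486) (nat_lit 5) (nat_lit 332) (nat_lit 322)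 (nat_lit 246)) (XT.nd (nat_lit 78) (nat_lit 0) (nat_lit 0) (XT.lf (nat_lit 0) (nat_lit 2405503571) (nat_lit 1596) (nat_lit 6322863078) (nat_lit 1672) (nat_lit 1027396273) (nat_lit 465) (nat_lit 5) (nat_lit 486) (nat_lit 5) (nat_lit 487) (nat_lit 5) (nat_lit 333) (nat_lit 322) (nat_lit 245)) (XT.lf (nat_lit 76) (nat_lit 1249174396) (nat_lit 0) (nat_lit 3025979762) (nat_lit 1672) (nat_lit 5613536389) (nat_lit 466) (nat_lit 5) (nat_lit 465) (nat_lit 5) (nat_lit 487) (nat_lit 5) (nat_lit 334) (nat_lit 322) (nat_lit 244)))) (XT.nd (nat_lit 78) (nat_lit 1596) (nat_lit 0) (XT.lf (nat_lit 0) (nat_lit 6218419288) (nat_lit 1596) (nat_lit 942332486) (nat_lit 1672) (nat_lit 2864519887) (nat_lit 466) (nat_lit 5) (nat_lit 487) (nat_lit 5) (nat_lit 488) (nat_lit 5) (nat_lit 335) (nat_lit 322) (nat_lit 243)) (XT.nd (nat_lit 78) (nat_lit 1596) (nat_lit 0) (XT.lf (nat_lit 76) (nat_lit 7024912862) (nat_lit 0) (nat_lit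 1218108047) (nat_lit 1672) (nat_lit 1922484219) (nat_lit 467) (nat_lit 5) (nat_lit 466) (nat_lit 5) (nat_lit 488) (nat_lit 5) (nat_lit 336) (nat_lit 322) (nat_lit 242)) (XT.lf (nat_lit 0) (nat_lit 46934171) (nat_lit 1672) (nat_lit 5375738310) (nat_lit 1748) (nat_lit 4886710445) (nat_lit 445) (nat_lit 5) (nat_lit 467) (nat_lit 5) (nat_lit 468) (nat_lit 5) (nat_lit 337) (nat_lit 322) (nat_lit 241))))))) (XT.nd (nat_lit 780) (nat_lit 6612) (nat_lit 0) (XT.nd (nat_lit 390) (nat_lit 3496) (nat_lit 0) (XT.nd (nat_lit 156) (nat_lit 2964) (nat_lit 0) (XT.nd (nat_lit 78) (nat_lit 1672) (nat_lit 0) (XT.lf (nat_lit 0) (nat_lit 2061293820) (nat_lit 1672) (nat_lit 7643530481) (nat_lit 76) (nat_lit 752273551) (nat_lit 446) (nat_lit 5) (nat_lit 468) (nat_lit 5) (nat_lit 447) (nat_lit 5) (nat_lit 338) (nat_lit 322) (nat_lit 240)) (XT.lf (nat_lit 0) (nat_lit 652190966) (nat_lit 1672) (nat_lit 3521101338) (nat_lit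 1748) (nat_lit 6435221838) (nat_lit 424) (nat_lit 5) (nat_lit 446) (nat_lit 5) (nat_lit 447) (nat_lit 5) (nat_lit 339) (nat_lit 322) (nat_lit 239))) (XT.nd (nat_lit 78) (nat_lit 2964) (nat_lit 0) (XT.lf (nat_lit 0) (nat_lit 6380310994) (nat_lit 1748) (nat_lit 1514630326) (nat_lit 76) (nat_lit 2868912060) (nat_lit 424) (nat_lit 5) (nat_lit 447) (nat_lit 5) (nat_lit 425) (nat_lit 5) (nat_lit 340) (nat_lit 322) (nat_lit 238)) (XT.nd (nat_lit 78) (nat_lit 1216) (nat_lit 0) (XT.lf (nat_lit 0) (nat_lit 7218655415) (nat_lit 1748) (nat_lit 1467465626) (nat_lit 1824) (nat_lit 2237093410) (nat_lit 401) (nat_lit 5) (nat_lit 424) (nat_lit 5) (nat_lit 425) (nat_lit 5) (nat_lit 341) (nat_lit 322) (nat_lit 237)) (XT.lf (nat_lit 0) (nat_lit 14650456) (nat_lit 1216) (nat_lit 5938173653) (nat_lit 76) (nat_lit 5133737139) (nat_lit 385) (nat_lit 5) (nat_lit 401) (nat_lit 5) (nat_lit 386) (nat_lit 5) (nat_lit 342) (nat_lit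 322) (nat_lit 236))))) (XT.nd (nat_lit 156) (nat_lit 1748) (nat_lit 0) (XT.nd (nat_lit 78) (nat_lit 836) (nat_lit 0) (XT.lf (nat_lit 0) (nat_lit 2326977850) (nat_lit 988) (nat_lit 8213513921) (nat_lit 76) (nat_lit 713564706) (nat_lit 373) (nat_lit 5) (nat_lit 386) (nat_lit 5) (nat_lit 374) (nat_lit 5) (nat_lit 343) (nat_lit 322) (nat_lit 235)) (XT.lf (nat_lit 0) (nat_lit 882429928) (nat_lit 836) (nat_lit 3876856365) (nat_lit 912) (nat_lit 6666289950) (nat_lit 362) (nat_lit 5) (nat_lit 373) (nat_lit 5) (nat_lit 374) (nat_lit 5) (nat_lit 344) (nat_lit 322) (nat_lit 234))) (XT.nd (nat_lit 78) (nat_lit 1748) (nat_lit 0) (XT.lf (nat_lit 0) (nat_lit 7305381466) (nat_lit 912) (nat_lit 1290585286) (nat_lit 76) (nat_lit 3005470059) (nat_lit 362) (nat_lit 5) (nat_lit 374) (nat_lit 5) (nat_lit 363) (nat_lit 5) (nat_lit 345) (nat_lit 322) (nat_lit 233)) (XT.nd (nat_lit 78) (nat_lit 912) (nat_lit 0) (XT.lf (nat_lit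 0) (nat_lit 8289945936) (nat_lit 836) (nat_lit 1684071368) (nat_lit 912) (nat_lit 1807643958) (nat_lit 351) (nat_lit 5) (nat_lit 362) (nat_lit 5) (nat_lit 363) (nat_lit 5) (nat_lit 346) (nat_lit 322) (nat_lit 232)) (XT.lf (nat_lit 0) (nat_lit 797519492) (nat_lit 912) (nat_lit 5749369727) (nat_lit 76) (nat_lit 5419275670) (nat_lit 339) (nat_lit 5) (nat_lit 351) (nat_lit 5) (nat_lit 340) (nat_lit 5) (nat_lit 347) (nat_lit 322) (nat_lit 231)))))) (XT.nd (nat_lit 390) (nat_lit 3496) (nat_lit 0) (XT.nd (nat_lit 156) (nat_lit 1520) (nat_lit 0) (XT.nd (nat_lit 78) (nat_lit 760) (nat_lit 0) (XT.lf (nat_lit 0) (nat_lit 3489900977) (nat_lit 912) (nat_lit 8052900352) (nat_lit 76) (nat_lit 612501256) (nat_lit 328) (nat_lit 5) (nat_lit 340) (nat_lit 5) (nat_lit 329) (nat_lit 5) (nat_lit 348) (nat_lit 322) (nat_lit 230)) (XT.lf (nat_lit 0) (nat_lit 1927757716) (nat_lit 760) (nat_lit 4399252953) (nat_lit 836) (nat_lit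 6021834676) (nat_lit 318) (nat_lit 5) (nat_lit 328) (nat_lit 5) (nat_lit 329) (nat_lit 5) (nat_lit 349) (nat_lit 322) (nat_lit 229))) (XT.nd (nat_lit 78) (nat_lit 1520) (nat_lit 0) (XT.lf (nat_lit 0) (nat_lit 9292517552) (nat_lit 836) (nat_lit 281274769) (nat_lit 76) (nat_lit 2973546164) (nat_lit 318) (nat_lit 5) (nat_lit 329) (nat_lit 5) (nat_lit 319) (nat_lit 5) (nat_lit 350) (nat_lit 322) (nat_lit 228)) (XT.nd (nat_lit 78) (nat_lit 760) (nat_lit 0) (XT.lf (nat_lit 0) (nat_lit 10235843014) (nat_lit 760) (nat_lit 2177067286) (nat_lit 836) (nat_lit 337567194) (nat_lit 308) (nat_lit 5) (nat_lit 318) (nat_lit 5) (nat_lit 319) (nat_lit 5) (nat_lit 351) (nat_lit 322) (nat_lit 227)) (XT.lf (nat_lit 0) (nat_lit 2693497885) (nat_lit 760) (nat_lit 4823775407) (nat_lit 76) (nat_lit 5440874580) (nat_lit 298) (nat_lit 5) (nat_lit 308) (nat_lit 5) (nat_lit 299) (nat_lit 5) (nat_lit 352) (nat_lit 322) (nat_lit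 226))))) (XT.nd (nat_lit 234) (nat_lit 1368) (nat_lit 0) (XT.nd (nat_lit 78) (nat_lit 1368) (nat_lit 0) (XT.lf (nat_lit 0) (nat_lit 5853654189) (nat_lit 836) (nat_lit 7176496037) (nat_lit 76) (nat_lit 141007367) (nat_lit 288) (nat_lit 5) (nat_lit 299) (nat_lit 5) (nat_lit 289) (nat_lit 5) (nat_lit 353) (nat_lit 322) (nat_lit 225)) (XT.nd (nat_lit 78) (nat_lit 684) (nat_lit 0) (XT.lf (nat_lit 0) (nat_lit 3781180270) (nat_lit 684) (nat_lit 5406931405) (nat_lit 760) (nat_lit 4200864516) (nat_lit 279) (nat_lit 5) (nat_lit 288) (nat_lit 5) (nat_lit 289) (nat_lit 5) (nat_lit 354) (nat_lit 322) (nat_lit 224)) (XT.lf (nat_lit 0) (nat_lit 1525552422) (nat_lit 684) (nat_lit 11144149906) (nat_lit 760) (nat_lit 942693295) (nat_lit 270) (nat_lit 5) (nat_lit 279) (nat_lit 5) (nat_lit 280) (nat_lit 5) (nat_lit 355) (nat_lit 322) (nat_lit 223)))) (XT.nd (nat_lit 78) (nat_lit 1292) (nat_lit 0) (XT.lf (nat_lit 0) (nat_lit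 2456051479) (nat_lit 760) (nat_lit 800636248) (nat_lit 76) (nat_lit 10584034849) (nat_lit 269) (nat_lit 5) (nat_lit 279) (nat_lit 5) (nat_lit 270) (nat_lit 5) (nat_lit 356) (nat_lit 322) (nat_lit 222)) (XT.nd (nat_lit 78) (nat_lit 684) (nat_lit 0) (XT.lf (nat_lit 0) (nat_lit 6020654952) (nat_lit 684) (nat_lit 3176425078) (nat_lit 76) (nat_lit 4877168248) (nat_lit 261) (nat_lit 5) (nat_lit 270) (nat_lit 5) (nat_lit 262) (nat_lit 5) (nat_lit 357) (nat_lit 322) (nat_lit 221)) (XT.lf (nat_lit 0) (nat_lit 8705223803) (nat_lit 684) (nat_lit 1044854687) (nat_lit 760) (nat_lit 4563551036) (nat_lit 252) (nat_lit 5) (nat_lit 261) (nat_lit 5) (nat_lit 262) (nat_lit 5) (nat_lit 358) (nat_lit 322) (nat_lit 220))))))))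
noncomputable def xc88 : XT := (XT.nd (nat_lit 1560) (nat_lit 2280) (nat_lit 0) (XT.nd (nat_lit 780) (nat_lit 4028) (nat_lit 0) (XT.nd (nat_lit 390) (nat_lit 2280) (nat_lit 0) (XT.nd (nat_lit 156) (nat_lit 1140) (nat_lit 0) (XT.nd (nat_lit 78) (nat_lit 684) (nat_lit 0) (XT.lf (nat_lit 0) (nat_lit 6432890972) (nat_lit 608) (nat_lit 7244309194) (nat_lit 684) (nat_lit 881282938) (nat_lit 244) (nat_lit 5) (nat_lit 252) (nat_lit 5) (nat_lit 253) (nat_lit 5) (nat_lit 359) (nat_lit 322) (nat_lit 219)) (XT.lf (nat_lit 0) (nat_lit 2927804728) (nat_lit 684) (nat_lit 10717617495) (nat_lit 76) (nat_lit 1163798142) (nat_lit 235) (nat_lit 5) (nat_lit 244) (nat_lit 5) (nat_lit 236) (nat_lit 5) (nat_lit 360) (nat_lit 322) (nat_lit 218))) (XT.nd (nat_lit 78) (nat_lit 608) (nat_lit 0) (XT.lf (nat_lit 0) (nat_lit 1656735929) (nat_lit 532) (nat_lit 5272669494) (nat_lit 608) (nat_lit 8136160198) (nat_lit 228) (nat_lit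 5) (nat_lit 235) (nat_lit 5) (nat_lit 236) (nat_lit 5) (nat_lit 361) (nat_lit 322) (nat_lit 217)) (XT.nd (nat_lit 78) (nat_lit 608) (nat_lit 0) (XT.lf (nat_lit 0) (nat_lit 11121916021) (nat_lit 608) (nat_lit 831764792) (nat_lit 76) (nat_lit 3374509646) (nat_lit 228) (nat_lit 5) (nat_lit 236) (nat_lit 5) (nat_lit 229) (nat_lit 5) (nat_lit 362) (nat_lit 322) (nat_lit 216)) (XT.lf (nat_lit 0) (nat_lit 12218078269) (nat_lit 608) (nat_lit 3313407661) (nat_lit 684) (nat_lit 65388704) (nat_lit 220) (nat_lit 5) (nat_lit 228) (nat_lit 5) (nat_lit 229) (nat_lit 5) (nat_lit 363) (nat_lit 322) (nat_lit 215))))) (XT.nd (nat_lit 156) (nat_lit 1140) (nat_lit 0) (XT.nd (nat_lit 78) (nat_lit 532) (nat_lit 0) (XT.lf (nat_lit 0) (nat_lit 4228298516) (nat_lit 608) (nat_lit 6038923045) (nat_lit 76) (nat_lit 5604185293) (nat_lit 212) (nat_lit 5) (nat_lit 220) (nat_lit 5) (nat_lit 213) (nat_lit 5) (nat_lit 364) (nat_lit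 322) (nat_lit 214)) (XT.lf (nat_lit 0) (nat_lit 7377357170) (nat_lit 532) (nat_lit 1343128992) (nat_lit 608) (nat_lit 7432274468) (nat_lit 205) (nat_lit 5) (nat_lit 212) (nat_lit 5) (nat_lit 213) (nat_lit 5) (nat_lit 365) (nat_lit 322) (nat_lit 213))) (XT.nd (nat_lit 78) (nat_lit 608) (nat_lit 0) (XT.lf (nat_lit 0) (nat_lit 4819820117) (nat_lit 532) (nat_lit 8628958475) (nat_lit 608) (nat_lit 2991755271) (nat_lit 198) (nat_lit 5) (nat_lit 205) (nat_lit 5) (nat_lit 206) (nat_lit 5) (nat_lit 366) (nat_lit 322) (nat_lit 212)) (XT.nd (nat_lit 78) (nat_lit 0) (nat_lit 0) (XT.lf (nat_lit 0) (nat_lit 1626143286) (nat_lit 608) (nat_lit 14551909356) (nat_lit 76) (nat_lit 557389347) (nat_lit 190) (nat_lit 5) (nat_lit 198) (nat_lit 5) (nat_lit 191) (nat_lit 5) (nat_lit 367) (nat_lit 322) (nat_lit 211)) (XT.lf (nat_lit 0) (nat_lit 6457742286) (nat_lit 608) (nat_lit 583833305) (nat_lit 76) (nat_lit 9994915265)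 (nat_lit 190) (nat_lit 5) (nat_lit 198) (nat_lit 5) (nat_lit 191) (nat_lit 5) (nat_lit 368) (nat_lit 322) (nat_lit 210)))))) (XT.nd (nat_lit 390) (nat_lit 1748) (nat_lit 0) (XT.nd (nat_lit 156) (nat_lit 1368) (nat_lit 0) (XT.nd (nat_lit 78) (nat_lit 456) (nat_lit 0) (XT.lf (nat_lit 0) (nat_lit 11520077455) (nat_lit 532) (nat_lit 3402868781) (nat_lit 76) (nat_lit 2421914238) (nat_lit 184) (nat_lit 5) (nat_lit 191) (nat_lit 5) (nat_lit 185) (nat_lit 5) (nat_lit 369) (nat_lit 322) (nat_lit 209)) (XT.lf (nat_lit 0) (nat_lit 11322547586) (nat_lit 456) (nat_lit 5515927588) (nat_lit 532) (nat_lit 821927057) (nat_lit 178) (nat_lit 5) (nat_lit 184) (nat_lit 5) (nat_lit 185) (nat_lit 5) (nat_lit 370) (nat_lit 322) (nat_lit 208))) (XT.nd (nat_lit 78) (nat_lit 836) (nat_lit 0) (XT.lf (nat_lit 0) (nat_lit 4360954280) (nat_lit 532) (nat_lit 9403279129) (nat_lit 76) (nat_lit 4218884267) (nat_lit 171) (nat_lit 5)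 (nat_lit 178) (nat_lit 5) (nat_lit 172) (nat_lit 5) (nat_lit 371) (nat_lit 322) (nat_lit 207)) (XT.nd (nat_lit 78) (nat_lit 380) (nat_lit 0) (XT.lf (nat_lit 0) (nat_lit 5721805369) (nat_lit 456) (nat_lit 4063925285) (nat_lit 532) (nat_lit 8527728294) (nat_lit 165) (nat_lit 5) (nat_lit 171) (nat_lit 5) (nat_lit 172) (nat_lit 5) (nat_lit 372) (nat_lit 322) (nat_lit 206)) (XT.lf (nat_lit 0) (nat_lit 2746413662) (nat_lit 380) (nat_lit 12727884024) (nat_lit 456) (nat_lit 3177396224) (nat_lit 160) (nat_lit 5) (nat_lit 165) (nat_lit 5) (nat_lit 166) (nat_lit 5) (nat_lit 373) (nat_lit 322) (nat_lit 205))))) (XT.nd (nat_lit 156) (nat_lit 1216) (nat_lit 0) (XT.nd (nat_lit 78) (nat_lit 456) (nat_lit 0) (XT.lf (nat_lit 0) (nat_lit 2396758045) (nat_lit 456) (nat_lit 351712584) (nat_lit 76) (nat_lit 16249428154) (nat_lit 159) (nat_lit 5) (nat_lit 165) (nat_lit 5) (nat_lit 160) (nat_lit 5) (nat_lit 374) (nat_lit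 322) (nat_lit 204)) (XT.lf (nat_lit 0) (nat_lit 8229048880) (nat_lit 532) (nat_lit 3573874720) (nat_lit 76) (nat_lit 7548468610) (nat_lit 153) (nat_lit 5) (nat_lit 160) (nat_lit 5) (nat_lit 154) (nat_lit 5) (nat_lit 375) (nat_lit 322) (nat_lit 203))) (XT.nd (nat_lit 78) (nat_lit 836) (nat_lit 0) (XT.lf (nat_lit 0) (nat_lit 12802997961) (nat_lit 380) (nat_lit 1518941302) (nat_lit 456) (nat_lit 5391842506) (nat_lit 148) (nat_lit 5) (nat_lit 153) (nat_lit 5) (nat_lit 154) (nat_lit 5) (nat_lit 376) (nat_lit 322) (nat_lit 202)) (XT.nd (nat_lit 78) (nat_lit 380) (nat_lit 0) (XT.lf (nat_lit 0) (nat_lit 632863586) (nat_lit 456) (nat_lit 10413687200) (nat_lit 76) (nat_lit 9037849955) (nat_lit 142) (nat_lit 5) (nat_lit 148) (nat_lit 5) (nat_lit 143) (nat_lit 5) (nat_lit 377) (nat_lit 322) (nat_lit 201)) (XT.lf (nat_lit 0) (nat_lit 6390126607) (nat_lit 380) (nat_lit 456404477) (nat_lit 456) (nat_lit 13617268559)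 (nat_lit 137) (nat_lit 5) (nat_lit 142) (nat_lit 5) (nat_lit 143) (nat_lit 5) (nat_lit 378) (nat_lit 322) (nat_lit 200))))))) (XT.nd (nat_lit 42744) (nat_lit 0) (nat_lit 27056) (XT.nd (nat_lit 390) (nat_lit 760) (nat_lit 0) (XT.nd (nat_lit 156) (nat_lit 1140) (nat_lit 0) (XT.nd (nat_lit 78) (nat_lit 0) (nat_lit 0) (XT.lf (nat_lit 0) (nat_lit 2931474666) (nat_lit 380) (nat_lit 10455623084) (nat_lit 456) (nat_lit 7464676518) (nat_lit 132) (nat_lit 5) (nat_lit 137) (nat_lit 5) (nat_lit 138) (nat_lit 5) (nat_lit 379) (nat_lit 322) (nat_lit 199)) (XT.lf (nat_lit 0) (nat_lit 20207819703) (nat_lit 456) (nat_lit 641725298) (nat_lit 76) (nat_lit 400167804) (nat_lit 132) (nat_lit 5) (nat_lit 138) (nat_lit 5) (nat_lit 133) (nat_lit 5) (nat_lit 380) (nat_lit 322) (nat_lit 198))) (XT.nd (nat_lit 78) (nat_lit 684) (nat_lit 0) (XT.lf (nat_lit 0) (nat_lit 5667076829) (nat_lit 456) (nat_lit 4406749483) (nat_lit 76)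 (nat_lit 11581710680) (nat_lit 126) (nat_lit 5) (nat_lit 132) (nat_lit 5) (nat_lit 127) (nat_lit 5) (nat_lit 381) (nat_lit 322) (nat_lit 197)) (XT.nd (nat_lit 78) (nat_lit 304) (nat_lit 0) (XT.lf (nat_lit 0) (nat_lit 12647786245) (nat_lit 456) (nat_lit 8319305486) (nat_lit 76) (nat_lit 1104617101) (nat_lit 121) (nat_lit 5) (nat_lit 127) (nat_lit 5) (nat_lit 122) (nat_lit 5) (nat_lit 382) (nat_lit 322) (nat_lit 196)) (XT.lf (nat_lit 0) (nat_lit 10056341516) (nat_lit 304) (nat_lit 9928121863) (nat_lit 380) (nat_lit 2512974601) (nat_lit 117) (nat_lit 5) (nat_lit 121) (nat_lit 5) (nat_lit 122) (nat_lit 5) (nat_lit 383) (nat_lit 322) (nat_lit 195))))) (XT.nd (nat_lit 42120) (nat_lit 0) (nat_lit 29868) (XT.nd (nat_lit 78) (nat_lit 304) (nat_lit 0) (XT.lf (nat_lit 0) (nat_lit 4636006848) (nat_lit 456) (nat_lit 16755336063) (nat_lit 76) (nat_lit 1542178927) (nat_lit 111) (nat_lit 5) (nat_lit 117) (nat_lit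 5) (nat_lit 112) (nat_lit 5) (nat_lit 384) (nat_lit 322) (nat_lit 194)) (XT.lf (nat_lit 0) (nat_lit 2064116603) (nat_lit 304) (nat_lit 10050335137) (nat_lit 380) (nat_lit 11264924396) (nat_lit 107) (nat_lit 5) (nat_lit 111) (nat_lit 5) (nat_lit 112) (nat_lit 5) (nat_lit 385) (nat_lit 322) (nat_lit 193))) (XT.nd (nat_lit 78) (nat_lit 0) (nat_lit 0) (XT.lf (nat_lit 0) (nat_lit 1329187432) (nat_lit 0) (nat_lit 1329187432) (nat_lit 1444) (nat_lit 1697034368) (nat_lit 500) (nat_lit 5) (nat_lit 500) (nat_lit 3) (nat_lit 519) (nat_lit 3) (nat_lit 323) (nat_lit 323) (nat_lit 254)) (XT.nd (nat_lit 78) (nat_lit 0) (nat_lit 0) (XT.lf (nat_lit 76) (nat_lit 208868283) (nat_lit 0) (nat_lit 6631668392) (nat_lit 1520) (nat_lit 1971501235) (nat_lit 501) (nat_lit 5) (nat_lit 500) (nat_lit 5) (nat_lit 520) (nat_lit 5) (nat_lit 324) (nat_lit 323) (nat_lit 253)) (XT.lf (nat_lit 76) (nat_lit 6693274498) (nat_lit 0) (nat_lit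 1719681430) (nat_lit 1520) (nat_lit 503301579) (nat_lit 501) (nat_lit 5) (nat_lit 500) (nat_lit 5) (nat_lit 520) (nat_lit 5) (nat_lit 325) (nat_lit 323) (nat_lit 252)))))) (XT.nd (nat_lit 390) (nat_lit 1368) (nat_lit 0) (XT.nd (nat_lit 156) (nat_lit 0) (nat_lit 76) (XT.nd (nat_lit 78) (nat_lit 0) (nat_lit 0) (XT.lf (nat_lit 0) (nat_lit 991650258) (nat_lit 1520) (nat_lit 4676184602) (nat_lit 1596) (nat_lit 3355739922) (nat_lit 481) (nat_lit 5) (nat_lit 501) (nat_lit 5) (nat_lit 502) (nat_lit 5) (nat_lit 326) (nat_lit 323) (nat_lit 251)) (XT.lf (nat_lit 76) (nat_lit 1992435292) (nat_lit 0) (nat_lit 518861578) (nat_lit 1596) (nat_lit 6623034762) (nat_lit 482) (nat_lit 5) (nat_lit 481) (nat_lit 5) (nat_lit 502) (nat_lit 5) (nat_lit 327) (nat_lit 323) (nat_lit 250))) (XT.nd (nat_lit 78) (nat_lit 0) (nat_lit 76) (XT.lf (nat_lit 0) (nat_lit 4088031307) (nat_lit 1520) (nat_lit 384856128) (nat_lit 1596) (nat_lit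 4775313464) (nat_lit 482) (nat_lit 5) (nat_lit 502) (nat_lit 5) (nat_lit 503) (nat_lit 5) (nat_lit 328) (nat_lit 323) (nat_lit 249)) (XT.nd (nat_lit 78) (nat_lit 0) (nat_lit 0) (XT.lf (nat_lit 0) (nat_lit 5714580146) (nat_lit 1520) (nat_lit 2743214332) (nat_lit 1596) (nat_lit 907660630) (nat_lit 483) (nat_lit 5) (nat_lit 503) (nat_lit 5) (nat_lit 504) (nat_lit 5) (nat_lit 329) (nat_lit 323) (nat_lit 248)) (XT.lf (nat_lit 76) (nat_lit 4355177869) (nat_lit 0) (nat_lit 3046985085) (nat_lit 1596) (nat_lit 2083837791) (nat_lit 484) (nat_lit 5) (nat_lit 483) (nat_lit 5) (nat_lit 504) (nat_lit 5) (nat_lit 330) (nat_lit 323) (nat_lit 247))))) (XT.nd (nat_lit 234) (nat_lit 0) (nat_lit 152) (XT.nd (nat_lit 78) (nat_lit 1596) (nat_lit 0) (XT.lf (nat_lit 76) (nat_lit 2073718181) (nat_lit 0) (nat_lit 7067986603) (nat_lit 1596) (nat_lit 468449348) (nat_lit 485) (nat_lit 5) (nat_lit 484) (nat_lit 5) (nat_lit 505)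 (nat_lit 5) (nat_lit 331) (nat_lit 323) (nat_lit 246)) (XT.nd (nat_lit 78) (nat_lit 0) (nat_lit 76) (XT.lf (nat_lit 0) (nat_lit 1188706109) (nat_lit 1596) (nat_lit 232439699) (nat_lit 1672) (nat_lit 8316568566) (nat_lit 463) (nat_lit 5) (nat_lit 484) (nat_lit 5) (nat_lit 485) (nat_lit 5) (nat_lit 332) (nat_lit 323) (nat_lit 245)) (XT.lf (nat_lit 0) (nat_lit 2920919351) (nat_lit 1596) (nat_lit 2544430579) (nat_lit 1672) (nat_lit 4403072061) (nat_lit 464) (nat_lit 5) (nat_lit 485) (nat_lit 5) (nat_lit 486) (nat_lit 5) (nat_lit 333) (nat_lit 323) (nat_lit 244)))) (XT.nd (nat_lit 78) (nat_lit 0) (nat_lit 0) (XT.lf (nat_lit 0) (nat_lit 4708472278) (nat_lit 1596) (nat_lit 4871677792) (nat_lit 1672) (nat_lit 422849459) (nat_lit 465) (nat_lit 5) (nat_lit 486) (nat_lit 5) (nat_lit 487) (nat_lit 5) (nat_lit 334) (nat_lit 323) (nat_lit 243)) (XT.nd (nat_lit 78) (nat_lit 0) (nat_lit 76) (XT.lf (nat_lit 76) (nat_lit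 2900899622) (nat_lit 0) (nat_lit 3678818681) (nat_lit 1672) (nat_lit 3561310451) (nat_lit 466) (nat_lit 5) (nat_lit 465) (nat_lit 5) (nat_lit 487) (nat_lit 5) (nat_lit 335) (nat_lit 323) (nat_lit 242)) (XT.lf (nat_lit 76) (nat_lit 651752936) (nat_lit 0) (nat_lit 7866829433) (nat_lit 1672) (nat_lit 1764402107) (nat_lit 467) (nat_lit 5) (nat_lit 466) (nat_lit 5) (nat_lit 488) (nat_lit 5) (nat_lit 336) (nat_lit 323) (nat_lit 241))))))))
noncomputable def xc89 : XT := (XT.nd (nat_lit 1560) (nat_lit 9196) (nat_lit 0) (XT.nd (nat_lit 780) (nat_lit 6232) (nat_lit 0) (XT.nd (nat_lit 390) (nat_lit 3800) (nat_lit 0) (XT.nd (nat_lit 156) (nat_lit 3268) (nat_lit 0) (XT.nd (nat_lit 78) (nat_lit 0) (nat_lit 76) (XT.lf (nat_lit 0) (nat_lit 118431527) (nat_lit 1672) (nat_lit 1606048179) (nat_lit 1748) (nat_lit 8704059412) (nat_lit 444) (nat_lit 5) (nat_lit 466) (nat_lit 5) (nat_lit 467) (nat_lit 5) (nat_lit 337)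 (nat_lit 323) (nat_lit 240)) (XT.lf (nat_lit 0) (nat_lit 2068105498) (nat_lit 1672) (nat_lit 3903344745) (nat_lit 1748) (nat_lit 4606104450) (nat_lit 445) (nat_lit 5) (nat_lit 467) (nat_lit 5) (nat_lit 468) (nat_lit 5) (nat_lit 338) (nat_lit 323) (nat_lit 239))) (XT.nd (nat_lit 78) (nat_lit 3420) (nat_lit 0) (XT.lf (nat_lit 0) (nat_lit 4092137954) (nat_lit 1672) (nat_lit 6223189235) (nat_lit 76) (nat_lit 415409846) (nat_lit 446) (nat_lit 5) (nat_lit 468) (nat_lit 5) (nat_lit 447) (nat_lit 5) (nat_lit 339) (nat_lit 323) (nat_lit 238)) (XT.nd (nat_lit 78) (nat_lit 1748) (nat_lit 0) (XT.lf (nat_lit 0) (nat_lit 2294640290) (nat_lit 1672) (nat_lit 3926043269) (nat_lit 1748) (nat_lit 4666968714) (nat_lit 424) (nat_lit 5) (nat_lit 446) (nat_lit 5) (nat_lit 447) (nat_lit 5) (nat_lit 340) (nat_lit 323) (nat_lit 237)) (XT.lf (nat_lit 0) (nat_lit 56146946) (nat_lit 1748) (nat_lit 8380257507) (nat_lit 1824) (nat_lit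 2612417018) (nat_lit 401) (nat_lit 5) (nat_lit 424) (nat_lit 5) (nat_lit 425) (nat_lit 5) (nat_lit 341) (nat_lit 323) (nat_lit 236))))) (XT.nd (nat_lit 156) (nat_lit 2584) (nat_lit 0) (XT.nd (nat_lit 78) (nat_lit 1216) (nat_lit 0) (XT.lf (nat_lit 0) (nat_lit 9024485643) (nat_lit 1748) (nat_lit 1742556643) (nat_lit 1824) (nat_lit 446827060) (nat_lit 401) (nat_lit 5) (nat_lit 424) (nat_lit 5) (nat_lit 425) (nat_lit 5) (nat_lit 342) (nat_lit 323) (nat_lit 235)) (XT.lf (nat_lit 0) (nat_lit 1803720386) (nat_lit 1216) (nat_lit 4490541672) (nat_lit 76) (nat_lit 5088519208) (nat_lit 385) (nat_lit 5) (nat_lit 401) (nat_lit 5) (nat_lit 386) (nat_lit 5) (nat_lit 343) (nat_lit 323) (nat_lit 234))) (XT.nd (nat_lit 78) (nat_lit 1672) (nat_lit 0) (XT.lf (nat_lit 0) (nat_lit 4142748157) (nat_lit 988) (nat_lit 6824035679) (nat_lit 76) (nat_lit 589388502) (nat_lit 373) (nat_lit 5) (nat_lit 386) (nat_lit 5) (nat_lit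 374) (nat_lit 5) (nat_lit 344) (nat_lit 323) (nat_lit 233)) (XT.nd (nat_lit 78) (nat_lit 836) (nat_lit 0) (XT.lf (nat_lit 0) (nat_lit 2518246217) (nat_lit 836) (nat_lit 4089375330) (nat_lit 912) (nat_lit 5126041323) (nat_lit 362) (nat_lit 5) (nat_lit 373) (nat_lit 5) (nat_lit 374) (nat_lit 5) (nat_lit 345) (nat_lit 323) (nat_lit 232)) (XT.lf (nat_lit 0) (nat_lit 270997680) (nat_lit 836) (nat_lit 8910578498) (nat_lit 912) (nat_lit 2734210133) (nat_lit 351) (nat_lit 5) (nat_lit 362) (nat_lit 5) (nat_lit 363) (nat_lit 5) (nat_lit 346) (nat_lit 323) (nat_lit 231)))))) (XT.nd (nat_lit 390) (nat_lit 2964) (nat_lit 0) (XT.nd (nat_lit 156) (nat_lit 2356) (nat_lit 0) (XT.nd (nat_lit 78) (nat_lit 912) (nat_lit 0) (XT.lf (nat_lit 0) (nat_lit 10109485344) (nat_lit 836) (nat_lit 1781013335) (nat_lit 912) (nat_lit 211730369) (nat_lit 351) (nat_lit 5) (nat_lit 362) (nat_lit 5) (nat_lit 363) (nat_lit 5) (nat_lit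 347) (nat_lit 323) (nat_lit 230)) (XT.lf (nat_lit 0) (nat_lit 2412532728) (nat_lit 912) (nat_lit 4322194043) (nat_lit 76) (nat_lit 5558090332) (nat_lit 339) (nat_lit 5) (nat_lit 351) (nat_lit 5) (nat_lit 340) (nat_lit 5) (nat_lit 348) (nat_lit 323) (nat_lit 229))) (XT.nd (nat_lit 78) (nat_lit 1520) (nat_lit 0) (XT.lf (nat_lit 0) (nat_lit 5149682512) (nat_lit 912) (nat_lit 6689309447) (nat_lit 76) (nat_lit 649371917) (nat_lit 328) (nat_lit 5) (nat_lit 340) (nat_lit 5) (nat_lit 329) (nat_lit 5) (nat_lit 349) (nat_lit 323) (nat_lit 228)) (XT.nd (nat_lit 78) (nat_lit 760) (nat_lit 0) (XT.lf (nat_lit 0) (nat_lit 3564726258) (nat_lit 760) (nat_lit 4472138310) (nat_lit 836) (nat_lit 4651563619) (nat_lit 318) (nat_lit 5) (nat_lit 328) (nat_lit 5) (nat_lit 329) (nat_lit 5) (nat_lit 350) (nat_lit 323) (nat_lit 227)) (XT.lf (nat_lit 0) (nat_lit 1289957107) (nat_lit 760) (nat_lit 9765854185) (nat_lit 836) (nat_lit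 1837789364) (nat_lit 308) (nat_lit 5) (nat_lit 318) (nat_lit 5) (nat_lit 319) (nat_lit 5) (nat_lit 351) (nat_lit 323) (nat_lit 226))))) (XT.nd (nat_lit 156) (nat_lit 2204) (nat_lit 0) (XT.nd (nat_lit 78) (nat_lit 684) (nat_lit 0) (XT.lf (nat_lit 0) (nat_lit 1110001371) (nat_lit 836) (nat_lit 1030661247) (nat_lit 76) (nat_lit 10962866544) (nat_lit 307) (nat_lit 5) (nat_lit 318) (nat_lit 5) (nat_lit 308) (nat_lit 5) (nat_lit 352) (nat_lit 323) (nat_lit 225)) (XT.lf (nat_lit 0) (nat_lit 4195781613) (nat_lit 760) (nat_lit 3408471132) (nat_lit 76) (nat_lit 5713777855) (nat_lit 298) (nat_lit 5) (nat_lit 308) (nat_lit 5) (nat_lit 299) (nat_lit 5) (nat_lit 353) (nat_lit 323) (nat_lit 224))) (XT.nd (nat_lit 78) (nat_lit 1444) (nat_lit 0) (XT.lf (nat_lit 0) (nat_lit 7420243930) (nat_lit 836) (nat_lit 5829801725) (nat_lit 76) (nat_lit 288007517) (nat_lit 288) (nat_lit 5) (nat_lit 299) (nat_lit 5) (nat_lit 289)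 (nat_lit 5) (nat_lit 354) (nat_lit 323) (nat_lit 223)) (XT.nd (nat_lit 78) (nat_lit 760) (nat_lit 0) (XT.lf (nat_lit 0) (nat_lit 5431263452) (nat_lit 684) (nat_lit 5392934641) (nat_lit 760) (nat_lit 2938831196) (nat_lit 279) (nat_lit 5) (nat_lit 288) (nat_lit 5) (nat_lit 289) (nat_lit 5) (nat_lit 355) (nat_lit 323) (nat_lit 222)) (XT.lf (nat_lit 0) (nat_lit 382884688) (nat_lit 760) (nat_lit 10887173586) (nat_lit 76) (nat_lit 2723625109) (nat_lit 269) (nat_lit 5) (nat_lit 279) (nat_lit 5) (nat_lit 270) (nat_lit 5) (nat_lit 356) (nat_lit 323) (nat_lit 221))))))) (XT.nd (nat_lit 780) (nat_lit 4332) (nat_lit 0) (XT.nd (nat_lit 390) (nat_lit 2280) (nat_lit 0) (XT.nd (nat_lit 156) (nat_lit 1976) (nat_lit 0) (XT.nd (nat_lit 78) (nat_lit 0) (nat_lit 0) (XT.lf (nat_lit 0) (nat_lit 695112356) (nat_lit 608) (nat_lit 3141196208) (nat_lit 684) (nat_lit 10393127764) (nat_lit 261) (nat_lit 5) (nat_lit 269) (nat_lit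 5) (nat_lit 270) (nat_lit 5) (nat_lit 357) (nat_lit 323) (nat_lit 220)) (XT.lf (nat_lit 0) (nat_lit 7476440638) (nat_lit 684) (nat_lit 1761112735) (nat_lit 76) (nat_lit 5233053579) (nat_lit 261) (nat_lit 5) (nat_lit 270) (nat_lit 5) (nat_lit 262) (nat_lit 5) (nat_lit 358) (nat_lit 323) (nat_lit 219))) (XT.nd (nat_lit 78) (nat_lit 1292) (nat_lit 0) (XT.lf (nat_lit 0) (nat_lit 10452477839) (nat_lit 684) (nat_lit 837777015) (nat_lit 760) (nat_lit 3427475270) (nat_lit 252) (nat_lit 5) (nat_lit 261) (nat_lit 5) (nat_lit 262) (nat_lit 5) (nat_lit 359) (nat_lit 323) (nat_lit 218)) (XT.nd (nat_lit 78) (nat_lit 608) (nat_lit 0) (XT.lf (nat_lit 0) (nat_lit 335100218) (nat_lit 684) (nat_lit 6861408450) (nat_lit 76) (nat_lit 7773890746) (nat_lit 243) (nat_lit 5) (nat_lit 252) (nat_lit 5) (nat_lit 244) (nat_lit 5) (nat_lit 360) (nat_lit 323) (nat_lit 217)) (XT.lf (nat_lit 0) (nat_lit 4222070469) (nat_lit 684)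 (nat_lit 9538808839) (nat_lit 76) (nat_lit 1468161154) (nat_lit 235) (nat_lit 5) (nat_lit 244) (nat_lit 5) (nat_lit 236) (nat_lit 5) (nat_lit 361) (nat_lit 323) (nat_lit 216))))) (XT.nd (nat_lit 156) (nat_lit 1140) (nat_lit 0) (XT.nd (nat_lit 78) (nat_lit 608) (nat_lit 0) (XT.lf (nat_lit 0) (nat_lit 3182434000) (nat_lit 532) (nat_lit 5135729546) (nat_lit 608) (nat_lit 7175433193) (nat_lit 228) (nat_lit 5) (nat_lit 235) (nat_lit 5) (nat_lit 236) (nat_lit 5) (nat_lit 362) (nat_lit 323) (nat_lit 215)) (XT.lf (nat_lit 0) (nat_lit 605609140) (nat_lit 608) (nat_lit 12002238197) (nat_lit 684) (nat_lit 3156834298) (nat_lit 220) (nat_lit 5) (nat_lit 228) (nat_lit 5) (nat_lit 229) (nat_lit 5) (nat_lit 363) (nat_lit 323) (nat_lit 214))) (XT.nd (nat_lit 78) (nat_lit 1064) (nat_lit 0) (XT.lf (nat_lit 0) (nat_lit 1065458600) (nat_lit 684) (nat_lit 2033597553) (nat_lit 76) (nat_lit 12942800776) (nat_lit 219) (nat_lit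 5) (nat_lit 228) (nat_lit 5) (nat_lit 220) (nat_lit 5) (nat_lit 364) (nat_lit 323) (nat_lit 213)) (XT.nd (nat_lit 78) (nat_lit 532) (nat_lit 0) (XT.lf (nat_lit 0) (nat_lit 5465383041) (nat_lit 608) (nat_lit 4777019247) (nat_lit 76) (nat_lit 6082656453) (nat_lit 212) (nat_lit 5) (nat_lit 220) (nat_lit 5) (nat_lit 213) (nat_lit 5) (nat_lit 365) (nat_lit 323) (nat_lit 212)) (XT.lf (nat_lit 0) (nat_lit 9018337253) (nat_lit 532) (nat_lit 1050879474) (nat_lit 608) (nat_lit 6546107112) (nat_lit 205) (nat_lit 5) (nat_lit 212) (nat_lit 5) (nat_lit 213) (nat_lit 5) (nat_lit 366) (nat_lit 323) (nat_lit 211)))))) (XT.nd (nat_lit 390) (nat_lit 2204) (nat_lit 0) (XT.nd (nat_lit 156) (nat_lit 988) (nat_lit 0) (XT.nd (nat_lit 78) (nat_lit 608) (nat_lit 0) (XT.lf (nat_lit 0) (nat_lit 6380580106) (nat_lit 532) (nat_lit 8538405144) (nat_lit 608) (nat_lit 1993160550) (nat_lit 198) (nat_lit 5) (nat_lit 205) (nat_lit 5)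 (nat_lit 206) (nat_lit 5) (nat_lit 367) (nat_lit 323) (nat_lit 210)) (XT.lf (nat_lit 0) (nat_lit 2729164322) (nat_lit 608) (nat_lit 13561988650) (nat_lit 76) (nat_lit 925011296) (nat_lit 190) (nat_lit 5) (nat_lit 198) (nat_lit 5) (nat_lit 191) (nat_lit 5) (nat_lit 368) (nat_lit 323) (nat_lit 209))) (XT.nd (nat_lit 78) (nat_lit 532) (nat_lit 0) (XT.lf (nat_lit 0) (nat_lit 793995168) (nat_lit 456) (nat_lit 6886165342) (nat_lit 532) (nat_lit 9846602570) (nat_lit 184) (nat_lit 5) (nat_lit 190) (nat_lit 5) (nat_lit 191) (nat_lit 5) (nat_lit 369) (nat_lit 323) (nat_lit 208)) (XT.nd (nat_lit 78) (nat_lit 532) (nat_lit 0) (XT.lf (nat_lit 0) (nat_lit 12870581700) (nat_lit 532) (nat_lit 2124537447) (nat_lit 76) (nat_lit 2849747565) (nat_lit 184) (nat_lit 5) (nat_lit 191) (nat_lit 5) (nat_lit 185) (nat_lit 5) (nat_lit 370) (nat_lit 323) (nat_lit 207)) (XT.lf (nat_lit 0) (nat_lit 155719318) (nat_lit 532) (nat_lit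 5151069486) (nat_lit 76) (nat_lit 12863481501) (nat_lit 177) (nat_lit 5) (nat_lit 184) (nat_lit 5) (nat_lit 178) (nat_lit 5) (nat_lit 371) (nat_lit 323) (nat_lit 206))))) (XT.nd (nat_lit 234) (nat_lit 912) (nat_lit 0) (XT.nd (nat_lit 78) (nat_lit 836) (nat_lit 0) (XT.lf (nat_lit 0) (nat_lit 5465328554) (nat_lit 532) (nat_lit 8319012767) (nat_lit 76) (nat_lit 4718575765) (nat_lit 171) (nat_lit 5) (nat_lit 178) (nat_lit 5) (nat_lit 172) (nat_lit 5) (nat_lit 372) (nat_lit 323) (nat_lit 205)) (XT.nd (nat_lit 78) (nat_lit 380) (nat_lit 0) (XT.lf (nat_lit 0) (nat_lit 7237656621) (nat_lit 456) (nat_lit 3795563319) (nat_lit 532) (nat_lit 7810347723) (nat_lit 165) (nat_lit 5) (nat_lit 171) (nat_lit 5) (nat_lit 172) (nat_lit 5) (nat_lit 373) (nat_lit 323) (nat_lit 204)) (XT.lf (nat_lit 0) (nat_lit 4167684332) (nat_lit 380) (nat_lit 12708128686) (nat_lit 456) (nat_lit 2316475587) (nat_lit 160) (nat_lit 5) (nat_lit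 165) (nat_lit 5) (nat_lit 166) (nat_lit 5) (nat_lit 374) (nat_lit 323) (nat_lit 203)))) (XT.nd (nat_lit 78) (nat_lit 380) (nat_lit 0) (XT.lf (nat_lit 0) (nat_lit 962619039) (nat_lit 456) (nat_lit 2428506497) (nat_lit 532) (nat_lit 16158060655) (nat_lit 153) (nat_lit 5) (nat_lit 159) (nat_lit 5) (nat_lit 160) (nat_lit 5) (nat_lit 375) (nat_lit 323) (nat_lit 202)) (XT.nd (nat_lit 78) (nat_lit 380) (nat_lit 0) (XT.lf (nat_lit 0) (nat_lit 9376383079) (nat_lit 532) (nat_lit 2374522058) (nat_lit 76) (nat_lit 8162825157) (nat_lit 153) (nat_lit 5) (nat_lit 160) (nat_lit 5) (nat_lit 154) (nat_lit 5) (nat_lit 376) (nat_lit 323) (nat_lit 201)) (XT.lf (nat_lit 0) (nat_lit 14472459276) (nat_lit 380) (nat_lit 1161719311) (nat_lit 456) (nat_lit 4653176247) (nat_lit 148) (nat_lit 5) (nat_lit 153) (nat_lit 5) (nat_lit 154) (nat_lit 5) (nat_lit 377) (nat_lit 323) (nat_lit 200))))))))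
noncomputable def xc90 : XT := (XT.nd (nat_lit 43602) (nat_lit 0) (nat_lit 12768) (XT.nd (nat_lit 42822) (nat_lit 0) (nat_lit 26676) (XT.nd (nat_lit 390) (nat_lit 1140) (nat_lit 0) (XT.nd (nat_lit 156) (nat_lit 836) (nat_lit 0) (XT.nd (nat_lit 78) (nat_lit 380) (nat_lit 0) (XT.lf (nat_lit 0) (nat_lit 1525498103) (nat_lit 456) (nat_lit 9434811863) (nat_lit 76) (nat_lit 9708970152) (nat_lit 142) (nat_lit 5) (nat_lit 148) (nat_lit 5) (nat_lit 143) (nat_lit 5) (nat_lit 378) (nat_lit 323) (nat_lit 199)) (XT.lf (nat_lit 0) (nat_lit 7852166778) (nat_lit 380) (nat_lit 56210637) (nat_lit 456) (nat_lit 13152032768) (nat_lit 137) (nat_lit 5) (nat_lit 142) (nat_lit 5) (nat_lit 143) (nat_lit 5) (nat_lit 379) (nat_lit 323) (nat_lit 198))) (XT.nd (nat_lit 78) (nat_lit 456) (nat_lit 0) (XT.lf (nat_lit 0) (nat_lit 4283524676) (nat_lit 380) (nat_lit 10347507616) (nat_lit 456) (nat_lit 6829279413) (nat_lit 132) (nat_lit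 5) (nat_lit 137) (nat_lit 5) (nat_lit 138) (nat_lit 5) (nat_lit 380) (nat_lit 323) (nat_lit 197)) (XT.nd (nat_lit 78) (nat_lit 76) (nat_lit 0) (XT.lf (nat_lit 0) (nat_lit 587881718) (nat_lit 380) (nat_lit 21050436204) (nat_lit 456) (nat_lit 232236568) (nat_lit 127) (nat_lit 5) (nat_lit 132) (nat_lit 5) (nat_lit 133) (nat_lit 5) (nat_lit 381) (nat_lit 323) (nat_lit 196)) (XT.lf (nat_lit 0) (nat_lit 6647052172) (nat_lit 456) (nat_lit 3307019038) (nat_lit 76) (nat_lit 12334776123) (nat_lit 126) (nat_lit 5) (nat_lit 132) (nat_lit 5) (nat_lit 127) (nat_lit 5) (nat_lit 382) (nat_lit 323) (nat_lit 195))))) (XT.nd (nat_lit 156) (nat_lit 456) (nat_lit 0) (XT.nd (nat_lit 78) (nat_lit 304) (nat_lit 0) (XT.lf (nat_lit 0) (nat_lit 13824172495) (nat_lit 456) (nat_lit 7343613629) (nat_lit 76) (nat_lit 1549982970) (nat_lit 121) (nat_lit 5) (nat_lit 127) (nat_lit 5) (nat_lit 122) (nat_lit 5) (nat_lit 383) (nat_lit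 323) (nat_lit 194)) (XT.lf (nat_lit 0) (nat_lit 11563424216) (nat_lit 304) (nat_lit 9802139721) (nat_lit 380) (nat_lit 1791018326) (nat_lit 117) (nat_lit 5) (nat_lit 121) (nat_lit 5) (nat_lit 122) (nat_lit 5) (nat_lit 384) (nat_lit 323) (nat_lit 193))) (XT.nd (nat_lit 42120) (nat_lit 0) (nat_lit 28044) (XT.lf (nat_lit 0) (nat_lit 5549579451) (nat_lit 456) (nat_lit 16048910986) (nat_lit 76) (nat_lit 2007406789) (nat_lit 111) (nat_lit 5) (nat_lit 117) (nat_lit 5) (nat_lit 112) (nat_lit 5) (nat_lit 385) (nat_lit 323) (nat_lit 192)) (XT.nd (nat_lit 78) (nat_lit 1520) (nat_lit 0) (XT.lf (nat_lit 0) (nat_lit 2076369985) (nat_lit 0) (nat_lit 2076369985) (nat_lit 1444) (nat_lit 304482550) (nat_lit 500) (nat_lit 5) (nat_lit 500) (nat_lit 3) (nat_lit 519) (nat_lit 3) (nat_lit 324) (nat_lit 324) (nat_lit 252)) (XT.lf (nat_lit 0) (nat_lit 762616062) (nat_lit 1520) (nat_lit 7352792631) (nat_lit 1596) (nat_lit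 904861643) (nat_lit 480) (nat_lit 5) (nat_lit 500) (nat_lit 5) (nat_lit 501) (nat_lit 5) (nat_lit 325) (nat_lit 324) (nat_lit 251)))))) (XT.nd (nat_lit 390) (nat_lit 1368) (nat_lit 0) (XT.nd (nat_lit 156) (nat_lit 0) (nat_lit 76) (XT.nd (nat_lit 78) (nat_lit 0) (nat_lit 76) (XT.lf (nat_lit 0) (nat_lit 2174446877) (nat_lit 1520) (nat_lit 834570986) (nat_lit 1596) (nat_lit 6120044783) (nat_lit 480) (nat_lit 5) (nat_lit 500) (nat_lit 5) (nat_lit 501) (nat_lit 5) (nat_lit 326) (nat_lit 324) (nat_lit 250)) (XT.lf (nat_lit 0) (nat_lit 3630767487) (nat_lit 1520) (nat_lit 3327227265) (nat_lit 1596) (nat_lit 2283100959) (nat_lit 481) (nat_lit 5) (nat_lit 501) (nat_lit 5) (nat_lit 502) (nat_lit 5) (nat_lit 327) (nat_lit 324) (nat_lit 249))) (XT.nd (nat_lit 78) (nat_lit 0) (nat_lit 76) (XT.lf (nat_lit 76) (nat_lit 3517290029) (nat_lit 0) (nat_lit 1612224748) (nat_lit 1596) (nat_lit 4227019358) (nat_lit 482)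 (nat_lit 5) (nat_lit 481) (nat_lit 5) (nat_lit 502) (nat_lit 5) (nat_lit 328) (nat_lit 324) (nat_lit 248)) (XT.nd (nat_lit 78) (nat_lit 0) (nat_lit 76) (XT.lf (nat_lit 76) (nat_lit 1097513535) (nat_lit 0) (nat_lit 5582305105) (nat_lit 1596) (nat_lit 2795503743) (nat_lit 483) (nat_lit 5) (nat_lit 482) (nat_lit 5) (nat_lit 503) (nat_lit 5) (nat_lit 329) (nat_lit 324) (nat_lit 247)) (XT.lf (nat_lit 0) (nat_lit 8279648351) (nat_lit 1520) (nat_lit 1314952900) (nat_lit 1596) (nat_lit 3030703) (nat_lit 483) (nat_lit 5) (nat_lit 503) (nat_lit 5) (nat_lit 504) (nat_lit 5) (nat_lit 330) (nat_lit 324) (nat_lit 246))))) (XT.nd (nat_lit 156) (nat_lit 0) (nat_lit 76) (XT.nd (nat_lit 78) (nat_lit 0) (nat_lit 76) (XT.lf (nat_lit 0) (nat_lit 231688681) (nat_lit 1596) (nat_lit 3752662175) (nat_lit 1672) (nat_lit 5738640626) (nat_lit 462) (nat_lit 5) (nat_lit 483) (nat_lit 5) (nat_lit 484) (nat_lit 5) (nat_lit 331)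 (nat_lit 324) (nat_lit 245)) (XT.lf (nat_lit 0) (nat_lit 1809791838) (nat_lit 1596) (nat_lit 6214030203) (nat_lit 1672) (nat_lit 1828135223) (nat_lit 463) (nat_lit 5) (nat_lit 484) (nat_lit 5) (nat_lit 485) (nat_lit 5) (nat_lit 332) (nat_lit 324) (nat_lit 244))) (XT.nd (nat_lit 78) (nat_lit 0) (nat_lit 76) (XT.lf (nat_lit 76) (nat_lit 1277699807) (nat_lit 0) (nat_lit 2174348166) (nat_lit 1672) (nat_lit 6532424010) (nat_lit 464) (nat_lit 5) (nat_lit 463) (nat_lit 5) (nat_lit 485) (nat_lit 5) (nat_lit 333) (nat_lit 324) (nat_lit 243)) (XT.nd (nat_lit 78) (nat_lit 0) (nat_lit 0) (XT.lf (nat_lit 0) (nat_lit 5168403939) (nat_lit 1596) (nat_lit 1096197727) (nat_lit 1672) (nat_lit 3855879523) (nat_lit 464) (nat_lit 5) (nat_lit 485) (nat_lit 5) (nat_lit 486) (nat_lit 5) (nat_lit 334) (nat_lit 324) (nat_lit 242)) (XT.lf (nat_lit 76) (nat_lit 6788015559) (nat_lit 0) (nat_lit 165531978) (nat_lit 1672) (nat_lit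 3306692430) (nat_lit 465) (nat_lit 5) (nat_lit 464) (nat_lit 5) (nat_lit 486) (nat_lit 5) (nat_lit 335) (nat_lit 324) (nat_lit 241))))))) (XT.nd (nat_lit 780) (nat_lit 7144) (nat_lit 0) (XT.nd (nat_lit 390) (nat_lit 5396) (nat_lit 0) (XT.nd (nat_lit 156) (nat_lit 0) (nat_lit 0) (XT.nd (nat_lit 78) (nat_lit 1596) (nat_lit 0) (XT.lf (nat_lit 76) (nat_lit 4509512050) (nat_lit 0) (nat_lit 4318978252) (nat_lit 1672) (nat_lit 1574991097) (nat_lit 466) (nat_lit 5) (nat_lit 465) (nat_lit 5) (nat_lit 487) (nat_lit 5) (nat_lit 336) (nat_lit 324) (nat_lit 240)) (XT.lf (nat_lit 0) (nat_lit 218753053) (nat_lit 1672) (nat_lit 8339529000) (nat_lit 1748) (nat_lit 1992468436) (nat_lit 444) (nat_lit 5) (nat_lit 466) (nat_lit 5) (nat_lit 467) (nat_lit 5) (nat_lit 337) (nat_lit 324) (nat_lit 239))) (XT.nd (nat_lit 78) (nat_lit 0) (nat_lit 76) (XT.lf (nat_lit 0) (nat_lit 2075627735) (nat_lit 1672) (nat_lit 131083851)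 (nat_lit 1748) (nat_lit 8494917195) (nat_lit 444) (nat_lit 5) (nat_lit 466) (nat_lit 5) (nat_lit 467) (nat_lit 5) (nat_lit 338) (nat_lit 324) (nat_lit 238)) (XT.nd (nat_lit 78) (nat_lit 0) (nat_lit 76) (XT.lf (nat_lit 0) (nat_lit 4033969288) (nat_lit 1672) (nat_lit 2480558467) (nat_lit 1748) (nat_lit 4341603721) (nat_lit 445) (nat_lit 5) (nat_lit 467) (nat_lit 5) (nat_lit 468) (nat_lit 5) (nat_lit 339) (nat_lit 324) (nat_lit 237)) (XT.lf (nat_lit 0) (nat_lit 6070878451) (nat_lit 1672) (nat_lit 4854934247) (nat_lit 76) (nat_lit 89073092) (nat_lit 446) (nat_lit 5) (nat_lit 468) (nat_lit 5) (nat_lit 447) (nat_lit 5) (nat_lit 340) (nat_lit 324) (nat_lit 236))))) (XT.nd (nat_lit 156) (nat_lit 2128) (nat_lit 0) (XT.nd (nat_lit 78) (nat_lit 1748) (nat_lit 0) (XT.lf (nat_lit 0) (nat_lit 3893202936) (nat_lit 1672) (nat_lit 4325951903) (nat_lit 1748) (nat_lit 2958255201) (nat_lit 424) (nat_lit 5) (nat_lit 446)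 (nat_lit 5) (nat_lit 447) (nat_lit 5) (nat_lit 341) (nat_lit 324) (nat_lit 235)) (XT.lf (nat_lit 0) (nat_lit 1600812486) (nat_lit 1748) (nat_lit 8856002173) (nat_lit 1824) (nat_lit 887508798) (nat_lit 401) (nat_lit 5) (nat_lit 424) (nat_lit 5) (nat_lit 425) (nat_lit 5) (nat_lit 342) (nat_lit 324) (nat_lit 234))) (XT.nd (nat_lit 78) (nat_lit 2052) (nat_lit 0) (XT.lf (nat_lit 0) (nat_lit 1273600636) (nat_lit 1824) (nat_lit 730489031) (nat_lit 76) (nat_lit 9511112979) (nat_lit 400) (nat_lit 5) (nat_lit 424) (nat_lit 5) (nat_lit 401) (nat_lit 5) (nat_lit 343) (nat_lit 324) (nat_lit 233)) (XT.nd (nat_lit 78) (nat_lit 912) (nat_lit 0) (XT.lf (nat_lit 0) (nat_lit 3543787711) (nat_lit 1216) (nat_lit 3092806992) (nat_lit 76) (nat_lit 5053381358) (nat_lit 385) (nat_lit 5) (nat_lit 401) (nat_lit 5) (nat_lit 386) (nat_lit 5) (nat_lit 344) (nat_lit 324) (nat_lit 232)) (XT.lf (nat_lit 0) (nat_lit 5912766272) (nat_lit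 988) (nat_lit 5486779503) (nat_lit 76) (nat_lit 469844080) (nat_lit 373) (nat_lit 5) (nat_lit 386) (nat_lit 5) (nat_lit 374) (nat_lit 5) (nat_lit 345) (nat_lit 324) (nat_lit 231)))))) (XT.nd (nat_lit 390) (nat_lit 3724) (nat_lit 0) (XT.nd (nat_lit 156) (nat_lit 1748) (nat_lit 0) (XT.nd (nat_lit 78) (nat_lit 836) (nat_lit 0) (XT.lf (nat_lit 0) (nat_lit 4110754101) (nat_lit 836) (nat_lit 4302746828) (nat_lit 912) (nat_lit 3639481978) (nat_lit 362) (nat_lit 5) (nat_lit 373) (nat_lit 5) (nat_lit 374) (nat_lit 5) (nat_lit 346) (nat_lit 324) (nat_lit 230)) (XT.lf (nat_lit 0) (nat_lit 1804215989) (nat_lit 836) (nat_lit 9222963644) (nat_lit 912) (nat_lit 1214155944) (nat_lit 351) (nat_lit 5) (nat_lit 362) (nat_lit 5) (nat_lit 363) (nat_lit 5) (nat_lit 347) (nat_lit 324) (nat_lit 229))) (XT.nd (nat_lit 78) (nat_lit 1672) (nat_lit 0) (XT.lf (nat_lit 0) (nat_lit 1319796275) (nat_lit 912) (nat_lit 549546069)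 (nat_lit 76) (nat_lit 10564785430) (nat_lit 350) (nat_lit 5) (nat_lit 362) (nat_lit 5) (nat_lit 351) (nat_lit 5) (nat_lit 348) (nat_lit 324) (nat_lit 228)) (XT.nd (nat_lit 78) (nat_lit 836) (nat_lit 0) (XT.lf (nat_lit 0) (nat_lit 3984661421) (nat_lit 912) (nat_lit 2944029932) (nat_lit 76) (nat_lit 5702433562) (nat_lit 339) (nat_lit 5) (nat_lit 351) (nat_lit 5) (nat_lit 340) (nat_lit 5) (nat_lit 349) (nat_lit 324) (nat_lit 227)) (XT.lf (nat_lit 0) (nat_lit 6769989281) (nat_lit 912) (nat_lit 5376954594) (nat_lit 76) (nat_lit 686286973) (nat_lit 328) (nat_lit 5) (nat_lit 340) (nat_lit 5) (nat_lit 329) (nat_lit 5) (nat_lit 350) (nat_lit 324) (nat_lit 226))))) (XT.nd (nat_lit 234) (nat_lit 1444) (nat_lit 0) (XT.nd (nat_lit 78) (nat_lit 1520) (nat_lit 0) (XT.lf (nat_lit 0) (nat_lit 5160155002) (nat_lit 760) (nat_lit 4550602364) (nat_lit 836) (nat_lit 3329213932) (nat_lit 318) (nat_lit 5) (nat_lit 328) (nat_lit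 5) (nat_lit 329) (nat_lit 5) (nat_lit 351) (nat_lit 324) (nat_lit 225)) (XT.nd (nat_lit 78) (nat_lit 760) (nat_lit 0) (XT.lf (nat_lit 0) (nat_lit 2821275533) (nat_lit 760) (nat_lit 9967307488) (nat_lit 836) (nat_lit 463362933) (nat_lit 308) (nat_lit 5) (nat_lit 318) (nat_lit 5) (nat_lit 319) (nat_lit 5) (nat_lit 352) (nat_lit 324) (nat_lit 224)) (XT.lf (nat_lit 0) (nat_lit 411584672) (nat_lit 684) (nat_lit 2104108607) (nat_lit 760) (nat_lit 10953074375) (nat_lit 298) (nat_lit 5) (nat_lit 307) (nat_lit 5) (nat_lit 308) (nat_lit 5) (nat_lit 353) (nat_lit 324) (nat_lit 223)))) (XT.nd (nat_lit 78) (nat_lit 1444) (nat_lit 0) (XT.lf (nat_lit 0) (nat_lit 5661535156) (nat_lit 760) (nat_lit 2040259117) (nat_lit 76) (nat_lit 5988572317) (nat_lit 298) (nat_lit 5) (nat_lit 308) (nat_lit 5) (nat_lit 299) (nat_lit 5) (nat_lit 354) (nat_lit 324) (nat_lit 222)) (XT.nd (nat_lit 78) (nat_lit 684) (nat_lit 0) (XT.lf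 (nat_lit 0) (nat_lit 8953983415) (nat_lit 836) (nat_lit 4532371153) (nat_lit 76) (nat_lit 431222093) (nat_lit 288) (nat_lit 5) (nat_lit 299) (nat_lit 5) (nat_lit 289) (nat_lit 5) (nat_lit 355) (nat_lit 324) (nat_lit 221)) (XT.lf (nat_lit 0) (nat_lit 7042639261) (nat_lit 684) (nat_lit 5388632845) (nat_lit 760) (nat_lit 1718617155) (nat_lit 279) (nat_lit 5) (nat_lit 288) (nat_lit 5) (nat_lit 289) (nat_lit 5) (nat_lit 356) (nat_lit 324) (nat_lit 220))))))))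
noncomputable def xc91 : XT := (XT.nd (nat_lit 1560) (nat_lit 2736) (nat_lit 0) (XT.nd (nat_lit 780) (nat_lit 4484) (nat_lit 0) (XT.nd (nat_lit 390) (nat_lit 2356) (nat_lit 0) (XT.nd (nat_lit 156) (nat_lit 1368) (nat_lit 0) (XT.nd (nat_lit 78) (nat_lit 608) (nat_lit 0) (XT.lf (nat_lit 0) (nat_lit 1658509491) (nat_lit 760) (nat_lit 9747137173) (nat_lit 76) (nat_lit 2982199003) (nat_lit 269) (nat_lit 5) (nat_lit 279) (nat_lit 5) (nat_lit 270) (nat_lit 5) (nat_lit 357) (nat_lit 324) (nat_lit 219)) (XT.lf (nat_lit 0) (nat_lit 2158822668) (nat_lit 608) (nat_lit 3029261839) (nat_lit 684) (nat_lit 9443146369) (nat_lit 261) (nat_lit 5) (nat_lit 269) (nat_lit 5) (nat_lit 270) (nat_lit 5) (nat_lit 358) (nat_lit 324) (nat_lit 218))) (XT.nd (nat_lit 78) (nat_lit 1368) (nat_lit 0) (XT.lf (nat_lit 0) (nat_lit 8902700148) (nat_lit 684) (nat_lit 390055935) (nat_lit 76) (nat_lit 5587585278) (nat_lit 261) (nat_lit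 5) (nat_lit 270) (nat_lit 5) (nat_lit 262) (nat_lit 5) (nat_lit 359) (nat_lit 324) (nat_lit 217)) (XT.nd (nat_lit 78) (nat_lit 684) (nat_lit 0) (XT.lf (nat_lit 0) (nat_lit 12166841430) (nat_lit 684) (nat_lit 638173486) (nat_lit 760) (nat_lit 2330391622) (nat_lit 252) (nat_lit 5) (nat_lit 261) (nat_lit 5) (nat_lit 262) (nat_lit 5) (nat_lit 360) (nat_lit 324) (nat_lit 216)) (XT.lf (nat_lit 0) (nat_lit 1505410285) (nat_lit 684) (nat_lit 5651417056) (nat_lit 76) (nat_lit 8239160581) (nat_lit 243) (nat_lit 5) (nat_lit 252) (nat_lit 5) (nat_lit 244) (nat_lit 5) (nat_lit 361) (nat_lit 324) (nat_lit 215))))) (XT.nd (nat_lit 156) (nat_lit 1216) (nat_lit 0) (XT.nd (nat_lit 78) (nat_lit 532) (nat_lit 0) (XT.lf (nat_lit 0) (nat_lit 5485910073) (nat_lit 684) (nat_lit 8410761415) (nat_lit 76) (nat_lit 1766187577) (nat_lit 235) (nat_lit 5) (nat_lit 244) (nat_lit 5) (nat_lit 236) (nat_lit 5) (nat_lit 362) (nat_lit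 324) (nat_lit 214)) (XT.lf (nat_lit 0) (nat_lit 4669174804) (nat_lit 532) (nat_lit 5011622496) (nat_lit 608) (nat_lit 6255045504) (nat_lit 228) (nat_lit 5) (nat_lit 235) (nat_lit 5) (nat_lit 236) (nat_lit 5) (nat_lit 363) (nat_lit 324) (nat_lit 213))) (XT.nd (nat_lit 78) (nat_lit 608) (nat_lit 0) (XT.lf (nat_lit 0) (nat_lit 2012892509) (nat_lit 608) (nat_lit 12064631607) (nat_lit 684) (nat_lit 2137977822) (nat_lit 220) (nat_lit 5) (nat_lit 228) (nat_lit 5) (nat_lit 229) (nat_lit 5) (nat_lit 364) (nat_lit 324) (nat_lit 212)) (XT.nd (nat_lit 78) (nat_lit 532) (nat_lit 0) (XT.lf (nat_lit 0) (nat_lit 2164370849) (nat_lit 684) (nat_lit 731493575) (nat_lit 76) (nat_lit 13605631954) (nat_lit 219) (nat_lit 5) (nat_lit 228) (nat_lit 5) (nat_lit 220) (nat_lit 5) (nat_lit 365) (nat_lit 324) (nat_lit 211)) (XT.lf (nat_lit 0) (nat_lit 6675848039) (nat_lit 608) (nat_lit 3560096542) (nat_lit 76) (nat_lit 6557666640)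 (nat_lit 212) (nat_lit 5) (nat_lit 220) (nat_lit 5) (nat_lit 213) (nat_lit 5) (nat_lit 366) (nat_lit 324) (nat_lit 210)))))) (XT.nd (nat_lit 390) (nat_lit 2356) (nat_lit 0) (XT.nd (nat_lit 156) (nat_lit 1064) (nat_lit 0) (XT.nd (nat_lit 78) (nat_lit 532) (nat_lit 0) (XT.lf (nat_lit 0) (nat_lit 10627052484) (nat_lit 532) (nat_lit 768951823) (nat_lit 608) (nat_lit 5697023656) (nat_lit 205) (nat_lit 5) (nat_lit 212) (nat_lit 5) (nat_lit 213) (nat_lit 5) (nat_lit 367) (nat_lit 324) (nat_lit 209)) (XT.lf (nat_lit 0) (nat_lit 7906869208) (nat_lit 532) (nat_lit 8465193471) (nat_lit 608) (nat_lit 1027083579) (nat_lit 198) (nat_lit 5) (nat_lit 205) (nat_lit 5) (nat_lit 206) (nat_lit 5) (nat_lit 368) (nat_lit 324) (nat_lit 208))) (XT.nd (nat_lit 78) (nat_lit 456) (nat_lit 0) (XT.lf (nat_lit 0) (nat_lit 3804758488) (nat_lit 608) (nat_lit 12624255995) (nat_lit 76) (nat_lit 1283518792) (nat_lit 190) (nat_lit 5)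 (nat_lit 198) (nat_lit 5) (nat_lit 191) (nat_lit 5) (nat_lit 369) (nat_lit 324) (nat_lit 207)) (XT.nd (nat_lit 78) (nat_lit 0) (nat_lit 0) (XT.lf (nat_lit 0) (nat_lit 2140592925) (nat_lit 456) (nat_lit 6743336709) (nat_lit 532) (nat_lit 9148934550) (nat_lit 184) (nat_lit 5) (nat_lit 190) (nat_lit 5) (nat_lit 191) (nat_lit 5) (nat_lit 370) (nat_lit 324) (nat_lit 206)) (XT.lf (nat_lit 0) (nat_lit 14203915591) (nat_lit 532) (nat_lit 887097780) (nat_lit 76) (nat_lit 3270027342) (nat_lit 184) (nat_lit 5) (nat_lit 191) (nat_lit 5) (nat_lit 185) (nat_lit 5) (nat_lit 371) (nat_lit 324) (nat_lit 205))))) (XT.nd (nat_lit 156) (nat_lit 1368) (nat_lit 0) (XT.nd (nat_lit 78) (nat_lit 456) (nat_lit 0) (XT.lf (nat_lit 0) (nat_lit 1094692976) (nat_lit 532) (nat_lit 4012902721) (nat_lit 76) (nat_lit 13588879969) (nat_lit 177) (nat_lit 5) (nat_lit 184) (nat_lit 5) (nat_lit 178) (nat_lit 5) (nat_lit 372) (nat_lit 324)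 (nat_lit 204)) (XT.lf (nat_lit 0) (nat_lit 6546948554) (nat_lit 532) (nat_lit 7280653340) (nat_lit 76) (nat_lit 5211839108) (nat_lit 171) (nat_lit 5) (nat_lit 178) (nat_lit 5) (nat_lit 172) (nat_lit 5) (nat_lit 373) (nat_lit 324) (nat_lit 203))) (XT.nd (nat_lit 78) (nat_lit 912) (nat_lit 0) (XT.lf (nat_lit 0) (nat_lit 8721820999) (nat_lit 456) (nat_lit 3541554147) (nat_lit 532) (nat_lit 7127312108) (nat_lit 165) (nat_lit 5) (nat_lit 171) (nat_lit 5) (nat_lit 172) (nat_lit 5) (nat_lit 374) (nat_lit 324) (nat_lit 202)) (XT.nd (nat_lit 78) (nat_lit 532) (nat_lit 0) (XT.lf (nat_lit 0) (nat_lit 5554736033) (nat_lit 380) (nat_lit 12710833703) (nat_lit 456) (nat_lit 1484619563) (nat_lit 160) (nat_lit 5) (nat_lit 165) (nat_lit 5) (nat_lit 166) (nat_lit 5) (nat_lit 375) (nat_lit 324) (nat_lit 201)) (XT.lf (nat_lit 0) (nat_lit 2244864844) (nat_lit 456) (nat_lit 2119752460) (nat_lit 532) (nat_lit 15753420547)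 (nat_lit 153) (nat_lit 5) (nat_lit 159) (nat_lit 5) (nat_lit 160) (nat_lit 5) (nat_lit 376) (nat_lit 324) (nat_lit 200))))))) (XT.nd (nat_lit 42900) (nat_lit 0) (nat_lit 26144) (XT.nd (nat_lit 390) (nat_lit 1140) (nat_lit 0) (XT.nd (nat_lit 156) (nat_lit 1216) (nat_lit 0) (XT.nd (nat_lit 78) (nat_lit 380) (nat_lit 0) (XT.lf (nat_lit 0) (nat_lit 10506447059) (nat_lit 532) (nat_lit 1214191215) (nat_lit 76) (nat_lit 8773345211) (nat_lit 153) (nat_lit 5) (nat_lit 160) (nat_lit 5) (nat_lit 154) (nat_lit 5) (nat_lit 377) (nat_lit 324) (nat_lit 199)) (XT.lf (nat_lit 0) (nat_lit 16118218855) (nat_lit 380) (nat_lit 816902467) (nat_lit 456) (nat_lit 3944037880) (nat_lit 148) (nat_lit 5) (nat_lit 153) (nat_lit 5) (nat_lit 154) (nat_lit 5) (nat_lit 378) (nat_lit 324) (nat_lit 198))) (XT.nd (nat_lit 78) (nat_lit 760) (nat_lit 0) (XT.lf (nat_lit 0) (nat_lit 2394760650) (nat_lit 456) (nat_lit 8500695362) (nat_lit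 76) (nat_lit 10377263197) (nat_lit 142) (nat_lit 5) (nat_lit 148) (nat_lit 5) (nat_lit 143) (nat_lit 5) (nat_lit 379) (nat_lit 324) (nat_lit 197)) (XT.nd (nat_lit 78) (nat_lit 380) (nat_lit 0) (XT.lf (nat_lit 0) (nat_lit 8955072440) (nat_lit 456) (nat_lit 12392923740) (nat_lit 76) (nat_lit 327873008) (nat_lit 137) (nat_lit 5) (nat_lit 143) (nat_lit 5) (nat_lit 138) (nat_lit 5) (nat_lit 380) (nat_lit 324) (nat_lit 196)) (XT.lf (nat_lit 0) (nat_lit 5603571343) (nat_lit 380) (nat_lit 10260360820) (nat_lit 456) (nat_lit 6224149877) (nat_lit 132) (nat_lit 5) (nat_lit 137) (nat_lit 5) (nat_lit 138) (nat_lit 5) (nat_lit 381) (nat_lit 324) (nat_lit 195))))) (XT.nd (nat_lit 156) (nat_lit 684) (nat_lit 0) (XT.nd (nat_lit 78) (nat_lit 0) (nat_lit 0) (XT.lf (nat_lit 0) (nat_lit 550305415) (nat_lit 456) (nat_lit 20723548498) (nat_lit 76) (nat_lit 1236968885) (nat_lit 126) (nat_lit 5) (nat_lit 132) (nat_lit 5)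 (nat_lit 127) (nat_lit 5) (nat_lit 382) (nat_lit 324) (nat_lit 194)) (XT.lf (nat_lit 0) (nat_lit 7609931584) (nat_lit 456) (nat_lit 2245014669) (nat_lit 76) (nat_lit 13087149620) (nat_lit 126) (nat_lit 5) (nat_lit 132) (nat_lit 5) (nat_lit 127) (nat_lit 5) (nat_lit 383) (nat_lit 324) (nat_lit 193))) (XT.nd (nat_lit 78) (nat_lit 304) (nat_lit 0) (XT.lf (nat_lit 0) (nat_lit 14990101990) (nat_lit 456) (nat_lit 6408986585) (nat_lit 76) (nat_lit 1985046278) (nat_lit 121) (nat_lit 5) (nat_lit 127) (nat_lit 5) (nat_lit 122) (nat_lit 5) (nat_lit 384) (nat_lit 324) (nat_lit 192)) (XT.nd (nat_lit 42198) (nat_lit 0) (nat_lit 27512) (XT.lf (nat_lit 0) (nat_lit 13046524940) (nat_lit 304) (nat_lit 9696707449) (nat_lit 380) (nat_lit 1093174256) (nat_lit 117) (nat_lit 5) (nat_lit 121) (nat_lit 5) (nat_lit 122) (nat_lit 5) (nat_lit 385) (nat_lit 324) (nat_lit 191)) (XT.lf (nat_lit 0) (nat_lit 1033253751) (nat_lit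 1596) (nat_lit 1765178275) (nat_lit 1596) (nat_lit 1765178275) (nat_lit 479) (nat_lit 3) (nat_lit 500) (nat_lit 3) (nat_lit 500) (nat_lit 5) (nat_lit 325) (nat_lit 325) (nat_lit 250)))))) (XT.nd (nat_lit 390) (nat_lit 1368) (nat_lit 0) (XT.nd (nat_lit 156) (nat_lit 0) (nat_lit 152) (XT.nd (nat_lit 78) (nat_lit 0) (nat_lit 76) (XT.lf (nat_lit 76) (nat_lit 3071654862) (nat_lit 0) (nat_lit 323755882) (nat_lit 1596) (nat_lit 5842270418) (nat_lit 480) (nat_lit 5) (nat_lit 479) (nat_lit 3) (nat_lit 500) (nat_lit 5) (nat_lit 326) (nat_lit 325) (nat_lit 249)) (XT.lf (nat_lit 76) (nat_lit 515553605) (nat_lit 0) (nat_lit 4259332404) (nat_lit 1596) (nat_lit 4576374538) (nat_lit 481) (nat_lit 5) (nat_lit 480) (nat_lit 5) (nat_lit 501) (nat_lit 5) (nat_lit 327) (nat_lit 325) (nat_lit 248))) (XT.nd (nat_lit 78) (nat_lit 0) (nat_lit 0) (XT.lf (nat_lit 0) (nat_lit 6199269852) (nat_lit 1520) (nat_lit 2023289841) (nat_lit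 1596) (nat_lit 1245635687) (nat_lit 481) (nat_lit 5) (nat_lit 501) (nat_lit 5) (nat_lit 502) (nat_lit 5) (nat_lit 328) (nat_lit 325) (nat_lit 247)) (XT.nd (nat_lit 78) (nat_lit 0) (nat_lit 76) (XT.lf (nat_lit 76) (nat_lit 5003788727) (nat_lit 0) (nat_lit 2676518838) (nat_lit 1596) (nat_lit 1908070257) (nat_lit 482) (nat_lit 5) (nat_lit 481) (nat_lit 5) (nat_lit 502) (nat_lit 5) (nat_lit 329) (nat_lit 325) (nat_lit 246)) (XT.lf (nat_lit 76) (nat_lit 2543563005) (nat_lit 0) (nat_lit 6666515687) (nat_lit 1596) (nat_lit 502018489) (nat_lit 483) (nat_lit 5) (nat_lit 482) (nat_lit 5) (nat_lit 503) (nat_lit 5) (nat_lit 330) (nat_lit 325) (nat_lit 245))))) (XT.nd (nat_lit 234) (nat_lit 0) (nat_lit 152) (XT.nd (nat_lit 78) (nat_lit 0) (nat_lit 76) (XT.lf (nat_lit 76) (nat_lit 58278627) (nat_lit 0) (nat_lit 880196041) (nat_lit 1672) (nat_lit 8900853837) (nat_lit 462) (nat_lit 5) (nat_lit 461) (nat_lit 5) (nat_lit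 483) (nat_lit 5) (nat_lit 331) (nat_lit 325) (nat_lit 244)) (XT.nd (nat_lit 78) (nat_lit 0) (nat_lit 76) (XT.lf (nat_lit 0) (nat_lit 2453637740) (nat_lit 1596) (nat_lit 2434240212) (nat_lit 1672) (nat_lit 5081683097) (nat_lit 462) (nat_lit 5) (nat_lit 483) (nat_lit 5) (nat_lit 484) (nat_lit 5) (nat_lit 332) (nat_lit 325) (nat_lit 243)) (XT.lf (nat_lit 0) (nat_lit 4018828318) (nat_lit 1596) (nat_lit 4943795347) (nat_lit 1672) (nat_lit 1141001143) (nat_lit 463) (nat_lit 5) (nat_lit 484) (nat_lit 5) (nat_lit 485) (nat_lit 5) (nat_lit 333) (nat_lit 325) (nat_lit 242)))) (XT.nd (nat_lit 78) (nat_lit 0) (nat_lit 76) (XT.lf (nat_lit 76) (nat_lit 2749054055) (nat_lit 0) (nat_lit 2907842723) (nat_lit 1672) (nat_lit 4584310491) (nat_lit 464) (nat_lit 5) (nat_lit 463) (nat_lit 5) (nat_lit 485) (nat_lit 5) (nat_lit 334) (nat_lit 325) (nat_lit 241)) (XT.nd (nat_lit 78) (nat_lit 0) (nat_lit 0) (XT.lf (nat_lit 76)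 (nat_lit 312058500) (nat_lit 0) (nat_lit 7049296028) (nat_lit 1672) (nat_lit 3021232520) (nat_lit 465) (nat_lit 5) (nat_lit 464) (nat_lit 5) (nat_lit 486) (nat_lit 5) (nat_lit 335) (nat_lit 325) (nat_lit 240)) (XT.lf (nat_lit 76) (nat_lit 8405391063) (nat_lit 0) (nat_lit 742516933) (nat_lit 1672) (nat_lit 1379695344) (nat_lit 465) (nat_lit 5) (nat_lit 464) (nat_lit 5) (nat_lit 486) (nat_lit 5) (nat_lit 336) (nat_lit 325) (nat_lit 239))))))))
noncomputable def xc92 : XT := (XT.nd (nat_lit 1560) (nat_lit 10260) (nat_lit 0) (XT.nd (nat_lit 780) (nat_lit 6460) (nat_lit 0) (XT.nd (nat_lit 390) (nat_lit 5320) (nat_lit 0) (XT.nd (nat_lit 156) (nat_lit 0) (nat_lit 76) (XT.nd (nat_lit 78) (nat_lit 0) (nat_lit 76) (XT.lf (nat_lit 0) (nat_lit 346161660) (nat_lit 1672) (nat_lit 4599445622) (nat_lit 1748) (nat_lit 5730553036) (nat_lit 443) (nat_lit 5) (nat_lit 465) (nat_lit 5) (nat_lit 466) (nat_lit 5) (nat_lit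 337) (nat_lit 325) (nat_lit 238)) (XT.lf (nat_lit 0) (nat_lit 2122056675) (nat_lit 1672) (nat_lit 7110932566) (nat_lit 1748) (nat_lit 1595675499) (nat_lit 444) (nat_lit 5) (nat_lit 466) (nat_lit 5) (nat_lit 467) (nat_lit 5) (nat_lit 338) (nat_lit 325) (nat_lit 237))) (XT.nd (nat_lit 78) (nat_lit 0) (nat_lit 76) (XT.lf (nat_lit 76) (nat_lit 1317980155) (nat_lit 0) (nat_lit 2669969758) (nat_lit 1748) (nat_lit 6997072834) (nat_lit 445) (nat_lit 5) (nat_lit 444) (nat_lit 5) (nat_lit 467) (nat_lit 5) (nat_lit 339) (nat_lit 325) (nat_lit 236)) (XT.nd (nat_lit 78) (nat_lit 0) (nat_lit 0) (XT.lf (nat_lit 0) (nat_lit 5949521900) (nat_lit 1672) (nat_lit 1103484393) (nat_lit 1748) (nat_lit 4092283672) (nat_lit 445) (nat_lit 5) (nat_lit 467) (nat_lit 5) (nat_lit 468) (nat_lit 5) (nat_lit 340) (nat_lit 325) (nat_lit 235)) (XT.lf (nat_lit 76) (nat_lit 7773307863) (nat_lit 0) (nat_lit 230630067) (nat_lit 1748) (nat_lit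 3305759474) (nat_lit 446) (nat_lit 5) (nat_lit 445) (nat_lit 5) (nat_lit 468) (nat_lit 5) (nat_lit 341) (nat_lit 325) (nat_lit 234))))) (XT.nd (nat_lit 156) (nat_lit 2052) (nat_lit 0) (XT.nd (nat_lit 78) (nat_lit 1824) (nat_lit 0) (XT.lf (nat_lit 0) (nat_lit 5451910079) (nat_lit 1672) (nat_lit 4721662533) (nat_lit 1748) (nat_lit 1304404521) (nat_lit 424) (nat_lit 5) (nat_lit 446) (nat_lit 5) (nat_lit 447) (nat_lit 5) (nat_lit 342) (nat_lit 325) (nat_lit 233)) (XT.lf (nat_lit 0) (nat_lit 775327285) (nat_lit 1824) (nat_lit 8552611182) (nat_lit 76) (nat_lit 2322714424) (nat_lit 400) (nat_lit 5) (nat_lit 424) (nat_lit 5) (nat_lit 401) (nat_lit 5) (nat_lit 343) (nat_lit 325) (nat_lit 232))) (XT.nd (nat_lit 78) (nat_lit 912) (nat_lit 0) (XT.lf (nat_lit 0) (nat_lit 690900252) (nat_lit 1140) (nat_lit 2254008083) (nat_lit 1216) (nat_lit 8882535457) (nat_lit 385) (nat_lit 5) (nat_lit 400) (nat_lit 5) (nat_lit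 401) (nat_lit 5) (nat_lit 344) (nat_lit 325) (nat_lit 231)) (XT.nd (nat_lit 78) (nat_lit 912) (nat_lit 0) (XT.lf (nat_lit 0) (nat_lit 5239276301) (nat_lit 1216) (nat_lit 1741109225) (nat_lit 76) (nat_lit 5027969484) (nat_lit 385) (nat_lit 5) (nat_lit 401) (nat_lit 5) (nat_lit 386) (nat_lit 5) (nat_lit 345) (nat_lit 325) (nat_lit 230)) (XT.lf (nat_lit 0) (nat_lit 7641412970) (nat_lit 988) (nat_lit 4197921444) (nat_lit 76) (nat_lit 354590664) (nat_lit 373) (nat_lit 5) (nat_lit 386) (nat_lit 5) (nat_lit 374) (nat_lit 5) (nat_lit 346) (nat_lit 325) (nat_lit 229)))))) (XT.nd (nat_lit 390) (nat_lit 3040) (nat_lit 0) (XT.nd (nat_lit 156) (nat_lit 1672) (nat_lit 0) (XT.nd (nat_lit 78) (nat_lit 912) (nat_lit 0) (XT.lf (nat_lit 0) (nat_lit 5663957483) (nat_lit 836) (nat_lit 4517313480) (nat_lit 912) (nat_lit 2202488113) (nat_lit 362) (nat_lit 5) (nat_lit 373) (nat_lit 5) (nat_lit 374) (nat_lit 5) (nat_lit 347)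 (nat_lit 325) (nat_lit 228)) (XT.lf (nat_lit 0) (nat_lit 256130061) (nat_lit 912) (nat_lit 9284284441) (nat_lit 76) (nat_lit 3038035707) (nat_lit 350) (nat_lit 5) (nat_lit 362) (nat_lit 5) (nat_lit 351) (nat_lit 5) (nat_lit 348) (nat_lit 325) (nat_lit 227))) (XT.nd (nat_lit 78) (nat_lit 836) (nat_lit 0) (XT.lf (nat_lit 0) (nat_lit 860622866) (nat_lit 836) (nat_lit 1951257065) (nat_lit 912) (nat_lit 9965754262) (nat_lit 339) (nat_lit 5) (nat_lit 350) (nat_lit 5) (nat_lit 351) (nat_lit 5) (nat_lit 349) (nat_lit 325) (nat_lit 226)) (XT.nd (nat_lit 78) (nat_lit 836) (nat_lit 0) (XT.lf (nat_lit 0) (nat_lit 5517862034) (nat_lit 912) (nat_lit 1611076504) (nat_lit 76) (nat_lit 5852392911) (nat_lit 339) (nat_lit 5) (nat_lit 351) (nat_lit 5) (nat_lit 340) (nat_lit 5) (nat_lit 350) (nat_lit 325) (nat_lit 225)) (XT.lf (nat_lit 0) (nat_lit 8354761402) (nat_lit 912) (nat_lit 4112083444) (nat_lit 76) (nat_lit 723308704)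 (nat_lit 328) (nat_lit 5) (nat_lit 340) (nat_lit 5) (nat_lit 329) (nat_lit 5) (nat_lit 351) (nat_lit 325) (nat_lit 224))))) (XT.nd (nat_lit 156) (nat_lit 1444) (nat_lit 0) (XT.nd (nat_lit 78) (nat_lit 836) (nat_lit 0) (XT.lf (nat_lit 0) (nat_lit 6718001367) (nat_lit 760) (nat_lit 4634617753) (nat_lit 836) (nat_lit 2051112599) (nat_lit 318) (nat_lit 5) (nat_lit 328) (nat_lit 5) (nat_lit 329) (nat_lit 5) (nat_lit 352) (nat_lit 325) (nat_lit 223)) (XT.lf (nat_lit 0) (nat_lit 858820421) (nat_lit 836) (nat_lit 9315474587) (nat_lit 76) (nat_lit 3448267476) (nat_lit 307) (nat_lit 5) (nat_lit 318) (nat_lit 5) (nat_lit 308) (nat_lit 5) (nat_lit 353) (nat_lit 325) (nat_lit 222))) (XT.nd (nat_lit 78) (nat_lit 760) (nat_lit 0) (XT.lf (nat_lit 0) (nat_lit 1825830234) (nat_lit 684) (nat_lit 2065527975) (nat_lit 760) (nat_lit 9955073130) (nat_lit 298) (nat_lit 5) (nat_lit 307) (nat_lit 5) (nat_lit 308) (nat_lit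 5) (nat_lit 354) (nat_lit 325) (nat_lit 221)) (XT.nd (nat_lit 78) (nat_lit 760) (nat_lit 0) (XT.lf (nat_lit 0) (nat_lit 7094346706) (nat_lit 760) (nat_lit 715411514) (nat_lit 76) (nat_lit 6265676114) (nat_lit 298) (nat_lit 5) (nat_lit 308) (nat_lit 5) (nat_lit 299) (nat_lit 5) (nat_lit 355) (nat_lit 325) (nat_lit 220)) (XT.lf (nat_lit 0) (nat_lit 10458470734) (nat_lit 836) (nat_lit 3280535121) (nat_lit 76) (nat_lit 571007989) (nat_lit 288) (nat_lit 5) (nat_lit 299) (nat_lit 5) (nat_lit 289) (nat_lit 5) (nat_lit 356) (nat_lit 325) (nat_lit 219))))))) (XT.nd (nat_lit 780) (nat_lit 4484) (nat_lit 0) (XT.nd (nat_lit 390) (nat_lit 3040) (nat_lit 0) (XT.nd (nat_lit 156) (nat_lit 1292) (nat_lit 0) (XT.nd (nat_lit 78) (nat_lit 760) (nat_lit 0) (XT.lf (nat_lit 0) (nat_lit 8619210084) (nat_lit 684) (nat_lit 5393736232) (nat_lit 760) (nat_lit 536902999) (nat_lit 279) (nat_lit 5) (nat_lit 288) (nat_lit 5) (nat_lit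 289) (nat_lit 5) (nat_lit 357) (nat_lit 325) (nat_lit 218)) (XT.lf (nat_lit 0) (nat_lit 2899836330) (nat_lit 760) (nat_lit 8657091470) (nat_lit 76) (nat_lit 3238377332) (nat_lit 269) (nat_lit 5) (nat_lit 279) (nat_lit 5) (nat_lit 270) (nat_lit 5) (nat_lit 358) (nat_lit 325) (nat_lit 217))) (XT.nd (nat_lit 78) (nat_lit 684) (nat_lit 0) (XT.lf (nat_lit 0) (nat_lit 3583618397) (nat_lit 608) (nat_lit 2925804455) (nat_lit 684) (nat_lit 8537096593) (nat_lit 261) (nat_lit 5) (nat_lit 269) (nat_lit 5) (nat_lit 270) (nat_lit 5) (nat_lit 359) (nat_lit 325) (nat_lit 216)) (XT.nd (nat_lit 78) (nat_lit 0) (nat_lit 0) (XT.lf (nat_lit 0) (nat_lit 952892808) (nat_lit 684) (nat_lit 9356043665) (nat_lit 760) (nat_lit 4994707323) (nat_lit 252) (nat_lit 5) (nat_lit 261) (nat_lit 5) (nat_lit 262) (nat_lit 5) (nat_lit 360) (nat_lit 325) (nat_lit 215)) (XT.lf (nat_lit 0) (nat_lit 13852224895) (nat_lit 684) (nat_lit 445482665)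 (nat_lit 760) (nat_lit 1269275088) (nat_lit 252) (nat_lit 5) (nat_lit 261) (nat_lit 5) (nat_lit 262) (nat_lit 5) (nat_lit 361) (nat_lit 325) (nat_lit 214))))) (XT.nd (nat_lit 156) (nat_lit 1748) (nat_lit 0) (XT.nd (nat_lit 78) (nat_lit 608) (nat_lit 0) (XT.lf (nat_lit 0) (nat_lit 2644226152) (nat_lit 684) (nat_lit 4486400564) (nat_lit 76) (nat_lit 8705067714) (nat_lit 243) (nat_lit 5) (nat_lit 252) (nat_lit 5) (nat_lit 244) (nat_lit 5) (nat_lit 362) (nat_lit 325) (nat_lit 213)) (XT.lf (nat_lit 0) (nat_lit 6722386225) (nat_lit 684) (nat_lit 7330054105) (nat_lit 76) (nat_lit 2058575210) (nat_lit 235) (nat_lit 5) (nat_lit 244) (nat_lit 5) (nat_lit 236) (nat_lit 5) (nat_lit 363) (nat_lit 325) (nat_lit 212))) (XT.nd (nat_lit 78) (nat_lit 1216) (nat_lit 0) (XT.lf (nat_lit 0) (nat_lit 6120653370) (nat_lit 532) (nat_lit 4899760845) (nat_lit 608) (nat_lit 5372237179) (nat_lit 228) (nat_lit 5) (nat_lit 235)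 (nat_lit 5) (nat_lit 236) (nat_lit 5) (nat_lit 364) (nat_lit 325) (nat_lit 211)) (XT.nd (nat_lit 78) (nat_lit 608) (nat_lit 0) (XT.lf (nat_lit 0) (nat_lit 3382653490) (nat_lit 608) (nat_lit 12145984509) (nat_lit 684) (nat_lit 1152478637) (nat_lit 220) (nat_lit 5) (nat_lit 228) (nat_lit 5) (nat_lit 229) (nat_lit 5) (nat_lit 365) (nat_lit 325) (nat_lit 210)) (XT.lf (nat_lit 0) (nat_lit 538487685) (nat_lit 532) (nat_lit 2700011792) (nat_lit 608) (nat_lit 13737596472) (nat_lit 212) (nat_lit 5) (nat_lit 219) (nat_lit 5) (nat_lit 220) (nat_lit 5) (nat_lit 366) (nat_lit 325) (nat_lit 209)))))) (XT.nd (nat_lit 390) (nat_lit 2356) (nat_lit 0) (XT.nd (nat_lit 156) (nat_lit 1596) (nat_lit 0) (XT.nd (nat_lit 78) (nat_lit 532) (nat_lit 0) (XT.lf (nat_lit 0) (nat_lit 7862553404) (nat_lit 608) (nat_lit 2384749111) (nat_lit 76) (nat_lit 7030134685) (nat_lit 212) (nat_lit 5) (nat_lit 220) (nat_lit 5) (nat_lit 213)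 (nat_lit 5) (nat_lit 367) (nat_lit 325) (nat_lit 208)) (XT.lf (nat_lit 0) (nat_lit 12207213021) (nat_lit 532) (nat_lit 496559885) (nat_lit 608) (nat_lit 4882481759) (nat_lit 205) (nat_lit 5) (nat_lit 212) (nat_lit 5) (nat_lit 213) (nat_lit 5) (nat_lit 368) (nat_lit 325) (nat_lit 207))) (XT.nd (nat_lit 78) (nat_lit 1064) (nat_lit 0) (XT.lf (nat_lit 0) (nat_lit 9402319886) (nat_lit 532) (nat_lit 8408692279) (nat_lit 608) (nat_lit 90913537) (nat_lit 198) (nat_lit 5) (nat_lit 205) (nat_lit 5) (nat_lit 206) (nat_lit 5) (nat_lit 369) (nat_lit 325) (nat_lit 206)) (XT.nd (nat_lit 78) (nat_lit 456) (nat_lit 0) (XT.lf (nat_lit 0) (nat_lit 4855576929) (nat_lit 608) (nat_lit 11735576459) (nat_lit 76) (nat_lit 1633794699) (nat_lit 190) (nat_lit 5) (nat_lit 198) (nat_lit 5) (nat_lit 191) (nat_lit 5) (nat_lit 370) (nat_lit 325) (nat_lit 205)) (XT.lf (nat_lit 0) (nat_lit 3451655752) (nat_lit 456) (nat_lit 6616280987)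 (nat_lit 532) (nat_lit 8487342546) (nat_lit 184) (nat_lit 5) (nat_lit 190) (nat_lit 5) (nat_lit 191) (nat_lit 5) (nat_lit 371) (nat_lit 325) (nat_lit 204))))) (XT.nd (nat_lit 234) (nat_lit 1368) (nat_lit 0) (XT.nd (nat_lit 78) (nat_lit 532) (nat_lit 0) (XT.lf (nat_lit 0) (nat_lit 316928842) (nat_lit 456) (nat_lit 15208004270) (nat_lit 532) (nat_lit 3368826219) (nat_lit 178) (nat_lit 5) (nat_lit 184) (nat_lit 5) (nat_lit 185) (nat_lit 5) (nat_lit 372) (nat_lit 325) (nat_lit 203)) (XT.nd (nat_lit 78) (nat_lit 456) (nat_lit 0) (XT.lf (nat_lit 0) (nat_lit 2008203082) (nat_lit 532) (nat_lit 2914797156) (nat_lit 76) (nat_lit 14316552045) (nat_lit 177) (nat_lit 5) (nat_lit 184) (nat_lit 5) (nat_lit 178) (nat_lit 5) (nat_lit 373) (nat_lit 325) (nat_lit 202)) (XT.lf (nat_lit 0) (nat_lit 7608339707) (nat_lit 532) (nat_lit 6285075570) (nat_lit 76) (nat_lit 5699710984) (nat_lit 171) (nat_lit 5) (nat_lit 178)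 (nat_lit 5) (nat_lit 172) (nat_lit 5) (nat_lit 374) (nat_lit 325) (nat_lit 201)))) (XT.nd (nat_lit 78) (nat_lit 912) (nat_lit 0) (XT.lf (nat_lit 0) (nat_lit 10177777335) (nat_lit 456) (nat_lit 3301042291) (nat_lit 532) (nat_lit 6476444842) (nat_lit 165) (nat_lit 5) (nat_lit 171) (nat_lit 5) (nat_lit 172) (nat_lit 5) (nat_lit 375) (nat_lit 325) (nat_lit 200)) (XT.nd (nat_lit 78) (nat_lit 532) (nat_lit 0) (XT.lf (nat_lit 0) (nat_lit 6910954107) (nat_lit 380) (nat_lit 12735349549) (nat_lit 456) (nat_lit 679549053) (nat_lit 160) (nat_lit 5) (nat_lit 165) (nat_lit 5) (nat_lit 166) (nat_lit 5) (nat_lit 376) (nat_lit 325) (nat_lit 199)) (XT.lf (nat_lit 0) (nat_lit 3493629617) (nat_lit 456) (nat_lit 1823641733) (nat_lit 532) (nat_lit 15387695397) (nat_lit 153) (nat_lit 5) (nat_lit 159) (nat_lit 5) (nat_lit 160) (nat_lit 5) (nat_lit 377) (nat_lit 325) (nat_lit 198))))))))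
noncomputable def xc93 : XT := (XT.nd (nat_lit 43836) (nat_lit 0) (nat_lit 10868) (XT.nd (nat_lit 43056) (nat_lit 0) (nat_lit 24016) (XT.nd (nat_lit 390) (nat_lit 456) (nat_lit 0) (XT.nd (nat_lit 156) (nat_lit 1216) (nat_lit 0) (XT.nd (nat_lit 78) (nat_lit 380) (nat_lit 0) (XT.lf (nat_lit 0) (nat_lit 11621689946) (nat_lit 532) (nat_lit 89747403) (nat_lit 76) (nat_lit 9381191905) (nat_lit 153) (nat_lit 5) (nat_lit 160) (nat_lit 5) (nat_lit 154) (nat_lit 5) (nat_lit 378) (nat_lit 325) (nat_lit 197)) (XT.lf (nat_lit 0) (nat_lit 17743801240) (nat_lit 380) (nat_lit 483535639) (nat_lit 456) (nat_lit 3262346145) (nat_lit 148) (nat_lit 5) (nat_lit 153) (nat_lit 5) (nat_lit 154) (nat_lit 5) (nat_lit 379) (nat_lit 325) (nat_lit 196))) (XT.nd (nat_lit 78) (nat_lit 760) (nat_lit 0) (XT.lf (nat_lit 0) (nat_lit 3242828943) (nat_lit 456) (nat_lit 7608425379) (nat_lit 76) (nat_lit 11043962316) (nat_lit 142) (nat_lit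 5) (nat_lit 148) (nat_lit 5) (nat_lit 143) (nat_lit 5) (nat_lit 380) (nat_lit 325) (nat_lit 195)) (XT.nd (nat_lit 78) (nat_lit 380) (nat_lit 0) (XT.lf (nat_lit 0) (nat_lit 9987057262) (nat_lit 456) (nat_lit 11623047711) (nat_lit 76) (nat_lit 700618649) (nat_lit 137) (nat_lit 5) (nat_lit 143) (nat_lit 5) (nat_lit 138) (nat_lit 5) (nat_lit 381) (nat_lit 325) (nat_lit 194)) (XT.lf (nat_lit 0) (nat_lit 6894820087) (nat_lit 380) (nat_lit 10193421880) (nat_lit 456) (nat_lit 5647364223) (nat_lit 132) (nat_lit 5) (nat_lit 137) (nat_lit 5) (nat_lit 138) (nat_lit 5) (nat_lit 382) (nat_lit 325) (nat_lit 193))))) (XT.nd (nat_lit 42432) (nat_lit 0) (nat_lit 26828) (XT.nd (nat_lit 78) (nat_lit 0) (nat_lit 0) (XT.lf (nat_lit 0) (nat_lit 1308045497) (nat_lit 456) (nat_lit 20217861807) (nat_lit 76) (nat_lit 1645272333) (nat_lit 126) (nat_lit 5) (nat_lit 132) (nat_lit 5) (nat_lit 127) (nat_lit 5) (nat_lit 383) (nat_lit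 325) (nat_lit 192)) (XT.lf (nat_lit 0) (nat_lit 8557871200) (nat_lit 456) (nat_lit 1217808657) (nat_lit 76) (nat_lit 13840147003) (nat_lit 126) (nat_lit 5) (nat_lit 132) (nat_lit 5) (nat_lit 127) (nat_lit 5) (nat_lit 384) (nat_lit 325) (nat_lit 191))) (XT.nd (nat_lit 78) (nat_lit 0) (nat_lit 0) (XT.lf (nat_lit 0) (nat_lit 2329929216) (nat_lit 1596) (nat_lit 1172395453) (nat_lit 1596) (nat_lit 1172395453) (nat_lit 479) (nat_lit 3) (nat_lit 500) (nat_lit 3) (nat_lit 500) (nat_lit 5) (nat_lit 326) (nat_lit 326) (nat_lit 248)) (XT.nd (nat_lit 78) (nat_lit 0) (nat_lit 76) (XT.lf (nat_lit 76) (nat_lit 4434328181) (nat_lit 0) (nat_lit 1528820866) (nat_lit 1596) (nat_lit 3501403414) (nat_lit 480) (nat_lit 5) (nat_lit 479) (nat_lit 3) (nat_lit 500) (nat_lit 5) (nat_lit 327) (nat_lit 326) (nat_lit 247)) (XT.lf (nat_lit 76) (nat_lit 1838009996) (nat_lit 0) (nat_lit 5475127818) (nat_lit 1596) (nat_lit 2269846255)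 (nat_lit 481) (nat_lit 5) (nat_lit 480) (nat_lit 5) (nat_lit 501) (nat_lit 5) (nat_lit 328) (nat_lit 326) (nat_lit 246)))))) (XT.nd (nat_lit 390) (nat_lit 1368) (nat_lit 0) (XT.nd (nat_lit 156) (nat_lit 0) (nat_lit 76) (XT.nd (nat_lit 78) (nat_lit 1596) (nat_lit 0) (XT.lf (nat_lit 0) (nat_lit 8703637371) (nat_lit 1520) (nat_lit 760815530) (nat_lit 1596) (nat_lit 240532988) (nat_lit 481) (nat_lit 5) (nat_lit 501) (nat_lit 5) (nat_lit 502) (nat_lit 5) (nat_lit 329) (nat_lit 326) (nat_lit 245)) (XT.lf (nat_lit 0) (nat_lit 335590879) (nat_lit 1596) (nat_lit 3376580494) (nat_lit 1672) (nat_lit 6117765614) (nat_lit 460) (nat_lit 5) (nat_lit 481) (nat_lit 5) (nat_lit 482) (nat_lit 5) (nat_lit 330) (nat_lit 326) (nat_lit 244))) (XT.nd (nat_lit 78) (nat_lit 0) (nat_lit 0) (XT.lf (nat_lit 0) (nat_lit 1701193715) (nat_lit 1596) (nat_lit 6018018256) (nat_lit 1672) (nat_lit 2239265236) (nat_lit 461) (nat_lit 5)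 (nat_lit 482) (nat_lit 5) (nat_lit 483) (nat_lit 5) (nat_lit 331) (nat_lit 326) (nat_lit 243)) (XT.nd (nat_lit 78) (nat_lit 0) (nat_lit 76) (XT.lf (nat_lit 76) (nat_lit 1400141395) (nat_lit 0) (nat_lit 1722267235) (nat_lit 1672) (nat_lit 6968187814) (nat_lit 462) (nat_lit 5) (nat_lit 461) (nat_lit 5) (nat_lit 483) (nat_lit 5) (nat_lit 332) (nat_lit 326) (nat_lit 242)) (XT.lf (nat_lit 0) (nat_lit 4615095302) (nat_lit 1596) (nat_lit 1158410948) (nat_lit 1672) (nat_lit 4452611535) (nat_lit 462) (nat_lit 5) (nat_lit 483) (nat_lit 5) (nat_lit 484) (nat_lit 5) (nat_lit 333) (nat_lit 326) (nat_lit 241))))) (XT.nd (nat_lit 156) (nat_lit 1596) (nat_lit 0) (XT.nd (nat_lit 78) (nat_lit 0) (nat_lit 0) (XT.lf (nat_lit 0) (nat_lit 6170444846) (nat_lit 1596) (nat_lit 3719071444) (nat_lit 1672) (nat_lit 475845621) (nat_lit 463) (nat_lit 5) (nat_lit 484) (nat_lit 5) (nat_lit 485) (nat_lit 5) (nat_lit 334) (nat_lit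 326) (nat_lit 240)) (XT.lf (nat_lit 76) (nat_lit 4182287533) (nat_lit 0) (nat_lit 3624981023) (nat_lit 1672) (nat_lit 2700832888) (nat_lit 464) (nat_lit 5) (nat_lit 463) (nat_lit 5) (nat_lit 485) (nat_lit 5) (nat_lit 335) (nat_lit 326) (nat_lit 239))) (XT.nd (nat_lit 78) (nat_lit 1672) (nat_lit 0) (XT.lf (nat_lit 76) (nat_lit 1693978543) (nat_lit 0) (nat_lit 7816133157) (nat_lit 1672) (nat_lit 1144687109) (nat_lit 465) (nat_lit 5) (nat_lit 464) (nat_lit 5) (nat_lit 486) (nat_lit 5) (nat_lit 336) (nat_lit 326) (nat_lit 238)) (XT.nd (nat_lit 78) (nat_lit 0) (nat_lit 76) (XT.lf (nat_lit 0) (nat_lit 482388912) (nat_lit 1672) (nat_lit 818349210) (nat_lit 1748) (nat_lit 9504507661) (nat_lit 442) (nat_lit 5) (nat_lit 464) (nat_lit 5) (nat_lit 465) (nat_lit 5) (nat_lit 337) (nat_lit 326) (nat_lit 237)) (XT.lf (nat_lit 0) (nat_lit 2191899993) (nat_lit 1672) (nat_lit 3360475324) (nat_lit 1748) (nat_lit 5406708912)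 (nat_lit 443) (nat_lit 5) (nat_lit 465) (nat_lit 5) (nat_lit 466) (nat_lit 5) (nat_lit 338) (nat_lit 326) (nat_lit 236))))))) (XT.nd (nat_lit 780) (nat_lit 7068) (nat_lit 0) (XT.nd (nat_lit 390) (nat_lit 4636) (nat_lit 0) (XT.nd (nat_lit 156) (nat_lit 1596) (nat_lit 0) (XT.nd (nat_lit 78) (nat_lit 0) (nat_lit 0) (XT.lf (nat_lit 0) (nat_lit 3973578711) (nat_lit 1672) (nat_lit 5930366392) (nat_lit 1748) (nat_lit 1213187587) (nat_lit 444) (nat_lit 5) (nat_lit 466) (nat_lit 5) (nat_lit 467) (nat_lit 5) (nat_lit 339) (nat_lit 326) (nat_lit 235)) (XT.lf (nat_lit 76) (nat_lit 2728799434) (nat_lit 0) (nat_lit 3123478969) (nat_lit 1748) (nat_lit 5426784931) (nat_lit 445) (nat_lit 5) (nat_lit 444) (nat_lit 5) (nat_lit 467) (nat_lit 5) (nat_lit 340) (nat_lit 326) (nat_lit 234))) (XT.nd (nat_lit 78) (nat_lit 1672) (nat_lit 0) (XT.lf (nat_lit 76) (nat_lit 234657973) (nat_lit 0) (nat_lit 7586393106) (nat_lit 1748)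 (nat_lit 3624138369) (nat_lit 446) (nat_lit 5) (nat_lit 445) (nat_lit 5) (nat_lit 468) (nat_lit 5) (nat_lit 341) (nat_lit 326) (nat_lit 233)) (XT.nd (nat_lit 78) (nat_lit 1672) (nat_lit 0) (XT.lf (nat_lit 76) (nat_lit 9352479494) (nat_lit 0) (nat_lit 542567915) (nat_lit 1748) (nat_lit 1720340172) (nat_lit 446) (nat_lit 5) (nat_lit 445) (nat_lit 5) (nat_lit 468) (nat_lit 5) (nat_lit 342) (nat_lit 326) (nat_lit 232)) (XT.lf (nat_lit 0) (nat_lit 295107581) (nat_lit 1748) (nat_lit 4816890984) (nat_lit 76) (nat_lit 6677518934) (nat_lit 423) (nat_lit 5) (nat_lit 446) (nat_lit 5) (nat_lit 424) (nat_lit 5) (nat_lit 343) (nat_lit 326) (nat_lit 231))))) (XT.nd (nat_lit 156) (nat_lit 1748) (nat_lit 0) (XT.nd (nat_lit 78) (nat_lit 1140) (nat_lit 0) (XT.lf (nat_lit 0) (nat_lit 2379765645) (nat_lit 1824) (nat_lit 7416720901) (nat_lit 76) (nat_lit 2171525525) (nat_lit 400) (nat_lit 5) (nat_lit 424) (nat_lit 5) (nat_lit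 401) (nat_lit 5) (nat_lit 344) (nat_lit 326) (nat_lit 230)) (XT.lf (nat_lit 0) (nat_lit 2081504726) (nat_lit 1140) (nat_lit 2495769810) (nat_lit 1216) (nat_lit 7573590992) (nat_lit 385) (nat_lit 5) (nat_lit 400) (nat_lit 5) (nat_lit 401) (nat_lit 5) (nat_lit 345) (nat_lit 326) (nat_lit 229))) (XT.nd (nat_lit 78) (nat_lit 1748) (nat_lit 0) (XT.lf (nat_lit 0) (nat_lit 6894404404) (nat_lit 1216) (nat_lit 431779699) (nat_lit 76) (nat_lit 5011956542) (nat_lit 385) (nat_lit 5) (nat_lit 401) (nat_lit 5) (nat_lit 386) (nat_lit 5) (nat_lit 346) (nat_lit 326) (nat_lit 228)) (XT.nd (nat_lit 78) (nat_lit 836) (nat_lit 0) (XT.lf (nat_lit 0) (nat_lit 9332870187) (nat_lit 988) (nat_lit 2953832276) (nat_lit 76) (nat_lit 243304792) (nat_lit 373) (nat_lit 5) (nat_lit 386) (nat_lit 5) (nat_lit 374) (nat_lit 5) (nat_lit 347) (nat_lit 326) (nat_lit 227)) (XT.lf (nat_lit 0) (nat_lit 7181675961) (nat_lit 836) (nat_lit 4733409986)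 (nat_lit 912) (nat_lit 811141393) (nat_lit 362) (nat_lit 5) (nat_lit 373) (nat_lit 5) (nat_lit 374) (nat_lit 5) (nat_lit 348) (nat_lit 326) (nat_lit 226)))))) (XT.nd (nat_lit 390) (nat_lit 3724) (nat_lit 0) (XT.nd (nat_lit 156) (nat_lit 1596) (nat_lit 0) (XT.nd (nat_lit 78) (nat_lit 836) (nat_lit 0) (XT.lf (nat_lit 0) (nat_lit 1668573219) (nat_lit 912) (nat_lit 8188669193) (nat_lit 76) (nat_lit 3070012119) (nat_lit 350) (nat_lit 5) (nat_lit 362) (nat_lit 5) (nat_lit 351) (nat_lit 5) (nat_lit 349) (nat_lit 326) (nat_lit 225)) (XT.lf (nat_lit 0) (nat_lit 2238291483) (nat_lit 836) (nat_lit 2030565891) (nat_lit 912) (nat_lit 8864212649) (nat_lit 339) (nat_lit 5) (nat_lit 350) (nat_lit 5) (nat_lit 351) (nat_lit 5) (nat_lit 350) (nat_lit 326) (nat_lit 224))) (XT.nd (nat_lit 78) (nat_lit 1596) (nat_lit 0) (XT.lf (nat_lit 0) (nat_lit 7015908754) (nat_lit 912) (nat_lit 319721434) (nat_lit 76) (nat_lit 6008063051)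 (nat_lit 339) (nat_lit 5) (nat_lit 351) (nat_lit 5) (nat_lit 340) (nat_lit 5) (nat_lit 351) (nat_lit 326) (nat_lit 223)) (XT.nd (nat_lit 78) (nat_lit 760) (nat_lit 0) (XT.lf (nat_lit 0) (nat_lit 9907763035) (nat_lit 912) (nat_lit 2891134714) (nat_lit 76) (nat_lit 760497758) (nat_lit 328) (nat_lit 5) (nat_lit 340) (nat_lit 5) (nat_lit 329) (nat_lit 5) (nat_lit 352) (nat_lit 326) (nat_lit 222)) (XT.lf (nat_lit 0) (nat_lit 8242042788) (nat_lit 760) (nat_lit 4724167472) (nat_lit 836) (nat_lit 813769787) (nat_lit 318) (nat_lit 5) (nat_lit 328) (nat_lit 5) (nat_lit 329) (nat_lit 5) (nat_lit 353) (nat_lit 326) (nat_lit 221))))) (XT.nd (nat_lit 234) (nat_lit 1444) (nat_lit 0) (XT.nd (nat_lit 78) (nat_lit 1444) (nat_lit 0) (XT.lf (nat_lit 0) (nat_lit 2138072489) (nat_lit 836) (nat_lit 8251723409) (nat_lit 76) (nat_lit 3615989766) (nat_lit 307) (nat_lit 5) (nat_lit 318) (nat_lit 5) (nat_lit 308) (nat_lit 5)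 (nat_lit 354) (nat_lit 326) (nat_lit 220)) (XT.nd (nat_lit 78) (nat_lit 760) (nat_lit 0) (XT.lf (nat_lit 0) (nat_lit 3202028482) (nat_lit 684) (nat_lit 2031628143) (nat_lit 760) (nat_lit 9003283740) (nat_lit 298) (nat_lit 5) (nat_lit 307) (nat_lit 5) (nat_lit 308) (nat_lit 5) (nat_lit 355) (nat_lit 326) (nat_lit 219)) (XT.lf (nat_lit 0) (nat_lit 577186168) (nat_lit 760) (nat_lit 7924204523) (nat_lit 836) (nat_lit 5972060496) (nat_lit 288) (nat_lit 5) (nat_lit 298) (nat_lit 5) (nat_lit 299) (nat_lit 5) (nat_lit 356) (nat_lit 326) (nat_lit 218)))) (XT.nd (nat_lit 78) (nat_lit 1444) (nat_lit 0) (XT.lf (nat_lit 0) (nat_lit 11937148805) (nat_lit 836) (nat_lit 2070809816) (nat_lit 76) (nat_lit 707705797) (nat_lit 288) (nat_lit 5) (nat_lit 299) (nat_lit 5) (nat_lit 289) (nat_lit 5) (nat_lit 357) (nat_lit 326) (nat_lit 217)) (XT.nd (nat_lit 78) (nat_lit 684) (nat_lit 0) (XT.lf (nat_lit 0) (nat_lit 601474406)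 (nat_lit 760) (nat_lit 4802469035) (nat_lit 76) (nat_lit 9559194089) (nat_lit 278) (nat_lit 5) (nat_lit 288) (nat_lit 5) (nat_lit 279) (nat_lit 5) (nat_lit 358) (nat_lit 326) (nat_lit 216)) (XT.lf (nat_lit 0) (nat_lit 4110001893) (nat_lit 760) (nat_lit 7613703245) (nat_lit 76) (nat_lit 3492671038) (nat_lit 269) (nat_lit 5) (nat_lit 279) (nat_lit 5) (nat_lit 270) (nat_lit 5) (nat_lit 359) (nat_lit 326) (nat_lit 215))))))))
noncomputable def xc94 : XT := (XT.nd (nat_lit 1560) (nat_lit 1672) (nat_lit 0) (XT.nd (nat_lit 780) (nat_lit 4332) (nat_lit 0) (XT.nd (nat_lit 390) (nat_lit 2280) (nat_lit 0) (XT.nd (nat_lit 156) (nat_lit 1292) (nat_lit 0) (XT.nd (nat_lit 78) (nat_lit 684) (nat_lit 0) (XT.lf (nat_lit 0) (nat_lit 4973086653) (nat_lit 608) (nat_lit 2830398988) (nat_lit 684) (nat_lit 7672138544) (nat_lit 261) (nat_lit 5) (nat_lit 269) (nat_lit 5) (nat_lit 270) (nat_lit 5) (nat_lit 360) (nat_lit 326)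 (nat_lit 214)) (XT.lf (nat_lit 0) (nat_lit 2263400196) (nat_lit 684) (nat_lit 9431058932) (nat_lit 760) (nat_lit 4046462831) (nat_lit 252) (nat_lit 5) (nat_lit 261) (nat_lit 5) (nat_lit 262) (nat_lit 5) (nat_lit 361) (nat_lit 326) (nat_lit 213))) (XT.nd (nat_lit 78) (nat_lit 1292) (nat_lit 0) (XT.lf (nat_lit 0) (nat_lit 15512374753) (nat_lit 684) (nat_lit 259171375) (nat_lit 760) (nat_lit 241250707) (nat_lit 252) (nat_lit 5) (nat_lit 261) (nat_lit 5) (nat_lit 262) (nat_lit 5) (nat_lit 362) (nat_lit 326) (nat_lit 212)) (XT.nd (nat_lit 78) (nat_lit 608) (nat_lit 0) (XT.lf (nat_lit 0) (nat_lit 3754426306) (nat_lit 684) (nat_lit 3363042723) (nat_lit 76) (nat_lit 9172395930) (nat_lit 243) (nat_lit 5) (nat_lit 252) (nat_lit 5) (nat_lit 244) (nat_lit 5) (nat_lit 363) (nat_lit 326) (nat_lit 211)) (XT.lf (nat_lit 0) (nat_lit 7934425283) (nat_lit 684) (nat_lit 6293446959) (nat_lit 76) (nat_lit 2345991818) (nat_lit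 235) (nat_lit 5) (nat_lit 244) (nat_lit 5) (nat_lit 236) (nat_lit 5) (nat_lit 364) (nat_lit 326) (nat_lit 210))))) (XT.nd (nat_lit 156) (nat_lit 1140) (nat_lit 0) (XT.nd (nat_lit 78) (nat_lit 608) (nat_lit 0) (XT.lf (nat_lit 0) (nat_lit 7540396378) (nat_lit 532) (nat_lit 4799595288) (nat_lit 608) (nat_lit 4524393370) (nat_lit 228) (nat_lit 5) (nat_lit 235) (nat_lit 5) (nat_lit 236) (nat_lit 5) (nat_lit 365) (nat_lit 326) (nat_lit 209)) (XT.lf (nat_lit 0) (nat_lit 4718343864) (nat_lit 608) (nat_lit 12245884785) (nat_lit 684) (nat_lit 197668022) (nat_lit 220) (nat_lit 5) (nat_lit 228) (nat_lit 5) (nat_lit 229) (nat_lit 5) (nat_lit 366) (nat_lit 326) (nat_lit 208))) (XT.nd (nat_lit 78) (nat_lit 532) (nat_lit 0) (XT.lf (nat_lit 0) (nat_lit 1781844565) (nat_lit 532) (nat_lit 2509747622) (nat_lit 608) (nat_lit 13174421518) (nat_lit 212) (nat_lit 5) (nat_lit 219) (nat_lit 5) (nat_lit 220) (nat_lit 5) (nat_lit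 367) (nat_lit 326) (nat_lit 207)) (XT.nd (nat_lit 78) (nat_lit 532) (nat_lit 0) (XT.lf (nat_lit 0) (nat_lit 9028234817) (nat_lit 608) (nat_lit 1247741931) (nat_lit 76) (nat_lit 7500948281) (nat_lit 212) (nat_lit 5) (nat_lit 220) (nat_lit 5) (nat_lit 213) (nat_lit 5) (nat_lit 368) (nat_lit 326) (nat_lit 206)) (XT.lf (nat_lit 0) (nat_lit 13762371782) (nat_lit 532) (nat_lit 232956830) (nat_lit 608) (nat_lit 4100072616) (nat_lit 205) (nat_lit 5) (nat_lit 212) (nat_lit 5) (nat_lit 213) (nat_lit 5) (nat_lit 369) (nat_lit 326) (nat_lit 205)))))) (XT.nd (nat_lit 390) (nat_lit 2204) (nat_lit 0) (XT.nd (nat_lit 156) (nat_lit 988) (nat_lit 0) (XT.nd (nat_lit 78) (nat_lit 532) (nat_lit 0) (XT.lf (nat_lit 0) (nat_lit 807106827) (nat_lit 608) (nat_lit 7555794614) (nat_lit 76) (nat_lit 10057882759) (nat_lit 197) (nat_lit 5) (nat_lit 205) (nat_lit 5) (nat_lit 198) (nat_lit 5) (nat_lit 370) (nat_lit 326) (nat_lit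 204)) (XT.lf (nat_lit 0) (nat_lit 5884150907) (nat_lit 608) (nat_lit 10892990897) (nat_lit 76) (nat_lit 1976681990) (nat_lit 190) (nat_lit 5) (nat_lit 198) (nat_lit 5) (nat_lit 191) (nat_lit 5) (nat_lit 371) (nat_lit 326) (nat_lit 203))) (XT.nd (nat_lit 78) (nat_lit 532) (nat_lit 0) (XT.lf (nat_lit 0) (nat_lit 4730476457) (nat_lit 456) (nat_lit 6504319965) (nat_lit 532) (nat_lit 7859636458) (nat_lit 184) (nat_lit 5) (nat_lit 190) (nat_lit 5) (nat_lit 191) (nat_lit 5) (nat_lit 372) (nat_lit 326) (nat_lit 202)) (XT.nd (nat_lit 78) (nat_lit 76) (nat_lit 0) (XT.lf (nat_lit 0) (nat_lit 1497878211) (nat_lit 456) (nat_lit 15341998208) (nat_lit 532) (nat_lit 2603509502) (nat_lit 178) (nat_lit 5) (nat_lit 184) (nat_lit 5) (nat_lit 185) (nat_lit 5) (nat_lit 373) (nat_lit 326) (nat_lit 201)) (XT.lf (nat_lit 0) (nat_lit 2898564470) (nat_lit 532) (nat_lit 1853694887) (nat_lit 76) (nat_lit 15047684648) (nat_lit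 177) (nat_lit 5) (nat_lit 184) (nat_lit 5) (nat_lit 178) (nat_lit 5) (nat_lit 374) (nat_lit 326) (nat_lit 200))))) (XT.nd (nat_lit 156) (nat_lit 1292) (nat_lit 0) (XT.nd (nat_lit 78) (nat_lit 456) (nat_lit 0) (XT.lf (nat_lit 0) (nat_lit 8651919050) (nat_lit 532) (nat_lit 5329318882) (nat_lit 76) (nat_lit 6183188601) (nat_lit 171) (nat_lit 5) (nat_lit 178) (nat_lit 5) (nat_lit 172) (nat_lit 5) (nat_lit 375) (nat_lit 326) (nat_lit 199)) (XT.lf (nat_lit 0) (nat_lit 11608854557) (nat_lit 456) (nat_lit 3073220434) (nat_lit 532) (nat_lit 5855688107) (nat_lit 165) (nat_lit 5) (nat_lit 171) (nat_lit 5) (nat_lit 172) (nat_lit 5) (nat_lit 376) (nat_lit 326) (nat_lit 198))) (XT.nd (nat_lit 78) (nat_lit 836) (nat_lit 0) (XT.lf (nat_lit 0) (nat_lit 99579180) (nat_lit 456) (nat_lit 12680835768) (nat_lit 76) (nat_lit 8139324786) (nat_lit 159) (nat_lit 5) (nat_lit 165) (nat_lit 5) (nat_lit 160) (nat_lit 5) (nat_lit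 377) (nat_lit 326) (nat_lit 197)) (XT.nd (nat_lit 78) (nat_lit 380) (nat_lit 0) (XT.lf (nat_lit 0) (nat_lit 4712039060) (nat_lit 456) (nat_lit 1539296125) (nat_lit 532) (nat_lit 15059121935) (nat_lit 153) (nat_lit 5) (nat_lit 159) (nat_lit 5) (nat_lit 160) (nat_lit 5) (nat_lit 378) (nat_lit 326) (nat_lit 196)) (XT.lf (nat_lit 0) (nat_lit 1015104338) (nat_lit 380) (nat_lit 11715950399) (nat_lit 456) (nat_lit 8978976282) (nat_lit 148) (nat_lit 5) (nat_lit 153) (nat_lit 5) (nat_lit 154) (nat_lit 5) (nat_lit 379) (nat_lit 326) (nat_lit 195))))))) (XT.nd (nat_lit 43134) (nat_lit 0) (nat_lit 24016) (XT.nd (nat_lit 42744) (nat_lit 0) (nat_lit 25308) (XT.nd (nat_lit 156) (nat_lit 1216) (nat_lit 0) (XT.nd (nat_lit 78) (nat_lit 456) (nat_lit 0) (XT.lf (nat_lit 0) (nat_lit 19352593569) (nat_lit 380) (nat_lit 160711232) (nat_lit 456) (nat_lit 2606127670) (nat_lit 148) (nat_lit 5) (nat_lit 153) (nat_lit 5) (nat_lit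 154) (nat_lit 5) (nat_lit 380) (nat_lit 326) (nat_lit 194)) (XT.lf (nat_lit 0) (nat_lit 4071780767) (nat_lit 456) (nat_lit 6755246484) (nat_lit 76) (nat_lit 11710262074) (nat_lit 142) (nat_lit 5) (nat_lit 148) (nat_lit 5) (nat_lit 143) (nat_lit 5) (nat_lit 381) (nat_lit 326) (nat_lit 193))) (XT.nd (nat_lit 78) (nat_lit 836) (nat_lit 0) (XT.lf (nat_lit 0) (nat_lit 11006183212) (nat_lit 456) (nat_lit 10895611570) (nat_lit 76) (nat_lit 1063714173) (nat_lit 137) (nat_lit 5) (nat_lit 143) (nat_lit 5) (nat_lit 138) (nat_lit 5) (nat_lit 382) (nat_lit 326) (nat_lit 192)) (XT.nd (nat_lit 78) (nat_lit 456) (nat_lit 0) (XT.lf (nat_lit 0) (nat_lit 8160333370) (nat_lit 380) (nat_lit 10145986942) (nat_lit 456) (nat_lit 5097103606) (nat_lit 132) (nat_lit 5) (nat_lit 137) (nat_lit 5) (nat_lit 138) (nat_lit 5) (nat_lit 383) (nat_lit 326) (nat_lit 191)) (XT.lf (nat_lit 0) (nat_lit 2045968093) (nat_lit 456) (nat_lit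 19761721495) (nat_lit 76) (nat_lit 2044516808) (nat_lit 126) (nat_lit 5) (nat_lit 132) (nat_lit 5) (nat_lit 127) (nat_lit 5) (nat_lit 384) (nat_lit 326) (nat_lit 190))))) (XT.nd (nat_lit 156) (nat_lit 1520) (nat_lit 0) (XT.nd (nat_lit 78) (nat_lit 0) (nat_lit 0) (XT.lf (nat_lit 0) (nat_lit 3592849859) (nat_lit 1596) (nat_lit 598897158) (nat_lit 1596) (nat_lit 598897158) (nat_lit 479) (nat_lit 3) (nat_lit 500) (nat_lit 3) (nat_lit 500) (nat_lit 5) (nat_lit 327) (nat_lit 327) (nat_lit 246)) (XT.lf (nat_lit 76) (nat_lit 5764948443) (nat_lit 0) (nat_lit 2701419688) (nat_lit 1596) (nat_lit 1234746848) (nat_lit 480) (nat_lit 5) (nat_lit 479) (nat_lit 3) (nat_lit 500) (nat_lit 5) (nat_lit 328) (nat_lit 327) (nat_lit 245))) (XT.nd (nat_lit 78) (nat_lit 1596) (nat_lit 0) (XT.lf (nat_lit 76) (nat_lit 3125113519) (nat_lit 0) (nat_lit 6664940556) (nat_lit 1596) (nat_lit 34407361) (nat_lit 481) (nat_lit 5) (nat_lit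 480) (nat_lit 5) (nat_lit 501) (nat_lit 5) (nat_lit 329) (nat_lit 327) (nat_lit 244)) (XT.nd (nat_lit 78) (nat_lit 0) (nat_lit 76) (XT.lf (nat_lit 76) (nat_lit 456922137) (nat_lit 0) (nat_lit 733651382) (nat_lit 1672) (nat_lit 8760706954) (nat_lit 460) (nat_lit 5) (nat_lit 459) (nat_lit 5) (nat_lit 481) (nat_lit 5) (nat_lit 330) (nat_lit 327) (nat_lit 243)) (XT.lf (nat_lit 0) (nat_lit 2490184780) (nat_lit 1596) (nat_lit 2221599124) (nat_lit 1672) (nat_lit 5369364349) (nat_lit 460) (nat_lit 5) (nat_lit 481) (nat_lit 5) (nat_lit 482) (nat_lit 5) (nat_lit 331) (nat_lit 327) (nat_lit 242)))))) (XT.nd (nat_lit 390) (nat_lit 1444) (nat_lit 0) (XT.nd (nat_lit 156) (nat_lit 0) (nat_lit 76) (XT.nd (nat_lit 78) (nat_lit 0) (nat_lit 0) (XT.lf (nat_lit 0) (nat_lit 3836772062) (nat_lit 1596) (nat_lit 4914540777) (nat_lit 1672) (nat_lit 1463454709) (nat_lit 461) (nat_lit 5) (nat_lit 482) (nat_lit 5) (nat_lit 483)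 (nat_lit 5) (nat_lit 332) (nat_lit 327) (nat_lit 241)) (XT.lf (nat_lit 76) (nat_lit 2705331997) (nat_lit 0) (nat_lit 2542778040) (nat_lit 1672) (nat_lit 5103813110) (nat_lit 462) (nat_lit 5) (nat_lit 461) (nat_lit 5) (nat_lit 483) (nat_lit 5) (nat_lit 333) (nat_lit 327) (nat_lit 240))) (XT.nd (nat_lit 78) (nat_lit 0) (nat_lit 0) (XT.lf (nat_lit 76) (nat_lit 79303392) (nat_lit 0) (nat_lit 6642757048) (nat_lit 1672) (nat_lit 3770741888) (nat_lit 463) (nat_lit 5) (nat_lit 462) (nat_lit 5) (nat_lit 484) (nat_lit 5) (nat_lit 334) (nat_lit 327) (nat_lit 239)) (XT.nd (nat_lit 78) (nat_lit 0) (nat_lit 76) (XT.lf (nat_lit 76) (nat_lit 8099767355) (nat_lit 0) (nat_lit 171364449) (nat_lit 1672) (nat_lit 2366171971) (nat_lit 463) (nat_lit 5) (nat_lit 462) (nat_lit 5) (nat_lit 484) (nat_lit 5) (nat_lit 335) (nat_lit 327) (nat_lit 238)) (XT.lf (nat_lit 76) (nat_lit 5580978759) (nat_lit 0) (nat_lit 4327474462) (nat_lit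 1672) (nat_lit 876865022) (nat_lit 464) (nat_lit 5) (nat_lit 463) (nat_lit 5) (nat_lit 485) (nat_lit 5) (nat_lit 336) (nat_lit 327) (nat_lit 237))))) (XT.nd (nat_lit 234) (nat_lit 0) (nat_lit 152) (XT.nd (nat_lit 78) (nat_lit 0) (nat_lit 0) (XT.lf (nat_lit 0) (nat_lit 666374579) (nat_lit 1672) (nat_lit 7903249260) (nat_lit 1748) (nat_lit 2367719424) (nat_lit 442) (nat_lit 5) (nat_lit 464) (nat_lit 5) (nat_lit 465) (nat_lit 5) (nat_lit 337) (nat_lit 327) (nat_lit 236)) (XT.nd (nat_lit 78) (nat_lit 0) (nat_lit 76) (XT.lf (nat_lit 76) (nat_lit 443244204) (nat_lit 0) (nat_lit 1833134153) (nat_lit 1748) (nat_lit 8816799658) (nat_lit 443) (nat_lit 5) (nat_lit 442) (nat_lit 5) (nat_lit 465) (nat_lit 5) (nat_lit 338) (nat_lit 327) (nat_lit 235)) (XT.lf (nat_lit 0) (nat_lit 3987653678) (nat_lit 1672) (nat_lit 2163378691) (nat_lit 1748) (nat_lit 5101608157) (nat_lit 443) (nat_lit 5) (nat_lit 465) (nat_lit 5)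 (nat_lit 466) (nat_lit 5) (nat_lit 339) (nat_lit 327) (nat_lit 234)))) (XT.nd (nat_lit 78) (nat_lit 0) (nat_lit 0) (XT.lf (nat_lit 0) (nat_lit 5778015911) (nat_lit 1672) (nat_lit 4794398459) (nat_lit 1748) (nat_lit 843929357) (nat_lit 444) (nat_lit 5) (nat_lit 466) (nat_lit 5) (nat_lit 467) (nat_lit 5) (nat_lit 340) (nat_lit 327) (nat_lit 233)) (XT.nd (nat_lit 78) (nat_lit 0) (nat_lit 76) (XT.lf (nat_lit 76) (nat_lit 4103226217) (nat_lit 0) (nat_lit 3569158188) (nat_lit 1748) (nat_lit 3911579158) (nat_lit 445) (nat_lit 5) (nat_lit 444) (nat_lit 5) (nat_lit 467) (nat_lit 5) (nat_lit 341) (nat_lit 327) (nat_lit 232)) (XT.lf (nat_lit 76) (nat_lit 1548467028) (nat_lit 0) (nat_lit 8110119798) (nat_lit 1748) (nat_lit 2097336223) (nat_lit 446) (nat_lit 5) (nat_lit 445) (nat_lit 5) (nat_lit 468) (nat_lit 5) (nat_lit 342) (nat_lit 327) (nat_lit 231))))))))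
noncomputable def xc95 : XT := (XT.nd (nat_lit 1638) (nat_lit 8436) (nat_lit 0) (XT.nd (nat_lit 780) (nat_lit 6460) (nat_lit 0) (XT.nd (nat_lit 390) (nat_lit 3420) (nat_lit 0) (XT.nd (nat_lit 156) (nat_lit 3800) (nat_lit 0) (XT.nd (nat_lit 78) (nat_lit 1672) (nat_lit 0) (XT.lf (nat_lit 76) (nat_lit 10901761952) (nat_lit 0) (nat_lit 846354563) (nat_lit 1748) (nat_lit 184060769) (nat_lit 446) (nat_lit 5) (nat_lit 445) (nat_lit 5) (nat_lit 468) (nat_lit 5) (nat_lit 343) (nat_lit 327) (nat_lit 230)) (XT.lf (nat_lit 0) (nat_lit 1831930940) (nat_lit 1748) (nat_lit 3659451300) (nat_lit 76) (nat_lit 6620740182) (nat_lit 423) (nat_lit 5) (nat_lit 446) (nat_lit 5) (nat_lit 424) (nat_lit 5) (nat_lit 344) (nat_lit 327) (nat_lit 229))) (XT.nd (nat_lit 78) (nat_lit 2052) (nat_lit 0) (XT.lf (nat_lit 0) (nat_lit 3941571040) (nat_lit 1824) (nat_lit 6326687308) (nat_lit 76) (nat_lit 2028479820) (nat_lit 400) (nat_lit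 5) (nat_lit 424) (nat_lit 5) (nat_lit 401) (nat_lit 5) (nat_lit 345) (nat_lit 327) (nat_lit 228)) (XT.nd (nat_lit 78) (nat_lit 912) (nat_lit 0) (XT.lf (nat_lit 0) (nat_lit 3435190764) (nat_lit 1140) (nat_lit 2734787955) (nat_lit 1216) (nat_lit 6315813777) (nat_lit 385) (nat_lit 5) (nat_lit 400) (nat_lit 5) (nat_lit 401) (nat_lit 5) (nat_lit 346) (nat_lit 327) (nat_lit 227)) (XT.lf (nat_lit 0) (nat_lit 849815925) (nat_lit 912) (nat_lit 7668899547) (nat_lit 988) (nat_lit 4160742843) (nat_lit 373) (nat_lit 5) (nat_lit 385) (nat_lit 5) (nat_lit 386) (nat_lit 5) (nat_lit 347) (nat_lit 327) (nat_lit 226))))) (XT.nd (nat_lit 156) (nat_lit 2508) (nat_lit 0) (XT.nd (nat_lit 78) (nat_lit 912) (nat_lit 0) (XT.lf (nat_lit 0) (nat_lit 10991134007) (nat_lit 988) (nat_lit 1751065577) (nat_lit 76) (nat_lit 135679257) (nat_lit 373) (nat_lit 5) (nat_lit 386) (nat_lit 5) (nat_lit 374) (nat_lit 5) (nat_lit 348) (nat_lit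 327) (nat_lit 225)) (XT.lf (nat_lit 0) (nat_lit 531224091) (nat_lit 912) (nat_lit 4416575048) (nat_lit 76) (nat_lit 8132767890) (nat_lit 361) (nat_lit 5) (nat_lit 373) (nat_lit 5) (nat_lit 362) (nat_lit 5) (nat_lit 349) (nat_lit 327) (nat_lit 224))) (XT.nd (nat_lit 78) (nat_lit 1672) (nat_lit 0) (XT.lf (nat_lit 0) (nat_lit 3042750744) (nat_lit 912) (nat_lit 7139066962) (nat_lit 76) (nat_lit 3106344118) (nat_lit 350) (nat_lit 5) (nat_lit 362) (nat_lit 5) (nat_lit 351) (nat_lit 5) (nat_lit 350) (nat_lit 327) (nat_lit 223)) (XT.nd (nat_lit 78) (nat_lit 836) (nat_lit 0) (XT.lf (nat_lit 0) (nat_lit 3579688442) (nat_lit 836) (nat_lit 2111061635) (nat_lit 912) (nat_lit 7810020035) (nat_lit 339) (nat_lit 5) (nat_lit 350) (nat_lit 5) (nat_lit 351) (nat_lit 5) (nat_lit 351) (nat_lit 327) (nat_lit 222)) (XT.lf (nat_lit 0) (nat_lit 945876087) (nat_lit 836) (nat_lit 7542670468) (nat_lit 912) (nat_lit 5229810897)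 (nat_lit 328) (nat_lit 5) (nat_lit 339) (nat_lit 5) (nat_lit 340) (nat_lit 5) (nat_lit 352) (nat_lit 327) (nat_lit 221)))))) (XT.nd (nat_lit 390) (nat_lit 3420) (nat_lit 0) (XT.nd (nat_lit 156) (nat_lit 2204) (nat_lit 0) (XT.nd (nat_lit 78) (nat_lit 836) (nat_lit 0) (XT.lf (nat_lit 0) (nat_lit 11432593996) (nat_lit 912) (nat_lit 1710726486) (nat_lit 76) (nat_lit 797913307) (nat_lit 328) (nat_lit 5) (nat_lit 340) (nat_lit 5) (nat_lit 329) (nat_lit 5) (nat_lit 353) (nat_lit 327) (nat_lit 220)) (XT.lf (nat_lit 0) (nat_lit 381068305) (nat_lit 836) (nat_lit 4435619069) (nat_lit 76) (nat_lit 9352262989) (nat_lit 317) (nat_lit 5) (nat_lit 328) (nat_lit 5) (nat_lit 318) (nat_lit 5) (nat_lit 354) (nat_lit 327) (nat_lit 219))) (XT.nd (nat_lit 78) (nat_lit 1444) (nat_lit 0) (XT.lf (nat_lit 0) (nat_lit 3383746812) (nat_lit 836) (nat_lit 7233165757) (nat_lit 76) (nat_lit 3785054119) (nat_lit 307) (nat_lit 5) (nat_lit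 318) (nat_lit 5) (nat_lit 308) (nat_lit 5) (nat_lit 355) (nat_lit 327) (nat_lit 218)) (XT.nd (nat_lit 78) (nat_lit 760) (nat_lit 0) (XT.lf (nat_lit 0) (nat_lit 4543657571) (nat_lit 684) (nat_lit 2002214397) (nat_lit 760) (nat_lit 8094721131) (nat_lit 298) (nat_lit 5) (nat_lit 307) (nat_lit 5) (nat_lit 308) (nat_lit 5) (nat_lit 356) (nat_lit 327) (nat_lit 217)) (XT.lf (nat_lit 0) (nat_lit 1842359887) (nat_lit 760) (nat_lit 8044302933) (nat_lit 836) (nat_lit 4998046166) (nat_lit 288) (nat_lit 5) (nat_lit 298) (nat_lit 5) (nat_lit 299) (nat_lit 5) (nat_lit 357) (nat_lit 327) (nat_lit 216))))) (XT.nd (nat_lit 234) (nat_lit 1976) (nat_lit 0) (XT.nd (nat_lit 78) (nat_lit 1444) (nat_lit 0) (XT.lf (nat_lit 0) (nat_lit 13393315817) (nat_lit 836) (nat_lit 899885417) (nat_lit 76) (nat_lit 841640871) (nat_lit 288) (nat_lit 5) (nat_lit 299) (nat_lit 5) (nat_lit 289) (nat_lit 5) (nat_lit 358) (nat_lit 327) (nat_lit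 215)) (XT.nd (nat_lit 78) (nat_lit 684) (nat_lit 0) (XT.lf (nat_lit 0) (nat_lit 1700894516) (nat_lit 760) (nat_lit 3718813005) (nat_lit 76) (nat_lit 9970381375) (nat_lit 278) (nat_lit 5) (nat_lit 288) (nat_lit 5) (nat_lit 279) (nat_lit 5) (nat_lit 359) (nat_lit 327) (nat_lit 214)) (XT.lf (nat_lit 0) (nat_lit 5291997843) (nat_lit 760) (nat_lit 6613816700) (nat_lit 76) (nat_lit 3745572941) (nat_lit 269) (nat_lit 5) (nat_lit 279) (nat_lit 5) (nat_lit 270) (nat_lit 5) (nat_lit 360) (nat_lit 327) (nat_lit 213)))) (XT.nd (nat_lit 78) (nat_lit 1368) (nat_lit 0) (XT.lf (nat_lit 0) (nat_lit 6330649225) (nat_lit 608) (nat_lit 2742646615) (nat_lit 684) (nat_lit 6845585812) (nat_lit 261) (nat_lit 5) (nat_lit 269) (nat_lit 5) (nat_lit 270) (nat_lit 5) (nat_lit 361) (nat_lit 327) (nat_lit 212)) (XT.nd (nat_lit 78) (nat_lit 684) (nat_lit 0) (XT.lf (nat_lit 0) (nat_lit 3539635320) (nat_lit 684) (nat_lit 9520130728)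 (nat_lit 760) (nat_lit 3132805616) (nat_lit 252) (nat_lit 5) (nat_lit 261) (nat_lit 5) (nat_lit 262) (nat_lit 5) (nat_lit 362) (nat_lit 327) (nat_lit 211)) (XT.lf (nat_lit 0) (nat_lit 681712428) (nat_lit 608) (nat_lit 69208924) (nat_lit 684) (nat_lit 15722094047) (nat_lit 243) (nat_lit 5) (nat_lit 251) (nat_lit 5) (nat_lit 252) (nat_lit 5) (nat_lit 363) (nat_lit 327) (nat_lit 210))))))) (XT.nd (nat_lit 780) (nat_lit 3952) (nat_lit 0) (XT.nd (nat_lit 390) (nat_lit 2128) (nat_lit 0) (XT.nd (nat_lit 156) (nat_lit 1748) (nat_lit 0) (XT.nd (nat_lit 78) (nat_lit 608) (nat_lit 0) (XT.lf (nat_lit 0) (nat_lit 4838756117) (nat_lit 684) (nat_lit 2278195616) (nat_lit 76) (nat_lit 9641908637) (nat_lit 243) (nat_lit 5) (nat_lit 252) (nat_lit 5) (nat_lit 244) (nat_lit 5) (nat_lit 364) (nat_lit 327) (nat_lit 209)) (XT.lf (nat_lit 0) (nat_lit 9124826286) (nat_lit 684) (nat_lit 5297870343) (nat_lit 76) (nat_lit 2629077154)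 (nat_lit 235) (nat_lit 5) (nat_lit 244) (nat_lit 5) (nat_lit 236) (nat_lit 5) (nat_lit 365) (nat_lit 327) (nat_lit 208))) (XT.nd (nat_lit 78) (nat_lit 1216) (nat_lit 0) (XT.lf (nat_lit 0) (nat_lit 8931773136) (nat_lit 532) (nat_lit 4710612668) (nat_lit 608) (nat_lit 3709035601) (nat_lit 228) (nat_lit 5) (nat_lit 235) (nat_lit 5) (nat_lit 236) (nat_lit 5) (nat_lit 366) (nat_lit 327) (nat_lit 207)) (XT.nd (nat_lit 78) (nat_lit 532) (nat_lit 0) (XT.lf (nat_lit 0) (nat_lit 719431303) (nat_lit 684) (nat_lit 11639705195) (nat_lit 76) (nat_lit 5298997137) (nat_lit 219) (nat_lit 5) (nat_lit 228) (nat_lit 5) (nat_lit 220) (nat_lit 5) (nat_lit 367) (nat_lit 327) (nat_lit 206)) (XT.lf (nat_lit 0) (nat_lit 2992055723) (nat_lit 532) (nat_lit 2329347219) (nat_lit 608) (nat_lit 12650337689) (nat_lit 212) (nat_lit 5) (nat_lit 219) (nat_lit 5) (nat_lit 220) (nat_lit 5) (nat_lit 368) (nat_lit 327) (nat_lit 205)))))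 (XT.nd (nat_lit 156) (nat_lit 1596) (nat_lit 0) (XT.nd (nat_lit 78) (nat_lit 532) (nat_lit 0) (XT.lf (nat_lit 0) (nat_lit 10175512073) (nat_lit 608) (nat_lit 146000229) (nat_lit 76) (nat_lit 7970966412) (nat_lit 212) (nat_lit 5) (nat_lit 220) (nat_lit 5) (nat_lit 213) (nat_lit 5) (nat_lit 369) (nat_lit 327) (nat_lit 204)) (XT.lf (nat_lit 0) (nat_lit 15273514388) (nat_lit 608) (nat_lit 3325092155) (nat_lit 76) (nat_lit 22271310) (nat_lit 205) (nat_lit 5) (nat_lit 213) (nat_lit 5) (nat_lit 206) (nat_lit 5) (nat_lit 370) (nat_lit 327) (nat_lit 203))) (XT.nd (nat_lit 78) (nat_lit 988) (nat_lit 0) (XT.lf (nat_lit 0) (nat_lit 1679203577) (nat_lit 608) (nat_lit 6653058142) (nat_lit 76) (nat_lit 10623979984) (nat_lit 197) (nat_lit 5) (nat_lit 205) (nat_lit 5) (nat_lit 198) (nat_lit 5) (nat_lit 371) (nat_lit 327) (nat_lit 202)) (XT.nd (nat_lit 78) (nat_lit 456) (nat_lit 0) (XT.lf (nat_lit 0) (nat_lit 6892899650)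 (nat_lit 608) (nat_lit 10093705729) (nat_lit 76) (nat_lit 2312986362) (nat_lit 190) (nat_lit 5) (nat_lit 198) (nat_lit 5) (nat_lit 191) (nat_lit 5) (nat_lit 372) (nat_lit 327) (nat_lit 201)) (XT.lf (nat_lit 0) (nat_lit 5980196419) (nat_lit 456) (nat_lit 6406821180) (nat_lit 532) (nat_lit 7263748330) (nat_lit 184) (nat_lit 5) (nat_lit 190) (nat_lit 5) (nat_lit 191) (nat_lit 5) (nat_lit 373) (nat_lit 327) (nat_lit 200)))))) (XT.nd (nat_lit 390) (nat_lit 2052) (nat_lit 0) (XT.nd (nat_lit 156) (nat_lit 1368) (nat_lit 0) (XT.nd (nat_lit 78) (nat_lit 76) (nat_lit 0) (XT.lf (nat_lit 0) (nat_lit 2647010527) (nat_lit 456) (nat_lit 15498510215) (nat_lit 532) (nat_lit 1864967126) (nat_lit 178) (nat_lit 5) (nat_lit 184) (nat_lit 5) (nat_lit 185) (nat_lit 5) (nat_lit 374) (nat_lit 327) (nat_lit 199)) (XT.lf (nat_lit 0) (nat_lit 3767984686) (nat_lit 532) (nat_lit 826690799) (nat_lit 76) (nat_lit 15783436087) (nat_lit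 177) (nat_lit 5) (nat_lit 184) (nat_lit 5) (nat_lit 178) (nat_lit 5) (nat_lit 375) (nat_lit 327) (nat_lit 198))) (XT.nd (nat_lit 78) (nat_lit 912) (nat_lit 0) (XT.lf (nat_lit 0) (nat_lit 9680002545) (nat_lit 532) (nat_lit 4410577508) (nat_lit 76) (nat_lit 6663232555) (nat_lit 171) (nat_lit 5) (nat_lit 178) (nat_lit 5) (nat_lit 172) (nat_lit 5) (nat_lit 376) (nat_lit 327) (nat_lit 197)) (XT.nd (nat_lit 78) (nat_lit 456) (nat_lit 0) (XT.lf (nat_lit 0) (nat_lit 13018241790) (nat_lit 456) (nat_lit 2857326629) (nat_lit 532) (nat_lit 5263095878) (nat_lit 165) (nat_lit 5) (nat_lit 171) (nat_lit 5) (nat_lit 172) (nat_lit 5) (nat_lit 377) (nat_lit 327) (nat_lit 196)) (XT.lf (nat_lit 0) (nat_lit 847533021) (nat_lit 456) (nat_lit 11994274936) (nat_lit 76) (nat_lit 8690461808) (nat_lit 159) (nat_lit 5) (nat_lit 165) (nat_lit 5) (nat_lit 160) (nat_lit 5) (nat_lit 378) (nat_lit 327) (nat_lit 195))))) (XT.nd (nat_lit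 234) (nat_lit 1216) (nat_lit 0) (XT.nd (nat_lit 78) (nat_lit 380) (nat_lit 0) (XT.lf (nat_lit 0) (nat_lit 5903075558) (nat_lit 456) (nat_lit 1265883284) (nat_lit 532) (nat_lit 14766052231) (nat_lit 153) (nat_lit 5) (nat_lit 159) (nat_lit 5) (nat_lit 160) (nat_lit 5) (nat_lit 379) (nat_lit 327) (nat_lit 194)) (XT.nd (nat_lit 78) (nat_lit 0) (nat_lit 0) (XT.lf (nat_lit 0) (nat_lit 2090682023) (nat_lit 380) (nat_lit 11739923594) (nat_lit 456) (nat_lit 8516220464) (nat_lit 148) (nat_lit 5) (nat_lit 153) (nat_lit 5) (nat_lit 154) (nat_lit 5) (nat_lit 380) (nat_lit 327) (nat_lit 193)) (XT.lf (nat_lit 0) (nat_lit 20796411353) (nat_lit 456) (nat_lit 1822066369) (nat_lit 76) (nat_lit 150434561) (nat_lit 148) (nat_lit 5) (nat_lit 154) (nat_lit 5) (nat_lit 149) (nat_lit 5) (nat_lit 381) (nat_lit 327) (nat_lit 192)))) (XT.nd (nat_lit 78) (nat_lit 760) (nat_lit 0) (XT.lf (nat_lit 0) (nat_lit 4883600469) (nat_lit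 456) (nat_lit 5938550823) (nat_lit 76) (nat_lit 12377321550) (nat_lit 142) (nat_lit 5) (nat_lit 148) (nat_lit 5) (nat_lit 143) (nat_lit 5) (nat_lit 382) (nat_lit 327) (nat_lit 191)) (XT.nd (nat_lit 78) (nat_lit 380) (nat_lit 0) (XT.lf (nat_lit 0) (nat_lit 12014579880) (nat_lit 456) (nat_lit 10208126470) (nat_lit 76) (nat_lit 1418065945) (nat_lit 137) (nat_lit 5) (nat_lit 143) (nat_lit 5) (nat_lit 138) (nat_lit 5) (nat_lit 383) (nat_lit 327) (nat_lit 190)) (XT.lf (nat_lit 0) (nat_lit 9403040139) (nat_lit 380) (nat_lit 10117406239) (nat_lit 456) (nat_lit 4571647834) (nat_lit 132) (nat_lit 5) (nat_lit 137) (nat_lit 5) (nat_lit 138) (nat_lit 5) (nat_lit 384) (nat_lit 327) (nat_lit 189))))))))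
noncomputable def xc96 : XT := (XT.nd (nat_lit 1560) (nat_lit 12616) (nat_lit 0) (XT.nd (nat_lit 780) (nat_lit 4256) (nat_lit 0) (XT.nd (nat_lit 390) (nat_lit 1292) (nat_lit 0) (XT.nd (nat_lit 156) (nat_lit 0) (nat_lit 76) (XT.nd (nat_lit 78) (nat_lit 1596) (nat_lit 0) (XT.lf (nat_lit 0) (nat_lit 4825173734) (nat_lit 1596) (nat_lit 43134071) (nat_lit 1596) (nat_lit 43134071) (nat_lit 479) (nat_lit 3) (nat_lit 500) (nat_lit 3) (nat_lit 500) (nat_lit 5) (nat_lit 328) (nat_lit 328) (nat_lit 244)) (XT.lf (nat_lit 0) (nat_lit 951124267) (nat_lit 1596) (nat_lit 2887010511) (nat_lit 1672) (nat_lit 6109233912) (nat_lit 458) (nat_lit 5) (nat_lit 479) (nat_lit 3) (nat_lit 480) (nat_lit 5) (nat_lit 329) (nat_lit 328) (nat_lit 243))) (XT.nd (nat_lit 78) (nat_lit 0) (nat_lit 0) (XT.lf (nat_lit 0) (nat_lit 2107850188) (nat_lit 1596) (nat_lit 5709581427) (nat_lit 1672) (nat_lit 2258115447) (nat_lit 459) (nat_lit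 5) (nat_lit 480) (nat_lit 5) (nat_lit 481) (nat_lit 5) (nat_lit 330) (nat_lit 328) (nat_lit 242)) (XT.nd (nat_lit 78) (nat_lit 0) (nat_lit 76) (XT.lf (nat_lit 76) (nat_lit 1641831910) (nat_lit 0) (nat_lit 1672475632) (nat_lit 1672) (nat_lit 6892977883) (nat_lit 460) (nat_lit 5) (nat_lit 459) (nat_lit 5) (nat_lit 481) (nat_lit 5) (nat_lit 331) (nat_lit 328) (nat_lit 241)) (XT.lf (nat_lit 0) (nat_lit 4586311924) (nat_lit 1596) (nat_lit 1104083855) (nat_lit 1672) (nat_lit 4652007883) (nat_lit 460) (nat_lit 5) (nat_lit 481) (nat_lit 5) (nat_lit 482) (nat_lit 5) (nat_lit 332) (nat_lit 328) (nat_lit 240))))) (XT.nd (nat_lit 156) (nat_lit 1520) (nat_lit 0) (XT.nd (nat_lit 78) (nat_lit 0) (nat_lit 0) (XT.lf (nat_lit 0) (nat_lit 5916756490) (nat_lit 1596) (nat_lit 3851666860) (nat_lit 1672) (nat_lit 712760853) (nat_lit 461) (nat_lit 5) (nat_lit 482) (nat_lit 5) (nat_lit 483) (nat_lit 5) (nat_lit 333) (nat_lit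 328) (nat_lit 239)) (XT.lf (nat_lit 76) (nat_lit 3977166253) (nat_lit 0) (nat_lit 3343769447) (nat_lit 1672) (nat_lit 3302529975) (nat_lit 462) (nat_lit 5) (nat_lit 461) (nat_lit 5) (nat_lit 483) (nat_lit 5) (nat_lit 334) (nat_lit 328) (nat_lit 238))) (XT.nd (nat_lit 78) (nat_lit 1596) (nat_lit 0) (XT.lf (nat_lit 76) (nat_lit 1296050653) (nat_lit 0) (nat_lit 7490582371) (nat_lit 1672) (nat_lit 1983008246) (nat_lit 463) (nat_lit 5) (nat_lit 462) (nat_lit 5) (nat_lit 484) (nat_lit 5) (nat_lit 335) (nat_lit 328) (nat_lit 237)) (XT.nd (nat_lit 78) (nat_lit 1596) (nat_lit 0) (XT.lf (nat_lit 76) (nat_lit 9521758590) (nat_lit 0) (nat_lit 806158404) (nat_lit 1672) (nat_lit 591665966) (nat_lit 463) (nat_lit 5) (nat_lit 462) (nat_lit 5) (nat_lit 484) (nat_lit 5) (nat_lit 336) (nat_lit 328) (nat_lit 236)) (XT.lf (nat_lit 0) (nat_lit 880762625) (nat_lit 1672) (nat_lit 4130286363) (nat_lit 1748) (nat_lit 6061869530)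 (nat_lit 441) (nat_lit 5) (nat_lit 463) (nat_lit 5) (nat_lit 464) (nat_lit 5) (nat_lit 337) (nat_lit 328) (nat_lit 235)))))) (XT.nd (nat_lit 390) (nat_lit 4332) (nat_lit 0) (XT.nd (nat_lit 156) (nat_lit 0) (nat_lit 76) (XT.nd (nat_lit 78) (nat_lit 0) (nat_lit 0) (XT.lf (nat_lit 0) (nat_lit 2411258966) (nat_lit 1672) (nat_lit 6897307258) (nat_lit 1748) (nat_lit 1921783178) (nat_lit 442) (nat_lit 5) (nat_lit 464) (nat_lit 5) (nat_lit 465) (nat_lit 5) (nat_lit 338) (nat_lit 328) (nat_lit 234)) (XT.lf (nat_lit 76) (nat_lit 1679414172) (nat_lit 0) (nat_lit 2347848780) (nat_lit 1748) (nat_lit 7364460194) (nat_lit 443) (nat_lit 5) (nat_lit 442) (nat_lit 5) (nat_lit 465) (nat_lit 5) (nat_lit 339) (nat_lit 328) (nat_lit 233))) (XT.nd (nat_lit 78) (nat_lit 0) (nat_lit 76) (XT.lf (nat_lit 0) (nat_lit 5737971086) (nat_lit 1672) (nat_lit 1004874554) (nat_lit 1748) (nat_lit 4814179427) (nat_lit 443) (nat_lit 5)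 (nat_lit 465) (nat_lit 5) (nat_lit 466) (nat_lit 5) (nat_lit 340) (nat_lit 328) (nat_lit 232)) (XT.nd (nat_lit 78) (nat_lit 0) (nat_lit 0) (XT.lf (nat_lit 0) (nat_lit 7539847140) (nat_lit 1672) (nat_lit 3699773514) (nat_lit 1748) (nat_lit 486879572) (nat_lit 444) (nat_lit 5) (nat_lit 466) (nat_lit 5) (nat_lit 467) (nat_lit 5) (nat_lit 341) (nat_lit 328) (nat_lit 231)) (XT.lf (nat_lit 76) (nat_lit 5444687411) (nat_lit 0) (nat_lit 4008002988) (nat_lit 1748) (nat_lit 2447241811) (nat_lit 445) (nat_lit 5) (nat_lit 444) (nat_lit 5) (nat_lit 467) (nat_lit 5) (nat_lit 342) (nat_lit 328) (nat_lit 230))))) (XT.nd (nat_lit 156) (nat_lit 2812) (nat_lit 0) (XT.nd (nat_lit 78) (nat_lit 1748) (nat_lit 0) (XT.lf (nat_lit 76) (nat_lit 2826676450) (nat_lit 0) (nat_lit 8632558936) (nat_lit 1748) (nat_lit 618615912) (nat_lit 446) (nat_lit 5) (nat_lit 445) (nat_lit 5) (nat_lit 468) (nat_lit 5) (nat_lit 343) (nat_lit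 328) (nat_lit 229)) (XT.lf (nat_lit 76) (nat_lit 157990223) (nat_lit 0) (nat_lit 1133047629) (nat_lit 1824) (nat_lit 10969060669) (nat_lit 423) (nat_lit 5) (nat_lit 422) (nat_lit 5) (nat_lit 446) (nat_lit 5) (nat_lit 344) (nat_lit 328) (nat_lit 228))) (XT.nd (nat_lit 78) (nat_lit 2888) (nat_lit 0) (XT.lf (nat_lit 0) (nat_lit 3327147264) (nat_lit 1748) (nat_lit 2542025476) (nat_lit 76) (nat_lit 6577016908) (nat_lit 423) (nat_lit 5) (nat_lit 446) (nat_lit 5) (nat_lit 424) (nat_lit 5) (nat_lit 345) (nat_lit 328) (nat_lit 227)) (XT.nd (nat_lit 78) (nat_lit 1140) (nat_lit 0) (XT.lf (nat_lit 0) (nat_lit 5464674826) (nat_lit 1824) (nat_lit 5279297597) (nat_lit 76) (nat_lit 1893093785) (nat_lit 400) (nat_lit 5) (nat_lit 424) (nat_lit 5) (nat_lit 401) (nat_lit 5) (nat_lit 346) (nat_lit 328) (nat_lit 226)) (XT.lf (nat_lit 0) (nat_lit 4755364874) (nat_lit 1140) (nat_lit 2971554047) (nat_lit 1216) (nat_lit 5105547455)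 (nat_lit 385) (nat_lit 5) (nat_lit 400) (nat_lit 5) (nat_lit 401) (nat_lit 5) (nat_lit 347) (nat_lit 328) (nat_lit 225))))))) (XT.nd (nat_lit 780) (nat_lit 6004) (nat_lit 0) (XT.nd (nat_lit 390) (nat_lit 3116) (nat_lit 0) (XT.nd (nat_lit 156) (nat_lit 2584) (nat_lit 0) (XT.nd (nat_lit 78) (nat_lit 0) (nat_lit 0) (XT.lf (nat_lit 0) (nat_lit 2101118005) (nat_lit 912) (nat_lit 8012026696) (nat_lit 988) (nat_lit 2919470418) (nat_lit 373) (nat_lit 5) (nat_lit 385) (nat_lit 5) (nat_lit 386) (nat_lit 5) (nat_lit 348) (nat_lit 328) (nat_lit 224)) (XT.lf (nat_lit 0) (nat_lit 12620026962) (nat_lit 988) (nat_lit 586346467) (nat_lit 76) (nat_lit 31422102) (nat_lit 373) (nat_lit 5) (nat_lit 386) (nat_lit 5) (nat_lit 374) (nat_lit 5) (nat_lit 349) (nat_lit 328) (nat_lit 223))) (XT.nd (nat_lit 78) (nat_lit 1672) (nat_lit 0) (XT.lf (nat_lit 0) (nat_lit 1825077972) (nat_lit 912) (nat_lit 3334171355) (nat_lit 76) (nat_lit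 8287760896) (nat_lit 361) (nat_lit 5) (nat_lit 373) (nat_lit 5) (nat_lit 362) (nat_lit 5) (nat_lit 350) (nat_lit 328) (nat_lit 222)) (XT.nd (nat_lit 78) (nat_lit 836) (nat_lit 0) (XT.lf (nat_lit 0) (nat_lit 4382143671) (nat_lit 912) (nat_lit 6132330020) (nat_lit 76) (nat_lit 3146967408) (nat_lit 350) (nat_lit 5) (nat_lit 362) (nat_lit 5) (nat_lit 351) (nat_lit 5) (nat_lit 351) (nat_lit 328) (nat_lit 221)) (XT.lf (nat_lit 0) (nat_lit 4888180249) (nat_lit 836) (nat_lit 2192848350) (nat_lit 912) (nat_lit 6799981873) (nat_lit 339) (nat_lit 5) (nat_lit 350) (nat_lit 5) (nat_lit 351) (nat_lit 5) (nat_lit 352) (nat_lit 328) (nat_lit 220))))) (XT.nd (nat_lit 156) (nat_lit 2280) (nat_lit 0) (XT.nd (nat_lit 78) (nat_lit 0) (nat_lit 0) (XT.lf (nat_lit 0) (nat_lit 2180365635) (nat_lit 836) (nat_lit 7754586844) (nat_lit 912) (nat_lit 4170740491) (nat_lit 328) (nat_lit 5) (nat_lit 339) (nat_lit 5) (nat_lit 340)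 (nat_lit 5) (nat_lit 353) (nat_lit 328) (nat_lit 219)) (XT.lf (nat_lit 0) (nat_lit 12932700734) (nat_lit 912) (nat_lit 567645162) (nat_lit 76) (nat_lit 835613187) (nat_lit 328) (nat_lit 5) (nat_lit 340) (nat_lit 5) (nat_lit 329) (nat_lit 5) (nat_lit 354) (nat_lit 328) (nat_lit 218))) (XT.nd (nat_lit 78) (nat_lit 1444) (nat_lit 0) (XT.lf (nat_lit 0) (nat_lit 1531399654) (nat_lit 836) (nat_lit 3378175558) (nat_lit 76) (nat_lit 9661314313) (nat_lit 317) (nat_lit 5) (nat_lit 328) (nat_lit 5) (nat_lit 318) (nat_lit 5) (nat_lit 355) (nat_lit 328) (nat_lit 217)) (XT.nd (nat_lit 78) (nat_lit 684) (nat_lit 0) (XT.lf (nat_lit 0) (nat_lit 4598966585) (nat_lit 836) (nat_lit 6256731231) (nat_lit 76) (nat_lit 3955712596) (nat_lit 307) (nat_lit 5) (nat_lit 318) (nat_lit 5) (nat_lit 308) (nat_lit 5) (nat_lit 356) (nat_lit 328) (nat_lit 216)) (XT.lf (nat_lit 0) (nat_lit 5854034821) (nat_lit 684) (nat_lit 1977105422)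 (nat_lit 760) (nat_lit 7226561614) (nat_lit 298) (nat_lit 5) (nat_lit 307) (nat_lit 5) (nat_lit 308) (nat_lit 5) (nat_lit 357) (nat_lit 328) (nat_lit 215)))))) (XT.nd (nat_lit 390) (nat_lit 3192) (nat_lit 0) (XT.nd (nat_lit 156) (nat_lit 1368) (nat_lit 0) (XT.nd (nat_lit 78) (nat_lit 684) (nat_lit 0) (XT.lf (nat_lit 0) (nat_lit 3073856655) (nat_lit 760) (nat_lit 8174756607) (nat_lit 836) (nat_lit 4061008434) (nat_lit 288) (nat_lit 5) (nat_lit 298) (nat_lit 5) (nat_lit 299) (nat_lit 5) (nat_lit 358) (nat_lit 328) (nat_lit 214)) (XT.lf (nat_lit 0) (nat_lit 238512811) (nat_lit 684) (nat_lit 14593170903) (nat_lit 760) (nat_lit 736160104) (nat_lit 279) (nat_lit 5) (nat_lit 288) (nat_lit 5) (nat_lit 289) (nat_lit 5) (nat_lit 359) (nat_lit 328) (nat_lit 213))) (XT.nd (nat_lit 78) (nat_lit 1292) (nat_lit 0) (XT.lf (nat_lit 0) (nat_lit 2771221831) (nat_lit 760) (nat_lit 2673124024) (nat_lit 76) (nat_lit 10386762553)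 (nat_lit 278) (nat_lit 5) (nat_lit 288) (nat_lit 5) (nat_lit 279) (nat_lit 5) (nat_lit 360) (nat_lit 328) (nat_lit 212)) (XT.nd (nat_lit 78) (nat_lit 608) (nat_lit 0) (XT.lf (nat_lit 0) (nat_lit 6448680196) (nat_lit 760) (nat_lit 5654442869) (nat_lit 76) (nat_lit 3997559104) (nat_lit 269) (nat_lit 5) (nat_lit 279) (nat_lit 5) (nat_lit 270) (nat_lit 5) (nat_lit 361) (nat_lit 328) (nat_lit 211)) (XT.lf (nat_lit 0) (nat_lit 7659573294) (nat_lit 608) (nat_lit 2662173310) (nat_lit 684) (nat_lit 6054896371) (nat_lit 261) (nat_lit 5) (nat_lit 269) (nat_lit 5) (nat_lit 270) (nat_lit 5) (nat_lit 362) (nat_lit 328) (nat_lit 210))))) (XT.nd (nat_lit 234) (nat_lit 1824) (nat_lit 0) (XT.nd (nat_lit 78) (nat_lit 684) (nat_lit 0) (XT.lf (nat_lit 0) (nat_lit 4784794233) (nat_lit 684) (nat_lit 9623003034) (nat_lit 760) (nat_lit 2251154852) (nat_lit 252) (nat_lit 5) (nat_lit 261) (nat_lit 5) (nat_lit 262) (nat_lit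 5) (nat_lit 363) (nat_lit 328) (nat_lit 209)) (XT.nd (nat_lit 78) (nat_lit 0) (nat_lit 0) (XT.lf (nat_lit 0) (nat_lit 1716381328) (nat_lit 684) (nat_lit 15113376909) (nat_lit 76) (nat_lit 118330142) (nat_lit 243) (nat_lit 5) (nat_lit 252) (nat_lit 5) (nat_lit 244) (nat_lit 5) (nat_lit 364) (nat_lit 328) (nat_lit 208)) (XT.lf (nat_lit 0) (nat_lit 5899836438) (nat_lit 684) (nat_lit 1228869329) (nat_lit 76) (nat_lit 10114350767) (nat_lit 243) (nat_lit 5) (nat_lit 252) (nat_lit 5) (nat_lit 244) (nat_lit 5) (nat_lit 365) (nat_lit 328) (nat_lit 207)))) (XT.nd (nat_lit 78) (nat_lit 1216) (nat_lit 0) (XT.lf (nat_lit 0) (nat_lit 10296269486) (nat_lit 684) (nat_lit 4340414686) (nat_lit 76) (nat_lit 2908444880) (nat_lit 235) (nat_lit 5) (nat_lit 244) (nat_lit 5) (nat_lit 236) (nat_lit 5) (nat_lit 366) (nat_lit 328) (nat_lit 206)) (XT.nd (nat_lit 78) (nat_lit 684) (nat_lit 0) (XT.lf (nat_lit 0) (nat_lit 10298005967)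 (nat_lit 532) (nat_lit 4632334027) (nat_lit 608) (nat_lit 2923813532) (nat_lit 228) (nat_lit 5) (nat_lit 235) (nat_lit 5) (nat_lit 236) (nat_lit 5) (nat_lit 367) (nat_lit 328) (nat_lit 205)) (XT.lf (nat_lit 0) (nat_lit 1608541003) (nat_lit 684) (nat_lit 10880561632) (nat_lit 76) (nat_lit 5681199012) (nat_lit 219) (nat_lit 5) (nat_lit 228) (nat_lit 5) (nat_lit 220) (nat_lit 5) (nat_lit 368) (nat_lit 328) (nat_lit 204))))))))
noncomputable def xc97 : XT := (XT.nd (nat_lit 44070) (nat_lit 0) (nat_lit 15352) (XT.nd (nat_lit 780) (nat_lit 2128) (nat_lit 0) (XT.nd (nat_lit 390) (nat_lit 1900) (nat_lit 0) (XT.nd (nat_lit 156) (nat_lit 1140) (nat_lit 0) (XT.nd (nat_lit 78) (nat_lit 532) (nat_lit 0) (XT.lf (nat_lit 0) (nat_lit 4172170699) (nat_lit 532) (nat_lit 2158212620) (nat_lit 608) (nat_lit 12163303871) (nat_lit 212) (nat_lit 5) (nat_lit 219) (nat_lit 5) (nat_lit 220) (nat_lit 5) (nat_lit 369) (nat_lit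 328) (nat_lit 203)) (XT.lf (nat_lit 0) (nat_lit 935671983) (nat_lit 532) (nat_lit 10377299986) (nat_lit 608) (nat_lit 7511424697) (nat_lit 205) (nat_lit 5) (nat_lit 212) (nat_lit 5) (nat_lit 213) (nat_lit 5) (nat_lit 370) (nat_lit 328) (nat_lit 202))) (XT.nd (nat_lit 78) (nat_lit 1140) (nat_lit 0) (XT.lf (nat_lit 0) (nat_lit 16542242774) (nat_lit 608) (nat_lit 2353706933) (nat_lit 76) (nat_lit 267137694) (nat_lit 205) (nat_lit 5) (nat_lit 213) (nat_lit 5) (nat_lit 206) (nat_lit 5) (nat_lit 371) (nat_lit 328) (nat_lit 201)) (XT.nd (nat_lit 78) (nat_lit 532) (nat_lit 0) (XT.lf (nat_lit 0) (nat_lit 2528791245) (nat_lit 608) (nat_lit 5788072348) (nat_lit 76) (nat_lit 11191884738) (nat_lit 197) (nat_lit 5) (nat_lit 205) (nat_lit 5) (nat_lit 198) (nat_lit 5) (nat_lit 372) (nat_lit 328) (nat_lit 200)) (XT.lf (nat_lit 0) (nat_lit 7884137780) (nat_lit 608) (nat_lit 9335083311) (nat_lit 76) (nat_lit 2643478707)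 (nat_lit 190) (nat_lit 5) (nat_lit 198) (nat_lit 5) (nat_lit 191) (nat_lit 5) (nat_lit 373) (nat_lit 328) (nat_lit 199))))) (XT.nd (nat_lit 156) (nat_lit 988) (nat_lit 0) (XT.nd (nat_lit 78) (nat_lit 456) (nat_lit 0) (XT.lf (nat_lit 0) (nat_lit 7203815402) (nat_lit 456) (nat_lit 6323195499) (nat_lit 532) (nat_lit 6697725233) (nat_lit 184) (nat_lit 5) (nat_lit 190) (nat_lit 5) (nat_lit 191) (nat_lit 5) (nat_lit 374) (nat_lit 328) (nat_lit 198)) (XT.lf (nat_lit 0) (nat_lit 3767231446) (nat_lit 456) (nat_lit 15677153956) (nat_lit 532) (nat_lit 1151147396) (nat_lit 178) (nat_lit 5) (nat_lit 184) (nat_lit 5) (nat_lit 185) (nat_lit 5) (nat_lit 375) (nat_lit 328) (nat_lit 197))) (XT.nd (nat_lit 78) (nat_lit 456) (nat_lit 0) (XT.lf (nat_lit 0) (nat_lit 171222499) (nat_lit 456) (nat_lit 4448460105) (nat_lit 532) (nat_lit 16354828077) (nat_lit 171) (nat_lit 5) (nat_lit 177) (nat_lit 5) (nat_lit 178) (nat_lit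 5) (nat_lit 376) (nat_lit 328) (nat_lit 196)) (XT.nd (nat_lit 78) (nat_lit 456) (nat_lit 0) (XT.lf (nat_lit 0) (nat_lit 10694812012) (nat_lit 532) (nat_lit 3526191148) (nat_lit 76) (nat_lit 7140769551) (nat_lit 171) (nat_lit 5) (nat_lit 178) (nat_lit 5) (nat_lit 172) (nat_lit 5) (nat_lit 377) (nat_lit 328) (nat_lit 195)) (XT.lf (nat_lit 0) (nat_lit 14408997920) (nat_lit 456) (nat_lit 2652641659) (nat_lit 532) (nat_lit 4696827315) (nat_lit 165) (nat_lit 5) (nat_lit 171) (nat_lit 5) (nat_lit 172) (nat_lit 5) (nat_lit 378) (nat_lit 328) (nat_lit 194)))))) (XT.nd (nat_lit 390) (nat_lit 380) (nat_lit 0) (XT.nd (nat_lit 156) (nat_lit 836) (nat_lit 0) (XT.nd (nat_lit 78) (nat_lit 456) (nat_lit 0) (XT.lf (nat_lit 0) (nat_lit 1575161356) (nat_lit 456) (nat_lit 11348366635) (nat_lit 76) (nat_lit 9240512337) (nat_lit 159) (nat_lit 5) (nat_lit 165) (nat_lit 5) (nat_lit 160) (nat_lit 5) (nat_lit 379) (nat_lit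 328) (nat_lit 193)) (XT.lf (nat_lit 0) (nat_lit 7069587493) (nat_lit 456) (nat_lit 1002613931) (nat_lit 532) (nat_lit 14506947491) (nat_lit 153) (nat_lit 5) (nat_lit 159) (nat_lit 5) (nat_lit 160) (nat_lit 5) (nat_lit 380) (nat_lit 328) (nat_lit 192))) (XT.nd (nat_lit 78) (nat_lit 456) (nat_lit 0) (XT.lf (nat_lit 0) (nat_lit 3138532614) (nat_lit 380) (nat_lit 11783416129) (nat_lit 456) (nat_lit 8081608948) (nat_lit 148) (nat_lit 5) (nat_lit 153) (nat_lit 5) (nat_lit 154) (nat_lit 5) (nat_lit 381) (nat_lit 328) (nat_lit 191)) (XT.nd (nat_lit 78) (nat_lit 456) (nat_lit 0) (XT.lf (nat_lit 0) (nat_lit 22078972895) (nat_lit 456) (nat_lit 908962357) (nat_lit 76) (nat_lit 450730558) (nat_lit 148) (nat_lit 5) (nat_lit 154) (nat_lit 5) (nat_lit 149) (nat_lit 5) (nat_lit 382) (nat_lit 328) (nat_lit 190)) (XT.lf (nat_lit 0) (nat_lit 5680185097) (nat_lit 456) (nat_lit 5155869328) (nat_lit 76) (nat_lit 13046267377)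 (nat_lit 142) (nat_lit 5) (nat_lit 148) (nat_lit 5) (nat_lit 143) (nat_lit 5) (nat_lit 383) (nat_lit 328) (nat_lit 189))))) (XT.nd (nat_lit 42666) (nat_lit 0) (nat_lit 24396) (XT.nd (nat_lit 42588) (nat_lit 0) (nat_lit 24396) (XT.lf (nat_lit 0) (nat_lit 13014296353) (nat_lit 456) (nat_lit 9558244855) (nat_lit 76) (nat_lit 1764538875) (nat_lit 137) (nat_lit 5) (nat_lit 143) (nat_lit 5) (nat_lit 138) (nat_lit 5) (nat_lit 384) (nat_lit 328) (nat_lit 188)) (XT.lf (nat_lit 0) (nat_lit 493101883) (nat_lit 0) (nat_lit 493101883) (nat_lit 1596) (nat_lit 4050716854) (nat_lit 458) (nat_lit 5) (nat_lit 458) (nat_lit 3) (nat_lit 479) (nat_lit 3) (nat_lit 329) (nat_lit 329) (nat_lit 242))) (XT.nd (nat_lit 78) (nat_lit 0) (nat_lit 76) (XT.lf (nat_lit 0) (nat_lit 3059244927) (nat_lit 1596) (nat_lit 1881167511) (nat_lit 1672) (nat_lit 5263012448) (nat_lit 458) (nat_lit 5) (nat_lit 479) (nat_lit 3) (nat_lit 480) (nat_lit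 5) (nat_lit 330) (nat_lit 329) (nat_lit 241)) (XT.nd (nat_lit 78) (nat_lit 0) (nat_lit 0) (XT.lf (nat_lit 0) (nat_lit 4190903748) (nat_lit 1596) (nat_lit 4758692576) (nat_lit 1672) (nat_lit 1387070180) (nat_lit 459) (nat_lit 5) (nat_lit 480) (nat_lit 5) (nat_lit 481) (nat_lit 5) (nat_lit 331) (nat_lit 329) (nat_lit 240)) (XT.lf (nat_lit 76) (nat_lit 2795057184) (nat_lit 0) (nat_lit 2586835694) (nat_lit 1672) (nat_lit 5091519242) (nat_lit 460) (nat_lit 5) (nat_lit 459) (nat_lit 5) (nat_lit 481) (nat_lit 5) (nat_lit 332) (nat_lit 329) (nat_lit 239))))))) (XT.nd (nat_lit 780) (nat_lit 7676) (nat_lit 0) (XT.nd (nat_lit 390) (nat_lit 0) (nat_lit 76) (XT.nd (nat_lit 156) (nat_lit 1520) (nat_lit 0) (XT.nd (nat_lit 78) (nat_lit 0) (nat_lit 0) (XT.lf (nat_lit 0) (nat_lit 6629285012) (nat_lit 1596) (nat_lit 21018942) (nat_lit 1672) (nat_lit 3963556623) (nat_lit 460) (nat_lit 5) (nat_lit 481) (nat_lit 5) (nat_lit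 482) (nat_lit 5) (nat_lit 333) (nat_lit 329) (nat_lit 238)) (XT.lf (nat_lit 76) (nat_lit 7931407968) (nat_lit 0) (nat_lit 15037896) (nat_lit 1672) (nat_lit 2811443220) (nat_lit 461) (nat_lit 5) (nat_lit 460) (nat_lit 5) (nat_lit 482) (nat_lit 5) (nat_lit 334) (nat_lit 329) (nat_lit 237))) (XT.nd (nat_lit 78) (nat_lit 1596) (nat_lit 0) (XT.lf (nat_lit 76) (nat_lit 5218805961) (nat_lit 0) (nat_lit 4127189389) (nat_lit 1672) (nat_lit 1559398758) (nat_lit 462) (nat_lit 5) (nat_lit 461) (nat_lit 5) (nat_lit 483) (nat_lit 5) (nat_lit 335) (nat_lit 329) (nat_lit 236)) (XT.nd (nat_lit 78) (nat_lit 1672) (nat_lit 0) (XT.lf (nat_lit 76) (nat_lit 2479590633) (nat_lit 0) (nat_lit 8326613455) (nat_lit 1672) (nat_lit 250759499) (nat_lit 463) (nat_lit 5) (nat_lit 462) (nat_lit 5) (nat_lit 484) (nat_lit 5) (nat_lit 336) (nat_lit 329) (nat_lit 235)) (XT.lf (nat_lit 0) (nat_lit 1115314533) (nat_lit 1672) (nat_lit 301052636)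 (nat_lit 1748) (nat_lit 9795931359) (nat_lit 440) (nat_lit 5) (nat_lit 462) (nat_lit 5) (nat_lit 463) (nat_lit 5) (nat_lit 337) (nat_lit 329) (nat_lit 234))))) (XT.nd (nat_lit 156) (nat_lit 0) (nat_lit 76) (XT.nd (nat_lit 78) (nat_lit 0) (nat_lit 76) (XT.lf (nat_lit 0) (nat_lit 2577548731) (nat_lit 1672) (nat_lit 3100156570) (nat_lit 1748) (nat_lit 5693395161) (nat_lit 441) (nat_lit 5) (nat_lit 463) (nat_lit 5) (nat_lit 464) (nat_lit 5) (nat_lit 338) (nat_lit 329) (nat_lit 233)) (XT.lf (nat_lit 0) (nat_lit 4109473961) (nat_lit 1672) (nat_lit 5932542547) (nat_lit 1748) (nat_lit 1492144913) (nat_lit 442) (nat_lit 5) (nat_lit 464) (nat_lit 5) (nat_lit 465) (nat_lit 5) (nat_lit 339) (nat_lit 329) (nat_lit 232))) (XT.nd (nat_lit 78) (nat_lit 0) (nat_lit 76) (XT.lf (nat_lit 76) (nat_lit 2882471346) (nat_lit 0) (nat_lit 2851615002) (nat_lit 1748) (nat_lit 5967104383) (nat_lit 443) (nat_lit 5) (nat_lit 442)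 (nat_lit 5) (nat_lit 465) (nat_lit 5) (nat_lit 340) (nat_lit 329) (nat_lit 231)) (XT.nd (nat_lit 78) (nat_lit 0) (nat_lit 76) (XT.lf (nat_lit 76) (nat_lit 119726461) (nat_lit 0) (nat_lit 7328240749) (nat_lit 1748) (nat_lit 4424463899) (nat_lit 444) (nat_lit 5) (nat_lit 443) (nat_lit 5) (nat_lit 466) (nat_lit 5) (nat_lit 341) (nat_lit 329) (nat_lit 230)) (XT.lf (nat_lit 0) (nat_lit 9263347439) (nat_lit 1672) (nat_lit 2643402313) (nat_lit 1748) (nat_lit 141067761) (nat_lit 444) (nat_lit 5) (nat_lit 466) (nat_lit 5) (nat_lit 467) (nat_lit 5) (nat_lit 342) (nat_lit 329) (nat_lit 229)))))) (XT.nd (nat_lit 390) (nat_lit 4636) (nat_lit 0) (XT.nd (nat_lit 156) (nat_lit 1672) (nat_lit 0) (XT.nd (nat_lit 78) (nat_lit 1672) (nat_lit 0) (XT.lf (nat_lit 76) (nat_lit 6756453339) (nat_lit 0) (nat_lit 4440968173) (nat_lit 1748) (nat_lit 1029769518) (nat_lit 445) (nat_lit 5) (nat_lit 444) (nat_lit 5) (nat_lit 467)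 (nat_lit 5) (nat_lit 343) (nat_lit 329) (nat_lit 228)) (XT.lf (nat_lit 0) (nat_lit 805267954) (nat_lit 1748) (nat_lit 8343976000) (nat_lit 1824) (nat_lit 3261852630) (nat_lit 422) (nat_lit 5) (nat_lit 445) (nat_lit 5) (nat_lit 446) (nat_lit 5) (nat_lit 344) (nat_lit 329) (nat_lit 227))) (XT.nd (nat_lit 78) (nat_lit 1672) (nat_lit 0) (XT.lf (nat_lit 76) (nat_lit 1324173279) (nat_lit 0) (nat_lit 1405452771) (nat_lit 1824) (nat_lit 9869801315) (nat_lit 423) (nat_lit 5) (nat_lit 422) (nat_lit 5) (nat_lit 446) (nat_lit 5) (nat_lit 345) (nat_lit 329) (nat_lit 226)) (XT.nd (nat_lit 78) (nat_lit 1748) (nat_lit 0) (XT.lf (nat_lit 0) (nat_lit 4784543354) (nat_lit 1748) (nat_lit 1461523714) (nat_lit 76) (nat_lit 6545893557) (nat_lit 423) (nat_lit 5) (nat_lit 446) (nat_lit 5) (nat_lit 424) (nat_lit 5) (nat_lit 346) (nat_lit 329) (nat_lit 225)) (XT.lf (nat_lit 0) (nat_lit 6952827206) (nat_lit 1824) (nat_lit 4271505982)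 (nat_lit 76) (nat_lit 1764911173) (nat_lit 400) (nat_lit 5) (nat_lit 424) (nat_lit 5) (nat_lit 401) (nat_lit 5) (nat_lit 347) (nat_lit 329) (nat_lit 224))))) (XT.nd (nat_lit 234) (nat_lit 1672) (nat_lit 0) (XT.nd (nat_lit 78) (nat_lit 1824) (nat_lit 0) (XT.lf (nat_lit 0) (nat_lit 6045276632) (nat_lit 1140) (nat_lit 3206541420) (nat_lit 1216) (nat_lit 3939323988) (nat_lit 385) (nat_lit 5) (nat_lit 400) (nat_lit 5) (nat_lit 401) (nat_lit 5) (nat_lit 348) (nat_lit 329) (nat_lit 223)) (XT.nd (nat_lit 78) (nat_lit 912) (nat_lit 0) (XT.lf (nat_lit 0) (nat_lit 3319592776) (nat_lit 912) (nat_lit 8358957544) (nat_lit 988) (nat_lit 1719379245) (nat_lit 373) (nat_lit 5) (nat_lit 385) (nat_lit 5) (nat_lit 386) (nat_lit 5) (nat_lit 349) (nat_lit 329) (nat_lit 222)) (XT.lf (nat_lit 0) (nat_lit 546158920) (nat_lit 836) (nat_lit 62990326) (nat_lit 912) (nat_lit 13000717292) (nat_lit 361) (nat_lit 5) (nat_lit 372)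 (nat_lit 5) (nat_lit 373) (nat_lit 5) (nat_lit 350) (nat_lit 329) (nat_lit 221)))) (XT.nd (nat_lit 78) (nat_lit 1672) (nat_lit 0) (XT.lf (nat_lit 0) (nat_lit 3084389797) (nat_lit 912) (nat_lit 2289035837) (nat_lit 76) (nat_lit 8452512084) (nat_lit 361) (nat_lit 5) (nat_lit 373) (nat_lit 5) (nat_lit 362) (nat_lit 5) (nat_lit 351) (nat_lit 329) (nat_lit 220)) (XT.nd (nat_lit 78) (nat_lit 836) (nat_lit 0) (XT.lf (nat_lit 0) (nat_lit 5690071743) (nat_lit 912) (nat_lit 5165476137) (nat_lit 76) (nat_lit 3191826960) (nat_lit 350) (nat_lit 5) (nat_lit 362) (nat_lit 5) (nat_lit 351) (nat_lit 5) (nat_lit 352) (nat_lit 329) (nat_lit 219)) (XT.lf (nat_lit 0) (nat_lit 6166978691) (nat_lit 836) (nat_lit 2276029281) (nat_lit 912) (nat_lit 5831072701) (nat_lit 339) (nat_lit 5) (nat_lit 350) (nat_lit 5) (nat_lit 351) (nat_lit 5) (nat_lit 353) (nat_lit 329) (nat_lit 218))))))))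
noncomputable def xc98 : XT := (XT.nd (nat_lit 1560) (nat_lit 4180) (nat_lit 0) (XT.nd (nat_lit 780) (nat_lit 4864) (nat_lit 0) (XT.nd (nat_lit 390) (nat_lit 2812) (nat_lit 0) (XT.nd (nat_lit 156) (nat_lit 1520) (nat_lit 0) (XT.nd (nat_lit 78) (nat_lit 760) (nat_lit 0) (XT.lf (nat_lit 0) (nat_lit 3382654033) (nat_lit 836) (nat_lit 7973685249) (nat_lit 912) (nat_lit 3149699322) (nat_lit 328) (nat_lit 5) (nat_lit 339) (nat_lit 5) (nat_lit 340) (nat_lit 5) (nat_lit 354) (nat_lit 329) (nat_lit 217)) (XT.lf (nat_lit 0) (nat_lit 548356774) (nat_lit 760) (nat_lit 13866590261) (nat_lit 836) (nat_lit 328857562) (nat_lit 318) (nat_lit 5) (nat_lit 328) (nat_lit 5) (nat_lit 329) (nat_lit 5) (nat_lit 355) (nat_lit 329) (nat_lit 216))) (XT.nd (nat_lit 78) (nat_lit 1444) (nat_lit 0) (XT.lf (nat_lit 0) (nat_lit 2650863464) (nat_lit 836) (nat_lit 2357349005) (nat_lit 76) (nat_lit 9978002111) (nat_lit 317) (nat_lit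 5) (nat_lit 328) (nat_lit 5) (nat_lit 318) (nat_lit 5) (nat_lit 356) (nat_lit 329) (nat_lit 215)) (XT.nd (nat_lit 78) (nat_lit 684) (nat_lit 0) (XT.lf (nat_lit 0) (nat_lit 5786711593) (nat_lit 836) (nat_lit 5319511404) (nat_lit 76) (nat_lit 4128212659) (nat_lit 307) (nat_lit 5) (nat_lit 318) (nat_lit 5) (nat_lit 308) (nat_lit 5) (nat_lit 357) (nat_lit 329) (nat_lit 214)) (XT.lf (nat_lit 0) (nat_lit 7136327110) (nat_lit 684) (nat_lit 1956132594) (nat_lit 760) (nat_lit 6396133322) (nat_lit 298) (nat_lit 5) (nat_lit 307) (nat_lit 5) (nat_lit 308) (nat_lit 5) (nat_lit 358) (nat_lit 329) (nat_lit 213))))) (XT.nd (nat_lit 156) (nat_lit 1292) (nat_lit 0) (XT.nd (nat_lit 78) (nat_lit 760) (nat_lit 0) (XT.lf (nat_lit 0) (nat_lit 4274778144) (nat_lit 760) (nat_lit 8315488594) (nat_lit 836) (nat_lit 3158256619) (nat_lit 288) (nat_lit 5) (nat_lit 298) (nat_lit 5) (nat_lit 299) (nat_lit 5) (nat_lit 359) (nat_lit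 329) (nat_lit 212)) (XT.lf (nat_lit 0) (nat_lit 241311725) (nat_lit 760) (nat_lit 14660740947) (nat_lit 76) (nat_lit 1112844188) (nat_lit 278) (nat_lit 5) (nat_lit 288) (nat_lit 5) (nat_lit 279) (nat_lit 5) (nat_lit 360) (nat_lit 329) (nat_lit 211))) (XT.nd (nat_lit 78) (nat_lit 1292) (nat_lit 0) (XT.lf (nat_lit 0) (nat_lit 3815146947) (nat_lit 760) (nat_lit 1662495451) (nat_lit 76) (nat_lit 10808903404) (nat_lit 278) (nat_lit 5) (nat_lit 288) (nat_lit 5) (nat_lit 279) (nat_lit 5) (nat_lit 361) (nat_lit 329) (nat_lit 210)) (XT.nd (nat_lit 78) (nat_lit 608) (nat_lit 0) (XT.lf (nat_lit 0) (nat_lit 7582778190) (nat_lit 760) (nat_lit 4732749609) (nat_lit 76) (nat_lit 4249090153) (nat_lit 269) (nat_lit 5) (nat_lit 279) (nat_lit 5) (nat_lit 270) (nat_lit 5) (nat_lit 362) (nat_lit 329) (nat_lit 209)) (XT.lf (nat_lit 0) (nat_lit 8962981563) (nat_lit 608) (nat_lit 2588628477) (nat_lit 684) (nat_lit 5297663993)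 (nat_lit 261) (nat_lit 5) (nat_lit 269) (nat_lit 5) (nat_lit 270) (nat_lit 5) (nat_lit 363) (nat_lit 329) (nat_lit 208)))))) (XT.nd (nat_lit 390) (nat_lit 2356) (nat_lit 0) (XT.nd (nat_lit 156) (nat_lit 1140) (nat_lit 0) (XT.nd (nat_lit 78) (nat_lit 684) (nat_lit 0) (XT.lf (nat_lit 0) (nat_lit 6001926384) (nat_lit 684) (nat_lit 9739451051) (nat_lit 760) (nat_lit 1399060001) (nat_lit 252) (nat_lit 5) (nat_lit 261) (nat_lit 5) (nat_lit 262) (nat_lit 5) (nat_lit 364) (nat_lit 329) (nat_lit 207)) (XT.lf (nat_lit 0) (nat_lit 2657113193) (nat_lit 684) (nat_lit 14481659619) (nat_lit 76) (nat_lit 299729435) (nat_lit 243) (nat_lit 5) (nat_lit 252) (nat_lit 5) (nat_lit 244) (nat_lit 5) (nat_lit 365) (nat_lit 329) (nat_lit 206))) (XT.nd (nat_lit 78) (nat_lit 1140) (nat_lit 0) (XT.lf (nat_lit 0) (nat_lit 6940171749) (nat_lit 684) (nat_lit 212222207) (nat_lit 76) (nat_lit 10590450599) (nat_lit 243) (nat_lit 5)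 (nat_lit 252) (nat_lit 5) (nat_lit 244) (nat_lit 5) (nat_lit 366) (nat_lit 329) (nat_lit 205)) (XT.nd (nat_lit 78) (nat_lit 532) (nat_lit 0) (XT.lf (nat_lit 0) (nat_lit 11451324421) (nat_lit 684) (nat_lit 3418320815) (nat_lit 76) (nat_lit 3184684381) (nat_lit 235) (nat_lit 5) (nat_lit 244) (nat_lit 5) (nat_lit 236) (nat_lit 5) (nat_lit 367) (nat_lit 329) (nat_lit 204)) (XT.lf (nat_lit 0) (nat_lit 11642180038) (nat_lit 532) (nat_lit 4564312795) (nat_lit 608) (nat_lit 2166497174) (nat_lit 228) (nat_lit 5) (nat_lit 235) (nat_lit 5) (nat_lit 236) (nat_lit 5) (nat_lit 368) (nat_lit 329) (nat_lit 203))))) (XT.nd (nat_lit 156) (nat_lit 1140) (nat_lit 0) (XT.nd (nat_lit 78) (nat_lit 532) (nat_lit 0) (XT.lf (nat_lit 0) (nat_lit 2474524409) (nat_lit 684) (nat_lit 10162266709) (nat_lit 76) (nat_lit 6062052516) (nat_lit 219) (nat_lit 5) (nat_lit 228) (nat_lit 5) (nat_lit 220) (nat_lit 5) (nat_lit 369) (nat_lit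 329) (nat_lit 202)) (XT.lf (nat_lit 0) (nat_lit 5325098385) (nat_lit 532) (nat_lit 1995779230) (nat_lit 608) (nat_lit 11711402206) (nat_lit 212) (nat_lit 5) (nat_lit 219) (nat_lit 5) (nat_lit 220) (nat_lit 5) (nat_lit 370) (nat_lit 329) (nat_lit 201))) (XT.nd (nat_lit 78) (nat_lit 608) (nat_lit 0) (XT.lf (nat_lit 0) (nat_lit 1989334276) (nat_lit 532) (nat_lit 10448382567) (nat_lit 608) (nat_lit 6935504288) (nat_lit 205) (nat_lit 5) (nat_lit 212) (nat_lit 5) (nat_lit 213) (nat_lit 5) (nat_lit 371) (nat_lit 329) (nat_lit 200)) (XT.nd (nat_lit 78) (nat_lit 608) (nat_lit 0) (XT.lf (nat_lit 0) (nat_lit 17802505678) (nat_lit 608) (nat_lit 1414667856) (nat_lit 76) (nat_lit 505332091) (nat_lit 205) (nat_lit 5) (nat_lit 213) (nat_lit 5) (nat_lit 206) (nat_lit 5) (nat_lit 372) (nat_lit 329) (nat_lit 199)) (XT.lf (nat_lit 0) (nat_lit 3357988531) (nat_lit 608) (nat_lit 4958248086) (nat_lit 76) (nat_lit 11762522375)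 (nat_lit 197) (nat_lit 5) (nat_lit 205) (nat_lit 5) (nat_lit 198) (nat_lit 5) (nat_lit 373) (nat_lit 329) (nat_lit 198))))))) (XT.nd (nat_lit 780) (nat_lit 456) (nat_lit 0) (XT.nd (nat_lit 390) (nat_lit 1748) (nat_lit 0) (XT.nd (nat_lit 156) (nat_lit 988) (nat_lit 0) (XT.nd (nat_lit 78) (nat_lit 456) (nat_lit 0) (XT.lf (nat_lit 0) (nat_lit 8860082350) (nat_lit 608) (nat_lit 8614632851) (nat_lit 76) (nat_lit 2968897457) (nat_lit 190) (nat_lit 5) (nat_lit 198) (nat_lit 5) (nat_lit 191) (nat_lit 5) (nat_lit 374) (nat_lit 329) (nat_lit 197)) (XT.lf (nat_lit 0) (nat_lit 8404200852) (nat_lit 456) (nat_lit 6252894835) (nat_lit 532) (nat_lit 6159722551) (nat_lit 184) (nat_lit 5) (nat_lit 190) (nat_lit 5) (nat_lit 191) (nat_lit 5) (nat_lit 375) (nat_lit 329) (nat_lit 196))) (XT.nd (nat_lit 78) (nat_lit 532) (nat_lit 0) (XT.lf (nat_lit 0) (nat_lit 4861312206) (nat_lit 456) (nat_lit 15877592464) (nat_lit 532)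 (nat_lit 460100948) (nat_lit 178) (nat_lit 5) (nat_lit 184) (nat_lit 5) (nat_lit 185) (nat_lit 5) (nat_lit 376) (nat_lit 329) (nat_lit 195)) (XT.nd (nat_lit 78) (nat_lit 0) (nat_lit 0) (XT.lf (nat_lit 0) (nat_lit 1151031524) (nat_lit 456) (nat_lit 4308778269) (nat_lit 532) (nat_lit 16129744225) (nat_lit 171) (nat_lit 5) (nat_lit 177) (nat_lit 5) (nat_lit 178) (nat_lit 5) (nat_lit 377) (nat_lit 329) (nat_lit 194)) (XT.lf (nat_lit 0) (nat_lit 11698481701) (nat_lit 532) (nat_lit 2673636148) (nat_lit 76) (nat_lit 7616694984) (nat_lit 171) (nat_lit 5) (nat_lit 178) (nat_lit 5) (nat_lit 172) (nat_lit 5) (nat_lit 378) (nat_lit 329) (nat_lit 193))))) (XT.nd (nat_lit 156) (nat_lit 836) (nat_lit 0) (XT.nd (nat_lit 78) (nat_lit 456) (nat_lit 0) (XT.lf (nat_lit 0) (nat_lit 15784060652) (nat_lit 456) (nat_lit 2458486563) (nat_lit 532) (nat_lit 4155140524) (nat_lit 165) (nat_lit 5) (nat_lit 171) (nat_lit 5) (nat_lit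 172) (nat_lit 5) (nat_lit 379) (nat_lit 329) (nat_lit 192)) (XT.lf (nat_lit 0) (nat_lit 2284309253) (nat_lit 456) (nat_lit 10740814476) (nat_lit 76) (nat_lit 9790455274) (nat_lit 159) (nat_lit 5) (nat_lit 165) (nat_lit 5) (nat_lit 160) (nat_lit 5) (nat_lit 380) (nat_lit 329) (nat_lit 191))) (XT.nd (nat_lit 78) (nat_lit 380) (nat_lit 0) (XT.lf (nat_lit 0) (nat_lit 8214298050) (nat_lit 456) (nat_lit 748739242) (nat_lit 532) (nat_lit 14280372236) (nat_lit 153) (nat_lit 5) (nat_lit 159) (nat_lit 5) (nat_lit 160) (nat_lit 5) (nat_lit 381) (nat_lit 329) (nat_lit 190)) (XT.nd (nat_lit 78) (nat_lit 0) (nat_lit 0) (XT.lf (nat_lit 0) (nat_lit 4161268223) (nat_lit 380) (nat_lit 11845934381) (nat_lit 456) (nat_lit 7673573542) (nat_lit 148) (nat_lit 5) (nat_lit 153) (nat_lit 5) (nat_lit 154) (nat_lit 5) (nat_lit 382) (nat_lit 329) (nat_lit 189)) (XT.lf (nat_lit 0) (nat_lit 23362200976) (nat_lit 456) (nat_lit 24018952)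 (nat_lit 76) (nat_lit 743056282) (nat_lit 148) (nat_lit 5) (nat_lit 154) (nat_lit 5) (nat_lit 149) (nat_lit 5) (nat_lit 383) (nat_lit 329) (nat_lit 188)))))) (XT.nd (nat_lit 42978) (nat_lit 0) (nat_lit 22572) (XT.nd (nat_lit 42744) (nat_lit 0) (nat_lit 24016) (XT.nd (nat_lit 42666) (nat_lit 0) (nat_lit 24016) (XT.lf (nat_lit 0) (nat_lit 6463350206) (nat_lit 456) (nat_lit 4404863421) (nat_lit 76) (nat_lit 13718196618) (nat_lit 142) (nat_lit 5) (nat_lit 148) (nat_lit 5) (nat_lit 143) (nat_lit 5) (nat_lit 384) (nat_lit 329) (nat_lit 187)) (XT.lf (nat_lit 0) (nat_lit 1014292985) (nat_lit 0) (nat_lit 1014292985) (nat_lit 1596) (nat_lit 3138811042) (nat_lit 458) (nat_lit 5) (nat_lit 458) (nat_lit 3) (nat_lit 479) (nat_lit 3) (nat_lit 330) (nat_lit 330) (nat_lit 240))) (XT.nd (nat_lit 78) (nat_lit 0) (nat_lit 76) (XT.lf (nat_lit 0) (nat_lit 5111232410) (nat_lit 1596) (nat_lit 907860510) (nat_lit 1672) (nat_lit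 4450501765) (nat_lit 458) (nat_lit 5) (nat_lit 479) (nat_lit 3) (nat_lit 480) (nat_lit 5) (nat_lit 331) (nat_lit 330) (nat_lit 239)) (XT.nd (nat_lit 78) (nat_lit 0) (nat_lit 0) (XT.lf (nat_lit 0) (nat_lit 6220503096) (nat_lit 1596) (nat_lit 3843694570) (nat_lit 1672) (nat_lit 543783870) (nat_lit 459) (nat_lit 5) (nat_lit 480) (nat_lit 5) (nat_lit 481) (nat_lit 5) (nat_lit 332) (nat_lit 330) (nat_lit 238)) (XT.lf (nat_lit 76) (nat_lit 3919506804) (nat_lit 0) (nat_lit 3479018759) (nat_lit 1672) (nat_lit 3351298491) (nat_lit 460) (nat_lit 5) (nat_lit 459) (nat_lit 5) (nat_lit 481) (nat_lit 5) (nat_lit 333) (nat_lit 330) (nat_lit 237))))) (XT.nd (nat_lit 234) (nat_lit 0) (nat_lit 76) (XT.nd (nat_lit 78) (nat_lit 1596) (nat_lit 0) (XT.lf (nat_lit 76) (nat_lit 1044158520) (nat_lit 0) (nat_lit 7586791322) (nat_lit 1672) (nat_lit 2264603922) (nat_lit 461) (nat_lit 5) (nat_lit 460) (nat_lit 5) (nat_lit 482)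 (nat_lit 5) (nat_lit 334) (nat_lit 330) (nat_lit 236)) (XT.nd (nat_lit 78) (nat_lit 1596) (nat_lit 0) (XT.lf (nat_lit 76) (nat_lit 9204394616) (nat_lit 0) (nat_lit 730860847) (nat_lit 1672) (nat_lit 1109714487) (nat_lit 461) (nat_lit 5) (nat_lit 460) (nat_lit 5) (nat_lit 482) (nat_lit 5) (nat_lit 335) (nat_lit 330) (nat_lit 235)) (XT.lf (nat_lit 0) (nat_lit 128567574) (nat_lit 1672) (nat_lit 4765468471) (nat_lit 1748) (nat_lit 6303838499) (nat_lit 439) (nat_lit 5) (nat_lit 461) (nat_lit 5) (nat_lit 462) (nat_lit 5) (nat_lit 336) (nat_lit 330) (nat_lit 234)))) (XT.nd (nat_lit 78) (nat_lit 0) (nat_lit 0) (XT.lf (nat_lit 0) (nat_lit 1411840939) (nat_lit 1672) (nat_lit 7731318433) (nat_lit 1748) (nat_lit 2211613598) (nat_lit 440) (nat_lit 5) (nat_lit 462) (nat_lit 5) (nat_lit 463) (nat_lit 5) (nat_lit 337) (nat_lit 330) (nat_lit 233)) (XT.nd (nat_lit 78) (nat_lit 0) (nat_lit 76) (XT.lf (nat_lit 76) (nat_lit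 769619943) (nat_lit 0) (nat_lit 2002341011) (nat_lit 1748) (nat_lit 8743661873) (nat_lit 441) (nat_lit 5) (nat_lit 440) (nat_lit 5) (nat_lit 463) (nat_lit 5) (nat_lit 338) (nat_lit 330) (nat_lit 232)) (XT.lf (nat_lit 0) (nat_lit 4229352739) (nat_lit 1672) (nat_lit 2105369408) (nat_lit 1748) (nat_lit 5345457780) (nat_lit 441) (nat_lit 5) (nat_lit 463) (nat_lit 5) (nat_lit 464) (nat_lit 5) (nat_lit 339) (nat_lit 330) (nat_lit 231))))))))
noncomputable def xc99 : XT := (XT.nd (nat_lit 1560) (nat_lit 10108) (nat_lit 0) (XT.nd (nat_lit 780) (nat_lit 6612) (nat_lit 0) (XT.nd (nat_lit 390) (nat_lit 2736) (nat_lit 0) (XT.nd (nat_lit 156) (nat_lit 1596) (nat_lit 0) (XT.nd (nat_lit 78) (nat_lit 0) (nat_lit 0) (XT.lf (nat_lit 0) (nat_lit 5765303402) (nat_lit 1672) (nat_lit 5006094345) (nat_lit 1748) (nat_lit 1077590040) (nat_lit 442) (nat_lit 5) (nat_lit 464) (nat_lit 5) (nat_lit 465) (nat_lit 5) (nat_lit 340)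 (nat_lit 330) (nat_lit 230)) (XT.lf (nat_lit 76) (nat_lit 4055451989) (nat_lit 0) (nat_lit 3345619253) (nat_lit 1748) (nat_lit 4620724343) (nat_lit 443) (nat_lit 5) (nat_lit 442) (nat_lit 5) (nat_lit 465) (nat_lit 5) (nat_lit 341) (nat_lit 330) (nat_lit 229))) (XT.nd (nat_lit 78) (nat_lit 1672) (nat_lit 0) (XT.lf (nat_lit 76) (nat_lit 1224743585) (nat_lit 0) (nat_lit 7902658812) (nat_lit 1748) (nat_lit 3071565582) (nat_lit 444) (nat_lit 5) (nat_lit 443) (nat_lit 5) (nat_lit 466) (nat_lit 5) (nat_lit 342) (nat_lit 330) (nat_lit 228)) (XT.nd (nat_lit 78) (nat_lit 1672) (nat_lit 0) (XT.lf (nat_lit 76) (nat_lit 10756867676) (nat_lit 0) (nat_lit 197012782) (nat_lit 1748) (nat_lit 1426617822) (nat_lit 444) (nat_lit 5) (nat_lit 443) (nat_lit 5) (nat_lit 466) (nat_lit 5) (nat_lit 343) (nat_lit 330) (nat_lit 227)) (XT.lf (nat_lit 0) (nat_lit 340123720) (nat_lit 1748) (nat_lit 4526564484) (nat_lit 1824) (nat_lit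 7699241806) (nat_lit 421) (nat_lit 5) (nat_lit 444) (nat_lit 5) (nat_lit 445) (nat_lit 5) (nat_lit 344) (nat_lit 330) (nat_lit 226))))) (XT.nd (nat_lit 156) (nat_lit 2812) (nat_lit 0) (XT.nd (nat_lit 78) (nat_lit 0) (nat_lit 0) (XT.lf (nat_lit 0) (nat_lit 2181189295) (nat_lit 1748) (nat_lit 7481469250) (nat_lit 1824) (nat_lit 3093272592) (nat_lit 422) (nat_lit 5) (nat_lit 445) (nat_lit 5) (nat_lit 446) (nat_lit 5) (nat_lit 345) (nat_lit 330) (nat_lit 225)) (XT.lf (nat_lit 76) (nat_lit 2458670227) (nat_lit 0) (nat_lit 1672344144) (nat_lit 1824) (nat_lit 8819556233) (nat_lit 423) (nat_lit 5) (nat_lit 422) (nat_lit 5) (nat_lit 446) (nat_lit 5) (nat_lit 346) (nat_lit 330) (nat_lit 224))) (XT.nd (nat_lit 78) (nat_lit 2888) (nat_lit 0) (XT.lf (nat_lit 0) (nat_lit 6207730585) (nat_lit 1748) (nat_lit 415009801) (nat_lit 76) (nat_lit 6526949543) (nat_lit 423) (nat_lit 5) (nat_lit 446) (nat_lit 5) (nat_lit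 424) (nat_lit 5) (nat_lit 347) (nat_lit 330) (nat_lit 223)) (XT.nd (nat_lit 78) (nat_lit 1140) (nat_lit 0) (XT.lf (nat_lit 0) (nat_lit 8409608965) (nat_lit 1824) (nat_lit 3300423577) (nat_lit 76) (nat_lit 1643501429) (nat_lit 400) (nat_lit 5) (nat_lit 424) (nat_lit 5) (nat_lit 401) (nat_lit 5) (nat_lit 348) (nat_lit 330) (nat_lit 222)) (XT.lf (nat_lit 0) (nat_lit 7308028853) (nat_lit 1140) (nat_lit 3440206558) (nat_lit 1216) (nat_lit 2813852194) (nat_lit 385) (nat_lit 5) (nat_lit 400) (nat_lit 5) (nat_lit 401) (nat_lit 5) (nat_lit 349) (nat_lit 330) (nat_lit 221)))))) (XT.nd (nat_lit 390) (nat_lit 3116) (nat_lit 0) (XT.nd (nat_lit 156) (nat_lit 1672) (nat_lit 0) (XT.nd (nat_lit 78) (nat_lit 912) (nat_lit 0) (XT.lf (nat_lit 0) (nat_lit 4508294737) (nat_lit 912) (nat_lit 8710178761) (nat_lit 988) (nat_lit 557203166) (nat_lit 373) (nat_lit 5) (nat_lit 385) (nat_lit 5) (nat_lit 386) (nat_lit 5) (nat_lit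 350) (nat_lit 330) (nat_lit 220)) (XT.lf (nat_lit 0) (nat_lit 1650033937) (nat_lit 836) (nat_lit 147400794) (nat_lit 912) (nat_lit 12196947366) (nat_lit 361) (nat_lit 5) (nat_lit 372) (nat_lit 5) (nat_lit 373) (nat_lit 5) (nat_lit 351) (nat_lit 330) (nat_lit 219))) (XT.nd (nat_lit 78) (nat_lit 1672) (nat_lit 0) (XT.lf (nat_lit 0) (nat_lit 4312334334) (nat_lit 912) (nat_lit 1278283159) (nat_lit 76) (nat_lit 8627020958) (nat_lit 361) (nat_lit 5) (nat_lit 373) (nat_lit 5) (nat_lit 362) (nat_lit 5) (nat_lit 352) (nat_lit 330) (nat_lit 218)) (XT.nd (nat_lit 78) (nat_lit 836) (nat_lit 0) (XT.lf (nat_lit 0) (nat_lit 6969703824) (nat_lit 912) (nat_lit 4235678632) (nat_lit 76) (nat_lit 3240876641) (nat_lit 350) (nat_lit 5) (nat_lit 362) (nat_lit 5) (nat_lit 351) (nat_lit 5) (nat_lit 353) (nat_lit 330) (nat_lit 217)) (XT.lf (nat_lit 0) (nat_lit 7419150871) (nat_lit 836) (nat_lit 2360707069) (nat_lit 912) (nat_lit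 4900426008) (nat_lit 339) (nat_lit 5) (nat_lit 350) (nat_lit 5) (nat_lit 351) (nat_lit 5) (nat_lit 354) (nat_lit 330) (nat_lit 216))))) (XT.nd (nat_lit 156) (nat_lit 1444) (nat_lit 0) (XT.nd (nat_lit 78) (nat_lit 836) (nat_lit 0) (XT.lf (nat_lit 0) (nat_lit 4555749669) (nat_lit 836) (nat_lit 8200133811) (nat_lit 912) (nat_lit 2163821385) (nat_lit 328) (nat_lit 5) (nat_lit 339) (nat_lit 5) (nat_lit 340) (nat_lit 5) (nat_lit 355) (nat_lit 330) (nat_lit 215)) (XT.lf (nat_lit 0) (nat_lit 707973322) (nat_lit 836) (nat_lit 13529624839) (nat_lit 76) (nat_lit 927397928) (nat_lit 317) (nat_lit 5) (nat_lit 328) (nat_lit 5) (nat_lit 318) (nat_lit 5) (nat_lit 356) (nat_lit 330) (nat_lit 214))) (XT.nd (nat_lit 78) (nat_lit 1444) (nat_lit 0) (XT.lf (nat_lit 0) (nat_lit 3742286645) (nat_lit 836) (nat_lit 1370314909) (nat_lit 76) (nat_lit 10302649337) (nat_lit 317) (nat_lit 5) (nat_lit 328) (nat_lit 5) (nat_lit 318)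 (nat_lit 5) (nat_lit 357) (nat_lit 330) (nat_lit 213)) (XT.nd (nat_lit 78) (nat_lit 684) (nat_lit 0) (XT.lf (nat_lit 0) (nat_lit 6949827513) (nat_lit 836) (nat_lit 4418750094) (nat_lit 76) (nat_lit 4302797738) (nat_lit 307) (nat_lit 5) (nat_lit 318) (nat_lit 5) (nat_lit 308) (nat_lit 5) (nat_lit 358) (nat_lit 330) (nat_lit 212)) (XT.lf (nat_lit 0) (nat_lit 8393560711) (nat_lit 684) (nat_lit 1939139326) (nat_lit 760) (nat_lit 5600907188) (nat_lit 298) (nat_lit 5) (nat_lit 307) (nat_lit 5) (nat_lit 308) (nat_lit 5) (nat_lit 359) (nat_lit 330) (nat_lit 211))))))) (XT.nd (nat_lit 780) (nat_lit 4788) (nat_lit 0) (XT.nd (nat_lit 390) (nat_lit 2508) (nat_lit 0) (XT.nd (nat_lit 156) (nat_lit 1292) (nat_lit 0) (XT.nd (nat_lit 78) (nat_lit 760) (nat_lit 0) (XT.lf (nat_lit 0) (nat_lit 5448083030) (nat_lit 760) (nat_lit 8466441883) (nat_lit 836) (nat_lit 2287237451) (nat_lit 288) (nat_lit 5) (nat_lit 298) (nat_lit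 5) (nat_lit 299) (nat_lit 5) (nat_lit 360) (nat_lit 330) (nat_lit 210)) (XT.lf (nat_lit 0) (nat_lit 1181355409) (nat_lit 760) (nat_lit 14041512405) (nat_lit 76) (nat_lit 1253547935) (nat_lit 278) (nat_lit 5) (nat_lit 288) (nat_lit 5) (nat_lit 279) (nat_lit 5) (nat_lit 361) (nat_lit 330) (nat_lit 209))) (XT.nd (nat_lit 78) (nat_lit 1292) (nat_lit 0) (XT.lf (nat_lit 0) (nat_lit 4835236629) (nat_lit 760) (nat_lit 684165684) (nat_lit 76) (nat_lit 11237363148) (nat_lit 278) (nat_lit 5) (nat_lit 288) (nat_lit 5) (nat_lit 279) (nat_lit 5) (nat_lit 362) (nat_lit 330) (nat_lit 208)) (XT.nd (nat_lit 78) (nat_lit 608) (nat_lit 0) (XT.lf (nat_lit 0) (nat_lit 8696902679) (nat_lit 760) (nat_lit 3846052159) (nat_lit 76) (nat_lit 4500612508) (nat_lit 269) (nat_lit 5) (nat_lit 279) (nat_lit 5) (nat_lit 270) (nat_lit 5) (nat_lit 363) (nat_lit 330) (nat_lit 207)) (XT.lf (nat_lit 0) (nat_lit 10243861838) (nat_lit 608)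 (nat_lit 2521683663) (nat_lit 684) (nat_lit 4571610155) (nat_lit 261) (nat_lit 5) (nat_lit 269) (nat_lit 5) (nat_lit 270) (nat_lit 5) (nat_lit 364) (nat_lit 330) (nat_lit 206))))) (XT.nd (nat_lit 156) (nat_lit 1140) (nat_lit 0) (XT.nd (nat_lit 78) (nat_lit 684) (nat_lit 0) (XT.lf (nat_lit 0) (nat_lit 7193944138) (nat_lit 684) (nat_lit 9869279908) (nat_lit 760) (nat_lit 574192800) (nat_lit 252) (nat_lit 5) (nat_lit 261) (nat_lit 5) (nat_lit 262) (nat_lit 5) (nat_lit 365) (nat_lit 330) (nat_lit 205)) (XT.lf (nat_lit 0) (nat_lit 3575020975) (nat_lit 684) (nat_lit 13893281057) (nat_lit 76) (nat_lit 476361424) (nat_lit 243) (nat_lit 5) (nat_lit 252) (nat_lit 5) (nat_lit 244) (nat_lit 5) (nat_lit 366) (nat_lit 330) (nat_lit 204))) (XT.nd (nat_lit 78) (nat_lit 532) (nat_lit 0) (XT.lf (nat_lit 0) (nat_lit 784740370) (nat_lit 608) (nat_lit 7182512543) (nat_lit 684) (nat_lit 10291276186) (nat_lit 235) (nat_lit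 5) (nat_lit 243) (nat_lit 5) (nat_lit 244) (nat_lit 5) (nat_lit 367) (nat_lit 330) (nat_lit 203)) (XT.nd (nat_lit 78) (nat_lit 532) (nat_lit 0) (XT.lf (nat_lit 0) (nat_lit 12592457565) (nat_lit 684) (nat_lit 2528970814) (nat_lit 76) (nat_lit 3458362488) (nat_lit 235) (nat_lit 5) (nat_lit 244) (nat_lit 5) (nat_lit 236) (nat_lit 5) (nat_lit 368) (nat_lit 330) (nat_lit 202)) (XT.lf (nat_lit 0) (nat_lit 12967252671) (nat_lit 532) (nat_lit 4506133070) (nat_lit 608) (nat_lit 1434969548) (nat_lit 228) (nat_lit 5) (nat_lit 235) (nat_lit 5) (nat_lit 236) (nat_lit 5) (nat_lit 369) (nat_lit 330) (nat_lit 201)))))) (XT.nd (nat_lit 390) (nat_lit 2432) (nat_lit 0) (XT.nd (nat_lit 156) (nat_lit 1140) (nat_lit 0) (XT.nd (nat_lit 78) (nat_lit 532) (nat_lit 0) (XT.lf (nat_lit 0) (nat_lit 3319546432) (nat_lit 684) (nat_lit 9482393668) (nat_lit 76) (nat_lit 6442252797) (nat_lit 219) (nat_lit 5) (nat_lit 228) (nat_lit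 5) (nat_lit 220) (nat_lit 5) (nat_lit 370) (nat_lit 330) (nat_lit 200)) (XT.lf (nat_lit 0) (nat_lit 6453616125) (nat_lit 532) (nat_lit 1841513887) (nat_lit 608) (nat_lit 11292831198) (nat_lit 212) (nat_lit 5) (nat_lit 219) (nat_lit 5) (nat_lit 220) (nat_lit 5) (nat_lit 371) (nat_lit 330) (nat_lit 199))) (XT.nd (nat_lit 78) (nat_lit 608) (nat_lit 0) (XT.lf (nat_lit 0) (nat_lit 3015733254) (nat_lit 532) (nat_lit 10535388179) (nat_lit 608) (nat_lit 6388302051) (nat_lit 205) (nat_lit 5) (nat_lit 212) (nat_lit 5) (nat_lit 213) (nat_lit 5) (nat_lit 372) (nat_lit 330) (nat_lit 198)) (XT.nd (nat_lit 78) (nat_lit 608) (nat_lit 0) (XT.lf (nat_lit 0) (nat_lit 19056719996) (nat_lit 608) (nat_lit 505415664) (nat_lit 76) (nat_lit 737459031) (nat_lit 205) (nat_lit 5) (nat_lit 213) (nat_lit 5) (nat_lit 206) (nat_lit 5) (nat_lit 373) (nat_lit 330) (nat_lit 197)) (XT.lf (nat_lit 0) (nat_lit 4168817307) (nat_lit 608)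 (nat_lit 4161132175) (nat_lit 76) (nat_lit 12336796007) (nat_lit 197) (nat_lit 5) (nat_lit 205) (nat_lit 5) (nat_lit 198) (nat_lit 5) (nat_lit 374) (nat_lit 330) (nat_lit 196))))) (XT.nd (nat_lit 234) (nat_lit 912) (nat_lit 0) (XT.nd (nat_lit 78) (nat_lit 988) (nat_lit 0) (XT.lf (nat_lit 0) (nat_lit 9822859500) (nat_lit 608) (nat_lit 7930001840) (nat_lit 76) (nat_lit 3289950796) (nat_lit 190) (nat_lit 5) (nat_lit 198) (nat_lit 5) (nat_lit 191) (nat_lit 5) (nat_lit 375) (nat_lit 330) (nat_lit 195)) (XT.nd (nat_lit 78) (nat_lit 532) (nat_lit 0) (XT.lf (nat_lit 0) (nat_lit 9584096683) (nat_lit 456) (nat_lit 6195410016) (nat_lit 532) (nat_lit 5647997647) (nat_lit 184) (nat_lit 5) (nat_lit 190) (nat_lit 5) (nat_lit 191) (nat_lit 5) (nat_lit 376) (nat_lit 330) (nat_lit 194)) (XT.lf (nat_lit 0) (nat_lit 207271059) (nat_lit 532) (nat_lit 15890874163) (nat_lit 76) (nat_lit 5723236355) (nat_lit 177) (nat_lit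 5) (nat_lit 184) (nat_lit 5) (nat_lit 178) (nat_lit 5) (nat_lit 377) (nat_lit 330) (nat_lit 193)))) (XT.nd (nat_lit 78) (nat_lit 456) (nat_lit 0) (XT.lf (nat_lit 0) (nat_lit 2104284640) (nat_lit 456) (nat_lit 4180585080) (nat_lit 532) (nat_lit 15938993612) (nat_lit 171) (nat_lit 5) (nat_lit 177) (nat_lit 5) (nat_lit 178) (nat_lit 5) (nat_lit 378) (nat_lit 330) (nat_lit 192)) (XT.nd (nat_lit 78) (nat_lit 456) (nat_lit 0) (XT.lf (nat_lit 0) (nat_lit 12693064513) (nat_lit 532) (nat_lit 1850517176) (nat_lit 76) (nat_lit 8091875395) (nat_lit 171) (nat_lit 5) (nat_lit 178) (nat_lit 5) (nat_lit 172) (nat_lit 5) (nat_lit 379) (nat_lit 330) (nat_lit 191)) (XT.lf (nat_lit 0) (nat_lit 17146255103) (nat_lit 456) (nat_lit 2274220284) (nat_lit 532) (nat_lit 3636386680) (nat_lit 165) (nat_lit 5) (nat_lit 171) (nat_lit 5) (nat_lit 172) (nat_lit 5) (nat_lit 380) (nat_lit 330) (nat_lit 190))))))))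
noncomputable def xc100 : XT := (XT.nd (nat_lit 44226) (nat_lit 0) (nat_lit 7600) (XT.nd (nat_lit 43446) (nat_lit 0) (nat_lit 21128) (XT.nd (nat_lit 43056) (nat_lit 0) (nat_lit 22420) (XT.nd (nat_lit 156) (nat_lit 760) (nat_lit 0) (XT.nd (nat_lit 78) (nat_lit 456) (nat_lit 0) (XT.lf (nat_lit 0) (nat_lit 2976736218) (nat_lit 456) (nat_lit 10169455013) (nat_lit 76) (nat_lit 10341240820) (nat_lit 159) (nat_lit 5) (nat_lit 165) (nat_lit 5) (nat_lit 160) (nat_lit 5) (nat_lit 381) (nat_lit 330) (nat_lit 189)) (XT.lf (nat_lit 0) (nat_lit 9339813552) (nat_lit 456) (nat_lit 503548382) (nat_lit 532) (nat_lit 14084988813) (nat_lit 153) (nat_lit 5) (nat_lit 159) (nat_lit 5) (nat_lit 160) (nat_lit 5) (nat_lit 382) (nat_lit 330) (nat_lit 188))) (XT.nd (nat_lit 78) (nat_lit 380) (nat_lit 0) (XT.lf (nat_lit 0) (nat_lit 5161381630) (nat_lit 380) (nat_lit 11927031866) (nat_lit 456) (nat_lit 7290637498) (nat_lit 148)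 (nat_lit 5) (nat_lit 153) (nat_lit 5) (nat_lit 154) (nat_lit 5) (nat_lit 383) (nat_lit 330) (nat_lit 187)) (XT.nd (nat_lit 42744) (nat_lit 0) (nat_lit 23940) (XT.lf (nat_lit 0) (nat_lit 846206184) (nat_lit 380) (nat_lit 23807574006) (nat_lit 456) (nat_lit 187435246) (nat_lit 143) (nat_lit 5) (nat_lit 148) (nat_lit 5) (nat_lit 149) (nat_lit 5) (nat_lit 384) (nat_lit 330) (nat_lit 186)) (XT.lf (nat_lit 0) (nat_lit 1522050501) (nat_lit 0) (nat_lit 1522050501) (nat_lit 1596) (nat_lit 2258871012) (nat_lit 458) (nat_lit 5) (nat_lit 458) (nat_lit 3) (nat_lit 479) (nat_lit 3) (nat_lit 331) (nat_lit 331) (nat_lit 238))))) (XT.nd (nat_lit 156) (nat_lit 1520) (nat_lit 0) (XT.nd (nat_lit 78) (nat_lit 0) (nat_lit 0) (XT.lf (nat_lit 76) (nat_lit 36006528) (nat_lit 0) (nat_lit 7076482686) (nat_lit 1672) (nat_lit 3633548002) (nat_lit 459) (nat_lit 5) (nat_lit 458) (nat_lit 5) (nat_lit 480) (nat_lit 5) (nat_lit 332)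 (nat_lit 331) (nat_lit 237)) (XT.lf (nat_lit 76) (nat_lit 7925857416) (nat_lit 0) (nat_lit 277645612) (nat_lit 1672) (nat_lit 2686123351) (nat_lit 459) (nat_lit 5) (nat_lit 458) (nat_lit 5) (nat_lit 480) (nat_lit 5) (nat_lit 333) (nat_lit 331) (nat_lit 236))) (XT.nd (nat_lit 78) (nat_lit 1596) (nat_lit 0) (XT.lf (nat_lit 76) (nat_lit 5017955336) (nat_lit 0) (nat_lit 4351207206) (nat_lit 1672) (nat_lit 1667535128) (nat_lit 460) (nat_lit 5) (nat_lit 459) (nat_lit 5) (nat_lit 481) (nat_lit 5) (nat_lit 334) (nat_lit 331) (nat_lit 235)) (XT.nd (nat_lit 78) (nat_lit 1672) (nat_lit 0) (XT.lf (nat_lit 76) (nat_lit 2080380761) (nat_lit 0) (nat_lit 8508930803) (nat_lit 1672) (nat_lit 598491525) (nat_lit 461) (nat_lit 5) (nat_lit 460) (nat_lit 5) (nat_lit 482) (nat_lit 5) (nat_lit 335) (nat_lit 331) (nat_lit 234)) (XT.lf (nat_lit 0) (nat_lit 533449009) (nat_lit 1672) (nat_lit 890064485) (nat_lit 1748) (nat_lit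 9919126348) (nat_lit 438) (nat_lit 5) (nat_lit 460) (nat_lit 5) (nat_lit 461) (nat_lit 5) (nat_lit 336) (nat_lit 331) (nat_lit 233)))))) (XT.nd (nat_lit 390) (nat_lit 1368) (nat_lit 0) (XT.nd (nat_lit 156) (nat_lit 0) (nat_lit 76) (XT.nd (nat_lit 78) (nat_lit 0) (nat_lit 76) (XT.lf (nat_lit 0) (nat_lit 1747735136) (nat_lit 1672) (nat_lit 3889214002) (nat_lit 1748) (nat_lit 5863974513) (nat_lit 439) (nat_lit 5) (nat_lit 461) (nat_lit 5) (nat_lit 462) (nat_lit 5) (nat_lit 337) (nat_lit 331) (nat_lit 232)) (XT.lf (nat_lit 0) (nat_lit 3025254518) (nat_lit 1672) (nat_lit 6924801234) (nat_lit 1748) (nat_lit 1713375242) (nat_lit 440) (nat_lit 5) (nat_lit 462) (nat_lit 5) (nat_lit 463) (nat_lit 5) (nat_lit 338) (nat_lit 331) (nat_lit 231))) (XT.nd (nat_lit 78) (nat_lit 0) (nat_lit 76) (XT.lf (nat_lit 76) (nat_lit 1814317567) (nat_lit 0) (nat_lit 2572734549) (nat_lit 1748) (nat_lit 7442853177) (nat_lit 441)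 (nat_lit 5) (nat_lit 440) (nat_lit 5) (nat_lit 463) (nat_lit 5) (nat_lit 339) (nat_lit 331) (nat_lit 230)) (XT.nd (nat_lit 78) (nat_lit 0) (nat_lit 76) (XT.lf (nat_lit 0) (nat_lit 5840329414) (nat_lit 1672) (nat_lit 1143182334) (nat_lit 1748) (nat_lit 5016860032) (nat_lit 441) (nat_lit 5) (nat_lit 463) (nat_lit 5) (nat_lit 464) (nat_lit 5) (nat_lit 340) (nat_lit 331) (nat_lit 229)) (XT.lf (nat_lit 0) (nat_lit 7382833361) (nat_lit 1672) (nat_lit 4115251181) (nat_lit 1748) (nat_lit 676965324) (nat_lit 442) (nat_lit 5) (nat_lit 464) (nat_lit 5) (nat_lit 465) (nat_lit 5) (nat_lit 341) (nat_lit 331) (nat_lit 228))))) (XT.nd (nat_lit 156) (nat_lit 1596) (nat_lit 0) (XT.nd (nat_lit 78) (nat_lit 0) (nat_lit 76) (XT.lf (nat_lit 76) (nat_lit 5201252134) (nat_lit 0) (nat_lit 3830996597) (nat_lit 1748) (nat_lit 3321516709) (nat_lit 443) (nat_lit 5) (nat_lit 442) (nat_lit 5) (nat_lit 465) (nat_lit 5) (nat_lit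 342) (nat_lit 331) (nat_lit 227)) (XT.lf (nat_lit 76) (nat_lit 2299684904) (nat_lit 0) (nat_lit 8473955601) (nat_lit 1748) (nat_lit 1763361684) (nat_lit 444) (nat_lit 5) (nat_lit 443) (nat_lit 5) (nat_lit 466) (nat_lit 5) (nat_lit 343) (nat_lit 331) (nat_lit 226))) (XT.nd (nat_lit 78) (nat_lit 1672) (nat_lit 0) (XT.lf (nat_lit 76) (nat_lit 12087533911) (nat_lit 0) (nat_lit 527405714) (nat_lit 1748) (nat_lit 109852410) (nat_lit 444) (nat_lit 5) (nat_lit 443) (nat_lit 5) (nat_lit 466) (nat_lit 5) (nat_lit 344) (nat_lit 331) (nat_lit 225)) (XT.nd (nat_lit 78) (nat_lit 0) (nat_lit 76) (XT.lf (nat_lit 0) (nat_lit 1657590644) (nat_lit 1748) (nat_lit 3624177978) (nat_lit 1824) (nat_lit 7634544433) (nat_lit 421) (nat_lit 5) (nat_lit 444) (nat_lit 5) (nat_lit 445) (nat_lit 5) (nat_lit 345) (nat_lit 331) (nat_lit 224)) (XT.lf (nat_lit 0) (nat_lit 3520791533) (nat_lit 1748) (nat_lit 6656968063) (nat_lit 1824)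 (nat_lit 2934929648) (nat_lit 422) (nat_lit 5) (nat_lit 445) (nat_lit 5) (nat_lit 446) (nat_lit 5) (nat_lit 346) (nat_lit 331) (nat_lit 223))))))) (XT.nd (nat_lit 780) (nat_lit 6460) (nat_lit 0) (XT.nd (nat_lit 390) (nat_lit 3344) (nat_lit 0) (XT.nd (nat_lit 156) (nat_lit 2128) (nat_lit 0) (XT.nd (nat_lit 78) (nat_lit 1672) (nat_lit 0) (XT.lf (nat_lit 76) (nat_lit 3564357707) (nat_lit 0) (nat_lit 1934341964) (nat_lit 1824) (nat_lit 7815089172) (nat_lit 423) (nat_lit 5) (nat_lit 422) (nat_lit 5) (nat_lit 446) (nat_lit 5) (nat_lit 347) (nat_lit 331) (nat_lit 222)) (XT.lf (nat_lit 0) (nat_lit 608286208) (nat_lit 1748) (nat_lit 6995819424) (nat_lit 1824) (nat_lit 5915460694) (nat_lit 400) (nat_lit 5) (nat_lit 423) (nat_lit 5) (nat_lit 424) (nat_lit 5) (nat_lit 348) (nat_lit 331) (nat_lit 221))) (XT.nd (nat_lit 78) (nat_lit 2128) (nat_lit 0) (XT.lf (nat_lit 0) (nat_lit 9838442565) (nat_lit 1824) (nat_lit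 2363308861) (nat_lit 76) (nat_lit 1528458202) (nat_lit 400) (nat_lit 5) (nat_lit 424) (nat_lit 5) (nat_lit 401) (nat_lit 5) (nat_lit 349) (nat_lit 331) (nat_lit 220)) (XT.nd (nat_lit 78) (nat_lit 988) (nat_lit 0) (XT.lf (nat_lit 0) (nat_lit 8546587206) (nat_lit 1140) (nat_lit 3672990374) (nat_lit 1216) (nat_lit 1726006931) (nat_lit 385) (nat_lit 5) (nat_lit 400) (nat_lit 5) (nat_lit 401) (nat_lit 5) (nat_lit 350) (nat_lit 331) (nat_lit 219)) (XT.lf (nat_lit 0) (nat_lit 562685754) (nat_lit 988) (nat_lit 8499708558) (nat_lit 76) (nat_lit 5103676475) (nat_lit 372) (nat_lit 5) (nat_lit 385) (nat_lit 5) (nat_lit 373) (nat_lit 5) (nat_lit 351) (nat_lit 331) (nat_lit 218))))) (XT.nd (nat_lit 156) (nat_lit 2508) (nat_lit 0) (XT.nd (nat_lit 78) (nat_lit 0) (nat_lit 0) (XT.lf (nat_lit 0) (nat_lit 2724598816) (nat_lit 836) (nat_lit 229606548) (nat_lit 912) (nat_lit 11437592855) (nat_lit 361) (nat_lit 5) (nat_lit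 372) (nat_lit 5) (nat_lit 373) (nat_lit 5) (nat_lit 352) (nat_lit 331) (nat_lit 217)) (XT.lf (nat_lit 0) (nat_lit 5511939865) (nat_lit 912) (nat_lit 299171240) (nat_lit 76) (nat_lit 8811303837) (nat_lit 361) (nat_lit 5) (nat_lit 373) (nat_lit 5) (nat_lit 362) (nat_lit 5) (nat_lit 353) (nat_lit 331) (nat_lit 216))) (XT.nd (nat_lit 78) (nat_lit 1672) (nat_lit 0) (XT.lf (nat_lit 0) (nat_lit 8224067754) (nat_lit 912) (nat_lit 3340256965) (nat_lit 76) (nat_lit 3294078878) (nat_lit 350) (nat_lit 5) (nat_lit 362) (nat_lit 5) (nat_lit 351) (nat_lit 5) (nat_lit 354) (nat_lit 331) (nat_lit 215)) (XT.nd (nat_lit 78) (nat_lit 836) (nat_lit 0) (XT.lf (nat_lit 0) (nat_lit 8647628704) (nat_lit 836) (nat_lit 2446983941) (nat_lit 912) (nat_lit 4005324664) (nat_lit 339) (nat_lit 5) (nat_lit 350) (nat_lit 5) (nat_lit 351) (nat_lit 5) (nat_lit 355) (nat_lit 331) (nat_lit 214)) (XT.lf (nat_lit 0) (nat_lit 5702523030)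 (nat_lit 836) (nat_lit 8434108421) (nat_lit 912) (nat_lit 1210384705) (nat_lit 328) (nat_lit 5) (nat_lit 339) (nat_lit 5) (nat_lit 340) (nat_lit 5) (nat_lit 356) (nat_lit 331) (nat_lit 213)))))) (XT.nd (nat_lit 390) (nat_lit 3420) (nat_lit 0) (XT.nd (nat_lit 156) (nat_lit 2204) (nat_lit 0) (XT.nd (nat_lit 78) (nat_lit 0) (nat_lit 0) (XT.lf (nat_lit 0) (nat_lit 1711637063) (nat_lit 836) (nat_lit 12908567403) (nat_lit 76) (nat_lit 979789926) (nat_lit 317) (nat_lit 5) (nat_lit 328) (nat_lit 5) (nat_lit 318) (nat_lit 5) (nat_lit 357) (nat_lit 331) (nat_lit 212)) (XT.lf (nat_lit 0) (nat_lit 4808365478) (nat_lit 836) (nat_lit 414389229) (nat_lit 76) (nat_lit 10635583245) (nat_lit 317) (nat_lit 5) (nat_lit 328) (nat_lit 5) (nat_lit 318) (nat_lit 5) (nat_lit 358) (nat_lit 331) (nat_lit 211))) (XT.nd (nat_lit 78) (nat_lit 1444) (nat_lit 0) (XT.lf (nat_lit 0) (nat_lit 8091034727) (nat_lit 836) (nat_lit 3551834181)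 (nat_lit 76) (nat_lit 4479707761) (nat_lit 307) (nat_lit 5) (nat_lit 318) (nat_lit 5) (nat_lit 308) (nat_lit 5) (nat_lit 359) (nat_lit 331) (nat_lit 210)) (XT.nd (nat_lit 78) (nat_lit 760) (nat_lit 0) (XT.lf (nat_lit 0) (nat_lit 9628630599) (nat_lit 684) (nat_lit 1925980443) (nat_lit 760) (nat_lit 4838488430) (nat_lit 298) (nat_lit 5) (nat_lit 307) (nat_lit 5) (nat_lit 308) (nat_lit 5) (nat_lit 360) (nat_lit 331) (nat_lit 209)) (XT.lf (nat_lit 0) (nat_lit 6596596255) (nat_lit 760) (nat_lit 8627578726) (nat_lit 836) (nat_lit 1445526677) (nat_lit 288) (nat_lit 5) (nat_lit 298) (nat_lit 5) (nat_lit 299) (nat_lit 5) (nat_lit 361) (nat_lit 331) (nat_lit 208))))) (XT.nd (nat_lit 234) (nat_lit 1976) (nat_lit 0) (XT.nd (nat_lit 78) (nat_lit 684) (nat_lit 0) (XT.lf (nat_lit 0) (nat_lit 2096053618) (nat_lit 760) (nat_lit 13464500854) (nat_lit 76) (nat_lit 1392312278) (nat_lit 278) (nat_lit 5) (nat_lit 288)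 (nat_lit 5) (nat_lit 279) (nat_lit 5) (nat_lit 362) (nat_lit 331) (nat_lit 207)) (XT.nd (nat_lit 78) (nat_lit 0) (nat_lit 0) (XT.lf (nat_lit 0) (nat_lit 268005768) (nat_lit 684) (nat_lit 5567676135) (nat_lit 760) (nat_lit 11406429903) (nat_lit 269) (nat_lit 5) (nat_lit 278) (nat_lit 5) (nat_lit 279) (nat_lit 5) (nat_lit 363) (nat_lit 331) (nat_lit 206)) (XT.lf (nat_lit 0) (nat_lit 9793554074) (nat_lit 760) (nat_lit 2991804222) (nat_lit 76) (nat_lit 4752559578) (nat_lit 269) (nat_lit 5) (nat_lit 279) (nat_lit 5) (nat_lit 270) (nat_lit 5) (nat_lit 364) (nat_lit 331) (nat_lit 205)))) (XT.nd (nat_lit 78) (nat_lit 1368) (nat_lit 0) (XT.lf (nat_lit 0) (nat_lit 11505076107) (nat_lit 608) (nat_lit 2461031346) (nat_lit 684) (nat_lit 3874576390) (nat_lit 261) (nat_lit 5) (nat_lit 269) (nat_lit 5) (nat_lit 270) (nat_lit 5) (nat_lit 365) (nat_lit 331) (nat_lit 204)) (XT.nd (nat_lit 78) (nat_lit 608) (nat_lit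 0) (XT.lf (nat_lit 0) (nat_lit 222700736) (nat_lit 760) (nat_lit 9788128278) (nat_lit 76) (nat_lit 8139436608) (nat_lit 251) (nat_lit 5) (nat_lit 261) (nat_lit 5) (nat_lit 252) (nat_lit 5) (nat_lit 366) (nat_lit 331) (nat_lit 203)) (XT.lf (nat_lit 0) (nat_lit 4472350204) (nat_lit 684) (nat_lit 13345965669) (nat_lit 76) (nat_lit 648669145) (nat_lit 243) (nat_lit 5) (nat_lit 252) (nat_lit 5) (nat_lit 244) (nat_lit 5) (nat_lit 367) (nat_lit 331) (nat_lit 202))))))))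
noncomputable def xc101 : XT := (XT.nd (nat_lit 44304) (nat_lit 0) (nat_lit 15352) (XT.nd (nat_lit 780) (nat_lit 2736) (nat_lit 0) (XT.nd (nat_lit 390) (nat_lit 2128) (nat_lit 0) (XT.nd (nat_lit 156) (nat_lit 1748) (nat_lit 0) (XT.nd (nat_lit 78) (nat_lit 0) (nat_lit 0) (XT.lf (nat_lit 0) (nat_lit 1756754800) (nat_lit 608) (nat_lit 7222740414) (nat_lit 684) (nat_lit 9811114809) (nat_lit 235) (nat_lit 5) (nat_lit 243) (nat_lit 5) (nat_lit 244) (nat_lit 5) (nat_lit 368) (nat_lit 331) (nat_lit 201)) (XT.lf (nat_lit 0) (nat_lit 13722039579) (nat_lit 684) (nat_lit 1669879410) (nat_lit 76) (nat_lit 3730025113) (nat_lit 235) (nat_lit 5) (nat_lit 244) (nat_lit 5) (nat_lit 236) (nat_lit 5) (nat_lit 369) (nat_lit 331) (nat_lit 200))) (XT.nd (nat_lit 78) (nat_lit 1216) (nat_lit 0) (XT.lf (nat_lit 0) (nat_lit 14276062156) (nat_lit 532) (nat_lit 4457408014) (nat_lit 608) (nat_lit 727219745) (nat_lit 228) (nat_lit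 5) (nat_lit 235) (nat_lit 5) (nat_lit 236) (nat_lit 5) (nat_lit 370) (nat_lit 331) (nat_lit 199)) (XT.nd (nat_lit 78) (nat_lit 532) (nat_lit 0) (XT.lf (nat_lit 0) (nat_lit 4145672830) (nat_lit 684) (nat_lit 8838652600) (nat_lit 76) (nat_lit 6822473634) (nat_lit 219) (nat_lit 5) (nat_lit 228) (nat_lit 5) (nat_lit 220) (nat_lit 5) (nat_lit 371) (nat_lit 331) (nat_lit 198)) (XT.lf (nat_lit 0) (nat_lit 7560378336) (nat_lit 532) (nat_lit 1694913021) (nat_lit 608) (nat_lit 10905899219) (nat_lit 212) (nat_lit 5) (nat_lit 219) (nat_lit 5) (nat_lit 220) (nat_lit 5) (nat_lit 372) (nat_lit 331) (nat_lit 197))))) (XT.nd (nat_lit 156) (nat_lit 1064) (nat_lit 0) (XT.nd (nat_lit 78) (nat_lit 532) (nat_lit 0) (XT.lf (nat_lit 0) (nat_lit 4017430579) (nat_lit 532) (nat_lit 10638002879) (nat_lit 608) (nat_lit 5868039182) (nat_lit 205) (nat_lit 5) (nat_lit 212) (nat_lit 5) (nat_lit 213) (nat_lit 5) (nat_lit 373) (nat_lit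 331) (nat_lit 196)) (XT.lf (nat_lit 0) (nat_lit 381486327) (nat_lit 532) (nat_lit 19928212344) (nat_lit 608) (nat_lit 585085522) (nat_lit 198) (nat_lit 5) (nat_lit 205) (nat_lit 5) (nat_lit 206) (nat_lit 5) (nat_lit 374) (nat_lit 331) (nat_lit 195))) (XT.nd (nat_lit 78) (nat_lit 988) (nat_lit 0) (XT.lf (nat_lit 0) (nat_lit 4963208926) (nat_lit 608) (nat_lit 3394399212) (nat_lit 76) (nat_lit 12915588698) (nat_lit 197) (nat_lit 5) (nat_lit 205) (nat_lit 5) (nat_lit 198) (nat_lit 5) (nat_lit 375) (nat_lit 331) (nat_lit 194)) (XT.nd (nat_lit 78) (nat_lit 456) (nat_lit 0) (XT.lf (nat_lit 0) (nat_lit 10774510765) (nat_lit 608) (nat_lit 7278967974) (nat_lit 76) (nat_lit 3607318766) (nat_lit 190) (nat_lit 5) (nat_lit 198) (nat_lit 5) (nat_lit 191) (nat_lit 5) (nat_lit 376) (nat_lit 331) (nat_lit 193)) (XT.lf (nat_lit 0) (nat_lit 10746131608) (nat_lit 456) (nat_lit 6150268769) (nat_lit 532) (nat_lit 5160903898)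 (nat_lit 184) (nat_lit 5) (nat_lit 190) (nat_lit 5) (nat_lit 191) (nat_lit 5) (nat_lit 377) (nat_lit 331) (nat_lit 192)))))) (XT.nd (nat_lit 390) (nat_lit 836) (nat_lit 0) (XT.nd (nat_lit 156) (nat_lit 912) (nat_lit 0) (XT.nd (nat_lit 78) (nat_lit 456) (nat_lit 0) (XT.lf (nat_lit 0) (nat_lit 849703443) (nat_lit 532) (nat_lit 15487335374) (nat_lit 76) (nat_lit 6126112356) (nat_lit 177) (nat_lit 5) (nat_lit 184) (nat_lit 5) (nat_lit 178) (nat_lit 5) (nat_lit 378) (nat_lit 331) (nat_lit 191)) (XT.lf (nat_lit 0) (nat_lit 3033396939) (nat_lit 456) (nat_lit 4063325154) (nat_lit 532) (nat_lit 15781247746) (nat_lit 171) (nat_lit 5) (nat_lit 177) (nat_lit 5) (nat_lit 178) (nat_lit 5) (nat_lit 379) (nat_lit 331) (nat_lit 190))) (XT.nd (nat_lit 78) (nat_lit 912) (nat_lit 0) (XT.lf (nat_lit 0) (nat_lit 13680537909) (nat_lit 532) (nat_lit 1054559361) (nat_lit 76) (nat_lit 8567150802) (nat_lit 171) (nat_lit 5)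 (nat_lit 178) (nat_lit 5) (nat_lit 172) (nat_lit 5) (nat_lit 380) (nat_lit 331) (nat_lit 189)) (XT.nd (nat_lit 78) (nat_lit 456) (nat_lit 0) (XT.lf (nat_lit 0) (nat_lit 18498301943) (nat_lit 456) (nat_lit 2099237471) (nat_lit 532) (nat_lit 3139004475) (nat_lit 165) (nat_lit 5) (nat_lit 171) (nat_lit 5) (nat_lit 172) (nat_lit 5) (nat_lit 381) (nat_lit 331) (nat_lit 188)) (XT.lf (nat_lit 0) (nat_lit 3654121713) (nat_lit 456) (nat_lit 9632250137) (nat_lit 76) (nat_lit 10893792955) (nat_lit 159) (nat_lit 5) (nat_lit 165) (nat_lit 5) (nat_lit 160) (nat_lit 5) (nat_lit 382) (nat_lit 331) (nat_lit 187))))) (XT.nd (nat_lit 42900) (nat_lit 0) (nat_lit 23560) (XT.nd (nat_lit 78) (nat_lit 380) (nat_lit 0) (XT.lf (nat_lit 0) (nat_lit 10448631355) (nat_lit 456) (nat_lit 266366175) (nat_lit 532) (nat_lit 13919552249) (nat_lit 153) (nat_lit 5) (nat_lit 159) (nat_lit 5) (nat_lit 160) (nat_lit 5) (nat_lit 383) (nat_lit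 331) (nat_lit 186)) (XT.lf (nat_lit 0) (nat_lit 6141254054) (nat_lit 380) (nat_lit 12026307100) (nat_lit 456) (nat_lit 6931410304) (nat_lit 148) (nat_lit 5) (nat_lit 153) (nat_lit 5) (nat_lit 154) (nat_lit 5) (nat_lit 384) (nat_lit 331) (nat_lit 185))) (XT.nd (nat_lit 78) (nat_lit 0) (nat_lit 0) (XT.lf (nat_lit 0) (nat_lit 2017640120) (nat_lit 0) (nat_lit 2017640120) (nat_lit 1596) (nat_lit 1408450356) (nat_lit 458) (nat_lit 5) (nat_lit 458) (nat_lit 3) (nat_lit 479) (nat_lit 3) (nat_lit 332) (nat_lit 332) (nat_lit 236)) (XT.nd (nat_lit 78) (nat_lit 0) (nat_lit 0) (XT.lf (nat_lit 76) (nat_lit 964157881) (nat_lit 0) (nat_lit 8109346486) (nat_lit 1672) (nat_lit 1959313674) (nat_lit 459) (nat_lit 5) (nat_lit 458) (nat_lit 5) (nat_lit 480) (nat_lit 5) (nat_lit 333) (nat_lit 332) (nat_lit 235)) (XT.lf (nat_lit 76) (nat_lit 9063702224) (nat_lit 0) (nat_lit 1082644222) (nat_lit 1672) (nat_lit 1035405335)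 (nat_lit 459) (nat_lit 5) (nat_lit 458) (nat_lit 5) (nat_lit 480) (nat_lit 5) (nat_lit 334) (nat_lit 332) (nat_lit 234))))))) (XT.nd (nat_lit 780) (nat_lit 6688) (nat_lit 0) (XT.nd (nat_lit 390) (nat_lit 0) (nat_lit 152) (XT.nd (nat_lit 156) (nat_lit 0) (nat_lit 0) (XT.nd (nat_lit 78) (nat_lit 1596) (nat_lit 0) (XT.lf (nat_lit 76) (nat_lit 6093051756) (nat_lit 0) (nat_lit 5205485419) (nat_lit 1672) (nat_lit 35685117) (nat_lit 460) (nat_lit 5) (nat_lit 459) (nat_lit 5) (nat_lit 481) (nat_lit 5) (nat_lit 335) (nat_lit 332) (nat_lit 233)) (XT.lf (nat_lit 0) (nat_lit 1004710574) (nat_lit 1672) (nat_lit 8407412566) (nat_lit 1748) (nat_lit 2078551731) (nat_lit 438) (nat_lit 5) (nat_lit 460) (nat_lit 5) (nat_lit 461) (nat_lit 5) (nat_lit 336) (nat_lit 332) (nat_lit 232))) (XT.nd (nat_lit 78) (nat_lit 0) (nat_lit 76) (XT.lf (nat_lit 76) (nat_lit 24555685) (nat_lit 0) (nat_lit 2091145587) (nat_lit 1748) (nat_lit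 9535328791) (nat_lit 439) (nat_lit 5) (nat_lit 438) (nat_lit 5) (nat_lit 461) (nat_lit 5) (nat_lit 337) (nat_lit 332) (nat_lit 231)) (XT.nd (nat_lit 78) (nat_lit 0) (nat_lit 76) (XT.lf (nat_lit 0) (nat_lit 3322752292) (nat_lit 1672) (nat_lit 3045179213) (nat_lit 1748) (nat_lit 5447020583) (nat_lit 439) (nat_lit 5) (nat_lit 461) (nat_lit 5) (nat_lit 462) (nat_lit 5) (nat_lit 338) (nat_lit 332) (nat_lit 230)) (XT.lf (nat_lit 0) (nat_lit 4596885329) (nat_lit 1672) (nat_lit 6153700184) (nat_lit 1748) (nat_lit 1232599325) (nat_lit 440) (nat_lit 5) (nat_lit 462) (nat_lit 5) (nat_lit 463) (nat_lit 5) (nat_lit 339) (nat_lit 332) (nat_lit 229))))) (XT.nd (nat_lit 156) (nat_lit 0) (nat_lit 152) (XT.nd (nat_lit 78) (nat_lit 0) (nat_lit 76) (XT.lf (nat_lit 76) (nat_lit 2831711582) (nat_lit 0) (nat_lit 3130945248) (nat_lit 1748) (nat_lit 6192749621) (nat_lit 441) (nat_lit 5) (nat_lit 440) (nat_lit 5) (nat_lit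 463) (nat_lit 5) (nat_lit 340) (nat_lit 332) (nat_lit 228)) (XT.lf (nat_lit 0) (nat_lit 7414442203) (nat_lit 1672) (nat_lit 210988826) (nat_lit 1748) (nat_lit 4706472741) (nat_lit 441) (nat_lit 5) (nat_lit 463) (nat_lit 5) (nat_lit 464) (nat_lit 5) (nat_lit 341) (nat_lit 332) (nat_lit 227))) (XT.nd (nat_lit 78) (nat_lit 0) (nat_lit 0) (XT.lf (nat_lit 0) (nat_lit 8965964942) (nat_lit 1672) (nat_lit 3257441872) (nat_lit 1748) (nat_lit 289175106) (nat_lit 442) (nat_lit 5) (nat_lit 464) (nat_lit 5) (nat_lit 465) (nat_lit 5) (nat_lit 342) (nat_lit 332) (nat_lit 226)) (XT.nd (nat_lit 78) (nat_lit 0) (nat_lit 76) (XT.lf (nat_lit 76) (nat_lit 6322636653) (nat_lit 0) (nat_lit 4308834183) (nat_lit 1748) (nat_lit 2065870134) (nat_lit 443) (nat_lit 5) (nat_lit 442) (nat_lit 5) (nat_lit 465) (nat_lit 5) (nat_lit 343) (nat_lit 332) (nat_lit 225)) (XT.lf (nat_lit 76) (nat_lit 3347277591) (nat_lit 0) (nat_lit 9043205869)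 (nat_lit 1748) (nat_lit 496297537) (nat_lit 444) (nat_lit 5) (nat_lit 443) (nat_lit 5) (nat_lit 466) (nat_lit 5) (nat_lit 344) (nat_lit 332) (nat_lit 224)))))) (XT.nd (nat_lit 390) (nat_lit 3800) (nat_lit 0) (XT.nd (nat_lit 156) (nat_lit 1520) (nat_lit 0) (XT.nd (nat_lit 78) (nat_lit 0) (nat_lit 76) (XT.lf (nat_lit 76) (nat_lit 315844135) (nat_lit 0) (nat_lit 839254565) (nat_lit 1824) (nat_lit 11925680038) (nat_lit 421) (nat_lit 5) (nat_lit 420) (nat_lit 5) (nat_lit 444) (nat_lit 5) (nat_lit 345) (nat_lit 332) (nat_lit 223)) (XT.lf (nat_lit 0) (nat_lit 2939539321) (nat_lit 1748) (nat_lit 2754315853) (nat_lit 1824) (nat_lit 7584879071) (nat_lit 421) (nat_lit 5) (nat_lit 444) (nat_lit 5) (nat_lit 445) (nat_lit 5) (nat_lit 346) (nat_lit 332) (nat_lit 222))) (XT.nd (nat_lit 78) (nat_lit 1672) (nat_lit 0) (XT.lf (nat_lit 0) (nat_lit 4827439465) (nat_lit 1748) (nat_lit 5867945591) (nat_lit 1824) (nat_lit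 2786252943) (nat_lit 422) (nat_lit 5) (nat_lit 445) (nat_lit 5) (nat_lit 446) (nat_lit 5) (nat_lit 347) (nat_lit 332) (nat_lit 221)) (XT.nd (nat_lit 78) (nat_lit 1672) (nat_lit 0) (XT.lf (nat_lit 76) (nat_lit 4643978959) (nat_lit 0) (nat_lit 2192039954) (nat_lit 1824) (nat_lit 6853336976) (nat_lit 423) (nat_lit 5) (nat_lit 422) (nat_lit 5) (nat_lit 446) (nat_lit 5) (nat_lit 348) (nat_lit 332) (nat_lit 220)) (XT.lf (nat_lit 0) (nat_lit 1608179647) (nat_lit 1748) (nat_lit 7367375921) (nat_lit 1824) (nat_lit 4926343392) (nat_lit 400) (nat_lit 5) (nat_lit 423) (nat_lit 5) (nat_lit 424) (nat_lit 5) (nat_lit 349) (nat_lit 332) (nat_lit 219))))) (XT.nd (nat_lit 234) (nat_lit 1672) (nat_lit 0) (XT.nd (nat_lit 78) (nat_lit 2128) (nat_lit 0) (XT.lf (nat_lit 0) (nat_lit 11242602658) (nat_lit 1824) (nat_lit 1457558656) (nat_lit 76) (nat_lit 1419397942) (nat_lit 400) (nat_lit 5) (nat_lit 424) (nat_lit 5) (nat_lit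 401) (nat_lit 5) (nat_lit 350) (nat_lit 332) (nat_lit 218)) (XT.nd (nat_lit 78) (nat_lit 988) (nat_lit 0) (XT.lf (nat_lit 0) (nat_lit 9763789315) (nat_lit 1140) (nat_lit 3905319419) (nat_lit 1216) (nat_lit 672818878) (nat_lit 385) (nat_lit 5) (nat_lit 400) (nat_lit 5) (nat_lit 401) (nat_lit 5) (nat_lit 351) (nat_lit 332) (nat_lit 217)) (XT.lf (nat_lit 0) (nat_lit 1643830594) (nat_lit 988) (nat_lit 7772544510) (nat_lit 76) (nat_lit 5153044569) (nat_lit 372) (nat_lit 5) (nat_lit 385) (nat_lit 5) (nat_lit 373) (nat_lit 5) (nat_lit 352) (nat_lit 332) (nat_lit 216)))) (XT.nd (nat_lit 78) (nat_lit 836) (nat_lit 0) (XT.lf (nat_lit 0) (nat_lit 3772557781) (nat_lit 836) (nat_lit 309813369) (nat_lit 912) (nat_lit 10720052404) (nat_lit 361) (nat_lit 5) (nat_lit 372) (nat_lit 5) (nat_lit 373) (nat_lit 5) (nat_lit 353) (nat_lit 332) (nat_lit 215)) (XT.nd (nat_lit 78) (nat_lit 0) (nat_lit 0) (XT.lf (nat_lit 0)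 (nat_lit 659557866) (nat_lit 836) (nat_lit 6030822088) (nat_lit 912) (nat_lit 8350117821) (nat_lit 350) (nat_lit 5) (nat_lit 361) (nat_lit 5) (nat_lit 362) (nat_lit 5) (nat_lit 354) (nat_lit 332) (nat_lit 214)) (XT.lf (nat_lit 0) (nat_lit 9456059665) (nat_lit 912) (nat_lit 2476667873) (nat_lit 76) (nat_lit 3351404343) (nat_lit 350) (nat_lit 5) (nat_lit 362) (nat_lit 5) (nat_lit 351) (nat_lit 5) (nat_lit 355) (nat_lit 332) (nat_lit 213))))))))
noncomputable def xc102 : XT := (XT.nd (nat_lit 1560) (nat_lit 3344) (nat_lit 0) (XT.nd (nat_lit 780) (nat_lit 5472) (nat_lit 0) (XT.nd (nat_lit 390) (nat_lit 2888) (nat_lit 0) (XT.nd (nat_lit 156) (nat_lit 1596) (nat_lit 0) (XT.nd (nat_lit 78) (nat_lit 836) (nat_lit 0) (XT.lf (nat_lit 0) (nat_lit 9855217907) (nat_lit 836) (nat_lit 2534961900) (nat_lit 912) (nat_lit 3143191894) (nat_lit 339) (nat_lit 5) (nat_lit 350) (nat_lit 5) (nat_lit 351) (nat_lit 5) (nat_lit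 356) (nat_lit 332) (nat_lit 212)) (XT.lf (nat_lit 0) (nat_lit 6825715670) (nat_lit 836) (nat_lit 8675792806) (nat_lit 912) (nat_lit 286802457) (nat_lit 328) (nat_lit 5) (nat_lit 339) (nat_lit 5) (nat_lit 340) (nat_lit 5) (nat_lit 357) (nat_lit 332) (nat_lit 211))) (XT.nd (nat_lit 78) (nat_lit 760) (nat_lit 0) (XT.lf (nat_lit 0) (nat_lit 2689015528) (nat_lit 836) (nat_lit 12327829156) (nat_lit 76) (nat_lit 1032343262) (nat_lit 317) (nat_lit 5) (nat_lit 328) (nat_lit 5) (nat_lit 318) (nat_lit 5) (nat_lit 358) (nat_lit 332) (nat_lit 210)) (XT.nd (nat_lit 78) (nat_lit 0) (nat_lit 0) (XT.lf (nat_lit 0) (nat_lit 519797563) (nat_lit 760) (nat_lit 5335251373) (nat_lit 836) (nat_lit 10460713135) (nat_lit 307) (nat_lit 5) (nat_lit 317) (nat_lit 5) (nat_lit 318) (nat_lit 5) (nat_lit 359) (nat_lit 332) (nat_lit 209)) (XT.lf (nat_lit 0) (nat_lit 9212936650) (nat_lit 836) (nat_lit 2716284939) (nat_lit 76) (nat_lit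 4659179671) (nat_lit 307) (nat_lit 5) (nat_lit 318) (nat_lit 5) (nat_lit 308) (nat_lit 5) (nat_lit 360) (nat_lit 332) (nat_lit 208))))) (XT.nd (nat_lit 156) (nat_lit 1444) (nat_lit 0) (XT.nd (nat_lit 78) (nat_lit 760) (nat_lit 0) (XT.lf (nat_lit 0) (nat_lit 10844309261) (nat_lit 684) (nat_lit 1916521603) (nat_lit 760) (nat_lit 4106608515) (nat_lit 298) (nat_lit 5) (nat_lit 307) (nat_lit 5) (nat_lit 308) (nat_lit 5) (nat_lit 361) (nat_lit 332) (nat_lit 207)) (XT.lf (nat_lit 0) (nat_lit 7723017786) (nat_lit 760) (nat_lit 8798880013) (nat_lit 836) (nat_lit 630821125) (nat_lit 288) (nat_lit 5) (nat_lit 298) (nat_lit 5) (nat_lit 299) (nat_lit 5) (nat_lit 362) (nat_lit 332) (nat_lit 206))) (XT.nd (nat_lit 78) (nat_lit 684) (nat_lit 0) (XT.lf (nat_lit 0) (nat_lit 2987719794) (nat_lit 760) (nat_lit 12927482987) (nat_lit 76) (nat_lit 1529432673) (nat_lit 278) (nat_lit 5) (nat_lit 288) (nat_lit 5) (nat_lit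 279) (nat_lit 5) (nat_lit 363) (nat_lit 332) (nat_lit 205)) (XT.nd (nat_lit 78) (nat_lit 0) (nat_lit 0) (XT.lf (nat_lit 0) (nat_lit 1201732991) (nat_lit 684) (nat_lit 5619674754) (nat_lit 760) (nat_lit 10921519737) (nat_lit 269) (nat_lit 5) (nat_lit 278) (nat_lit 5) (nat_lit 279) (nat_lit 5) (nat_lit 364) (nat_lit 332) (nat_lit 204)) (XT.lf (nat_lit 0) (nat_lit 10875129868) (nat_lit 760) (nat_lit 2167589548) (nat_lit 76) (nat_lit 5005352873) (nat_lit 269) (nat_lit 5) (nat_lit 279) (nat_lit 5) (nat_lit 270) (nat_lit 5) (nat_lit 365) (nat_lit 332) (nat_lit 203)))))) (XT.nd (nat_lit 390) (nat_lit 2888) (nat_lit 0) (XT.nd (nat_lit 156) (nat_lit 1216) (nat_lit 0) (XT.nd (nat_lit 78) (nat_lit 760) (nat_lit 0) (XT.lf (nat_lit 0) (nat_lit 12749369134) (nat_lit 608) (nat_lit 2406383800) (nat_lit 684) (nat_lit 3204517076) (nat_lit 261) (nat_lit 5) (nat_lit 269) (nat_lit 5) (nat_lit 270) (nat_lit 5) (nat_lit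 366) (nat_lit 332) (nat_lit 202)) (XT.lf (nat_lit 0) (nat_lit 989455996) (nat_lit 760) (nat_lit 9172347365) (nat_lit 76) (nat_lit 8517558289) (nat_lit 251) (nat_lit 5) (nat_lit 261) (nat_lit 5) (nat_lit 252) (nat_lit 5) (nat_lit 367) (nat_lit 332) (nat_lit 201))) (XT.nd (nat_lit 78) (nat_lit 608) (nat_lit 0) (XT.lf (nat_lit 0) (nat_lit 5351245566) (nat_lit 684) (nat_lit 12837574897) (nat_lit 76) (nat_lit 817075283) (nat_lit 243) (nat_lit 5) (nat_lit 252) (nat_lit 5) (nat_lit 244) (nat_lit 5) (nat_lit 368) (nat_lit 332) (nat_lit 200)) (XT.nd (nat_lit 78) (nat_lit 0) (nat_lit 0) (XT.lf (nat_lit 0) (nat_lit 2703483476) (nat_lit 608) (nat_lit 7274235045) (nat_lit 684) (nat_lit 9361834659) (nat_lit 235) (nat_lit 5) (nat_lit 243) (nat_lit 5) (nat_lit 244) (nat_lit 5) (nat_lit 369) (nat_lit 332) (nat_lit 199)) (XT.lf (nat_lit 0) (nat_lit 14842352182) (nat_lit 684) (nat_lit 838685823) (nat_lit 76) (nat_lit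 4000198796) (nat_lit 235) (nat_lit 5) (nat_lit 244) (nat_lit 5) (nat_lit 236) (nat_lit 5) (nat_lit 370) (nat_lit 332) (nat_lit 198))))) (XT.nd (nat_lit 156) (nat_lit 1672) (nat_lit 0) (XT.nd (nat_lit 78) (nat_lit 684) (nat_lit 0) (XT.lf (nat_lit 0) (nat_lit 15571336108) (nat_lit 532) (nat_lit 4417778339) (nat_lit 608) (nat_lit 41336376) (nat_lit 228) (nat_lit 5) (nat_lit 235) (nat_lit 5) (nat_lit 236) (nat_lit 5) (nat_lit 371) (nat_lit 332) (nat_lit 197)) (XT.lf (nat_lit 0) (nat_lit 4954876651) (nat_lit 684) (nat_lit 8228882517) (nat_lit 76) (nat_lit 7203369215) (nat_lit 219) (nat_lit 5) (nat_lit 228) (nat_lit 5) (nat_lit 220) (nat_lit 5) (nat_lit 372) (nat_lit 332) (nat_lit 196))) (XT.nd (nat_lit 78) (nat_lit 1140) (nat_lit 0) (XT.lf (nat_lit 0) (nat_lit 8647924653) (nat_lit 532) (nat_lit 1555500932) (nat_lit 608) (nat_lit 10549018401) (nat_lit 212) (nat_lit 5) (nat_lit 219) (nat_lit 5) (nat_lit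 220) (nat_lit 5) (nat_lit 373) (nat_lit 332) (nat_lit 195)) (XT.nd (nat_lit 78) (nat_lit 608) (nat_lit 0) (XT.lf (nat_lit 0) (nat_lit 4996870762) (nat_lit 532) (nat_lit 10755948747) (nat_lit 608) (nat_lit 5373035085) (nat_lit 205) (nat_lit 5) (nat_lit 212) (nat_lit 5) (nat_lit 213) (nat_lit 5) (nat_lit 374) (nat_lit 332) (nat_lit 194)) (XT.lf (nat_lit 0) (nat_lit 55097754) (nat_lit 608) (nat_lit 20259185117) (nat_lit 76) (nat_lit 1194266776) (nat_lit 197) (nat_lit 5) (nat_lit 205) (nat_lit 5) (nat_lit 198) (nat_lit 5) (nat_lit 375) (nat_lit 332) (nat_lit 193))))))) (XT.nd (nat_lit 43602) (nat_lit 0) (nat_lit 21508) (XT.nd (nat_lit 390) (nat_lit 1368) (nat_lit 0) (XT.nd (nat_lit 156) (nat_lit 1444) (nat_lit 0) (XT.nd (nat_lit 78) (nat_lit 532) (nat_lit 0) (XT.lf (nat_lit 0) (nat_lit 5743010181) (nat_lit 608) (nat_lit 2655843849) (nat_lit 76) (nat_lit 13499765579) (nat_lit 197) (nat_lit 5) (nat_lit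 205) (nat_lit 5) (nat_lit 198) (nat_lit 5) (nat_lit 376) (nat_lit 332) (nat_lit 192)) (XT.lf (nat_lit 0) (nat_lit 11716999063) (nat_lit 608) (nat_lit 6659431536) (nat_lit 76) (nat_lit 3921655254) (nat_lit 190) (nat_lit 5) (nat_lit 198) (nat_lit 5) (nat_lit 191) (nat_lit 5) (nat_lit 377) (nat_lit 332) (nat_lit 191))) (XT.nd (nat_lit 78) (nat_lit 988) (nat_lit 0) (XT.lf (nat_lit 0) (nat_lit 11892827012) (nat_lit 456) (nat_lit 6117033833) (nat_lit 532) (nat_lit 4696885055) (nat_lit 184) (nat_lit 5) (nat_lit 190) (nat_lit 5) (nat_lit 191) (nat_lit 5) (nat_lit 378) (nat_lit 332) (nat_lit 190)) (XT.nd (nat_lit 78) (nat_lit 456) (nat_lit 0) (XT.lf (nat_lit 0) (nat_lit 1474887497) (nat_lit 532) (nat_lit 15122221235) (nat_lit 76) (nat_lit 6527804021) (nat_lit 177) (nat_lit 5) (nat_lit 184) (nat_lit 5) (nat_lit 178) (nat_lit 5) (nat_lit 379) (nat_lit 332) (nat_lit 189)) (XT.lf (nat_lit 0) (nat_lit 3940671596)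 (nat_lit 456) (nat_lit 3956478110) (nat_lit 532) (nat_lit 15655273664) (nat_lit 171) (nat_lit 5) (nat_lit 177) (nat_lit 5) (nat_lit 178) (nat_lit 5) (nat_lit 380) (nat_lit 332) (nat_lit 188))))) (XT.nd (nat_lit 156) (nat_lit 912) (nat_lit 0) (XT.nd (nat_lit 78) (nat_lit 456) (nat_lit 0) (XT.lf (nat_lit 0) (nat_lit 14662809509) (nat_lit 532) (nat_lit 283600864) (nat_lit 76) (nat_lit 9043336921) (nat_lit 171) (nat_lit 5) (nat_lit 178) (nat_lit 5) (nat_lit 172) (nat_lit 5) (nat_lit 381) (nat_lit 332) (nat_lit 187)) (XT.lf (nat_lit 0) (nat_lit 19842825125) (nat_lit 456) (nat_lit 1932966390) (nat_lit 532) (nat_lit 2661514882) (nat_lit 165) (nat_lit 5) (nat_lit 171) (nat_lit 5) (nat_lit 172) (nat_lit 5) (nat_lit 382) (nat_lit 332) (nat_lit 186))) (XT.nd (nat_lit 78) (nat_lit 456) (nat_lit 0) (XT.lf (nat_lit 0) (nat_lit 4318070379) (nat_lit 456) (nat_lit 9127279922) (nat_lit 76) (nat_lit 11449011787) (nat_lit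 159) (nat_lit 5) (nat_lit 165) (nat_lit 5) (nat_lit 160) (nat_lit 5) (nat_lit 383) (nat_lit 332) (nat_lit 185)) (XT.nd (nat_lit 42900) (nat_lit 0) (nat_lit 23180) (XT.lf (nat_lit 0) (nat_lit 11543147319) (nat_lit 456) (nat_lit 36550903) (nat_lit 532) (nat_lit 13782905402) (nat_lit 153) (nat_lit 5) (nat_lit 159) (nat_lit 5) (nat_lit 160) (nat_lit 5) (nat_lit 384) (nat_lit 332) (nat_lit 184)) (XT.lf (nat_lit 0) (nat_lit 2502269715) (nat_lit 0) (nat_lit 2502269715) (nat_lit 1596) (nat_lit 585224758) (nat_lit 458) (nat_lit 5) (nat_lit 458) (nat_lit 3) (nat_lit 479) (nat_lit 3) (nat_lit 333) (nat_lit 333) (nat_lit 234)))))) (XT.nd (nat_lit 390) (nat_lit 0) (nat_lit 228) (XT.nd (nat_lit 156) (nat_lit 0) (nat_lit 76) (XT.nd (nat_lit 78) (nat_lit 1672) (nat_lit 0) (XT.lf (nat_lit 76) (nat_lit 1866936099) (nat_lit 0) (nat_lit 9126092164) (nat_lit 1672) (nat_lit 337217632) (nat_lit 459) (nat_lit 5) (nat_lit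 458) (nat_lit 5) (nat_lit 480) (nat_lit 5) (nat_lit 334) (nat_lit 333) (nat_lit 233)) (XT.lf (nat_lit 0) (nat_lit 558034435) (nat_lit 1672) (nat_lit 1304281578) (nat_lit 1748) (nat_lit 9622235589) (nat_lit 436) (nat_lit 5) (nat_lit 458) (nat_lit 5) (nat_lit 459) (nat_lit 5) (nat_lit 335) (nat_lit 333) (nat_lit 232))) (XT.nd (nat_lit 78) (nat_lit 0) (nat_lit 76) (XT.lf (nat_lit 0) (nat_lit 1528264003) (nat_lit 1672) (nat_lit 4505326768) (nat_lit 1748) (nat_lit 5608808212) (nat_lit 437) (nat_lit 5) (nat_lit 459) (nat_lit 5) (nat_lit 460) (nat_lit 5) (nat_lit 336) (nat_lit 333) (nat_lit 231)) (XT.nd (nat_lit 78) (nat_lit 0) (nat_lit 0) (XT.lf (nat_lit 0) (nat_lit 2555326999) (nat_lit 1672) (nat_lit 7746042658) (nat_lit 1748) (nat_lit 1503068386) (nat_lit 438) (nat_lit 5) (nat_lit 460) (nat_lit 5) (nat_lit 461) (nat_lit 5) (nat_lit 337) (nat_lit 333) (nat_lit 230)) (XT.lf (nat_lit 76) (nat_lit 924062691)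 (nat_lit 0) (nat_lit 2737134457) (nat_lit 1748) (nat_lit 8309191697) (nat_lit 439) (nat_lit 5) (nat_lit 438) (nat_lit 5) (nat_lit 461) (nat_lit 5) (nat_lit 338) (nat_lit 333) (nat_lit 229))))) (XT.nd (nat_lit 234) (nat_lit 0) (nat_lit 152) (XT.nd (nat_lit 78) (nat_lit 0) (nat_lit 76) (XT.lf (nat_lit 0) (nat_lit 4857617350) (nat_lit 1672) (nat_lit 2230972133) (nat_lit 1748) (nat_lit 5051591380) (nat_lit 439) (nat_lit 5) (nat_lit 461) (nat_lit 5) (nat_lit 462) (nat_lit 5) (nat_lit 339) (nat_lit 333) (nat_lit 228)) (XT.nd (nat_lit 78) (nat_lit 0) (nat_lit 0) (XT.lf (nat_lit 0) (nat_lit 6130656885) (nat_lit 1672) (nat_lit 5415655815) (nat_lit 1748) (nat_lit 767949278) (nat_lit 440) (nat_lit 5) (nat_lit 462) (nat_lit 5) (nat_lit 463) (nat_lit 5) (nat_lit 340) (nat_lit 333) (nat_lit 227)) (XT.lf (nat_lit 76) (nat_lit 3824349317) (nat_lit 0) (nat_lit 3678289254) (nat_lit 1748) (nat_lit 4989721522) (nat_lit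 441) (nat_lit 5) (nat_lit 440) (nat_lit 5) (nat_lit 463) (nat_lit 5) (nat_lit 341) (nat_lit 333) (nat_lit 226)))) (XT.nd (nat_lit 78) (nat_lit 0) (nat_lit 0) (XT.lf (nat_lit 76) (nat_lit 702908840) (nat_lit 0) (nat_lit 8257130536) (nat_lit 1748) (nat_lit 3714885890) (nat_lit 442) (nat_lit 5) (nat_lit 441) (nat_lit 5) (nat_lit 464) (nat_lit 5) (nat_lit 342) (nat_lit 333) (nat_lit 225)) (XT.nd (nat_lit 78) (nat_lit 0) (nat_lit 76) (XT.lf (nat_lit 76) (nat_lit 10431021507) (nat_lit 0) (nat_lit 87976077) (nat_lit 1748) (nat_lit 2342822136) (nat_lit 442) (nat_lit 5) (nat_lit 441) (nat_lit 5) (nat_lit 464) (nat_lit 5) (nat_lit 343) (nat_lit 333) (nat_lit 224)) (XT.lf (nat_lit 76) (nat_lit 7422247844) (nat_lit 0) (nat_lit 4780174511) (nat_lit 1748) (nat_lit 850353471) (nat_lit 443) (nat_lit 5) (nat_lit 442) (nat_lit 5) (nat_lit 465) (nat_lit 5) (nat_lit 344) (nat_lit 333) (nat_lit 223))))))))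
noncomputable def xc103 : XT := (XT.nd (nat_lit 1638) (nat_lit 7904) (nat_lit 0) (XT.nd (nat_lit 780) (nat_lit 6992) (nat_lit 0) (XT.nd (nat_lit 390) (nat_lit 4484) (nat_lit 0) (XT.nd (nat_lit 156) (nat_lit 0) (nat_lit 76) (XT.nd (nat_lit 78) (nat_lit 0) (nat_lit 0) (XT.lf (nat_lit 0) (nat_lit 723393623) (nat_lit 1748) (nat_lit 8883201567) (nat_lit 1824) (nat_lit 3641874319) (nat_lit 420) (nat_lit 5) (nat_lit 443) (nat_lit 5) (nat_lit 444) (nat_lit 5) (nat_lit 345) (nat_lit 333) (nat_lit 222)) (XT.lf (nat_lit 76) (nat_lit 1249250554) (nat_lit 0) (nat_lit 1138612292) (nat_lit 1824) (nat_lit 11060965591) (nat_lit 421) (nat_lit 5) (nat_lit 420) (nat_lit 5) (nat_lit 444) (nat_lit 5) (nat_lit 346) (nat_lit 333) (nat_lit 221))) (XT.nd (nat_lit 78) (nat_lit 0) (nat_lit 76) (XT.lf (nat_lit 0) (nat_lit 4189211933) (nat_lit 1748) (nat_lit 1914532788) (nat_lit 1824) (nat_lit 7549722367) (nat_lit 421) (nat_lit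 5) (nat_lit 444) (nat_lit 5) (nat_lit 445) (nat_lit 5) (nat_lit 347) (nat_lit 333) (nat_lit 220)) (XT.nd (nat_lit 78) (nat_lit 0) (nat_lit 0) (XT.lf (nat_lit 0) (nat_lit 6104343133) (nat_lit 1748) (nat_lit 5112009678) (nat_lit 1824) (nat_lit 2646704897) (nat_lit 422) (nat_lit 5) (nat_lit 445) (nat_lit 5) (nat_lit 446) (nat_lit 5) (nat_lit 348) (nat_lit 333) (nat_lit 219)) (XT.lf (nat_lit 76) (nat_lit 5700152433) (nat_lit 0) (nat_lit 2446007139) (nat_lit 1824) (nat_lit 5931399266) (nat_lit 423) (nat_lit 5) (nat_lit 422) (nat_lit 5) (nat_lit 446) (nat_lit 5) (nat_lit 349) (nat_lit 333) (nat_lit 218))))) (XT.nd (nat_lit 156) (nat_lit 2964) (nat_lit 0) (XT.nd (nat_lit 78) (nat_lit 0) (nat_lit 0) (XT.lf (nat_lit 0) (nat_lit 2581719459) (nat_lit 1748) (nat_lit 7740797910) (nat_lit 1824) (nat_lit 3974519100) (nat_lit 400) (nat_lit 5) (nat_lit 423) (nat_lit 5) (nat_lit 424) (nat_lit 5) (nat_lit 350) (nat_lit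 333) (nat_lit 217)) (XT.lf (nat_lit 0) (nat_lit 12625226026) (nat_lit 1824) (nat_lit 580699620) (nat_lit 76) (nat_lit 1315958571) (nat_lit 400) (nat_lit 5) (nat_lit 424) (nat_lit 5) (nat_lit 401) (nat_lit 5) (nat_lit 351) (nat_lit 333) (nat_lit 216))) (XT.nd (nat_lit 78) (nat_lit 1748) (nat_lit 0) (XT.lf (nat_lit 0) (nat_lit 343964017) (nat_lit 1216) (nat_lit 3791334840) (nat_lit 76) (nat_lit 10616081182) (nat_lit 384) (nat_lit 5) (nat_lit 400) (nat_lit 5) (nat_lit 385) (nat_lit 5) (nat_lit 352) (nat_lit 333) (nat_lit 215)) (XT.nd (nat_lit 78) (nat_lit 836) (nat_lit 0) (XT.lf (nat_lit 0) (nat_lit 2696316657) (nat_lit 988) (nat_lit 7079945273) (nat_lit 76) (nat_lit 5209848933) (nat_lit 372) (nat_lit 5) (nat_lit 385) (nat_lit 5) (nat_lit 373) (nat_lit 5) (nat_lit 353) (nat_lit 333) (nat_lit 214)) (XT.lf (nat_lit 0) (nat_lit 4796490478) (nat_lit 836) (nat_lit 388217607) (nat_lit 912) (nat_lit 10041872435)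 (nat_lit 361) (nat_lit 5) (nat_lit 372) (nat_lit 5) (nat_lit 373) (nat_lit 5) (nat_lit 354) (nat_lit 333) (nat_lit 213)))))) (XT.nd (nat_lit 390) (nat_lit 3648) (nat_lit 0) (XT.nd (nat_lit 156) (nat_lit 2508) (nat_lit 0) (XT.nd (nat_lit 78) (nat_lit 0) (nat_lit 0) (XT.lf (nat_lit 0) (nat_lit 1595358691) (nat_lit 836) (nat_lit 6252570414) (nat_lit 912) (nat_lit 7624337697) (nat_lit 350) (nat_lit 5) (nat_lit 361) (nat_lit 5) (nat_lit 362) (nat_lit 5) (nat_lit 355) (nat_lit 333) (nat_lit 212)) (XT.lf (nat_lit 0) (nat_lit 10668452812) (nat_lit 912) (nat_lit 1642496988) (nat_lit 76) (nat_lit 3412831664) (nat_lit 350) (nat_lit 5) (nat_lit 362) (nat_lit 5) (nat_lit 351) (nat_lit 5) (nat_lit 356) (nat_lit 333) (nat_lit 211))) (XT.nd (nat_lit 78) (nat_lit 1672) (nat_lit 0) (XT.lf (nat_lit 0) (nat_lit 11044606505) (nat_lit 836) (nat_lit 2624742911) (nat_lit 912) (nat_lit 2311582749) (nat_lit 339) (nat_lit 5)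 (nat_lit 350) (nat_lit 5) (nat_lit 351) (nat_lit 5) (nat_lit 357) (nat_lit 333) (nat_lit 210)) (XT.nd (nat_lit 78) (nat_lit 760) (nat_lit 0) (XT.lf (nat_lit 0) (nat_lit 601393228) (nat_lit 912) (nat_lit 8319949726) (nat_lit 76) (nat_lit 7322519787) (nat_lit 327) (nat_lit 5) (nat_lit 339) (nat_lit 5) (nat_lit 328) (nat_lit 5) (nat_lit 358) (nat_lit 333) (nat_lit 209)) (XT.lf (nat_lit 0) (nat_lit 3642557473) (nat_lit 836) (nat_lit 11785235650) (nat_lit 76) (nat_lit 1085143741) (nat_lit 317) (nat_lit 5) (nat_lit 328) (nat_lit 5) (nat_lit 318) (nat_lit 5) (nat_lit 359) (nat_lit 333) (nat_lit 208))))) (XT.nd (nat_lit 234) (nat_lit 2204) (nat_lit 0) (XT.nd (nat_lit 78) (nat_lit 684) (nat_lit 0) (XT.lf (nat_lit 0) (nat_lit 1433016804) (nat_lit 760) (nat_lit 5450959618) (nat_lit 836) (nat_lit 9903931544) (nat_lit 307) (nat_lit 5) (nat_lit 317) (nat_lit 5) (nat_lit 318) (nat_lit 5) (nat_lit 360) (nat_lit 333)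 (nat_lit 207)) (XT.nd (nat_lit 78) (nat_lit 684) (nat_lit 0) (XT.lf (nat_lit 0) (nat_lit 10318027626) (nat_lit 836) (nat_lit 1909749860) (nat_lit 76) (nat_lit 4841447923) (nat_lit 307) (nat_lit 5) (nat_lit 318) (nat_lit 5) (nat_lit 308) (nat_lit 5) (nat_lit 361) (nat_lit 333) (nat_lit 206)) (XT.lf (nat_lit 0) (nat_lit 12043255038) (nat_lit 684) (nat_lit 1910638748) (nat_lit 760) (nat_lit 3403117575) (nat_lit 298) (nat_lit 5) (nat_lit 307) (nat_lit 5) (nat_lit 308) (nat_lit 5) (nat_lit 362) (nat_lit 333) (nat_lit 205)))) (XT.nd (nat_lit 78) (nat_lit 1368) (nat_lit 0) (XT.lf (nat_lit 0) (nat_lit 156982570) (nat_lit 836) (nat_lit 8822308686) (nat_lit 76) (nat_lit 8671894902) (nat_lit 287) (nat_lit 5) (nat_lit 298) (nat_lit 5) (nat_lit 288) (nat_lit 5) (nat_lit 363) (nat_lit 333) (nat_lit 204)) (XT.nd (nat_lit 78) (nat_lit 684) (nat_lit 0) (XT.lf (nat_lit 0) (nat_lit 3858560330) (nat_lit 760) (nat_lit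 12428369129) (nat_lit 76) (nat_lit 1665193142) (nat_lit 278) (nat_lit 5) (nat_lit 288) (nat_lit 5) (nat_lit 279) (nat_lit 5) (nat_lit 364) (nat_lit 333) (nat_lit 203)) (XT.lf (nat_lit 0) (nat_lit 2110333807) (nat_lit 684) (nat_lit 5679836620) (nat_lit 760) (nat_lit 10469541366) (nat_lit 269) (nat_lit 5) (nat_lit 278) (nat_lit 5) (nat_lit 279) (nat_lit 5) (nat_lit 365) (nat_lit 333) (nat_lit 202))))))) (XT.nd (nat_lit 780) (nat_lit 3040) (nat_lit 0) (XT.nd (nat_lit 390) (nat_lit 2280) (nat_lit 0) (XT.nd (nat_lit 156) (nat_lit 1976) (nat_lit 0) (XT.nd (nat_lit 78) (nat_lit 608) (nat_lit 0) (XT.lf (nat_lit 0) (nat_lit 11943931762) (nat_lit 760) (nat_lit 1371113981) (nat_lit 76) (nat_lit 5259403090) (nat_lit 269) (nat_lit 5) (nat_lit 279) (nat_lit 5) (nat_lit 270) (nat_lit 5) (nat_lit 366) (nat_lit 333) (nat_lit 201)) (XT.lf (nat_lit 0) (nat_lit 13979376595) (nat_lit 608) (nat_lit 2357472018) (nat_lit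 684) (nat_lit 2559492623) (nat_lit 261) (nat_lit 5) (nat_lit 269) (nat_lit 5) (nat_lit 270) (nat_lit 5) (nat_lit 367) (nat_lit 333) (nat_lit 200))) (XT.nd (nat_lit 78) (nat_lit 1216) (nat_lit 0) (XT.lf (nat_lit 0) (nat_lit 1735582544) (nat_lit 760) (nat_lit 8590297725) (nat_lit 76) (nat_lit 8899334998) (nat_lit 251) (nat_lit 5) (nat_lit 261) (nat_lit 5) (nat_lit 252) (nat_lit 5) (nat_lit 368) (nat_lit 333) (nat_lit 199)) (XT.nd (nat_lit 78) (nat_lit 608) (nat_lit 0) (XT.lf (nat_lit 0) (nat_lit 6213757536) (nat_lit 684) (nat_lit 12366099503) (nat_lit 76) (nat_lit 981983491) (nat_lit 243) (nat_lit 5) (nat_lit 252) (nat_lit 5) (nat_lit 244) (nat_lit 5) (nat_lit 369) (nat_lit 333) (nat_lit 198)) (XT.lf (nat_lit 0) (nat_lit 3627293261) (nat_lit 608) (nat_lit 7336756958) (nat_lit 684) (nat_lit 8941762567) (nat_lit 235) (nat_lit 5) (nat_lit 243) (nat_lit 5) (nat_lit 244) (nat_lit 5) (nat_lit 370) (nat_lit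 333) (nat_lit 197))))) (XT.nd (nat_lit 156) (nat_lit 1672) (nat_lit 0) (XT.nd (nat_lit 78) (nat_lit 608) (nat_lit 0) (XT.lf (nat_lit 0) (nat_lit 15955594673) (nat_lit 684) (nat_lit 33146077) (nat_lit 76) (nat_lit 4269392175) (nat_lit 235) (nat_lit 5) (nat_lit 244) (nat_lit 5) (nat_lit 236) (nat_lit 5) (nat_lit 371) (nat_lit 333) (nat_lit 196)) (XT.lf (nat_lit 0) (nat_lit 616308208) (nat_lit 608) (nat_lit 3766466921) (nat_lit 76) (nat_lit 16235255424) (nat_lit 227) (nat_lit 5) (nat_lit 235) (nat_lit 5) (nat_lit 228) (nat_lit 5) (nat_lit 372) (nat_lit 333) (nat_lit 195))) (XT.nd (nat_lit 78) (nat_lit 1064) (nat_lit 0) (XT.lf (nat_lit 0) (nat_lit 5749044335) (nat_lit 684) (nat_lit 7651043872) (nat_lit 76) (nat_lit 7585575835) (nat_lit 219) (nat_lit 5) (nat_lit 228) (nat_lit 5) (nat_lit 220) (nat_lit 5) (nat_lit 373) (nat_lit 333) (nat_lit 194)) (XT.nd (nat_lit 78) (nat_lit 532) (nat_lit 0) (XT.lf (nat_lit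 0) (nat_lit 9718687652) (nat_lit 532) (nat_lit 1422828153) (nat_lit 608) (nat_lit 10220698874) (nat_lit 212) (nat_lit 5) (nat_lit 219) (nat_lit 5) (nat_lit 220) (nat_lit 5) (nat_lit 374) (nat_lit 333) (nat_lit 193)) (XT.lf (nat_lit 0) (nat_lit 5956388785) (nat_lit 532) (nat_lit 10888982363) (nat_lit 608) (nat_lit 4901701609) (nat_lit 205) (nat_lit 5) (nat_lit 212) (nat_lit 5) (nat_lit 213) (nat_lit 5) (nat_lit 375) (nat_lit 333) (nat_lit 192)))))) (XT.nd (nat_lit 390) (nat_lit 912) (nat_lit 0) (XT.nd (nat_lit 156) (nat_lit 1520) (nat_lit 0) (XT.nd (nat_lit 78) (nat_lit 0) (nat_lit 0) (XT.lf (nat_lit 0) (nat_lit 669279800) (nat_lit 608) (nat_lit 20051050632) (nat_lit 76) (nat_lit 1421074604) (nat_lit 197) (nat_lit 5) (nat_lit 205) (nat_lit 5) (nat_lit 198) (nat_lit 5) (nat_lit 376) (nat_lit 333) (nat_lit 191)) (XT.lf (nat_lit 0) (nat_lit 6509988945) (nat_lit 608) (nat_lit 1943373497) (nat_lit 76) (nat_lit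 14090175852) (nat_lit 197) (nat_lit 5) (nat_lit 205) (nat_lit 5) (nat_lit 198) (nat_lit 5) (nat_lit 377) (nat_lit 333) (nat_lit 190))) (XT.nd (nat_lit 78) (nat_lit 988) (nat_lit 0) (XT.lf (nat_lit 0) (nat_lit 12652214356) (nat_lit 608) (nat_lit 6069408207) (nat_lit 76) (nat_lit 4233589882) (nat_lit 190) (nat_lit 5) (nat_lit 198) (nat_lit 5) (nat_lit 191) (nat_lit 5) (nat_lit 378) (nat_lit 333) (nat_lit 189)) (XT.nd (nat_lit 78) (nat_lit 532) (nat_lit 0) (XT.lf (nat_lit 0) (nat_lit 13026604429) (nat_lit 456) (nat_lit 6095301187) (nat_lit 532) (nat_lit 4254469937) (nat_lit 184) (nat_lit 5) (nat_lit 190) (nat_lit 5) (nat_lit 191) (nat_lit 5) (nat_lit 379) (nat_lit 333) (nat_lit 188)) (XT.lf (nat_lit 0) (nat_lit 2084402245) (nat_lit 532) (nat_lit 14793783809) (nat_lit 76) (nat_lit 6929037609) (nat_lit 177) (nat_lit 5) (nat_lit 184) (nat_lit 5) (nat_lit 178) (nat_lit 5) (nat_lit 380) (nat_lit 333) (nat_lit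 187))))) (XT.nd (nat_lit 43212) (nat_lit 0) (nat_lit 20520) (XT.nd (nat_lit 78) (nat_lit 456) (nat_lit 0) (XT.lf (nat_lit 0) (nat_lit 4828307098) (nat_lit 456) (nat_lit 3859556657) (nat_lit 532) (nat_lit 15559929033) (nat_lit 171) (nat_lit 5) (nat_lit 177) (nat_lit 5) (nat_lit 178) (nat_lit 5) (nat_lit 381) (nat_lit 333) (nat_lit 186)) (XT.nd (nat_lit 78) (nat_lit 0) (nat_lit 0) (XT.lf (nat_lit 0) (nat_lit 470585954) (nat_lit 456) (nat_lit 15174191815) (nat_lit 532) (nat_lit 9053696680) (nat_lit 165) (nat_lit 5) (nat_lit 171) (nat_lit 5) (nat_lit 172) (nat_lit 5) (nat_lit 382) (nat_lit 333) (nat_lit 185)) (XT.lf (nat_lit 0) (nat_lit 21182359217) (nat_lit 456) (nat_lit 1774866960) (nat_lit 532) (nat_lit 2202516207) (nat_lit 165) (nat_lit 5) (nat_lit 171) (nat_lit 5) (nat_lit 172) (nat_lit 5) (nat_lit 383) (nat_lit 333) (nat_lit 184)))) (XT.nd (nat_lit 78) (nat_lit 0) (nat_lit 76) (XT.lf (nat_lit 0)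 (nat_lit 210221828) (nat_lit 1748) (nat_lit 2765460572) (nat_lit 1748) (nat_lit 2765460572) (nat_lit 435) (nat_lit 3) (nat_lit 458) (nat_lit 3) (nat_lit 458) (nat_lit 5) (nat_lit 334) (nat_lit 334) (nat_lit 232)) (XT.nd (nat_lit 78) (nat_lit 0) (nat_lit 0) (XT.lf (nat_lit 0) (nat_lit 1220828002) (nat_lit 1672) (nat_lit 8899919740) (nat_lit 1748) (nat_lit 1517614498) (nat_lit 436) (nat_lit 5) (nat_lit 458) (nat_lit 5) (nat_lit 459) (nat_lit 5) (nat_lit 335) (nat_lit 334) (nat_lit 231)) (XT.lf (nat_lit 0) (nat_lit 2092840335) (nat_lit 1672) (nat_lit 522988446) (nat_lit 1748) (nat_lit 9182350499) (nat_lit 436) (nat_lit 5) (nat_lit 458) (nat_lit 5) (nat_lit 459) (nat_lit 5) (nat_lit 336) (nat_lit 334) (nat_lit 230))))))))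
noncomputable def xc104 : XT := (XT.nd (nat_lit 1560) (nat_lit 11628) (nat_lit 0) (XT.nd (nat_lit 780) (nat_lit 5244) (nat_lit 0) (XT.nd (nat_lit 390) (nat_lit 1368) (nat_lit 0) (XT.nd (nat_lit 156) (nat_lit 0) (nat_lit 76) (XT.nd (nat_lit 78) (nat_lit 0) (nat_lit 76) (XT.lf (nat_lit 0) (nat_lit 3048838680) (nat_lit 1672) (nat_lit 3798899011) (nat_lit 1748) (nat_lit 5113907103) (nat_lit 437) (nat_lit 5) (nat_lit 459) (nat_lit 5) (nat_lit 460) (nat_lit 5) (nat_lit 337) (nat_lit 334) (nat_lit 229)) (XT.lf (nat_lit 0) (nat_lit 4065180426) (nat_lit 1672) (nat_lit 7117275587) (nat_lit 1748) (nat_lit 946935161) (nat_lit 438) (nat_lit 5) (nat_lit 460) (nat_lit 5) (nat_lit 461) (nat_lit 5) (nat_lit 338) (nat_lit 334) (nat_lit 228))) (XT.nd (nat_lit 78) (nat_lit 0) (nat_lit 76) (XT.lf (nat_lit 76) (nat_lit 1798961814) (nat_lit 0) (nat_lit 3369021799) (nat_lit 1748) (nat_lit 7133076781) (nat_lit 439) (nat_lit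 5) (nat_lit 438) (nat_lit 5) (nat_lit 461) (nat_lit 5) (nat_lit 339) (nat_lit 334) (nat_lit 227)) (XT.nd (nat_lit 78) (nat_lit 0) (nat_lit 76) (XT.lf (nat_lit 0) (nat_lit 6356143013) (nat_lit 1672) (nat_lit 1444321830) (nat_lit 1748) (nat_lit 4676378992) (nat_lit 439) (nat_lit 5) (nat_lit 461) (nat_lit 5) (nat_lit 462) (nat_lit 5) (nat_lit 340) (nat_lit 334) (nat_lit 226)) (XT.lf (nat_lit 0) (nat_lit 7630313228) (nat_lit 1672) (nat_lit 4708434307) (nat_lit 1748) (nat_lit 318155230) (nat_lit 440) (nat_lit 5) (nat_lit 462) (nat_lit 5) (nat_lit 463) (nat_lit 5) (nat_lit 341) (nat_lit 334) (nat_lit 225))))) (XT.nd (nat_lit 156) (nat_lit 1596) (nat_lit 0) (XT.nd (nat_lit 78) (nat_lit 0) (nat_lit 76) (XT.lf (nat_lit 76) (nat_lit 4794661272) (nat_lit 0) (nat_lit 4216025668) (nat_lit 1748) (nat_lit 3830325989) (nat_lit 441) (nat_lit 5) (nat_lit 440) (nat_lit 5) (nat_lit 463) (nat_lit 5) (nat_lit 342) (nat_lit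 334) (nat_lit 224)) (XT.lf (nat_lit 76) (nat_lit 1594120887) (nat_lit 0) (nat_lit 8883276211) (nat_lit 1748) (nat_lit 2552359569) (nat_lit 442) (nat_lit 5) (nat_lit 441) (nat_lit 5) (nat_lit 464) (nat_lit 5) (nat_lit 343) (nat_lit 334) (nat_lit 223))) (XT.nd (nat_lit 78) (nat_lit 1672) (nat_lit 0) (XT.lf (nat_lit 76) (nat_lit 11588733494) (nat_lit 0) (nat_lit 458024835) (nat_lit 1748) (nat_lit 1176239910) (nat_lit 442) (nat_lit 5) (nat_lit 441) (nat_lit 5) (nat_lit 464) (nat_lit 5) (nat_lit 344) (nat_lit 334) (nat_lit 222)) (XT.nd (nat_lit 78) (nat_lit 0) (nat_lit 76) (XT.lf (nat_lit 0) (nat_lit 323989727) (nat_lit 1748) (nat_lit 4919854658) (nat_lit 1824) (nat_lit 8176449677) (nat_lit 419) (nat_lit 5) (nat_lit 442) (nat_lit 5) (nat_lit 443) (nat_lit 5) (nat_lit 345) (nat_lit 334) (nat_lit 221)) (XT.lf (nat_lit 0) (nat_lit 1902486122) (nat_lit 1748) (nat_lit 8264441719) (nat_lit 1824) (nat_lit 3455448484)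 (nat_lit 420) (nat_lit 5) (nat_lit 443) (nat_lit 5) (nat_lit 444) (nat_lit 5) (nat_lit 346) (nat_lit 334) (nat_lit 220)))))) (XT.nd (nat_lit 390) (nat_lit 3800) (nat_lit 0) (XT.nd (nat_lit 156) (nat_lit 1520) (nat_lit 0) (XT.nd (nat_lit 78) (nat_lit 0) (nat_lit 76) (XT.lf (nat_lit 76) (nat_lit 2157621741) (nat_lit 0) (nat_lit 1431211692) (nat_lit 1824) (nat_lit 10240485342) (nat_lit 421) (nat_lit 5) (nat_lit 420) (nat_lit 5) (nat_lit 444) (nat_lit 5) (nat_lit 347) (nat_lit 334) (nat_lit 219)) (XT.lf (nat_lit 0) (nat_lit 5409700652) (nat_lit 1748) (nat_lit 1102506485) (nat_lit 1824) (nat_lit 7528591192) (nat_lit 421) (nat_lit 5) (nat_lit 444) (nat_lit 5) (nat_lit 445) (nat_lit 5) (nat_lit 348) (nat_lit 334) (nat_lit 218))) (XT.nd (nat_lit 78) (nat_lit 1672) (nat_lit 0) (XT.lf (nat_lit 0) (nat_lit 7354567861) (nat_lit 1748) (nat_lit 4386894824) (nat_lit 1824) (nat_lit 2515779307) (nat_lit 422) (nat_lit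 5) (nat_lit 445) (nat_lit 5) (nat_lit 446) (nat_lit 5) (nat_lit 349) (nat_lit 334) (nat_lit 217)) (XT.nd (nat_lit 78) (nat_lit 1672) (nat_lit 0) (XT.lf (nat_lit 76) (nat_lit 6735379935) (nat_lit 0) (nat_lit 2696789546) (nat_lit 1824) (nat_lit 5046528709) (nat_lit 423) (nat_lit 5) (nat_lit 422) (nat_lit 5) (nat_lit 446) (nat_lit 5) (nat_lit 350) (nat_lit 334) (nat_lit 216)) (XT.lf (nat_lit 0) (nat_lit 3531349780) (nat_lit 1748) (nat_lit 8116674134) (nat_lit 1824) (nat_lit 3057262454) (nat_lit 400) (nat_lit 5) (nat_lit 423) (nat_lit 5) (nat_lit 424) (nat_lit 5) (nat_lit 351) (nat_lit 334) (nat_lit 215))))) (XT.nd (nat_lit 156) (nat_lit 2584) (nat_lit 0) (XT.nd (nat_lit 78) (nat_lit 76) (nat_lit 0) (XT.lf (nat_lit 0) (nat_lit 273202901) (nat_lit 1140) (nat_lit 13717891912) (nat_lit 1216) (nat_lit 946369153) (nat_lit 385) (nat_lit 5) (nat_lit 400) (nat_lit 5) (nat_lit 401) (nat_lit 5) (nat_lit 352) (nat_lit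 334) (nat_lit 214)) (XT.lf (nat_lit 0) (nat_lit 1323157099) (nat_lit 1216) (nat_lit 3038218284) (nat_lit 76) (nat_lit 10812850149) (nat_lit 384) (nat_lit 5) (nat_lit 400) (nat_lit 5) (nat_lit 385) (nat_lit 5) (nat_lit 353) (nat_lit 334) (nat_lit 213))) (XT.nd (nat_lit 78) (nat_lit 1672) (nat_lit 0) (XT.lf (nat_lit 0) (nat_lit 3722791174) (nat_lit 988) (nat_lit 6419711365) (nat_lit 76) (nat_lit 5273970799) (nat_lit 372) (nat_lit 5) (nat_lit 385) (nat_lit 5) (nat_lit 373) (nat_lit 5) (nat_lit 354) (nat_lit 334) (nat_lit 212)) (XT.nd (nat_lit 78) (nat_lit 836) (nat_lit 0) (XT.lf (nat_lit 0) (nat_lit 5798860038) (nat_lit 836) (nat_lit 465006784) (nat_lit 912) (nat_lit 9400738618) (nat_lit 361) (nat_lit 5) (nat_lit 372) (nat_lit 5) (nat_lit 373) (nat_lit 5) (nat_lit 355) (nat_lit 334) (nat_lit 211)) (XT.lf (nat_lit 0) (nat_lit 2506650584) (nat_lit 836) (nat_lit 6478627744) (nat_lit 912) (nat_lit 6932826846)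 (nat_lit 350) (nat_lit 5) (nat_lit 361) (nat_lit 5) (nat_lit 362) (nat_lit 5) (nat_lit 356) (nat_lit 334) (nat_lit 210))))))) (XT.nd (nat_lit 780) (nat_lit 5472) (nat_lit 0) (XT.nd (nat_lit 390) (nat_lit 2888) (nat_lit 0) (XT.nd (nat_lit 156) (nat_lit 2432) (nat_lit 0) (XT.nd (nat_lit 78) (nat_lit 836) (nat_lit 0) (XT.lf (nat_lit 0) (nat_lit 11863905923) (nat_lit 912) (nat_lit 835450924) (nat_lit 76) (nat_lit 3478347154) (nat_lit 350) (nat_lit 5) (nat_lit 362) (nat_lit 5) (nat_lit 351) (nat_lit 5) (nat_lit 357) (nat_lit 334) (nat_lit 209)) (XT.lf (nat_lit 0) (nat_lit 12218372883) (nat_lit 836) (nat_lit 2716429069) (nat_lit 912) (nat_lit 1508176059) (nat_lit 339) (nat_lit 5) (nat_lit 350) (nat_lit 5) (nat_lit 351) (nat_lit 5) (nat_lit 358) (nat_lit 334) (nat_lit 208))) (XT.nd (nat_lit 78) (nat_lit 1520) (nat_lit 0) (XT.lf (nat_lit 0) (nat_lit 1461102901) (nat_lit 912) (nat_lit 7712157871) (nat_lit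 76) (nat_lit 7540823048) (nat_lit 327) (nat_lit 5) (nat_lit 339) (nat_lit 5) (nat_lit 328) (nat_lit 5) (nat_lit 359) (nat_lit 334) (nat_lit 207)) (XT.nd (nat_lit 78) (nat_lit 760) (nat_lit 0) (XT.lf (nat_lit 0) (nat_lit 4574599283) (nat_lit 836) (nat_lit 11278741461) (nat_lit 76) (nat_lit 1138275092) (nat_lit 317) (nat_lit 5) (nat_lit 328) (nat_lit 5) (nat_lit 318) (nat_lit 5) (nat_lit 360) (nat_lit 334) (nat_lit 206)) (XT.lf (nat_lit 0) (nat_lit 2322105258) (nat_lit 760) (nat_lit 5572684941) (nat_lit 836) (nat_lit 9380422678) (nat_lit 307) (nat_lit 5) (nat_lit 317) (nat_lit 5) (nat_lit 318) (nat_lit 5) (nat_lit 361) (nat_lit 334) (nat_lit 205))))) (XT.nd (nat_lit 156) (nat_lit 2204) (nat_lit 0) (XT.nd (nat_lit 78) (nat_lit 684) (nat_lit 0) (XT.lf (nat_lit 0) (nat_lit 11408700396) (nat_lit 836) (nat_lit 1129994917) (nat_lit 76) (nat_lit 5026744958) (nat_lit 307) (nat_lit 5) (nat_lit 318) (nat_lit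 5) (nat_lit 308) (nat_lit 5) (nat_lit 362) (nat_lit 334) (nat_lit 204)) (XT.lf (nat_lit 0) (nat_lit 13228020028) (nat_lit 684) (nat_lit 1908217594) (nat_lit 760) (nat_lit 2725977247) (nat_lit 298) (nat_lit 5) (nat_lit 307) (nat_lit 5) (nat_lit 308) (nat_lit 5) (nat_lit 363) (nat_lit 334) (nat_lit 203))) (XT.nd (nat_lit 78) (nat_lit 1368) (nat_lit 0) (XT.lf (nat_lit 0) (nat_lit 914078510) (nat_lit 836) (nat_lit 8251776791) (nat_lit 76) (nat_lit 8999597608) (nat_lit 287) (nat_lit 5) (nat_lit 298) (nat_lit 5) (nat_lit 288) (nat_lit 5) (nat_lit 364) (nat_lit 334) (nat_lit 202)) (XT.nd (nat_lit 78) (nat_lit 684) (nat_lit 0) (XT.lf (nat_lit 0) (nat_lit 4710681493) (nat_lit 760) (nat_lit 11965195746) (nat_lit 76) (nat_lit 1799867089) (nat_lit 278) (nat_lit 5) (nat_lit 288) (nat_lit 5) (nat_lit 279) (nat_lit 5) (nat_lit 365) (nat_lit 334) (nat_lit 201)) (XT.lf (nat_lit 0) (nat_lit 2996104775) (nat_lit 684)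 (nat_lit 5748027575) (nat_lit 760) (nat_lit 10048757249) (nat_lit 269) (nat_lit 5) (nat_lit 278) (nat_lit 5) (nat_lit 279) (nat_lit 5) (nat_lit 366) (nat_lit 334) (nat_lit 200)))))) (XT.nd (nat_lit 390) (nat_lit 2888) (nat_lit 0) (XT.nd (nat_lit 156) (nat_lit 1976) (nat_lit 0) (XT.nd (nat_lit 78) (nat_lit 608) (nat_lit 0) (XT.lf (nat_lit 0) (nat_lit 13002172421) (nat_lit 760) (nat_lit 600197958) (nat_lit 76) (nat_lit 5515111123) (nat_lit 269) (nat_lit 5) (nat_lit 279) (nat_lit 5) (nat_lit 270) (nat_lit 5) (nat_lit 367) (nat_lit 334) (nat_lit 199)) (XT.lf (nat_lit 0) (nat_lit 15197632797) (nat_lit 608) (nat_lit 2314044707) (nat_lit 684) (nat_lit 1937663051) (nat_lit 261) (nat_lit 5) (nat_lit 269) (nat_lit 5) (nat_lit 270) (nat_lit 5) (nat_lit 368) (nat_lit 334) (nat_lit 198))) (XT.nd (nat_lit 78) (nat_lit 1216) (nat_lit 0) (XT.lf (nat_lit 0) (nat_lit 2462966137) (nat_lit 760) (nat_lit 8039994535) (nat_lit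 76) (nat_lit 9285317745) (nat_lit 251) (nat_lit 5) (nat_lit 261) (nat_lit 5) (nat_lit 252) (nat_lit 5) (nat_lit 369) (nat_lit 334) (nat_lit 197)) (XT.nd (nat_lit 78) (nat_lit 608) (nat_lit 0) (XT.lf (nat_lit 0) (nat_lit 7061848651) (nat_lit 684) (nat_lit 11929652343) (nat_lit 76) (nat_lit 1143779644) (nat_lit 243) (nat_lit 5) (nat_lit 252) (nat_lit 5) (nat_lit 244) (nat_lit 5) (nat_lit 370) (nat_lit 334) (nat_lit 196)) (XT.lf (nat_lit 0) (nat_lit 4530442610) (nat_lit 608) (nat_lit 7410092639) (nat_lit 684) (nat_lit 8549324396) (nat_lit 235) (nat_lit 5) (nat_lit 243) (nat_lit 5) (nat_lit 244) (nat_lit 5) (nat_lit 371) (nat_lit 334) (nat_lit 195))))) (XT.nd (nat_lit 234) (nat_lit 1672) (nat_lit 0) (XT.nd (nat_lit 78) (nat_lit 684) (nat_lit 0) (XT.lf (nat_lit 0) (nat_lit 758826408) (nat_lit 532) (nat_lit 16309990514) (nat_lit 608) (nat_lit 3784197784) (nat_lit 228) (nat_lit 5) (nat_lit 235) (nat_lit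 5) (nat_lit 236) (nat_lit 5) (nat_lit 372) (nat_lit 334) (nat_lit 194)) (XT.nd (nat_lit 78) (nat_lit 608) (nat_lit 0) (XT.lf (nat_lit 0) (nat_lit 1255333112) (nat_lit 608) (nat_lit 3100740218) (nat_lit 76) (nat_lit 16867924549) (nat_lit 227) (nat_lit 5) (nat_lit 235) (nat_lit 5) (nat_lit 228) (nat_lit 5) (nat_lit 373) (nat_lit 334) (nat_lit 193)) (XT.lf (nat_lit 0) (nat_lit 6529981480) (nat_lit 684) (nat_lit 7103211516) (nat_lit 76) (nat_lit 7969713516) (nat_lit 219) (nat_lit 5) (nat_lit 228) (nat_lit 5) (nat_lit 220) (nat_lit 5) (nat_lit 374) (nat_lit 334) (nat_lit 192)))) (XT.nd (nat_lit 78) (nat_lit 1140) (nat_lit 0) (XT.lf (nat_lit 0) (nat_lit 10775000151) (nat_lit 532) (nat_lit 1296469915) (nat_lit 608) (nat_lit 9919543350) (nat_lit 212) (nat_lit 5) (nat_lit 219) (nat_lit 5) (nat_lit 220) (nat_lit 5) (nat_lit 375) (nat_lit 334) (nat_lit 191)) (XT.nd (nat_lit 78) (nat_lit 608) (nat_lit 0) (XT.lf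 (nat_lit 0) (nat_lit 6898217315) (nat_lit 532) (nat_lit 11036893377) (nat_lit 608) (nat_lit 4452537623) (nat_lit 205) (nat_lit 5) (nat_lit 212) (nat_lit 5) (nat_lit 213) (nat_lit 5) (nat_lit 376) (nat_lit 334) (nat_lit 190)) (XT.lf (nat_lit 0) (nat_lit 1266725630) (nat_lit 608) (nat_lit 19883508687) (nat_lit 76) (nat_lit 1643723644) (nat_lit 197) (nat_lit 5) (nat_lit 205) (nat_lit 5) (nat_lit 198) (nat_lit 5) (nat_lit 377) (nat_lit 334) (nat_lit 189))))))))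
noncomputable def xc105 : XT := (XT.nd (nat_lit 44616) (nat_lit 0) (nat_lit 7296) (XT.nd (nat_lit 43836) (nat_lit 0) (nat_lit 19304) (XT.nd (nat_lit 390) (nat_lit 456) (nat_lit 0) (XT.nd (nat_lit 156) (nat_lit 1444) (nat_lit 0) (XT.nd (nat_lit 78) (nat_lit 532) (nat_lit 0) (XT.lf (nat_lit 0) (nat_lit 7265839523) (nat_lit 608) (nat_lit 1255001436) (nat_lit 76) (nat_lit 14687654721) (nat_lit 197) (nat_lit 5) (nat_lit 205) (nat_lit 5) (nat_lit 198) (nat_lit 5) (nat_lit 378) (nat_lit 334) (nat_lit 188)) (XT.lf (nat_lit 0) (nat_lit 13581979034) (nat_lit 608) (nat_lit 5507022290) (nat_lit 76) (nat_lit 4543729797) (nat_lit 190) (nat_lit 5) (nat_lit 198) (nat_lit 5) (nat_lit 191) (nat_lit 5) (nat_lit 379) (nat_lit 334) (nat_lit 187))) (XT.nd (nat_lit 78) (nat_lit 988) (nat_lit 0) (XT.lf (nat_lit 0) (nat_lit 14149792615) (nat_lit 456) (nat_lit 6084698388) (nat_lit 532) (nat_lit 3832267415) (nat_lit 184) (nat_lit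 5) (nat_lit 190) (nat_lit 5) (nat_lit 191) (nat_lit 5) (nat_lit 380) (nat_lit 334) (nat_lit 186)) (XT.nd (nat_lit 78) (nat_lit 456) (nat_lit 0) (XT.lf (nat_lit 0) (nat_lit 2679753733) (nat_lit 532) (nat_lit 14500389233) (nat_lit 76) (nat_lit 7330517434) (nat_lit 177) (nat_lit 5) (nat_lit 184) (nat_lit 5) (nat_lit 178) (nat_lit 5) (nat_lit 381) (nat_lit 334) (nat_lit 185)) (XT.lf (nat_lit 0) (nat_lit 5698404076) (nat_lit 456) (nat_lit 3772104789) (nat_lit 532) (nat_lit 15494157538) (nat_lit 171) (nat_lit 5) (nat_lit 177) (nat_lit 5) (nat_lit 178) (nat_lit 5) (nat_lit 382) (nat_lit 334) (nat_lit 184))))) (XT.nd (nat_lit 43212) (nat_lit 0) (nat_lit 20596) (XT.nd (nat_lit 43134) (nat_lit 0) (nat_lit 20520) (XT.lf (nat_lit 0) (nat_lit 1207275706) (nat_lit 456) (nat_lit 15419622986) (nat_lit 532) (nat_lit 8802157949) (nat_lit 165) (nat_lit 5) (nat_lit 171) (nat_lit 5) (nat_lit 172) (nat_lit 5) (nat_lit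 383) (nat_lit 334) (nat_lit 183)) (XT.lf (nat_lit 0) (nat_lit 975410321) (nat_lit 1748) (nat_lit 2461257759) (nat_lit 1748) (nat_lit 2461257759) (nat_lit 435) (nat_lit 3) (nat_lit 458) (nat_lit 3) (nat_lit 458) (nat_lit 5) (nat_lit 335) (nat_lit 335) (nat_lit 230))) (XT.nd (nat_lit 78) (nat_lit 0) (nat_lit 0) (XT.lf (nat_lit 0) (nat_lit 2731302228) (nat_lit 1672) (nat_lit 8370391528) (nat_lit 1748) (nat_lit 855810741) (nat_lit 436) (nat_lit 5) (nat_lit 458) (nat_lit 5) (nat_lit 459) (nat_lit 5) (nat_lit 336) (nat_lit 335) (nat_lit 229)) (XT.nd (nat_lit 78) (nat_lit 0) (nat_lit 76) (XT.lf (nat_lit 76) (nat_lit 237766271) (nat_lit 0) (nat_lit 3350324744) (nat_lit 1748) (nat_lit 8534868196) (nat_lit 437) (nat_lit 5) (nat_lit 436) (nat_lit 5) (nat_lit 459) (nat_lit 5) (nat_lit 337) (nat_lit 335) (nat_lit 228)) (XT.lf (nat_lit 0) (nat_lit 4530375249) (nat_lit 1672) (nat_lit 3119588990) (nat_lit 1748) (nat_lit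 4642227366) (nat_lit 437) (nat_lit 5) (nat_lit 459) (nat_lit 5) (nat_lit 460) (nat_lit 5) (nat_lit 338) (nat_lit 335) (nat_lit 227)))))) (XT.nd (nat_lit 390) (nat_lit 1444) (nat_lit 0) (XT.nd (nat_lit 156) (nat_lit 0) (nat_lit 76) (XT.nd (nat_lit 78) (nat_lit 0) (nat_lit 0) (XT.lf (nat_lit 0) (nat_lit 5538058279) (nat_lit 1672) (nat_lit 6519078943) (nat_lit 1748) (nat_lit 408630729) (nat_lit 438) (nat_lit 5) (nat_lit 460) (nat_lit 5) (nat_lit 461) (nat_lit 5) (nat_lit 339) (nat_lit 335) (nat_lit 226)) (XT.lf (nat_lit 76) (nat_lit 2651476470) (nat_lit 0) (nat_lit 3988306525) (nat_lit 1748) (nat_lit 6003501674) (nat_lit 439) (nat_lit 5) (nat_lit 438) (nat_lit 5) (nat_lit 461) (nat_lit 5) (nat_lit 340) (nat_lit 335) (nat_lit 225))) (XT.nd (nat_lit 78) (nat_lit 0) (nat_lit 0) (XT.lf (nat_lit 0) (nat_lit 7821968356) (nat_lit 1672) (nat_lit 683070971) (nat_lit 1748) (nat_lit 4320148420) (nat_lit 439) (nat_lit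 5) (nat_lit 461) (nat_lit 5) (nat_lit 462) (nat_lit 5) (nat_lit 341) (nat_lit 335) (nat_lit 224)) (XT.nd (nat_lit 78) (nat_lit 0) (nat_lit 76) (XT.lf (nat_lit 76) (nat_lit 8980648701) (nat_lit 0) (nat_lit 119558144) (nat_lit 1748) (nat_lit 3911138093) (nat_lit 440) (nat_lit 5) (nat_lit 439) (nat_lit 5) (nat_lit 462) (nat_lit 5) (nat_lit 342) (nat_lit 335) (nat_lit 223)) (XT.lf (nat_lit 76) (nat_lit 5744968709) (nat_lit 0) (nat_lit 4745360370) (nat_lit 1748) (nat_lit 2711295550) (nat_lit 441) (nat_lit 5) (nat_lit 440) (nat_lit 5) (nat_lit 463) (nat_lit 5) (nat_lit 343) (nat_lit 335) (nat_lit 222))))) (XT.nd (nat_lit 156) (nat_lit 1672) (nat_lit 0) (XT.nd (nat_lit 78) (nat_lit 0) (nat_lit 0) (XT.lf (nat_lit 76) (nat_lit 2462120573) (nat_lit 0) (nat_lit 9506482726) (nat_lit 1748) (nat_lit 1428088715) (nat_lit 442) (nat_lit 5) (nat_lit 441) (nat_lit 5) (nat_lit 464) (nat_lit 5) (nat_lit 344) (nat_lit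 335) (nat_lit 221)) (XT.lf (nat_lit 76) (nat_lit 12732682935) (nat_lit 0) (nat_lit 818084248) (nat_lit 1748) (nat_lit 45661436) (nat_lit 442) (nat_lit 5) (nat_lit 441) (nat_lit 5) (nat_lit 464) (nat_lit 5) (nat_lit 345) (nat_lit 335) (nat_lit 220))) (XT.nd (nat_lit 78) (nat_lit 0) (nat_lit 76) (XT.lf (nat_lit 0) (nat_lit 1453858998) (nat_lit 1748) (nat_lit 4243713401) (nat_lit 1824) (nat_lit 8102539672) (nat_lit 419) (nat_lit 5) (nat_lit 442) (nat_lit 5) (nat_lit 443) (nat_lit 5) (nat_lit 346) (nat_lit 335) (nat_lit 219)) (XT.nd (nat_lit 78) (nat_lit 0) (nat_lit 0) (XT.lf (nat_lit 0) (nat_lit 3050512436) (nat_lit 1748) (nat_lit 7677936384) (nat_lit 1824) (nat_lit 3280403234) (nat_lit 420) (nat_lit 5) (nat_lit 443) (nat_lit 5) (nat_lit 444) (nat_lit 5) (nat_lit 347) (nat_lit 335) (nat_lit 218)) (XT.lf (nat_lit 76) (nat_lit 3043251204) (nat_lit 0) (nat_lit 1717753502) (nat_lit 1824) (nat_lit 9461537949)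 (nat_lit 421) (nat_lit 5) (nat_lit 420) (nat_lit 5) (nat_lit 444) (nat_lit 5) (nat_lit 348) (nat_lit 335) (nat_lit 217))))))) (XT.nd (nat_lit 780) (nat_lit 6764) (nat_lit 0) (XT.nd (nat_lit 390) (nat_lit 2660) (nat_lit 0) (XT.nd (nat_lit 156) (nat_lit 2736) (nat_lit 0) (XT.nd (nat_lit 78) (nat_lit 0) (nat_lit 76) (XT.lf (nat_lit 0) (nat_lit 6603957323) (nat_lit 1748) (nat_lit 316030085) (nat_lit 1824) (nat_lit 7521040647) (nat_lit 421) (nat_lit 5) (nat_lit 444) (nat_lit 5) (nat_lit 445) (nat_lit 5) (nat_lit 349) (nat_lit 335) (nat_lit 216)) (XT.lf (nat_lit 0) (nat_lit 8581043745) (nat_lit 1748) (nat_lit 3690454591) (nat_lit 1824) (nat_lit 2392999566) (nat_lit 422) (nat_lit 5) (nat_lit 445) (nat_lit 5) (nat_lit 446) (nat_lit 5) (nat_lit 350) (nat_lit 335) (nat_lit 215))) (XT.nd (nat_lit 78) (nat_lit 2812) (nat_lit 0) (XT.lf (nat_lit 76) (nat_lit 7752054330) (nat_lit 0) (nat_lit 2944911814) (nat_lit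 1824) (nat_lit 4196121823) (nat_lit 423) (nat_lit 5) (nat_lit 422) (nat_lit 5) (nat_lit 446) (nat_lit 5) (nat_lit 351) (nat_lit 335) (nat_lit 214)) (XT.nd (nat_lit 78) (nat_lit 1140) (nat_lit 0) (XT.lf (nat_lit 0) (nat_lit 4459402383) (nat_lit 1748) (nat_lit 8495580416) (nat_lit 1824) (nat_lit 2171987003) (nat_lit 400) (nat_lit 5) (nat_lit 423) (nat_lit 5) (nat_lit 424) (nat_lit 5) (nat_lit 352) (nat_lit 335) (nat_lit 213)) (XT.lf (nat_lit 0) (nat_lit 1110197384) (nat_lit 1140) (nat_lit 14234787132) (nat_lit 1216) (nat_lit 21604898) (nat_lit 385) (nat_lit 5) (nat_lit 400) (nat_lit 5) (nat_lit 401) (nat_lit 5) (nat_lit 353) (nat_lit 335) (nat_lit 212))))) (XT.nd (nat_lit 156) (nat_lit 1672) (nat_lit 0) (XT.nd (nat_lit 78) (nat_lit 912) (nat_lit 0) (XT.lf (nat_lit 0) (nat_lit 2276108633) (nat_lit 1216) (nat_lit 2312269347) (nat_lit 76) (nat_lit 11022509036) (nat_lit 384) (nat_lit 5) (nat_lit 400) (nat_lit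 5) (nat_lit 385) (nat_lit 5) (nat_lit 354) (nat_lit 335) (nat_lit 211)) (XT.lf (nat_lit 0) (nat_lit 4725779478) (nat_lit 988) (nat_lit 5789763101) (nat_lit 76) (nat_lit 5345307464) (nat_lit 372) (nat_lit 5) (nat_lit 385) (nat_lit 5) (nat_lit 373) (nat_lit 5) (nat_lit 355) (nat_lit 335) (nat_lit 210))) (XT.nd (nat_lit 78) (nat_lit 836) (nat_lit 0) (XT.lf (nat_lit 0) (nat_lit 6782020716) (nat_lit 836) (nat_lit 540360182) (nat_lit 912) (nat_lit 8794467827) (nat_lit 361) (nat_lit 5) (nat_lit 372) (nat_lit 5) (nat_lit 373) (nat_lit 5) (nat_lit 356) (nat_lit 335) (nat_lit 209)) (XT.nd (nat_lit 78) (nat_lit 0) (nat_lit 0) (XT.lf (nat_lit 0) (nat_lit 3395716756) (nat_lit 836) (nat_lit 6709257873) (nat_lit 912) (nat_lit 6273396266) (nat_lit 350) (nat_lit 5) (nat_lit 361) (nat_lit 5) (nat_lit 362) (nat_lit 5) (nat_lit 357) (nat_lit 335) (nat_lit 208)) (XT.lf (nat_lit 0) (nat_lit 13044971113) (nat_lit 912) (nat_lit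 53349805) (nat_lit 76) (nat_lit 3547944567) (nat_lit 350) (nat_lit 5) (nat_lit 362) (nat_lit 5) (nat_lit 351) (nat_lit 5) (nat_lit 358) (nat_lit 335) (nat_lit 207)))))) (XT.nd (nat_lit 390) (nat_lit 3496) (nat_lit 0) (XT.nd (nat_lit 156) (nat_lit 1520) (nat_lit 0) (XT.nd (nat_lit 78) (nat_lit 912) (nat_lit 0) (XT.lf (nat_lit 0) (nat_lit 13378993430) (nat_lit 836) (nat_lit 2810122782) (nat_lit 912) (nat_lit 730766828) (nat_lit 339) (nat_lit 5) (nat_lit 350) (nat_lit 5) (nat_lit 351) (nat_lit 5) (nat_lit 359) (nat_lit 335) (nat_lit 206)) (XT.lf (nat_lit 0) (nat_lit 2298288685) (nat_lit 912) (nat_lit 7135349973) (nat_lit 76) (nat_lit 7765754183) (nat_lit 327) (nat_lit 5) (nat_lit 339) (nat_lit 5) (nat_lit 328) (nat_lit 5) (nat_lit 360) (nat_lit 335) (nat_lit 205))) (XT.nd (nat_lit 78) (nat_lit 760) (nat_lit 0) (XT.lf (nat_lit 0) (nat_lit 5487372266) (nat_lit 836) (nat_lit 10806422906) (nat_lit 76) (nat_lit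 1191819178) (nat_lit 317) (nat_lit 5) (nat_lit 328) (nat_lit 5) (nat_lit 318) (nat_lit 5) (nat_lit 361) (nat_lit 335) (nat_lit 204)) (XT.nd (nat_lit 78) (nat_lit 0) (nat_lit 0) (XT.lf (nat_lit 0) (nat_lit 3189296881) (nat_lit 760) (nat_lit 5700461713) (nat_lit 836) (nat_lit 8888315882) (nat_lit 307) (nat_lit 5) (nat_lit 317) (nat_lit 5) (nat_lit 318) (nat_lit 5) (nat_lit 362) (nat_lit 335) (nat_lit 203)) (XT.lf (nat_lit 0) (nat_lit 12487253180) (nat_lit 836) (nat_lit 374897273) (nat_lit 76) (nat_lit 5215301664) (nat_lit 307) (nat_lit 5) (nat_lit 318) (nat_lit 5) (nat_lit 308) (nat_lit 5) (nat_lit 363) (nat_lit 335) (nat_lit 202))))) (XT.nd (nat_lit 234) (nat_lit 1292) (nat_lit 0) (XT.nd (nat_lit 78) (nat_lit 1520) (nat_lit 0) (XT.lf (nat_lit 0) (nat_lit 14401057573) (nat_lit 684) (nat_lit 1909153143) (nat_lit 760) (nat_lit 2073253921) (nat_lit 298) (nat_lit 5) (nat_lit 307) (nat_lit 5) (nat_lit 308)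 (nat_lit 5) (nat_lit 364) (nat_lit 335) (nat_lit 201)) (XT.nd (nat_lit 78) (nat_lit 684) (nat_lit 0) (XT.lf (nat_lit 0) (nat_lit 1650697267) (nat_lit 836) (nat_lit 7712072902) (nat_lit 76) (nat_lit 9333253987) (nat_lit 287) (nat_lit 5) (nat_lit 298) (nat_lit 5) (nat_lit 288) (nat_lit 5) (nat_lit 365) (nat_lit 335) (nat_lit 200)) (XT.lf (nat_lit 0) (nat_lit 5546095965) (nat_lit 760) (nat_lit 11536118384) (nat_lit 76) (nat_lit 1933718085) (nat_lit 278) (nat_lit 5) (nat_lit 288) (nat_lit 5) (nat_lit 279) (nat_lit 5) (nat_lit 366) (nat_lit 335) (nat_lit 199)))) (XT.nd (nat_lit 78) (nat_lit 608) (nat_lit 0) (XT.lf (nat_lit 0) (nat_lit 3861236249) (nat_lit 684) (nat_lit 5824131194) (nat_lit 760) (nat_lit 9657534173) (nat_lit 269) (nat_lit 5) (nat_lit 278) (nat_lit 5) (nat_lit 279) (nat_lit 5) (nat_lit 367) (nat_lit 335) (nat_lit 198)) (XT.nd (nat_lit 78) (nat_lit 0) (nat_lit 0) (XT.lf (nat_lit 0) (nat_lit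 149187201) (nat_lit 608) (nat_lit 13903763293) (nat_lit 684) (nat_lit 5624650467) (nat_lit 261) (nat_lit 5) (nat_lit 269) (nat_lit 5) (nat_lit 270) (nat_lit 5) (nat_lit 368) (nat_lit 335) (nat_lit 197)) (XT.lf (nat_lit 0) (nat_lit 16406577998) (nat_lit 608) (nat_lit 2275867338) (nat_lit 684) (nat_lit 1337281914) (nat_lit 261) (nat_lit 5) (nat_lit 269) (nat_lit 5) (nat_lit 270) (nat_lit 5) (nat_lit 369) (nat_lit 335) (nat_lit 196))))))))
noncomputable def xc106 : XT := (XT.nd (nat_lit 44694) (nat_lit 0) (nat_lit 11096) (XT.nd (nat_lit 780) (nat_lit 1976) (nat_lit 0) (XT.nd (nat_lit 390) (nat_lit 2280) (nat_lit 0) (XT.nd (nat_lit 156) (nat_lit 1216) (nat_lit 0) (XT.nd (nat_lit 78) (nat_lit 608) (nat_lit 0) (XT.lf (nat_lit 0) (nat_lit 3173405330) (nat_lit 760) (nat_lit 7519565451) (nat_lit 76) (nat_lit 9676048732) (nat_lit 251) (nat_lit 5) (nat_lit 261) (nat_lit 5) (nat_lit 252) (nat_lit 5) (nat_lit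 370) (nat_lit 335) (nat_lit 195)) (XT.lf (nat_lit 0) (nat_lit 7897399453) (nat_lit 684) (nat_lit 11526461561) (nat_lit 76) (nat_lit 1302833016) (nat_lit 243) (nat_lit 5) (nat_lit 252) (nat_lit 5) (nat_lit 244) (nat_lit 5) (nat_lit 371) (nat_lit 335) (nat_lit 194))) (XT.nd (nat_lit 78) (nat_lit 608) (nat_lit 0) (XT.lf (nat_lit 0) (nat_lit 5415088615) (nat_lit 608) (nat_lit 7494053420) (nat_lit 684) (nat_lit 8183039450) (nat_lit 235) (nat_lit 5) (nat_lit 243) (nat_lit 5) (nat_lit 244) (nat_lit 5) (nat_lit 372) (nat_lit 335) (nat_lit 193)) (XT.nd (nat_lit 78) (nat_lit 76) (nat_lit 0) (XT.lf (nat_lit 0) (nat_lit 1529466190) (nat_lit 532) (nat_lit 16649755344) (nat_lit 608) (nat_lit 3287255514) (nat_lit 228) (nat_lit 5) (nat_lit 235) (nat_lit 5) (nat_lit 236) (nat_lit 5) (nat_lit 373) (nat_lit 335) (nat_lit 192)) (XT.lf (nat_lit 0) (nat_lit 1877907477) (nat_lit 608) (nat_lit 2459743469) (nat_lit 76) (nat_lit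 17511215054) (nat_lit 227) (nat_lit 5) (nat_lit 235) (nat_lit 5) (nat_lit 228) (nat_lit 5) (nat_lit 374) (nat_lit 335) (nat_lit 191))))) (XT.nd (nat_lit 156) (nat_lit 1140) (nat_lit 0) (XT.nd (nat_lit 78) (nat_lit 532) (nat_lit 0) (XT.lf (nat_lit 0) (nat_lit 7299418314) (nat_lit 684) (nat_lit 6583568045) (nat_lit 76) (nat_lit 8356387546) (nat_lit 219) (nat_lit 5) (nat_lit 228) (nat_lit 5) (nat_lit 220) (nat_lit 5) (nat_lit 375) (nat_lit 335) (nat_lit 190)) (XT.lf (nat_lit 0) (nat_lit 11819102140) (nat_lit 532) (nat_lit 1176024693) (nat_lit 608) (nat_lit 9644242016) (nat_lit 212) (nat_lit 5) (nat_lit 219) (nat_lit 5) (nat_lit 220) (nat_lit 5) (nat_lit 376) (nat_lit 335) (nat_lit 189))) (XT.nd (nat_lit 78) (nat_lit 608) (nat_lit 0) (XT.lf (nat_lit 0) (nat_lit 7824493522) (nat_lit 532) (nat_lit 11199503188) (nat_lit 608) (nat_lit 4024123901) (nat_lit 205) (nat_lit 5) (nat_lit 212) (nat_lit 5) (nat_lit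 213) (nat_lit 5) (nat_lit 377) (nat_lit 335) (nat_lit 188)) (XT.nd (nat_lit 78) (nat_lit 0) (nat_lit 0) (XT.lf (nat_lit 0) (nat_lit 1848951582) (nat_lit 608) (nat_lit 19755088447) (nat_lit 76) (nat_lit 1862718454) (nat_lit 197) (nat_lit 5) (nat_lit 205) (nat_lit 5) (nat_lit 198) (nat_lit 5) (nat_lit 378) (nat_lit 335) (nat_lit 187)) (XT.lf (nat_lit 0) (nat_lit 8012187702) (nat_lit 608) (nat_lit 588840313) (nat_lit 76) (nat_lit 15293025238) (nat_lit 197) (nat_lit 5) (nat_lit 205) (nat_lit 5) (nat_lit 198) (nat_lit 5) (nat_lit 379) (nat_lit 335) (nat_lit 186)))))) (XT.nd (nat_lit 43524) (nat_lit 0) (nat_lit 20140) (XT.nd (nat_lit 156) (nat_lit 988) (nat_lit 0) (XT.nd (nat_lit 78) (nat_lit 456) (nat_lit 0) (XT.lf (nat_lit 0) (nat_lit 14508053022) (nat_lit 608) (nat_lit 4970500313) (nat_lit 76) (nat_lit 4852661371) (nat_lit 190) (nat_lit 5) (nat_lit 198) (nat_lit 5) (nat_lit 191) (nat_lit 5) (nat_lit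 380) (nat_lit 335) (nat_lit 185)) (XT.lf (nat_lit 0) (nat_lit 15264634260) (nat_lit 456) (nat_lit 6084883006) (nat_lit 532) (nat_lit 3428961689) (nat_lit 184) (nat_lit 5) (nat_lit 190) (nat_lit 5) (nat_lit 191) (nat_lit 5) (nat_lit 381) (nat_lit 335) (nat_lit 184))) (XT.nd (nat_lit 78) (nat_lit 456) (nat_lit 0) (XT.lf (nat_lit 0) (nat_lit 3262379750) (nat_lit 532) (nat_lit 14240511580) (nat_lit 76) (nat_lit 7732927723) (nat_lit 177) (nat_lit 5) (nat_lit 184) (nat_lit 5) (nat_lit 178) (nat_lit 5) (nat_lit 382) (nat_lit 335) (nat_lit 183)) (XT.nd (nat_lit 43212) (nat_lit 0) (nat_lit 20064) (XT.lf (nat_lit 0) (nat_lit 6552971774) (nat_lit 456) (nat_lit 3693696091) (nat_lit 532) (nat_lit 15456984558) (nat_lit 171) (nat_lit 5) (nat_lit 177) (nat_lit 5) (nat_lit 178) (nat_lit 5) (nat_lit 383) (nat_lit 335) (nat_lit 182)) (XT.lf (nat_lit 0) (nat_lit 1719991547) (nat_lit 1748) (nat_lit 2170153810) (nat_lit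 1748) (nat_lit 2170153810) (nat_lit 435) (nat_lit 3) (nat_lit 458) (nat_lit 3) (nat_lit 458) (nat_lit 5) (nat_lit 336) (nat_lit 336) (nat_lit 228))))) (XT.nd (nat_lit 156) (nat_lit 0) (nat_lit 76) (XT.nd (nat_lit 78) (nat_lit 0) (nat_lit 0) (XT.lf (nat_lit 0) (nat_lit 4202485696) (nat_lit 1672) (nat_lit 7870701308) (nat_lit 1748) (nat_lit 214756633) (nat_lit 436) (nat_lit 5) (nat_lit 458) (nat_lit 5) (nat_lit 459) (nat_lit 5) (nat_lit 337) (nat_lit 336) (nat_lit 227)) (XT.lf (nat_lit 76) (nat_lit 983520355) (nat_lit 0) (nat_lit 4065789982) (nat_lit 1748) (nat_lit 7409779609) (nat_lit 437) (nat_lit 5) (nat_lit 436) (nat_lit 5) (nat_lit 459) (nat_lit 5) (nat_lit 338) (nat_lit 336) (nat_lit 226))) (XT.nd (nat_lit 78) (nat_lit 0) (nat_lit 0) (XT.lf (nat_lit 0) (nat_lit 5976562130) (nat_lit 1672) (nat_lit 2465437013) (nat_lit 1748) (nat_lit 4192280358) (nat_lit 437) (nat_lit 5) (nat_lit 459) (nat_lit 5)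 (nat_lit 460) (nat_lit 5) (nat_lit 339) (nat_lit 336) (nat_lit 225)) (XT.nd (nat_lit 78) (nat_lit 0) (nat_lit 76) (XT.lf (nat_lit 76) (nat_lit 6863522529) (nat_lit 0) (nat_lit 114796800) (nat_lit 1748) (nat_lit 5835480691) (nat_lit 438) (nat_lit 5) (nat_lit 437) (nat_lit 5) (nat_lit 460) (nat_lit 5) (nat_lit 340) (nat_lit 336) (nat_lit 224)) (XT.lf (nat_lit 76) (nat_lit 3483726771) (nat_lit 0) (nat_lit 4596422184) (nat_lit 1748) (nat_lit 4917165579) (nat_lit 439) (nat_lit 5) (nat_lit 438) (nat_lit 5) (nat_lit 461) (nat_lit 5) (nat_lit 341) (nat_lit 336) (nat_lit 223))))))) (XT.nd (nat_lit 780) (nat_lit 7676) (nat_lit 0) (XT.nd (nat_lit 390) (nat_lit 0) (nat_lit 76) (XT.nd (nat_lit 156) (nat_lit 1596) (nat_lit 0) (XT.nd (nat_lit 78) (nat_lit 0) (nat_lit 0) (XT.lf (nat_lit 76) (nat_lit 55559877) (nat_lit 0) (nat_lit 9203371000) (nat_lit 1748) (nat_lit 3926534174) (nat_lit 440) (nat_lit 5) (nat_lit 439)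 (nat_lit 5) (nat_lit 462) (nat_lit 5) (nat_lit 342) (nat_lit 336) (nat_lit 222)) (XT.lf (nat_lit 76) (nat_lit 9996158416) (nat_lit 0) (nat_lit 548833446) (nat_lit 1748) (nat_lit 2832838180) (nat_lit 440) (nat_lit 5) (nat_lit 439) (nat_lit 5) (nat_lit 462) (nat_lit 5) (nat_lit 343) (nat_lit 336) (nat_lit 221))) (XT.nd (nat_lit 78) (nat_lit 1672) (nat_lit 0) (XT.lf (nat_lit 76) (nat_lit 6677490830) (nat_lit 0) (nat_lit 5267449649) (nat_lit 1748) (nat_lit 1629527414) (nat_lit 441) (nat_lit 5) (nat_lit 440) (nat_lit 5) (nat_lit 463) (nat_lit 5) (nat_lit 344) (nat_lit 336) (nat_lit 220)) (XT.nd (nat_lit 78) (nat_lit 1748) (nat_lit 0) (XT.lf (nat_lit 76) (nat_lit 3309078789) (nat_lit 0) (nat_lit 10127908924) (nat_lit 1748) (nat_lit 339022958) (nat_lit 442) (nat_lit 5) (nat_lit 441) (nat_lit 5) (nat_lit 464) (nat_lit 5) (nat_lit 345) (nat_lit 336) (nat_lit 219)) (XT.lf (nat_lit 0) (nat_lit 1038112957) (nat_lit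 1748) (nat_lit 123986093) (nat_lit 1824) (nat_lit 12820161462) (nat_lit 418) (nat_lit 5) (nat_lit 441) (nat_lit 5) (nat_lit 442) (nat_lit 5) (nat_lit 346) (nat_lit 336) (nat_lit 218))))) (XT.nd (nat_lit 156) (nat_lit 0) (nat_lit 76) (XT.nd (nat_lit 78) (nat_lit 0) (nat_lit 76) (XT.lf (nat_lit 0) (nat_lit 2553323179) (nat_lit 1748) (nat_lit 3594573775) (nat_lit 1824) (nat_lit 8044735954) (nat_lit 419) (nat_lit 5) (nat_lit 442) (nat_lit 5) (nat_lit 443) (nat_lit 5) (nat_lit 347) (nat_lit 336) (nat_lit 217)) (XT.lf (nat_lit 0) (nat_lit 4170354448) (nat_lit 1748) (nat_lit 7121736079) (nat_lit 1824) (nat_lit 3116105646) (nat_lit 420) (nat_lit 5) (nat_lit 443) (nat_lit 5) (nat_lit 444) (nat_lit 5) (nat_lit 348) (nat_lit 336) (nat_lit 216))) (XT.nd (nat_lit 78) (nat_lit 0) (nat_lit 76) (XT.lf (nat_lit 76) (nat_lit 3908326486) (nat_lit 0) (nat_lit 1998907616) (nat_lit 1824) (nat_lit 8721572273) (nat_lit 421)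 (nat_lit 5) (nat_lit 420) (nat_lit 5) (nat_lit 444) (nat_lit 5) (nat_lit 349) (nat_lit 336) (nat_lit 215)) (XT.nd (nat_lit 78) (nat_lit 0) (nat_lit 76) (XT.lf (nat_lit 76) (nat_lit 452935321) (nat_lit 0) (nat_lit 7324808080) (nat_lit 1824) (nat_lit 7076667611) (nat_lit 422) (nat_lit 5) (nat_lit 421) (nat_lit 5) (nat_lit 445) (nat_lit 5) (nat_lit 350) (nat_lit 336) (nat_lit 214)) (XT.lf (nat_lit 0) (nat_lit 9786574640) (nat_lit 1748) (nat_lit 3020654441) (nat_lit 1824) (nat_lit 2277916972) (nat_lit 422) (nat_lit 5) (nat_lit 445) (nat_lit 5) (nat_lit 446) (nat_lit 5) (nat_lit 351) (nat_lit 336) (nat_lit 213)))))) (XT.nd (nat_lit 390) (nat_lit 4180) (nat_lit 0) (XT.nd (nat_lit 156) (nat_lit 2128) (nat_lit 0) (XT.nd (nat_lit 78) (nat_lit 1672) (nat_lit 0) (XT.lf (nat_lit 76) (nat_lit 8752466839) (nat_lit 0) (nat_lit 3190878719) (nat_lit 1824) (nat_lit 3377710306) (nat_lit 423) (nat_lit 5) (nat_lit 422)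 (nat_lit 5) (nat_lit 446) (nat_lit 5) (nat_lit 352) (nat_lit 336) (nat_lit 212)) (XT.lf (nat_lit 0) (nat_lit 5368103966) (nat_lit 1748) (nat_lit 8878081024) (nat_lit 1824) (nat_lit 1316236702) (nat_lit 400) (nat_lit 5) (nat_lit 423) (nat_lit 5) (nat_lit 424) (nat_lit 5) (nat_lit 353) (nat_lit 336) (nat_lit 211))) (XT.nd (nat_lit 78) (nat_lit 912) (nat_lit 0) (XT.lf (nat_lit 0) (nat_lit 864695914) (nat_lit 1216) (nat_lit 13890642721) (nat_lit 76) (nat_lit 1054226804) (nat_lit 384) (nat_lit 5) (nat_lit 400) (nat_lit 5) (nat_lit 385) (nat_lit 5) (nat_lit 354) (nat_lit 336) (nat_lit 210)) (XT.nd (nat_lit 78) (nat_lit 912) (nat_lit 0) (XT.lf (nat_lit 0) (nat_lit 3205224035) (nat_lit 1216) (nat_lit 1611446565) (nat_lit 76) (nat_lit 11245043467) (nat_lit 384) (nat_lit 5) (nat_lit 400) (nat_lit 5) (nat_lit 385) (nat_lit 5) (nat_lit 355) (nat_lit 336) (nat_lit 209)) (XT.lf (nat_lit 0) (nat_lit 5707692903)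 (nat_lit 988) (nat_lit 5188133527) (nat_lit 76) (nat_lit 5423771637) (nat_lit 372) (nat_lit 5) (nat_lit 385) (nat_lit 5) (nat_lit 373) (nat_lit 5) (nat_lit 356) (nat_lit 336) (nat_lit 208))))) (XT.nd (nat_lit 234) (nat_lit 1672) (nat_lit 0) (XT.nd (nat_lit 78) (nat_lit 1672) (nat_lit 0) (XT.lf (nat_lit 0) (nat_lit 7748225118) (nat_lit 836) (nat_lit 614449387) (nat_lit 912) (nat_lit 8221000561) (nat_lit 361) (nat_lit 5) (nat_lit 372) (nat_lit 5) (nat_lit 373) (nat_lit 5) (nat_lit 357) (nat_lit 336) (nat_lit 207)) (XT.nd (nat_lit 78) (nat_lit 836) (nat_lit 0) (XT.lf (nat_lit 0) (nat_lit 4264735637) (nat_lit 836) (nat_lit 6944724784) (nat_lit 912) (nat_lit 5643975960) (nat_lit 350) (nat_lit 5) (nat_lit 361) (nat_lit 5) (nat_lit 362) (nat_lit 5) (nat_lit 358) (nat_lit 336) (nat_lit 206)) (XT.lf (nat_lit 0) (nat_lit 715260566) (nat_lit 836) (nat_lit 13503484767) (nat_lit 912) (nat_lit 2911008247) (nat_lit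 339) (nat_lit 5) (nat_lit 350) (nat_lit 5) (nat_lit 351) (nat_lit 5) (nat_lit 359) (nat_lit 336) (nat_lit 205)))) (XT.nd (nat_lit 78) (nat_lit 1596) (nat_lit 0) (XT.lf (nat_lit 0) (nat_lit 22442693) (nat_lit 912) (nat_lit 2883333632) (nat_lit 76) (nat_lit 14506256467) (nat_lit 338) (nat_lit 5) (nat_lit 350) (nat_lit 5) (nat_lit 339) (nat_lit 5) (nat_lit 360) (nat_lit 336) (nat_lit 204)) (XT.nd (nat_lit 78) (nat_lit 760) (nat_lit 0) (XT.lf (nat_lit 0) (nat_lit 3115048352) (nat_lit 912) (nat_lit 6587630253) (nat_lit 76) (nat_lit 7997507508) (nat_lit 327) (nat_lit 5) (nat_lit 339) (nat_lit 5) (nat_lit 328) (nat_lit 5) (nat_lit 361) (nat_lit 336) (nat_lit 203)) (XT.lf (nat_lit 0) (nat_lit 6383009557) (nat_lit 836) (nat_lit 10366471189) (nat_lit 76) (nat_lit 1245856185) (nat_lit 317) (nat_lit 5) (nat_lit 328) (nat_lit 5) (nat_lit 318) (nat_lit 5) (nat_lit 362) (nat_lit 336) (nat_lit 202))))))))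
noncomputable def xc107 : XT := (XT.nd (nat_lit 1560) (nat_lit 532) (nat_lit 0) (XT.nd (nat_lit 780) (nat_lit 4484) (nat_lit 0) (XT.nd (nat_lit 390) (nat_lit 2660) (nat_lit 0) (XT.nd (nat_lit 156) (nat_lit 1520) (nat_lit 0) (XT.nd (nat_lit 78) (nat_lit 684) (nat_lit 0) (XT.lf (nat_lit 0) (nat_lit 4036722856) (nat_lit 760) (nat_lit 5834333727) (nat_lit 836) (nat_lit 8425849065) (nat_lit 307) (nat_lit 5) (nat_lit 317) (nat_lit 5) (nat_lit 318) (nat_lit 5) (nat_lit 363) (nat_lit 336) (nat_lit 201)) (XT.lf (nat_lit 0) (nat_lit 362313422) (nat_lit 684) (nat_lit 13195935345) (nat_lit 760) (nat_lit 5047386773) (nat_lit 298) (nat_lit 5) (nat_lit 307) (nat_lit 5) (nat_lit 308) (nat_lit 5) (nat_lit 364) (nat_lit 336) (nat_lit 200))) (XT.nd (nat_lit 78) (nat_lit 1520) (nat_lit 0) (XT.lf (nat_lit 0) (nat_lit 15564729365) (nat_lit 684) (nat_lit 1913349240) (nat_lit 760) (nat_lit 1443112352) (nat_lit 298) (nat_lit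 5) (nat_lit 307) (nat_lit 5) (nat_lit 308) (nat_lit 5) (nat_lit 365) (nat_lit 336) (nat_lit 199)) (XT.nd (nat_lit 78) (nat_lit 684) (nat_lit 0) (XT.lf (nat_lit 0) (nat_lit 2368703812) (nat_lit 836) (nat_lit 7201369679) (nat_lit 76) (nat_lit 9673265228) (nat_lit 287) (nat_lit 5) (nat_lit 298) (nat_lit 5) (nat_lit 288) (nat_lit 5) (nat_lit 366) (nat_lit 336) (nat_lit 198)) (XT.lf (nat_lit 0) (nat_lit 6366729035) (nat_lit 760) (nat_lit 11139405033) (nat_lit 76) (nat_lit 2067000609) (nat_lit 278) (nat_lit 5) (nat_lit 288) (nat_lit 5) (nat_lit 279) (nat_lit 5) (nat_lit 367) (nat_lit 336) (nat_lit 197))))) (XT.nd (nat_lit 156) (nat_lit 1368) (nat_lit 0) (XT.nd (nat_lit 78) (nat_lit 608) (nat_lit 0) (XT.lf (nat_lit 0) (nat_lit 4707819242) (nat_lit 684) (nat_lit 5908048071) (nat_lit 760) (nat_lit 9294337403) (nat_lit 269) (nat_lit 5) (nat_lit 278) (nat_lit 5) (nat_lit 279) (nat_lit 5) (nat_lit 368) (nat_lit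 336) (nat_lit 196)) (XT.lf (nat_lit 0) (nat_lit 884746523) (nat_lit 608) (nat_lit 14216411425) (nat_lit 684) (nat_lit 5154058885) (nat_lit 261) (nat_lit 5) (nat_lit 269) (nat_lit 5) (nat_lit 270) (nat_lit 5) (nat_lit 369) (nat_lit 336) (nat_lit 195))) (XT.nd (nat_lit 78) (nat_lit 1368) (nat_lit 0) (XT.lf (nat_lit 0) (nat_lit 17608565344) (nat_lit 608) (nat_lit 2242721255) (nat_lit 684) (nat_lit 756690570) (nat_lit 261) (nat_lit 5) (nat_lit 269) (nat_lit 5) (nat_lit 270) (nat_lit 5) (nat_lit 370) (nat_lit 336) (nat_lit 194)) (XT.nd (nat_lit 78) (nat_lit 608) (nat_lit 0) (XT.lf (nat_lit 0) (nat_lit 3868617112) (nat_lit 760) (nat_lit 7027244109) (nat_lit 76) (nat_lit 10072062548) (nat_lit 251) (nat_lit 5) (nat_lit 261) (nat_lit 5) (nat_lit 252) (nat_lit 5) (nat_lit 371) (nat_lit 336) (nat_lit 193)) (XT.lf (nat_lit 0) (nat_lit 8722214115) (nat_lit 684) (nat_lit 11154864182) (nat_lit 76) (nat_lit 1459497404)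 (nat_lit 243) (nat_lit 5) (nat_lit 252) (nat_lit 5) (nat_lit 244) (nat_lit 5) (nat_lit 372) (nat_lit 336) (nat_lit 192)))))) (XT.nd (nat_lit 390) (nat_lit 2128) (nat_lit 0) (XT.nd (nat_lit 156) (nat_lit 1216) (nat_lit 0) (XT.nd (nat_lit 78) (nat_lit 532) (nat_lit 0) (XT.lf (nat_lit 0) (nat_lit 6283293680) (nat_lit 608) (nat_lit 7588474420) (nat_lit 684) (nat_lit 7841515195) (nat_lit 235) (nat_lit 5) (nat_lit 243) (nat_lit 5) (nat_lit 244) (nat_lit 5) (nat_lit 373) (nat_lit 336) (nat_lit 191)) (XT.lf (nat_lit 0) (nat_lit 2280294082) (nat_lit 532) (nat_lit 17008297033) (nat_lit 608) (nat_lit 2810448349) (nat_lit 228) (nat_lit 5) (nat_lit 235) (nat_lit 5) (nat_lit 236) (nat_lit 5) (nat_lit 374) (nat_lit 336) (nat_lit 190))) (XT.nd (nat_lit 78) (nat_lit 1140) (nat_lit 0) (XT.lf (nat_lit 0) (nat_lit 2485582595) (nat_lit 608) (nat_lit 1841652508) (nat_lit 76) (nat_lit 18165925403) (nat_lit 227) (nat_lit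 5) (nat_lit 235) (nat_lit 5) (nat_lit 228) (nat_lit 5) (nat_lit 375) (nat_lit 336) (nat_lit 189)) (XT.nd (nat_lit 78) (nat_lit 532) (nat_lit 0) (XT.lf (nat_lit 0) (nat_lit 8059014859) (nat_lit 684) (nat_lit 6090397532) (nat_lit 76) (nat_lit 8746189951) (nat_lit 219) (nat_lit 5) (nat_lit 228) (nat_lit 5) (nat_lit 220) (nat_lit 5) (nat_lit 376) (nat_lit 336) (nat_lit 188)) (XT.lf (nat_lit 0) (nat_lit 12853147336) (nat_lit 532) (nat_lit 1061112844) (nat_lit 608) (nat_lit 9393567737) (nat_lit 212) (nat_lit 5) (nat_lit 219) (nat_lit 5) (nat_lit 220) (nat_lit 5) (nat_lit 377) (nat_lit 336) (nat_lit 187))))) (XT.nd (nat_lit 156) (nat_lit 988) (nat_lit 0) (XT.nd (nat_lit 78) (nat_lit 608) (nat_lit 0) (XT.lf (nat_lit 0) (nat_lit 8737265549) (nat_lit 532) (nat_lit 11376663710) (nat_lit 608) (nat_lit 3615118283) (nat_lit 205) (nat_lit 5) (nat_lit 212) (nat_lit 5) (nat_lit 213) (nat_lit 5) (nat_lit 378) (nat_lit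 336) (nat_lit 186)) (XT.lf (nat_lit 0) (nat_lit 2417403619) (nat_lit 608) (nat_lit 19664429288) (nat_lit 76) (nat_lit 2078542605) (nat_lit 197) (nat_lit 5) (nat_lit 205) (nat_lit 5) (nat_lit 198) (nat_lit 5) (nat_lit 379) (nat_lit 336) (nat_lit 185))) (XT.nd (nat_lit 78) (nat_lit 456) (nat_lit 0) (XT.lf (nat_lit 0) (nat_lit 57660227) (nat_lit 532) (nat_lit 8693309696) (nat_lit 608) (nat_lit 15849814210) (nat_lit 190) (nat_lit 5) (nat_lit 197) (nat_lit 5) (nat_lit 198) (nat_lit 5) (nat_lit 380) (nat_lit 336) (nat_lit 184)) (XT.nd (nat_lit 78) (nat_lit 456) (nat_lit 0) (XT.lf (nat_lit 0) (nat_lit 15432138629) (nat_lit 608) (nat_lit 4458165001) (nat_lit 76) (nat_lit 5160951816) (nat_lit 190) (nat_lit 5) (nat_lit 198) (nat_lit 5) (nat_lit 191) (nat_lit 5) (nat_lit 381) (nat_lit 336) (nat_lit 183)) (XT.lf (nat_lit 0) (nat_lit 16373292364) (nat_lit 456) (nat_lit 6095541162) (nat_lit 532) (nat_lit 3043307824)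 (nat_lit 184) (nat_lit 5) (nat_lit 190) (nat_lit 5) (nat_lit 191) (nat_lit 5) (nat_lit 382) (nat_lit 336) (nat_lit 182))))))) (XT.nd (nat_lit 43992) (nat_lit 0) (nat_lit 15732) (XT.nd (nat_lit 43602) (nat_lit 0) (nat_lit 19760) (XT.nd (nat_lit 43368) (nat_lit 0) (nat_lit 19608) (XT.nd (nat_lit 43290) (nat_lit 0) (nat_lit 19608) (XT.lf (nat_lit 0) (nat_lit 3833654296) (nat_lit 532) (nat_lit 14012727087) (nat_lit 76) (nat_lit 8136934375) (nat_lit 177) (nat_lit 5) (nat_lit 184) (nat_lit 5) (nat_lit 178) (nat_lit 5) (nat_lit 383) (nat_lit 336) (nat_lit 181)) (XT.lf (nat_lit 0) (nat_lit 2445847977) (nat_lit 1748) (nat_lit 1891265888) (nat_lit 1748) (nat_lit 1891265888) (nat_lit 435) (nat_lit 3) (nat_lit 458) (nat_lit 3) (nat_lit 458) (nat_lit 5) (nat_lit 337) (nat_lit 337) (nat_lit 226))) (XT.nd (nat_lit 78) (nat_lit 0) (nat_lit 76) (XT.lf (nat_lit 76) (nat_lit 5228067296) (nat_lit 0) (nat_lit 412668377)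 (nat_lit 1748) (nat_lit 6989130426) (nat_lit 436) (nat_lit 5) (nat_lit 435) (nat_lit 3) (nat_lit 458) (nat_lit 5) (nat_lit 338) (nat_lit 337) (nat_lit 225)) (XT.nd (nat_lit 78) (nat_lit 0) (nat_lit 76) (XT.lf (nat_lit 76) (nat_lit 1709247188) (nat_lit 0) (nat_lit 4767418215) (nat_lit 1748) (nat_lit 6330221143) (nat_lit 437) (nat_lit 5) (nat_lit 436) (nat_lit 5) (nat_lit 459) (nat_lit 5) (nat_lit 339) (nat_lit 337) (nat_lit 224)) (XT.lf (nat_lit 0) (nat_lit 7390919436) (nat_lit 1672) (nat_lit 1834583791) (nat_lit 1748) (nat_lit 3762658224) (nat_lit 437) (nat_lit 5) (nat_lit 459) (nat_lit 5) (nat_lit 460) (nat_lit 5) (nat_lit 340) (nat_lit 337) (nat_lit 223))))) (XT.nd (nat_lit 156) (nat_lit 0) (nat_lit 152) (XT.nd (nat_lit 78) (nat_lit 0) (nat_lit 76) (XT.lf (nat_lit 76) (nat_lit 7762809729) (nat_lit 0) (nat_lit 628448881) (nat_lit 1748) (nat_lit 4782451359) (nat_lit 438) (nat_lit 5) (nat_lit 437)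 (nat_lit 5) (nat_lit 460) (nat_lit 5) (nat_lit 341) (nat_lit 337) (nat_lit 222)) (XT.lf (nat_lit 76) (nat_lit 4297736176) (nat_lit 0) (nat_lit 5194741340) (nat_lit 1748) (nat_lit 3870938304) (nat_lit 439) (nat_lit 5) (nat_lit 438) (nat_lit 5) (nat_lit 461) (nat_lit 5) (nat_lit 342) (nat_lit 337) (nat_lit 221))) (XT.nd (nat_lit 78) (nat_lit 0) (nat_lit 0) (XT.lf (nat_lit 76) (nat_lit 781586144) (nat_lit 0) (nat_lit 9892761992) (nat_lit 1748) (nat_lit 2883520437) (nat_lit 440) (nat_lit 5) (nat_lit 439) (nat_lit 5) (nat_lit 462) (nat_lit 5) (nat_lit 343) (nat_lit 337) (nat_lit 220)) (XT.nd (nat_lit 78) (nat_lit 0) (nat_lit 76) (XT.lf (nat_lit 76) (nat_lit 10999304790) (nat_lit 0) (nat_lit 966550742) (nat_lit 1748) (nat_lit 1790823556) (nat_lit 440) (nat_lit 5) (nat_lit 439) (nat_lit 5) (nat_lit 462) (nat_lit 5) (nat_lit 344) (nat_lit 337) (nat_lit 219)) (XT.lf (nat_lit 76) (nat_lit 7594351571) (nat_lit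 0) (nat_lit 5783403639) (nat_lit 1748) (nat_lit 582073334) (nat_lit 441) (nat_lit 5) (nat_lit 440) (nat_lit 5) (nat_lit 463) (nat_lit 5) (nat_lit 345) (nat_lit 337) (nat_lit 218)))))) (XT.nd (nat_lit 390) (nat_lit 2584) (nat_lit 0) (XT.nd (nat_lit 156) (nat_lit 0) (nat_lit 76) (XT.nd (nat_lit 78) (nat_lit 0) (nat_lit 0) (XT.lf (nat_lit 0) (nat_lit 708325327) (nat_lit 1748) (nat_lit 10035598270) (nat_lit 1824) (nat_lit 3423988396) (nat_lit 418) (nat_lit 5) (nat_lit 441) (nat_lit 5) (nat_lit 442) (nat_lit 5) (nat_lit 346) (nat_lit 337) (nat_lit 217)) (XT.lf (nat_lit 76) (nat_lit 601616056) (nat_lit 0) (nat_lit 1493817484) (nat_lit 1824) (nat_lit 12285416333) (nat_lit 419) (nat_lit 5) (nat_lit 418) (nat_lit 5) (nat_lit 442) (nat_lit 5) (nat_lit 347) (nat_lit 337) (nat_lit 216))) (XT.nd (nat_lit 78) (nat_lit 0) (nat_lit 76) (XT.lf (nat_lit 0) (nat_lit 3625161267) (nat_lit 1748) (nat_lit 2970531425) (nat_lit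 1824) (nat_lit 8002469862) (nat_lit 419) (nat_lit 5) (nat_lit 442) (nat_lit 5) (nat_lit 443) (nat_lit 5) (nat_lit 348) (nat_lit 337) (nat_lit 215)) (XT.nd (nat_lit 78) (nat_lit 0) (nat_lit 0) (XT.lf (nat_lit 0) (nat_lit 5264761564) (nat_lit 1748) (nat_lit 6594000286) (nat_lit 1824) (nat_lit 2961959741) (nat_lit 420) (nat_lit 5) (nat_lit 443) (nat_lit 5) (nat_lit 444) (nat_lit 5) (nat_lit 349) (nat_lit 337) (nat_lit 214)) (XT.lf (nat_lit 76) (nat_lit 4754936019) (nat_lit 0) (nat_lit 2275315140) (nat_lit 1824) (nat_lit 8018178614) (nat_lit 421) (nat_lit 5) (nat_lit 420) (nat_lit 5) (nat_lit 444) (nat_lit 5) (nat_lit 350) (nat_lit 337) (nat_lit 213))))) (XT.nd (nat_lit 234) (nat_lit 2812) (nat_lit 0) (XT.nd (nat_lit 78) (nat_lit 0) (nat_lit 76) (XT.lf (nat_lit 76) (nat_lit 1204361234) (nat_lit 0) (nat_lit 7728393118) (nat_lit 1824) (nat_lit 6348540084) (nat_lit 422) (nat_lit 5) (nat_lit 421) (nat_lit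 5) (nat_lit 445) (nat_lit 5) (nat_lit 351) (nat_lit 337) (nat_lit 212)) (XT.nd (nat_lit 78) (nat_lit 0) (nat_lit 0) (XT.lf (nat_lit 0) (nat_lit 10973846668) (nat_lit 1748) (nat_lit 2375564971) (nat_lit 1824) (nat_lit 2170109151) (nat_lit 422) (nat_lit 5) (nat_lit 445) (nat_lit 5) (nat_lit 446) (nat_lit 5) (nat_lit 352) (nat_lit 337) (nat_lit 211)) (XT.lf (nat_lit 76) (nat_lit 9738813941) (nat_lit 0) (nat_lit 3435176624) (nat_lit 1824) (nat_lit 2588952849) (nat_lit 423) (nat_lit 5) (nat_lit 422) (nat_lit 5) (nat_lit 446) (nat_lit 5) (nat_lit 353) (nat_lit 337) (nat_lit 210)))) (XT.nd (nat_lit 78) (nat_lit 1216) (nat_lit 0) (XT.lf (nat_lit 0) (nat_lit 6259583047) (nat_lit 1748) (nat_lit 9264729984) (nat_lit 1824) (nat_lit 487677888) (nat_lit 400) (nat_lit 5) (nat_lit 423) (nat_lit 5) (nat_lit 424) (nat_lit 5) (nat_lit 354) (nat_lit 337) (nat_lit 209)) (XT.nd (nat_lit 78) (nat_lit 0) (nat_lit 0) (XT.lf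 (nat_lit 0) (nat_lit 1726396154) (nat_lit 1216) (nat_lit 13559603884) (nat_lit 76) (nat_lit 980862501) (nat_lit 384) (nat_lit 5) (nat_lit 400) (nat_lit 5) (nat_lit 385) (nat_lit 5) (nat_lit 355) (nat_lit 337) (nat_lit 208)) (XT.lf (nat_lit 0) (nat_lit 4112797613) (nat_lit 1216) (nat_lit 933811206) (nat_lit 76) (nat_lit 11480461657) (nat_lit 384) (nat_lit 5) (nat_lit 400) (nat_lit 5) (nat_lit 385) (nat_lit 5) (nat_lit 356) (nat_lit 337) (nat_lit 207))))))))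
noncomputable def xc108 : XT := (XT.nd (nat_lit 1560) (nat_lit 3268) (nat_lit 0) (XT.nd (nat_lit 780) (nat_lit 5396) (nat_lit 0) (XT.nd (nat_lit 390) (nat_lit 3040) (nat_lit 0) (XT.nd (nat_lit 156) (nat_lit 1748) (nat_lit 0) (XT.nd (nat_lit 78) (nat_lit 836) (nat_lit 0) (XT.lf (nat_lit 0) (nat_lit 6670836255) (nat_lit 988) (nat_lit 4612961747) (nat_lit 76) (nat_lit 5509290846) (nat_lit 372) (nat_lit 5) (nat_lit 385) (nat_lit 5) (nat_lit 373) (nat_lit 5) (nat_lit 357) (nat_lit 337) (nat_lit 206)) (XT.lf (nat_lit 0) (nat_lit 8699631040) (nat_lit 836) (nat_lit 687438812) (nat_lit 912) (nat_lit 7678393797) (nat_lit 361) (nat_lit 5) (nat_lit 372) (nat_lit 5) (nat_lit 373) (nat_lit 5) (nat_lit 358) (nat_lit 337) (nat_lit 205))) (XT.nd (nat_lit 78) (nat_lit 912) (nat_lit 0) (XT.lf (nat_lit 0) (nat_lit 5115787687) (nat_lit 836) (nat_lit 7185293105) (nat_lit 912) (nat_lit 5042607904) (nat_lit 350) (nat_lit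 5) (nat_lit 361) (nat_lit 5) (nat_lit 362) (nat_lit 5) (nat_lit 359) (nat_lit 337) (nat_lit 204)) (XT.nd (nat_lit 78) (nat_lit 76) (nat_lit 0) (XT.lf (nat_lit 0) (nat_lit 1463404334) (nat_lit 836) (nat_lit 13919754807) (nat_lit 912) (nat_lit 2245493079) (nat_lit 339) (nat_lit 5) (nat_lit 350) (nat_lit 5) (nat_lit 351) (nat_lit 5) (nat_lit 360) (nat_lit 337) (nat_lit 203)) (XT.lf (nat_lit 0) (nat_lit 744447734) (nat_lit 912) (nat_lit 2254501653) (nat_lit 76) (nat_lit 14920792226) (nat_lit 338) (nat_lit 5) (nat_lit 350) (nat_lit 5) (nat_lit 339) (nat_lit 5) (nat_lit 361) (nat_lit 337) (nat_lit 202))))) (XT.nd (nat_lit 156) (nat_lit 1444) (nat_lit 0) (XT.nd (nat_lit 78) (nat_lit 760) (nat_lit 0) (XT.lf (nat_lit 0) (nat_lit 3913383398) (nat_lit 912) (nat_lit 6067208243) (nat_lit 76) (nat_lit 8236283426) (nat_lit 327) (nat_lit 5) (nat_lit 339) (nat_lit 5) (nat_lit 328) (nat_lit 5) (nat_lit 362) (nat_lit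 337) (nat_lit 201)) (XT.lf (nat_lit 0) (nat_lit 7263552650) (nat_lit 836) (nat_lit 9957185936) (nat_lit 76) (nat_lit 1300464817) (nat_lit 317) (nat_lit 5) (nat_lit 328) (nat_lit 5) (nat_lit 318) (nat_lit 5) (nat_lit 363) (nat_lit 337) (nat_lit 200))) (XT.nd (nat_lit 78) (nat_lit 684) (nat_lit 0) (XT.lf (nat_lit 0) (nat_lit 4866418254) (nat_lit 760) (nat_lit 5974353995) (nat_lit 836) (nat_lit 7991362501) (nat_lit 307) (nat_lit 5) (nat_lit 317) (nat_lit 5) (nat_lit 318) (nat_lit 5) (nat_lit 364) (nat_lit 337) (nat_lit 199)) (XT.nd (nat_lit 78) (nat_lit 0) (nat_lit 0) (XT.lf (nat_lit 0) (nat_lit 1083512984) (nat_lit 684) (nat_lit 13540280883) (nat_lit 760) (nat_lit 4526634409) (nat_lit 298) (nat_lit 5) (nat_lit 307) (nat_lit 5) (nat_lit 308) (nat_lit 5) (nat_lit 365) (nat_lit 337) (nat_lit 198)) (XT.lf (nat_lit 0) (nat_lit 16721312178) (nat_lit 684) (nat_lit 1920718142) (nat_lit 760) (nat_lit 833809637)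 (nat_lit 298) (nat_lit 5) (nat_lit 307) (nat_lit 5) (nat_lit 308) (nat_lit 5) (nat_lit 366) (nat_lit 337) (nat_lit 197)))))) (XT.nd (nat_lit 390) (nat_lit 2584) (nat_lit 0) (XT.nd (nat_lit 156) (nat_lit 1292) (nat_lit 0) (XT.nd (nat_lit 78) (nat_lit 684) (nat_lit 0) (XT.lf (nat_lit 0) (nat_lit 3069876744) (nat_lit 836) (nat_lit 6717942950) (nat_lit 76) (nat_lit 10020031779) (nat_lit 287) (nat_lit 5) (nat_lit 298) (nat_lit 5) (nat_lit 288) (nat_lit 5) (nat_lit 367) (nat_lit 337) (nat_lit 196)) (XT.lf (nat_lit 0) (nat_lit 7174424459) (nat_lit 760) (nat_lit 10773429863) (nat_lit 76) (nat_lit 2199960747) (nat_lit 278) (nat_lit 5) (nat_lit 288) (nat_lit 5) (nat_lit 279) (nat_lit 5) (nat_lit 368) (nat_lit 337) (nat_lit 195))) (XT.nd (nat_lit 78) (nat_lit 608) (nat_lit 0) (XT.lf (nat_lit 0) (nat_lit 5537851920) (nat_lit 684) (nat_lit 5999695151) (nat_lit 760) (nat_lit 8957725169) (nat_lit 269) (nat_lit 5)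 (nat_lit 278) (nat_lit 5) (nat_lit 279) (nat_lit 5) (nat_lit 369) (nat_lit 337) (nat_lit 194)) (XT.nd (nat_lit 78) (nat_lit 0) (nat_lit 0) (XT.lf (nat_lit 0) (nat_lit 1600405430) (nat_lit 608) (nat_lit 14544435706) (nat_lit 684) (nat_lit 4706049776) (nat_lit 261) (nat_lit 5) (nat_lit 269) (nat_lit 5) (nat_lit 270) (nat_lit 5) (nat_lit 370) (nat_lit 337) (nat_lit 193)) (XT.lf (nat_lit 0) (nat_lit 18805867460) (nat_lit 608) (nat_lit 2214402832) (nat_lit 684) (nat_lit 194312767) (nat_lit 261) (nat_lit 5) (nat_lit 269) (nat_lit 5) (nat_lit 270) (nat_lit 5) (nat_lit 371) (nat_lit 337) (nat_lit 192))))) (XT.nd (nat_lit 156) (nat_lit 1216) (nat_lit 0) (XT.nd (nat_lit 78) (nat_lit 608) (nat_lit 0) (XT.lf (nat_lit 0) (nat_lit 4550242241) (nat_lit 760) (nat_lit 6561364001) (nat_lit 76) (nat_lit 10473887309) (nat_lit 251) (nat_lit 5) (nat_lit 261) (nat_lit 5) (nat_lit 252) (nat_lit 5) (nat_lit 372) (nat_lit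 337) (nat_lit 191)) (XT.lf (nat_lit 0) (nat_lit 9538025772) (nat_lit 684) (nat_lit 10813300073) (nat_lit 76) (nat_lit 1614112185) (nat_lit 243) (nat_lit 5) (nat_lit 252) (nat_lit 5) (nat_lit 244) (nat_lit 5) (nat_lit 373) (nat_lit 337) (nat_lit 190))) (XT.nd (nat_lit 78) (nat_lit 608) (nat_lit 0) (XT.lf (nat_lit 0) (nat_lit 7137031821) (nat_lit 608) (nat_lit 7693213578) (nat_lit 684) (nat_lit 7523442301) (nat_lit 235) (nat_lit 5) (nat_lit 243) (nat_lit 5) (nat_lit 244) (nat_lit 5) (nat_lit 374) (nat_lit 337) (nat_lit 189)) (XT.nd (nat_lit 78) (nat_lit 76) (nat_lit 0) (XT.lf (nat_lit 0) (nat_lit 3013180147) (nat_lit 532) (nat_lit 17385686135) (nat_lit 608) (nat_lit 2352368707) (nat_lit 228) (nat_lit 5) (nat_lit 235) (nat_lit 5) (nat_lit 236) (nat_lit 5) (nat_lit 375) (nat_lit 337) (nat_lit 188)) (XT.lf (nat_lit 0) (nat_lit 3079838917) (nat_lit 608) (nat_lit 1244735749) (nat_lit 76) (nat_lit 18832850472)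 (nat_lit 227) (nat_lit 5) (nat_lit 235) (nat_lit 5) (nat_lit 228) (nat_lit 5) (nat_lit 376) (nat_lit 337) (nat_lit 187))))))) (XT.nd (nat_lit 44070) (nat_lit 0) (nat_lit 17708) (XT.nd (nat_lit 390) (nat_lit 456) (nat_lit 0) (XT.nd (nat_lit 156) (nat_lit 1672) (nat_lit 0) (XT.nd (nat_lit 78) (nat_lit 532) (nat_lit 0) (XT.lf (nat_lit 0) (nat_lit 8810365847) (nat_lit 684) (nat_lit 5622079620) (nat_lit 76) (nat_lit 9139700899) (nat_lit 219) (nat_lit 5) (nat_lit 228) (nat_lit 5) (nat_lit 220) (nat_lit 5) (nat_lit 377) (nat_lit 337) (nat_lit 186)) (XT.lf (nat_lit 0) (nat_lit 13879209408) (nat_lit 532) (nat_lit 951375309) (nat_lit 608) (nat_lit 9166371526) (nat_lit 212) (nat_lit 5) (nat_lit 219) (nat_lit 5) (nat_lit 220) (nat_lit 5) (nat_lit 378) (nat_lit 337) (nat_lit 185))) (XT.nd (nat_lit 78) (nat_lit 1140) (nat_lit 0) (XT.lf (nat_lit 0) (nat_lit 9638498626) (nat_lit 532) (nat_lit 11568256228) (nat_lit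 608) (nat_lit 3224251127) (nat_lit 205) (nat_lit 5) (nat_lit 212) (nat_lit 5) (nat_lit 213) (nat_lit 5) (nat_lit 379) (nat_lit 337) (nat_lit 184)) (XT.nd (nat_lit 78) (nat_lit 532) (nat_lit 0) (XT.lf (nat_lit 0) (nat_lit 2973461866) (nat_lit 608) (nat_lit 19610275248) (nat_lit 76) (nat_lit 2291660120) (nat_lit 197) (nat_lit 5) (nat_lit 205) (nat_lit 5) (nat_lit 198) (nat_lit 5) (nat_lit 380) (nat_lit 337) (nat_lit 183)) (XT.lf (nat_lit 0) (nat_lit 693027407) (nat_lit 532) (nat_lit 8794038169) (nat_lit 608) (nat_lit 15842155390) (nat_lit 190) (nat_lit 5) (nat_lit 197) (nat_lit 5) (nat_lit 198) (nat_lit 5) (nat_lit 381) (nat_lit 337) (nat_lit 182))))) (XT.nd (nat_lit 43446) (nat_lit 0) (nat_lit 19076) (XT.nd (nat_lit 78) (nat_lit 456) (nat_lit 0) (XT.lf (nat_lit 0) (nat_lit 16355885158) (nat_lit 608) (nat_lit 3968429584) (nat_lit 76) (nat_lit 5469150721) (nat_lit 190) (nat_lit 5) (nat_lit 198) (nat_lit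 5) (nat_lit 191) (nat_lit 5) (nat_lit 382) (nat_lit 337) (nat_lit 181)) (XT.lf (nat_lit 0) (nat_lit 17477856273) (nat_lit 456) (nat_lit 6116386156) (nat_lit 532) (nat_lit 2674127546) (nat_lit 184) (nat_lit 5) (nat_lit 190) (nat_lit 5) (nat_lit 191) (nat_lit 5) (nat_lit 383) (nat_lit 337) (nat_lit 180))) (XT.nd (nat_lit 78) (nat_lit 0) (nat_lit 0) (XT.lf (nat_lit 0) (nat_lit 3154775009) (nat_lit 1748) (nat_lit 1623757907) (nat_lit 1748) (nat_lit 1623757907) (nat_lit 435) (nat_lit 3) (nat_lit 458) (nat_lit 3) (nat_lit 458) (nat_lit 5) (nat_lit 338) (nat_lit 338) (nat_lit 224)) (XT.nd (nat_lit 78) (nat_lit 0) (nat_lit 76) (XT.lf (nat_lit 76) (nat_lit 6022880219) (nat_lit 0) (nat_lit 1025300416) (nat_lit 1748) (nat_lit 5935371763) (nat_lit 436) (nat_lit 5) (nat_lit 435) (nat_lit 3) (nat_lit 458) (nat_lit 5) (nat_lit 339) (nat_lit 338) (nat_lit 223)) (XT.lf (nat_lit 76) (nat_lit 2416779880) (nat_lit 0)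 (nat_lit 5456820755) (nat_lit 1748) (nat_lit 5293007544) (nat_lit 437) (nat_lit 5) (nat_lit 436) (nat_lit 5) (nat_lit 459) (nat_lit 5) (nat_lit 340) (nat_lit 338) (nat_lit 222)))))) (XT.nd (nat_lit 390) (nat_lit 1520) (nat_lit 0) (XT.nd (nat_lit 156) (nat_lit 0) (nat_lit 76) (XT.nd (nat_lit 78) (nat_lit 0) (nat_lit 0) (XT.lf (nat_lit 0) (nat_lit 8776809939) (nat_lit 1672) (nat_lit 1225264314) (nat_lit 1748) (nat_lit 3352029115) (nat_lit 437) (nat_lit 5) (nat_lit 459) (nat_lit 5) (nat_lit 460) (nat_lit 5) (nat_lit 341) (nat_lit 338) (nat_lit 221)) (XT.lf (nat_lit 76) (nat_lit 8649272609) (nat_lit 0) (nat_lit 1128222487) (nat_lit 1748) (nat_lit 3768328753) (nat_lit 438) (nat_lit 5) (nat_lit 437) (nat_lit 5) (nat_lit 460) (nat_lit 5) (nat_lit 342) (nat_lit 338) (nat_lit 220))) (XT.nd (nat_lit 78) (nat_lit 0) (nat_lit 76) (XT.lf (nat_lit 76) (nat_lit 5095437799) (nat_lit 0) (nat_lit 5784579707) (nat_lit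 1748) (nat_lit 2861849898) (nat_lit 439) (nat_lit 5) (nat_lit 438) (nat_lit 5) (nat_lit 461) (nat_lit 5) (nat_lit 343) (nat_lit 338) (nat_lit 219)) (XT.nd (nat_lit 78) (nat_lit 0) (nat_lit 0) (XT.lf (nat_lit 76) (nat_lit 1487812001) (nat_lit 0) (nat_lit 10579110184) (nat_lit 1748) (nat_lit 1875851516) (nat_lit 440) (nat_lit 5) (nat_lit 439) (nat_lit 5) (nat_lit 462) (nat_lit 5) (nat_lit 344) (nat_lit 338) (nat_lit 218)) (XT.lf (nat_lit 76) (nat_lit 11992175461) (nat_lit 0) (nat_lit 1373766034) (nat_lit 1748) (nat_lit 782242890) (nat_lit 440) (nat_lit 5) (nat_lit 439) (nat_lit 5) (nat_lit 462) (nat_lit 5) (nat_lit 345) (nat_lit 338) (nat_lit 217))))) (XT.nd (nat_lit 234) (nat_lit 0) (nat_lit 152) (XT.nd (nat_lit 78) (nat_lit 0) (nat_lit 76) (XT.lf (nat_lit 0) (nat_lit 428179689) (nat_lit 1748) (nat_lit 5863236573) (nat_lit 1824) (nat_lit 8066533035) (nat_lit 417) (nat_lit 5) (nat_lit 440) (nat_lit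 5) (nat_lit 441) (nat_lit 5) (nat_lit 346) (nat_lit 338) (nat_lit 216)) (XT.nd (nat_lit 78) (nat_lit 0) (nat_lit 0) (XT.lf (nat_lit 0) (nat_lit 1722071303) (nat_lit 1748) (nat_lit 9636247354) (nat_lit 1824) (nat_lit 3214436196) (nat_lit 418) (nat_lit 5) (nat_lit 441) (nat_lit 5) (nat_lit 442) (nat_lit 5) (nat_lit 347) (nat_lit 338) (nat_lit 215)) (XT.lf (nat_lit 76) (nat_lit 1308719937) (nat_lit 0) (nat_lit 1817638973) (nat_lit 1824) (nat_lit 11666220673) (nat_lit 419) (nat_lit 5) (nat_lit 418) (nat_lit 5) (nat_lit 442) (nat_lit 5) (nat_lit 348) (nat_lit 338) (nat_lit 214)))) (XT.nd (nat_lit 78) (nat_lit 0) (nat_lit 76) (XT.lf (nat_lit 0) (nat_lit 4672023742) (nat_lit 1748) (nat_lit 2369780685) (nat_lit 1824) (nat_lit 7975216056) (nat_lit 419) (nat_lit 5) (nat_lit 442) (nat_lit 5) (nat_lit 443) (nat_lit 5) (nat_lit 349) (nat_lit 338) (nat_lit 213)) (XT.nd (nat_lit 78) (nat_lit 0) (nat_lit 0) (XT.lf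 (nat_lit 0) (nat_lit 6336359310) (nat_lit 1748) (nat_lit 6092991115) (nat_lit 1824) (nat_lit 2817404382) (nat_lit 420) (nat_lit 5) (nat_lit 443) (nat_lit 5) (nat_lit 444) (nat_lit 5) (nat_lit 350) (nat_lit 338) (nat_lit 212)) (XT.lf (nat_lit 76) (nat_lit 5585075605) (nat_lit 0) (nat_lit 2547590331) (nat_lit 1824) (nat_lit 7349080436) (nat_lit 421) (nat_lit 5) (nat_lit 420) (nat_lit 5) (nat_lit 444) (nat_lit 5) (nat_lit 351) (nat_lit 338) (nat_lit 211))))))))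
noncomputable def xc109 : XT := (XT.nd (nat_lit 1560) (nat_lit 5396) (nat_lit 0) (XT.nd (nat_lit 780) (nat_lit 5928) (nat_lit 0) (XT.nd (nat_lit 390) (nat_lit 3420) (nat_lit 0) (XT.nd (nat_lit 156) (nat_lit 2812) (nat_lit 0) (XT.nd (nat_lit 78) (nat_lit 0) (nat_lit 76) (XT.lf (nat_lit 76) (nat_lit 1935975013) (nat_lit 0) (nat_lit 8133532493) (nat_lit 1824) (nat_lit 5652553120) (nat_lit 422) (nat_lit 5) (nat_lit 421) (nat_lit 5) (nat_lit 445) (nat_lit 5) (nat_lit 352) (nat_lit 338) (nat_lit 210)) (XT.lf (nat_lit 0) (nat_lit 12145436268) (nat_lit 1748) (nat_lit 1753355529) (nat_lit 1824) (nat_lit 2069178558) (nat_lit 422) (nat_lit 5) (nat_lit 445) (nat_lit 5) (nat_lit 446) (nat_lit 5) (nat_lit 353) (nat_lit 338) (nat_lit 209))) (XT.nd (nat_lit 78) (nat_lit 2888) (nat_lit 0) (XT.lf (nat_lit 76) (nat_lit 10713203920) (nat_lit 0) (nat_lit 3678274852) (nat_lit 1824) (nat_lit 1827627405) (nat_lit 423) (nat_lit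 5) (nat_lit 422) (nat_lit 5) (nat_lit 446) (nat_lit 5) (nat_lit 354) (nat_lit 338) (nat_lit 208)) (XT.nd (nat_lit 78) (nat_lit 1140) (nat_lit 0) (XT.lf (nat_lit 0) (nat_lit 311765108) (nat_lit 1824) (nat_lit 9342215108) (nat_lit 76) (nat_lit 6822019271) (nat_lit 399) (nat_lit 5) (nat_lit 423) (nat_lit 5) (nat_lit 400) (nat_lit 5) (nat_lit 355) (nat_lit 338) (nat_lit 207)) (XT.lf (nat_lit 0) (nat_lit 2565971395) (nat_lit 1216) (nat_lit 13261558257) (nat_lit 76) (nat_lit 911324188) (nat_lit 384) (nat_lit 5) (nat_lit 400) (nat_lit 5) (nat_lit 385) (nat_lit 5) (nat_lit 356) (nat_lit 338) (nat_lit 206))))) (XT.nd (nat_lit 156) (nat_lit 2508) (nat_lit 0) (XT.nd (nat_lit 78) (nat_lit 912) (nat_lit 0) (XT.lf (nat_lit 0) (nat_lit 5001019751) (nat_lit 1216) (nat_lit 277520936) (nat_lit 76) (nat_lit 11728793770) (nat_lit 384) (nat_lit 5) (nat_lit 400) (nat_lit 5) (nat_lit 385) (nat_lit 5) (nat_lit 357) (nat_lit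 338) (nat_lit 205)) (XT.lf (nat_lit 0) (nat_lit 7617414887) (nat_lit 988) (nat_lit 4062486630) (nat_lit 76) (nat_lit 5601806879) (nat_lit 372) (nat_lit 5) (nat_lit 385) (nat_lit 5) (nat_lit 373) (nat_lit 5) (nat_lit 358) (nat_lit 338) (nat_lit 204))) (XT.nd (nat_lit 78) (nat_lit 1672) (nat_lit 0) (XT.lf (nat_lit 0) (nat_lit 9638307941) (nat_lit 836) (nat_lit 759486185) (nat_lit 912) (nat_lit 7164814250) (nat_lit 361) (nat_lit 5) (nat_lit 372) (nat_lit 5) (nat_lit 373) (nat_lit 5) (nat_lit 359) (nat_lit 338) (nat_lit 203)) (XT.nd (nat_lit 78) (nat_lit 836) (nat_lit 0) (XT.lf (nat_lit 0) (nat_lit 5950861827) (nat_lit 836) (nat_lit 7431228537) (nat_lit 912) (nat_lit 4467439412) (nat_lit 350) (nat_lit 5) (nat_lit 361) (nat_lit 5) (nat_lit 362) (nat_lit 5) (nat_lit 360) (nat_lit 338) (nat_lit 202)) (XT.lf (nat_lit 0) (nat_lit 2192277669) (nat_lit 836) (nat_lit 14347872003) (nat_lit 912) (nat_lit 1603228862)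 (nat_lit 339) (nat_lit 5) (nat_lit 350) (nat_lit 5) (nat_lit 351) (nat_lit 5) (nat_lit 361) (nat_lit 338) (nat_lit 201)))))) (XT.nd (nat_lit 390) (nat_lit 2812) (nat_lit 0) (XT.nd (nat_lit 156) (nat_lit 2204) (nat_lit 0) (XT.nd (nat_lit 78) (nat_lit 836) (nat_lit 0) (XT.lf (nat_lit 0) (nat_lit 1446705532) (nat_lit 912) (nat_lit 1647867698) (nat_lit 76) (nat_lit 15348949564) (nat_lit 338) (nat_lit 5) (nat_lit 350) (nat_lit 5) (nat_lit 339) (nat_lit 5) (nat_lit 362) (nat_lit 338) (nat_lit 200)) (XT.lf (nat_lit 0) (nat_lit 4695205294) (nat_lit 912) (nat_lit 5572392632) (nat_lit 76) (nat_lit 8482288596) (nat_lit 327) (nat_lit 5) (nat_lit 339) (nat_lit 5) (nat_lit 328) (nat_lit 5) (nat_lit 363) (nat_lit 338) (nat_lit 199))) (XT.nd (nat_lit 78) (nat_lit 1444) (nat_lit 0) (XT.lf (nat_lit 0) (nat_lit 8130957586) (nat_lit 836) (nat_lit 9576969108) (nat_lit 76) (nat_lit 1355722466) (nat_lit 317) (nat_lit 5)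 (nat_lit 328) (nat_lit 5) (nat_lit 318) (nat_lit 5) (nat_lit 364) (nat_lit 338) (nat_lit 198)) (XT.nd (nat_lit 78) (nat_lit 684) (nat_lit 0) (XT.lf (nat_lit 0) (nat_lit 5680328336) (nat_lit 760) (nat_lit 6120584573) (nat_lit 836) (nat_lit 7583292992) (nat_lit 307) (nat_lit 5) (nat_lit 317) (nat_lit 5) (nat_lit 318) (nat_lit 5) (nat_lit 365) (nat_lit 338) (nat_lit 197)) (XT.lf (nat_lit 0) (nat_lit 1785572676) (nat_lit 684) (nat_lit 13897914965) (nat_lit 760) (nat_lit 4028845009) (nat_lit 298) (nat_lit 5) (nat_lit 307) (nat_lit 5) (nat_lit 308) (nat_lit 5) (nat_lit 366) (nat_lit 338) (nat_lit 196))))) (XT.nd (nat_lit 156) (nat_lit 1976) (nat_lit 0) (XT.nd (nat_lit 78) (nat_lit 836) (nat_lit 0) (XT.lf (nat_lit 0) (nat_lit 17873004265) (nat_lit 684) (nat_lit 1931180128) (nat_lit 760) (nat_lit 243689526) (nat_lit 298) (nat_lit 5) (nat_lit 307) (nat_lit 5) (nat_lit 308) (nat_lit 5) (nat_lit 367) (nat_lit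 338) (nat_lit 195)) (XT.lf (nat_lit 0) (nat_lit 3755913867) (nat_lit 836) (nat_lit 6260165734) (nat_lit 76) (nat_lit 10373954058) (nat_lit 287) (nat_lit 5) (nat_lit 298) (nat_lit 5) (nat_lit 288) (nat_lit 5) (nat_lit 368) (nat_lit 338) (nat_lit 194))) (XT.nd (nat_lit 78) (nat_lit 1292) (nat_lit 0) (XT.lf (nat_lit 0) (nat_lit 7970950013) (nat_lit 760) (nat_lit 10436667332) (nat_lit 76) (nat_lit 2332836861) (nat_lit 278) (nat_lit 5) (nat_lit 288) (nat_lit 5) (nat_lit 279) (nat_lit 5) (nat_lit 369) (nat_lit 338) (nat_lit 193)) (XT.nd (nat_lit 78) (nat_lit 608) (nat_lit 0) (XT.lf (nat_lit 0) (nat_lit 6353245750) (nat_lit 684) (nat_lit 6099005111) (nat_lit 760) (nat_lit 8646343477) (nat_lit 269) (nat_lit 5) (nat_lit 278) (nat_lit 5) (nat_lit 279) (nat_lit 5) (nat_lit 370) (nat_lit 338) (nat_lit 192)) (XT.lf (nat_lit 0) (nat_lit 2297975996) (nat_lit 608) (nat_lit 14887953184) (nat_lit 684) (nat_lit 4279193872)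 (nat_lit 261) (nat_lit 5) (nat_lit 269) (nat_lit 5) (nat_lit 270) (nat_lit 5) (nat_lit 371) (nat_lit 338) (nat_lit 191))))))) (XT.nd (nat_lit 780) (nat_lit 532) (nat_lit 0) (XT.nd (nat_lit 390) (nat_lit 2356) (nat_lit 0) (XT.nd (nat_lit 156) (nat_lit 1748) (nat_lit 0) (XT.nd (nat_lit 78) (nat_lit 684) (nat_lit 0) (XT.lf (nat_lit 0) (nat_lit 346742444) (nat_lit 684) (nat_lit 1841653422) (nat_lit 76) (nat_lit 19651613442) (nat_lit 260) (nat_lit 5) (nat_lit 269) (nat_lit 5) (nat_lit 261) (nat_lit 5) (nat_lit 372) (nat_lit 338) (nat_lit 190)) (XT.lf (nat_lit 0) (nat_lit 5219850287) (nat_lit 760) (nat_lit 6120352690) (nat_lit 76) (nat_lit 10882045756) (nat_lit 251) (nat_lit 5) (nat_lit 261) (nat_lit 5) (nat_lit 252) (nat_lit 5) (nat_lit 373) (nat_lit 338) (nat_lit 189))) (XT.nd (nat_lit 78) (nat_lit 1140) (nat_lit 0) (XT.lf (nat_lit 0) (nat_lit 10346501576) (nat_lit 684) (nat_lit 10500306262) (nat_lit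 76) (nat_lit 1767003323) (nat_lit 243) (nat_lit 5) (nat_lit 252) (nat_lit 5) (nat_lit 244) (nat_lit 5) (nat_lit 374) (nat_lit 338) (nat_lit 188)) (XT.nd (nat_lit 78) (nat_lit 532) (nat_lit 0) (XT.lf (nat_lit 0) (nat_lit 7978194647) (nat_lit 608) (nat_lit 7808150739) (nat_lit 684) (nat_lit 7227589956) (nat_lit 235) (nat_lit 5) (nat_lit 243) (nat_lit 5) (nat_lit 244) (nat_lit 5) (nat_lit 375) (nat_lit 338) (nat_lit 187)) (XT.lf (nat_lit 0) (nat_lit 3729909081) (nat_lit 532) (nat_lit 17782023606) (nat_lit 608) (nat_lit 1911682259) (nat_lit 228) (nat_lit 5) (nat_lit 235) (nat_lit 5) (nat_lit 236) (nat_lit 5) (nat_lit 376) (nat_lit 338) (nat_lit 186))))) (XT.nd (nat_lit 156) (nat_lit 1672) (nat_lit 0) (XT.nd (nat_lit 78) (nat_lit 608) (nat_lit 0) (XT.lf (nat_lit 0) (nat_lit 3662090662) (nat_lit 608) (nat_lit 667348502) (nat_lit 76) (nat_lit 19512783019) (nat_lit 227) (nat_lit 5) (nat_lit 235) (nat_lit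 5) (nat_lit 228) (nat_lit 5) (nat_lit 377) (nat_lit 338) (nat_lit 185)) (XT.lf (nat_lit 0) (nat_lit 9555005356) (nat_lit 684) (nat_lit 5177083948) (nat_lit 76) (nat_lit 9537490051) (nat_lit 219) (nat_lit 5) (nat_lit 228) (nat_lit 5) (nat_lit 220) (nat_lit 5) (nat_lit 378) (nat_lit 338) (nat_lit 184))) (XT.nd (nat_lit 78) (nat_lit 1140) (nat_lit 0) (XT.lf (nat_lit 0) (nat_lit 14899287878) (nat_lit 532) (nat_lit 846472397) (nat_lit 608) (nat_lit 8961578298) (nat_lit 212) (nat_lit 5) (nat_lit 219) (nat_lit 5) (nat_lit 220) (nat_lit 5) (nat_lit 379) (nat_lit 338) (nat_lit 183)) (XT.nd (nat_lit 78) (nat_lit 608) (nat_lit 0) (XT.lf (nat_lit 0) (nat_lit 10530080874) (nat_lit 532) (nat_lit 11774190338) (nat_lit 608) (nat_lit 2850321008) (nat_lit 205) (nat_lit 5) (nat_lit 212) (nat_lit 5) (nat_lit 213) (nat_lit 5) (nat_lit 380) (nat_lit 338) (nat_lit 182)) (XT.lf (nat_lit 0) (nat_lit 3518444907) (nat_lit 608)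 (nat_lit 19591469812) (nat_lit 76) (nat_lit 2502516849) (nat_lit 197) (nat_lit 5) (nat_lit 205) (nat_lit 5) (nat_lit 198) (nat_lit 5) (nat_lit 381) (nat_lit 338) (nat_lit 181)))))) (XT.nd (nat_lit 43758) (nat_lit 0) (nat_lit 17176) (XT.nd (nat_lit 43524) (nat_lit 0) (nat_lit 18620) (XT.nd (nat_lit 78) (nat_lit 0) (nat_lit 0) (XT.lf (nat_lit 0) (nat_lit 1311082226) (nat_lit 532) (nat_lit 8906977216) (nat_lit 608) (nat_lit 15862001779) (nat_lit 190) (nat_lit 5) (nat_lit 197) (nat_lit 5) (nat_lit 198) (nat_lit 5) (nat_lit 382) (nat_lit 338) (nat_lit 180)) (XT.lf (nat_lit 0) (nat_lit 17280893290) (nat_lit 608) (nat_lit 3499792428) (nat_lit 76) (nat_lit 5777791507) (nat_lit 190) (nat_lit 5) (nat_lit 198) (nat_lit 5) (nat_lit 191) (nat_lit 5) (nat_lit 383) (nat_lit 338) (nat_lit 179))) (XT.nd (nat_lit 78) (nat_lit 0) (nat_lit 0) (XT.lf (nat_lit 0) (nat_lit 3848486590) (nat_lit 1748) (nat_lit 1366837731)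 (nat_lit 1748) (nat_lit 1366837731) (nat_lit 435) (nat_lit 3) (nat_lit 458) (nat_lit 3) (nat_lit 458) (nat_lit 5) (nat_lit 339) (nat_lit 339) (nat_lit 222)) (XT.nd (nat_lit 78) (nat_lit 0) (nat_lit 76) (XT.lf (nat_lit 76) (nat_lit 6804915390) (nat_lit 0) (nat_lit 1621854496) (nat_lit 1748) (nat_lit 4922526540) (nat_lit 436) (nat_lit 5) (nat_lit 435) (nat_lit 3) (nat_lit 458) (nat_lit 5) (nat_lit 340) (nat_lit 339) (nat_lit 221)) (XT.lf (nat_lit 76) (nat_lit 3107866816) (nat_lit 0) (nat_lit 6135540923) (nat_lit 1748) (nat_lit 4295119260) (nat_lit 437) (nat_lit 5) (nat_lit 436) (nat_lit 5) (nat_lit 459) (nat_lit 5) (nat_lit 341) (nat_lit 339) (nat_lit 220))))) (XT.nd (nat_lit 234) (nat_lit 1596) (nat_lit 0) (XT.nd (nat_lit 78) (nat_lit 0) (nat_lit 0) (XT.lf (nat_lit 0) (nat_lit 10137449444) (nat_lit 1672) (nat_lit 635802061) (nat_lit 1748) (nat_lit 2959132684) (nat_lit 437) (nat_lit 5) (nat_lit 459)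 (nat_lit 5) (nat_lit 460) (nat_lit 5) (nat_lit 342) (nat_lit 339) (nat_lit 219)) (XT.nd (nat_lit 78) (nat_lit 0) (nat_lit 76) (XT.lf (nat_lit 76) (nat_lit 9524811291) (nat_lit 0) (nat_lit 1615382518) (nat_lit 1748) (nat_lit 2790233223) (nat_lit 438) (nat_lit 5) (nat_lit 437) (nat_lit 5) (nat_lit 460) (nat_lit 5) (nat_lit 343) (nat_lit 339) (nat_lit 218)) (XT.lf (nat_lit 76) (nat_lit 5878680364) (nat_lit 0) (nat_lit 6367200072) (nat_lit 1748) (nat_lit 1887080874) (nat_lit 439) (nat_lit 5) (nat_lit 438) (nat_lit 5) (nat_lit 461) (nat_lit 5) (nat_lit 344) (nat_lit 339) (nat_lit 217)))) (XT.nd (nat_lit 78) (nat_lit 1748) (nat_lit 0) (XT.lf (nat_lit 76) (nat_lit 2176030368) (nat_lit 0) (nat_lit 11263686179) (nat_lit 1748) (nat_lit 900762623) (nat_lit 440) (nat_lit 5) (nat_lit 439) (nat_lit 5) (nat_lit 462) (nat_lit 5) (nat_lit 345) (nat_lit 339) (nat_lit 216)) (XT.nd (nat_lit 78) (nat_lit 0) (nat_lit 76)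 (XT.lf (nat_lit 0) (nat_lit 193049001) (nat_lit 1748) (nat_lit 1577142018) (nat_lit 1824) (nat_lit 12782435105) (nat_lit 416) (nat_lit 5) (nat_lit 439) (nat_lit 5) (nat_lit 440) (nat_lit 5) (nat_lit 346) (nat_lit 339) (nat_lit 215)) (XT.lf (nat_lit 0) (nat_lit 1402333599) (nat_lit 1748) (nat_lit 5389390879) (nat_lit 1824) (nat_lit 7977402590) (nat_lit 417) (nat_lit 5) (nat_lit 440) (nat_lit 5) (nat_lit 441) (nat_lit 5) (nat_lit 347) (nat_lit 339) (nat_lit 214))))))))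
noncomputable def xc110 : XT := (XT.nd (nat_lit 1560) (nat_lit 7676) (nat_lit 0) (XT.nd (nat_lit 780) (nat_lit 6536) (nat_lit 0) (XT.nd (nat_lit 390) (nat_lit 2584) (nat_lit 0) (XT.nd (nat_lit 156) (nat_lit 0) (nat_lit 76) (XT.nd (nat_lit 78) (nat_lit 0) (nat_lit 0) (XT.lf (nat_lit 0) (nat_lit 2709256317) (nat_lit 1748) (nat_lit 9265122819) (nat_lit 1824) (nat_lit 3016523113) (nat_lit 418) (nat_lit 5) (nat_lit 441) (nat_lit 5) (nat_lit 442) (nat_lit 5) (nat_lit 348) (nat_lit 339) (nat_lit 213)) (XT.lf (nat_lit 76) (nat_lit 1997482336) (nat_lit 0) (nat_lit 2135158967) (nat_lit 1824) (nat_lit 11085150502) (nat_lit 419) (nat_lit 5) (nat_lit 418) (nat_lit 5) (nat_lit 442) (nat_lit 5) (nat_lit 349) (nat_lit 339) (nat_lit 212))) (XT.nd (nat_lit 78) (nat_lit 0) (nat_lit 76) (XT.lf (nat_lit 0) (nat_lit 5696440876) (nat_lit 1748) (nat_lit 1790608593) (nat_lit 1824) (nat_lit 7962490351) (nat_lit 419) (nat_lit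 5) (nat_lit 442) (nat_lit 5) (nat_lit 443) (nat_lit 5) (nat_lit 350) (nat_lit 339) (nat_lit 211)) (XT.nd (nat_lit 78) (nat_lit 0) (nat_lit 0) (XT.lf (nat_lit 0) (nat_lit 7387657459) (nat_lit 1748) (nat_lit 5617067324) (nat_lit 1824) (nat_lit 2681911288) (nat_lit 420) (nat_lit 5) (nat_lit 443) (nat_lit 5) (nat_lit 444) (nat_lit 5) (nat_lit 351) (nat_lit 339) (nat_lit 210)) (XT.lf (nat_lit 76) (nat_lit 6400654554) (nat_lit 0) (nat_lit 2816322440) (nat_lit 1824) (nat_lit 6712126573) (nat_lit 421) (nat_lit 5) (nat_lit 420) (nat_lit 5) (nat_lit 444) (nat_lit 5) (nat_lit 352) (nat_lit 339) (nat_lit 209))))) (XT.nd (nat_lit 156) (nat_lit 2812) (nat_lit 0) (XT.nd (nat_lit 78) (nat_lit 0) (nat_lit 76) (XT.lf (nat_lit 76) (nat_lit 2649613640) (nat_lit 0) (nat_lit 8540878633) (nat_lit 1824) (nat_lit 4986572011) (nat_lit 422) (nat_lit 5) (nat_lit 421) (nat_lit 5) (nat_lit 445) (nat_lit 5) (nat_lit 353) (nat_lit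 339) (nat_lit 208)) (XT.lf (nat_lit 0) (nat_lit 13303817830) (nat_lit 1748) (nat_lit 1152288185) (nat_lit 1824) (nat_lit 1974751070) (nat_lit 422) (nat_lit 5) (nat_lit 445) (nat_lit 5) (nat_lit 446) (nat_lit 5) (nat_lit 354) (nat_lit 339) (nat_lit 207))) (XT.nd (nat_lit 78) (nat_lit 2888) (nat_lit 0) (XT.lf (nat_lit 76) (nat_lit 11677663060) (nat_lit 0) (nat_lit 3920626989) (nat_lit 1824) (nat_lit 1091623887) (nat_lit 423) (nat_lit 5) (nat_lit 422) (nat_lit 5) (nat_lit 446) (nat_lit 5) (nat_lit 355) (nat_lit 339) (nat_lit 206)) (XT.nd (nat_lit 78) (nat_lit 1140) (nat_lit 0) (XT.lf (nat_lit 0) (nat_lit 1082250563) (nat_lit 1824) (nat_lit 8963132252) (nat_lit 76) (nat_lit 6909422638) (nat_lit 399) (nat_lit 5) (nat_lit 423) (nat_lit 5) (nat_lit 400) (nat_lit 5) (nat_lit 356) (nat_lit 339) (nat_lit 205)) (XT.lf (nat_lit 0) (nat_lit 3385511905) (nat_lit 1216) (nat_lit 12995031601) (nat_lit 76) (nat_lit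 845380675) (nat_lit 384) (nat_lit 5) (nat_lit 400) (nat_lit 5) (nat_lit 385) (nat_lit 5) (nat_lit 357) (nat_lit 339) (nat_lit 204)))))) (XT.nd (nat_lit 390) (nat_lit 3116) (nat_lit 0) (XT.nd (nat_lit 156) (nat_lit 2508) (nat_lit 0) (XT.nd (nat_lit 78) (nat_lit 0) (nat_lit 0) (XT.lf (nat_lit 0) (nat_lit 363949419) (nat_lit 912) (nat_lit 5510397293) (nat_lit 988) (nat_lit 11628504914) (nat_lit 372) (nat_lit 5) (nat_lit 384) (nat_lit 5) (nat_lit 385) (nat_lit 5) (nat_lit 358) (nat_lit 339) (nat_lit 203)) (XT.lf (nat_lit 0) (nat_lit 8549541391) (nat_lit 988) (nat_lit 3535040869) (nat_lit 76) (nat_lit 5701275270) (nat_lit 372) (nat_lit 5) (nat_lit 385) (nat_lit 5) (nat_lit 373) (nat_lit 5) (nat_lit 359) (nat_lit 339) (nat_lit 202))) (XT.nd (nat_lit 78) (nat_lit 1672) (nat_lit 0) (XT.lf (nat_lit 0) (nat_lit 10566243088) (nat_lit 836) (nat_lit 830743019) (nat_lit 912) (nat_lit 6678532021) (nat_lit 361) (nat_lit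 5) (nat_lit 372) (nat_lit 5) (nat_lit 373) (nat_lit 5) (nat_lit 360) (nat_lit 339) (nat_lit 201)) (XT.nd (nat_lit 78) (nat_lit 836) (nat_lit 0) (XT.lf (nat_lit 0) (nat_lit 6771861533) (nat_lit 836) (nat_lit 7682798289) (nat_lit 912) (nat_lit 3916716879) (nat_lit 350) (nat_lit 5) (nat_lit 361) (nat_lit 5) (nat_lit 362) (nat_lit 5) (nat_lit 361) (nat_lit 339) (nat_lit 200)) (XT.lf (nat_lit 0) (nat_lit 2903697055) (nat_lit 836) (nat_lit 14788228563) (nat_lit 912) (nat_lit 982432327) (nat_lit 339) (nat_lit 5) (nat_lit 350) (nat_lit 5) (nat_lit 351) (nat_lit 5) (nat_lit 362) (nat_lit 339) (nat_lit 199))))) (XT.nd (nat_lit 156) (nat_lit 2204) (nat_lit 0) (XT.nd (nat_lit 78) (nat_lit 836) (nat_lit 0) (XT.lf (nat_lit 0) (nat_lit 2131000624) (nat_lit 912) (nat_lit 1061740524) (nat_lit 76) (nat_lit 15791069074) (nat_lit 338) (nat_lit 5) (nat_lit 350) (nat_lit 5) (nat_lit 339) (nat_lit 5) (nat_lit 363) (nat_lit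 339) (nat_lit 198)) (XT.lf (nat_lit 0) (nat_lit 5462341398) (nat_lit 912) (nat_lit 5101585471) (nat_lit 76) (nat_lit 8735736109) (nat_lit 327) (nat_lit 5) (nat_lit 339) (nat_lit 5) (nat_lit 328) (nat_lit 5) (nat_lit 364) (nat_lit 339) (nat_lit 197))) (XT.nd (nat_lit 78) (nat_lit 1444) (nat_lit 0) (XT.lf (nat_lit 0) (nat_lit 8987100808) (nat_lit 836) (nat_lit 9224319273) (nat_lit 76) (nat_lit 1411705390) (nat_lit 317) (nat_lit 5) (nat_lit 328) (nat_lit 5) (nat_lit 318) (nat_lit 5) (nat_lit 365) (nat_lit 339) (nat_lit 196)) (XT.nd (nat_lit 78) (nat_lit 684) (nat_lit 0) (XT.lf (nat_lit 0) (nat_lit 6480314521) (nat_lit 760) (nat_lit 6273096406) (nat_lit 836) (nat_lit 7200168365) (nat_lit 307) (nat_lit 5) (nat_lit 317) (nat_lit 5) (nat_lit 318) (nat_lit 5) (nat_lit 366) (nat_lit 339) (nat_lit 195)) (XT.lf (nat_lit 0) (nat_lit 2470259004) (nat_lit 684) (nat_lit 14269066435) (nat_lit 760) (nat_lit 3552492495)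 (nat_lit 298) (nat_lit 5) (nat_lit 307) (nat_lit 5) (nat_lit 308) (nat_lit 5) (nat_lit 367) (nat_lit 339) (nat_lit 194))))))) (XT.nd (nat_lit 780) (nat_lit 2356) (nat_lit 0) (XT.nd (nat_lit 390) (nat_lit 2508) (nat_lit 0) (XT.nd (nat_lit 156) (nat_lit 1976) (nat_lit 0) (XT.nd (nat_lit 78) (nat_lit 760) (nat_lit 0) (XT.lf (nat_lit 0) (nat_lit 324510384) (nat_lit 760) (nat_lit 1617975106) (nat_lit 76) (nat_lit 18695243408) (nat_lit 297) (nat_lit 5) (nat_lit 307) (nat_lit 5) (nat_lit 298) (nat_lit 5) (nat_lit 368) (nat_lit 339) (nat_lit 193)) (XT.lf (nat_lit 0) (nat_lit 4428437472) (nat_lit 836) (nat_lit 5826502608) (nat_lit 76) (nat_lit 10735433143) (nat_lit 287) (nat_lit 5) (nat_lit 298) (nat_lit 5) (nat_lit 288) (nat_lit 5) (nat_lit 369) (nat_lit 339) (nat_lit 192))) (XT.nd (nat_lit 78) (nat_lit 1292) (nat_lit 0) (XT.lf (nat_lit 0) (nat_lit 8758002748) (nat_lit 760) (nat_lit 10127686640) (nat_lit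 76) (nat_lit 2465860229) (nat_lit 278) (nat_lit 5) (nat_lit 288) (nat_lit 5) (nat_lit 279) (nat_lit 5) (nat_lit 370) (nat_lit 339) (nat_lit 191)) (XT.nd (nat_lit 78) (nat_lit 608) (nat_lit 0) (XT.lf (nat_lit 0) (nat_lit 7155831313) (nat_lit 684) (nat_lit 6205925782) (nat_lit 760) (nat_lit 8358921220) (nat_lit 269) (nat_lit 5) (nat_lit 278) (nat_lit 5) (nat_lit 279) (nat_lit 5) (nat_lit 371) (nat_lit 339) (nat_lit 190)) (XT.lf (nat_lit 0) (nat_lit 2979186370) (nat_lit 608) (nat_lit 15247104182) (nat_lit 684) (nat_lit 3872139960) (nat_lit 261) (nat_lit 5) (nat_lit 269) (nat_lit 5) (nat_lit 270) (nat_lit 5) (nat_lit 372) (nat_lit 339) (nat_lit 189))))) (XT.nd (nat_lit 156) (nat_lit 1748) (nat_lit 0) (XT.nd (nat_lit 78) (nat_lit 684) (nat_lit 0) (XT.lf (nat_lit 0) (nat_lit 870161679) (nat_lit 684) (nat_lit 1295504034) (nat_lit 76) (nat_lit 20319140225) (nat_lit 260) (nat_lit 5) (nat_lit 269) (nat_lit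 5) (nat_lit 261) (nat_lit 5) (nat_lit 373) (nat_lit 339) (nat_lit 188)) (XT.lf (nat_lit 0) (nat_lit 5878944409) (nat_lit 760) (nat_lit 5702726368) (nat_lit 76) (nat_lit 11297056310) (nat_lit 251) (nat_lit 5) (nat_lit 261) (nat_lit 5) (nat_lit 252) (nat_lit 5) (nat_lit 374) (nat_lit 339) (nat_lit 187))) (XT.nd (nat_lit 78) (nat_lit 1140) (nat_lit 0) (XT.lf (nat_lit 0) (nat_lit 11149247486) (nat_lit 684) (nat_lit 10214511592) (nat_lit 76) (nat_lit 1918484317) (nat_lit 243) (nat_lit 5) (nat_lit 252) (nat_lit 5) (nat_lit 244) (nat_lit 5) (nat_lit 375) (nat_lit 339) (nat_lit 186)) (XT.nd (nat_lit 78) (nat_lit 532) (nat_lit 0) (XT.lf (nat_lit 0) (nat_lit 8808597015) (nat_lit 608) (nat_lit 7933186810) (nat_lit 684) (nat_lit 6952801467) (nat_lit 235) (nat_lit 5) (nat_lit 243) (nat_lit 5) (nat_lit 244) (nat_lit 5) (nat_lit 376) (nat_lit 339) (nat_lit 185)) (XT.lf (nat_lit 0) (nat_lit 4432185777) (nat_lit 532)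 (nat_lit 18197440095) (nat_lit 608) (nat_lit 1487123490) (nat_lit 228) (nat_lit 5) (nat_lit 235) (nat_lit 5) (nat_lit 236) (nat_lit 5) (nat_lit 377) (nat_lit 339) (nat_lit 184)))))) (XT.nd (nat_lit 43914) (nat_lit 0) (nat_lit 18088) (XT.nd (nat_lit 156) (nat_lit 1672) (nat_lit 0) (XT.nd (nat_lit 78) (nat_lit 608) (nat_lit 0) (XT.lf (nat_lit 0) (nat_lit 4233690189) (nat_lit 608) (nat_lit 107927615) (nat_lit 76) (nat_lit 20206515112) (nat_lit 227) (nat_lit 5) (nat_lit 235) (nat_lit 5) (nat_lit 228) (nat_lit 5) (nat_lit 378) (nat_lit 339) (nat_lit 183)) (XT.lf (nat_lit 0) (nat_lit 10294411227) (nat_lit 684) (nat_lit 4753964888) (nat_lit 76) (nat_lit 9940117839) (nat_lit 219) (nat_lit 5) (nat_lit 228) (nat_lit 5) (nat_lit 220) (nat_lit 5) (nat_lit 379) (nat_lit 339) (nat_lit 182))) (XT.nd (nat_lit 78) (nat_lit 1140) (nat_lit 0) (XT.lf (nat_lit 0) (nat_lit 15915313727) (nat_lit 532) (nat_lit 746082639)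 (nat_lit 608) (nat_lit 8778182859) (nat_lit 212) (nat_lit 5) (nat_lit 219) (nat_lit 5) (nat_lit 220) (nat_lit 5) (nat_lit 380) (nat_lit 339) (nat_lit 181)) (XT.nd (nat_lit 78) (nat_lit 608) (nat_lit 0) (XT.lf (nat_lit 0) (nat_lit 11413828798) (nat_lit 532) (nat_lit 11994402968) (nat_lit 608) (nat_lit 2492190660) (nat_lit 205) (nat_lit 5) (nat_lit 212) (nat_lit 5) (nat_lit 213) (nat_lit 5) (nat_lit 381) (nat_lit 339) (nat_lit 180)) (XT.lf (nat_lit 0) (nat_lit 4053613850) (nat_lit 608) (nat_lit 19606951021) (nat_lit 76) (nat_lit 2711541762) (nat_lit 197) (nat_lit 5) (nat_lit 205) (nat_lit 5) (nat_lit 198) (nat_lit 5) (nat_lit 382) (nat_lit 339) (nat_lit 179))))) (XT.nd (nat_lit 234) (nat_lit 0) (nat_lit 152) (XT.nd (nat_lit 78) (nat_lit 0) (nat_lit 0) (XT.lf (nat_lit 0) (nat_lit 4528620545) (nat_lit 1748) (nat_lit 1119754530) (nat_lit 1748) (nat_lit 1119754530) (nat_lit 435) (nat_lit 3) (nat_lit 458)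 (nat_lit 3) (nat_lit 458) (nat_lit 5) (nat_lit 340) (nat_lit 340) (nat_lit 220)) (XT.nd (nat_lit 78) (nat_lit 0) (nat_lit 76) (XT.lf (nat_lit 76) (nat_lit 7575891737) (nat_lit 0) (nat_lit 2203826247) (nat_lit 1748) (nat_lit 3947658857) (nat_lit 436) (nat_lit 5) (nat_lit 435) (nat_lit 3) (nat_lit 458) (nat_lit 5) (nat_lit 341) (nat_lit 340) (nat_lit 219)) (XT.lf (nat_lit 76) (nat_lit 3784177134) (nat_lit 0) (nat_lit 6805058698) (nat_lit 1748) (nat_lit 3333692405) (nat_lit 437) (nat_lit 5) (nat_lit 436) (nat_lit 5) (nat_lit 459) (nat_lit 5) (nat_lit 342) (nat_lit 340) (nat_lit 218)))) (XT.nd (nat_lit 78) (nat_lit 0) (nat_lit 0) (XT.lf (nat_lit 0) (nat_lit 11475916603) (nat_lit 1672) (nat_lit 64603541) (nat_lit 1748) (nat_lit 2582775827) (nat_lit 437) (nat_lit 5) (nat_lit 459) (nat_lit 5) (nat_lit 460) (nat_lit 5) (nat_lit 343) (nat_lit 340) (nat_lit 217)) (XT.nd (nat_lit 78) (nat_lit 0) (nat_lit 76)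 (XT.lf (nat_lit 76) (nat_lit 10391251741) (nat_lit 0) (nat_lit 2091135309) (nat_lit 1748) (nat_lit 1845431036) (nat_lit 438) (nat_lit 5) (nat_lit 437) (nat_lit 5) (nat_lit 460) (nat_lit 5) (nat_lit 344) (nat_lit 340) (nat_lit 216)) (XT.lf (nat_lit 76) (nat_lit 6649233847) (nat_lit 0) (nat_lit 6943816011) (nat_lit 1748) (nat_lit 943952966) (nat_lit 439) (nat_lit 5) (nat_lit 438) (nat_lit 5) (nat_lit 461) (nat_lit 5) (nat_lit 345) (nat_lit 340) (nat_lit 215))))))))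
noncomputable def xc111 : XT := (XT.nd (nat_lit 1638) (nat_lit 8512) (nat_lit 0) (XT.nd (nat_lit 780) (nat_lit 7524) (nat_lit 0) (XT.nd (nat_lit 390) (nat_lit 0) (nat_lit 228) (XT.nd (nat_lit 156) (nat_lit 0) (nat_lit 76) (XT.nd (nat_lit 78) (nat_lit 0) (nat_lit 0) (XT.lf (nat_lit 0) (nat_lit 43792421) (nat_lit 1748) (nat_lit 11903634225) (nat_lit 1824) (nat_lit 2803864640) (nat_lit 416) (nat_lit 5) (nat_lit 439) (nat_lit 5) (nat_lit 440) (nat_lit 5) (nat_lit 346) (nat_lit 340) (nat_lit 214)) (XT.lf (nat_lit 0) (nat_lit 1130306344) (nat_lit 1748) (nat_lit 1022782257) (nat_lit 1824) (nat_lit 12817162195) (nat_lit 416) (nat_lit 5) (nat_lit 439) (nat_lit 5) (nat_lit 440) (nat_lit 5) (nat_lit 347) (nat_lit 340) (nat_lit 213))) (XT.nd (nat_lit 78) (nat_lit 0) (nat_lit 76) (XT.lf (nat_lit 0) (nat_lit 2350529085) (nat_lit 1748) (nat_lit 4938627708) (nat_lit 1824) (nat_lit 7904606244) (nat_lit 417) (nat_lit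 5) (nat_lit 440) (nat_lit 5) (nat_lit 441) (nat_lit 5) (nat_lit 348) (nat_lit 340) (nat_lit 212)) (XT.nd (nat_lit 78) (nat_lit 0) (nat_lit 0) (XT.lf (nat_lit 0) (nat_lit 3672354040) (nat_lit 1748) (nat_lit 8920763415) (nat_lit 1824) (nat_lit 2829569311) (nat_lit 418) (nat_lit 5) (nat_lit 441) (nat_lit 5) (nat_lit 442) (nat_lit 5) (nat_lit 349) (nat_lit 340) (nat_lit 211)) (XT.lf (nat_lit 76) (nat_lit 2669623604) (nat_lit 0) (nat_lit 2447107810) (nat_lit 1824) (nat_lit 10540094695) (nat_lit 419) (nat_lit 5) (nat_lit 418) (nat_lit 5) (nat_lit 442) (nat_lit 5) (nat_lit 350) (nat_lit 340) (nat_lit 210))))) (XT.nd (nat_lit 156) (nat_lit 0) (nat_lit 76) (XT.nd (nat_lit 78) (nat_lit 0) (nat_lit 76) (XT.lf (nat_lit 0) (nat_lit 6700830587) (nat_lit 1748) (nat_lit 1231389238) (nat_lit 1824) (nat_lit 7963847684) (nat_lit 419) (nat_lit 5) (nat_lit 442) (nat_lit 5) (nat_lit 443) (nat_lit 5) (nat_lit 351) (nat_lit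 340) (nat_lit 209)) (XT.lf (nat_lit 0) (nat_lit 8421057727) (nat_lit 1748) (nat_lit 5164678670) (nat_lit 1824) (nat_lit 2554983176) (nat_lit 420) (nat_lit 5) (nat_lit 443) (nat_lit 5) (nat_lit 444) (nat_lit 5) (nat_lit 352) (nat_lit 340) (nat_lit 208))) (XT.nd (nat_lit 78) (nat_lit 0) (nat_lit 76) (XT.lf (nat_lit 76) (nat_lit 7203501489) (nat_lit 0) (nat_lit 3082077453) (nat_lit 1824) (nat_lit 6105283870) (nat_lit 421) (nat_lit 5) (nat_lit 420) (nat_lit 5) (nat_lit 444) (nat_lit 5) (nat_lit 353) (nat_lit 340) (nat_lit 207)) (XT.nd (nat_lit 78) (nat_lit 0) (nat_lit 76) (XT.lf (nat_lit 76) (nat_lit 3347029635) (nat_lit 0) (nat_lit 8951068764) (nat_lit 1824) (nat_lit 4348575899) (nat_lit 422) (nat_lit 5) (nat_lit 421) (nat_lit 5) (nat_lit 445) (nat_lit 5) (nat_lit 354) (nat_lit 340) (nat_lit 206)) (XT.lf (nat_lit 0) (nat_lit 14451370931) (nat_lit 1748) (nat_lit 570712039) (nat_lit 1824) (nat_lit 1886474661)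 (nat_lit 422) (nat_lit 5) (nat_lit 445) (nat_lit 5) (nat_lit 446) (nat_lit 5) (nat_lit 355) (nat_lit 340) (nat_lit 205)))))) (XT.nd (nat_lit 390) (nat_lit 4180) (nat_lit 0) (XT.nd (nat_lit 156) (nat_lit 2052) (nat_lit 0) (XT.nd (nat_lit 78) (nat_lit 1748) (nat_lit 0) (XT.lf (nat_lit 76) (nat_lit 12634141526) (nat_lit 0) (nat_lit 4162672128) (nat_lit 1824) (nat_lit 378937276) (nat_lit 423) (nat_lit 5) (nat_lit 422) (nat_lit 5) (nat_lit 446) (nat_lit 5) (nat_lit 356) (nat_lit 340) (nat_lit 204)) (XT.lf (nat_lit 0) (nat_lit 1832158463) (nat_lit 1824) (nat_lit 8610526258) (nat_lit 76) (nat_lit 7006179150) (nat_lit 399) (nat_lit 5) (nat_lit 423) (nat_lit 5) (nat_lit 400) (nat_lit 5) (nat_lit 357) (nat_lit 340) (nat_lit 203))) (XT.nd (nat_lit 78) (nat_lit 912) (nat_lit 0) (XT.lf (nat_lit 0) (nat_lit 4187012571) (nat_lit 1216) (nat_lit 12758646897) (nat_lit 76) (nat_lit 782813695) (nat_lit 384) (nat_lit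 5) (nat_lit 400) (nat_lit 5) (nat_lit 385) (nat_lit 5) (nat_lit 358) (nat_lit 340) (nat_lit 202)) (XT.nd (nat_lit 78) (nat_lit 0) (nat_lit 0) (XT.lf (nat_lit 0) (nat_lit 990943624) (nat_lit 912) (nat_lit 5743182305) (nat_lit 988) (nat_lit 11279916932) (nat_lit 372) (nat_lit 5) (nat_lit 384) (nat_lit 5) (nat_lit 385) (nat_lit 5) (nat_lit 359) (nat_lit 340) (nat_lit 201)) (XT.lf (nat_lit 0) (nat_lit 9469241939) (nat_lit 988) (nat_lit 3029045380) (nat_lit 76) (nat_lit 5807664818) (nat_lit 372) (nat_lit 5) (nat_lit 385) (nat_lit 5) (nat_lit 373) (nat_lit 5) (nat_lit 360) (nat_lit 340) (nat_lit 200))))) (XT.nd (nat_lit 234) (nat_lit 1672) (nat_lit 0) (XT.nd (nat_lit 78) (nat_lit 1672) (nat_lit 0) (XT.lf (nat_lit 0) (nat_lit 11485347364) (nat_lit 836) (nat_lit 901355053) (nat_lit 912) (nat_lit 6217914603) (nat_lit 361) (nat_lit 5) (nat_lit 372) (nat_lit 5) (nat_lit 373) (nat_lit 5) (nat_lit 361) (nat_lit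 340) (nat_lit 199)) (XT.nd (nat_lit 78) (nat_lit 836) (nat_lit 0) (XT.lf (nat_lit 0) (nat_lit 7580610604) (nat_lit 836) (nat_lit 7940271489) (nat_lit 912) (nat_lit 3388779876) (nat_lit 350) (nat_lit 5) (nat_lit 361) (nat_lit 5) (nat_lit 362) (nat_lit 5) (nat_lit 362) (nat_lit 340) (nat_lit 198)) (XT.lf (nat_lit 0) (nat_lit 3599396010) (nat_lit 836) (nat_lit 15241226348) (nat_lit 912) (nat_lit 381409113) (nat_lit 339) (nat_lit 5) (nat_lit 350) (nat_lit 5) (nat_lit 351) (nat_lit 5) (nat_lit 363) (nat_lit 340) (nat_lit 197)))) (XT.nd (nat_lit 78) (nat_lit 1596) (nat_lit 0) (XT.lf (nat_lit 0) (nat_lit 2799034636) (nat_lit 912) (nat_lit 494513462) (nat_lit 76) (nat_lit 16247505476) (nat_lit 338) (nat_lit 5) (nat_lit 350) (nat_lit 5) (nat_lit 339) (nat_lit 5) (nat_lit 364) (nat_lit 340) (nat_lit 196)) (XT.nd (nat_lit 78) (nat_lit 760) (nat_lit 0) (XT.lf (nat_lit 0) (nat_lit 6216540554) (nat_lit 912) (nat_lit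 4653276696) (nat_lit 76) (nat_lit 8996845666) (nat_lit 327) (nat_lit 5) (nat_lit 339) (nat_lit 5) (nat_lit 328) (nat_lit 5) (nat_lit 365) (nat_lit 340) (nat_lit 195)) (XT.lf (nat_lit 0) (nat_lit 9833784709) (nat_lit 836) (nat_lit 8897826202) (nat_lit 76) (nat_lit 1468488873) (nat_lit 317) (nat_lit 5) (nat_lit 328) (nat_lit 5) (nat_lit 318) (nat_lit 5) (nat_lit 366) (nat_lit 340) (nat_lit 194))))))) (XT.nd (nat_lit 780) (nat_lit 2888) (nat_lit 0) (XT.nd (nat_lit 390) (nat_lit 2660) (nat_lit 0) (XT.nd (nat_lit 156) (nat_lit 1520) (nat_lit 0) (XT.nd (nat_lit 78) (nat_lit 684) (nat_lit 0) (XT.lf (nat_lit 0) (nat_lit 7268160035) (nat_lit 760) (nat_lit 6431969188) (nat_lit 836) (nat_lit 6840602280) (nat_lit 307) (nat_lit 5) (nat_lit 317) (nat_lit 5) (nat_lit 318) (nat_lit 5) (nat_lit 367) (nat_lit 340) (nat_lit 193)) (XT.lf (nat_lit 0) (nat_lit 3139257100) (nat_lit 684) (nat_lit 14653980752) (nat_lit 760)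 (nat_lit 3096132154) (nat_lit 298) (nat_lit 5) (nat_lit 307) (nat_lit 5) (nat_lit 308) (nat_lit 5) (nat_lit 368) (nat_lit 340) (nat_lit 192))) (XT.nd (nat_lit 78) (nat_lit 1444) (nat_lit 0) (XT.lf (nat_lit 0) (nat_lit 873616686) (nat_lit 760) (nat_lit 1081623248) (nat_lit 76) (nat_lit 19290673680) (nat_lit 297) (nat_lit 5) (nat_lit 307) (nat_lit 5) (nat_lit 298) (nat_lit 5) (nat_lit 369) (nat_lit 340) (nat_lit 191)) (XT.nd (nat_lit 78) (nat_lit 684) (nat_lit 0) (XT.lf (nat_lit 0) (nat_lit 5088999323) (nat_lit 836) (nat_lit 5415504400) (nat_lit 76) (nat_lit 11104871444) (nat_lit 287) (nat_lit 5) (nat_lit 298) (nat_lit 5) (nat_lit 288) (nat_lit 5) (nat_lit 370) (nat_lit 340) (nat_lit 190)) (XT.lf (nat_lit 0) (nat_lit 9537213972) (nat_lit 760) (nat_lit 9845146505) (nat_lit 76) (nat_lit 2599255644) (nat_lit 278) (nat_lit 5) (nat_lit 288) (nat_lit 5) (nat_lit 279) (nat_lit 5) (nat_lit 371) (nat_lit 340)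 (nat_lit 189))))) (XT.nd (nat_lit 156) (nat_lit 1368) (nat_lit 0) (XT.nd (nat_lit 78) (nat_lit 608) (nat_lit 0) (XT.lf (nat_lit 0) (nat_lit 7947363818) (nat_lit 684) (nat_lit 6320419625) (nat_lit 760) (nat_lit 8094265573) (nat_lit 269) (nat_lit 5) (nat_lit 278) (nat_lit 5) (nat_lit 279) (nat_lit 5) (nat_lit 372) (nat_lit 340) (nat_lit 188)) (XT.lf (nat_lit 0) (nat_lit 3645686190) (nat_lit 608) (nat_lit 15622051856) (nat_lit 684) (nat_lit 3483610288) (nat_lit 261) (nat_lit 5) (nat_lit 269) (nat_lit 5) (nat_lit 270) (nat_lit 5) (nat_lit 373) (nat_lit 340) (nat_lit 187))) (XT.nd (nat_lit 78) (nat_lit 1292) (nat_lit 0) (XT.lf (nat_lit 0) (nat_lit 1379834219) (nat_lit 684) (nat_lit 767492927) (nat_lit 76) (nat_lit 21002216533) (nat_lit 260) (nat_lit 5) (nat_lit 269) (nat_lit 5) (nat_lit 261) (nat_lit 5) (nat_lit 374) (nat_lit 340) (nat_lit 186)) (XT.nd (nat_lit 78) (nat_lit 608) (nat_lit 0) (XT.lf (nat_lit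 0) (nat_lit 6528965878) (nat_lit 760) (nat_lit 5307084714) (nat_lit 76) (nat_lit 11719434097) (nat_lit 251) (nat_lit 5) (nat_lit 261) (nat_lit 5) (nat_lit 252) (nat_lit 5) (nat_lit 375) (nat_lit 340) (nat_lit 185)) (XT.lf (nat_lit 0) (nat_lit 11947812819) (nat_lit 684) (nat_lit 9954631681) (nat_lit 76) (nat_lit 2068857108) (nat_lit 243) (nat_lit 5) (nat_lit 252) (nat_lit 5) (nat_lit 244) (nat_lit 5) (nat_lit 376) (nat_lit 340) (nat_lit 184)))))) (XT.nd (nat_lit 390) (nat_lit 532) (nat_lit 0) (XT.nd (nat_lit 156) (nat_lit 1216) (nat_lit 0) (XT.nd (nat_lit 78) (nat_lit 532) (nat_lit 0) (XT.lf (nat_lit 0) (nat_lit 9629982392) (nat_lit 608) (nat_lit 8068242974) (nat_lit 684) (nat_lit 6697990103) (nat_lit 235) (nat_lit 5) (nat_lit 243) (nat_lit 5) (nat_lit 244) (nat_lit 5) (nat_lit 377) (nat_lit 340) (nat_lit 183)) (XT.lf (nat_lit 0) (nat_lit 5121640580) (nat_lit 532) (nat_lit 18632095300) (nat_lit 608)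 (nat_lit 1077491519) (nat_lit 228) (nat_lit 5) (nat_lit 235) (nat_lit 5) (nat_lit 236) (nat_lit 5) (nat_lit 378) (nat_lit 340) (nat_lit 182))) (XT.nd (nat_lit 78) (nat_lit 532) (nat_lit 0) (XT.lf (nat_lit 0) (nat_lit 440794696) (nat_lit 608) (nat_lit 4357999355) (nat_lit 684) (nat_lit 20476906751) (nat_lit 219) (nat_lit 5) (nat_lit 227) (nat_lit 5) (nat_lit 228) (nat_lit 5) (nat_lit 379) (nat_lit 340) (nat_lit 181)) (XT.nd (nat_lit 78) (nat_lit 532) (nat_lit 0) (XT.lf (nat_lit 0) (nat_lit 11030009245) (nat_lit 684) (nat_lit 4351356596) (nat_lit 76) (nat_lit 10348136707) (nat_lit 219) (nat_lit 5) (nat_lit 228) (nat_lit 5) (nat_lit 220) (nat_lit 5) (nat_lit 380) (nat_lit 340) (nat_lit 180)) (XT.lf (nat_lit 0) (nat_lit 16929154714) (nat_lit 532) (nat_lit 649901701) (nat_lit 608) (nat_lit 8615246142) (nat_lit 212) (nat_lit 5) (nat_lit 219) (nat_lit 5) (nat_lit 220) (nat_lit 5) (nat_lit 381) (nat_lit 340)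 (nat_lit 179))))) (XT.nd (nat_lit 43836) (nat_lit 0) (nat_lit 17556) (XT.nd (nat_lit 43680) (nat_lit 0) (nat_lit 17480) (XT.lf (nat_lit 0) (nat_lit 12291492505) (nat_lit 532) (nat_lit 12228857472) (nat_lit 608) (nat_lit 2148783151) (nat_lit 205) (nat_lit 5) (nat_lit 212) (nat_lit 5) (nat_lit 213) (nat_lit 5) (nat_lit 382) (nat_lit 340) (nat_lit 178)) (XT.nd (nat_lit 78) (nat_lit 0) (nat_lit 0) (XT.lf (nat_lit 0) (nat_lit 5196743614) (nat_lit 1748) (nat_lit 881796281) (nat_lit 1748) (nat_lit 881796281) (nat_lit 435) (nat_lit 3) (nat_lit 458) (nat_lit 3) (nat_lit 458) (nat_lit 5) (nat_lit 341) (nat_lit 341) (nat_lit 218)) (XT.lf (nat_lit 76) (nat_lit 8337459078) (nat_lit 0) (nat_lit 2772642624) (nat_lit 1748) (nat_lit 3007983732) (nat_lit 436) (nat_lit 5) (nat_lit 435) (nat_lit 3) (nat_lit 458) (nat_lit 5) (nat_lit 342) (nat_lit 341) (nat_lit 217)))) (XT.nd (nat_lit 78) (nat_lit 0) (nat_lit 76) (XT.lf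 (nat_lit 76) (nat_lit 4447305910) (nat_lit 0) (nat_lit 7466795101) (nat_lit 1748) (nat_lit 2406009301) (nat_lit 437) (nat_lit 5) (nat_lit 436) (nat_lit 5) (nat_lit 459) (nat_lit 5) (nat_lit 343) (nat_lit 341) (nat_lit 216)) (XT.nd (nat_lit 78) (nat_lit 0) (nat_lit 0) (XT.lf (nat_lit 76) (nat_lit 496356680) (nat_lit 0) (nat_lit 12302028216) (nat_lit 1748) (nat_lit 1728694673) (nat_lit 438) (nat_lit 5) (nat_lit 437) (nat_lit 5) (nat_lit 460) (nat_lit 5) (nat_lit 344) (nat_lit 341) (nat_lit 215)) (XT.lf (nat_lit 76) (nat_lit 11250351071) (nat_lit 0) (nat_lit 2556632414) (nat_lit 1748) (nat_lit 931325418) (nat_lit 438) (nat_lit 5) (nat_lit 437) (nat_lit 5) (nat_lit 460) (nat_lit 5) (nat_lit 345) (nat_lit 341) (nat_lit 214))))))))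
noncomputable def xc112 : XT := (XT.nd (nat_lit 1560) (nat_lit 8740) (nat_lit 0) (XT.nd (nat_lit 780) (nat_lit 6764) (nat_lit 0) (XT.nd (nat_lit 390) (nat_lit 0) (nat_lit 152) (XT.nd (nat_lit 156) (nat_lit 0) (nat_lit 0) (XT.nd (nat_lit 78) (nat_lit 1672) (nat_lit 0) (XT.lf (nat_lit 76) (nat_lit 7408794821) (nat_lit 0) (nat_lit 7515595415) (nat_lit 1748) (nat_lit 29920405) (nat_lit 439) (nat_lit 5) (nat_lit 438) (nat_lit 5) (nat_lit 461) (nat_lit 5) (nat_lit 346) (nat_lit 341) (nat_lit 213)) (XT.lf (nat_lit 0) (nat_lit 949441993) (nat_lit 1748) (nat_lit 11676593717) (nat_lit 1824) (nat_lit 2549392266) (nat_lit 416) (nat_lit 5) (nat_lit 439) (nat_lit 5) (nat_lit 440) (nat_lit 5) (nat_lit 347) (nat_lit 341) (nat_lit 212))) (XT.nd (nat_lit 78) (nat_lit 0) (nat_lit 76) (XT.lf (nat_lit 0) (nat_lit 2042211456) (nat_lit 1748) (nat_lit 486330254) (nat_lit 1824) (nat_lit 12872950542) (nat_lit 416) (nat_lit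 5) (nat_lit 439) (nat_lit 5) (nat_lit 440) (nat_lit 5) (nat_lit 348) (nat_lit 341) (nat_lit 211)) (XT.nd (nat_lit 78) (nat_lit 0) (nat_lit 76) (XT.lf (nat_lit 0) (nat_lit 3275155126) (nat_lit 1748) (nat_lit 4509498484) (nat_lit 1824) (nat_lit 7847542882) (nat_lit 417) (nat_lit 5) (nat_lit 440) (nat_lit 5) (nat_lit 441) (nat_lit 5) (nat_lit 349) (nat_lit 341) (nat_lit 210)) (XT.lf (nat_lit 0) (nat_lit 4613724618) (nat_lit 1748) (nat_lit 8601796546) (nat_lit 1824) (nat_lit 2652933631) (nat_lit 418) (nat_lit 5) (nat_lit 441) (nat_lit 5) (nat_lit 442) (nat_lit 5) (nat_lit 350) (nat_lit 341) (nat_lit 209))))) (XT.nd (nat_lit 156) (nat_lit 0) (nat_lit 152) (XT.nd (nat_lit 78) (nat_lit 0) (nat_lit 76) (XT.lf (nat_lit 76) (nat_lit 3326785362) (nat_lit 0) (nat_lit 2754184986) (nat_lit 1824) (nat_lit 10029065636) (nat_lit 419) (nat_lit 5) (nat_lit 418) (nat_lit 5) (nat_lit 442) (nat_lit 5) (nat_lit 351) (nat_lit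 341) (nat_lit 208)) (XT.lf (nat_lit 0) (nat_lit 7687505883) (nat_lit 1748) (nat_lit 690578430) (nat_lit 1824) (nat_lit 7978880205) (nat_lit 419) (nat_lit 5) (nat_lit 442) (nat_lit 5) (nat_lit 443) (nat_lit 5) (nat_lit 352) (nat_lit 341) (nat_lit 207))) (XT.nd (nat_lit 78) (nat_lit 0) (nat_lit 0) (XT.lf (nat_lit 0) (nat_lit 9438861053) (nat_lit 1748) (nat_lit 4734360595) (nat_lit 1824) (nat_lit 2436151993) (nat_lit 420) (nat_lit 5) (nat_lit 443) (nat_lit 5) (nat_lit 444) (nat_lit 5) (nat_lit 353) (nat_lit 341) (nat_lit 206)) (XT.nd (nat_lit 78) (nat_lit 0) (nat_lit 76) (XT.lf (nat_lit 76) (nat_lit 7995369846) (nat_lit 0) (nat_lit 3345399744) (nat_lit 1824) (nat_lit 5526630245) (nat_lit 421) (nat_lit 5) (nat_lit 420) (nat_lit 5) (nat_lit 444) (nat_lit 5) (nat_lit 354) (nat_lit 341) (nat_lit 205)) (XT.lf (nat_lit 76) (nat_lit 4029896539) (nat_lit 0) (nat_lit 9364726448) (nat_lit 1824) (nat_lit 3736650980)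 (nat_lit 422) (nat_lit 5) (nat_lit 421) (nat_lit 5) (nat_lit 445) (nat_lit 5) (nat_lit 355) (nat_lit 341) (nat_lit 204)))))) (XT.nd (nat_lit 390) (nat_lit 3420) (nat_lit 0) (XT.nd (nat_lit 156) (nat_lit 1976) (nat_lit 0) (XT.nd (nat_lit 78) (nat_lit 1824) (nat_lit 0) (XT.lf (nat_lit 0) (nat_lit 15590387190) (nat_lit 1748) (nat_lit 7057841) (nat_lit 1824) (nat_lit 1804018151) (nat_lit 422) (nat_lit 5) (nat_lit 445) (nat_lit 5) (nat_lit 446) (nat_lit 5) (nat_lit 356) (nat_lit 341) (nat_lit 203)) (XT.lf (nat_lit 0) (nat_lit 308242515) (nat_lit 1824) (nat_lit 4094525055) (nat_lit 1900) (nat_lit 13274207953) (nat_lit 398) (nat_lit 5) (nat_lit 422) (nat_lit 5) (nat_lit 423) (nat_lit 5) (nat_lit 357) (nat_lit 341) (nat_lit 202))) (XT.nd (nat_lit 78) (nat_lit 2052) (nat_lit 0) (XT.lf (nat_lit 0) (nat_lit 2563379587) (nat_lit 1824) (nat_lit 8283018725) (nat_lit 76) (nat_lit 7112183012) (nat_lit 399) (nat_lit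 5) (nat_lit 423) (nat_lit 5) (nat_lit 400) (nat_lit 5) (nat_lit 358) (nat_lit 341) (nat_lit 201)) (XT.nd (nat_lit 78) (nat_lit 912) (nat_lit 0) (XT.lf (nat_lit 0) (nat_lit 4972379107) (nat_lit 1216) (nat_lit 12551119140) (nat_lit 76) (nat_lit 723417157) (nat_lit 384) (nat_lit 5) (nat_lit 400) (nat_lit 5) (nat_lit 385) (nat_lit 5) (nat_lit 359) (nat_lit 341) (nat_lit 200)) (XT.lf (nat_lit 0) (nat_lit 1601382389) (nat_lit 912) (nat_lit 5979077635) (nat_lit 988) (nat_lit 10960907400) (nat_lit 372) (nat_lit 5) (nat_lit 384) (nat_lit 5) (nat_lit 385) (nat_lit 5) (nat_lit 360) (nat_lit 341) (nat_lit 199))))) (XT.nd (nat_lit 156) (nat_lit 2584) (nat_lit 0) (XT.nd (nat_lit 78) (nat_lit 836) (nat_lit 0) (XT.lf (nat_lit 0) (nat_lit 10378462289) (nat_lit 988) (nat_lit 2543004012) (nat_lit 76) (nat_lit 5920957154) (nat_lit 372) (nat_lit 5) (nat_lit 385) (nat_lit 5) (nat_lit 373) (nat_lit 5) (nat_lit 361) (nat_lit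 341) (nat_lit 198)) (XT.lf (nat_lit 0) (nat_lit 12397460791) (nat_lit 836) (nat_lit 971462670) (nat_lit 912) (nat_lit 5781421238) (nat_lit 361) (nat_lit 5) (nat_lit 372) (nat_lit 5) (nat_lit 373) (nat_lit 5) (nat_lit 362) (nat_lit 341) (nat_lit 197))) (XT.nd (nat_lit 78) (nat_lit 1748) (nat_lit 0) (XT.lf (nat_lit 0) (nat_lit 8378858618) (nat_lit 836) (nat_lit 8203919591) (nat_lit 912) (nat_lit 2882055573) (nat_lit 350) (nat_lit 5) (nat_lit 361) (nat_lit 5) (nat_lit 362) (nat_lit 5) (nat_lit 363) (nat_lit 341) (nat_lit 196)) (XT.nd (nat_lit 78) (nat_lit 836) (nat_lit 0) (XT.lf (nat_lit 0) (nat_lit 198809660) (nat_lit 912) (nat_lit 15507133507) (nat_lit 76) (nat_lit 4080886713) (nat_lit 338) (nat_lit 5) (nat_lit 350) (nat_lit 5) (nat_lit 339) (nat_lit 5) (nat_lit 364) (nat_lit 341) (nat_lit 195)) (XT.lf (nat_lit 0) (nat_lit 56076260) (nat_lit 836) (nat_lit 3396719451) (nat_lit 912) (nat_lit 16662915636)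 (nat_lit 327) (nat_lit 5) (nat_lit 338) (nat_lit 5) (nat_lit 339) (nat_lit 5) (nat_lit 365) (nat_lit 341) (nat_lit 194))))))) (XT.nd (nat_lit 780) (nat_lit 3648) (nat_lit 0) (XT.nd (nat_lit 390) (nat_lit 2812) (nat_lit 0) (XT.nd (nat_lit 156) (nat_lit 1520) (nat_lit 0) (XT.nd (nat_lit 78) (nat_lit 760) (nat_lit 0) (XT.lf (nat_lit 0) (nat_lit 6959478390) (nat_lit 912) (nat_lit 4226038972) (nat_lit 76) (nat_lit 9265843762) (nat_lit 327) (nat_lit 5) (nat_lit 339) (nat_lit 5) (nat_lit 328) (nat_lit 5) (nat_lit 366) (nat_lit 341) (nat_lit 193)) (XT.lf (nat_lit 0) (nat_lit 10672742899) (nat_lit 836) (nat_lit 8596165787) (nat_lit 76) (nat_lit 1526147386) (nat_lit 317) (nat_lit 5) (nat_lit 328) (nat_lit 5) (nat_lit 318) (nat_lit 5) (nat_lit 367) (nat_lit 341) (nat_lit 192))) (XT.nd (nat_lit 78) (nat_lit 760) (nat_lit 0) (XT.lf (nat_lit 0) (nat_lit 8045575255) (nat_lit 760) (nat_lit 6597291249) (nat_lit 836)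 (nat_lit 6503289351) (nat_lit 307) (nat_lit 5) (nat_lit 317) (nat_lit 5) (nat_lit 318) (nat_lit 5) (nat_lit 368) (nat_lit 341) (nat_lit 191)) (XT.nd (nat_lit 78) (nat_lit 76) (nat_lit 0) (XT.lf (nat_lit 0) (nat_lit 3794176000) (nat_lit 684) (nat_lit 15052919926) (nat_lit 760) (nat_lit 2658395781) (nat_lit 298) (nat_lit 5) (nat_lit 307) (nat_lit 5) (nat_lit 308) (nat_lit 5) (nat_lit 369) (nat_lit 341) (nat_lit 190)) (XT.lf (nat_lit 0) (nat_lit 1408234077) (nat_lit 760) (nat_lit 562755978) (nat_lit 76) (nat_lit 19901982230) (nat_lit 297) (nat_lit 5) (nat_lit 307) (nat_lit 5) (nat_lit 298) (nat_lit 5) (nat_lit 370) (nat_lit 341) (nat_lit 189))))) (XT.nd (nat_lit 156) (nat_lit 1368) (nat_lit 0) (XT.nd (nat_lit 78) (nat_lit 684) (nat_lit 0) (XT.lf (nat_lit 0) (nat_lit 5739085390) (nat_lit 836) (nat_lit 5025803176) (nat_lit 76) (nat_lit 11482673358) (nat_lit 287) (nat_lit 5) (nat_lit 298) (nat_lit 5) (nat_lit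 288) (nat_lit 5) (nat_lit 371) (nat_lit 341) (nat_lit 188)) (XT.lf (nat_lit 0) (nat_lit 10310153977) (nat_lit 760) (nat_lit 9587790245) (nat_lit 76) (nat_lit 2733241992) (nat_lit 278) (nat_lit 5) (nat_lit 288) (nat_lit 5) (nat_lit 279) (nat_lit 5) (nat_lit 372) (nat_lit 341) (nat_lit 187))) (XT.nd (nat_lit 78) (nat_lit 684) (nat_lit 0) (XT.lf (nat_lit 0) (nat_lit 8729528314) (nat_lit 684) (nat_lit 6442463235) (nat_lit 760) (nat_lit 7851257661) (nat_lit 269) (nat_lit 5) (nat_lit 278) (nat_lit 5) (nat_lit 279) (nat_lit 5) (nat_lit 373) (nat_lit 341) (nat_lit 186)) (XT.nd (nat_lit 78) (nat_lit 76) (nat_lit 0) (XT.lf (nat_lit 0) (nat_lit 4299051712) (nat_lit 608) (nat_lit 16012981814) (nat_lit 684) (nat_lit 3112396218) (nat_lit 261) (nat_lit 5) (nat_lit 269) (nat_lit 5) (nat_lit 270) (nat_lit 5) (nat_lit 374) (nat_lit 341) (nat_lit 185)) (XT.lf (nat_lit 0) (nat_lit 1877038172) (nat_lit 684) (nat_lit 256182501)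 (nat_lit 76) (nat_lit 21701565810) (nat_lit 260) (nat_lit 5) (nat_lit 269) (nat_lit 5) (nat_lit 261) (nat_lit 5) (nat_lit 375) (nat_lit 341) (nat_lit 184)))))) (XT.nd (nat_lit 390) (nat_lit 532) (nat_lit 0) (XT.nd (nat_lit 156) (nat_lit 1824) (nat_lit 0) (XT.nd (nat_lit 78) (nat_lit 608) (nat_lit 0) (XT.lf (nat_lit 0) (nat_lit 7171298363) (nat_lit 760) (nat_lit 4932106054) (nat_lit 76) (nat_lit 12149691921) (nat_lit 251) (nat_lit 5) (nat_lit 261) (nat_lit 5) (nat_lit 252) (nat_lit 5) (nat_lit 376) (nat_lit 341) (nat_lit 183)) (XT.lf (nat_lit 0) (nat_lit 12743694569) (nat_lit 684) (nat_lit 9719464186) (nat_lit 76) (nat_lit 2218412936) (nat_lit 243) (nat_lit 5) (nat_lit 252) (nat_lit 5) (nat_lit 244) (nat_lit 5) (nat_lit 377) (nat_lit 341) (nat_lit 182))) (XT.nd (nat_lit 78) (nat_lit 1216) (nat_lit 0) (XT.lf (nat_lit 0) (nat_lit 10444027934) (nat_lit 608) (nat_lit 8213259969) (nat_lit 684) (nat_lit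 6462135191) (nat_lit 235) (nat_lit 5) (nat_lit 243) (nat_lit 5) (nat_lit 244) (nat_lit 5) (nat_lit 378) (nat_lit 341) (nat_lit 181)) (XT.nd (nat_lit 78) (nat_lit 684) (nat_lit 0) (XT.lf (nat_lit 0) (nat_lit 5799834268) (nat_lit 532) (nat_lit 19086177399) (nat_lit 608) (nat_lit 681646149) (nat_lit 228) (nat_lit 5) (nat_lit 235) (nat_lit 5) (nat_lit 236) (nat_lit 5) (nat_lit 379) (nat_lit 341) (nat_lit 180)) (XT.lf (nat_lit 0) (nat_lit 975686432) (nat_lit 608) (nat_lit 4380705626) (nat_lit 684) (nat_lit 20669199402) (nat_lit 219) (nat_lit 5) (nat_lit 227) (nat_lit 5) (nat_lit 228) (nat_lit 5) (nat_lit 380) (nat_lit 341) (nat_lit 179))))) (XT.nd (nat_lit 43914) (nat_lit 0) (nat_lit 16948) (XT.nd (nat_lit 78) (nat_lit 532) (nat_lit 0) (XT.lf (nat_lit 0) (nat_lit 11763177108) (nat_lit 684) (nat_lit 3967968328) (nat_lit 76) (nat_lit 10762092291) (nat_lit 219) (nat_lit 5) (nat_lit 228) (nat_lit 5) (nat_lit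 220) (nat_lit 5) (nat_lit 381) (nat_lit 341) (nat_lit 178)) (XT.nd (nat_lit 43758) (nat_lit 0) (nat_lit 16948) (XT.lf (nat_lit 0) (nat_lit 17942620434) (nat_lit 532) (nat_lit 557641360) (nat_lit 608) (nat_lit 8471891667) (nat_lit 212) (nat_lit 5) (nat_lit 219) (nat_lit 5) (nat_lit 220) (nat_lit 5) (nat_lit 382) (nat_lit 341) (nat_lit 177)) (XT.lf (nat_lit 0) (nat_lit 5854356218) (nat_lit 1748) (nat_lit 652287416) (nat_lit 1748) (nat_lit 652287416) (nat_lit 435) (nat_lit 3) (nat_lit 458) (nat_lit 3) (nat_lit 458) (nat_lit 5) (nat_lit 342) (nat_lit 342) (nat_lit 216)))) (XT.nd (nat_lit 78) (nat_lit 0) (nat_lit 76) (XT.lf (nat_lit 76) (nat_lit 9091202973) (nat_lit 0) (nat_lit 3329666365) (nat_lit 1748) (nat_lit 2100857902) (nat_lit 436) (nat_lit 5) (nat_lit 435) (nat_lit 3) (nat_lit 458) (nat_lit 5) (nat_lit 343) (nat_lit 342) (nat_lit 215)) (XT.nd (nat_lit 78) (nat_lit 0) (nat_lit 76) (XT.lf (nat_lit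 76) (nat_lit 5098779063) (nat_lit 0) (nat_lit 8122116366) (nat_lit 1748) (nat_lit 1509489537) (nat_lit 437) (nat_lit 5) (nat_lit 436) (nat_lit 5) (nat_lit 459) (nat_lit 5) (nat_lit 344) (nat_lit 342) (nat_lit 214)) (XT.lf (nat_lit 76) (nat_lit 1042666583) (nat_lit 0) (nat_lit 13062121146) (nat_lit 1748) (nat_lit 839323913) (nat_lit 438) (nat_lit 5) (nat_lit 437) (nat_lit 5) (nat_lit 460) (nat_lit 5) (nat_lit 345) (nat_lit 342) (nat_lit 213))))))))
noncomputable def xc113 : XT := (XT.nd (nat_lit 1560) (nat_lit 9044) (nat_lit 0) (XT.nd (nat_lit 780) (nat_lit 5852) (nat_lit 0) (XT.nd (nat_lit 390) (nat_lit 0) (nat_lit 228) (XT.nd (nat_lit 156) (nat_lit 0) (nat_lit 76) (XT.nd (nat_lit 78) (nat_lit 1672) (nat_lit 0) (XT.lf (nat_lit 76) (nat_lit 12103802577) (nat_lit 0) (nat_lit 3012974186) (nat_lit 1748) (nat_lit 45448092) (nat_lit 438) (nat_lit 5) (nat_lit 437) (nat_lit 5) (nat_lit 460) (nat_lit 5) (nat_lit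 346) (nat_lit 342) (nat_lit 212)) (XT.lf (nat_lit 0) (nat_lit 846192863) (nat_lit 1748) (nat_lit 7231792564) (nat_lit 1824) (nat_lit 7307120252) (nat_lit 415) (nat_lit 5) (nat_lit 438) (nat_lit 5) (nat_lit 439) (nat_lit 5) (nat_lit 347) (nat_lit 342) (nat_lit 211))) (XT.nd (nat_lit 78) (nat_lit 0) (nat_lit 0) (XT.lf (nat_lit 0) (nat_lit 1830348477) (nat_lit 1748) (nat_lit 11476274566) (nat_lit 1824) (nat_lit 2306722074) (nat_lit 416) (nat_lit 5) (nat_lit 439) (nat_lit 5) (nat_lit 440) (nat_lit 5) (nat_lit 348) (nat_lit 342) (nat_lit 210)) (XT.nd (nat_lit 78) (nat_lit 0) (nat_lit 76) (XT.lf (nat_lit 76) (nat_lit 34106728) (nat_lit 0) (nat_lit 2897187879) (nat_lit 1824) (nat_lit 12915397502) (nat_lit 417) (nat_lit 5) (nat_lit 416) (nat_lit 5) (nat_lit 440) (nat_lit 5) (nat_lit 349) (nat_lit 342) (nat_lit 209)) (XT.lf (nat_lit 0) (nat_lit 4178490530) (nat_lit 1748) (nat_lit 4100634080) (nat_lit 1824)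 (nat_lit 7805655992) (nat_lit 417) (nat_lit 5) (nat_lit 440) (nat_lit 5) (nat_lit 441) (nat_lit 5) (nat_lit 350) (nat_lit 342) (nat_lit 208))))) (XT.nd (nat_lit 156) (nat_lit 0) (nat_lit 76) (XT.nd (nat_lit 78) (nat_lit 0) (nat_lit 0) (XT.lf (nat_lit 0) (nat_lit 5535622035) (nat_lit 1748) (nat_lit 8306933324) (nat_lit 1824) (nat_lit 2486011357) (nat_lit 418) (nat_lit 5) (nat_lit 441) (nat_lit 5) (nat_lit 442) (nat_lit 5) (nat_lit 351) (nat_lit 342) (nat_lit 207)) (XT.lf (nat_lit 76) (nat_lit 3970535618) (nat_lit 0) (nat_lit 3057061210) (nat_lit 1824) (nat_lit 9550192200) (nat_lit 419) (nat_lit 5) (nat_lit 418) (nat_lit 5) (nat_lit 442) (nat_lit 5) (nat_lit 352) (nat_lit 342) (nat_lit 206))) (XT.nd (nat_lit 78) (nat_lit 0) (nat_lit 76) (XT.lf (nat_lit 0) (nat_lit 8658681891) (nat_lit 1748) (nat_lit 166708653) (nat_lit 1824) (nat_lit 8007215498) (nat_lit 419) (nat_lit 5) (nat_lit 442) (nat_lit 5) (nat_lit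 443) (nat_lit 5) (nat_lit 353) (nat_lit 342) (nat_lit 205)) (XT.nd (nat_lit 78) (nat_lit 0) (nat_lit 0) (XT.lf (nat_lit 0) (nat_lit 10443274499) (nat_lit 1748) (nat_lit 4324729206) (nat_lit 1824) (nat_lit 2324977266) (nat_lit 420) (nat_lit 5) (nat_lit 443) (nat_lit 5) (nat_lit 444) (nat_lit 5) (nat_lit 354) (nat_lit 342) (nat_lit 204)) (XT.lf (nat_lit 76) (nat_lit 8777943084) (nat_lit 0) (nat_lit 3606813643) (nat_lit 1824) (nat_lit 4974348145) (nat_lit 421) (nat_lit 5) (nat_lit 420) (nat_lit 5) (nat_lit 444) (nat_lit 5) (nat_lit 355) (nat_lit 342) (nat_lit 203)))))) (XT.nd (nat_lit 390) (nat_lit 3496) (nat_lit 0) (XT.nd (nat_lit 156) (nat_lit 2812) (nat_lit 0) (XT.nd (nat_lit 78) (nat_lit 0) (nat_lit 76) (XT.lf (nat_lit 76) (nat_lit 4699814092) (nat_lit 0) (nat_lit 9782463059) (nat_lit 1824) (nat_lit 3148984088) (nat_lit 422) (nat_lit 5) (nat_lit 421) (nat_lit 5) (nat_lit 445) (nat_lit 5) (nat_lit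 356) (nat_lit 342) (nat_lit 202)) (XT.lf (nat_lit 76) (nat_lit 547345627) (nat_lit 0) (nat_lit 16179284881) (nat_lit 1824) (nat_lit 1183278131) (nat_lit 423) (nat_lit 5) (nat_lit 422) (nat_lit 5) (nat_lit 446) (nat_lit 5) (nat_lit 357) (nat_lit 342) (nat_lit 201))) (XT.nd (nat_lit 78) (nat_lit 1064) (nat_lit 0) (XT.lf (nat_lit 0) (nat_lit 971113115) (nat_lit 1824) (nat_lit 3669902507) (nat_lit 1900) (nat_lit 13552979868) (nat_lit 398) (nat_lit 5) (nat_lit 422) (nat_lit 5) (nat_lit 423) (nat_lit 5) (nat_lit 358) (nat_lit 342) (nat_lit 200)) (XT.nd (nat_lit 78) (nat_lit 1140) (nat_lit 0) (XT.lf (nat_lit 0) (nat_lit 3277717462) (nat_lit 1824) (nat_lit 7979314620) (nat_lit 76) (nat_lit 7227347434) (nat_lit 399) (nat_lit 5) (nat_lit 423) (nat_lit 5) (nat_lit 400) (nat_lit 5) (nat_lit 359) (nat_lit 342) (nat_lit 199)) (XT.lf (nat_lit 0) (nat_lit 5743433936) (nat_lit 1216) (nat_lit 12371250448) (nat_lit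 76) (nat_lit 666996427) (nat_lit 384) (nat_lit 5) (nat_lit 400) (nat_lit 5) (nat_lit 385) (nat_lit 5) (nat_lit 360) (nat_lit 342) (nat_lit 198))))) (XT.nd (nat_lit 156) (nat_lit 2584) (nat_lit 0) (XT.nd (nat_lit 78) (nat_lit 0) (nat_lit 0) (XT.lf (nat_lit 0) (nat_lit 2196799161) (nat_lit 912) (nat_lit 6218398933) (nat_lit 988) (nat_lit 10670065436) (nat_lit 372) (nat_lit 5) (nat_lit 384) (nat_lit 5) (nat_lit 385) (nat_lit 5) (nat_lit 361) (nat_lit 342) (nat_lit 197)) (XT.lf (nat_lit 0) (nat_lit 11279073479) (nat_lit 988) (nat_lit 2075498554) (nat_lit 76) (nat_lit 6041146327) (nat_lit 372) (nat_lit 5) (nat_lit 385) (nat_lit 5) (nat_lit 373) (nat_lit 5) (nat_lit 362) (nat_lit 342) (nat_lit 196))) (XT.nd (nat_lit 78) (nat_lit 1748) (nat_lit 0) (XT.lf (nat_lit 0) (nat_lit 13304357757) (nat_lit 836) (nat_lit 1041201295) (nat_lit 912) (nat_lit 5367597589) (nat_lit 361) (nat_lit 5) (nat_lit 372) (nat_lit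 5) (nat_lit 373) (nat_lit 5) (nat_lit 363) (nat_lit 342) (nat_lit 195)) (XT.nd (nat_lit 78) (nat_lit 912) (nat_lit 0) (XT.lf (nat_lit 0) (nat_lit 9168286113) (nat_lit 836) (nat_lit 8474016778) (nat_lit 912) (nat_lit 2395053484) (nat_lit 350) (nat_lit 5) (nat_lit 361) (nat_lit 5) (nat_lit 362) (nat_lit 5) (nat_lit 364) (nat_lit 342) (nat_lit 194)) (XT.lf (nat_lit 0) (nat_lit 757614681) (nat_lit 912) (nat_lit 15424105108) (nat_lit 76) (nat_lit 4187485326) (nat_lit 338) (nat_lit 5) (nat_lit 350) (nat_lit 5) (nat_lit 339) (nat_lit 5) (nat_lit 365) (nat_lit 342) (nat_lit 193))))))) (XT.nd (nat_lit 780) (nat_lit 3192) (nat_lit 0) (XT.nd (nat_lit 390) (nat_lit 2812) (nat_lit 0) (XT.nd (nat_lit 156) (nat_lit 2204) (nat_lit 0) (XT.nd (nat_lit 78) (nat_lit 0) (nat_lit 0) (XT.lf (nat_lit 0) (nat_lit 597106370) (nat_lit 836) (nat_lit 3499513589) (nat_lit 912) (nat_lit 16611590108) (nat_lit 327) (nat_lit 5) (nat_lit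 338) (nat_lit 5) (nat_lit 339) (nat_lit 5) (nat_lit 366) (nat_lit 342) (nat_lit 192)) (XT.lf (nat_lit 0) (nat_lit 7692762336) (nat_lit 912) (nat_lit 3818522822) (nat_lit 76) (nat_lit 9542963882) (nat_lit 327) (nat_lit 5) (nat_lit 339) (nat_lit 5) (nat_lit 328) (nat_lit 5) (nat_lit 367) (nat_lit 342) (nat_lit 191))) (XT.nd (nat_lit 78) (nat_lit 1444) (nat_lit 0) (XT.lf (nat_lit 0) (nat_lit 11505645186) (nat_lit 836) (nat_lit 8318095250) (nat_lit 76) (nat_lit 1584754737) (nat_lit 317) (nat_lit 5) (nat_lit 328) (nat_lit 5) (nat_lit 318) (nat_lit 5) (nat_lit 368) (nat_lit 342) (nat_lit 190)) (XT.nd (nat_lit 78) (nat_lit 684) (nat_lit 0) (XT.lf (nat_lit 0) (nat_lit 8814202782) (nat_lit 760) (nat_lit 6769159448) (nat_lit 836) (nat_lit 6187000533) (nat_lit 307) (nat_lit 5) (nat_lit 317) (nat_lit 5) (nat_lit 318) (nat_lit 5) (nat_lit 369) (nat_lit 342) (nat_lit 189)) (XT.lf (nat_lit 0) (nat_lit 4436553630)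 (nat_lit 684) (nat_lit 15466162487) (nat_lit 760) (nat_lit 2237987095) (nat_lit 298) (nat_lit 5) (nat_lit 307) (nat_lit 5) (nat_lit 308) (nat_lit 5) (nat_lit 370) (nat_lit 342) (nat_lit 188))))) (XT.nd (nat_lit 156) (nat_lit 1976) (nat_lit 0) (XT.nd (nat_lit 78) (nat_lit 760) (nat_lit 0) (XT.lf (nat_lit 0) (nat_lit 1929705238) (nat_lit 760) (nat_lit 59970481) (nat_lit 76) (nat_lit 20529759332) (nat_lit 297) (nat_lit 5) (nat_lit 307) (nat_lit 5) (nat_lit 298) (nat_lit 5) (nat_lit 371) (nat_lit 342) (nat_lit 187)) (XT.lf (nat_lit 0) (nat_lit 6380120320) (nat_lit 836) (nat_lit 4656107523) (nat_lit 76) (nat_lit 11869245905) (nat_lit 287) (nat_lit 5) (nat_lit 298) (nat_lit 5) (nat_lit 288) (nat_lit 5) (nat_lit 372) (nat_lit 342) (nat_lit 186))) (XT.nd (nat_lit 78) (nat_lit 1292) (nat_lit 0) (XT.lf (nat_lit 0) (nat_lit 11078336516) (nat_lit 760) (nat_lit 9354441150) (nat_lit 76) (nat_lit 2868032804) (nat_lit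 278) (nat_lit 5) (nat_lit 288) (nat_lit 5) (nat_lit 279) (nat_lit 5) (nat_lit 373) (nat_lit 342) (nat_lit 185)) (XT.nd (nat_lit 78) (nat_lit 608) (nat_lit 0) (XT.lf (nat_lit 0) (nat_lit 9503944639) (nat_lit 684) (nat_lit 6572046888) (nat_lit 760) (nat_lit 7628848479) (nat_lit 269) (nat_lit 5) (nat_lit 278) (nat_lit 5) (nat_lit 279) (nat_lit 5) (nat_lit 374) (nat_lit 342) (nat_lit 184)) (XT.lf (nat_lit 0) (nat_lit 4940790666) (nat_lit 608) (nat_lit 16420101783) (nat_lit 684) (nat_lit 2757354137) (nat_lit 261) (nat_lit 5) (nat_lit 269) (nat_lit 5) (nat_lit 270) (nat_lit 5) (nat_lit 375) (nat_lit 342) (nat_lit 183)))))) (XT.nd (nat_lit 390) (nat_lit 684) (nat_lit 0) (XT.nd (nat_lit 156) (nat_lit 1748) (nat_lit 0) (XT.nd (nat_lit 78) (nat_lit 0) (nat_lit 0) (XT.lf (nat_lit 0) (nat_lit 242980949) (nat_lit 684) (nat_lit 2121589590) (nat_lit 760) (nat_lit 22176515094) (nat_lit 251) (nat_lit 5) (nat_lit 260)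 (nat_lit 5) (nat_lit 261) (nat_lit 5) (nat_lit 376) (nat_lit 342) (nat_lit 182)) (XT.lf (nat_lit 0) (nat_lit 7807271991) (nat_lit 760) (nat_lit 4576542795) (nat_lit 76) (nat_lit 12588341225) (nat_lit 251) (nat_lit 5) (nat_lit 261) (nat_lit 5) (nat_lit 252) (nat_lit 5) (nat_lit 377) (nat_lit 342) (nat_lit 181))) (XT.nd (nat_lit 78) (nat_lit 1140) (nat_lit 0) (XT.lf (nat_lit 0) (nat_lit 13538341502) (nat_lit 684) (nat_lit 9507884339) (nat_lit 76) (nat_lit 2367433148) (nat_lit 243) (nat_lit 5) (nat_lit 252) (nat_lit 5) (nat_lit 244) (nat_lit 5) (nat_lit 378) (nat_lit 342) (nat_lit 180)) (XT.nd (nat_lit 78) (nat_lit 532) (nat_lit 0) (XT.lf (nat_lit 0) (nat_lit 11252349310) (nat_lit 608) (nat_lit 8368197409) (nat_lit 684) (nat_lit 6244278429) (nat_lit 235) (nat_lit 5) (nat_lit 243) (nat_lit 5) (nat_lit 244) (nat_lit 5) (nat_lit 379) (nat_lit 342) (nat_lit 179)) (XT.lf (nat_lit 0) (nat_lit 6468262769) (nat_lit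 532) (nat_lit 19559902545) (nat_lit 608) (nat_lit 298504135) (nat_lit 228) (nat_lit 5) (nat_lit 235) (nat_lit 5) (nat_lit 236) (nat_lit 5) (nat_lit 380) (nat_lit 342) (nat_lit 178))))) (XT.nd (nat_lit 43992) (nat_lit 0) (nat_lit 14820) (XT.nd (nat_lit 78) (nat_lit 0) (nat_lit 0) (XT.lf (nat_lit 0) (nat_lit 1496679049) (nat_lit 608) (nat_lit 4410294662) (nat_lit 684) (nat_lit 20891486194) (nat_lit 219) (nat_lit 5) (nat_lit 227) (nat_lit 5) (nat_lit 228) (nat_lit 5) (nat_lit 381) (nat_lit 342) (nat_lit 177)) (XT.nd (nat_lit 43836) (nat_lit 0) (nat_lit 16416) (XT.lf (nat_lit 0) (nat_lit 12495248201) (nat_lit 684) (nat_lit 3602580038) (nat_lit 76) (nat_lit 11182524561) (nat_lit 219) (nat_lit 5) (nat_lit 228) (nat_lit 5) (nat_lit 220) (nat_lit 5) (nat_lit 382) (nat_lit 342) (nat_lit 176)) (XT.lf (nat_lit 0) (nat_lit 6502896977) (nat_lit 1748) (nat_lit 430586595) (nat_lit 1748) (nat_lit 430586595) (nat_lit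 435) (nat_lit 3) (nat_lit 458) (nat_lit 3) (nat_lit 458) (nat_lit 5) (nat_lit 343) (nat_lit 343) (nat_lit 214)))) (XT.nd (nat_lit 78) (nat_lit 1596) (nat_lit 0) (XT.lf (nat_lit 76) (nat_lit 9838649330) (nat_lit 0) (nat_lit 3876200207) (nat_lit 1748) (nat_lit 1223771149) (nat_lit 436) (nat_lit 5) (nat_lit 435) (nat_lit 3) (nat_lit 458) (nat_lit 5) (nat_lit 344) (nat_lit 343) (nat_lit 213)) (XT.nd (nat_lit 78) (nat_lit 1672) (nat_lit 0) (XT.lf (nat_lit 76) (nat_lit 5740057993) (nat_lit 0) (nat_lit 8772337885) (nat_lit 1748) (nat_lit 641681525) (nat_lit 437) (nat_lit 5) (nat_lit 436) (nat_lit 5) (nat_lit 459) (nat_lit 5) (nat_lit 345) (nat_lit 343) (nat_lit 212)) (XT.lf (nat_lit 0) (nat_lit 22399745) (nat_lit 1748) (nat_lit 13800019963) (nat_lit 1824) (nat_lit 1552310087) (nat_lit 414) (nat_lit 5) (nat_lit 437) (nat_lit 5) (nat_lit 438) (nat_lit 5) (nat_lit 346) (nat_lit 343) (nat_lit 211))))))))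
noncomputable def xc114 : XT := (XT.nd (nat_lit 1560) (nat_lit 8436) (nat_lit 0) (XT.nd (nat_lit 780) (nat_lit 5776) (nat_lit 0) (XT.nd (nat_lit 390) (nat_lit 0) (nat_lit 304) (XT.nd (nat_lit 156) (nat_lit 0) (nat_lit 152) (XT.nd (nat_lit 78) (nat_lit 0) (nat_lit 76) (XT.lf (nat_lit 0) (nat_lit 803865760) (nat_lit 1748) (nat_lit 2651953038) (nat_lit 1824) (nat_lit 12143980381) (nat_lit 414) (nat_lit 5) (nat_lit 437) (nat_lit 5) (nat_lit 438) (nat_lit 5) (nat_lit 347) (nat_lit 343) (nat_lit 210)) (XT.lf (nat_lit 0) (nat_lit 1697864535) (nat_lit 1748) (nat_lit 6939849518) (nat_lit 1824) (nat_lit 7192130503) (nat_lit 415) (nat_lit 5) (nat_lit 438) (nat_lit 5) (nat_lit 439) (nat_lit 5) (nat_lit 348) (nat_lit 343) (nat_lit 209))) (XT.nd (nat_lit 78) (nat_lit 0) (nat_lit 0) (XT.lf (nat_lit 0) (nat_lit 2688749576) (nat_lit 1748) (nat_lit 11301553507) (nat_lit 1824) (nat_lit 2075092405) (nat_lit 416) (nat_lit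 5) (nat_lit 439) (nat_lit 5) (nat_lit 440) (nat_lit 5) (nat_lit 349) (nat_lit 343) (nat_lit 208)) (XT.nd (nat_lit 78) (nat_lit 0) (nat_lit 76) (XT.lf (nat_lit 76) (nat_lit 545718917) (nat_lit 0) (nat_lit 3256917615) (nat_lit 1824) (nat_lit 12503516269) (nat_lit 417) (nat_lit 5) (nat_lit 416) (nat_lit 5) (nat_lit 440) (nat_lit 5) (nat_lit 350) (nat_lit 343) (nat_lit 207)) (XT.lf (nat_lit 0) (nat_lit 5062711068) (nat_lit 1748) (nat_lit 3710740143) (nat_lit 1824) (nat_lit 7778431406) (nat_lit 417) (nat_lit 5) (nat_lit 440) (nat_lit 5) (nat_lit 441) (nat_lit 5) (nat_lit 351) (nat_lit 343) (nat_lit 206))))) (XT.nd (nat_lit 156) (nat_lit 0) (nat_lit 76) (XT.nd (nat_lit 78) (nat_lit 0) (nat_lit 0) (XT.lf (nat_lit 0) (nat_lit 6440201092) (nat_lit 1748) (nat_lit 8034963909) (nat_lit 1824) (nat_lit 2328232113) (nat_lit 418) (nat_lit 5) (nat_lit 441) (nat_lit 5) (nat_lit 442) (nat_lit 5) (nat_lit 352) (nat_lit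 343) (nat_lit 205)) (XT.lf (nat_lit 76) (nat_lit 4602373616) (nat_lit 0) (nat_lit 3356380431) (nat_lit 1824) (nat_lit 9101713138) (nat_lit 419) (nat_lit 5) (nat_lit 418) (nat_lit 5) (nat_lit 442) (nat_lit 5) (nat_lit 353) (nat_lit 343) (nat_lit 204))) (XT.nd (nat_lit 78) (nat_lit 0) (nat_lit 76) (XT.lf (nat_lit 76) (nat_lit 346155579) (nat_lit 0) (nat_lit 9272574424) (nat_lit 1824) (nat_lit 7704606789) (nat_lit 420) (nat_lit 5) (nat_lit 419) (nat_lit 5) (nat_lit 443) (nat_lit 5) (nat_lit 354) (nat_lit 343) (nat_lit 203)) (XT.nd (nat_lit 78) (nat_lit 0) (nat_lit 0) (XT.lf (nat_lit 0) (nat_lit 11436417784) (nat_lit 1748) (nat_lit 3934476542) (nat_lit 1824) (nat_lit 2221044534) (nat_lit 420) (nat_lit 5) (nat_lit 443) (nat_lit 5) (nat_lit 444) (nat_lit 5) (nat_lit 355) (nat_lit 343) (nat_lit 202)) (XT.lf (nat_lit 76) (nat_lit 9552839622) (nat_lit 0) (nat_lit 3866824920) (nat_lit 1824) (nat_lit 4446718369)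 (nat_lit 421) (nat_lit 5) (nat_lit 420) (nat_lit 5) (nat_lit 444) (nat_lit 5) (nat_lit 356) (nat_lit 343) (nat_lit 201)))))) (XT.nd (nat_lit 390) (nat_lit 3496) (nat_lit 0) (XT.nd (nat_lit 156) (nat_lit 2812) (nat_lit 0) (XT.nd (nat_lit 78) (nat_lit 0) (nat_lit 76) (XT.lf (nat_lit 76) (nat_lit 5358313140) (nat_lit 0) (nat_lit 10204879186) (nat_lit 1824) (nat_lit 2583856644) (nat_lit 422) (nat_lit 5) (nat_lit 421) (nat_lit 5) (nat_lit 445) (nat_lit 5) (nat_lit 357) (nat_lit 343) (nat_lit 200)) (XT.lf (nat_lit 76) (nat_lit 1086635080) (nat_lit 0) (nat_lit 16771994672) (nat_lit 1824) (nat_lit 575757412) (nat_lit 423) (nat_lit 5) (nat_lit 422) (nat_lit 5) (nat_lit 446) (nat_lit 5) (nat_lit 358) (nat_lit 343) (nat_lit 199))) (XT.nd (nat_lit 78) (nat_lit 1064) (nat_lit 0) (XT.lf (nat_lit 0) (nat_lit 1616349181) (nat_lit 1824) (nat_lit 3263967629) (nat_lit 1900) (nat_lit 13846972108) (nat_lit 398) (nat_lit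 5) (nat_lit 422) (nat_lit 5) (nat_lit 423) (nat_lit 5) (nat_lit 359) (nat_lit 343) (nat_lit 198)) (XT.nd (nat_lit 78) (nat_lit 1140) (nat_lit 0) (XT.lf (nat_lit 0) (nat_lit 3976894012) (nat_lit 1824) (nat_lit 7698197625) (nat_lit 76) (nat_lit 7351603932) (nat_lit 399) (nat_lit 5) (nat_lit 423) (nat_lit 5) (nat_lit 400) (nat_lit 5) (nat_lit 360) (nat_lit 343) (nat_lit 197)) (XT.lf (nat_lit 0) (nat_lit 6501921755) (nat_lit 1216) (nat_lit 12217925461) (nat_lit 76) (nat_lit 613367670) (nat_lit 384) (nat_lit 5) (nat_lit 400) (nat_lit 5) (nat_lit 385) (nat_lit 5) (nat_lit 361) (nat_lit 343) (nat_lit 196))))) (XT.nd (nat_lit 156) (nat_lit 2584) (nat_lit 0) (XT.nd (nat_lit 78) (nat_lit 0) (nat_lit 0) (XT.lf (nat_lit 0) (nat_lit 2778656855) (nat_lit 912) (nat_lit 6461458553) (nat_lit 988) (nat_lit 10406069759) (nat_lit 372) (nat_lit 5) (nat_lit 384) (nat_lit 5) (nat_lit 385) (nat_lit 5) (nat_lit 362) (nat_lit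 343) (nat_lit 195)) (XT.lf (nat_lit 0) (nat_lit 12172877223) (nat_lit 988) (nat_lit 1625184022) (nat_lit 76) (nat_lit 6168238441) (nat_lit 372) (nat_lit 5) (nat_lit 385) (nat_lit 5) (nat_lit 373) (nat_lit 5) (nat_lit 363) (nat_lit 343) (nat_lit 194))) (XT.nd (nat_lit 78) (nat_lit 1748) (nat_lit 0) (XT.lf (nat_lit 0) (nat_lit 14207751984) (nat_lit 836) (nat_lit 1110701775) (nat_lit 912) (nat_lit 4975070718) (nat_lit 361) (nat_lit 5) (nat_lit 372) (nat_lit 5) (nat_lit 373) (nat_lit 5) (nat_lit 364) (nat_lit 343) (nat_lit 193)) (XT.nd (nat_lit 78) (nat_lit 912) (nat_lit 0) (XT.lf (nat_lit 0) (nat_lit 9950509488) (nat_lit 836) (nat_lit 8750840354) (nat_lit 912) (nat_lit 1926360498) (nat_lit 350) (nat_lit 5) (nat_lit 361) (nat_lit 5) (nat_lit 362) (nat_lit 5) (nat_lit 365) (nat_lit 343) (nat_lit 192)) (XT.lf (nat_lit 0) (nat_lit 1301448532) (nat_lit 912) (nat_lit 15370057214) (nat_lit 76) (nat_lit 4298190489)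 (nat_lit 338) (nat_lit 5) (nat_lit 350) (nat_lit 5) (nat_lit 339) (nat_lit 5) (nat_lit 366) (nat_lit 343) (nat_lit 191))))))) (XT.nd (nat_lit 780) (nat_lit 2584) (nat_lit 0) (XT.nd (nat_lit 390) (nat_lit 2812) (nat_lit 0) (XT.nd (nat_lit 156) (nat_lit 2204) (nat_lit 0) (XT.nd (nat_lit 78) (nat_lit 0) (nat_lit 0) (XT.lf (nat_lit 0) (nat_lit 1123406613) (nat_lit 836) (nat_lit 3605340315) (nat_lit 912) (nat_lit 16590366694) (nat_lit 327) (nat_lit 5) (nat_lit 338) (nat_lit 5) (nat_lit 339) (nat_lit 5) (nat_lit 367) (nat_lit 343) (nat_lit 190)) (XT.lf (nat_lit 0) (nat_lit 8417936378) (nat_lit 912) (nat_lit 3429452040) (nat_lit 76) (nat_lit 9828446697) (nat_lit 327) (nat_lit 5) (nat_lit 339) (nat_lit 5) (nat_lit 328) (nat_lit 5) (nat_lit 368) (nat_lit 343) (nat_lit 189))) (XT.nd (nat_lit 78) (nat_lit 1444) (nat_lit 0) (XT.lf (nat_lit 0) (nat_lit 12334102317) (nat_lit 836) (nat_lit 8062448636) (nat_lit 76)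 (nat_lit 1644384221) (nat_lit 317) (nat_lit 5) (nat_lit 328) (nat_lit 5) (nat_lit 318) (nat_lit 5) (nat_lit 369) (nat_lit 343) (nat_lit 188)) (XT.nd (nat_lit 78) (nat_lit 684) (nat_lit 0) (XT.lf (nat_lit 0) (nat_lit 9575622239) (nat_lit 760) (nat_lit 6947679102) (nat_lit 836) (nat_lit 5890578785) (nat_lit 307) (nat_lit 5) (nat_lit 317) (nat_lit 5) (nat_lit 318) (nat_lit 5) (nat_lit 370) (nat_lit 343) (nat_lit 187)) (XT.lf (nat_lit 0) (nat_lit 5067861521) (nat_lit 684) (nat_lit 15894003488) (nat_lit 760) (nat_lit 1833677411) (nat_lit 298) (nat_lit 5) (nat_lit 307) (nat_lit 5) (nat_lit 308) (nat_lit 5) (nat_lit 371) (nat_lit 343) (nat_lit 186))))) (XT.nd (nat_lit 156) (nat_lit 1976) (nat_lit 0) (XT.nd (nat_lit 78) (nat_lit 0) (nat_lit 0) (XT.lf (nat_lit 0) (nat_lit 433756292) (nat_lit 760) (nat_lit 2008371050) (nat_lit 836) (nat_lit 20743666370) (nat_lit 287) (nat_lit 5) (nat_lit 297) (nat_lit 5) (nat_lit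 298) (nat_lit 5) (nat_lit 372) (nat_lit 343) (nat_lit 185)) (XT.lf (nat_lit 0) (nat_lit 7013471681) (nat_lit 836) (nat_lit 4305198094) (nat_lit 76) (nat_lit 12264999356) (nat_lit 287) (nat_lit 5) (nat_lit 298) (nat_lit 5) (nat_lit 288) (nat_lit 5) (nat_lit 373) (nat_lit 343) (nat_lit 184))) (XT.nd (nat_lit 78) (nat_lit 1292) (nat_lit 0) (XT.lf (nat_lit 0) (nat_lit 11843223062) (nat_lit 760) (nat_lit 9143998126) (nat_lit 76) (nat_lit 3003836774) (nat_lit 278) (nat_lit 5) (nat_lit 288) (nat_lit 5) (nat_lit 279) (nat_lit 5) (nat_lit 374) (nat_lit 343) (nat_lit 183)) (XT.nd (nat_lit 78) (nat_lit 608) (nat_lit 0) (XT.lf (nat_lit 0) (nat_lit 10272172107) (nat_lit 684) (nat_lit 6709174131) (nat_lit 760) (nat_lit 7426055048) (nat_lit 269) (nat_lit 5) (nat_lit 278) (nat_lit 5) (nat_lit 279) (nat_lit 5) (nat_lit 375) (nat_lit 343) (nat_lit 182)) (XT.lf (nat_lit 0) (nat_lit 5572346841) (nat_lit 608) (nat_lit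 16843641319) (nat_lit 684) (nat_lit 2417401590) (nat_lit 261) (nat_lit 5) (nat_lit 269) (nat_lit 5) (nat_lit 270) (nat_lit 5) (nat_lit 376) (nat_lit 343) (nat_lit 181)))))) (XT.nd (nat_lit 44304) (nat_lit 0) (nat_lit 14136) (XT.nd (nat_lit 156) (nat_lit 1824) (nat_lit 0) (XT.nd (nat_lit 78) (nat_lit 0) (nat_lit 0) (XT.lf (nat_lit 0) (nat_lit 731329470) (nat_lit 684) (nat_lit 2112281866) (nat_lit 760) (nat_lit 22425431661) (nat_lit 251) (nat_lit 5) (nat_lit 260) (nat_lit 5) (nat_lit 261) (nat_lit 5) (nat_lit 377) (nat_lit 343) (nat_lit 180)) (XT.lf (nat_lit 0) (nat_lit 8438167196) (nat_lit 760) (nat_lit 4239217115) (nat_lit 76) (nat_lit 13035893004) (nat_lit 251) (nat_lit 5) (nat_lit 261) (nat_lit 5) (nat_lit 252) (nat_lit 5) (nat_lit 378) (nat_lit 343) (nat_lit 179))) (XT.nd (nat_lit 78) (nat_lit 1216) (nat_lit 0) (XT.lf (nat_lit 0) (nat_lit 14333158065) (nat_lit 684) (nat_lit 9318840756) (nat_lit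 76) (nat_lit 2516189976) (nat_lit 243) (nat_lit 5) (nat_lit 252) (nat_lit 5) (nat_lit 244) (nat_lit 5) (nat_lit 379) (nat_lit 343) (nat_lit 178)) (XT.nd (nat_lit 78) (nat_lit 608) (nat_lit 0) (XT.lf (nat_lit 0) (nat_lit 12056505272) (nat_lit 608) (nat_lit 8533033171) (nat_lit 684) (nat_lit 6043520423) (nat_lit 235) (nat_lit 5) (nat_lit 243) (nat_lit 5) (nat_lit 244) (nat_lit 5) (nat_lit 380) (nat_lit 343) (nat_lit 177)) (XT.lf (nat_lit 0) (nat_lit 72007402) (nat_lit 608) (nat_lit 19981023815) (nat_lit 76) (nat_lit 7055871011) (nat_lit 227) (nat_lit 5) (nat_lit 235) (nat_lit 5) (nat_lit 228) (nat_lit 5) (nat_lit 381) (nat_lit 343) (nat_lit 176))))) (XT.nd (nat_lit 234) (nat_lit 0) (nat_lit 76) (XT.nd (nat_lit 78) (nat_lit 1672) (nat_lit 0) (XT.lf (nat_lit 0) (nat_lit 7143746986) (nat_lit 1748) (nat_lit 216084602) (nat_lit 1748) (nat_lit 216084602) (nat_lit 435) (nat_lit 3) (nat_lit 458) (nat_lit 3)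 (nat_lit 458) (nat_lit 5) (nat_lit 344) (nat_lit 344) (nat_lit 212)) (XT.nd (nat_lit 78) (nat_lit 1672) (nat_lit 0) (XT.lf (nat_lit 76) (nat_lit 10581268767) (nat_lit 0) (nat_lit 4413490880) (nat_lit 1748) (nat_lit 374338095) (nat_lit 436) (nat_lit 5) (nat_lit 435) (nat_lit 3) (nat_lit 458) (nat_lit 5) (nat_lit 345) (nat_lit 344) (nat_lit 211)) (XT.lf (nat_lit 0) (nat_lit 197125772) (nat_lit 1748) (nat_lit 9220279365) (nat_lit 1824) (nat_lit 6174095389) (nat_lit 413) (nat_lit 5) (nat_lit 436) (nat_lit 5) (nat_lit 437) (nat_lit 5) (nat_lit 346) (nat_lit 344) (nat_lit 210)))) (XT.nd (nat_lit 78) (nat_lit 0) (nat_lit 0) (XT.lf (nat_lit 0) (nat_lit 848375965) (nat_lit 1748) (nat_lit 13730605050) (nat_lit 1824) (nat_lit 1240196014) (nat_lit 414) (nat_lit 5) (nat_lit 437) (nat_lit 5) (nat_lit 438) (nat_lit 5) (nat_lit 347) (nat_lit 344) (nat_lit 209)) (XT.nd (nat_lit 78) (nat_lit 0) (nat_lit 76) (XT.lf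 (nat_lit 0) (nat_lit 1629247973) (nat_lit 1748) (nat_lit 2262176180) (nat_lit 1824) (nat_lit 12160063506) (nat_lit 414) (nat_lit 5) (nat_lit 437) (nat_lit 5) (nat_lit 438) (nat_lit 5) (nat_lit 348) (nat_lit 344) (nat_lit 208)) (XT.lf (nat_lit 0) (nat_lit 2527654168) (nat_lit 1748) (nat_lit 6668360940) (nat_lit 1824) (nat_lit 7092875701) (nat_lit 415) (nat_lit 5) (nat_lit 438) (nat_lit 5) (nat_lit 439) (nat_lit 5) (nat_lit 349) (nat_lit 344) (nat_lit 207))))))))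
noncomputable def xc115 : XT := (XT.nd (nat_lit 1560) (nat_lit 6992) (nat_lit 0) (XT.nd (nat_lit 780) (nat_lit 5396) (nat_lit 0) (XT.nd (nat_lit 390) (nat_lit 1368) (nat_lit 0) (XT.nd (nat_lit 156) (nat_lit 0) (nat_lit 76) (XT.nd (nat_lit 78) (nat_lit 0) (nat_lit 0) (XT.lf (nat_lit 0) (nat_lit 3526779058) (nat_lit 1748) (nat_lit 11151384073) (nat_lit 1824) (nat_lit 1853782795) (nat_lit 416) (nat_lit 5) (nat_lit 439) (nat_lit 5) (nat_lit 440) (nat_lit 5) (nat_lit 350) (nat_lit 344) (nat_lit 206)) (XT.lf (nat_lit 76) (nat_lit 1043369575) (nat_lit 0) (nat_lit 3611778598) (nat_lit 1824) (nat_lit 12125164166) (nat_lit 417) (nat_lit 5) (nat_lit 416) (nat_lit 5) (nat_lit 440) (nat_lit 5) (nat_lit 351) (nat_lit 344) (nat_lit 205))) (XT.nd (nat_lit 78) (nat_lit 0) (nat_lit 76) (XT.lf (nat_lit 0) (nat_lit 5929896219) (nat_lit 1748) (nat_lit 3338592690) (nat_lit 1824) (nat_lit 7765395182) (nat_lit 417) (nat_lit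 5) (nat_lit 440) (nat_lit 5) (nat_lit 441) (nat_lit 5) (nat_lit 352) (nat_lit 344) (nat_lit 204)) (XT.nd (nat_lit 78) (nat_lit 0) (nat_lit 0) (XT.lf (nat_lit 0) (nat_lit 7329524002) (nat_lit 1748) (nat_lit 7784753128) (nat_lit 1824) (nat_lit 2179057883) (nat_lit 418) (nat_lit 5) (nat_lit 441) (nat_lit 5) (nat_lit 442) (nat_lit 5) (nat_lit 353) (nat_lit 344) (nat_lit 203)) (XT.lf (nat_lit 76) (nat_lit 5223734419) (nat_lit 0) (nat_lit 3652761716) (nat_lit 1824) (nat_lit 8681970839) (nat_lit 419) (nat_lit 5) (nat_lit 418) (nat_lit 5) (nat_lit 442) (nat_lit 5) (nat_lit 354) (nat_lit 344) (nat_lit 202))))) (XT.nd (nat_lit 156) (nat_lit 1596) (nat_lit 0) (XT.nd (nat_lit 78) (nat_lit 0) (nat_lit 76) (XT.lf (nat_lit 76) (nat_lit 846829084) (nat_lit 0) (nat_lit 9721615922) (nat_lit 1824) (nat_lit 7261141025) (nat_lit 420) (nat_lit 5) (nat_lit 419) (nat_lit 5) (nat_lit 443) (nat_lit 5) (nat_lit 355) (nat_lit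 344) (nat_lit 201)) (XT.lf (nat_lit 0) (nat_lit 12420329482) (nat_lit 1748) (nat_lit 3562366113) (nat_lit 1824) (nat_lit 2123963880) (nat_lit 420) (nat_lit 5) (nat_lit 443) (nat_lit 5) (nat_lit 444) (nat_lit 5) (nat_lit 356) (nat_lit 344) (nat_lit 200))) (XT.nd (nat_lit 78) (nat_lit 1672) (nat_lit 0) (XT.lf (nat_lit 76) (nat_lit 10321617521) (nat_lit 0) (nat_lit 4125922201) (nat_lit 1824) (nat_lit 3942114246) (nat_lit 421) (nat_lit 5) (nat_lit 420) (nat_lit 5) (nat_lit 444) (nat_lit 5) (nat_lit 357) (nat_lit 344) (nat_lit 199)) (XT.nd (nat_lit 78) (nat_lit 1748) (nat_lit 0) (XT.lf (nat_lit 76) (nat_lit 6006860277) (nat_lit 0) (nat_lit 10632565984) (nat_lit 1824) (nat_lit 2039638942) (nat_lit 422) (nat_lit 5) (nat_lit 421) (nat_lit 5) (nat_lit 445) (nat_lit 5) (nat_lit 358) (nat_lit 344) (nat_lit 198)) (XT.lf (nat_lit 0) (nat_lit 12905495) (nat_lit 1824) (nat_lit 17363332406) (nat_lit 1900) (nat_lit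 1599096295) (nat_lit 398) (nat_lit 5) (nat_lit 422) (nat_lit 5) (nat_lit 423) (nat_lit 5) (nat_lit 359) (nat_lit 344) (nat_lit 197)))))) (XT.nd (nat_lit 390) (nat_lit 3420) (nat_lit 0) (XT.nd (nat_lit 156) (nat_lit 1976) (nat_lit 0) (XT.nd (nat_lit 78) (nat_lit 0) (nat_lit 76) (XT.lf (nat_lit 0) (nat_lit 2245575514) (nat_lit 1824) (nat_lit 2875477049) (nat_lit 1900) (nat_lit 14156247651) (nat_lit 398) (nat_lit 5) (nat_lit 422) (nat_lit 5) (nat_lit 423) (nat_lit 5) (nat_lit 360) (nat_lit 344) (nat_lit 196)) (XT.lf (nat_lit 0) (nat_lit 4662554895) (nat_lit 1824) (nat_lit 7438525745) (nat_lit 76) (nat_lit 7484901674) (nat_lit 399) (nat_lit 5) (nat_lit 423) (nat_lit 5) (nat_lit 400) (nat_lit 5) (nat_lit 361) (nat_lit 344) (nat_lit 195))) (XT.nd (nat_lit 78) (nat_lit 912) (nat_lit 0) (XT.lf (nat_lit 0) (nat_lit 7249514804) (nat_lit 1216) (nat_lit 12090107018) (nat_lit 76) (nat_lit 562357209) (nat_lit 384)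 (nat_lit 5) (nat_lit 400) (nat_lit 5) (nat_lit 385) (nat_lit 5) (nat_lit 362) (nat_lit 344) (nat_lit 194)) (XT.nd (nat_lit 78) (nat_lit 0) (nat_lit 0) (XT.lf (nat_lit 0) (nat_lit 3348352425) (nat_lit 912) (nat_lit 6708566192) (nat_lit 988) (nat_lit 10167683805) (nat_lit 372) (nat_lit 5) (nat_lit 384) (nat_lit 5) (nat_lit 385) (nat_lit 5) (nat_lit 363) (nat_lit 344) (nat_lit 193)) (XT.lf (nat_lit 0) (nat_lit 13061611038) (nat_lit 988) (nat_lit 1190784214) (nat_lit 76) (nat_lit 6302251306) (nat_lit 372) (nat_lit 5) (nat_lit 385) (nat_lit 5) (nat_lit 373) (nat_lit 5) (nat_lit 364) (nat_lit 344) (nat_lit 192))))) (XT.nd (nat_lit 156) (nat_lit 1748) (nat_lit 0) (XT.nd (nat_lit 78) (nat_lit 836) (nat_lit 0) (XT.lf (nat_lit 0) (nat_lit 15109301251) (nat_lit 836) (nat_lit 1180090734) (nat_lit 912) (nat_lit 4602544351) (nat_lit 361) (nat_lit 5) (nat_lit 372) (nat_lit 5) (nat_lit 373) (nat_lit 5) (nat_lit 365)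 (nat_lit 344) (nat_lit 191)) (XT.lf (nat_lit 0) (nat_lit 10727085656) (nat_lit 836) (nat_lit 9034671129) (nat_lit 912) (nat_lit 1474636193) (nat_lit 350) (nat_lit 5) (nat_lit 361) (nat_lit 5) (nat_lit 362) (nat_lit 5) (nat_lit 366) (nat_lit 344) (nat_lit 190))) (XT.nd (nat_lit 78) (nat_lit 836) (nat_lit 0) (XT.lf (nat_lit 0) (nat_lit 1831683817) (nat_lit 912) (nat_lit 15344052655) (nat_lit 76) (nat_lit 4413073241) (nat_lit 338) (nat_lit 5) (nat_lit 350) (nat_lit 5) (nat_lit 339) (nat_lit 5) (nat_lit 367) (nat_lit 344) (nat_lit 189)) (XT.nd (nat_lit 78) (nat_lit 0) (nat_lit 0) (XT.lf (nat_lit 0) (nat_lit 1636312366) (nat_lit 836) (nat_lit 3714293548) (nat_lit 912) (nat_lit 16598332086) (nat_lit 327) (nat_lit 5) (nat_lit 338) (nat_lit 5) (nat_lit 339) (nat_lit 5) (nat_lit 368) (nat_lit 344) (nat_lit 188)) (XT.lf (nat_lit 0) (nat_lit 9136485565) (nat_lit 912) (nat_lit 3057619354) (nat_lit 76) (nat_lit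 10122540270) (nat_lit 327) (nat_lit 5) (nat_lit 339) (nat_lit 5) (nat_lit 328) (nat_lit 5) (nat_lit 369) (nat_lit 344) (nat_lit 187))))))) (XT.nd (nat_lit 780) (nat_lit 1216) (nat_lit 0) (XT.nd (nat_lit 390) (nat_lit 2736) (nat_lit 0) (XT.nd (nat_lit 156) (nat_lit 1520) (nat_lit 0) (XT.nd (nat_lit 78) (nat_lit 760) (nat_lit 0) (XT.lf (nat_lit 0) (nat_lit 13159670466) (nat_lit 836) (nat_lit 7828132565) (nat_lit 76) (nat_lit 1705108756) (nat_lit 317) (nat_lit 5) (nat_lit 328) (nat_lit 5) (nat_lit 318) (nat_lit 5) (nat_lit 370) (nat_lit 344) (nat_lit 186)) (XT.lf (nat_lit 0) (nat_lit 10331354826) (nat_lit 760) (nat_lit 7132963909) (nat_lit 836) (nat_lit 5612934979) (nat_lit 307) (nat_lit 5) (nat_lit 317) (nat_lit 5) (nat_lit 318) (nat_lit 5) (nat_lit 371) (nat_lit 344) (nat_lit 185))) (XT.nd (nat_lit 78) (nat_lit 836) (nat_lit 0) (XT.lf (nat_lit 0) (nat_lit 5689509284) (nat_lit 684) (nat_lit 16336754524)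 (nat_lit 760) (nat_lit 1444301554) (nat_lit 298) (nat_lit 5) (nat_lit 307) (nat_lit 5) (nat_lit 308) (nat_lit 5) (nat_lit 372) (nat_lit 344) (nat_lit 184)) (XT.nd (nat_lit 78) (nat_lit 0) (nat_lit 0) (XT.lf (nat_lit 0) (nat_lit 914623420) (nat_lit 760) (nat_lit 2029589805) (nat_lit 836) (nat_lit 20928451765) (nat_lit 287) (nat_lit 5) (nat_lit 297) (nat_lit 5) (nat_lit 298) (nat_lit 5) (nat_lit 373) (nat_lit 344) (nat_lit 183)) (XT.lf (nat_lit 0) (nat_lit 7640453973) (nat_lit 836) (nat_lit 3971923407) (nat_lit 76) (nat_lit 12670347842) (nat_lit 287) (nat_lit 5) (nat_lit 298) (nat_lit 5) (nat_lit 288) (nat_lit 5) (nat_lit 374) (nat_lit 344) (nat_lit 182))))) (XT.nd (nat_lit 156) (nat_lit 1368) (nat_lit 0) (XT.nd (nat_lit 78) (nat_lit 684) (nat_lit 0) (XT.lf (nat_lit 0) (nat_lit 12606226842) (nat_lit 760) (nat_lit 8955431598) (nat_lit 76) (nat_lit 3140858265) (nat_lit 278) (nat_lit 5) (nat_lit 288) (nat_lit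 5) (nat_lit 279) (nat_lit 5) (nat_lit 375) (nat_lit 344) (nat_lit 181)) (XT.lf (nat_lit 0) (nat_lit 11035713960) (nat_lit 684) (nat_lit 6853861399) (nat_lit 760) (nat_lit 7241956799) (nat_lit 269) (nat_lit 5) (nat_lit 278) (nat_lit 5) (nat_lit 279) (nat_lit 5) (nat_lit 376) (nat_lit 344) (nat_lit 180))) (XT.nd (nat_lit 78) (nat_lit 760) (nat_lit 0) (XT.lf (nat_lit 0) (nat_lit 6195104442) (nat_lit 608) (nat_lit 17283851570) (nat_lit 684) (nat_lit 2091513636) (nat_lit 261) (nat_lit 5) (nat_lit 269) (nat_lit 5) (nat_lit 270) (nat_lit 5) (nat_lit 377) (nat_lit 344) (nat_lit 179)) (XT.nd (nat_lit 78) (nat_lit 0) (nat_lit 0) (XT.lf (nat_lit 0) (nat_lit 1206713688) (nat_lit 684) (nat_lit 2106882849) (nat_lit 760) (nat_lit 22705717577) (nat_lit 251) (nat_lit 5) (nat_lit 260) (nat_lit 5) (nat_lit 261) (nat_lit 5) (nat_lit 378) (nat_lit 344) (nat_lit 178)) (XT.lf (nat_lit 0) (nat_lit 9065218372) (nat_lit 760)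 (nat_lit 3919016908) (nat_lit 76) (nat_lit 13492858701) (nat_lit 251) (nat_lit 5) (nat_lit 261) (nat_lit 5) (nat_lit 252) (nat_lit 5) (nat_lit 379) (nat_lit 344) (nat_lit 177)))))) (XT.nd (nat_lit 44382) (nat_lit 0) (nat_lit 13604) (XT.nd (nat_lit 44148) (nat_lit 0) (nat_lit 13452) (XT.nd (nat_lit 78) (nat_lit 608) (nat_lit 0) (XT.lf (nat_lit 0) (nat_lit 15129508088) (nat_lit 684) (nat_lit 9151351484) (nat_lit 76) (nat_lit 2664947268) (nat_lit 243) (nat_lit 5) (nat_lit 252) (nat_lit 5) (nat_lit 244) (nat_lit 5) (nat_lit 380) (nat_lit 344) (nat_lit 176)) (XT.lf (nat_lit 0) (nat_lit 12858001996) (nat_lit 608) (nat_lit 8707762822) (nat_lit 684) (nat_lit 5859017422) (nat_lit 235) (nat_lit 5) (nat_lit 243) (nat_lit 5) (nat_lit 244) (nat_lit 5) (nat_lit 381) (nat_lit 344) (nat_lit 175))) (XT.nd (nat_lit 78) (nat_lit 1748) (nat_lit 0) (XT.lf (nat_lit 0) (nat_lit 7778233870) (nat_lit 1748) (nat_lit 8202364)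 (nat_lit 1748) (nat_lit 8202364) (nat_lit 435) (nat_lit 3) (nat_lit 458) (nat_lit 3) (nat_lit 458) (nat_lit 5) (nat_lit 345) (nat_lit 345) (nat_lit 210)) (XT.nd (nat_lit 78) (nat_lit 0) (nat_lit 76) (XT.lf (nat_lit 0) (nat_lit 443811512) (nat_lit 1748) (nat_lit 4495943163) (nat_lit 1824) (nat_lit 10873691033) (nat_lit 412) (nat_lit 5) (nat_lit 435) (nat_lit 3) (nat_lit 436) (nat_lit 5) (nat_lit 346) (nat_lit 345) (nat_lit 209)) (XT.lf (nat_lit 0) (nat_lit 1003670615) (nat_lit 1748) (nat_lit 9052105562) (nat_lit 1824) (nat_lit 5987176573) (nat_lit 413) (nat_lit 5) (nat_lit 436) (nat_lit 5) (nat_lit 437) (nat_lit 5) (nat_lit 347) (nat_lit 345) (nat_lit 208))))) (XT.nd (nat_lit 234) (nat_lit 0) (nat_lit 152) (XT.nd (nat_lit 78) (nat_lit 0) (nat_lit 0) (XT.lf (nat_lit 0) (nat_lit 1651755633) (nat_lit 1748) (nat_lit 13686857717) (nat_lit 1824) (nat_lit 939308413) (nat_lit 414) (nat_lit 5) (nat_lit 437)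 (nat_lit 5) (nat_lit 438) (nat_lit 5) (nat_lit 348) (nat_lit 345) (nat_lit 207)) (XT.nd (nat_lit 78) (nat_lit 0) (nat_lit 76) (XT.lf (nat_lit 0) (nat_lit 2433395693) (nat_lit 1748) (nat_lit 1887647792) (nat_lit 1824) (nat_lit 12196619312) (nat_lit 414) (nat_lit 5) (nat_lit 437) (nat_lit 5) (nat_lit 438) (nat_lit 5) (nat_lit 349) (nat_lit 345) (nat_lit 206)) (XT.lf (nat_lit 0) (nat_lit 3337628101) (nat_lit 1748) (nat_lit 6416263532) (nat_lit 1824) (nat_lit 7008726619) (nat_lit 415) (nat_lit 5) (nat_lit 438) (nat_lit 5) (nat_lit 439) (nat_lit 5) (nat_lit 350) (nat_lit 345) (nat_lit 205)))) (XT.nd (nat_lit 78) (nat_lit 0) (nat_lit 0) (XT.lf (nat_lit 0) (nat_lit 4346473461) (nat_lit 1748) (nat_lit 11024792558) (nat_lit 1824) (nat_lit 1642111537) (nat_lit 416) (nat_lit 5) (nat_lit 439) (nat_lit 5) (nat_lit 440) (nat_lit 5) (nat_lit 351) (nat_lit 345) (nat_lit 204)) (XT.nd (nat_lit 78) (nat_lit 0) (nat_lit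 76) (XT.lf (nat_lit 76) (nat_lit 1528322363) (nat_lit 0) (nat_lit 3962523750) (nat_lit 1824) (nat_lit 11778713048) (nat_lit 417) (nat_lit 5) (nat_lit 416) (nat_lit 5) (nat_lit 440) (nat_lit 5) (nat_lit 352) (nat_lit 345) (nat_lit 203)) (XT.lf (nat_lit 0) (nat_lit 6782035560) (nat_lit 1748) (nat_lit 2983033949) (nat_lit 1824) (nat_lit 7766111618) (nat_lit 417) (nat_lit 5) (nat_lit 440) (nat_lit 5) (nat_lit 441) (nat_lit 5) (nat_lit 353) (nat_lit 345) (nat_lit 202))))))))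
noncomputable def xc116 : XT := (XT.nd (nat_lit 1560) (nat_lit 4180) (nat_lit 0) (XT.nd (nat_lit 780) (nat_lit 6536) (nat_lit 0) (XT.nd (nat_lit 390) (nat_lit 2584) (nat_lit 0) (XT.nd (nat_lit 156) (nat_lit 0) (nat_lit 76) (XT.nd (nat_lit 78) (nat_lit 0) (nat_lit 0) (XT.lf (nat_lit 0) (nat_lit 8205566643) (nat_lit 1748) (nat_lit 7555236339) (nat_lit 1824) (nat_lit 2037981138) (nat_lit 418) (nat_lit 5) (nat_lit 441) (nat_lit 5) (nat_lit 442) (nat_lit 5) (nat_lit 354) (nat_lit 345) (nat_lit 201)) (XT.lf (nat_lit 76) (nat_lit 5835993245) (nat_lit 0) (nat_lit 3946801040) (nat_lit 1824) (nat_lit 8289405464) (nat_lit 419) (nat_lit 5) (nat_lit 418) (nat_lit 5) (nat_lit 442) (nat_lit 5) (nat_lit 355) (nat_lit 345) (nat_lit 200))) (XT.nd (nat_lit 78) (nat_lit 0) (nat_lit 76) (XT.lf (nat_lit 76) (nat_lit 1334378209) (nat_lit 0) (nat_lit 10174320357) (nat_lit 1824) (nat_lit 6843096314) (nat_lit 420) (nat_lit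 5) (nat_lit 419) (nat_lit 5) (nat_lit 443) (nat_lit 5) (nat_lit 356) (nat_lit 345) (nat_lit 199)) (XT.nd (nat_lit 78) (nat_lit 0) (nat_lit 0) (XT.lf (nat_lit 0) (nat_lit 13396972888) (nat_lit 1748) (nat_lit 3207228683) (nat_lit 1824) (nat_lit 2033368544) (nat_lit 420) (nat_lit 5) (nat_lit 443) (nat_lit 5) (nat_lit 444) (nat_lit 5) (nat_lit 357) (nat_lit 345) (nat_lit 198)) (XT.lf (nat_lit 76) (nat_lit 11085778922) (nat_lit 0) (nat_lit 4384578303) (nat_lit 1824) (nat_lit 3458996134) (nat_lit 421) (nat_lit 5) (nat_lit 420) (nat_lit 5) (nat_lit 444) (nat_lit 5) (nat_lit 358) (nat_lit 345) (nat_lit 197))))) (XT.nd (nat_lit 156) (nat_lit 1064) (nat_lit 0) (XT.nd (nat_lit 78) (nat_lit 1748) (nat_lit 0) (XT.lf (nat_lit 76) (nat_lit 6646862242) (nat_lit 0) (nat_lit 11066106469) (nat_lit 1824) (nat_lit 1514784749) (nat_lit 422) (nat_lit 5) (nat_lit 421) (nat_lit 5) (nat_lit 445) (nat_lit 5) (nat_lit 359) (nat_lit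 345) (nat_lit 196)) (XT.lf (nat_lit 0) (nat_lit 577113881) (nat_lit 1824) (nat_lit 17411990040) (nat_lit 1900) (nat_lit 1544026835) (nat_lit 398) (nat_lit 5) (nat_lit 422) (nat_lit 5) (nat_lit 423) (nat_lit 5) (nat_lit 360) (nat_lit 345) (nat_lit 195))) (XT.nd (nat_lit 78) (nat_lit 1064) (nat_lit 0) (XT.lf (nat_lit 0) (nat_lit 2860342024) (nat_lit 1824) (nat_lit 2503253654) (nat_lit 1900) (nat_lit 14480893966) (nat_lit 398) (nat_lit 5) (nat_lit 422) (nat_lit 5) (nat_lit 423) (nat_lit 5) (nat_lit 361) (nat_lit 345) (nat_lit 194)) (XT.nd (nat_lit 78) (nat_lit 1140) (nat_lit 0) (XT.lf (nat_lit 0) (nat_lit 5336274565) (nat_lit 1824) (nat_lit 7199227178) (nat_lit 76) (nat_lit 7627206875) (nat_lit 399) (nat_lit 5) (nat_lit 423) (nat_lit 5) (nat_lit 400) (nat_lit 5) (nat_lit 362) (nat_lit 345) (nat_lit 193)) (XT.lf (nat_lit 0) (nat_lit 7987817852) (nat_lit 1216) (nat_lit 11986832091) (nat_lit 76) (nat_lit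 513800939) (nat_lit 384) (nat_lit 5) (nat_lit 400) (nat_lit 5) (nat_lit 385) (nat_lit 5) (nat_lit 363) (nat_lit 345) (nat_lit 192)))))) (XT.nd (nat_lit 390) (nat_lit 3040) (nat_lit 0) (XT.nd (nat_lit 156) (nat_lit 2584) (nat_lit 0) (XT.nd (nat_lit 78) (nat_lit 0) (nat_lit 0) (XT.lf (nat_lit 0) (nat_lit 3907221194) (nat_lit 912) (nat_lit 6960029496) (nat_lit 988) (nat_lit 9953751131) (nat_lit 372) (nat_lit 5) (nat_lit 384) (nat_lit 5) (nat_lit 385) (nat_lit 5) (nat_lit 364) (nat_lit 345) (nat_lit 191)) (XT.lf (nat_lit 0) (nat_lit 13946953098) (nat_lit 988) (nat_lit 771087505) (nat_lit 76) (nat_lit 6443214134) (nat_lit 372) (nat_lit 5) (nat_lit 385) (nat_lit 5) (nat_lit 373) (nat_lit 5) (nat_lit 365) (nat_lit 345) (nat_lit 190))) (XT.nd (nat_lit 78) (nat_lit 1748) (nat_lit 0) (XT.lf (nat_lit 0) (nat_lit 16010611872) (nat_lit 836) (nat_lit 1249490916) (nat_lit 912) (nat_lit 4248794413) (nat_lit 361)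 (nat_lit 5) (nat_lit 372) (nat_lit 5) (nat_lit 373) (nat_lit 5) (nat_lit 366) (nat_lit 345) (nat_lit 189)) (XT.nd (nat_lit 78) (nat_lit 912) (nat_lit 0) (XT.lf (nat_lit 0) (nat_lit 11499516459) (nat_lit 836) (nat_lit 9325793800) (nat_lit 912) (nat_lit 1038608411) (nat_lit 350) (nat_lit 5) (nat_lit 361) (nat_lit 5) (nat_lit 362) (nat_lit 5) (nat_lit 367) (nat_lit 345) (nat_lit 188)) (XT.lf (nat_lit 0) (nat_lit 2349629739) (nat_lit 912) (nat_lit 15345229852) (nat_lit 76) (nat_lit 4532209747) (nat_lit 338) (nat_lit 5) (nat_lit 350) (nat_lit 5) (nat_lit 339) (nat_lit 5) (nat_lit 368) (nat_lit 345) (nat_lit 187))))) (XT.nd (nat_lit 156) (nat_lit 2204) (nat_lit 0) (XT.nd (nat_lit 78) (nat_lit 0) (nat_lit 0) (XT.lf (nat_lit 0) (nat_lit 2137097047) (nat_lit 836) (nat_lit 3826469855) (nat_lit 912) (nat_lit 16634649841) (nat_lit 327) (nat_lit 5) (nat_lit 338) (nat_lit 5) (nat_lit 339) (nat_lit 5) (nat_lit 369)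 (nat_lit 345) (nat_lit 186)) (XT.lf (nat_lit 0) (nat_lit 9849840285) (nat_lit 912) (nat_lit 2701882342) (nat_lit 76) (nat_lit 10425500268) (nat_lit 327) (nat_lit 5) (nat_lit 339) (nat_lit 5) (nat_lit 328) (nat_lit 5) (nat_lit 370) (nat_lit 345) (nat_lit 185))) (XT.nd (nat_lit 78) (nat_lit 1444) (nat_lit 0) (XT.lf (nat_lit 0) (nat_lit 13983855508) (nat_lit 836) (nat_lit 7614122240) (nat_lit 76) (nat_lit 1767001020) (nat_lit 317) (nat_lit 5) (nat_lit 328) (nat_lit 5) (nat_lit 318) (nat_lit 5) (nat_lit 371) (nat_lit 345) (nat_lit 184)) (XT.nd (nat_lit 78) (nat_lit 684) (nat_lit 0) (XT.lf (nat_lit 0) (nat_lit 11082867645) (nat_lit 760) (nat_lit 7325135911) (nat_lit 836) (nat_lit 5353044049) (nat_lit 307) (nat_lit 5) (nat_lit 317) (nat_lit 5) (nat_lit 318) (nat_lit 5) (nat_lit 372) (nat_lit 345) (nat_lit 183)) (XT.lf (nat_lit 0) (nat_lit 6302848834) (nat_lit 684) (nat_lit 16794743796) (nat_lit 760) (nat_lit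 1068754007) (nat_lit 298) (nat_lit 5) (nat_lit 307) (nat_lit 5) (nat_lit 308) (nat_lit 5) (nat_lit 373) (nat_lit 345) (nat_lit 182))))))) (XT.nd (nat_lit 44850) (nat_lit 0) (nat_lit 12920) (XT.nd (nat_lit 390) (nat_lit 1368) (nat_lit 0) (XT.nd (nat_lit 156) (nat_lit 1976) (nat_lit 0) (XT.nd (nat_lit 78) (nat_lit 0) (nat_lit 0) (XT.lf (nat_lit 0) (nat_lit 1383059802) (nat_lit 760) (nat_lit 2053685740) (nat_lit 836) (nat_lit 21143896423) (nat_lit 287) (nat_lit 5) (nat_lit 297) (nat_lit 5) (nat_lit 298) (nat_lit 5) (nat_lit 374) (nat_lit 345) (nat_lit 181)) (XT.lf (nat_lit 0) (nat_lit 8262332445) (nat_lit 836) (nat_lit 3655195889) (nat_lit 76) (nat_lit 13085709955) (nat_lit 287) (nat_lit 5) (nat_lit 298) (nat_lit 5) (nat_lit 288) (nat_lit 5) (nat_lit 375) (nat_lit 345) (nat_lit 180))) (XT.nd (nat_lit 78) (nat_lit 1292) (nat_lit 0) (XT.lf (nat_lit 0) (nat_lit 13368716682) (nat_lit 760) (nat_lit 8787779651)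 (nat_lit 76) (nat_lit 3279297781) (nat_lit 278) (nat_lit 5) (nat_lit 288) (nat_lit 5) (nat_lit 279) (nat_lit 5) (nat_lit 376) (nat_lit 345) (nat_lit 179)) (XT.nd (nat_lit 78) (nat_lit 608) (nat_lit 0) (XT.lf (nat_lit 0) (nat_lit 11796021583) (nat_lit 684) (nat_lit 7006137664) (nat_lit 760) (nat_lit 7075692174) (nat_lit 269) (nat_lit 5) (nat_lit 278) (nat_lit 5) (nat_lit 279) (nat_lit 5) (nat_lit 377) (nat_lit 345) (nat_lit 178)) (XT.lf (nat_lit 0) (nat_lit 6810392202) (nat_lit 608) (nat_lit 17741005076) (nat_lit 684) (nat_lit 1778719406) (nat_lit 261) (nat_lit 5) (nat_lit 269) (nat_lit 5) (nat_lit 270) (nat_lit 5) (nat_lit 378) (nat_lit 345) (nat_lit 177))))) (XT.nd (nat_lit 156) (nat_lit 608) (nat_lit 0) (XT.nd (nat_lit 78) (nat_lit 0) (nat_lit 0) (XT.lf (nat_lit 0) (nat_lit 1670329872) (nat_lit 684) (nat_lit 2105269396) (nat_lit 760) (nat_lit 23016941858) (nat_lit 251) (nat_lit 5) (nat_lit 260)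 (nat_lit 5) (nat_lit 261) (nat_lit 5) (nat_lit 379) (nat_lit 345) (nat_lit 176)) (XT.lf (nat_lit 0) (nat_lit 9689617340) (nat_lit 760) (nat_lit 3614891948) (nat_lit 76) (nat_lit 13959751077) (nat_lit 251) (nat_lit 5) (nat_lit 261) (nat_lit 5) (nat_lit 252) (nat_lit 5) (nat_lit 380) (nat_lit 345) (nat_lit 175))) (XT.nd (nat_lit 44148) (nat_lit 0) (nat_lit 12844) (XT.lf (nat_lit 0) (nat_lit 15928718319) (nat_lit 684) (nat_lit 9004500291) (nat_lit 76) (nat_lit 2813961190) (nat_lit 243) (nat_lit 5) (nat_lit 252) (nat_lit 5) (nat_lit 244) (nat_lit 5) (nat_lit 381) (nat_lit 345) (nat_lit 174)) (XT.nd (nat_lit 78) (nat_lit 0) (nat_lit 0) (XT.lf (nat_lit 0) (nat_lit 192337169) (nat_lit 0) (nat_lit 192337169) (nat_lit 1748) (nat_lit 7635638535) (nat_lit 412) (nat_lit 5) (nat_lit 412) (nat_lit 3) (nat_lit 435) (nat_lit 3) (nat_lit 346) (nat_lit 346) (nat_lit 208)) (XT.lf (nat_lit 0) (nat_lit 1234129301) (nat_lit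 1748) (nat_lit 4222661105) (nat_lit 1824) (nat_lit 10815246594) (nat_lit 412) (nat_lit 5) (nat_lit 435) (nat_lit 3) (nat_lit 436) (nat_lit 5) (nat_lit 347) (nat_lit 346) (nat_lit 207)))))) (XT.nd (nat_lit 390) (nat_lit 0) (nat_lit 228) (XT.nd (nat_lit 156) (nat_lit 0) (nat_lit 76) (XT.nd (nat_lit 78) (nat_lit 0) (nat_lit 76) (XT.lf (nat_lit 0) (nat_lit 1788452305) (nat_lit 1748) (nat_lit 8904418862) (nat_lit 1824) (nat_lit 5816012648) (nat_lit 413) (nat_lit 5) (nat_lit 436) (nat_lit 5) (nat_lit 437) (nat_lit 5) (nat_lit 348) (nat_lit 346) (nat_lit 206)) (XT.lf (nat_lit 0) (nat_lit 2434580418) (nat_lit 1748) (nat_lit 13667955027) (nat_lit 1824) (nat_lit 648802132) (nat_lit 414) (nat_lit 5) (nat_lit 437) (nat_lit 5) (nat_lit 438) (nat_lit 5) (nat_lit 349) (nat_lit 346) (nat_lit 205))) (XT.nd (nat_lit 78) (nat_lit 0) (nat_lit 76) (XT.lf (nat_lit 0) (nat_lit 3218312240) (nat_lit 1748) (nat_lit 1527278759)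 (nat_lit 1824) (nat_lit 12253114461) (nat_lit 414) (nat_lit 5) (nat_lit 437) (nat_lit 5) (nat_lit 438) (nat_lit 5) (nat_lit 350) (nat_lit 346) (nat_lit 204)) (XT.nd (nat_lit 78) (nat_lit 0) (nat_lit 76) (XT.lf (nat_lit 0) (nat_lit 4129758366) (nat_lit 1748) (nat_lit 6182558361) (nat_lit 1824) (nat_lit 6939098368) (nat_lit 415) (nat_lit 5) (nat_lit 438) (nat_lit 5) (nat_lit 439) (nat_lit 5) (nat_lit 351) (nat_lit 346) (nat_lit 203)) (XT.lf (nat_lit 0) (nat_lit 5149778430) (nat_lit 1748) (nat_lit 10920874221) (nat_lit 1824) (nat_lit 1439433380) (nat_lit 416) (nat_lit 5) (nat_lit 439) (nat_lit 5) (nat_lit 440) (nat_lit 5) (nat_lit 352) (nat_lit 346) (nat_lit 202))))) (XT.nd (nat_lit 234) (nat_lit 0) (nat_lit 152) (XT.nd (nat_lit 78) (nat_lit 0) (nat_lit 76) (XT.lf (nat_lit 76) (nat_lit 2001782272) (nat_lit 0) (nat_lit 4309876977) (nat_lit 1824) (nat_lit 11462637129) (nat_lit 417) (nat_lit 5) (nat_lit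 416) (nat_lit 5) (nat_lit 440) (nat_lit 5) (nat_lit 353) (nat_lit 346) (nat_lit 201)) (XT.nd (nat_lit 78) (nat_lit 0) (nat_lit 76) (XT.lf (nat_lit 0) (nat_lit 7621034806) (nat_lit 1748) (nat_lit 2642968439) (nat_lit 1824) (nat_lit 7780181384) (nat_lit 417) (nat_lit 5) (nat_lit 440) (nat_lit 5) (nat_lit 441) (nat_lit 5) (nat_lit 354) (nat_lit 346) (nat_lit 200)) (XT.lf (nat_lit 0) (nat_lit 9070224473) (nat_lit 1748) (nat_lit 7345415550) (nat_lit 1824) (nat_lit 1904523078) (nat_lit 418) (nat_lit 5) (nat_lit 441) (nat_lit 5) (nat_lit 442) (nat_lit 5) (nat_lit 355) (nat_lit 346) (nat_lit 199)))) (XT.nd (nat_lit 78) (nat_lit 0) (nat_lit 76) (XT.lf (nat_lit 76) (nat_lit 6440469587) (nat_lit 0) (nat_lit 4239072988) (nat_lit 1824) (nat_lit 7922549405) (nat_lit 419) (nat_lit 5) (nat_lit 418) (nat_lit 5) (nat_lit 442) (nat_lit 5) (nat_lit 356) (nat_lit 346) (nat_lit 198)) (XT.nd (nat_lit 78) (nat_lit 0) (nat_lit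 76) (XT.lf (nat_lit 76) (nat_lit 1810024837) (nat_lit 0) (nat_lit 10631360655) (nat_lit 1824) (nat_lit 6449012315) (nat_lit 420) (nat_lit 5) (nat_lit 419) (nat_lit 5) (nat_lit 443) (nat_lit 5) (nat_lit 357) (nat_lit 346) (nat_lit 197)) (XT.lf (nat_lit 0) (nat_lit 14368241602) (nat_lit 1748) (nat_lit 2867958304) (nat_lit 1824) (nat_lit 1948913617) (nat_lit 420) (nat_lit 5) (nat_lit 443) (nat_lit 5) (nat_lit 444) (nat_lit 5) (nat_lit 358) (nat_lit 346) (nat_lit 196))))))))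
noncomputable def xc117 : XT := (XT.nd (nat_lit 1560) (nat_lit 1368) (nat_lit 0) (XT.nd (nat_lit 780) (nat_lit 6156) (nat_lit 0) (XT.nd (nat_lit 390) (nat_lit 3648) (nat_lit 0) (XT.nd (nat_lit 156) (nat_lit 1672) (nat_lit 0) (XT.nd (nat_lit 78) (nat_lit 0) (nat_lit 76) (XT.lf (nat_lit 76) (nat_lit 11846774267) (nat_lit 0) (nat_lit 4643251515) (nat_lit 1824) (nat_lit 2995906240) (nat_lit 421) (nat_lit 5) (nat_lit 420) (nat_lit 5) (nat_lit 444) (nat_lit 5) (nat_lit 359) (nat_lit 346) (nat_lit 195)) (XT.lf (nat_lit 76) (nat_lit 7279670086) (nat_lit 0) (nat_lit 11506076755) (nat_lit 1824) (nat_lit 1007826217) (nat_lit 422) (nat_lit 5) (nat_lit 421) (nat_lit 5) (nat_lit 445) (nat_lit 5) (nat_lit 360) (nat_lit 346) (nat_lit 194))) (XT.nd (nat_lit 78) (nat_lit 0) (nat_lit 0) (XT.lf (nat_lit 0) (nat_lit 1125882874) (nat_lit 1824) (nat_lit 17489216045) (nat_lit 1900) (nat_lit 1493220343) (nat_lit 398) (nat_lit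 5) (nat_lit 422) (nat_lit 5) (nat_lit 423) (nat_lit 5) (nat_lit 361) (nat_lit 346) (nat_lit 193)) (XT.nd (nat_lit 78) (nat_lit 0) (nat_lit 76) (XT.lf (nat_lit 0) (nat_lit 3462128572) (nat_lit 1824) (nat_lit 2146182626) (nat_lit 1900) (nat_lit 14821022439) (nat_lit 398) (nat_lit 5) (nat_lit 422) (nat_lit 5) (nat_lit 423) (nat_lit 5) (nat_lit 362) (nat_lit 346) (nat_lit 192)) (XT.lf (nat_lit 0) (nat_lit 5999561052) (nat_lit 1824) (nat_lit 6979296425) (nat_lit 76) (nat_lit 7778502252) (nat_lit 399) (nat_lit 5) (nat_lit 423) (nat_lit 5) (nat_lit 400) (nat_lit 5) (nat_lit 363) (nat_lit 346) (nat_lit 191))))) (XT.nd (nat_lit 156) (nat_lit 1672) (nat_lit 0) (XT.nd (nat_lit 78) (nat_lit 912) (nat_lit 0) (XT.lf (nat_lit 0) (nat_lit 8718372930) (nat_lit 1216) (nat_lit 11907207967) (nat_lit 76) (nat_lit 467543757) (nat_lit 384) (nat_lit 5) (nat_lit 400) (nat_lit 5) (nat_lit 385) (nat_lit 5) (nat_lit 364) (nat_lit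 346) (nat_lit 190)) (XT.lf (nat_lit 0) (nat_lit 4456540947) (nat_lit 912) (nat_lit 7216154650) (nat_lit 988) (nat_lit 9763191087) (nat_lit 372) (nat_lit 5) (nat_lit 384) (nat_lit 5) (nat_lit 385) (nat_lit 5) (nat_lit 365) (nat_lit 346) (nat_lit 189))) (XT.nd (nat_lit 78) (nat_lit 1672) (nat_lit 0) (XT.lf (nat_lit 0) (nat_lit 14830526862) (nat_lit 988) (nat_lit 364942878) (nat_lit 76) (nat_lit 6591167254) (nat_lit 372) (nat_lit 5) (nat_lit 385) (nat_lit 5) (nat_lit 373) (nat_lit 5) (nat_lit 366) (nat_lit 346) (nat_lit 188)) (XT.nd (nat_lit 78) (nat_lit 836) (nat_lit 0) (XT.lf (nat_lit 0) (nat_lit 16913242967) (nat_lit 836) (nat_lit 1319021510) (nat_lit 912) (nat_lit 3912664816) (nat_lit 361) (nat_lit 5) (nat_lit 372) (nat_lit 5) (nat_lit 373) (nat_lit 5) (nat_lit 367) (nat_lit 346) (nat_lit 187)) (XT.lf (nat_lit 0) (nat_lit 12269252857) (nat_lit 836) (nat_lit 9624497331) (nat_lit 912) (nat_lit 617069079)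 (nat_lit 350) (nat_lit 5) (nat_lit 361) (nat_lit 5) (nat_lit 362) (nat_lit 5) (nat_lit 368) (nat_lit 346) (nat_lit 186)))))) (XT.nd (nat_lit 390) (nat_lit 2888) (nat_lit 0) (XT.nd (nat_lit 156) (nat_lit 1520) (nat_lit 0) (XT.nd (nat_lit 78) (nat_lit 836) (nat_lit 0) (XT.lf (nat_lit 0) (nat_lit 2856536209) (nat_lit 912) (nat_lit 15372799132) (nat_lit 76) (nat_lit 4655681279) (nat_lit 338) (nat_lit 5) (nat_lit 350) (nat_lit 5) (nat_lit 339) (nat_lit 5) (nat_lit 369) (nat_lit 346) (nat_lit 185)) (XT.lf (nat_lit 0) (nat_lit 2626976110) (nat_lit 836) (nat_lit 3941968541) (nat_lit 912) (nat_lit 16698556706) (nat_lit 327) (nat_lit 5) (nat_lit 338) (nat_lit 5) (nat_lit 339) (nat_lit 5) (nat_lit 370) (nat_lit 346) (nat_lit 184))) (XT.nd (nat_lit 78) (nat_lit 1520) (nat_lit 0) (XT.lf (nat_lit 0) (nat_lit 10559380317) (nat_lit 912) (nat_lit 2361159575) (nat_lit 76) (nat_lit 10737590179) (nat_lit 327) (nat_lit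 5) (nat_lit 339) (nat_lit 5) (nat_lit 328) (nat_lit 5) (nat_lit 371) (nat_lit 346) (nat_lit 183)) (XT.nd (nat_lit 78) (nat_lit 760) (nat_lit 0) (XT.lf (nat_lit 0) (nat_lit 14808117076) (nat_lit 836) (nat_lit 7419457678) (nat_lit 76) (nat_lit 1830133591) (nat_lit 317) (nat_lit 5) (nat_lit 328) (nat_lit 5) (nat_lit 318) (nat_lit 5) (nat_lit 372) (nat_lit 346) (nat_lit 182)) (XT.lf (nat_lit 0) (nat_lit 11831577800) (nat_lit 760) (nat_lit 7524325454) (nat_lit 836) (nat_lit 5109941357) (nat_lit 307) (nat_lit 5) (nat_lit 317) (nat_lit 5) (nat_lit 318) (nat_lit 5) (nat_lit 373) (nat_lit 346) (nat_lit 181))))) (XT.nd (nat_lit 156) (nat_lit 1368) (nat_lit 0) (XT.nd (nat_lit 78) (nat_lit 836) (nat_lit 0) (XT.lf (nat_lit 0) (nat_lit 6909178404) (nat_lit 684) (nat_lit 17268316184) (nat_lit 760) (nat_lit 705985263) (nat_lit 298) (nat_lit 5) (nat_lit 307) (nat_lit 5) (nat_lit 308) (nat_lit 5) (nat_lit 374) (nat_lit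 346) (nat_lit 180)) (XT.lf (nat_lit 0) (nat_lit 1840234206) (nat_lit 760) (nat_lit 2080616552) (nat_lit 836) (nat_lit 21389478379) (nat_lit 287) (nat_lit 5) (nat_lit 297) (nat_lit 5) (nat_lit 298) (nat_lit 5) (nat_lit 375) (nat_lit 346) (nat_lit 179))) (XT.nd (nat_lit 78) (nat_lit 1368) (nat_lit 0) (XT.lf (nat_lit 0) (nat_lit 8880326702) (nat_lit 836) (nat_lit 3353988141) (nat_lit 76) (nat_lit 13511509340) (nat_lit 287) (nat_lit 5) (nat_lit 298) (nat_lit 5) (nat_lit 288) (nat_lit 5) (nat_lit 376) (nat_lit 346) (nat_lit 178)) (XT.nd (nat_lit 78) (nat_lit 684) (nat_lit 0) (XT.lf (nat_lit 0) (nat_lit 14132020650) (nat_lit 760) (nat_lit 8640144405) (nat_lit 76) (nat_lit 3419352432) (nat_lit 278) (nat_lit 5) (nat_lit 288) (nat_lit 5) (nat_lit 279) (nat_lit 5) (nat_lit 377) (nat_lit 346) (nat_lit 177)) (XT.lf (nat_lit 0) (nat_lit 12554498520) (nat_lit 684) (nat_lit 7166044128) (nat_lit 760) (nat_lit 6926455418)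 (nat_lit 269) (nat_lit 5) (nat_lit 278) (nat_lit 5) (nat_lit 279) (nat_lit 5) (nat_lit 378) (nat_lit 346) (nat_lit 176))))))) (XT.nd (nat_lit 44928) (nat_lit 0) (nat_lit 11172) (XT.nd (nat_lit 44538) (nat_lit 0) (nat_lit 12312) (XT.nd (nat_lit 156) (nat_lit 0) (nat_lit 0) (XT.nd (nat_lit 78) (nat_lit 760) (nat_lit 0) (XT.lf (nat_lit 0) (nat_lit 7419487290) (nat_lit 608) (nat_lit 18215395620) (nat_lit 684) (nat_lit 1478098862) (nat_lit 261) (nat_lit 5) (nat_lit 269) (nat_lit 5) (nat_lit 270) (nat_lit 5) (nat_lit 379) (nat_lit 346) (nat_lit 175)) (XT.lf (nat_lit 0) (nat_lit 2123319186) (nat_lit 684) (nat_lit 2107328470) (nat_lit 760) (nat_lit 23358739352) (nat_lit 251) (nat_lit 5) (nat_lit 260) (nat_lit 5) (nat_lit 261) (nat_lit 5) (nat_lit 380) (nat_lit 346) (nat_lit 174))) (XT.nd (nat_lit 44226) (nat_lit 0) (nat_lit 12236) (XT.lf (nat_lit 0) (nat_lit 10312516641) (nat_lit 760) (nat_lit 3325850284)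 (nat_lit 76) (nat_lit 14437085050) (nat_lit 251) (nat_lit 5) (nat_lit 261) (nat_lit 5) (nat_lit 252) (nat_lit 5) (nat_lit 381) (nat_lit 346) (nat_lit 173)) (XT.nd (nat_lit 78) (nat_lit 0) (nat_lit 0) (XT.lf (nat_lit 0) (nat_lit 387314582) (nat_lit 0) (nat_lit 387314582) (nat_lit 1748) (nat_lit 7478592758) (nat_lit 412) (nat_lit 5) (nat_lit 412) (nat_lit 3) (nat_lit 435) (nat_lit 3) (nat_lit 347) (nat_lit 347) (nat_lit 206)) (XT.lf (nat_lit 0) (nat_lit 2003553447) (nat_lit 1748) (nat_lit 3964610660) (nat_lit 1824) (nat_lit 10777129602) (nat_lit 412) (nat_lit 5) (nat_lit 435) (nat_lit 3) (nat_lit 436) (nat_lit 5) (nat_lit 348) (nat_lit 347) (nat_lit 205))))) (XT.nd (nat_lit 156) (nat_lit 0) (nat_lit 76) (XT.nd (nat_lit 78) (nat_lit 0) (nat_lit 76) (XT.lf (nat_lit 0) (nat_lit 2553456210) (nat_lit 1748) (nat_lit 8776368218) (nat_lit 1824) (nat_lit 5659849967) (nat_lit 413) (nat_lit 5) (nat_lit 436) (nat_lit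 5) (nat_lit 437) (nat_lit 5) (nat_lit 349) (nat_lit 347) (nat_lit 204)) (XT.lf (nat_lit 0) (nat_lit 3198797129) (nat_lit 1748) (nat_lit 13673140797) (nat_lit 1824) (nat_lit 367874516) (nat_lit 414) (nat_lit 5) (nat_lit 437) (nat_lit 5) (nat_lit 438) (nat_lit 5) (nat_lit 350) (nat_lit 347) (nat_lit 203))) (XT.nd (nat_lit 78) (nat_lit 0) (nat_lit 76) (XT.lf (nat_lit 0) (nat_lit 3985909469) (nat_lit 1748) (nat_lit 1180036072) (nat_lit 1824) (nat_lit 12329065488) (nat_lit 414) (nat_lit 5) (nat_lit 437) (nat_lit 5) (nat_lit 438) (nat_lit 5) (nat_lit 351) (nat_lit 347) (nat_lit 202)) (XT.nd (nat_lit 78) (nat_lit 0) (nat_lit 76) (XT.lf (nat_lit 0) (nat_lit 4905928826) (nat_lit 1748) (nat_lit 5966307260) (nat_lit 1824) (nat_lit 6883448103) (nat_lit 415) (nat_lit 5) (nat_lit 438) (nat_lit 5) (nat_lit 439) (nat_lit 5) (nat_lit 352) (nat_lit 347) (nat_lit 201)) (XT.lf (nat_lit 0) (nat_lit 5938554717) (nat_lit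 1748) (nat_lit 10838789716) (nat_lit 1824) (nat_lit 1245137350) (nat_lit 416) (nat_lit 5) (nat_lit 439) (nat_lit 5) (nat_lit 440) (nat_lit 5) (nat_lit 353) (nat_lit 347) (nat_lit 200)))))) (XT.nd (nat_lit 390) (nat_lit 1368) (nat_lit 0) (XT.nd (nat_lit 156) (nat_lit 0) (nat_lit 152) (XT.nd (nat_lit 78) (nat_lit 0) (nat_lit 76) (XT.lf (nat_lit 76) (nat_lit 2464899402) (nat_lit 0) (nat_lit 4654535256) (nat_lit 1824) (nat_lit 11175507373) (nat_lit 417) (nat_lit 5) (nat_lit 416) (nat_lit 5) (nat_lit 440) (nat_lit 5) (nat_lit 354) (nat_lit 347) (nat_lit 199)) (XT.lf (nat_lit 0) (nat_lit 8448721537) (nat_lit 1748) (nat_lit 2317359266) (nat_lit 1824) (nat_lit 7807239778) (nat_lit 417) (nat_lit 5) (nat_lit 440) (nat_lit 5) (nat_lit 441) (nat_lit 5) (nat_lit 355) (nat_lit 347) (nat_lit 198))) (XT.nd (nat_lit 78) (nat_lit 0) (nat_lit 0) (XT.lf (nat_lit 0) (nat_lit 9925318133) (nat_lit 1748) (nat_lit 7154355753)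 (nat_lit 1824) (nat_lit 1778231969) (nat_lit 418) (nat_lit 5) (nat_lit 441) (nat_lit 5) (nat_lit 442) (nat_lit 5) (nat_lit 356) (nat_lit 347) (nat_lit 197)) (XT.nd (nat_lit 78) (nat_lit 0) (nat_lit 76) (XT.lf (nat_lit 76) (nat_lit 7038431101) (nat_lit 0) (nat_lit 4530132364) (nat_lit 1824) (nat_lit 7580022076) (nat_lit 419) (nat_lit 5) (nat_lit 418) (nat_lit 5) (nat_lit 442) (nat_lit 5) (nat_lit 357) (nat_lit 347) (nat_lit 196)) (XT.lf (nat_lit 76) (nat_lit 2274934765) (nat_lit 0) (nat_lit 11093397607) (nat_lit 1824) (nat_lit 6077512481) (nat_lit 420) (nat_lit 5) (nat_lit 419) (nat_lit 5) (nat_lit 443) (nat_lit 5) (nat_lit 358) (nat_lit 347) (nat_lit 195))))) (XT.nd (nat_lit 234) (nat_lit 1672) (nat_lit 0) (XT.nd (nat_lit 78) (nat_lit 0) (nat_lit 0) (XT.lf (nat_lit 0) (nat_lit 15335964811) (nat_lit 1748) (nat_lit 2543508561) (nat_lit 1824) (nat_lit 1870274812) (nat_lit 420) (nat_lit 5) (nat_lit 443)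 (nat_lit 5) (nat_lit 444) (nat_lit 5) (nat_lit 359) (nat_lit 347) (nat_lit 194)) (XT.nd (nat_lit 78) (nat_lit 0) (nat_lit 76) (XT.lf (nat_lit 76) (nat_lit 12606006298) (nat_lit 0) (nat_lit 4902386804) (nat_lit 1824) (nat_lit 2551463719) (nat_lit 421) (nat_lit 5) (nat_lit 420) (nat_lit 5) (nat_lit 444) (nat_lit 5) (nat_lit 360) (nat_lit 347) (nat_lit 193)) (XT.lf (nat_lit 76) (nat_lit 7906583118) (nat_lit 0) (nat_lit 11953047249) (nat_lit 1824) (nat_lit 517369067) (nat_lit 422) (nat_lit 5) (nat_lit 421) (nat_lit 5) (nat_lit 445) (nat_lit 5) (nat_lit 361) (nat_lit 347) (nat_lit 192)))) (XT.nd (nat_lit 78) (nat_lit 0) (nat_lit 0) (XT.lf (nat_lit 0) (nat_lit 1660607213) (nat_lit 1824) (nat_lit 17594311325) (nat_lit 1900) (nat_lit 1446465161) (nat_lit 398) (nat_lit 5) (nat_lit 422) (nat_lit 5) (nat_lit 423) (nat_lit 5) (nat_lit 362) (nat_lit 347) (nat_lit 191)) (XT.nd (nat_lit 78) (nat_lit 0) (nat_lit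 76) (XT.lf (nat_lit 0) (nat_lit 4052349568) (nat_lit 1824) (nat_lit 1803207716) (nat_lit 1900) (nat_lit 15176767876) (nat_lit 398) (nat_lit 5) (nat_lit 422) (nat_lit 5) (nat_lit 423) (nat_lit 5) (nat_lit 363) (nat_lit 347) (nat_lit 190)) (XT.lf (nat_lit 0) (nat_lit 6653860495) (nat_lit 1824) (nat_lit 6777790627) (nat_lit 76) (nat_lit 7938786502) (nat_lit 399) (nat_lit 5) (nat_lit 423) (nat_lit 5) (nat_lit 400) (nat_lit 5) (nat_lit 364) (nat_lit 347) (nat_lit 189))))))))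
noncomputable def xc118 : XT := (XT.nd (nat_lit 45864) (nat_lit 0) (nat_lit 5016) (XT.nd (nat_lit 780) (nat_lit 3496) (nat_lit 0) (XT.nd (nat_lit 390) (nat_lit 3268) (nat_lit 0) (XT.nd (nat_lit 156) (nat_lit 1672) (nat_lit 0) (XT.nd (nat_lit 78) (nat_lit 912) (nat_lit 0) (XT.lf (nat_lit 0) (nat_lit 9442663813) (nat_lit 1216) (nat_lit 11850408665) (nat_lit 76) (nat_lit 423439039) (nat_lit 384) (nat_lit 5) (nat_lit 400) (nat_lit 5) (nat_lit 385) (nat_lit 5) (nat_lit 365) (nat_lit 347) (nat_lit 188)) (XT.lf (nat_lit 0) (nat_lit 4997535805) (nat_lit 912) (nat_lit 7477246952) (nat_lit 988) (nat_lit 9594994749) (nat_lit 372) (nat_lit 5) (nat_lit 384) (nat_lit 5) (nat_lit 385) (nat_lit 5) (nat_lit 366) (nat_lit 347) (nat_lit 187))) (XT.nd (nat_lit 78) (nat_lit 836) (nat_lit 0) (XT.lf (nat_lit 0) (nat_lit 29125806) (nat_lit 836) (nat_lit 15684968752) (nat_lit 912) (nat_lit 6717225156) (nat_lit 361) (nat_lit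 5) (nat_lit 372) (nat_lit 5) (nat_lit 373) (nat_lit 5) (nat_lit 367) (nat_lit 347) (nat_lit 186)) (XT.nd (nat_lit 78) (nat_lit 836) (nat_lit 0) (XT.lf (nat_lit 0) (nat_lit 17818710515) (nat_lit 836) (nat_lit 1388798458) (nat_lit 912) (nat_lit 3593063491) (nat_lit 361) (nat_lit 5) (nat_lit 372) (nat_lit 5) (nat_lit 373) (nat_lit 5) (nat_lit 368) (nat_lit 347) (nat_lit 185)) (XT.lf (nat_lit 0) (nat_lit 13037698906) (nat_lit 836) (nat_lit 9931075325) (nat_lit 912) (nat_lit 208870260) (nat_lit 350) (nat_lit 5) (nat_lit 361) (nat_lit 5) (nat_lit 362) (nat_lit 5) (nat_lit 369) (nat_lit 347) (nat_lit 184))))) (XT.nd (nat_lit 156) (nat_lit 1520) (nat_lit 0) (XT.nd (nat_lit 78) (nat_lit 836) (nat_lit 0) (XT.lf (nat_lit 0) (nat_lit 3353597719) (nat_lit 912) (nat_lit 15426039269) (nat_lit 76) (nat_lit 4783574208) (nat_lit 338) (nat_lit 5) (nat_lit 350) (nat_lit 5) (nat_lit 339) (nat_lit 5) (nat_lit 370) (nat_lit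 347) (nat_lit 183)) (XT.lf (nat_lit 0) (nat_lit 3107110826) (nat_lit 836) (nat_lit 4060891742) (nat_lit 912) (nat_lit 16789359170) (nat_lit 327) (nat_lit 5) (nat_lit 338) (nat_lit 5) (nat_lit 339) (nat_lit 5) (nat_lit 371) (nat_lit 347) (nat_lit 182))) (XT.nd (nat_lit 78) (nat_lit 1520) (nat_lit 0) (XT.lf (nat_lit 0) (nat_lit 11266438683) (nat_lit 912) (nat_lit 2034426979) (nat_lit 76) (nat_lit 11059081540) (nat_lit 327) (nat_lit 5) (nat_lit 339) (nat_lit 5) (nat_lit 328) (nat_lit 5) (nat_lit 372) (nat_lit 347) (nat_lit 181)) (XT.nd (nat_lit 78) (nat_lit 760) (nat_lit 0) (XT.lf (nat_lit 0) (nat_lit 15633872421) (nat_lit 836) (nat_lit 7243240174) (nat_lit 76) (nat_lit 1894579063) (nat_lit 317) (nat_lit 5) (nat_lit 328) (nat_lit 5) (nat_lit 318) (nat_lit 5) (nat_lit 373) (nat_lit 347) (nat_lit 180)) (XT.lf (nat_lit 0) (nat_lit 12578856292) (nat_lit 760) (nat_lit 7730671171) (nat_lit 836) (nat_lit 4882719271)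 (nat_lit 307) (nat_lit 5) (nat_lit 317) (nat_lit 5) (nat_lit 318) (nat_lit 5) (nat_lit 374) (nat_lit 347) (nat_lit 179)))))) (XT.nd (nat_lit 390) (nat_lit 608) (nat_lit 0) (XT.nd (nat_lit 156) (nat_lit 1368) (nat_lit 0) (XT.nd (nat_lit 78) (nat_lit 836) (nat_lit 0) (XT.lf (nat_lit 0) (nat_lit 7509746343) (nat_lit 684) (nat_lit 17757833362) (nat_lit 760) (nat_lit 354998392) (nat_lit 298) (nat_lit 5) (nat_lit 307) (nat_lit 5) (nat_lit 308) (nat_lit 5) (nat_lit 375) (nat_lit 347) (nat_lit 178)) (XT.lf (nat_lit 0) (nat_lit 2287261959) (nat_lit 760) (nat_lit 2110346047) (nat_lit 836) (nat_lit 21664742769) (nat_lit 287) (nat_lit 5) (nat_lit 297) (nat_lit 5) (nat_lit 298) (nat_lit 5) (nat_lit 376) (nat_lit 347) (nat_lit 177))) (XT.nd (nat_lit 78) (nat_lit 1368) (nat_lit 0) (XT.lf (nat_lit 0) (nat_lit 9495614139) (nat_lit 836) (nat_lit 3067329412) (nat_lit 76) (nat_lit 13948175280) (nat_lit 287) (nat_lit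 5) (nat_lit 298) (nat_lit 5) (nat_lit 288) (nat_lit 5) (nat_lit 377) (nat_lit 347) (nat_lit 176)) (XT.nd (nat_lit 78) (nat_lit 684) (nat_lit 0) (XT.lf (nat_lit 0) (nat_lit 14897429537) (nat_lit 760) (nat_lit 8511688605) (nat_lit 76) (nat_lit 3561216366) (nat_lit 278) (nat_lit 5) (nat_lit 288) (nat_lit 5) (nat_lit 279) (nat_lit 5) (nat_lit 378) (nat_lit 347) (nat_lit 175)) (XT.lf (nat_lit 0) (nat_lit 13312504284) (nat_lit 684) (nat_lit 7333633929) (nat_lit 760) (nat_lit 6793493570) (nat_lit 269) (nat_lit 5) (nat_lit 278) (nat_lit 5) (nat_lit 279) (nat_lit 5) (nat_lit 379) (nat_lit 347) (nat_lit 174))))) (XT.nd (nat_lit 44460) (nat_lit 0) (nat_lit 11476) (XT.nd (nat_lit 44382) (nat_lit 0) (nat_lit 11476) (XT.lf (nat_lit 0) (nat_lit 8023619013) (nat_lit 608) (nat_lit 18707338110) (nat_lit 684) (nat_lit 1188779723) (nat_lit 261) (nat_lit 5) (nat_lit 269) (nat_lit 5) (nat_lit 270) (nat_lit 5) (nat_lit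 380) (nat_lit 347) (nat_lit 173)) (XT.lf (nat_lit 0) (nat_lit 577280046) (nat_lit 0) (nat_lit 577280046) (nat_lit 1748) (nat_lit 7339000185) (nat_lit 412) (nat_lit 5) (nat_lit 412) (nat_lit 3) (nat_lit 435) (nat_lit 3) (nat_lit 348) (nat_lit 348) (nat_lit 204))) (XT.nd (nat_lit 78) (nat_lit 0) (nat_lit 76) (XT.lf (nat_lit 0) (nat_lit 2754017547) (nat_lit 1748) (nat_lit 3720903794) (nat_lit 1824) (nat_lit 10758682353) (nat_lit 412) (nat_lit 5) (nat_lit 435) (nat_lit 3) (nat_lit 436) (nat_lit 5) (nat_lit 349) (nat_lit 348) (nat_lit 203)) (XT.nd (nat_lit 78) (nat_lit 0) (nat_lit 76) (XT.lf (nat_lit 0) (nat_lit 3300575813) (nat_lit 1748) (nat_lit 8667161188) (nat_lit 1824) (nat_lit 5517982670) (nat_lit 413) (nat_lit 5) (nat_lit 436) (nat_lit 5) (nat_lit 437) (nat_lit 5) (nat_lit 350) (nat_lit 348) (nat_lit 202)) (XT.lf (nat_lit 0) (nat_lit 3946263821) (nat_lit 1748) (nat_lit 13701722352) (nat_lit 1824)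 (nat_lit 95762783) (nat_lit 414) (nat_lit 5) (nat_lit 437) (nat_lit 5) (nat_lit 438) (nat_lit 5) (nat_lit 351) (nat_lit 348) (nat_lit 201))))))) (XT.nd (nat_lit 780) (nat_lit 6612) (nat_lit 0) (XT.nd (nat_lit 390) (nat_lit 0) (nat_lit 304) (XT.nd (nat_lit 156) (nat_lit 0) (nat_lit 152) (XT.nd (nat_lit 78) (nat_lit 0) (nat_lit 76) (XT.lf (nat_lit 0) (nat_lit 4738013723) (nat_lit 1748) (nat_lit 844939417) (nat_lit 1824) (nat_lit 12424036512) (nat_lit 414) (nat_lit 5) (nat_lit 437) (nat_lit 5) (nat_lit 438) (nat_lit 5) (nat_lit 352) (nat_lit 348) (nat_lit 200)) (XT.lf (nat_lit 0) (nat_lit 5667940991) (nat_lit 1748) (nat_lit 5766629449) (nat_lit 1824) (nat_lit 6841272863) (nat_lit 415) (nat_lit 5) (nat_lit 438) (nat_lit 5) (nat_lit 439) (nat_lit 5) (nat_lit 353) (nat_lit 348) (nat_lit 199))) (XT.nd (nat_lit 78) (nat_lit 0) (nat_lit 0) (XT.lf (nat_lit 0) (nat_lit 6714583858) (nat_lit 1748) (nat_lit 10777761749)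 (nat_lit 1824) (nat_lit 1058644708) (nat_lit 416) (nat_lit 5) (nat_lit 439) (nat_lit 5) (nat_lit 440) (nat_lit 5) (nat_lit 354) (nat_lit 348) (nat_lit 198)) (XT.nd (nat_lit 78) (nat_lit 0) (nat_lit 76) (XT.lf (nat_lit 76) (nat_lit 2918772542) (nat_lit 0) (nat_lit 4997170625) (nat_lit 1824) (nat_lit 10915986214) (nat_lit 417) (nat_lit 5) (nat_lit 416) (nat_lit 5) (nat_lit 440) (nat_lit 5) (nat_lit 355) (nat_lit 348) (nat_lit 197)) (XT.lf (nat_lit 0) (nat_lit 9266850624) (nat_lit 1748) (nat_lit 2005224632) (nat_lit 1824) (nat_lit 7846955089) (nat_lit 417) (nat_lit 5) (nat_lit 440) (nat_lit 5) (nat_lit 441) (nat_lit 5) (nat_lit 356) (nat_lit 348) (nat_lit 196))))) (XT.nd (nat_lit 156) (nat_lit 0) (nat_lit 76) (XT.nd (nat_lit 78) (nat_lit 0) (nat_lit 0) (XT.lf (nat_lit 0) (nat_lit 10772598768) (nat_lit 1748) (nat_lit 6981181483) (nat_lit 1824) (nat_lit 1658681575) (nat_lit 418) (nat_lit 5) (nat_lit 441)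 (nat_lit 5) (nat_lit 442) (nat_lit 5) (nat_lit 357) (nat_lit 348) (nat_lit 195)) (XT.lf (nat_lit 76) (nat_lit 7631097302) (nat_lit 0) (nat_lit 4820515727) (nat_lit 1824) (nat_lit 7260525000) (nat_lit 419) (nat_lit 5) (nat_lit 418) (nat_lit 5) (nat_lit 442) (nat_lit 5) (nat_lit 358) (nat_lit 348) (nat_lit 194))) (XT.nd (nat_lit 78) (nat_lit 0) (nat_lit 76) (XT.lf (nat_lit 76) (nat_lit 2730221343) (nat_lit 0) (nat_lit 11561081364) (nat_lit 1824) (nat_lit 5727299254) (nat_lit 420) (nat_lit 5) (nat_lit 419) (nat_lit 5) (nat_lit 443) (nat_lit 5) (nat_lit 359) (nat_lit 348) (nat_lit 193)) (XT.nd (nat_lit 78) (nat_lit 0) (nat_lit 0) (XT.lf (nat_lit 0) (nat_lit 16301912321) (nat_lit 1748) (nat_lit 2232889046) (nat_lit 1824) (nat_lit 1797147299) (nat_lit 420) (nat_lit 5) (nat_lit 443) (nat_lit 5) (nat_lit 444) (nat_lit 5) (nat_lit 360) (nat_lit 348) (nat_lit 192)) (XT.lf (nat_lit 76) (nat_lit 13364833865)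 (nat_lit 0) (nat_lit 5162416975) (nat_lit 1824) (nat_lit 2124360060) (nat_lit 421) (nat_lit 5) (nat_lit 420) (nat_lit 5) (nat_lit 444) (nat_lit 5) (nat_lit 361) (nat_lit 348) (nat_lit 191)))))) (XT.nd (nat_lit 390) (nat_lit 4332) (nat_lit 0) (XT.nd (nat_lit 156) (nat_lit 1064) (nat_lit 0) (XT.nd (nat_lit 78) (nat_lit 1748) (nat_lit 0) (XT.lf (nat_lit 76) (nat_lit 8528852654) (nat_lit 0) (nat_lit 12407583799) (nat_lit 1824) (nat_lit 42088051) (nat_lit 422) (nat_lit 5) (nat_lit 421) (nat_lit 5) (nat_lit 445) (nat_lit 5) (nat_lit 362) (nat_lit 348) (nat_lit 190)) (XT.lf (nat_lit 0) (nat_lit 2182616826) (nat_lit 1824) (nat_lit 17726645141) (nat_lit 1900) (nat_lit 1403562771) (nat_lit 398) (nat_lit 5) (nat_lit 422) (nat_lit 5) (nat_lit 423) (nat_lit 5) (nat_lit 363) (nat_lit 348) (nat_lit 189))) (XT.nd (nat_lit 78) (nat_lit 1064) (nat_lit 0) (XT.lf (nat_lit 0) (nat_lit 4632358304) (nat_lit 1824) (nat_lit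 1473327711) (nat_lit 1900) (nat_lit 15548288054) (nat_lit 398) (nat_lit 5) (nat_lit 422) (nat_lit 5) (nat_lit 423) (nat_lit 5) (nat_lit 364) (nat_lit 348) (nat_lit 188)) (XT.nd (nat_lit 78) (nat_lit 1140) (nat_lit 0) (XT.lf (nat_lit 0) (nat_lit 7300561437) (nat_lit 1824) (nat_lit 6593826117) (nat_lit 76) (nat_lit 8108073844) (nat_lit 399) (nat_lit 5) (nat_lit 423) (nat_lit 5) (nat_lit 400) (nat_lit 5) (nat_lit 365) (nat_lit 348) (nat_lit 187)) (XT.lf (nat_lit 0) (nat_lit 10162120272) (nat_lit 1216) (nat_lit 11815671571) (nat_lit 76) (nat_lit 381348138) (nat_lit 384) (nat_lit 5) (nat_lit 400) (nat_lit 5) (nat_lit 385) (nat_lit 5) (nat_lit 366) (nat_lit 348) (nat_lit 186))))) (XT.nd (nat_lit 234) (nat_lit 2584) (nat_lit 0) (XT.nd (nat_lit 78) (nat_lit 836) (nat_lit 0) (XT.lf (nat_lit 0) (nat_lit 5531379902) (nat_lit 912) (nat_lit 7743611361) (nat_lit 988) (nat_lit 9448221092) (nat_lit 372) (nat_lit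 5) (nat_lit 384) (nat_lit 5) (nat_lit 385) (nat_lit 5) (nat_lit 367) (nat_lit 348) (nat_lit 185)) (XT.nd (nat_lit 78) (nat_lit 0) (nat_lit 0) (XT.lf (nat_lit 0) (nat_lit 416475560) (nat_lit 836) (nat_lit 16184844322) (nat_lit 912) (nat_lit 6494488251) (nat_lit 361) (nat_lit 5) (nat_lit 372) (nat_lit 5) (nat_lit 373) (nat_lit 5) (nat_lit 368) (nat_lit 348) (nat_lit 184)) (XT.lf (nat_lit 0) (nat_lit 18728491229) (nat_lit 836) (nat_lit 1458934749) (nat_lit 912) (nat_lit 3288958639) (nat_lit 361) (nat_lit 5) (nat_lit 372) (nat_lit 5) (nat_lit 373) (nat_lit 5) (nat_lit 369) (nat_lit 348) (nat_lit 183)))) (XT.nd (nat_lit 78) (nat_lit 1672) (nat_lit 0) (XT.lf (nat_lit 0) (nat_lit 184625990) (nat_lit 912) (nat_lit 10059961466) (nat_lit 76) (nat_lit 13620350622) (nat_lit 349) (nat_lit 5) (nat_lit 361) (nat_lit 5) (nat_lit 350) (nat_lit 5) (nat_lit 370) (nat_lit 348) (nat_lit 182)) (XT.nd (nat_lit 78) (nat_lit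 836) (nat_lit 0) (XT.lf (nat_lit 0) (nat_lit 3841957016) (nat_lit 912) (nat_lit 15504294255) (nat_lit 76) (nat_lit 4915980002) (nat_lit 338) (nat_lit 5) (nat_lit 350) (nat_lit 5) (nat_lit 339) (nat_lit 5) (nat_lit 371) (nat_lit 348) (nat_lit 181)) (XT.lf (nat_lit 0) (nat_lit 3578611862) (nat_lit 836) (nat_lit 4183344514) (nat_lit 912) (nat_lit 16906430239) (nat_lit 327) (nat_lit 5) (nat_lit 338) (nat_lit 5) (nat_lit 339) (nat_lit 5) (nat_lit 372) (nat_lit 348) (nat_lit 180))))))))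
noncomputable def xc119 : XT := (XT.nd (nat_lit 46020) (nat_lit 0) (nat_lit 684) (XT.nd (nat_lit 45162) (nat_lit 0) (nat_lit 10944) (XT.nd (nat_lit 390) (nat_lit 1368) (nat_lit 0) (XT.nd (nat_lit 156) (nat_lit 2280) (nat_lit 0) (XT.nd (nat_lit 78) (nat_lit 760) (nat_lit 0) (XT.lf (nat_lit 0) (nat_lit 11972305306) (nat_lit 912) (nat_lit 1720714399) (nat_lit 76) (nat_lit 11390254172) (nat_lit 327) (nat_lit 5) (nat_lit 339) (nat_lit 5) (nat_lit 328) (nat_lit 5) (nat_lit 373) (nat_lit 348) (nat_lit 179)) (XT.lf (nat_lit 0) (nat_lit 16462500086) (nat_lit 836) (nat_lit 7084628968) (nat_lit 76) (nat_lit 1960410180) (nat_lit 317) (nat_lit 5) (nat_lit 328) (nat_lit 5) (nat_lit 318) (nat_lit 5) (nat_lit 374) (nat_lit 348) (nat_lit 178))) (XT.nd (nat_lit 78) (nat_lit 1520) (nat_lit 0) (XT.lf (nat_lit 0) (nat_lit 13326031725) (nat_lit 760) (nat_lit 7944319983) (nat_lit 836) (nat_lit 4670523947) (nat_lit 307)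 (nat_lit 5) (nat_lit 317) (nat_lit 5) (nat_lit 318) (nat_lit 5) (nat_lit 375) (nat_lit 348) (nat_lit 177)) (XT.nd (nat_lit 78) (nat_lit 836) (nat_lit 0) (XT.lf (nat_lit 0) (nat_lit 8105754717) (nat_lit 684) (nat_lit 18263673926) (nat_lit 760) (nat_lit 14845791) (nat_lit 298) (nat_lit 5) (nat_lit 307) (nat_lit 5) (nat_lit 308) (nat_lit 5) (nat_lit 376) (nat_lit 348) (nat_lit 176)) (XT.lf (nat_lit 0) (nat_lit 2725208432) (nat_lit 760) (nat_lit 2142843910) (nat_lit 836) (nat_lit 21969299096) (nat_lit 287) (nat_lit 5) (nat_lit 297) (nat_lit 5) (nat_lit 298) (nat_lit 5) (nat_lit 377) (nat_lit 348) (nat_lit 175))))) (XT.nd (nat_lit 156) (nat_lit 684) (nat_lit 0) (XT.nd (nat_lit 78) (nat_lit 684) (nat_lit 0) (XT.lf (nat_lit 0) (nat_lit 10109333195) (nat_lit 836) (nat_lit 2794302285) (nat_lit 76) (nat_lit 14396143263) (nat_lit 287) (nat_lit 5) (nat_lit 298) (nat_lit 5) (nat_lit 288) (nat_lit 5) (nat_lit 378)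 (nat_lit 348) (nat_lit 174)) (XT.lf (nat_lit 0) (nat_lit 15666200164) (nat_lit 760) (nat_lit 8401632407) (nat_lit 76) (nat_lit 3705081192) (nat_lit 278) (nat_lit 5) (nat_lit 288) (nat_lit 5) (nat_lit 279) (nat_lit 5) (nat_lit 379) (nat_lit 348) (nat_lit 173))) (XT.nd (nat_lit 44460) (nat_lit 0) (nat_lit 10868) (XT.lf (nat_lit 0) (nat_lit 14071357976) (nat_lit 684) (nat_lit 7508971891) (nat_lit 760) (nat_lit 6676103627) (nat_lit 269) (nat_lit 5) (nat_lit 278) (nat_lit 5) (nat_lit 279) (nat_lit 5) (nat_lit 380) (nat_lit 348) (nat_lit 172)) (XT.nd (nat_lit 78) (nat_lit 0) (nat_lit 0) (XT.lf (nat_lit 0) (nat_lit 762706681) (nat_lit 0) (nat_lit 762706681) (nat_lit 1748) (nat_lit 7216112074) (nat_lit 412) (nat_lit 5) (nat_lit 412) (nat_lit 3) (nat_lit 435) (nat_lit 3) (nat_lit 349) (nat_lit 349) (nat_lit 202)) (XT.lf (nat_lit 0) (nat_lit 3487366225) (nat_lit 1748) (nat_lit 3490703038) (nat_lit 1824) (nat_lit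 10759300175) (nat_lit 412) (nat_lit 5) (nat_lit 435) (nat_lit 3) (nat_lit 436) (nat_lit 5) (nat_lit 350) (nat_lit 349) (nat_lit 201)))))) (XT.nd (nat_lit 390) (nat_lit 0) (nat_lit 228) (XT.nd (nat_lit 156) (nat_lit 0) (nat_lit 76) (XT.nd (nat_lit 78) (nat_lit 0) (nat_lit 0) (XT.lf (nat_lit 0) (nat_lit 4031618648) (nat_lit 1748) (nat_lit 8576060860) (nat_lit 1824) (nat_lit 5389750073) (nat_lit 413) (nat_lit 5) (nat_lit 436) (nat_lit 5) (nat_lit 437) (nat_lit 5) (nat_lit 351) (nat_lit 349) (nat_lit 200)) (XT.lf (nat_lit 76) (nat_lit 4509368036) (nat_lit 0) (nat_lit 170494516) (nat_lit 1824) (nat_lit 13583679929) (nat_lit 414) (nat_lit 5) (nat_lit 413) (nat_lit 5) (nat_lit 437) (nat_lit 5) (nat_lit 352) (nat_lit 349) (nat_lit 199))) (XT.nd (nat_lit 78) (nat_lit 0) (nat_lit 76) (XT.lf (nat_lit 0) (nat_lit 5476371468) (nat_lit 1748) (nat_lit 521057948) (nat_lit 1824) (nat_lit 12537637105) (nat_lit 414)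 (nat_lit 5) (nat_lit 437) (nat_lit 5) (nat_lit 438) (nat_lit 5) (nat_lit 353) (nat_lit 349) (nat_lit 198)) (XT.nd (nat_lit 78) (nat_lit 0) (nat_lit 76) (XT.lf (nat_lit 0) (nat_lit 6417519516) (nat_lit 1748) (nat_lit 5582698340) (nat_lit 1824) (nat_lit 6812107539) (nat_lit 415) (nat_lit 5) (nat_lit 438) (nat_lit 5) (nat_lit 439) (nat_lit 5) (nat_lit 354) (nat_lit 349) (nat_lit 197)) (XT.lf (nat_lit 0) (nat_lit 7479573546) (nat_lit 1748) (nat_lit 10737071923) (nat_lit 1824) (nat_lit 879407006) (nat_lit 416) (nat_lit 5) (nat_lit 439) (nat_lit 5) (nat_lit 440) (nat_lit 5) (nat_lit 355) (nat_lit 349) (nat_lit 196))))) (XT.nd (nat_lit 234) (nat_lit 0) (nat_lit 152) (XT.nd (nat_lit 78) (nat_lit 0) (nat_lit 76) (XT.lf (nat_lit 76) (nat_lit 3364452561) (nat_lit 0) (nat_lit 5338432065) (nat_lit 1824) (nat_lit 10682822592) (nat_lit 417) (nat_lit 5) (nat_lit 416) (nat_lit 5) (nat_lit 440) (nat_lit 5) (nat_lit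 356) (nat_lit 349) (nat_lit 195)) (XT.nd (nat_lit 78) (nat_lit 0) (nat_lit 76) (XT.lf (nat_lit 0) (nat_lit 10077109362) (nat_lit 1748) (nat_lit 1705634540) (nat_lit 1824) (nat_lit 7899027062) (nat_lit 417) (nat_lit 5) (nat_lit 440) (nat_lit 5) (nat_lit 441) (nat_lit 5) (nat_lit 357) (nat_lit 349) (nat_lit 194)) (XT.lf (nat_lit 0) (nat_lit 11613753064) (nat_lit 1748) (nat_lit 6825073575) (nat_lit 1824) (nat_lit 1545469685) (nat_lit 418) (nat_lit 5) (nat_lit 441) (nat_lit 5) (nat_lit 442) (nat_lit 5) (nat_lit 358) (nat_lit 349) (nat_lit 193)))) (XT.nd (nat_lit 78) (nat_lit 0) (nat_lit 76) (XT.lf (nat_lit 76) (nat_lit 8219643067) (nat_lit 0) (nat_lit 5110742841) (nat_lit 1824) (nat_lit 6962837179) (nat_lit 419) (nat_lit 5) (nat_lit 418) (nat_lit 5) (nat_lit 442) (nat_lit 5) (nat_lit 359) (nat_lit 349) (nat_lit 192)) (XT.nd (nat_lit 78) (nat_lit 0) (nat_lit 76) (XT.lf (nat_lit 76) (nat_lit 3176948924)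 (nat_lit 0) (nat_lit 12035052865) (nat_lit 1824) (nat_lit 5397149523) (nat_lit 420) (nat_lit 5) (nat_lit 419) (nat_lit 5) (nat_lit 443) (nat_lit 5) (nat_lit 360) (nat_lit 349) (nat_lit 191)) (XT.lf (nat_lit 0) (nat_lit 17267799331) (nat_lit 1748) (nat_lit 1935162009) (nat_lit 1824) (nat_lit 1729244622) (nat_lit 420) (nat_lit 5) (nat_lit 443) (nat_lit 5) (nat_lit 444) (nat_lit 5) (nat_lit 361) (nat_lit 349) (nat_lit 190))))))) (XT.nd (nat_lit 780) (nat_lit 5396) (nat_lit 0) (XT.nd (nat_lit 390) (nat_lit 3648) (nat_lit 0) (XT.nd (nat_lit 156) (nat_lit 0) (nat_lit 76) (XT.nd (nat_lit 78) (nat_lit 1748) (nat_lit 0) (XT.lf (nat_lit 76) (nat_lit 14124575542) (nat_lit 0) (nat_lit 5423763767) (nat_lit 1824) (nat_lit 1713354721) (nat_lit 421) (nat_lit 5) (nat_lit 420) (nat_lit 5) (nat_lit 444) (nat_lit 5) (nat_lit 362) (nat_lit 349) (nat_lit 189)) (XT.lf (nat_lit 0) (nat_lit 413778450) (nat_lit 1824) (nat_lit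 12453693680) (nat_lit 1900) (nat_lit 8731130444) (nat_lit 397) (nat_lit 5) (nat_lit 421) (nat_lit 5) (nat_lit 422) (nat_lit 5) (nat_lit 363) (nat_lit 349) (nat_lit 188))) (XT.nd (nat_lit 78) (nat_lit 0) (nat_lit 0) (XT.lf (nat_lit 0) (nat_lit 2693181010) (nat_lit 1824) (nat_lit 17885652033) (nat_lit 1900) (nat_lit 1364327073) (nat_lit 398) (nat_lit 5) (nat_lit 422) (nat_lit 5) (nat_lit 423) (nat_lit 5) (nat_lit 364) (nat_lit 349) (nat_lit 187)) (XT.nd (nat_lit 78) (nat_lit 0) (nat_lit 76) (XT.lf (nat_lit 0) (nat_lit 5203451071) (nat_lit 1824) (nat_lit 1155593112) (nat_lit 1900) (nat_lit 15935763315) (nat_lit 398) (nat_lit 5) (nat_lit 422) (nat_lit 5) (nat_lit 423) (nat_lit 5) (nat_lit 365) (nat_lit 349) (nat_lit 186)) (XT.lf (nat_lit 0) (nat_lit 7940998893) (nat_lit 1824) (nat_lit 6426575174) (nat_lit 76) (nat_lit 8286393585) (nat_lit 399) (nat_lit 5) (nat_lit 423) (nat_lit 5) (nat_lit 400) (nat_lit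 5) (nat_lit 366) (nat_lit 349) (nat_lit 185))))) (XT.nd (nat_lit 156) (nat_lit 1748) (nat_lit 0) (XT.nd (nat_lit 78) (nat_lit 912) (nat_lit 0) (XT.lf (nat_lit 0) (nat_lit 10878122106) (nat_lit 1216) (nat_lit 11802294273) (nat_lit 76) (nat_lit 341139915) (nat_lit 384) (nat_lit 5) (nat_lit 400) (nat_lit 5) (nat_lit 385) (nat_lit 5) (nat_lit 367) (nat_lit 349) (nat_lit 184)) (XT.lf (nat_lit 0) (nat_lit 6059200857) (nat_lit 912) (nat_lit 8015553033) (nat_lit 988) (nat_lit 9321993391) (nat_lit 372) (nat_lit 5) (nat_lit 384) (nat_lit 5) (nat_lit 385) (nat_lit 5) (nat_lit 368) (nat_lit 349) (nat_lit 183))) (XT.nd (nat_lit 78) (nat_lit 912) (nat_lit 0) (XT.lf (nat_lit 0) (nat_lit 793260505) (nat_lit 836) (nat_lit 16698032698) (nat_lit 912) (nat_lit 6289423134) (nat_lit 361) (nat_lit 5) (nat_lit 372) (nat_lit 5) (nat_lit 373) (nat_lit 5) (nat_lit 369) (nat_lit 349) (nat_lit 182)) (XT.nd (nat_lit 78) (nat_lit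 912) (nat_lit 0) (XT.lf (nat_lit 0) (nat_lit 19644026235) (nat_lit 836) (nat_lit 1529540701) (nat_lit 912) (nat_lit 2999375199) (nat_lit 361) (nat_lit 5) (nat_lit 372) (nat_lit 5) (nat_lit 373) (nat_lit 5) (nat_lit 370) (nat_lit 349) (nat_lit 181)) (XT.lf (nat_lit 0) (nat_lit 564319550) (nat_lit 912) (nat_lit 10000948095) (nat_lit 76) (nat_lit 14008017779) (nat_lit 349) (nat_lit 5) (nat_lit 361) (nat_lit 5) (nat_lit 350) (nat_lit 5) (nat_lit 371) (nat_lit 349) (nat_lit 180)))))) (XT.nd (nat_lit 390) (nat_lit 2204) (nat_lit 0) (XT.nd (nat_lit 156) (nat_lit 1520) (nat_lit 0) (XT.nd (nat_lit 78) (nat_lit 836) (nat_lit 0) (XT.lf (nat_lit 0) (nat_lit 4322708577) (nat_lit 912) (nat_lit 15606970267) (nat_lit 76) (nat_lit 5052995237) (nat_lit 338) (nat_lit 5) (nat_lit 350) (nat_lit 5) (nat_lit 339) (nat_lit 5) (nat_lit 372) (nat_lit 349) (nat_lit 179)) (XT.lf (nat_lit 0) (nat_lit 4042542667) (nat_lit 836)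 (nat_lit 4309434933) (nat_lit 912) (nat_lit 17049206418) (nat_lit 327) (nat_lit 5) (nat_lit 338) (nat_lit 5) (nat_lit 339) (nat_lit 5) (nat_lit 373) (nat_lit 349) (nat_lit 178))) (XT.nd (nat_lit 78) (nat_lit 1520) (nat_lit 0) (XT.lf (nat_lit 0) (nat_lit 12678230486) (nat_lit 912) (nat_lit 1419102360) (nat_lit 76) (nat_lit 11731396414) (nat_lit 327) (nat_lit 5) (nat_lit 339) (nat_lit 5) (nat_lit 328) (nat_lit 5) (nat_lit 374) (nat_lit 349) (nat_lit 177)) (XT.nd (nat_lit 78) (nat_lit 760) (nat_lit 0) (XT.lf (nat_lit 0) (nat_lit 17295343410) (nat_lit 836) (nat_lit 6942838105) (nat_lit 76) (nat_lit 2027699953) (nat_lit 317) (nat_lit 5) (nat_lit 328) (nat_lit 5) (nat_lit 318) (nat_lit 5) (nat_lit 375) (nat_lit 349) (nat_lit 176)) (XT.lf (nat_lit 0) (nat_lit 14074393829) (nat_lit 760) (nat_lit 8165427108) (nat_lit 836) (nat_lit 4472552284) (nat_lit 307) (nat_lit 5) (nat_lit 317) (nat_lit 5) (nat_lit 318)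 (nat_lit 5) (nat_lit 376) (nat_lit 349) (nat_lit 175))))) (XT.nd (nat_lit 234) (nat_lit 684) (nat_lit 0) (XT.nd (nat_lit 78) (nat_lit 760) (nat_lit 0) (XT.lf (nat_lit 0) (nat_lit 311237701) (nat_lit 760) (nat_lit 18472907287) (nat_lit 76) (nat_lit 8385036458) (nat_lit 297) (nat_lit 5) (nat_lit 307) (nat_lit 5) (nat_lit 298) (nat_lit 5) (nat_lit 377) (nat_lit 349) (nat_lit 174)) (XT.nd (nat_lit 78) (nat_lit 0) (nat_lit 0) (XT.lf (nat_lit 0) (nat_lit 3155092326) (nat_lit 760) (nat_lit 2178085474) (nat_lit 836) (nat_lit 22302818679) (nat_lit 287) (nat_lit 5) (nat_lit 297) (nat_lit 5) (nat_lit 298) (nat_lit 5) (nat_lit 378) (nat_lit 349) (nat_lit 173)) (XT.lf (nat_lit 0) (nat_lit 10722586452) (nat_lit 836) (nat_lit 2534039536) (nat_lit 76) (nat_lit 14855855561) (nat_lit 287) (nat_lit 5) (nat_lit 298) (nat_lit 5) (nat_lit 288) (nat_lit 5) (nat_lit 379) (nat_lit 349) (nat_lit 172)))) (XT.nd (nat_lit 44538)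 (nat_lit 0) (nat_lit 10184) (XT.lf (nat_lit 0) (nat_lit 16439558533) (nat_lit 760) (nat_lit 8309250372) (nat_lit 76) (nat_lit 3851136385) (nat_lit 278) (nat_lit 5) (nat_lit 288) (nat_lit 5) (nat_lit 279) (nat_lit 5) (nat_lit 380) (nat_lit 349) (nat_lit 171)) (XT.nd (nat_lit 78) (nat_lit 0) (nat_lit 0) (XT.lf (nat_lit 0) (nat_lit 944046015) (nat_lit 0) (nat_lit 944046015) (nat_lit 1748) (nat_lit 7109230259) (nat_lit 412) (nat_lit 5) (nat_lit 412) (nat_lit 3) (nat_lit 435) (nat_lit 3) (nat_lit 350) (nat_lit 350) (nat_lit 200)) (XT.lf (nat_lit 0) (nat_lit 4205360905) (nat_lit 1748) (nat_lit 3273218579) (nat_lit 1824) (nat_lit 10778428836) (nat_lit 412) (nat_lit 5) (nat_lit 435) (nat_lit 3) (nat_lit 436) (nat_lit 5) (nat_lit 351) (nat_lit 350) (nat_lit 199))))))))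
noncomputable def xc120 : XT := (XT.nd (nat_lit 1560) (nat_lit 5624) (nat_lit 0) (XT.nd (nat_lit 780) (nat_lit 3952) (nat_lit 0) (XT.nd (nat_lit 390) (nat_lit 0) (nat_lit 228) (XT.nd (nat_lit 156) (nat_lit 0) (nat_lit 76) (XT.nd (nat_lit 78) (nat_lit 0) (nat_lit 0) (XT.lf (nat_lit 0) (nat_lit 4748311914) (nat_lit 1748) (nat_lit 8502382970) (nat_lit 1824) (nat_lit 5274534218) (nat_lit 413) (nat_lit 5) (nat_lit 436) (nat_lit 5) (nat_lit 437) (nat_lit 5) (nat_lit 352) (nat_lit 350) (nat_lit 198)) (XT.lf (nat_lit 76) (nat_lit 4970239366) (nat_lit 0) (nat_lit 430525931) (nat_lit 1824) (nat_lit 13398870921) (nat_lit 414) (nat_lit 5) (nat_lit 413) (nat_lit 5) (nat_lit 437) (nat_lit 5) (nat_lit 353) (nat_lit 350) (nat_lit 197))) (XT.nd (nat_lit 78) (nat_lit 0) (nat_lit 76) (XT.lf (nat_lit 0) (nat_lit 6202654632) (nat_lit 1748) (nat_lit 207507246) (nat_lit 1824) (nat_lit 12669520294) (nat_lit 414) (nat_lit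 5) (nat_lit 437) (nat_lit 5) (nat_lit 438) (nat_lit 5) (nat_lit 354) (nat_lit 350) (nat_lit 196)) (XT.nd (nat_lit 78) (nat_lit 0) (nat_lit 76) (XT.lf (nat_lit 0) (nat_lit 7156317414) (nat_lit 1748) (nat_lit 5413738539) (nat_lit 1824) (nat_lit 6795522975) (nat_lit 415) (nat_lit 5) (nat_lit 438) (nat_lit 5) (nat_lit 439) (nat_lit 5) (nat_lit 355) (nat_lit 350) (nat_lit 195)) (XT.lf (nat_lit 0) (nat_lit 8235162724) (nat_lit 1748) (nat_lit 10716057794) (nat_lit 1824) (nat_lit 706904266) (nat_lit 416) (nat_lit 5) (nat_lit 439) (nat_lit 5) (nat_lit 440) (nat_lit 5) (nat_lit 356) (nat_lit 350) (nat_lit 194))))) (XT.nd (nat_lit 156) (nat_lit 0) (nat_lit 152) (XT.nd (nat_lit 78) (nat_lit 0) (nat_lit 76) (XT.lf (nat_lit 76) (nat_lit 3802945608) (nat_lit 0) (nat_lit 5678947286) (nat_lit 1824) (nat_lit 10474847275) (nat_lit 417) (nat_lit 5) (nat_lit 416) (nat_lit 5) (nat_lit 440) (nat_lit 5) (nat_lit 357) (nat_lit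 350) (nat_lit 193)) (XT.lf (nat_lit 0) (nat_lit 10881122350) (nat_lit 1748) (nat_lit 1417707686) (nat_lit 1824) (nat_lit 7963185471) (nat_lit 417) (nat_lit 5) (nat_lit 440) (nat_lit 5) (nat_lit 441) (nat_lit 5) (nat_lit 358) (nat_lit 350) (nat_lit 192))) (XT.nd (nat_lit 78) (nat_lit 0) (nat_lit 0) (XT.lf (nat_lit 0) (nat_lit 12450408028) (nat_lit 1748) (nat_lit 6685266114) (nat_lit 1824) (nat_lit 1438216717) (nat_lit 418) (nat_lit 5) (nat_lit 441) (nat_lit 5) (nat_lit 442) (nat_lit 5) (nat_lit 359) (nat_lit 350) (nat_lit 191)) (XT.nd (nat_lit 78) (nat_lit 0) (nat_lit 76) (XT.lf (nat_lit 76) (nat_lit 8805201956) (nat_lit 0) (nat_lit 5401318066) (nat_lit 1824) (nat_lit 6685810737) (nat_lit 419) (nat_lit 5) (nat_lit 418) (nat_lit 5) (nat_lit 442) (nat_lit 5) (nat_lit 360) (nat_lit 350) (nat_lit 190)) (XT.lf (nat_lit 76) (nat_lit 3616136118) (nat_lit 0) (nat_lit 12515945209) (nat_lit 1824) (nat_lit 5085910358)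 (nat_lit 420) (nat_lit 5) (nat_lit 419) (nat_lit 5) (nat_lit 443) (nat_lit 5) (nat_lit 361) (nat_lit 350) (nat_lit 189)))))) (XT.nd (nat_lit 390) (nat_lit 2736) (nat_lit 0) (XT.nd (nat_lit 156) (nat_lit 1748) (nat_lit 0) (XT.nd (nat_lit 78) (nat_lit 0) (nat_lit 0) (XT.lf (nat_lit 0) (nat_lit 18235290979) (nat_lit 1748) (nat_lit 1649439221) (nat_lit 1824) (nat_lit 1666297665) (nat_lit 420) (nat_lit 5) (nat_lit 443) (nat_lit 5) (nat_lit 444) (nat_lit 5) (nat_lit 362) (nat_lit 350) (nat_lit 188)) (XT.lf (nat_lit 76) (nat_lit 14886513073) (nat_lit 0) (nat_lit 5686838904) (nat_lit 1824) (nat_lit 1317271020) (nat_lit 421) (nat_lit 5) (nat_lit 420) (nat_lit 5) (nat_lit 444) (nat_lit 5) (nat_lit 363) (nat_lit 350) (nat_lit 187))) (XT.nd (nat_lit 78) (nat_lit 0) (nat_lit 76) (XT.lf (nat_lit 0) (nat_lit 856543949) (nat_lit 1824) (nat_lit 12479310463) (nat_lit 1900) (nat_lit 8901955845) (nat_lit 397) (nat_lit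 5) (nat_lit 421) (nat_lit 5) (nat_lit 422) (nat_lit 5) (nat_lit 364) (nat_lit 350) (nat_lit 186)) (XT.nd (nat_lit 78) (nat_lit 0) (nat_lit 0) (XT.lf (nat_lit 0) (nat_lit 3193512380) (nat_lit 1824) (nat_lit 18070828944) (nat_lit 1900) (nat_lit 1328583700) (nat_lit 398) (nat_lit 5) (nat_lit 422) (nat_lit 5) (nat_lit 423) (nat_lit 5) (nat_lit 365) (nat_lit 350) (nat_lit 185)) (XT.lf (nat_lit 0) (nat_lit 5766871050) (nat_lit 1824) (nat_lit 849102993) (nat_lit 1900) (nat_lit 16339396229) (nat_lit 398) (nat_lit 5) (nat_lit 422) (nat_lit 5) (nat_lit 423) (nat_lit 5) (nat_lit 366) (nat_lit 350) (nat_lit 184))))) (XT.nd (nat_lit 156) (nat_lit 1748) (nat_lit 0) (XT.nd (nat_lit 78) (nat_lit 1140) (nat_lit 0) (XT.lf (nat_lit 0) (nat_lit 8576458204) (nat_lit 1824) (nat_lit 6275262969) (nat_lit 76) (nat_lit 8473789734) (nat_lit 399) (nat_lit 5) (nat_lit 423) (nat_lit 5) (nat_lit 400) (nat_lit 5) (nat_lit 367) (nat_lit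 350) (nat_lit 183)) (XT.lf (nat_lit 0) (nat_lit 11592002979) (nat_lit 1216) (nat_lit 11809631604) (nat_lit 76) (nat_lit 302690290) (nat_lit 384) (nat_lit 5) (nat_lit 400) (nat_lit 5) (nat_lit 385) (nat_lit 5) (nat_lit 368) (nat_lit 350) (nat_lit 182))) (XT.nd (nat_lit 78) (nat_lit 836) (nat_lit 0) (XT.lf (nat_lit 0) (nat_lit 6582083073) (nat_lit 912) (nat_lit 8293377839) (nat_lit 988) (nat_lit 9215495843) (nat_lit 372) (nat_lit 5) (nat_lit 384) (nat_lit 5) (nat_lit 385) (nat_lit 5) (nat_lit 369) (nat_lit 350) (nat_lit 181)) (XT.nd (nat_lit 78) (nat_lit 0) (nat_lit 0) (XT.lf (nat_lit 0) (nat_lit 1160437222) (nat_lit 836) (nat_lit 17225029901) (nat_lit 912) (nat_lit 6101161946) (nat_lit 361) (nat_lit 5) (nat_lit 372) (nat_lit 5) (nat_lit 373) (nat_lit 5) (nat_lit 370) (nat_lit 350) (nat_lit 180)) (XT.lf (nat_lit 0) (nat_lit 20566724597) (nat_lit 836) (nat_lit 1600724225) (nat_lit 912) (nat_lit 2723391521)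 (nat_lit 361) (nat_lit 5) (nat_lit 372) (nat_lit 5) (nat_lit 373) (nat_lit 5) (nat_lit 371) (nat_lit 350) (nat_lit 179))))))) (XT.nd (nat_lit 45318) (nat_lit 0) (nat_lit 9500) (XT.nd (nat_lit 390) (nat_lit 2280) (nat_lit 0) (XT.nd (nat_lit 156) (nat_lit 1596) (nat_lit 0) (XT.nd (nat_lit 78) (nat_lit 836) (nat_lit 0) (XT.lf (nat_lit 0) (nat_lit 933925901) (nat_lit 912) (nat_lit 9960876420) (nat_lit 76) (nat_lit 14408517186) (nat_lit 349) (nat_lit 5) (nat_lit 361) (nat_lit 5) (nat_lit 350) (nat_lit 5) (nat_lit 372) (nat_lit 350) (nat_lit 178)) (XT.lf (nat_lit 0) (nat_lit 4796901900) (nat_lit 912) (nat_lit 15733532834) (nat_lit 76) (nat_lit 5194721615) (nat_lit 338) (nat_lit 5) (nat_lit 350) (nat_lit 5) (nat_lit 339) (nat_lit 5) (nat_lit 373) (nat_lit 350) (nat_lit 177))) (XT.nd (nat_lit 78) (nat_lit 760) (nat_lit 0) (XT.lf (nat_lit 0) (nat_lit 4499922679) (nat_lit 836) (nat_lit 4439274191) (nat_lit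 912) (nat_lit 17217184894) (nat_lit 327) (nat_lit 5) (nat_lit 338) (nat_lit 5) (nat_lit 339) (nat_lit 5) (nat_lit 374) (nat_lit 350) (nat_lit 176)) (XT.nd (nat_lit 78) (nat_lit 760) (nat_lit 0) (XT.lf (nat_lit 0) (nat_lit 13385428207) (nat_lit 912) (nat_lit 1128719006) (nat_lit 76) (nat_lit 12082805378) (nat_lit 327) (nat_lit 5) (nat_lit 339) (nat_lit 5) (nat_lit 328) (nat_lit 5) (nat_lit 375) (nat_lit 350) (nat_lit 175)) (XT.lf (nat_lit 0) (nat_lit 18133713866) (nat_lit 836) (nat_lit 6817133494) (nat_lit 76) (nat_lit 2096521778) (nat_lit 317) (nat_lit 5) (nat_lit 328) (nat_lit 5) (nat_lit 318) (nat_lit 5) (nat_lit 376) (nat_lit 350) (nat_lit 174))))) (XT.nd (nat_lit 156) (nat_lit 760) (nat_lit 0) (XT.nd (nat_lit 78) (nat_lit 760) (nat_lit 0) (XT.lf (nat_lit 0) (nat_lit 14825196812) (nat_lit 760) (nat_lit 8394156088) (nat_lit 836) (nat_lit 4288049070) (nat_lit 307) (nat_lit 5) (nat_lit 317) (nat_lit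 5) (nat_lit 318) (nat_lit 5) (nat_lit 377) (nat_lit 350) (nat_lit 173)) (XT.lf (nat_lit 0) (nat_lit 628170571) (nat_lit 760) (nat_lit 18693539278) (nat_lit 76) (nat_lit 8656304033) (nat_lit 297) (nat_lit 5) (nat_lit 307) (nat_lit 5) (nat_lit 298) (nat_lit 5) (nat_lit 378) (nat_lit 350) (nat_lit 172))) (XT.nd (nat_lit 78) (nat_lit 0) (nat_lit 0) (XT.lf (nat_lit 0) (nat_lit 3577888786) (nat_lit 760) (nat_lit 2216051514) (nat_lit 836) (nat_lit 22665032290) (nat_lit 287) (nat_lit 5) (nat_lit 297) (nat_lit 5) (nat_lit 298) (nat_lit 5) (nat_lit 379) (nat_lit 350) (nat_lit 171)) (XT.nd (nat_lit 44616) (nat_lit 0) (nat_lit 9500) (XT.lf (nat_lit 0) (nat_lit 11336443572) (nat_lit 836) (nat_lit 2285721182) (nat_lit 76) (nat_lit 15327761786) (nat_lit 287) (nat_lit 5) (nat_lit 298) (nat_lit 5) (nat_lit 288) (nat_lit 5) (nat_lit 380) (nat_lit 350) (nat_lit 170)) (XT.lf (nat_lit 0) (nat_lit 1121729384) (nat_lit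 0) (nat_lit 1121729384) (nat_lit 1748) (nat_lit 7017704474) (nat_lit 412) (nat_lit 5) (nat_lit 412) (nat_lit 3) (nat_lit 435) (nat_lit 3) (nat_lit 351) (nat_lit 351) (nat_lit 198)))))) (XT.nd (nat_lit 390) (nat_lit 0) (nat_lit 304) (XT.nd (nat_lit 156) (nat_lit 0) (nat_lit 76) (XT.nd (nat_lit 78) (nat_lit 0) (nat_lit 76) (XT.lf (nat_lit 0) (nat_lit 4909685267) (nat_lit 1748) (nat_lit 3067705502) (nat_lit 1824) (nat_lit 10815562130) (nat_lit 412) (nat_lit 5) (nat_lit 435) (nat_lit 3) (nat_lit 436) (nat_lit 5) (nat_lit 352) (nat_lit 351) (nat_lit 197)) (XT.lf (nat_lit 0) (nat_lit 5452307796) (nat_lit 1748) (nat_lit 8445493184) (nat_lit 1824) (nat_lit 5171757559) (nat_lit 413) (nat_lit 5) (nat_lit 436) (nat_lit 5) (nat_lit 437) (nat_lit 5) (nat_lit 353) (nat_lit 351) (nat_lit 196))) (XT.nd (nat_lit 78) (nat_lit 0) (nat_lit 76) (XT.lf (nat_lit 76) (nat_lit 5426246621) (nat_lit 0) (nat_lit 683725034) (nat_lit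 1824) (nat_lit 13242519200) (nat_lit 414) (nat_lit 5) (nat_lit 413) (nat_lit 5) (nat_lit 437) (nat_lit 5) (nat_lit 354) (nat_lit 351) (nat_lit 195)) (XT.nd (nat_lit 78) (nat_lit 0) (nat_lit 76) (XT.lf (nat_lit 76) (nat_lit 97836704) (nat_lit 0) (nat_lit 6821264167) (nat_lit 1824) (nat_lit 12722179210) (nat_lit 415) (nat_lit 5) (nat_lit 414) (nat_lit 5) (nat_lit 438) (nat_lit 5) (nat_lit 355) (nat_lit 351) (nat_lit 194)) (XT.lf (nat_lit 0) (nat_lit 7885920984) (nat_lit 1748) (nat_lit 5259023019) (nat_lit 1824) (nat_lit 6791124182) (nat_lit 415) (nat_lit 5) (nat_lit 438) (nat_lit 5) (nat_lit 439) (nat_lit 5) (nat_lit 356) (nat_lit 351) (nat_lit 193))))) (XT.nd (nat_lit 234) (nat_lit 0) (nat_lit 152) (XT.nd (nat_lit 78) (nat_lit 0) (nat_lit 0) (XT.lf (nat_lit 0) (nat_lit 8982926411) (nat_lit 1748) (nat_lit 10714110093) (nat_lit 1824) (nat_lit 540643254) (nat_lit 416) (nat_lit 5) (nat_lit 439) (nat_lit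 5) (nat_lit 440) (nat_lit 5) (nat_lit 357) (nat_lit 351) (nat_lit 192)) (XT.nd (nat_lit 78) (nat_lit 0) (nat_lit 76) (XT.lf (nat_lit 76) (nat_lit 4235216153) (nat_lit 0) (nat_lit 6019324432) (nat_lit 1824) (nat_lit 10290968464) (nat_lit 417) (nat_lit 5) (nat_lit 416) (nat_lit 5) (nat_lit 440) (nat_lit 5) (nat_lit 358) (nat_lit 351) (nat_lit 191)) (XT.lf (nat_lit 0) (nat_lit 11680456112) (nat_lit 1748) (nat_lit 1140608518) (nat_lit 1824) (nat_lit 8039188770) (nat_lit 417) (nat_lit 5) (nat_lit 440) (nat_lit 5) (nat_lit 441) (nat_lit 5) (nat_lit 359) (nat_lit 351) (nat_lit 190)))) (XT.nd (nat_lit 78) (nat_lit 0) (nat_lit 0) (XT.lf (nat_lit 0) (nat_lit 13284135532) (nat_lit 1748) (nat_lit 6561043563) (nat_lit 1824) (nat_lit 1336564408) (nat_lit 418) (nat_lit 5) (nat_lit 441) (nat_lit 5) (nat_lit 442) (nat_lit 5) (nat_lit 360) (nat_lit 351) (nat_lit 189)) (XT.nd (nat_lit 78) (nat_lit 0) (nat_lit 76) (XT.lf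 (nat_lit 76) (nat_lit 9388869371) (nat_lit 0) (nat_lit 5692731666) (nat_lit 1824) (nat_lit 6428366813) (nat_lit 419) (nat_lit 5) (nat_lit 418) (nat_lit 5) (nat_lit 442) (nat_lit 5) (nat_lit 361) (nat_lit 351) (nat_lit 188)) (XT.lf (nat_lit 76) (nat_lit 4048758882) (nat_lit 0) (nat_lit 13004384973) (nat_lit 1824) (nat_lit 4792494973) (nat_lit 420) (nat_lit 5) (nat_lit 419) (nat_lit 5) (nat_lit 443) (nat_lit 5) (nat_lit 362) (nat_lit 351) (nat_lit 187))))))))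
noncomputable def xc121 : XT := (XT.nd (nat_lit 46254) (nat_lit 0) (nat_lit 3116) (XT.nd (nat_lit 780) (nat_lit 4864) (nat_lit 0) (XT.nd (nat_lit 390) (nat_lit 2736) (nat_lit 0) (XT.nd (nat_lit 156) (nat_lit 1748) (nat_lit 0) (XT.nd (nat_lit 78) (nat_lit 0) (nat_lit 0) (XT.lf (nat_lit 0) (nat_lit 19206006667) (nat_lit 1748) (nat_lit 1374878992) (nat_lit 1824) (nat_lit 1608053683) (nat_lit 420) (nat_lit 5) (nat_lit 443) (nat_lit 5) (nat_lit 444) (nat_lit 5) (nat_lit 363) (nat_lit 351) (nat_lit 186)) (XT.lf (nat_lit 76) (nat_lit 15651894652) (nat_lit 0) (nat_lit 5952045092) (nat_lit 1824) (nat_lit 934992238) (nat_lit 421) (nat_lit 5) (nat_lit 420) (nat_lit 5) (nat_lit 444) (nat_lit 5) (nat_lit 364) (nat_lit 351) (nat_lit 185))) (XT.nd (nat_lit 78) (nat_lit 0) (nat_lit 76) (XT.lf (nat_lit 0) (nat_lit 1287888439) (nat_lit 1824) (nat_lit 12525672031) (nat_lit 1900) (nat_lit 9083136009) (nat_lit 397) (nat_lit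 5) (nat_lit 421) (nat_lit 5) (nat_lit 422) (nat_lit 5) (nat_lit 365) (nat_lit 351) (nat_lit 184)) (XT.nd (nat_lit 78) (nat_lit 0) (nat_lit 0) (XT.lf (nat_lit 0) (nat_lit 3684770612) (nat_lit 1824) (nat_lit 18281732537) (nat_lit 1900) (nat_lit 1296169381) (nat_lit 398) (nat_lit 5) (nat_lit 422) (nat_lit 5) (nat_lit 423) (nat_lit 5) (nat_lit 366) (nat_lit 351) (nat_lit 183)) (XT.lf (nat_lit 0) (nat_lit 6323811998) (nat_lit 1824) (nat_lit 553002029) (nat_lit 1900) (nat_lit 16759411291) (nat_lit 398) (nat_lit 5) (nat_lit 422) (nat_lit 5) (nat_lit 423) (nat_lit 5) (nat_lit 367) (nat_lit 351) (nat_lit 182))))) (XT.nd (nat_lit 156) (nat_lit 1748) (nat_lit 0) (XT.nd (nat_lit 78) (nat_lit 1140) (nat_lit 0) (XT.lf (nat_lit 0) (nat_lit 9208178706) (nat_lit 1824) (nat_lit 6139164689) (nat_lit 76) (nat_lit 8670320648) (nat_lit 399) (nat_lit 5) (nat_lit 423) (nat_lit 5) (nat_lit 400) (nat_lit 5) (nat_lit 368) (nat_lit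 351) (nat_lit 181)) (XT.lf (nat_lit 0) (nat_lit 12305054056) (nat_lit 1216) (nat_lit 11837092861) (nat_lit 76) (nat_lit 265881826) (nat_lit 384) (nat_lit 5) (nat_lit 400) (nat_lit 5) (nat_lit 385) (nat_lit 5) (nat_lit 369) (nat_lit 351) (nat_lit 180))) (XT.nd (nat_lit 78) (nat_lit 836) (nat_lit 0) (XT.lf (nat_lit 0) (nat_lit 7101070865) (nat_lit 912) (nat_lit 8577392876) (nat_lit 988) (nat_lit 9127970379) (nat_lit 372) (nat_lit 5) (nat_lit 384) (nat_lit 5) (nat_lit 385) (nat_lit 5) (nat_lit 370) (nat_lit 351) (nat_lit 179)) (XT.nd (nat_lit 78) (nat_lit 0) (nat_lit 0) (XT.lf (nat_lit 0) (nat_lit 1518917888) (nat_lit 836) (nat_lit 17766341287) (nat_lit 912) (nat_lit 5928891043) (nat_lit 361) (nat_lit 5) (nat_lit 372) (nat_lit 5) (nat_lit 373) (nat_lit 5) (nat_lit 371) (nat_lit 351) (nat_lit 178)) (XT.lf (nat_lit 0) (nat_lit 21497966674) (nat_lit 836) (nat_lit 1672591086) (nat_lit 912) (nat_lit 2460136218)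 (nat_lit 361) (nat_lit 5) (nat_lit 372) (nat_lit 5) (nat_lit 373) (nat_lit 5) (nat_lit 372) (nat_lit 351) (nat_lit 177)))))) (XT.nd (nat_lit 390) (nat_lit 1520) (nat_lit 0) (XT.nd (nat_lit 156) (nat_lit 1596) (nat_lit 0) (XT.nd (nat_lit 78) (nat_lit 836) (nat_lit 0) (XT.lf (nat_lit 0) (nat_lit 1294375354) (nat_lit 912) (nat_lit 9939125732) (nat_lit 76) (nat_lit 14822164797) (nat_lit 349) (nat_lit 5) (nat_lit 361) (nat_lit 5) (nat_lit 350) (nat_lit 5) (nat_lit 373) (nat_lit 351) (nat_lit 176)) (XT.lf (nat_lit 0) (nat_lit 5265544621) (nat_lit 912) (nat_lit 15883504187) (nat_lit 76) (nat_lit 5341265988) (nat_lit 338) (nat_lit 5) (nat_lit 350) (nat_lit 5) (nat_lit 339) (nat_lit 5) (nat_lit 374) (nat_lit 351) (nat_lit 175))) (XT.nd (nat_lit 78) (nat_lit 760) (nat_lit 0) (XT.lf (nat_lit 0) (nat_lit 4951730361) (nat_lit 836) (nat_lit 4572976699) (nat_lit 912) (nat_lit 17409920899) (nat_lit 327) (nat_lit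 5) (nat_lit 338) (nat_lit 5) (nat_lit 339) (nat_lit 5) (nat_lit 375) (nat_lit 351) (nat_lit 174)) (XT.nd (nat_lit 78) (nat_lit 760) (nat_lit 0) (XT.lf (nat_lit 0) (nat_lit 14095079287) (nat_lit 912) (nat_lit 848737213) (nat_lit 76) (nat_lit 12444787204) (nat_lit 327) (nat_lit 5) (nat_lit 339) (nat_lit 5) (nat_lit 328) (nat_lit 5) (nat_lit 376) (nat_lit 351) (nat_lit 173)) (XT.lf (nat_lit 0) (nat_lit 18978894246) (nat_lit 836) (nat_lit 6706830122) (nat_lit 76) (nat_lit 2166949552) (nat_lit 317) (nat_lit 5) (nat_lit 328) (nat_lit 5) (nat_lit 318) (nat_lit 5) (nat_lit 377) (nat_lit 351) (nat_lit 172))))) (XT.nd (nat_lit 44850) (nat_lit 0) (nat_lit 8740) (XT.nd (nat_lit 78) (nat_lit 760) (nat_lit 0) (XT.lf (nat_lit 0) (nat_lit 15579662555) (nat_lit 760) (nat_lit 8630678825) (nat_lit 836) (nat_lit 4116304283) (nat_lit 307) (nat_lit 5) (nat_lit 317) (nat_lit 5) (nat_lit 318) (nat_lit 5) (nat_lit 378) (nat_lit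 351) (nat_lit 171)) (XT.lf (nat_lit 0) (nat_lit 936954174) (nat_lit 760) (nat_lit 18939937664) (nat_lit 76) (nat_lit 8934577829) (nat_lit 297) (nat_lit 5) (nat_lit 307) (nat_lit 5) (nat_lit 298) (nat_lit 5) (nat_lit 379) (nat_lit 351) (nat_lit 170))) (XT.nd (nat_lit 78) (nat_lit 0) (nat_lit 0) (XT.lf (nat_lit 0) (nat_lit 1296169265) (nat_lit 0) (nat_lit 1296169265) (nat_lit 1748) (nat_lit 6940929836) (nat_lit 412) (nat_lit 5) (nat_lit 412) (nat_lit 3) (nat_lit 435) (nat_lit 3) (nat_lit 352) (nat_lit 352) (nat_lit 196)) (XT.nd (nat_lit 78) (nat_lit 0) (nat_lit 76) (XT.lf (nat_lit 0) (nat_lit 5601950407) (nat_lit 1748) (nat_lit 2873461208) (nat_lit 1824) (nat_lit 10870239597) (nat_lit 412) (nat_lit 5) (nat_lit 435) (nat_lit 3) (nat_lit 436) (nat_lit 5) (nat_lit 353) (nat_lit 352) (nat_lit 195)) (XT.lf (nat_lit 0) (nat_lit 6145188486) (nat_lit 1748) (nat_lit 8404804558) (nat_lit 1824) (nat_lit 5080880797)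 (nat_lit 413) (nat_lit 5) (nat_lit 436) (nat_lit 5) (nat_lit 437) (nat_lit 5) (nat_lit 354) (nat_lit 352) (nat_lit 194))))))) (XT.nd (nat_lit 780) (nat_lit 5700) (nat_lit 0) (XT.nd (nat_lit 390) (nat_lit 0) (nat_lit 304) (XT.nd (nat_lit 156) (nat_lit 0) (nat_lit 152) (XT.nd (nat_lit 78) (nat_lit 0) (nat_lit 76) (XT.lf (nat_lit 76) (nat_lit 5878316773) (nat_lit 0) (nat_lit 930726864) (nat_lit 1824) (nat_lit 13113526655) (nat_lit 414) (nat_lit 5) (nat_lit 413) (nat_lit 5) (nat_lit 437) (nat_lit 5) (nat_lit 355) (nat_lit 352) (nat_lit 193)) (XT.lf (nat_lit 76) (nat_lit 397132970) (nat_lit 0) (nat_lit 7230787730) (nat_lit 1824) (nat_lit 12592398253) (nat_lit 415) (nat_lit 5) (nat_lit 414) (nat_lit 5) (nat_lit 438) (nat_lit 5) (nat_lit 356) (nat_lit 352) (nat_lit 192))) (XT.nd (nat_lit 78) (nat_lit 0) (nat_lit 76) (XT.lf (nat_lit 0) (nat_lit 8607854487) (nat_lit 1748) (nat_lit 5117870460) (nat_lit 1824)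 (nat_lit 6798548658) (nat_lit 415) (nat_lit 5) (nat_lit 438) (nat_lit 5) (nat_lit 439) (nat_lit 5) (nat_lit 357) (nat_lit 352) (nat_lit 191)) (XT.nd (nat_lit 78) (nat_lit 0) (nat_lit 0) (XT.lf (nat_lit 0) (nat_lit 9724380276) (nat_lit 1748) (nat_lit 10730670134) (nat_lit 1824) (nat_lit 380155850) (nat_lit 416) (nat_lit 5) (nat_lit 439) (nat_lit 5) (nat_lit 440) (nat_lit 5) (nat_lit 358) (nat_lit 352) (nat_lit 190)) (XT.lf (nat_lit 76) (nat_lit 4662189855) (nat_lit 0) (nat_lit 6360153696) (nat_lit 1824) (nat_lit 10130167657) (nat_lit 417) (nat_lit 5) (nat_lit 416) (nat_lit 5) (nat_lit 440) (nat_lit 5) (nat_lit 359) (nat_lit 352) (nat_lit 189))))) (XT.nd (nat_lit 156) (nat_lit 0) (nat_lit 76) (XT.nd (nat_lit 78) (nat_lit 0) (nat_lit 76) (XT.lf (nat_lit 0) (nat_lit 12476623487) (nat_lit 1748) (nat_lit 873544467) (nat_lit 1824) (nat_lit 8126822851) (nat_lit 417) (nat_lit 5) (nat_lit 440) (nat_lit 5) (nat_lit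 441) (nat_lit 5) (nat_lit 360) (nat_lit 352) (nat_lit 188)) (XT.lf (nat_lit 0) (nat_lit 14116456622) (nat_lit 1748) (nat_lit 6451738067) (nat_lit 1824) (nat_lit 1240174573) (nat_lit 418) (nat_lit 5) (nat_lit 441) (nat_lit 5) (nat_lit 442) (nat_lit 5) (nat_lit 361) (nat_lit 352) (nat_lit 187))) (XT.nd (nat_lit 78) (nat_lit 0) (nat_lit 76) (XT.lf (nat_lit 76) (nat_lit 9971705549) (nat_lit 0) (nat_lit 5985461075) (nat_lit 1824) (nat_lit 6189491692) (nat_lit 419) (nat_lit 5) (nat_lit 418) (nat_lit 5) (nat_lit 442) (nat_lit 5) (nat_lit 362) (nat_lit 352) (nat_lit 186)) (XT.nd (nat_lit 78) (nat_lit 0) (nat_lit 76) (XT.lf (nat_lit 76) (nat_lit 4475753442) (nat_lit 0) (nat_lit 13500993484) (nat_lit 1824) (nat_lit 4515878932) (nat_lit 420) (nat_lit 5) (nat_lit 419) (nat_lit 5) (nat_lit 443) (nat_lit 5) (nat_lit 363) (nat_lit 352) (nat_lit 185)) (XT.lf (nat_lit 0) (nat_lit 20181524184) (nat_lit 1748) (nat_lit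 1110683373) (nat_lit 1824) (nat_lit 1554275394) (nat_lit 420) (nat_lit 5) (nat_lit 443) (nat_lit 5) (nat_lit 444) (nat_lit 5) (nat_lit 364) (nat_lit 352) (nat_lit 184)))))) (XT.nd (nat_lit 390) (nat_lit 4484) (nat_lit 0) (XT.nd (nat_lit 156) (nat_lit 0) (nat_lit 76) (XT.nd (nat_lit 78) (nat_lit 1748) (nat_lit 0) (XT.lf (nat_lit 76) (nat_lit 16421938046) (nat_lit 0) (nat_lit 6219776981) (nat_lit 1824) (nat_lit 565457962) (nat_lit 421) (nat_lit 5) (nat_lit 420) (nat_lit 5) (nat_lit 444) (nat_lit 5) (nat_lit 365) (nat_lit 352) (nat_lit 183)) (XT.lf (nat_lit 0) (nat_lit 1708887400) (nat_lit 1824) (nat_lit 12592254005) (nat_lit 1900) (nat_lit 9274681356) (nat_lit 397) (nat_lit 5) (nat_lit 421) (nat_lit 5) (nat_lit 422) (nat_lit 5) (nat_lit 366) (nat_lit 352) (nat_lit 182))) (XT.nd (nat_lit 78) (nat_lit 0) (nat_lit 0) (XT.lf (nat_lit 0) (nat_lit 4168065979) (nat_lit 1824) (nat_lit 18517976695) (nat_lit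 1900) (nat_lit 1266931331) (nat_lit 398) (nat_lit 5) (nat_lit 422) (nat_lit 5) (nat_lit 423) (nat_lit 5) (nat_lit 367) (nat_lit 352) (nat_lit 181)) (XT.nd (nat_lit 78) (nat_lit 0) (nat_lit 76) (XT.lf (nat_lit 0) (nat_lit 6875421745) (nat_lit 1824) (nat_lit 266477704) (nat_lit 1900) (nat_lit 17196054667) (nat_lit 398) (nat_lit 5) (nat_lit 422) (nat_lit 5) (nat_lit 423) (nat_lit 5) (nat_lit 368) (nat_lit 352) (nat_lit 180)) (XT.lf (nat_lit 0) (nat_lit 9837357195) (nat_lit 1824) (nat_lit 6017602832) (nat_lit 76) (nat_lit 8876058717) (nat_lit 399) (nat_lit 5) (nat_lit 423) (nat_lit 5) (nat_lit 400) (nat_lit 5) (nat_lit 369) (nat_lit 352) (nat_lit 179))))) (XT.nd (nat_lit 234) (nat_lit 1748) (nat_lit 0) (XT.nd (nat_lit 78) (nat_lit 1748) (nat_lit 0) (XT.lf (nat_lit 0) (nat_lit 13018527470) (nat_lit 1216) (nat_lit 11884139203) (nat_lit 76) (nat_lit 230603335) (nat_lit 384) (nat_lit 5) (nat_lit 400) (nat_lit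 5) (nat_lit 385) (nat_lit 5) (nat_lit 370) (nat_lit 352) (nat_lit 178)) (XT.nd (nat_lit 78) (nat_lit 836) (nat_lit 0) (XT.lf (nat_lit 0) (nat_lit 7617171423) (nat_lit 912) (nat_lit 8867906952) (nat_lit 988) (nat_lit 9058713687) (nat_lit 372) (nat_lit 5) (nat_lit 384) (nat_lit 5) (nat_lit 385) (nat_lit 5) (nat_lit 371) (nat_lit 352) (nat_lit 177)) (XT.lf (nat_lit 0) (nat_lit 1869573132) (nat_lit 836) (nat_lit 18322482141) (nat_lit 912) (nat_lit 5771848018) (nat_lit 361) (nat_lit 5) (nat_lit 372) (nat_lit 5) (nat_lit 373) (nat_lit 5) (nat_lit 372) (nat_lit 352) (nat_lit 176)))) (XT.nd (nat_lit 78) (nat_lit 1748) (nat_lit 0) (XT.lf (nat_lit 0) (nat_lit 22439107332) (nat_lit 836) (nat_lit 1745245145) (nat_lit 912) (nat_lit 2208785200) (nat_lit 361) (nat_lit 5) (nat_lit 372) (nat_lit 5) (nat_lit 373) (nat_lit 5) (nat_lit 373) (nat_lit 352) (nat_lit 175)) (XT.nd (nat_lit 78) (nat_lit 836) (nat_lit 0) (XT.lf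 (nat_lit 0) (nat_lit 1646555353) (nat_lit 912) (nat_lit 9935124954) (nat_lit 76) (nat_lit 15249290005) (nat_lit 349) (nat_lit 5) (nat_lit 361) (nat_lit 5) (nat_lit 350) (nat_lit 5) (nat_lit 374) (nat_lit 352) (nat_lit 174)) (XT.lf (nat_lit 0) (nat_lit 5729605468) (nat_lit 912) (nat_lit 16056460787) (nat_lit 76) (nat_lit 5492740395) (nat_lit 338) (nat_lit 5) (nat_lit 350) (nat_lit 5) (nat_lit 339) (nat_lit 5) (nat_lit 375) (nat_lit 352) (nat_lit 173))))))))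
noncomputable def xc122 : XT := (XT.nd (nat_lit 46332) (nat_lit 0) (nat_lit 760) (XT.nd (nat_lit 45552) (nat_lit 0) (nat_lit 6840) (XT.nd (nat_lit 45162) (nat_lit 0) (nat_lit 7980) (XT.nd (nat_lit 156) (nat_lit 1520) (nat_lit 0) (XT.nd (nat_lit 78) (nat_lit 0) (nat_lit 0) (XT.lf (nat_lit 0) (nat_lit 5398906085) (nat_lit 836) (nat_lit 4710660186) (nat_lit 912) (nat_lit 17627025253) (nat_lit 327) (nat_lit 5) (nat_lit 338) (nat_lit 5) (nat_lit 339) (nat_lit 5) (nat_lit 376) (nat_lit 352) (nat_lit 172)) (XT.lf (nat_lit 0) (nat_lit 14808334374) (nat_lit 912) (nat_lit 578371858) (nat_lit 76) (nat_lit 12817657320) (nat_lit 327) (nat_lit 5) (nat_lit 339) (nat_lit 5) (nat_lit 328) (nat_lit 5) (nat_lit 377) (nat_lit 352) (nat_lit 171))) (XT.nd (nat_lit 78) (nat_lit 760) (nat_lit 0) (XT.lf (nat_lit 0) (nat_lit 19832141706) (nat_lit 836) (nat_lit 6611289454) (nat_lit 76) (nat_lit 2239057784) (nat_lit 317) (nat_lit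 5) (nat_lit 328) (nat_lit 5) (nat_lit 318) (nat_lit 5) (nat_lit 378) (nat_lit 352) (nat_lit 170)) (XT.nd (nat_lit 44850) (nat_lit 0) (nat_lit 7980) (XT.lf (nat_lit 0) (nat_lit 16338983659) (nat_lit 760) (nat_lit 8875175639) (nat_lit 836) (nat_lit 3956650553) (nat_lit 307) (nat_lit 5) (nat_lit 317) (nat_lit 5) (nat_lit 318) (nat_lit 5) (nat_lit 379) (nat_lit 352) (nat_lit 169)) (XT.lf (nat_lit 0) (nat_lit 1467760536) (nat_lit 0) (nat_lit 1467760536) (nat_lit 1748) (nat_lit 6878344486) (nat_lit 412) (nat_lit 5) (nat_lit 412) (nat_lit 3) (nat_lit 435) (nat_lit 3) (nat_lit 353) (nat_lit 353) (nat_lit 194))))) (XT.nd (nat_lit 156) (nat_lit 0) (nat_lit 76) (XT.nd (nat_lit 78) (nat_lit 0) (nat_lit 76) (XT.lf (nat_lit 0) (nat_lit 6283699731) (nat_lit 1748) (nat_lit 2689822968) (nat_lit 1824) (nat_lit 10942044403) (nat_lit 412) (nat_lit 5) (nat_lit 435) (nat_lit 3) (nat_lit 436) (nat_lit 5) (nat_lit 354) (nat_lit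 353) (nat_lit 193)) (XT.lf (nat_lit 0) (nat_lit 6828470954) (nat_lit 1748) (nat_lit 8379775142) (nat_lit 1824) (nat_lit 5001400830) (nat_lit 413) (nat_lit 5) (nat_lit 436) (nat_lit 5) (nat_lit 437) (nat_lit 5) (nat_lit 355) (nat_lit 353) (nat_lit 192))) (XT.nd (nat_lit 78) (nat_lit 0) (nat_lit 76) (XT.lf (nat_lit 76) (nat_lit 6327343017) (nat_lit 0) (nat_lit 1172137292) (nat_lit 1824) (nat_lit 13010874277) (nat_lit 414) (nat_lit 5) (nat_lit 413) (nat_lit 5) (nat_lit 437) (nat_lit 5) (nat_lit 356) (nat_lit 353) (nat_lit 191)) (XT.nd (nat_lit 78) (nat_lit 0) (nat_lit 76) (XT.lf (nat_lit 76) (nat_lit 688395780) (nat_lit 0) (nat_lit 7640835727) (nat_lit 1824) (nat_lit 12488082980) (nat_lit 415) (nat_lit 5) (nat_lit 414) (nat_lit 5) (nat_lit 438) (nat_lit 5) (nat_lit 357) (nat_lit 353) (nat_lit 190)) (XT.lf (nat_lit 0) (nat_lit 9323584583) (nat_lit 1748) (nat_lit 4989642742) (nat_lit 1824) (nat_lit 6817464822)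 (nat_lit 415) (nat_lit 5) (nat_lit 438) (nat_lit 5) (nat_lit 439) (nat_lit 5) (nat_lit 358) (nat_lit 353) (nat_lit 189)))))) (XT.nd (nat_lit 390) (nat_lit 1444) (nat_lit 0) (XT.nd (nat_lit 156) (nat_lit 0) (nat_lit 76) (XT.nd (nat_lit 78) (nat_lit 0) (nat_lit 0) (XT.lf (nat_lit 0) (nat_lit 10460984972) (nat_lit 1748) (nat_lit 10765227375) (nat_lit 1824) (nat_lit 224997511) (nat_lit 416) (nat_lit 5) (nat_lit 439) (nat_lit 5) (nat_lit 440) (nat_lit 5) (nat_lit 359) (nat_lit 353) (nat_lit 188)) (XT.lf (nat_lit 76) (nat_lit 5084756293) (nat_lit 0) (nat_lit 6702008860) (nat_lit 1824) (nat_lit 9991495761) (nat_lit 417) (nat_lit 5) (nat_lit 416) (nat_lit 5) (nat_lit 440) (nat_lit 5) (nat_lit 360) (nat_lit 353) (nat_lit 187))) (XT.nd (nat_lit 78) (nat_lit 0) (nat_lit 76) (XT.lf (nat_lit 0) (nat_lit 13271087798) (nat_lit 1748) (nat_lit 615763331) (nat_lit 1824) (nat_lit 8225899869) (nat_lit 417) (nat_lit 5)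 (nat_lit 440) (nat_lit 5) (nat_lit 441) (nat_lit 5) (nat_lit 361) (nat_lit 353) (nat_lit 186)) (XT.nd (nat_lit 78) (nat_lit 0) (nat_lit 0) (XT.lf (nat_lit 0) (nat_lit 14948845621) (nat_lit 1748) (nat_lit 6356726911) (nat_lit 1824) (nat_lit 1148727942) (nat_lit 418) (nat_lit 5) (nat_lit 441) (nat_lit 5) (nat_lit 442) (nat_lit 5) (nat_lit 362) (nat_lit 353) (nat_lit 185)) (XT.lf (nat_lit 76) (nat_lit 10554738416) (nat_lit 0) (nat_lit 6279972082) (nat_lit 1824) (nat_lit 5968233164) (nat_lit 419) (nat_lit 5) (nat_lit 418) (nat_lit 5) (nat_lit 442) (nat_lit 5) (nat_lit 363) (nat_lit 353) (nat_lit 184))))) (XT.nd (nat_lit 156) (nat_lit 1672) (nat_lit 0) (XT.nd (nat_lit 78) (nat_lit 0) (nat_lit 76) (XT.lf (nat_lit 76) (nat_lit 4898019065) (nat_lit 0) (nat_lit 14006388036) (nat_lit 1824) (nat_lit 4255096567) (nat_lit 420) (nat_lit 5) (nat_lit 419) (nat_lit 5) (nat_lit 443) (nat_lit 5) (nat_lit 364) (nat_lit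 353) (nat_lit 183)) (XT.lf (nat_lit 0) (nat_lit 21163383631) (nat_lit 1748) (nat_lit 856095506) (nat_lit 1824) (nat_lit 1504740116) (nat_lit 420) (nat_lit 5) (nat_lit 443) (nat_lit 5) (nat_lit 444) (nat_lit 5) (nat_lit 365) (nat_lit 353) (nat_lit 182))) (XT.nd (nat_lit 78) (nat_lit 1748) (nat_lit 0) (XT.lf (nat_lit 76) (nat_lit 17197833585) (nat_lit 0) (nat_lit 6490422073) (nat_lit 1824) (nat_lit 207660608) (nat_lit 421) (nat_lit 5) (nat_lit 420) (nat_lit 5) (nat_lit 444) (nat_lit 5) (nat_lit 366) (nat_lit 353) (nat_lit 181)) (XT.nd (nat_lit 78) (nat_lit 0) (nat_lit 76) (XT.lf (nat_lit 0) (nat_lit 2120567168) (nat_lit 1824) (nat_lit 12678582106) (nat_lit 1900) (nat_lit 9476619852) (nat_lit 397) (nat_lit 5) (nat_lit 421) (nat_lit 5) (nat_lit 422) (nat_lit 5) (nat_lit 367) (nat_lit 353) (nat_lit 180)) (XT.lf (nat_lit 0) (nat_lit 4644462703) (nat_lit 1824) (nat_lit 18779230183) (nat_lit 1900) (nat_lit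 1240726686) (nat_lit 398) (nat_lit 5) (nat_lit 422) (nat_lit 5) (nat_lit 423) (nat_lit 5) (nat_lit 368) (nat_lit 353) (nat_lit 179))))))) (XT.nd (nat_lit 780) (nat_lit 760) (nat_lit 0) (XT.nd (nat_lit 390) (nat_lit 2584) (nat_lit 0) (XT.nd (nat_lit 156) (nat_lit 2812) (nat_lit 0) (XT.nd (nat_lit 78) (nat_lit 0) (nat_lit 76) (XT.lf (nat_lit 76) (nat_lit 11391750) (nat_lit 0) (nat_lit 7411487720) (nat_lit 1900) (nat_lit 17638276203) (nat_lit 399) (nat_lit 5) (nat_lit 398) (nat_lit 5) (nat_lit 423) (nat_lit 5) (nat_lit 369) (nat_lit 353) (nat_lit 178)) (XT.lf (nat_lit 0) (nat_lit 10465151234) (nat_lit 1824) (nat_lit 5909944661) (nat_lit 76) (nat_lit 9091090078) (nat_lit 399) (nat_lit 5) (nat_lit 423) (nat_lit 5) (nat_lit 400) (nat_lit 5) (nat_lit 370) (nat_lit 353) (nat_lit 177))) (XT.nd (nat_lit 78) (nat_lit 1748) (nat_lit 0) (XT.lf (nat_lit 0) (nat_lit 13733639606) (nat_lit 1216) (nat_lit 11950281209)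 (nat_lit 76) (nat_lit 196749500) (nat_lit 384) (nat_lit 5) (nat_lit 400) (nat_lit 5) (nat_lit 385) (nat_lit 5) (nat_lit 371) (nat_lit 353) (nat_lit 176)) (XT.nd (nat_lit 78) (nat_lit 836) (nat_lit 0) (XT.lf (nat_lit 0) (nat_lit 8131357630) (nat_lit 912) (nat_lit 9165231078) (nat_lit 988) (nat_lit 9007074396) (nat_lit 372) (nat_lit 5) (nat_lit 384) (nat_lit 5) (nat_lit 385) (nat_lit 5) (nat_lit 372) (nat_lit 353) (nat_lit 175)) (XT.lf (nat_lit 0) (nat_lit 2213234751) (nat_lit 836) (nat_lit 18893978282) (nat_lit 912) (nat_lit 5629318892) (nat_lit 361) (nat_lit 5) (nat_lit 372) (nat_lit 5) (nat_lit 373) (nat_lit 5) (nat_lit 373) (nat_lit 353) (nat_lit 174))))) (XT.nd (nat_lit 156) (nat_lit 1672) (nat_lit 0) (XT.nd (nat_lit 78) (nat_lit 912) (nat_lit 0) (XT.lf (nat_lit 0) (nat_lit 23391479023) (nat_lit 836) (nat_lit 1818788592) (nat_lit 912) (nat_lit 1968558886) (nat_lit 361) (nat_lit 5) (nat_lit 372)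 (nat_lit 5) (nat_lit 373) (nat_lit 5) (nat_lit 374) (nat_lit 353) (nat_lit 173)) (XT.lf (nat_lit 0) (nat_lit 1991313252) (nat_lit 912) (nat_lit 9948350208) (nat_lit 76) (nat_lit 15690235823) (nat_lit 349) (nat_lit 5) (nat_lit 361) (nat_lit 5) (nat_lit 350) (nat_lit 5) (nat_lit 375) (nat_lit 353) (nat_lit 172))) (XT.nd (nat_lit 78) (nat_lit 836) (nat_lit 0) (XT.lf (nat_lit 0) (nat_lit 6190017064) (nat_lit 912) (nat_lit 16252031011) (nat_lit 76) (nat_lit 5649262098) (nat_lit 338) (nat_lit 5) (nat_lit 350) (nat_lit 5) (nat_lit 339) (nat_lit 5) (nat_lit 376) (nat_lit 353) (nat_lit 171)) (XT.nd (nat_lit 78) (nat_lit 0) (nat_lit 0) (XT.lf (nat_lit 0) (nat_lit 5842354851) (nat_lit 836) (nat_lit 4852445809) (nat_lit 912) (nat_lit 17868162081) (nat_lit 327) (nat_lit 5) (nat_lit 338) (nat_lit 5) (nat_lit 339) (nat_lit 5) (nat_lit 377) (nat_lit 353) (nat_lit 170)) (XT.lf (nat_lit 0) (nat_lit 15526316810) (nat_lit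 912) (nat_lit 316877250) (nat_lit 76) (nat_lit 13201740721) (nat_lit 327) (nat_lit 5) (nat_lit 339) (nat_lit 5) (nat_lit 328) (nat_lit 5) (nat_lit 378) (nat_lit 353) (nat_lit 169)))))) (XT.nd (nat_lit 45240) (nat_lit 0) (nat_lit 7372) (XT.nd (nat_lit 45006) (nat_lit 0) (nat_lit 7220) (XT.nd (nat_lit 44928) (nat_lit 0) (nat_lit 7220) (XT.lf (nat_lit 0) (nat_lit 20694690680) (nat_lit 836) (nat_lit 6529916975) (nat_lit 76) (nat_lit 2312921709) (nat_lit 317) (nat_lit 5) (nat_lit 328) (nat_lit 5) (nat_lit 318) (nat_lit 5) (nat_lit 379) (nat_lit 353) (nat_lit 168)) (XT.lf (nat_lit 0) (nat_lit 1636881666) (nat_lit 0) (nat_lit 1636881666) (nat_lit 1748) (nat_lit 6829427364) (nat_lit 412) (nat_lit 5) (nat_lit 412) (nat_lit 3) (nat_lit 435) (nat_lit 3) (nat_lit 354) (nat_lit 354) (nat_lit 192))) (XT.nd (nat_lit 78) (nat_lit 0) (nat_lit 76) (XT.lf (nat_lit 0) (nat_lit 6956413581) (nat_lit 1748) (nat_lit 2516165619)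 (nat_lit 1824) (nat_lit 11030601350) (nat_lit 412) (nat_lit 5) (nat_lit 435) (nat_lit 3) (nat_lit 436) (nat_lit 5) (nat_lit 355) (nat_lit 354) (nat_lit 191)) (XT.nd (nat_lit 78) (nat_lit 0) (nat_lit 0) (XT.lf (nat_lit 0) (nat_lit 7503611456) (nat_lit 1748) (nat_lit 8369905740) (nat_lit 1824) (nat_lit 4932848841) (nat_lit 413) (nat_lit 5) (nat_lit 436) (nat_lit 5) (nat_lit 437) (nat_lit 5) (nat_lit 356) (nat_lit 354) (nat_lit 190)) (XT.lf (nat_lit 76) (nat_lit 6774187288) (nat_lit 0) (nat_lit 1408534913) (nat_lit 1824) (nat_lit 12933618097) (nat_lit 414) (nat_lit 5) (nat_lit 413) (nat_lit 5) (nat_lit 437) (nat_lit 5) (nat_lit 357) (nat_lit 354) (nat_lit 189))))) (XT.nd (nat_lit 234) (nat_lit 0) (nat_lit 152) (XT.nd (nat_lit 78) (nat_lit 0) (nat_lit 76) (XT.lf (nat_lit 76) (nat_lit 972360710) (nat_lit 0) (nat_lit 8052099036) (nat_lit 1824) (nat_lit 12408312027) (nat_lit 415) (nat_lit 5) (nat_lit 414)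 (nat_lit 5) (nat_lit 438) (nat_lit 5) (nat_lit 358) (nat_lit 354) (nat_lit 188)) (XT.nd (nat_lit 78) (nat_lit 0) (nat_lit 76) (XT.lf (nat_lit 0) (nat_lit 10034524529) (nat_lit 1748) (nat_lit 4873742589) (nat_lit 1824) (nat_lit 6847570541) (nat_lit 415) (nat_lit 5) (nat_lit 438) (nat_lit 5) (nat_lit 439) (nat_lit 5) (nat_lit 359) (nat_lit 354) (nat_lit 187)) (XT.lf (nat_lit 0) (nat_lit 11194150264) (nat_lit 1748) (nat_lit 10817317137) (nat_lit 1824) (nat_lit 74745821) (nat_lit 416) (nat_lit 5) (nat_lit 439) (nat_lit 5) (nat_lit 440) (nat_lit 5) (nat_lit 360) (nat_lit 354) (nat_lit 186)))) (XT.nd (nat_lit 78) (nat_lit 0) (nat_lit 76) (XT.lf (nat_lit 76) (nat_lit 5503771545) (nat_lit 0) (nat_lit 7045448758) (nat_lit 1824) (nat_lit 9874069433) (nat_lit 417) (nat_lit 5) (nat_lit 416) (nat_lit 5) (nat_lit 440) (nat_lit 5) (nat_lit 361) (nat_lit 354) (nat_lit 185)) (XT.nd (nat_lit 78) (nat_lit 0) (nat_lit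 76) (XT.lf (nat_lit 0) (nat_lit 14065266814) (nat_lit 1748) (nat_lit 366550804) (nat_lit 1824) (nat_lit 8336257158) (nat_lit 417) (nat_lit 5) (nat_lit 440) (nat_lit 5) (nat_lit 441) (nat_lit 5) (nat_lit 362) (nat_lit 354) (nat_lit 184)) (XT.lf (nat_lit 0) (nat_lit 15782734027) (nat_lit 1748) (nat_lit 6275430134) (nat_lit 1824) (nat_lit 1061923056) (nat_lit 418) (nat_lit 5) (nat_lit 441) (nat_lit 5) (nat_lit 442) (nat_lit 5) (nat_lit 363) (nat_lit 354) (nat_lit 183))))))))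
noncomputable def xc123 : XT := (XT.nd (nat_lit 46644) (nat_lit 0) (nat_lit 836) (XT.nd (nat_lit 780) (nat_lit 3420) (nat_lit 0) (XT.nd (nat_lit 390) (nat_lit 1824) (nat_lit 0) (XT.nd (nat_lit 156) (nat_lit 1672) (nat_lit 0) (XT.nd (nat_lit 78) (nat_lit 0) (nat_lit 76) (XT.lf (nat_lit 76) (nat_lit 11138966299) (nat_lit 0) (nat_lit 6576719982) (nat_lit 1824) (nat_lit 5763697089) (nat_lit 419) (nat_lit 5) (nat_lit 418) (nat_lit 5) (nat_lit 442) (nat_lit 5) (nat_lit 364) (nat_lit 354) (nat_lit 182)) (XT.lf (nat_lit 76) (nat_lit 5316420679) (nat_lit 0) (nat_lit 14521183078) (nat_lit 1824) (nat_lit 4009237603) (nat_lit 420) (nat_lit 5) (nat_lit 419) (nat_lit 5) (nat_lit 443) (nat_lit 5) (nat_lit 365) (nat_lit 354) (nat_lit 181))) (XT.nd (nat_lit 78) (nat_lit 1824) (nat_lit 0) (XT.lf (nat_lit 0) (nat_lit 22153091174) (nat_lit 1748) (nat_lit 610397120) (nat_lit 1824) (nat_lit 1459238960) (nat_lit 420) (nat_lit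 5) (nat_lit 443) (nat_lit 5) (nat_lit 444) (nat_lit 5) (nat_lit 366) (nat_lit 354) (nat_lit 180)) (XT.nd (nat_lit 78) (nat_lit 0) (nat_lit 76) (XT.lf (nat_lit 0) (nat_lit 137530142) (nat_lit 1824) (nat_lit 6625908558) (nat_lit 1900) (nat_lit 17842293962) (nat_lit 396) (nat_lit 5) (nat_lit 420) (nat_lit 5) (nat_lit 421) (nat_lit 5) (nat_lit 367) (nat_lit 354) (nat_lit 179)) (XT.lf (nat_lit 0) (nat_lit 2523908141) (nat_lit 1824) (nat_lit 12784229871) (nat_lit 1900) (nat_lit 9688996546) (nat_lit 397) (nat_lit 5) (nat_lit 421) (nat_lit 5) (nat_lit 422) (nat_lit 5) (nat_lit 368) (nat_lit 354) (nat_lit 178))))) (XT.nd (nat_lit 156) (nat_lit 1976) (nat_lit 0) (XT.nd (nat_lit 78) (nat_lit 0) (nat_lit 0) (XT.lf (nat_lit 0) (nat_lit 5114982129) (nat_lit 1824) (nat_lit 19065214486) (nat_lit 1900) (nat_lit 1217421966) (nat_lit 398) (nat_lit 5) (nat_lit 422) (nat_lit 5) (nat_lit 423) (nat_lit 5) (nat_lit 369)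 (nat_lit 354) (nat_lit 177)) (XT.lf (nat_lit 76) (nat_lit 284625740) (nat_lit 0) (nat_lit 7684251276) (nat_lit 1900) (nat_lit 17837540437) (nat_lit 399) (nat_lit 5) (nat_lit 398) (nat_lit 5) (nat_lit 423) (nat_lit 5) (nat_lit 370) (nat_lit 354) (nat_lit 176))) (XT.nd (nat_lit 78) (nat_lit 2052) (nat_lit 0) (XT.lf (nat_lit 0) (nat_lit 11092682284) (nat_lit 1824) (nat_lit 5815599816) (nat_lit 76) (nat_lit 9315514362) (nat_lit 399) (nat_lit 5) (nat_lit 423) (nat_lit 5) (nat_lit 400) (nat_lit 5) (nat_lit 371) (nat_lit 354) (nat_lit 175)) (XT.nd (nat_lit 78) (nat_lit 912) (nat_lit 0) (XT.lf (nat_lit 0) (nat_lit 14451574246) (nat_lit 1216) (nat_lit 12035076599) (nat_lit 76) (nat_lit 164220525) (nat_lit 384) (nat_lit 5) (nat_lit 400) (nat_lit 5) (nat_lit 385) (nat_lit 5) (nat_lit 372) (nat_lit 354) (nat_lit 174)) (XT.lf (nat_lit 0) (nat_lit 8644570736) (nat_lit 912) (nat_lit 9469678931) (nat_lit 988) (nat_lit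 8972450449) (nat_lit 372) (nat_lit 5) (nat_lit 384) (nat_lit 5) (nat_lit 385) (nat_lit 5) (nat_lit 373) (nat_lit 354) (nat_lit 173)))))) (XT.nd (nat_lit 45396) (nat_lit 0) (nat_lit 6460) (XT.nd (nat_lit 156) (nat_lit 2584) (nat_lit 0) (XT.nd (nat_lit 78) (nat_lit 0) (nat_lit 0) (XT.lf (nat_lit 0) (nat_lit 2550698270) (nat_lit 836) (nat_lit 19481366652) (nat_lit 912) (nat_lit 5500635477) (nat_lit 361) (nat_lit 5) (nat_lit 372) (nat_lit 5) (nat_lit 373) (nat_lit 5) (nat_lit 374) (nat_lit 354) (nat_lit 172)) (XT.lf (nat_lit 0) (nat_lit 24356394730) (nat_lit 836) (nat_lit 1893322175) (nat_lit 912) (nat_lit 1738719554) (nat_lit 361) (nat_lit 5) (nat_lit 372) (nat_lit 5) (nat_lit 373) (nat_lit 5) (nat_lit 375) (nat_lit 354) (nat_lit 171))) (XT.nd (nat_lit 78) (nat_lit 1672) (nat_lit 0) (XT.lf (nat_lit 0) (nat_lit 2329458945) (nat_lit 912) (nat_lit 9978322541) (nat_lit 76) (nat_lit 16145359070) (nat_lit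 349) (nat_lit 5) (nat_lit 361) (nat_lit 5) (nat_lit 350) (nat_lit 5) (nat_lit 376) (nat_lit 354) (nat_lit 170)) (XT.nd (nat_lit 78) (nat_lit 836) (nat_lit 0) (XT.lf (nat_lit 0) (nat_lit 6647678582) (nat_lit 912) (nat_lit 16469893007) (nat_lit 76) (nat_lit 5810953640) (nat_lit 338) (nat_lit 5) (nat_lit 350) (nat_lit 5) (nat_lit 339) (nat_lit 5) (nat_lit 377) (nat_lit 354) (nat_lit 169)) (XT.lf (nat_lit 0) (nat_lit 6282948886) (nat_lit 836) (nat_lit 4998458261) (nat_lit 912) (nat_lit 18133046674) (nat_lit 327) (nat_lit 5) (nat_lit 338) (nat_lit 5) (nat_lit 339) (nat_lit 5) (nat_lit 378) (nat_lit 354) (nat_lit 168))))) (XT.nd (nat_lit 234) (nat_lit 0) (nat_lit 76) (XT.nd (nat_lit 78) (nat_lit 0) (nat_lit 0) (XT.lf (nat_lit 0) (nat_lit 1803895849) (nat_lit 0) (nat_lit 1803895849) (nat_lit 1748) (nat_lit 6793696124) (nat_lit 412) (nat_lit 5) (nat_lit 412) (nat_lit 3) (nat_lit 435) (nat_lit 3) (nat_lit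 355) (nat_lit 355) (nat_lit 190)) (XT.nd (nat_lit 78) (nat_lit 0) (nat_lit 76) (XT.lf (nat_lit 0) (nat_lit 7621513621) (nat_lit 1748) (nat_lit 2351899398) (nat_lit 1824) (nat_lit 11135575017) (nat_lit 412) (nat_lit 5) (nat_lit 435) (nat_lit 3) (nat_lit 436) (nat_lit 5) (nat_lit 356) (nat_lit 355) (nat_lit 189)) (XT.lf (nat_lit 0) (nat_lit 8172009811) (nat_lit 1748) (nat_lit 8374737801) (nat_lit 1824) (nat_lit 4874788482) (nat_lit 413) (nat_lit 5) (nat_lit 436) (nat_lit 5) (nat_lit 437) (nat_lit 5) (nat_lit 357) (nat_lit 355) (nat_lit 188)))) (XT.nd (nat_lit 78) (nat_lit 0) (nat_lit 76) (XT.lf (nat_lit 76) (nat_lit 7219682659) (nat_lit 0) (nat_lit 1640472836) (nat_lit 1824) (nat_lit 12880885374) (nat_lit 414) (nat_lit 5) (nat_lit 413) (nat_lit 5) (nat_lit 437) (nat_lit 5) (nat_lit 358) (nat_lit 355) (nat_lit 187)) (XT.nd (nat_lit 78) (nat_lit 0) (nat_lit 76) (XT.lf (nat_lit 76) (nat_lit 1249729342)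 (nat_lit 0) (nat_lit 8465250504) (nat_lit 1824) (nat_lit 12352233137) (nat_lit 415) (nat_lit 5) (nat_lit 414) (nat_lit 5) (nat_lit 438) (nat_lit 5) (nat_lit 359) (nat_lit 355) (nat_lit 186)) (XT.lf (nat_lit 0) (nat_lit 10742038168) (nat_lit 1748) (nat_lit 4769611351) (nat_lit 1824) (nat_lit 6888591752) (nat_lit 415) (nat_lit 5) (nat_lit 438) (nat_lit 5) (nat_lit 439) (nat_lit 5) (nat_lit 360) (nat_lit 355) (nat_lit 185))))))) (XT.nd (nat_lit 780) (nat_lit 4408) (nat_lit 0) (XT.nd (nat_lit 390) (nat_lit 1444) (nat_lit 0) (XT.nd (nat_lit 156) (nat_lit 0) (nat_lit 152) (XT.nd (nat_lit 78) (nat_lit 0) (nat_lit 76) (XT.lf (nat_lit 76) (nat_lit 11853761588) (nat_lit 0) (nat_lit 71944449) (nat_lit 1824) (nat_lit 10815041130) (nat_lit 416) (nat_lit 5) (nat_lit 415) (nat_lit 5) (nat_lit 439) (nat_lit 5) (nat_lit 361) (nat_lit 355) (nat_lit 184)) (XT.lf (nat_lit 76) (nat_lit 5920060639) (nat_lit 0) (nat_lit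 7391018681) (nat_lit 1824) (nat_lit 9777067650) (nat_lit 417) (nat_lit 5) (nat_lit 416) (nat_lit 5) (nat_lit 440) (nat_lit 5) (nat_lit 362) (nat_lit 355) (nat_lit 183))) (XT.nd (nat_lit 78) (nat_lit 0) (nat_lit 76) (XT.lf (nat_lit 0) (nat_lit 14860536518) (nat_lit 1748) (nat_lit 125228139) (nat_lit 1824) (nat_lit 8457756215) (nat_lit 417) (nat_lit 5) (nat_lit 440) (nat_lit 5) (nat_lit 441) (nat_lit 5) (nat_lit 363) (nat_lit 355) (nat_lit 182)) (XT.nd (nat_lit 78) (nat_lit 0) (nat_lit 0) (XT.lf (nat_lit 0) (nat_lit 16619514226) (nat_lit 1748) (nat_lit 6207308286) (nat_lit 1824) (nat_lit 979475229) (nat_lit 418) (nat_lit 5) (nat_lit 441) (nat_lit 5) (nat_lit 442) (nat_lit 5) (nat_lit 364) (nat_lit 355) (nat_lit 181)) (XT.lf (nat_lit 76) (nat_lit 11725360503) (nat_lit 0) (nat_lit 6876150658) (nat_lit 1824) (nat_lit 5575044168) (nat_lit 419) (nat_lit 5) (nat_lit 418) (nat_lit 5) (nat_lit 442) (nat_lit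 5) (nat_lit 365) (nat_lit 355) (nat_lit 180))))) (XT.nd (nat_lit 156) (nat_lit 1748) (nat_lit 0) (XT.nd (nat_lit 78) (nat_lit 0) (nat_lit 76) (XT.lf (nat_lit 76) (nat_lit 5731791366) (nat_lit 0) (nat_lit 15045991350) (nat_lit 1824) (nat_lit 3777443979) (nat_lit 420) (nat_lit 5) (nat_lit 419) (nat_lit 5) (nat_lit 443) (nat_lit 5) (nat_lit 366) (nat_lit 355) (nat_lit 179)) (XT.lf (nat_lit 0) (nat_lit 23152122625) (nat_lit 1748) (nat_lit 372906177) (nat_lit 1824) (nat_lit 1417576069) (nat_lit 420) (nat_lit 5) (nat_lit 443) (nat_lit 5) (nat_lit 444) (nat_lit 5) (nat_lit 367) (nat_lit 355) (nat_lit 178))) (XT.nd (nat_lit 78) (nat_lit 0) (nat_lit 76) (XT.lf (nat_lit 0) (nat_lit 470259457) (nat_lit 1824) (nat_lit 6568556223) (nat_lit 1900) (nat_lit 18298407028) (nat_lit 396) (nat_lit 5) (nat_lit 420) (nat_lit 5) (nat_lit 421) (nat_lit 5) (nat_lit 368) (nat_lit 355) (nat_lit 177)) (XT.nd (nat_lit 78) (nat_lit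 0) (nat_lit 76) (XT.lf (nat_lit 0) (nat_lit 2919847798) (nat_lit 1824) (nat_lit 12908816529) (nat_lit 1900) (nat_lit 9911873153) (nat_lit 397) (nat_lit 5) (nat_lit 421) (nat_lit 5) (nat_lit 422) (nat_lit 5) (nat_lit 369) (nat_lit 355) (nat_lit 176)) (XT.lf (nat_lit 0) (nat_lit 5580605733) (nat_lit 1824) (nat_lit 19375701788) (nat_lit 1900) (nat_lit 1196892575) (nat_lit 398) (nat_lit 5) (nat_lit 422) (nat_lit 5) (nat_lit 423) (nat_lit 5) (nat_lit 370) (nat_lit 355) (nat_lit 175)))))) (XT.nd (nat_lit 390) (nat_lit 1748) (nat_lit 0) (XT.nd (nat_lit 156) (nat_lit 2812) (nat_lit 0) (XT.nd (nat_lit 78) (nat_lit 0) (nat_lit 76) (XT.lf (nat_lit 76) (nat_lit 550391619) (nat_lit 0) (nat_lit 7962303486) (nat_lit 1900) (nat_lit 18061719293) (nat_lit 399) (nat_lit 5) (nat_lit 398) (nat_lit 5) (nat_lit 423) (nat_lit 5) (nat_lit 371) (nat_lit 355) (nat_lit 174)) (XT.lf (nat_lit 0) (nat_lit 11721038691) (nat_lit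 1824) (nat_lit 5734018055) (nat_lit 76) (nat_lit 9549444475) (nat_lit 399) (nat_lit 5) (nat_lit 423) (nat_lit 5) (nat_lit 400) (nat_lit 5) (nat_lit 372) (nat_lit 355) (nat_lit 173))) (XT.nd (nat_lit 78) (nat_lit 1748) (nat_lit 0) (XT.lf (nat_lit 0) (nat_lit 15173485553) (nat_lit 1216) (nat_lit 12138128100) (nat_lit 76) (nat_lit 132921805) (nat_lit 384) (nat_lit 5) (nat_lit 400) (nat_lit 5) (nat_lit 385) (nat_lit 5) (nat_lit 373) (nat_lit 355) (nat_lit 172)) (XT.nd (nat_lit 78) (nat_lit 836) (nat_lit 0) (XT.lf (nat_lit 0) (nat_lit 9157722898) (nat_lit 912) (nat_lit 9781567319) (nat_lit 988) (nat_lit 8954286628) (nat_lit 372) (nat_lit 5) (nat_lit 384) (nat_lit 5) (nat_lit 385) (nat_lit 5) (nat_lit 374) (nat_lit 355) (nat_lit 171)) (XT.lf (nat_lit 0) (nat_lit 2882725370) (nat_lit 836) (nat_lit 20085195928) (nat_lit 912) (nat_lit 5385172893) (nat_lit 361) (nat_lit 5) (nat_lit 372) (nat_lit 5) (nat_lit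 373) (nat_lit 5) (nat_lit 375) (nat_lit 355) (nat_lit 170))))) (XT.nd (nat_lit 45318) (nat_lit 0) (nat_lit 5624) (XT.nd (nat_lit 78) (nat_lit 1748) (nat_lit 0) (XT.lf (nat_lit 0) (nat_lit 25335150797) (nat_lit 836) (nat_lit 1968945409) (nat_lit 912) (nat_lit 1518568860) (nat_lit 361) (nat_lit 5) (nat_lit 372) (nat_lit 5) (nat_lit 373) (nat_lit 5) (nat_lit 376) (nat_lit 355) (nat_lit 169)) (XT.nd (nat_lit 78) (nat_lit 836) (nat_lit 0) (XT.lf (nat_lit 0) (nat_lit 2661767348) (nat_lit 912) (nat_lit 10024605789) (nat_lit 76) (nat_lit 16615030590) (nat_lit 349) (nat_lit 5) (nat_lit 361) (nat_lit 5) (nat_lit 350) (nat_lit 5) (nat_lit 377) (nat_lit 355) (nat_lit 168)) (XT.lf (nat_lit 0) (nat_lit 7103458271) (nat_lit 912) (nat_lit 16709772685) (nat_lit 76) (nat_lit 5977942894) (nat_lit 338) (nat_lit 5) (nat_lit 350) (nat_lit 5) (nat_lit 339) (nat_lit 5) (nat_lit 378) (nat_lit 355) (nat_lit 167)))) (XT.nd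 (nat_lit 78) (nat_lit 0) (nat_lit 0) (XT.lf (nat_lit 0) (nat_lit 1969152071) (nat_lit 0) (nat_lit 1969152071) (nat_lit 1748) (nat_lit 6770705179) (nat_lit 412) (nat_lit 5) (nat_lit 412) (nat_lit 3) (nat_lit 435) (nat_lit 3) (nat_lit 356) (nat_lit 356) (nat_lit 188)) (XT.nd (nat_lit 78) (nat_lit 0) (nat_lit 76) (XT.lf (nat_lit 0) (nat_lit 8280366998) (nat_lit 1748) (nat_lit 2196467889) (nat_lit 1824) (nat_lit 11256668026) (nat_lit 412) (nat_lit 5) (nat_lit 435) (nat_lit 3) (nat_lit 436) (nat_lit 5) (nat_lit 357) (nat_lit 356) (nat_lit 187)) (XT.lf (nat_lit 0) (nat_lit 8835013457) (nat_lit 1748) (nat_lit 8393851449) (nat_lit 1824) (nat_lit 4826814186) (nat_lit 413) (nat_lit 5) (nat_lit 436) (nat_lit 5) (nat_lit 437) (nat_lit 5) (nat_lit 358) (nat_lit 356) (nat_lit 186))))))))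
noncomputable def xc124 : XT := (XT.nd (nat_lit 46800) (nat_lit 0) (nat_lit 0) (XT.nd (nat_lit 780) (nat_lit 3952) (nat_lit 0) (XT.nd (nat_lit 390) (nat_lit 0) (nat_lit 304) (XT.nd (nat_lit 156) (nat_lit 0) (nat_lit 152) (XT.nd (nat_lit 78) (nat_lit 0) (nat_lit 76) (XT.lf (nat_lit 76) (nat_lit 7664635616) (nat_lit 0) (nat_lit 1868480381) (nat_lit 1824) (nat_lit 12851871022) (nat_lit 414) (nat_lit 5) (nat_lit 413) (nat_lit 5) (nat_lit 437) (nat_lit 5) (nat_lit 359) (nat_lit 356) (nat_lit 185)) (XT.lf (nat_lit 76) (nat_lit 1521171462) (nat_lit 0) (nat_lit 8880946634) (nat_lit 1824) (nat_lit 12319059673) (nat_lit 415) (nat_lit 5) (nat_lit 414) (nat_lit 5) (nat_lit 438) (nat_lit 5) (nat_lit 360) (nat_lit 356) (nat_lit 184))) (XT.nd (nat_lit 78) (nat_lit 0) (nat_lit 0) (XT.lf (nat_lit 0) (nat_lit 11447443722) (nat_lit 1748) (nat_lit 4676726918) (nat_lit 1824) (nat_lit 6940281170) (nat_lit 415) (nat_lit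 5) (nat_lit 438) (nat_lit 5) (nat_lit 439) (nat_lit 5) (nat_lit 361) (nat_lit 356) (nat_lit 183)) (XT.nd (nat_lit 78) (nat_lit 0) (nat_lit 76) (XT.lf (nat_lit 76) (nat_lit 12441518831) (nat_lit 0) (nat_lit 215450485) (nat_lit 1824) (nat_lit 10758400510) (nat_lit 416) (nat_lit 5) (nat_lit 415) (nat_lit 5) (nat_lit 439) (nat_lit 5) (nat_lit 362) (nat_lit 356) (nat_lit 182)) (XT.lf (nat_lit 76) (nat_lit 6334419879) (nat_lit 0) (nat_lit 7739251701) (nat_lit 1824) (nat_lit 9699728472) (nat_lit 417) (nat_lit 5) (nat_lit 416) (nat_lit 5) (nat_lit 440) (nat_lit 5) (nat_lit 363) (nat_lit 356) (nat_lit 181))))) (XT.nd (nat_lit 156) (nat_lit 0) (nat_lit 76) (XT.nd (nat_lit 78) (nat_lit 0) (nat_lit 76) (XT.lf (nat_lit 76) (nat_lit 110296610) (nat_lit 0) (nat_lit 15548654202) (nat_lit 1824) (nat_lit 8480701266) (nat_lit 418) (nat_lit 5) (nat_lit 417) (nat_lit 5) (nat_lit 441) (nat_lit 5) (nat_lit 364) (nat_lit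 356) (nat_lit 180)) (XT.lf (nat_lit 0) (nat_lit 17460543029) (nat_lit 1748) (nat_lit 6151860315) (nat_lit 1824) (nat_lit 901115572) (nat_lit 418) (nat_lit 5) (nat_lit 441) (nat_lit 5) (nat_lit 442) (nat_lit 5) (nat_lit 365) (nat_lit 356) (nat_lit 179))) (XT.nd (nat_lit 78) (nat_lit 0) (nat_lit 76) (XT.lf (nat_lit 76) (nat_lit 12314867774) (nat_lit 0) (nat_lit 7178701628) (nat_lit 1824) (nat_lit 5401486904) (nat_lit 419) (nat_lit 5) (nat_lit 418) (nat_lit 5) (nat_lit 442) (nat_lit 5) (nat_lit 366) (nat_lit 356) (nat_lit 178)) (XT.nd (nat_lit 78) (nat_lit 0) (nat_lit 76) (XT.lf (nat_lit 76) (nat_lit 6144934727) (nat_lit 0) (nat_lit 15581424987) (nat_lit 1824) (nat_lit 3558906847) (nat_lit 420) (nat_lit 5) (nat_lit 419) (nat_lit 5) (nat_lit 443) (nat_lit 5) (nat_lit 367) (nat_lit 356) (nat_lit 177)) (XT.lf (nat_lit 0) (nat_lit 24161926869) (nat_lit 1748) (nat_lit 142974636) (nat_lit 1824) (nat_lit 1379567900)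 (nat_lit 420) (nat_lit 5) (nat_lit 443) (nat_lit 5) (nat_lit 444) (nat_lit 5) (nat_lit 368) (nat_lit 356) (nat_lit 176)))))) (XT.nd (nat_lit 390) (nat_lit 2660) (nat_lit 0) (XT.nd (nat_lit 156) (nat_lit 0) (nat_lit 152) (XT.nd (nat_lit 78) (nat_lit 0) (nat_lit 76) (XT.lf (nat_lit 0) (nat_lit 794107472) (nat_lit 1824) (nat_lit 6524186203) (nat_lit 1900) (nat_lit 18772747350) (nat_lit 396) (nat_lit 5) (nat_lit 420) (nat_lit 5) (nat_lit 421) (nat_lit 5) (nat_lit 369) (nat_lit 356) (nat_lit 175)) (XT.lf (nat_lit 0) (nat_lit 3309283568) (nat_lit 1824) (nat_lit 13052005015) (nat_lit 1900) (nat_lit 10145327670) (nat_lit 397) (nat_lit 5) (nat_lit 421) (nat_lit 5) (nat_lit 422) (nat_lit 5) (nat_lit 370) (nat_lit 356) (nat_lit 174))) (XT.nd (nat_lit 78) (nat_lit 0) (nat_lit 0) (XT.lf (nat_lit 0) (nat_lit 6042277972) (nat_lit 1824) (nat_lit 19710513107) (nat_lit 1900) (nat_lit 1179022323) (nat_lit 398) (nat_lit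 5) (nat_lit 422) (nat_lit 5) (nat_lit 423) (nat_lit 5) (nat_lit 371) (nat_lit 356) (nat_lit 173)) (XT.nd (nat_lit 78) (nat_lit 0) (nat_lit 76) (XT.lf (nat_lit 76) (nat_lit 809364586) (nat_lit 0) (nat_lit 8245969152) (nat_lit 1900) (nat_lit 18310473164) (nat_lit 399) (nat_lit 5) (nat_lit 398) (nat_lit 5) (nat_lit 423) (nat_lit 5) (nat_lit 372) (nat_lit 356) (nat_lit 172)) (XT.lf (nat_lit 0) (nat_lit 12351278522) (nat_lit 1824) (nat_lit 5664687145) (nat_lit 76) (nat_lit 9793006406) (nat_lit 399) (nat_lit 5) (nat_lit 423) (nat_lit 5) (nat_lit 400) (nat_lit 5) (nat_lit 373) (nat_lit 356) (nat_lit 171))))) (XT.nd (nat_lit 156) (nat_lit 836) (nat_lit 0) (XT.nd (nat_lit 78) (nat_lit 912) (nat_lit 0) (XT.lf (nat_lit 0) (nat_lit 15900500921) (nat_lit 1216) (nat_lit 12259081447) (nat_lit 76) (nat_lit 102763605) (nat_lit 384) (nat_lit 5) (nat_lit 400) (nat_lit 5) (nat_lit 385) (nat_lit 5) (nat_lit 374) (nat_lit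 356) (nat_lit 170)) (XT.lf (nat_lit 0) (nat_lit 9671699604) (nat_lit 912) (nat_lit 10101216640) (nat_lit 988) (nat_lit 8952072231) (nat_lit 372) (nat_lit 5) (nat_lit 384) (nat_lit 5) (nat_lit 385) (nat_lit 5) (nat_lit 375) (nat_lit 356) (nat_lit 169))) (XT.nd (nat_lit 78) (nat_lit 0) (nat_lit 0) (XT.lf (nat_lit 0) (nat_lit 3210046184) (nat_lit 836) (nat_lit 20706027116) (nat_lit 912) (nat_lit 5282347225) (nat_lit 361) (nat_lit 5) (nat_lit 372) (nat_lit 5) (nat_lit 373) (nat_lit 5) (nat_lit 376) (nat_lit 356) (nat_lit 168)) (XT.nd (nat_lit 45318) (nat_lit 0) (nat_lit 3876) (XT.lf (nat_lit 0) (nat_lit 26329029645) (nat_lit 836) (nat_lit 2045756791) (nat_lit 912) (nat_lit 1307445485) (nat_lit 361) (nat_lit 5) (nat_lit 372) (nat_lit 5) (nat_lit 373) (nat_lit 5) (nat_lit 377) (nat_lit 356) (nat_lit 167)) (XT.lf (nat_lit 0) (nat_lit 2132986127) (nat_lit 0) (nat_lit 2132986127) (nat_lit 1748) (nat_lit 6760043857)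 (nat_lit 412) (nat_lit 5) (nat_lit 412) (nat_lit 3) (nat_lit 435) (nat_lit 3) (nat_lit 357) (nat_lit 357) (nat_lit 186))))))) (XT.nd (nat_lit 780) (nat_lit 3876) (nat_lit 0) (XT.nd (nat_lit 390) (nat_lit 0) (nat_lit 228) (XT.nd (nat_lit 156) (nat_lit 0) (nat_lit 76) (XT.nd (nat_lit 78) (nat_lit 0) (nat_lit 76) (XT.lf (nat_lit 0) (nat_lit 8934290278) (nat_lit 1748) (nat_lit 2049346099) (nat_lit 1824) (nat_lit 11393619418) (nat_lit 412) (nat_lit 5) (nat_lit 435) (nat_lit 3) (nat_lit 436) (nat_lit 5) (nat_lit 358) (nat_lit 357) (nat_lit 185)) (XT.lf (nat_lit 0) (nat_lit 9493921294) (nat_lit 1748) (nat_lit 8426863631) (nat_lit 1824) (nat_lit 4788549566) (nat_lit 413) (nat_lit 5) (nat_lit 436) (nat_lit 5) (nat_lit 437) (nat_lit 5) (nat_lit 359) (nat_lit 357) (nat_lit 184))) (XT.nd (nat_lit 78) (nat_lit 0) (nat_lit 76) (XT.lf (nat_lit 76) (nat_lit 8109828222) (nat_lit 0) (nat_lit 2093064682) (nat_lit 1824)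 (nat_lit 12845834246) (nat_lit 414) (nat_lit 5) (nat_lit 413) (nat_lit 5) (nat_lit 437) (nat_lit 5) (nat_lit 360) (nat_lit 357) (nat_lit 183)) (XT.nd (nat_lit 78) (nat_lit 0) (nat_lit 76) (XT.lf (nat_lit 76) (nat_lit 1787327146) (nat_lit 0) (nat_lit 9299829190) (nat_lit 1824) (nat_lit 12308067359) (nat_lit 415) (nat_lit 5) (nat_lit 414) (nat_lit 5) (nat_lit 438) (nat_lit 5) (nat_lit 361) (nat_lit 357) (nat_lit 182)) (XT.lf (nat_lit 0) (nat_lit 12152017386) (nat_lit 1748) (nat_lit 4594601754) (nat_lit 1824) (nat_lit 7002417087) (nat_lit 415) (nat_lit 5) (nat_lit 438) (nat_lit 5) (nat_lit 439) (nat_lit 5) (nat_lit 362) (nat_lit 357) (nat_lit 181))))) (XT.nd (nat_lit 156) (nat_lit 0) (nat_lit 152) (XT.nd (nat_lit 78) (nat_lit 0) (nat_lit 76) (XT.lf (nat_lit 76) (nat_lit 13033582754) (nat_lit 0) (nat_lit 355147766) (nat_lit 1824) (nat_lit 10721936903) (nat_lit 416) (nat_lit 5) (nat_lit 415) (nat_lit 5)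 (nat_lit 439) (nat_lit 5) (nat_lit 363) (nat_lit 357) (nat_lit 180)) (XT.lf (nat_lit 76) (nat_lit 6747619052) (nat_lit 0) (nat_lit 8090669953) (nat_lit 1824) (nat_lit 9641346014) (nat_lit 417) (nat_lit 5) (nat_lit 416) (nat_lit 5) (nat_lit 440) (nat_lit 5) (nat_lit 364) (nat_lit 357) (nat_lit 179))) (XT.nd (nat_lit 78) (nat_lit 0) (nat_lit 76) (XT.lf (nat_lit 76) (nat_lit 340767105) (nat_lit 0) (nat_lit 16121109725) (nat_lit 1824) (nat_lit 8395186235) (nat_lit 418) (nat_lit 5) (nat_lit 417) (nat_lit 5) (nat_lit 441) (nat_lit 5) (nat_lit 365) (nat_lit 357) (nat_lit 178)) (XT.nd (nat_lit 78) (nat_lit 0) (nat_lit 0) (XT.lf (nat_lit 0) (nat_lit 18307145046) (nat_lit 1748) (nat_lit 6108621592) (nat_lit 1824) (nat_lit 826590066) (nat_lit 418) (nat_lit 5) (nat_lit 441) (nat_lit 5) (nat_lit 442) (nat_lit 5) (nat_lit 366) (nat_lit 357) (nat_lit 177)) (XT.lf (nat_lit 76) (nat_lit 12908412643) (nat_lit 0) (nat_lit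 7484803038) (nat_lit 1824) (nat_lit 5242286728) (nat_lit 419) (nat_lit 5) (nat_lit 418) (nat_lit 5) (nat_lit 442) (nat_lit 5) (nat_lit 367) (nat_lit 357) (nat_lit 176)))))) (XT.nd (nat_lit 390) (nat_lit 2660) (nat_lit 0) (XT.nd (nat_lit 156) (nat_lit 1748) (nat_lit 0) (XT.nd (nat_lit 78) (nat_lit 0) (nat_lit 76) (XT.lf (nat_lit 76) (nat_lit 6556627118) (nat_lit 0) (nat_lit 16128096595) (nat_lit 1824) (nat_lit 3352863749) (nat_lit 420) (nat_lit 5) (nat_lit 419) (nat_lit 5) (nat_lit 443) (nat_lit 5) (nat_lit 368) (nat_lit 357) (nat_lit 175)) (XT.lf (nat_lit 76) (nat_lit 81076988) (nat_lit 0) (nat_lit 25103378560) (nat_lit 1824) (nat_lit 1264491968) (nat_lit 421) (nat_lit 5) (nat_lit 420) (nat_lit 5) (nat_lit 444) (nat_lit 5) (nat_lit 369) (nat_lit 357) (nat_lit 174))) (XT.nd (nat_lit 78) (nat_lit 0) (nat_lit 76) (XT.lf (nat_lit 0) (nat_lit 1109890570) (nat_lit 1824) (nat_lit 6492343964) (nat_lit 1900)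 (nat_lit 19265600909) (nat_lit 396) (nat_lit 5) (nat_lit 420) (nat_lit 5) (nat_lit 421) (nat_lit 5) (nat_lit 370) (nat_lit 357) (nat_lit 173)) (XT.nd (nat_lit 78) (nat_lit 0) (nat_lit 76) (XT.lf (nat_lit 0) (nat_lit 3693075541) (nat_lit 1824) (nat_lit 13213500118) (nat_lit 1900) (nat_lit 10389454040) (nat_lit 397) (nat_lit 5) (nat_lit 421) (nat_lit 5) (nat_lit 422) (nat_lit 5) (nat_lit 371) (nat_lit 357) (nat_lit 172)) (XT.lf (nat_lit 0) (nat_lit 6500908992) (nat_lit 1824) (nat_lit 20069516562) (nat_lit 1900) (nat_lit 1163702985) (nat_lit 398) (nat_lit 5) (nat_lit 422) (nat_lit 5) (nat_lit 423) (nat_lit 5) (nat_lit 372) (nat_lit 357) (nat_lit 171))))) (XT.nd (nat_lit 234) (nat_lit 1748) (nat_lit 0) (XT.nd (nat_lit 78) (nat_lit 1064) (nat_lit 0) (XT.lf (nat_lit 76) (nat_lit 1062188477) (nat_lit 0) (nat_lit 8535573281) (nat_lit 1900) (nat_lit 18583514659) (nat_lit 399) (nat_lit 5) (nat_lit 398) (nat_lit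 5) (nat_lit 423) (nat_lit 5) (nat_lit 373) (nat_lit 357) (nat_lit 170)) (XT.nd (nat_lit 78) (nat_lit 1140) (nat_lit 0) (XT.lf (nat_lit 0) (nat_lit 12984432271) (nat_lit 1824) (nat_lit 5607130868) (nat_lit 76) (nat_lit 10046339058) (nat_lit 399) (nat_lit 5) (nat_lit 423) (nat_lit 5) (nat_lit 400) (nat_lit 5) (nat_lit 374) (nat_lit 357) (nat_lit 169)) (XT.lf (nat_lit 0) (nat_lit 16633723699) (nat_lit 1216) (nat_lit 12397623524) (nat_lit 76) (nat_lit 73660771) (nat_lit 384) (nat_lit 5) (nat_lit 400) (nat_lit 5) (nat_lit 385) (nat_lit 5) (nat_lit 375) (nat_lit 357) (nat_lit 168)))) (XT.nd (nat_lit 78) (nat_lit 836) (nat_lit 0) (XT.lf (nat_lit 0) (nat_lit 10187361969) (nat_lit 912) (nat_lit 10428951320) (nat_lit 988) (nat_lit 8965338898) (nat_lit 372) (nat_lit 5) (nat_lit 384) (nat_lit 5) (nat_lit 385) (nat_lit 5) (nat_lit 376) (nat_lit 357) (nat_lit 167)) (XT.nd (nat_lit 45396) (nat_lit 0) (nat_lit 3876)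 (XT.lf (nat_lit 0) (nat_lit 3533361476) (nat_lit 836) (nat_lit 21344434162) (nat_lit 912) (nat_lit 5191613329) (nat_lit 361) (nat_lit 5) (nat_lit 372) (nat_lit 5) (nat_lit 373) (nat_lit 5) (nat_lit 377) (nat_lit 357) (nat_lit 166)) (XT.lf (nat_lit 0) (nat_lit 2295721581) (nat_lit 0) (nat_lit 2295721581) (nat_lit 1748) (nat_lit 6761334685) (nat_lit 412) (nat_lit 5) (nat_lit 412) (nat_lit 3) (nat_lit 435) (nat_lit 3) (nat_lit 358) (nat_lit 358) (nat_lit 184))))))))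
noncomputable def xc125 : XT := (XT.nd (nat_lit 47034) (nat_lit 0) (nat_lit 912) (XT.nd (nat_lit 780) (nat_lit 2128) (nat_lit 0) (XT.nd (nat_lit 390) (nat_lit 0) (nat_lit 228) (XT.nd (nat_lit 156) (nat_lit 0) (nat_lit 76) (XT.nd (nat_lit 78) (nat_lit 0) (nat_lit 76) (XT.lf (nat_lit 0) (nat_lit 9584553194) (nat_lit 1748) (nat_lit 1910038635) (nat_lit 1824) (nat_lit 11546203146) (nat_lit 412) (nat_lit 5) (nat_lit 435) (nat_lit 3) (nat_lit 436) (nat_lit 5) (nat_lit 359) (nat_lit 358) (nat_lit 183)) (XT.lf (nat_lit 0) (nat_lit 10149987339) (nat_lit 1748) (nat_lit 8473426386) (nat_lit 1824) (nat_lit 4759645919) (nat_lit 413) (nat_lit 5) (nat_lit 436) (nat_lit 5) (nat_lit 437) (nat_lit 5) (nat_lit 360) (nat_lit 358) (nat_lit 182))) (XT.nd (nat_lit 78) (nat_lit 0) (nat_lit 76) (XT.lf (nat_lit 76) (nat_lit 8556020172) (nat_lit 0) (nat_lit 2314712207) (nat_lit 1824) (nat_lit 12862095403) (nat_lit 414) (nat_lit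 5) (nat_lit 413) (nat_lit 5) (nat_lit 437) (nat_lit 5) (nat_lit 361) (nat_lit 358) (nat_lit 181)) (XT.nd (nat_lit 78) (nat_lit 0) (nat_lit 76) (XT.lf (nat_lit 76) (nat_lit 2048808718) (nat_lit 0) (nat_lit 9722526731) (nat_lit 1824) (nat_lit 12318591213) (nat_lit 415) (nat_lit 5) (nat_lit 414) (nat_lit 5) (nat_lit 438) (nat_lit 5) (nat_lit 362) (nat_lit 358) (nat_lit 180)) (XT.lf (nat_lit 0) (nat_lit 12856996753) (nat_lit 1748) (nat_lit 4522781054) (nat_lit 1824) (nat_lit 7074802242) (nat_lit 415) (nat_lit 5) (nat_lit 438) (nat_lit 5) (nat_lit 439) (nat_lit 5) (nat_lit 363) (nat_lit 358) (nat_lit 179))))) (XT.nd (nat_lit 156) (nat_lit 0) (nat_lit 152) (XT.nd (nat_lit 78) (nat_lit 0) (nat_lit 76) (XT.lf (nat_lit 76) (nat_lit 13630847526) (nat_lit 0) (nat_lit 491387802) (nat_lit 1824) (nat_lit 10704999834) (nat_lit 416) (nat_lit 5) (nat_lit 415) (nat_lit 5) (nat_lit 439) (nat_lit 5) (nat_lit 364) (nat_lit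 358) (nat_lit 178)) (XT.lf (nat_lit 76) (nat_lit 7160403526) (nat_lit 0) (nat_lit 8445785849) (nat_lit 1824) (nat_lit 9601267597) (nat_lit 417) (nat_lit 5) (nat_lit 416) (nat_lit 5) (nat_lit 440) (nat_lit 5) (nat_lit 365) (nat_lit 358) (nat_lit 177))) (XT.nd (nat_lit 78) (nat_lit 0) (nat_lit 76) (XT.lf (nat_lit 76) (nat_lit 565111709) (nat_lit 0) (nat_lit 16704654316) (nat_lit 1824) (nat_lit 8326619473) (nat_lit 418) (nat_lit 5) (nat_lit 417) (nat_lit 5) (nat_lit 441) (nat_lit 5) (nat_lit 366) (nat_lit 358) (nat_lit 176)) (XT.nd (nat_lit 78) (nat_lit 0) (nat_lit 0) (XT.lf (nat_lit 0) (nat_lit 19160615902) (nat_lit 1748) (nat_lit 6077162046) (nat_lit 1824) (nat_lit 755658696) (nat_lit 418) (nat_lit 5) (nat_lit 441) (nat_lit 5) (nat_lit 442) (nat_lit 5) (nat_lit 367) (nat_lit 358) (nat_lit 175)) (XT.lf (nat_lit 76) (nat_lit 13506899669) (nat_lit 0) (nat_lit 7794878623) (nat_lit 1824) (nat_lit 5096751312)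 (nat_lit 419) (nat_lit 5) (nat_lit 418) (nat_lit 5) (nat_lit 442) (nat_lit 5) (nat_lit 368) (nat_lit 358) (nat_lit 174)))))) (XT.nd (nat_lit 390) (nat_lit 912) (nat_lit 0) (XT.nd (nat_lit 156) (nat_lit 1748) (nat_lit 0) (XT.nd (nat_lit 78) (nat_lit 0) (nat_lit 76) (XT.lf (nat_lit 76) (nat_lit 6967619784) (nat_lit 0) (nat_lit 16686620291) (nat_lit 1824) (nat_lit 3158595950) (nat_lit 420) (nat_lit 5) (nat_lit 419) (nat_lit 5) (nat_lit 443) (nat_lit 5) (nat_lit 369) (nat_lit 358) (nat_lit 173)) (XT.lf (nat_lit 76) (nat_lit 300587178) (nat_lit 0) (nat_lit 25920898609) (nat_lit 1824) (nat_lit 1015203554) (nat_lit 421) (nat_lit 5) (nat_lit 420) (nat_lit 5) (nat_lit 444) (nat_lit 5) (nat_lit 370) (nat_lit 358) (nat_lit 172))) (XT.nd (nat_lit 78) (nat_lit 0) (nat_lit 76) (XT.lf (nat_lit 0) (nat_lit 1418387470) (nat_lit 1824) (nat_lit 6472609781) (nat_lit 1900) (nat_lit 19777277239) (nat_lit 396) (nat_lit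 5) (nat_lit 420) (nat_lit 5) (nat_lit 421) (nat_lit 5) (nat_lit 371) (nat_lit 358) (nat_lit 171)) (XT.nd (nat_lit 78) (nat_lit 0) (nat_lit 76) (XT.lf (nat_lit 0) (nat_lit 4072049037) (nat_lit 1824) (nat_lit 13393046749) (nat_lit 1900) (nat_lit 10644361849) (nat_lit 397) (nat_lit 5) (nat_lit 421) (nat_lit 5) (nat_lit 422) (nat_lit 5) (nat_lit 372) (nat_lit 358) (nat_lit 170)) (XT.lf (nat_lit 0) (nat_lit 6957377189) (nat_lit 1824) (nat_lit 20452625776) (nat_lit 1900) (nat_lit 1150833881) (nat_lit 398) (nat_lit 5) (nat_lit 422) (nat_lit 5) (nat_lit 423) (nat_lit 5) (nat_lit 373) (nat_lit 358) (nat_lit 169))))) (XT.nd (nat_lit 156) (nat_lit 1064) (nat_lit 0) (XT.nd (nat_lit 78) (nat_lit 0) (nat_lit 76) (XT.lf (nat_lit 76) (nat_lit 1309477783) (nat_lit 0) (nat_lit 8831441644) (nat_lit 1900) (nat_lit 18880606582) (nat_lit 399) (nat_lit 5) (nat_lit 398) (nat_lit 5) (nat_lit 423) (nat_lit 5) (nat_lit 374)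 (nat_lit 358) (nat_lit 168)) (XT.lf (nat_lit 0) (nat_lit 13621505434) (nat_lit 1824) (nat_lit 5560907155) (nat_lit 76) (nat_lit 10309594119) (nat_lit 399) (nat_lit 5) (nat_lit 423) (nat_lit 5) (nat_lit 400) (nat_lit 5) (nat_lit 375) (nat_lit 358) (nat_lit 167))) (XT.nd (nat_lit 45552) (nat_lit 0) (nat_lit 2128) (XT.lf (nat_lit 0) (nat_lit 17374235787) (nat_lit 1216) (nat_lit 12553480624) (nat_lit 76) (nat_lit 45532445) (nat_lit 384) (nat_lit 5) (nat_lit 400) (nat_lit 5) (nat_lit 385) (nat_lit 5) (nat_lit 376) (nat_lit 358) (nat_lit 166)) (XT.nd (nat_lit 78) (nat_lit 0) (nat_lit 0) (XT.lf (nat_lit 0) (nat_lit 2457670682) (nat_lit 0) (nat_lit 2457670682) (nat_lit 1748) (nat_lit 6774231765) (nat_lit 412) (nat_lit 5) (nat_lit 412) (nat_lit 3) (nat_lit 435) (nat_lit 3) (nat_lit 359) (nat_lit 359) (nat_lit 182)) (XT.lf (nat_lit 0) (nat_lit 10232382190) (nat_lit 1748) (nat_lit 1778077990) (nat_lit 1824)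 (nat_lit 11714226666) (nat_lit 412) (nat_lit 5) (nat_lit 435) (nat_lit 3) (nat_lit 436) (nat_lit 5) (nat_lit 360) (nat_lit 359) (nat_lit 181))))))) (XT.nd (nat_lit 780) (nat_lit 1292) (nat_lit 0) (XT.nd (nat_lit 390) (nat_lit 0) (nat_lit 228) (XT.nd (nat_lit 156) (nat_lit 0) (nat_lit 76) (XT.nd (nat_lit 78) (nat_lit 0) (nat_lit 0) (XT.lf (nat_lit 0) (nat_lit 10804424188) (nat_lit 1748) (nat_lit 8533225225) (nat_lit 1824) (nat_lit 4739780820) (nat_lit 413) (nat_lit 5) (nat_lit 436) (nat_lit 5) (nat_lit 437) (nat_lit 5) (nat_lit 361) (nat_lit 359) (nat_lit 180)) (XT.lf (nat_lit 76) (nat_lit 9003950757) (nat_lit 0) (nat_lit 2533890197) (nat_lit 1824) (nat_lit 12900033040) (nat_lit 414) (nat_lit 5) (nat_lit 413) (nat_lit 5) (nat_lit 437) (nat_lit 5) (nat_lit 362) (nat_lit 359) (nat_lit 179))) (XT.nd (nat_lit 78) (nat_lit 0) (nat_lit 76) (XT.lf (nat_lit 76) (nat_lit 2306202623) (nat_lit 0) (nat_lit 10149656077)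 (nat_lit 1824) (nat_lit 12350022672) (nat_lit 415) (nat_lit 5) (nat_lit 414) (nat_lit 5) (nat_lit 438) (nat_lit 5) (nat_lit 363) (nat_lit 359) (nat_lit 178)) (XT.nd (nat_lit 78) (nat_lit 0) (nat_lit 0) (XT.lf (nat_lit 0) (nat_lit 13563584066) (nat_lit 1748) (nat_lit 4460841002) (nat_lit 1824) (nat_lit 7157262769) (nat_lit 415) (nat_lit 5) (nat_lit 438) (nat_lit 5) (nat_lit 439) (nat_lit 5) (nat_lit 364) (nat_lit 359) (nat_lit 177)) (XT.lf (nat_lit 76) (nat_lit 14234190228) (nat_lit 0) (nat_lit 624505912) (nat_lit 1824) (nat_lit 10706991402) (nat_lit 416) (nat_lit 5) (nat_lit 415) (nat_lit 5) (nat_lit 439) (nat_lit 5) (nat_lit 365) (nat_lit 359) (nat_lit 176))))) (XT.nd (nat_lit 156) (nat_lit 0) (nat_lit 152) (XT.nd (nat_lit 78) (nat_lit 0) (nat_lit 76) (XT.lf (nat_lit 76) (nat_lit 7573496245) (nat_lit 0) (nat_lit 8805103242) (nat_lit 1824) (nat_lit 9578891073) (nat_lit 417) (nat_lit 5) (nat_lit 416)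 (nat_lit 5) (nat_lit 440) (nat_lit 5) (nat_lit 366) (nat_lit 359) (nat_lit 175)) (XT.lf (nat_lit 76) (nat_lit 783895197) (nat_lit 0) (nat_lit 17299969927) (nat_lit 1824) (nat_lit 8274389263) (nat_lit 418) (nat_lit 5) (nat_lit 417) (nat_lit 5) (nat_lit 441) (nat_lit 5) (nat_lit 367) (nat_lit 359) (nat_lit 174))) (XT.nd (nat_lit 78) (nat_lit 0) (nat_lit 0) (XT.lf (nat_lit 0) (nat_lit 20022225316) (nat_lit 1748) (nat_lit 6057084416) (nat_lit 1824) (nat_lit 688094625) (nat_lit 418) (nat_lit 5) (nat_lit 441) (nat_lit 5) (nat_lit 442) (nat_lit 5) (nat_lit 368) (nat_lit 359) (nat_lit 173)) (XT.nd (nat_lit 78) (nat_lit 0) (nat_lit 76) (XT.lf (nat_lit 76) (nat_lit 14111215573) (nat_lit 0) (nat_lit 8109346618) (nat_lit 1824) (nat_lit 4964232023) (nat_lit 419) (nat_lit 5) (nat_lit 418) (nat_lit 5) (nat_lit 442) (nat_lit 5) (nat_lit 369) (nat_lit 359) (nat_lit 172)) (XT.lf (nat_lit 76) (nat_lit 7378640887) (nat_lit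 0) (nat_lit 17257612715) (nat_lit 1824) (nat_lit 2975425925) (nat_lit 420) (nat_lit 5) (nat_lit 419) (nat_lit 5) (nat_lit 443) (nat_lit 5) (nat_lit 370) (nat_lit 359) (nat_lit 171)))))) (XT.nd (nat_lit 390) (nat_lit 0) (nat_lit 228) (XT.nd (nat_lit 156) (nat_lit 0) (nat_lit 76) (XT.nd (nat_lit 78) (nat_lit 1824) (nat_lit 0) (XT.lf (nat_lit 76) (nat_lit 514221516) (nat_lit 0) (nat_lit 26759246363) (nat_lit 1824) (nat_lit 774924274) (nat_lit 421) (nat_lit 5) (nat_lit 420) (nat_lit 5) (nat_lit 444) (nat_lit 5) (nat_lit 371) (nat_lit 359) (nat_lit 170)) (XT.lf (nat_lit 0) (nat_lit 1720341661) (nat_lit 1824) (nat_lit 6464597009) (nat_lit 1900) (nat_lit 20308109273) (nat_lit 396) (nat_lit 5) (nat_lit 420) (nat_lit 5) (nat_lit 421) (nat_lit 5) (nat_lit 372) (nat_lit 359) (nat_lit 169))) (XT.nd (nat_lit 78) (nat_lit 0) (nat_lit 76) (XT.lf (nat_lit 0) (nat_lit 4446997038) (nat_lit 1824) (nat_lit 13590428336)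 (nat_lit 1900) (nat_lit 10910176055) (nat_lit 397) (nat_lit 5) (nat_lit 421) (nat_lit 5) (nat_lit 422) (nat_lit 5) (nat_lit 373) (nat_lit 359) (nat_lit 168)) (XT.nd (nat_lit 78) (nat_lit 0) (nat_lit 0) (XT.lf (nat_lit 0) (nat_lit 7412531653) (nat_lit 1824) (nat_lit 20859798402) (nat_lit 1900) (nat_lit 1140321482) (nat_lit 398) (nat_lit 5) (nat_lit 422) (nat_lit 5) (nat_lit 423) (nat_lit 5) (nat_lit 374) (nat_lit 359) (nat_lit 167)) (XT.lf (nat_lit 76) (nat_lit 1551819570) (nat_lit 0) (nat_lit 9133901308) (nat_lit 1900) (nat_lit 19201560064) (nat_lit 399) (nat_lit 5) (nat_lit 398) (nat_lit 5) (nat_lit 423) (nat_lit 5) (nat_lit 375) (nat_lit 359) (nat_lit 166))))) (XT.nd (nat_lit 45786) (nat_lit 0) (nat_lit 1064) (XT.nd (nat_lit 45630) (nat_lit 0) (nat_lit 988) (XT.lf (nat_lit 0) (nat_lit 14263480972) (nat_lit 1824) (nat_lit 5525606329) (nat_lit 76) (nat_lit 10582935942) (nat_lit 399) (nat_lit 5) (nat_lit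 423) (nat_lit 5) (nat_lit 400) (nat_lit 5) (nat_lit 376) (nat_lit 359) (nat_lit 165)) (XT.nd (nat_lit 78) (nat_lit 0) (nat_lit 0) (XT.lf (nat_lit 0) (nat_lit 2619135229) (nat_lit 0) (nat_lit 2619135229) (nat_lit 1748) (nat_lit 6798419259) (nat_lit 412) (nat_lit 5) (nat_lit 412) (nat_lit 3) (nat_lit 435) (nat_lit 3) (nat_lit 360) (nat_lit 360) (nat_lit 180)) (XT.lf (nat_lit 0) (nat_lit 10878963798) (nat_lit 1748) (nat_lit 1653022929) (nat_lit 1824) (nat_lit 11897529633) (nat_lit 412) (nat_lit 5) (nat_lit 435) (nat_lit 3) (nat_lit 436) (nat_lit 5) (nat_lit 361) (nat_lit 360) (nat_lit 179)))) (XT.nd (nat_lit 78) (nat_lit 0) (nat_lit 0) (XT.lf (nat_lit 0) (nat_lit 11458406313) (nat_lit 1748) (nat_lit 8605977611) (nat_lit 1824) (nat_lit 4728656801) (nat_lit 413) (nat_lit 5) (nat_lit 436) (nat_lit 5) (nat_lit 437) (nat_lit 5) (nat_lit 362) (nat_lit 360) (nat_lit 178)) (XT.nd (nat_lit 78) (nat_lit 0) (nat_lit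 76) (XT.lf (nat_lit 76) (nat_lit 9454340728) (nat_lit 0) (nat_lit 2751048033) (nat_lit 1824) (nat_lit 12959081137) (nat_lit 414) (nat_lit 5) (nat_lit 413) (nat_lit 5) (nat_lit 437) (nat_lit 5) (nat_lit 363) (nat_lit 360) (nat_lit 177)) (XT.lf (nat_lit 76) (nat_lit 2560071182) (nat_lit 0) (nat_lit 10581823716) (nat_lit 1824) (nat_lit 12401806906) (nat_lit 415) (nat_lit 5) (nat_lit 414) (nat_lit 5) (nat_lit 438) (nat_lit 5) (nat_lit 364) (nat_lit 360) (nat_lit 176))))))))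
noncomputable def xc126 : XT := (XT.nd (nat_lit 47268) (nat_lit 0) (nat_lit 0) (XT.nd (nat_lit 780) (nat_lit 0) (nat_lit 152) (XT.nd (nat_lit 390) (nat_lit 1444) (nat_lit 0) (XT.nd (nat_lit 156) (nat_lit 0) (nat_lit 76) (XT.nd (nat_lit 78) (nat_lit 0) (nat_lit 0) (XT.lf (nat_lit 0) (nat_lit 14272949322) (nat_lit 1748) (nat_lit 4408387146) (nat_lit 1824) (nat_lit 7249647218) (nat_lit 415) (nat_lit 5) (nat_lit 438) (nat_lit 5) (nat_lit 439) (nat_lit 5) (nat_lit 365) (nat_lit 360) (nat_lit 175)) (XT.lf (nat_lit 76) (nat_lit 14844472865) (nat_lit 0) (nat_lit 754822271) (nat_lit 1824) (nat_lit 10727363715) (nat_lit 416) (nat_lit 5) (nat_lit 415) (nat_lit 5) (nat_lit 439) (nat_lit 5) (nat_lit 366) (nat_lit 360) (nat_lit 174))) (XT.nd (nat_lit 78) (nat_lit 0) (nat_lit 76) (XT.lf (nat_lit 76) (nat_lit 7987599627) (nat_lit 0) (nat_lit 9169118550) (nat_lit 1824) (nat_lit 9573662319) (nat_lit 417) (nat_lit 5)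 (nat_lit 416) (nat_lit 5) (nat_lit 440) (nat_lit 5) (nat_lit 367) (nat_lit 360) (nat_lit 173)) (XT.nd (nat_lit 78) (nat_lit 0) (nat_lit 76) (XT.lf (nat_lit 76) (nat_lit 997656313) (nat_lit 0) (nat_lit 17907738920) (nat_lit 1824) (nat_lit 8237929834) (nat_lit 418) (nat_lit 5) (nat_lit 417) (nat_lit 5) (nat_lit 441) (nat_lit 5) (nat_lit 368) (nat_lit 360) (nat_lit 172)) (XT.lf (nat_lit 0) (nat_lit 20893220039) (nat_lit 1748) (nat_lit 6048022614) (nat_lit 1824) (nat_lit 623683423) (nat_lit 418) (nat_lit 5) (nat_lit 441) (nat_lit 5) (nat_lit 442) (nat_lit 5) (nat_lit 369) (nat_lit 360) (nat_lit 171))))) (XT.nd (nat_lit 156) (nat_lit 1672) (nat_lit 0) (XT.nd (nat_lit 78) (nat_lit 0) (nat_lit 76) (XT.lf (nat_lit 76) (nat_lit 14722231287) (nat_lit 0) (nat_lit 8428620641) (nat_lit 1824) (nat_lit 4844121536) (nat_lit 419) (nat_lit 5) (nat_lit 418) (nat_lit 5) (nat_lit 442) (nat_lit 5) (nat_lit 370) (nat_lit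 360) (nat_lit 170)) (XT.lf (nat_lit 76) (nat_lit 7790397427) (nat_lit 0) (nat_lit 17841694019) (nat_lit 1824) (nat_lit 2802714999) (nat_lit 420) (nat_lit 5) (nat_lit 419) (nat_lit 5) (nat_lit 443) (nat_lit 5) (nat_lit 371) (nat_lit 360) (nat_lit 169))) (XT.nd (nat_lit 78) (nat_lit 1824) (nat_lit 0) (XT.lf (nat_lit 76) (nat_lit 722519047) (nat_lit 0) (nat_lit 27619258928) (nat_lit 1824) (nat_lit 542977934) (nat_lit 421) (nat_lit 5) (nat_lit 420) (nat_lit 5) (nat_lit 444) (nat_lit 5) (nat_lit 372) (nat_lit 360) (nat_lit 168)) (XT.nd (nat_lit 78) (nat_lit 0) (nat_lit 76) (XT.lf (nat_lit 0) (nat_lit 2016463709) (nat_lit 1824) (nat_lit 6467950448) (nat_lit 1900) (nat_lit 20858453237) (nat_lit 396) (nat_lit 5) (nat_lit 420) (nat_lit 5) (nat_lit 421) (nat_lit 5) (nat_lit 373) (nat_lit 360) (nat_lit 167)) (XT.lf (nat_lit 0) (nat_lit 4818682497) (nat_lit 1824) (nat_lit 13805465330) (nat_lit 1900) (nat_lit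 11187036762) (nat_lit 397) (nat_lit 5) (nat_lit 421) (nat_lit 5) (nat_lit 422) (nat_lit 5) (nat_lit 374) (nat_lit 360) (nat_lit 166)))))) (XT.nd (nat_lit 46098) (nat_lit 0) (nat_lit 1216) (XT.nd (nat_lit 45864) (nat_lit 0) (nat_lit 1064) (XT.nd (nat_lit 45786) (nat_lit 0) (nat_lit 1064) (XT.lf (nat_lit 0) (nat_lit 7867194481) (nat_lit 1824) (nat_lit 21291034763) (nat_lit 1900) (nat_lit 1132079043) (nat_lit 398) (nat_lit 5) (nat_lit 422) (nat_lit 5) (nat_lit 423) (nat_lit 5) (nat_lit 375) (nat_lit 360) (nat_lit 165)) (XT.lf (nat_lit 0) (nat_lit 2780407398) (nat_lit 0) (nat_lit 2780407398) (nat_lit 1748) (nat_lit 6833609976) (nat_lit 412) (nat_lit 5) (nat_lit 412) (nat_lit 3) (nat_lit 435) (nat_lit 3) (nat_lit 361) (nat_lit 361) (nat_lit 178))) (XT.nd (nat_lit 78) (nat_lit 0) (nat_lit 76) (XT.lf (nat_lit 0) (nat_lit 11525447843) (nat_lit 1748) (nat_lit 1534456956) (nat_lit 1824) (nat_lit 12095982685)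 (nat_lit 412) (nat_lit 5) (nat_lit 435) (nat_lit 3) (nat_lit 436) (nat_lit 5) (nat_lit 362) (nat_lit 361) (nat_lit 177)) (XT.nd (nat_lit 78) (nat_lit 0) (nat_lit 0) (XT.lf (nat_lit 0) (nat_lit 12113073198) (nat_lit 1748) (nat_lit 8691431545) (nat_lit 1824) (nat_lit 4726000110) (nat_lit 413) (nat_lit 5) (nat_lit 436) (nat_lit 5) (nat_lit 437) (nat_lit 5) (nat_lit 363) (nat_lit 361) (nat_lit 176)) (XT.lf (nat_lit 76) (nat_lit 9907894079) (nat_lit 0) (nat_lit 2966618525) (nat_lit 1824) (nat_lit 13038726515) (nat_lit 414) (nat_lit 5) (nat_lit 413) (nat_lit 5) (nat_lit 437) (nat_lit 5) (nat_lit 364) (nat_lit 361) (nat_lit 175))))) (XT.nd (nat_lit 156) (nat_lit 0) (nat_lit 76) (XT.nd (nat_lit 78) (nat_lit 0) (nat_lit 76) (XT.lf (nat_lit 76) (nat_lit 2810954267) (nat_lit 0) (nat_lit 11019627147) (nat_lit 1824) (nat_lit 12473440296) (nat_lit 415) (nat_lit 5) (nat_lit 414) (nat_lit 5) (nat_lit 438) (nat_lit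 5) (nat_lit 365) (nat_lit 361) (nat_lit 174)) (XT.lf (nat_lit 0) (nat_lit 14986233225) (nat_lit 1748) (nat_lit 4365052855) (nat_lit 1824) (nat_lit 7351825640) (nat_lit 415) (nat_lit 5) (nat_lit 438) (nat_lit 5) (nat_lit 439) (nat_lit 5) (nat_lit 366) (nat_lit 361) (nat_lit 173))) (XT.nd (nat_lit 78) (nat_lit 0) (nat_lit 76) (XT.lf (nat_lit 76) (nat_lit 15462544283) (nat_lit 0) (nat_lit 882642905) (nat_lit 1824) (nat_lit 10765616497) (nat_lit 416) (nat_lit 5) (nat_lit 415) (nat_lit 5) (nat_lit 439) (nat_lit 5) (nat_lit 367) (nat_lit 361) (nat_lit 172)) (XT.nd (nat_lit 78) (nat_lit 0) (nat_lit 76) (XT.lf (nat_lit 76) (nat_lit 8403397372) (nat_lit 0) (nat_lit 9538321817) (nat_lit 1824) (nat_lit 9585072880) (nat_lit 417) (nat_lit 5) (nat_lit 416) (nat_lit 5) (nat_lit 440) (nat_lit 5) (nat_lit 368) (nat_lit 361) (nat_lit 171)) (XT.lf (nat_lit 76) (nat_lit 1206909464) (nat_lit 0) (nat_lit 18528645227) (nat_lit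 1824) (nat_lit 8216719057) (nat_lit 418) (nat_lit 5) (nat_lit 417) (nat_lit 5) (nat_lit 441) (nat_lit 5) (nat_lit 369) (nat_lit 361) (nat_lit 170))))))) (XT.nd (nat_lit 46566) (nat_lit 0) (nat_lit 1216) (XT.nd (nat_lit 390) (nat_lit 0) (nat_lit 76) (XT.nd (nat_lit 156) (nat_lit 1672) (nat_lit 0) (XT.nd (nat_lit 78) (nat_lit 0) (nat_lit 0) (XT.lf (nat_lit 0) (nat_lit 21774826673) (nat_lit 1748) (nat_lit 6049640186) (nat_lit 1824) (nat_lit 562222335) (nat_lit 418) (nat_lit 5) (nat_lit 441) (nat_lit 5) (nat_lit 442) (nat_lit 5) (nat_lit 370) (nat_lit 361) (nat_lit 169)) (XT.lf (nat_lit 76) (nat_lit 15340803917) (nat_lit 0) (nat_lit 8753110540) (nat_lit 1824) (nat_lit 4735851584) (nat_lit 419) (nat_lit 5) (nat_lit 418) (nat_lit 5) (nat_lit 442) (nat_lit 5) (nat_lit 371) (nat_lit 361) (nat_lit 168))) (XT.nd (nat_lit 78) (nat_lit 1748) (nat_lit 0) (XT.lf (nat_lit 76) (nat_lit 8203577078) (nat_lit 0) (nat_lit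 18439488832) (nat_lit 1824) (nat_lit 2639861106) (nat_lit 420) (nat_lit 5) (nat_lit 419) (nat_lit 5) (nat_lit 443) (nat_lit 5) (nat_lit 372) (nat_lit 361) (nat_lit 167)) (XT.nd (nat_lit 78) (nat_lit 1824) (nat_lit 0) (XT.lf (nat_lit 76) (nat_lit 925993925) (nat_lit 0) (nat_lit 28501786337) (nat_lit 1824) (nat_lit 318722387) (nat_lit 421) (nat_lit 5) (nat_lit 420) (nat_lit 5) (nat_lit 444) (nat_lit 5) (nat_lit 373) (nat_lit 361) (nat_lit 166)) (XT.lf (nat_lit 0) (nat_lit 2307433442) (nat_lit 1824) (nat_lit 6482344818) (nat_lit 1900) (nat_lit 21428688581) (nat_lit 396) (nat_lit 5) (nat_lit 420) (nat_lit 5) (nat_lit 421) (nat_lit 5) (nat_lit 374) (nat_lit 361) (nat_lit 165))))) (XT.nd (nat_lit 45942) (nat_lit 0) (nat_lit 1140) (XT.nd (nat_lit 45864) (nat_lit 0) (nat_lit 1140) (XT.lf (nat_lit 0) (nat_lit 5187840530) (nat_lit 1824) (nat_lit 14038013817) (nat_lit 1900) (nat_lit 11475099016) (nat_lit 397)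 (nat_lit 5) (nat_lit 421) (nat_lit 5) (nat_lit 422) (nat_lit 5) (nat_lit 375) (nat_lit 361) (nat_lit 164)) (XT.lf (nat_lit 0) (nat_lit 2941770522) (nat_lit 0) (nat_lit 2941770522) (nat_lit 1748) (nat_lit 6879544035) (nat_lit 412) (nat_lit 5) (nat_lit 412) (nat_lit 3) (nat_lit 435) (nat_lit 3) (nat_lit 362) (nat_lit 362) (nat_lit 176))) (XT.nd (nat_lit 78) (nat_lit 0) (nat_lit 76) (XT.lf (nat_lit 0) (nat_lit 12172950491) (nat_lit 1748) (nat_lit 1421986884) (nat_lit 1824) (nat_lit 12309486318) (nat_lit 412) (nat_lit 5) (nat_lit 435) (nat_lit 3) (nat_lit 436) (nat_lit 5) (nat_lit 363) (nat_lit 362) (nat_lit 175)) (XT.nd (nat_lit 78) (nat_lit 0) (nat_lit 0) (XT.lf (nat_lit 0) (nat_lit 12769532314) (nat_lit 1748) (nat_lit 8789364242) (nat_lit 1824) (nat_lit 4731559550) (nat_lit 413) (nat_lit 5) (nat_lit 436) (nat_lit 5) (nat_lit 437) (nat_lit 5) (nat_lit 364) (nat_lit 362) (nat_lit 174)) (XT.lf (nat_lit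 76) (nat_lit 10365299749) (nat_lit 0) (nat_lit 3181019146) (nat_lit 1824) (nat_lit 13138506412) (nat_lit 414) (nat_lit 5) (nat_lit 413) (nat_lit 5) (nat_lit 437) (nat_lit 5) (nat_lit 365) (nat_lit 362) (nat_lit 173)))))) (XT.nd (nat_lit 390) (nat_lit 152) (nat_lit 0) (XT.nd (nat_lit 156) (nat_lit 0) (nat_lit 76) (XT.nd (nat_lit 78) (nat_lit 0) (nat_lit 76) (XT.lf (nat_lit 76) (nat_lit 3059370887) (nat_lit 0) (nat_lit 11463656172) (nat_lit 1824) (nat_lit 12564468071) (nat_lit 415) (nat_lit 5) (nat_lit 414) (nat_lit 5) (nat_lit 438) (nat_lit 5) (nat_lit 366) (nat_lit 362) (nat_lit 172)) (XT.lf (nat_lit 0) (nat_lit 15704550002) (nat_lit 1748) (nat_lit 4330497885) (nat_lit 1824) (nat_lit 7463688738) (nat_lit 415) (nat_lit 5) (nat_lit 438) (nat_lit 5) (nat_lit 439) (nat_lit 5) (nat_lit 367) (nat_lit 362) (nat_lit 171))) (XT.nd (nat_lit 78) (nat_lit 0) (nat_lit 76) (XT.lf (nat_lit 76) (nat_lit 16089242020)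 (nat_lit 0) (nat_lit 1008260627) (nat_lit 1824) (nat_lit 10821294833) (nat_lit 416) (nat_lit 5) (nat_lit 415) (nat_lit 5) (nat_lit 439) (nat_lit 5) (nat_lit 368) (nat_lit 362) (nat_lit 170)) (XT.nd (nat_lit 78) (nat_lit 0) (nat_lit 76) (XT.lf (nat_lit 76) (nat_lit 8821556184) (nat_lit 0) (nat_lit 9913197751) (nat_lit 1824) (nat_lit 9612657767) (nat_lit 417) (nat_lit 5) (nat_lit 416) (nat_lit 5) (nat_lit 440) (nat_lit 5) (nat_lit 369) (nat_lit 362) (nat_lit 169)) (XT.lf (nat_lit 76) (nat_lit 1412146310) (nat_lit 0) (nat_lit 19163375486) (nat_lit 1824) (nat_lit 8210276268) (nat_lit 418) (nat_lit 5) (nat_lit 417) (nat_lit 5) (nat_lit 441) (nat_lit 5) (nat_lit 370) (nat_lit 362) (nat_lit 168))))) (XT.nd (nat_lit 234) (nat_lit 456) (nat_lit 0) (XT.nd (nat_lit 78) (nat_lit 0) (nat_lit 0) (XT.lf (nat_lit 0) (nat_lit 22668254368) (nat_lit 1748) (nat_lit 6061628866) (nat_lit 1824) (nat_lit 503519591) (nat_lit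 418) (nat_lit 5) (nat_lit 441) (nat_lit 5) (nat_lit 442) (nat_lit 5) (nat_lit 371) (nat_lit 362) (nat_lit 167)) (XT.nd (nat_lit 78) (nat_lit 0) (nat_lit 76) (XT.lf (nat_lit 76) (nat_lit 15967778615) (nat_lit 0) (nat_lit 9083223207) (nat_lit 1824) (nat_lit 4638890844) (nat_lit 419) (nat_lit 5) (nat_lit 418) (nat_lit 5) (nat_lit 442) (nat_lit 5) (nat_lit 372) (nat_lit 362) (nat_lit 166)) (XT.lf (nat_lit 76) (nat_lit 8618849937) (nat_lit 0) (nat_lit 19051627209) (nat_lit 1824) (nat_lit 2486296696) (nat_lit 420) (nat_lit 5) (nat_lit 419) (nat_lit 5) (nat_lit 443) (nat_lit 5) (nat_lit 373) (nat_lit 362) (nat_lit 165)))) (XT.nd (nat_lit 46020) (nat_lit 608) (nat_lit 0) (XT.lf (nat_lit 76) (nat_lit 1125137027) (nat_lit 0) (nat_lit 29407692637) (nat_lit 1824) (nat_lit 101547434) (nat_lit 421) (nat_lit 5) (nat_lit 420) (nat_lit 5) (nat_lit 444) (nat_lit 5) (nat_lit 374) (nat_lit 362) (nat_lit 164)) (XT.nd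 (nat_lit 78) (nat_lit 0) (nat_lit 0) (XT.lf (nat_lit 0) (nat_lit 3103499838) (nat_lit 0) (nat_lit 3103499838) (nat_lit 1748) (nat_lit 6935987629) (nat_lit 412) (nat_lit 5) (nat_lit 412) (nat_lit 3) (nat_lit 435) (nat_lit 3) (nat_lit 363) (nat_lit 363) (nat_lit 174)) (XT.lf (nat_lit 0) (nat_lit 12822557154) (nat_lit 1748) (nat_lit 1315241475) (nat_lit 1824) (nat_lit 12537969844) (nat_lit 412) (nat_lit 5) (nat_lit 435) (nat_lit 3) (nat_lit 436) (nat_lit 5) (nat_lit 364) (nat_lit 363) (nat_lit 173))))))))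
noncomputable def xc127 : XT := (XT.nd (nat_lit 93834) (nat_lit 0) (nat_lit 0) (XT.nd (nat_lit 46800) (nat_lit 76) (nat_lit 0) (XT.nd (nat_lit 390) (nat_lit 0) (nat_lit 228) (XT.nd (nat_lit 156) (nat_lit 0) (nat_lit 76) (XT.nd (nat_lit 78) (nat_lit 0) (nat_lit 0) (XT.lf (nat_lit 0) (nat_lit 13428861963) (nat_lit 1748) (nat_lit 8899580894) (nat_lit 1824) (nat_lit 4745105391) (nat_lit 413) (nat_lit 5) (nat_lit 436) (nat_lit 5) (nat_lit 437) (nat_lit 5) (nat_lit 365) (nat_lit 363) (nat_lit 172)) (XT.lf (nat_lit 76) (nat_lit 10827233241) (nat_lit 0) (nat_lit 3394653194) (nat_lit 1824) (nat_lit 13258006219) (nat_lit 414) (nat_lit 5) (nat_lit 413) (nat_lit 5) (nat_lit 437) (nat_lit 5) (nat_lit 366) (nat_lit 363) (nat_lit 171))) (XT.nd (nat_lit 78) (nat_lit 0) (nat_lit 76) (XT.lf (nat_lit 76) (nat_lit 3305820683) (nat_lit 0) (nat_lit 11914494135) (nat_lit 1824) (nat_lit 12674482107) (nat_lit 415) (nat_lit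 5) (nat_lit 414) (nat_lit 5) (nat_lit 438) (nat_lit 5) (nat_lit 367) (nat_lit 363) (nat_lit 170)) (XT.nd (nat_lit 78) (nat_lit 0) (nat_lit 0) (XT.lf (nat_lit 0) (nat_lit 16428990093) (nat_lit 1748) (nat_lit 4304407019) (nat_lit 1824) (nat_lit 7585147075) (nat_lit 415) (nat_lit 5) (nat_lit 438) (nat_lit 5) (nat_lit 439) (nat_lit 5) (nat_lit 368) (nat_lit 363) (nat_lit 169)) (XT.lf (nat_lit 76) (nat_lit 16725394074) (nat_lit 0) (nat_lit 1131955929) (nat_lit 1824) (nat_lit 10893987068) (nat_lit 416) (nat_lit 5) (nat_lit 415) (nat_lit 5) (nat_lit 439) (nat_lit 5) (nat_lit 369) (nat_lit 363) (nat_lit 168))))) (XT.nd (nat_lit 156) (nat_lit 0) (nat_lit 152) (XT.nd (nat_lit 78) (nat_lit 0) (nat_lit 76) (XT.lf (nat_lit 76) (nat_lit 9242727417) (nat_lit 0) (nat_lit 10294226712) (nat_lit 1824) (nat_lit 9655993387) (nat_lit 417) (nat_lit 5) (nat_lit 416) (nat_lit 5) (nat_lit 440) (nat_lit 5) (nat_lit 370) (nat_lit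 363) (nat_lit 167)) (XT.lf (nat_lit 76) (nat_lit 1613837272) (nat_lit 0) (nat_lit 19812620141) (nat_lit 1824) (nat_lit 8218160236) (nat_lit 418) (nat_lit 5) (nat_lit 417) (nat_lit 5) (nat_lit 441) (nat_lit 5) (nat_lit 371) (nat_lit 363) (nat_lit 166))) (XT.nd (nat_lit 78) (nat_lit 0) (nat_lit 0) (XT.lf (nat_lit 0) (nat_lit 23574697413) (nat_lit 1748) (nat_lit 6083707230) (nat_lit 1824) (nat_lit 447393759) (nat_lit 418) (nat_lit 5) (nat_lit 441) (nat_lit 5) (nat_lit 442) (nat_lit 5) (nat_lit 372) (nat_lit 363) (nat_lit 165)) (XT.nd (nat_lit 78) (nat_lit 0) (nat_lit 76) (XT.lf (nat_lit 76) (nat_lit 16603990389) (nat_lit 0) (nat_lit 9419363367) (nat_lit 1824) (nat_lit 4552742942) (nat_lit 419) (nat_lit 5) (nat_lit 418) (nat_lit 5) (nat_lit 442) (nat_lit 5) (nat_lit 373) (nat_lit 363) (nat_lit 164)) (XT.lf (nat_lit 76) (nat_lit 9036870187) (nat_lit 0) (nat_lit 19678745553) (nat_lit 1824) (nat_lit 2341486744)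 (nat_lit 420) (nat_lit 5) (nat_lit 419) (nat_lit 5) (nat_lit 443) (nat_lit 5) (nat_lit 374) (nat_lit 363) (nat_lit 163)))))) (XT.nd (nat_lit 390) (nat_lit 0) (nat_lit 0) (XT.nd (nat_lit 156) (nat_lit 0) (nat_lit 76) (XT.nd (nat_lit 78) (nat_lit 0) (nat_lit 0) (XT.lf (nat_lit 0) (nat_lit 3265863200) (nat_lit 0) (nat_lit 3265863200) (nat_lit 1748) (nat_lit 7002731856) (nat_lit 412) (nat_lit 5) (nat_lit 412) (nat_lit 3) (nat_lit 435) (nat_lit 3) (nat_lit 364) (nat_lit 364) (nat_lit 172)) (XT.lf (nat_lit 0) (nat_lit 13475325251) (nat_lit 1748) (nat_lit 1213870163) (nat_lit 1824) (nat_lit 12781390433) (nat_lit 412) (nat_lit 5) (nat_lit 435) (nat_lit 3) (nat_lit 436) (nat_lit 5) (nat_lit 365) (nat_lit 364) (nat_lit 171))) (XT.nd (nat_lit 78) (nat_lit 0) (nat_lit 0) (XT.lf (nat_lit 0) (nat_lit 14092113984) (nat_lit 1748) (nat_lit 9021913522) (nat_lit 1824) (nat_lit 4766428347) (nat_lit 413) (nat_lit 5) (nat_lit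 436) (nat_lit 5) (nat_lit 437) (nat_lit 5) (nat_lit 366) (nat_lit 364) (nat_lit 170)) (XT.nd (nat_lit 78) (nat_lit 0) (nat_lit 76) (XT.lf (nat_lit 76) (nat_lit 11294358185) (nat_lit 0) (nat_lit 3607910901) (nat_lit 1824) (nat_lit 13396857363) (nat_lit 414) (nat_lit 5) (nat_lit 413) (nat_lit 5) (nat_lit 437) (nat_lit 5) (nat_lit 367) (nat_lit 364) (nat_lit 169)) (XT.lf (nat_lit 76) (nat_lit 3550785359) (nat_lit 0) (nat_lit 12372719117) (nat_lit 1824) (nat_lit 12803118865) (nat_lit 415) (nat_lit 5) (nat_lit 414) (nat_lit 5) (nat_lit 438) (nat_lit 5) (nat_lit 368) (nat_lit 364) (nat_lit 168))))) (XT.nd (nat_lit 234) (nat_lit 228) (nat_lit 0) (XT.nd (nat_lit 78) (nat_lit 0) (nat_lit 0) (XT.lf (nat_lit 0) (nat_lit 17160622724) (nat_lit 1748) (nat_lit 4286488799) (nat_lit 1824) (nat_lit 7716130345) (nat_lit 415) (nat_lit 5) (nat_lit 438) (nat_lit 5) (nat_lit 439) (nat_lit 5) (nat_lit 369) (nat_lit 364)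 (nat_lit 167)) (XT.nd (nat_lit 78) (nat_lit 0) (nat_lit 76) (XT.lf (nat_lit 76) (nat_lit 17371820609) (nat_lit 0) (nat_lit 1253997822) (nat_lit 1824) (nat_lit 10983322836) (nat_lit 416) (nat_lit 5) (nat_lit 415) (nat_lit 5) (nat_lit 439) (nat_lit 5) (nat_lit 370) (nat_lit 364) (nat_lit 166)) (XT.lf (nat_lit 76) (nat_lit 9667548637) (nat_lit 0) (nat_lit 10681885664) (nat_lit 1824) (nat_lit 9714695610) (nat_lit 417) (nat_lit 5) (nat_lit 416) (nat_lit 5) (nat_lit 440) (nat_lit 5) (nat_lit 371) (nat_lit 364) (nat_lit 165)))) (XT.nd (nat_lit 78) (nat_lit 380) (nat_lit 0) (XT.lf (nat_lit 76) (nat_lit 1812432966) (nat_lit 0) (nat_lit 20477074520) (nat_lit 1824) (nat_lit 8239967255) (nat_lit 418) (nat_lit 5) (nat_lit 417) (nat_lit 5) (nat_lit 441) (nat_lit 5) (nat_lit 372) (nat_lit 364) (nat_lit 164)) (XT.nd (nat_lit 46254) (nat_lit 456) (nat_lit 0) (XT.lf (nat_lit 0) (nat_lit 24495337726) (nat_lit 1748)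 (nat_lit 6115619426) (nat_lit 1824) (nat_lit 393673126) (nat_lit 418) (nat_lit 5) (nat_lit 441) (nat_lit 5) (nat_lit 442) (nat_lit 5) (nat_lit 373) (nat_lit 364) (nat_lit 163)) (XT.lf (nat_lit 0) (nat_lit 3429121749) (nat_lit 0) (nat_lit 3429121749) (nat_lit 1748) (nat_lit 7079591640) (nat_lit 412) (nat_lit 5) (nat_lit 412) (nat_lit 3) (nat_lit 435) (nat_lit 3) (nat_lit 365) (nat_lit 365) (nat_lit 170))))))) (XT.nd (nat_lit 47112) (nat_lit 0) (nat_lit 0) (XT.nd (nat_lit 390) (nat_lit 0) (nat_lit 0) (XT.nd (nat_lit 156) (nat_lit 0) (nat_lit 76) (XT.nd (nat_lit 78) (nat_lit 0) (nat_lit 76) (XT.lf (nat_lit 0) (nat_lit 14132286849) (nat_lit 1748) (nat_lit 1117541847) (nat_lit 1824) (nat_lit 13039732225) (nat_lit 412) (nat_lit 5) (nat_lit 435) (nat_lit 3) (nat_lit 436) (nat_lit 5) (nat_lit 366) (nat_lit 365) (nat_lit 169)) (XT.lf (nat_lit 0) (nat_lit 14760316335) (nat_lit 1748) (nat_lit 9156219907) (nat_lit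 1824) (nat_lit 4795338621) (nat_lit 413) (nat_lit 5) (nat_lit 436) (nat_lit 5) (nat_lit 437) (nat_lit 5) (nat_lit 367) (nat_lit 365) (nat_lit 168))) (XT.nd (nat_lit 78) (nat_lit 0) (nat_lit 76) (XT.lf (nat_lit 76) (nat_lit 11767327818) (nat_lit 0) (nat_lit 3821170484) (nat_lit 1824) (nat_lit 13554735331) (nat_lit 414) (nat_lit 5) (nat_lit 413) (nat_lit 5) (nat_lit 437) (nat_lit 5) (nat_lit 368) (nat_lit 365) (nat_lit 167)) (XT.nd (nat_lit 78) (nat_lit 0) (nat_lit 76) (XT.lf (nat_lit 76) (nat_lit 3794730029) (nat_lit 0) (nat_lit 12838905081) (nat_lit 1824) (nat_lit 12950057463) (nat_lit 415) (nat_lit 5) (nat_lit 414) (nat_lit 5) (nat_lit 438) (nat_lit 5) (nat_lit 369) (nat_lit 365) (nat_lit 166)) (XT.lf (nat_lit 0) (nat_lit 17900498366) (nat_lit 1748) (nat_lit 4276474328) (nat_lit 1824) (nat_lit 7856586691) (nat_lit 415) (nat_lit 5) (nat_lit 438) (nat_lit 5) (nat_lit 439) (nat_lit 5) (nat_lit 370)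 (nat_lit 365) (nat_lit 165))))) (XT.nd (nat_lit 46488) (nat_lit 228) (nat_lit 0) (XT.nd (nat_lit 78) (nat_lit 0) (nat_lit 76) (XT.lf (nat_lit 76) (nat_lit 18029335593) (nat_lit 0) (nat_lit 1374644635) (nat_lit 1824) (nat_lit 11088971221) (nat_lit 416) (nat_lit 5) (nat_lit 415) (nat_lit 5) (nat_lit 439) (nat_lit 5) (nat_lit 371) (nat_lit 365) (nat_lit 164)) (XT.lf (nat_lit 76) (nat_lit 10096645128) (nat_lit 0) (nat_lit 11076649097) (nat_lit 1824) (nat_lit 9788417957) (nat_lit 417) (nat_lit 5) (nat_lit 416) (nat_lit 5) (nat_lit 440) (nat_lit 5) (nat_lit 372) (nat_lit 365) (nat_lit 163))) (XT.nd (nat_lit 78) (nat_lit 0) (nat_lit 0) (XT.lf (nat_lit 0) (nat_lit 3593530563) (nat_lit 0) (nat_lit 3593530563) (nat_lit 1748) (nat_lit 7166404715) (nat_lit 412) (nat_lit 5) (nat_lit 412) (nat_lit 3) (nat_lit 435) (nat_lit 3) (nat_lit 366) (nat_lit 366) (nat_lit 168)) (XT.nd (nat_lit 78) (nat_lit 0) (nat_lit 76)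 (XT.lf (nat_lit 0) (nat_lit 14794451175) (nat_lit 1748) (nat_lit 1025943755) (nat_lit 1824) (nat_lit 13313005518) (nat_lit 412) (nat_lit 5) (nat_lit 435) (nat_lit 3) (nat_lit 436) (nat_lit 5) (nat_lit 367) (nat_lit 366) (nat_lit 167)) (XT.lf (nat_lit 0) (nat_lit 15434475558) (nat_lit 1748) (nat_lit 9302382589) (nat_lit 1824) (nat_lit 4831665009) (nat_lit 413) (nat_lit 5) (nat_lit 436) (nat_lit 5) (nat_lit 437) (nat_lit 5) (nat_lit 368) (nat_lit 366) (nat_lit 166)))))) (XT.nd (nat_lit 46800) (nat_lit 0) (nat_lit 0) (XT.nd (nat_lit 156) (nat_lit 76) (nat_lit 0) (XT.nd (nat_lit 78) (nat_lit 0) (nat_lit 76) (XT.lf (nat_lit 76) (nat_lit 12246786420) (nat_lit 0) (nat_lit 4034799147) (nat_lit 1824) (nat_lit 13731357830) (nat_lit 414) (nat_lit 5) (nat_lit 413) (nat_lit 5) (nat_lit 437) (nat_lit 5) (nat_lit 369) (nat_lit 366) (nat_lit 165)) (XT.lf (nat_lit 76) (nat_lit 4038104506) (nat_lit 0) (nat_lit 13313622983)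 (nat_lit 1824) (nat_lit 13115017885) (nat_lit 415) (nat_lit 5) (nat_lit 414) (nat_lit 5) (nat_lit 438) (nat_lit 5) (nat_lit 370) (nat_lit 366) (nat_lit 164))) (XT.nd (nat_lit 78) (nat_lit 228) (nat_lit 0) (XT.lf (nat_lit 0) (nat_lit 18649651086) (nat_lit 1748) (nat_lit 4274116155) (nat_lit 1824) (nat_lit 8006482083) (nat_lit 415) (nat_lit 5) (nat_lit 438) (nat_lit 5) (nat_lit 439) (nat_lit 5) (nat_lit 371) (nat_lit 366) (nat_lit 163)) (XT.nd (nat_lit 46488) (nat_lit 228) (nat_lit 0) (XT.lf (nat_lit 76) (nat_lit 18698748384) (nat_lit 0) (nat_lit 1494144770) (nat_lit 1824) (nat_lit 11210639039) (nat_lit 416) (nat_lit 5) (nat_lit 415) (nat_lit 5) (nat_lit 439) (nat_lit 5) (nat_lit 372) (nat_lit 366) (nat_lit 162)) (XT.lf (nat_lit 0) (nat_lit 3759339272) (nat_lit 0) (nat_lit 3759339272) (nat_lit 1748) (nat_lit 7263030683) (nat_lit 412) (nat_lit 5) (nat_lit 412) (nat_lit 3) (nat_lit 435) (nat_lit 3) (nat_lit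 367) (nat_lit 367) (nat_lit 166))))) (XT.nd (nat_lit 234) (nat_lit 0) (nat_lit 0) (XT.nd (nat_lit 78) (nat_lit 0) (nat_lit 76) (XT.lf (nat_lit 0) (nat_lit 15462807023) (nat_lit 1748) (nat_lit 938780369) (nat_lit 1824) (nat_lit 13601246024) (nat_lit 412) (nat_lit 5) (nat_lit 435) (nat_lit 3) (nat_lit 436) (nat_lit 5) (nat_lit 368) (nat_lit 367) (nat_lit 165)) (XT.nd (nat_lit 78) (nat_lit 0) (nat_lit 0) (XT.lf (nat_lit 0) (nat_lit 16115579136) (nat_lit 1748) (nat_lit 9460307950) (nat_lit 1824) (nat_lit 4875254067) (nat_lit 413) (nat_lit 5) (nat_lit 436) (nat_lit 5) (nat_lit 437) (nat_lit 5) (nat_lit 369) (nat_lit 367) (nat_lit 164)) (XT.lf (nat_lit 76) (nat_lit 12733370677) (nat_lit 0) (nat_lit 4249154035) (nat_lit 1824) (nat_lit 13926483067) (nat_lit 414) (nat_lit 5) (nat_lit 413) (nat_lit 5) (nat_lit 437) (nat_lit 5) (nat_lit 370) (nat_lit 367) (nat_lit 163)))) (XT.nd (nat_lit 46722) (nat_lit 152)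 (nat_lit 0) (XT.lf (nat_lit 76) (nat_lit 4281344517) (nat_lit 0) (nat_lit 13797441843) (nat_lit 1824) (nat_lit 13297759304) (nat_lit 415) (nat_lit 5) (nat_lit 414) (nat_lit 5) (nat_lit 438) (nat_lit 5) (nat_lit 371) (nat_lit 367) (nat_lit 162)) (XT.nd (nat_lit 78) (nat_lit 0) (nat_lit 76) (XT.lf (nat_lit 0) (nat_lit 16138325046) (nat_lit 1748) (nat_lit 855772417) (nat_lit 1824) (nat_lit 13904514191) (nat_lit 412) (nat_lit 5) (nat_lit 435) (nat_lit 3) (nat_lit 436) (nat_lit 5) (nat_lit 369) (nat_lit 368) (nat_lit 163)) (XT.lf (nat_lit 0) (nat_lit 16804597752) (nat_lit 1748) (nat_lit 9629925355) (nat_lit 1824) (nat_lit 4925969327) (nat_lit 413) (nat_lit 5) (nat_lit 436) (nat_lit 5) (nat_lit 437) (nat_lit 5) (nat_lit 370) (nat_lit 368) (nat_lit 162))))))))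

set_option maxRecDepth 10000000 in
noncomputable def Tp : PT := (PT.nd (nat_lit 7277088) (PT.nd (nat_lit 6528834) (PT.nd (nat_lit 5872386) (PT.nd (nat_lit 5263752) (PT.nd (nat_lit 4795284) pc0 pc1) (PT.nd (nat_lit 327990) pc2 pc3)) (PT.nd (nat_lit 375024) (PT.nd (nat_lit 233688) pc4 pc5) (PT.nd (nat_lit 186342) pc6 pc7))) (PT.nd (nat_lit 421434) (PT.nd (nat_lit 233844) (PT.nd (nat_lit 139620) pc8 pc9) (PT.nd (nat_lit 93912) pc10 pc11)) (PT.nd (nat_lit 186030) (PT.nd (nat_lit 93288) pc12 pc13) (PT.nd (nat_lit 48516) pc14 pc15)))) (PT.nd (nat_lit 424086) (PT.nd (nat_lit 234936) (PT.nd (nat_lit 139542) (PT.nd (nat_lit 48204) pc16 pc17) (PT.nd (nat_lit 47736) pc18 pc19)) (PT.nd (nat_lit 94848) (PT.nd (nat_lit 47502) pc20 pc21) (PT.nd (nat_lit 47190) pc22 pc23))) (PT.nd (nat_lit 234468) (PT.nd (nat_lit 93600) (PT.nd (nat_lit 46878) pc24 pc25) (PT.nd (nat_lit 89700) pc26 pc27)) (PT.nd (nat_lit 234234)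 (PT.nd (nat_lit 94068) pc28 pc29) (PT.nd (nat_lit 141492) pc30 pc31)))))

set_option maxRecDepth 10000000 in
noncomputable def Tx : XT := (XT.nd (nat_lit 12077754) (nat_lit 0) (nat_lit 608) XT.nil (XT.nd (nat_lit 5202288) (nat_lit 0) (nat_lit 0) (XT.nd (nat_lit 2388984) (nat_lit 0) (nat_lit 4256) (XT.nd (nat_lit 1637844) (nat_lit 0) (nat_lit 1824) (XT.nd (nat_lit 1123980) (nat_lit 0) (nat_lit 760) (XT.nd (nat_lit 794742) (nat_lit 0) (nat_lit 304) (XT.nd (nat_lit 515580) (nat_lit 0) (nat_lit 228) (XT.nd (nat_lit 373932) (nat_lit 0) (nat_lit 76) (XT.nd (nat_lit 234078) (nat_lit 0) (nat_lit 76) xc0 xc1) (XT.nd (nat_lit 93522) (nat_lit 0) (nat_lit 152) xc2 xc3)) (XT.nd (nat_lit 140244) (nat_lit 0) (nat_lit 76) (XT.nd (nat_lit 92586) (nat_lit 0) (nat_lit 0) xc4 xc5) (XT.nd (nat_lit 47502) (nat_lit 0) (nat_lit 0) xc6 xc7))) (XT.nd (nat_lit 187200) (nat_lit 0) (nat_lit 304) (XT.nd (nat_lit 93912) (nat_lit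 0) (nat_lit 228) (XT.nd (nat_lit 47034) (nat_lit 0) (nat_lit 228) xc8 xc9) (XT.nd (nat_lit 46722) (nat_lit 0) (nat_lit 0) xc10 xc11)) (XT.nd (nat_lit 92664) (nat_lit 0) (nat_lit 152) (XT.nd (nat_lit 46410) (nat_lit 0) (nat_lit 0) xc12 xc13) (XT.nd (nat_lit 3198) (nat_lit 1140) (nat_lit 0) xc14 xc15)))) (XT.nd (nat_lit 280254) (nat_lit 0) (nat_lit 684) (XT.nd (nat_lit 140712) (nat_lit 0) (nat_lit 304) (XT.nd (nat_lit 91806) (nat_lit 0) (nat_lit 304) (XT.nd (nat_lit 45942) (nat_lit 0) (nat_lit 152) xc16 xc17) (XT.nd (nat_lit 45708) (nat_lit 0) (nat_lit 2736) xc18 xc19)) (XT.nd (nat_lit 90948) (nat_lit 0) (nat_lit 380) (XT.nd (nat_lit 45552) (nat_lit 0) (nat_lit 228) xc20 xc21) (XT.nd (nat_lit 3198) (nat_lit 1672) (nat_lit 0) xc22 xc23))) (XT.nd (nat_lit 138060) (nat_lit 0) (nat_lit 228) (XT.nd (nat_lit 48360) (nat_lit 0) (nat_lit 0) (XT.nd (nat_lit 45162) (nat_lit 0) (nat_lit 1824) xc24 xc25) (XT.nd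 (nat_lit 44928) (nat_lit 0) (nat_lit 152) xc26 xc27)) (XT.nd (nat_lit 47814) (nat_lit 0) (nat_lit 152) (XT.nd (nat_lit 3198) (nat_lit 4560) (nat_lit 0) xc28 xc29) (XT.nd (nat_lit 3198) (nat_lit 1444) (nat_lit 0) xc30 xc31))))) (XT.nd (nat_lit 376038) (nat_lit 0) (nat_lit 1216) (XT.nd (nat_lit 189150) (nat_lit 0) (nat_lit 532) (XT.nd (nat_lit 94848) (nat_lit 0) (nat_lit 228) (XT.nd (nat_lit 47502) (nat_lit 0) (nat_lit 152) (XT.nd (nat_lit 44304) (nat_lit 0) (nat_lit 8512) xc32 xc33) (XT.nd (nat_lit 44148) (nat_lit 0) (nat_lit 6004) xc34 xc35)) (XT.nd (nat_lit 47190) (nat_lit 0) (nat_lit 152) (XT.nd (nat_lit 43992) (nat_lit 0) (nat_lit 4864) xc36 xc37) (XT.nd (nat_lit 43836) (nat_lit 0) (nat_lit 4028) xc38 xc39))) (XT.nd (nat_lit 93678) (nat_lit 0) (nat_lit 456) (XT.nd (nat_lit 46878) (nat_lit 0) (nat_lit 304) (XT.nd (nat_lit 43680) (nat_lit 0) (nat_lit 4180) xc40 xc41) (XT.nd (nat_lit 43602) (nat_lit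 0) (nat_lit 4256) xc42 xc43)) (XT.nd (nat_lit 46644) (nat_lit 0) (nat_lit 0) (XT.nd (nat_lit 43446) (nat_lit 0) (nat_lit 5092) xc44 xc45) (XT.nd (nat_lit 43290) (nat_lit 0) (nat_lit 7068) xc46 xc47)))) (XT.nd (nat_lit 187044) (nat_lit 0) (nat_lit 684) (XT.nd (nat_lit 93288) (nat_lit 0) (nat_lit 456) (XT.nd (nat_lit 46566) (nat_lit 0) (nat_lit 228) (XT.nd (nat_lit 43368) (nat_lit 0) (nat_lit 8588) xc48 xc49) (XT.nd (nat_lit 43524) (nat_lit 0) (nat_lit 9272) xc50 xc51)) (XT.nd (nat_lit 46800) (nat_lit 0) (nat_lit 228) (XT.nd (nat_lit 43602) (nat_lit 0) (nat_lit 9956) xc52 xc53) (XT.nd (nat_lit 43680) (nat_lit 0) (nat_lit 9272) xc54 xc55))) (XT.nd (nat_lit 93834) (nat_lit 0) (nat_lit 228) (XT.nd (nat_lit 46878) (nat_lit 0) (nat_lit 0) (XT.nd (nat_lit 43680) (nat_lit 0) (nat_lit 9728) xc56 xc57) (XT.nd (nat_lit 43758) (nat_lit 0) (nat_lit 9728) xc58 xc59)) (XT.nd (nat_lit 47034) (nat_lit 0) (nat_lit 228)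 (XT.nd (nat_lit 43836) (nat_lit 0) (nat_lit 8968) xc60 xc61) (XT.nd (nat_lit 43914) (nat_lit 0) (nat_lit 7372) xc62 xc63)))))) (XT.nd (nat_lit 934830) (nat_lit 0) (nat_lit 5548) (XT.nd (nat_lit 421668) (nat_lit 0) (nat_lit 2280) (XT.nd (nat_lit 230490) (nat_lit 0) (nat_lit 1292) (XT.nd (nat_lit 94458) (nat_lit 0) (nat_lit 456) (XT.nd (nat_lit 47190) (nat_lit 0) (nat_lit 228) (XT.nd (nat_lit 43992) (nat_lit 0) (nat_lit 6004) xc64 xc65) (XT.nd (nat_lit 44070) (nat_lit 0) (nat_lit 4104) xc66 xc67)) (XT.nd (nat_lit 47346) (nat_lit 0) (nat_lit 76) (XT.nd (nat_lit 44148) (nat_lit 0) (nat_lit 2508) xc68 xc69) (XT.nd (nat_lit 44226) (nat_lit 0) (nat_lit 456) xc70 xc71))) (XT.nd (nat_lit 95394) (nat_lit 0) (nat_lit 304) (XT.nd (nat_lit 47658) (nat_lit 0) (nat_lit 76) (XT.nd (nat_lit 3198) (nat_lit 11780) (nat_lit 0) xc72 xc73) (XT.nd (nat_lit 3198) (nat_lit 7296) (nat_lit 0) xc74 xc75)) (XT.nd (nat_lit 47814)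 (nat_lit 0) (nat_lit 304) (XT.nd (nat_lit 3198) (nat_lit 3192) (nat_lit 0) xc76 xc77) (XT.nd (nat_lit 44694) (nat_lit 0) (nat_lit 9424) xc78 xc79)))) (XT.nd (nat_lit 234312) (nat_lit 0) (nat_lit 988) (XT.nd (nat_lit 137748) (nat_lit 0) (nat_lit 608) (XT.nd (nat_lit 47970) (nat_lit 0) (nat_lit 0) (XT.nd (nat_lit 44772) (nat_lit 0) (nat_lit 3724) xc80 xc81) (XT.nd (nat_lit 44850) (nat_lit 0) (nat_lit 304) xc82 xc83)) (XT.nd (nat_lit 48204) (nat_lit 0) (nat_lit 380) (XT.nd (nat_lit 3198) (nat_lit 7828) (nat_lit 0) xc84 xc85) (XT.nd (nat_lit 3198) (nat_lit 1444) (nat_lit 0) xc86 xc87))) (XT.nd (nat_lit 138918) (nat_lit 0) (nat_lit 1444) (XT.nd (nat_lit 48360) (nat_lit 0) (nat_lit 304) (XT.nd (nat_lit 45162) (nat_lit 0) (nat_lit 3116) xc88 xc89) (XT.nd (nat_lit 45240) (nat_lit 0) (nat_lit 456) xc90 xc91)) (XT.nd (nat_lit 48672) (nat_lit 0) (nat_lit 0) (XT.nd (nat_lit 3198) (nat_lit 2052) (nat_lit 0) xc92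 xc93) (XT.nd (nat_lit 45552) (nat_lit 0) (nat_lit 456) xc94 xc95))))) (XT.nd (nat_lit 610818) (nat_lit 0) (nat_lit 5700) (XT.nd (nat_lit 281970) (nat_lit 0) (nat_lit 2128) (XT.nd (nat_lit 97890) (nat_lit 0) (nat_lit 456) (XT.nd (nat_lit 48906) (nat_lit 0) (nat_lit 380) (XT.nd (nat_lit 3198) (nat_lit 6232) (nat_lit 0) xc96 xc97) (XT.nd (nat_lit 45786) (nat_lit 0) (nat_lit 1748) xc98 xc99)) (XT.nd (nat_lit 91806) (nat_lit 0) (nat_lit 760) (XT.nd (nat_lit 45864) (nat_lit 0) (nat_lit 380) xc100 xc101) (XT.nd (nat_lit 46020) (nat_lit 0) (nat_lit 912) xc102 xc103))) (XT.nd (nat_lit 142194) (nat_lit 0) (nat_lit 1444) (XT.nd (nat_lit 49452) (nat_lit 0) (nat_lit 456) (XT.nd (nat_lit 3198) (nat_lit 2432) (nat_lit 0) xc104 xc105) (XT.nd (nat_lit 46332) (nat_lit 0) (nat_lit 456) xc106 xc107)) (XT.nd (nat_lit 93054) (nat_lit 0) (nat_lit 988) (XT.nd (nat_lit 46488) (nat_lit 0) (nat_lit 456) xc108 xc109) (XT.nd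 (nat_lit 46722) (nat_lit 0) (nat_lit 608) xc110 xc111)))) (XT.nd (nat_lit 422370) (nat_lit 0) (nat_lit 5700) (XT.nd (nat_lit 188136) (nat_lit 0) (nat_lit 2356) (XT.nd (nat_lit 93834) (nat_lit 0) (nat_lit 1140) (XT.nd (nat_lit 46878) (nat_lit 0) (nat_lit 532) xc112 xc113) (XT.nd (nat_lit 47112) (nat_lit 0) (nat_lit 608) xc114 xc115)) (XT.nd (nat_lit 94614) (nat_lit 0) (nat_lit 1368) (XT.nd (nat_lit 47268) (nat_lit 0) (nat_lit 608) xc116 xc117) (XT.nd (nat_lit 47502) (nat_lit 0) (nat_lit 608) xc118 xc119))) (XT.nd (nat_lit 281814) (nat_lit 0) (nat_lit 5624) (XT.nd (nat_lit 95628) (nat_lit 0) (nat_lit 1520) (XT.nd (nat_lit 47736) (nat_lit 0) (nat_lit 760) xc120 xc121) (XT.nd (nat_lit 92820) (nat_lit 0) (nat_lit 1520) xc122 xc123)) (XT.nd (nat_lit 187980) (nat_lit 0) (nat_lit 2660) (XT.nd (nat_lit 93756) (nat_lit 0) (nat_lit 1748) xc124 xc125) (XT.nd (nat_lit 140634) (nat_lit 0) (nat_lit 1216) xc126 xc127)))))))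 XT.nil))

set_option maxRecDepth 10000000 in
noncomputable def Te : XT := XT.nil

set_option maxRecDepth 10000000 in
noncomputable def Tz : ZL := (ZL.cons (nat_lit 76) (nat_lit 3) (nat_lit 132959296015141842644) (ZL.cons (nat_lit 152) (nat_lit 6) (nat_lit 262175388070233059178) (ZL.cons (nat_lit 2660) (nat_lit 3) (nat_lit 97785658394322926633) (ZL.cons (nat_lit 2812) (nat_lit 6) (nat_lit 192971128647140023798) (ZL.cons (nat_lit 2888) (nat_lit 6) (nat_lit 190456543038808449926) (ZL.cons (nat_lit 2964) (nat_lit 3) (nat_lit 95187973938759045042) (ZL.cons (nat_lit 3116) (nat_lit 6) (nat_lit 187866519862226928838) (ZL.cons (nat_lit 3192) (nat_lit 6) (nat_lit 185440651897175508952) (ZL.cons (nat_lit 3268) (nat_lit 3) (nat_lit 92681202083883696299) (ZL.cons (nat_lit 3420) (nat_lit 6) (nat_lit 182942007893172546468) (ZL.cons (nat_lit 3496) (nat_lit 6) (nat_lit 180603216129076239606) (ZL.cons (nat_lit 3572)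 (nat_lit 3) (nat_lit 90263623729873985653) (ZL.cons (nat_lit 3648) (nat_lit 6) (nat_lit 178343985271024407282) (ZL.cons (nat_lit 3724) (nat_lit 6) (nat_lit 178194260612057043540) (ZL.cons (nat_lit 3876) (nat_lit 6) (nat_lit 175941008817902751688) (ZL.cons (nat_lit 3952) (nat_lit 3) (nat_lit 87933626414131828123) (ZL.cons (nat_lit 4028) (nat_lit 6) (nat_lit 173765523216494087140) (ZL.cons (nat_lit 4104) (nat_lit 6) (nat_lit 173620159469923831076) (ZL.cons (nat_lit 4256) (nat_lit 6) (nat_lit 171451017057404067214) (ZL.cons (nat_lit 4332) (nat_lit 3) (nat_lit 85689704650236453296) (ZL.cons (nat_lit 4408) (nat_lit 6) (nat_lit 169357930223547793990) (ZL.cons (nat_lit 4484) (nat_lit 6) (nat_lit 169216800372508710436) (ZL.cons (nat_lit 4560) (nat_lit 6) (nat_lit 167339070057529311744) (ZL.cons (nat_lit 4636) (nat_lit 6) (nat_lit 167130443027744671946) (ZL.cons (nat_lit 4712) (nat_lit 3) (nat_lit 83530460466818374507)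 (ZL.cons (nat_lit 4788) (nat_lit 6) (nat_lit 165118514235491191480) (ZL.cons (nat_lit 4864) (nat_lit 6) (nat_lit 164981494962637712304) (ZL.cons (nat_lit 4940) (nat_lit 6) (nat_lit 163179255999716202892) (ZL.cons (nat_lit 5016) (nat_lit 6) (nat_lit 162976705485362183670) (ZL.cons (nat_lit 5092) (nat_lit 3) (nat_lit 81454604153308313713) (ZL.cons (nat_lit 5244) (nat_lit 6) (nat_lit 161044800744014485468) (ZL.cons (nat_lit 5320) (nat_lit 6) (nat_lit 160911772323768389178) (ZL.cons (nat_lit 5396) (nat_lit 6) (nat_lit 159184092666490527478) (ZL.cons (nat_lit 5472) (nat_lit 6) (nat_lit 158987441681680800076) (ZL.cons (nat_lit 5548) (nat_lit 3) (nat_lit 79460955220090130015) (ZL.cons (nat_lit 5700) (nat_lit 6) (nat_lit 157134534926394754456) (ZL.cons (nat_lit 5776) (nat_lit 6) (nat_lit 157005381120330583298) (ZL.cons (nat_lit 5852) (nat_lit 6) (nat_lit 155351433013172623734) (ZL.cons (nat_lit 5928) (nat_lit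 6) (nat_lit 155160509726949587420) (ZL.cons (nat_lit 6004) (nat_lit 3) (nat_lit 77548443581192978154) (ZL.cons (nat_lit 6080) (nat_lit 6) (nat_lit 153636577891798971098) (ZL.cons (nat_lit 6156) (nat_lit 6) (nat_lit 153385684236489657934) (ZL.cons (nat_lit 6232) (nat_lit 6) (nat_lit 153260292191767161666) (ZL.cons (nat_lit 6308) (nat_lit 6) (nat_lit 151679353830561072568) (ZL.cons (nat_lit 6384) (nat_lit 6) (nat_lit 151493991416752299450) (ZL.cons (nat_lit 6460) (nat_lit 3) (nat_lit 75716110968296717147) (ZL.cons (nat_lit 6536) (nat_lit 6) (nat_lit 150040027540847971398) (ZL.cons (nat_lit 6612) (nat_lit 6) (nat_lit 149796441467732133376) (ZL.cons (nat_lit 6688) (nat_lit 6) (nat_lit 149674701618486991370) (ZL.cons (nat_lit 6764) (nat_lit 6) (nat_lit 148466272946320508022) (ZL.cons (nat_lit 6840) (nat_lit 6) (nat_lit 148166159048634704074) (ZL.cons (nat_lit 6916) (nat_lit 6) (nat_lit 147986195540082497164)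 (ZL.cons (nat_lit 6992) (nat_lit 3) (nat_lit 73963112585498110157) (ZL.cons (nat_lit 7068) (nat_lit 6) (nat_lit 146601719640841382722) (ZL.cons (nat_lit 7144) (nat_lit 6) (nat_lit 146365228307719209886) (ZL.cons (nat_lit 7220) (nat_lit 6) (nat_lit 146247034279325868132) (ZL.cons (nat_lit 7296) (nat_lit 6) (nat_lit 145101756258461864478) (ZL.cons (nat_lit 7372) (nat_lit 6) (nat_lit 144810383542262054820) (ZL.cons (nat_lit 7448) (nat_lit 6) (nat_lit 144635661689298747140) (ZL.cons (nat_lit 7524) (nat_lit 3) (nat_lit 72288719014995841118) (ZL.cons (nat_lit 7676) (nat_lit 6) (nat_lit 143320302641488787850) (ZL.cons (nat_lit 7752) (nat_lit 6) (nat_lit 143090699405447843348) (ZL.cons (nat_lit 7828) (nat_lit 6) (nat_lit 142975947921570812518) (ZL.cons (nat_lit 7904) (nat_lit 6) (nat_lit 141893683592961840102) (ZL.cons (nat_lit 7980) (nat_lit 6) (nat_lit 141610797460729015190) (ZL.cons (nat_lit 8056) (nat_lit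 6) (nat_lit 141441164593774347538) (ZL.cons (nat_lit 8132) (nat_lit 3) (nat_lit 70692318384602190806) (ZL.cons (nat_lit 8208) (nat_lit 6) (nat_lit 140529279836347547252) (ZL.cons (nat_lit 8284) (nat_lit 6) (nat_lit 140194662736938139420) (ZL.cons (nat_lit 8360) (nat_lit 6) (nat_lit 139971746973791591358) (ZL.cons (nat_lit 8436) (nat_lit 6) (nat_lit 139860337766143988610) (ZL.cons (nat_lit 8588) (nat_lit 6) (nat_lit 138841057834802000704) (ZL.cons (nat_lit 8664) (nat_lit 6) (nat_lit 138566411104478869722) (ZL.cons (nat_lit 8740) (nat_lit 6) (nat_lit 138401719000639386564) (ZL.cons (nat_lit 8816) (nat_lit 3) (nat_lit 69173418808780874871) (ZL.cons (nat_lit 8892) (nat_lit 6) (nat_lit 137548799992755625720) (ZL.cons (nat_lit 8968) (nat_lit 6) (nat_lit 137223929022455229766) (ZL.cons (nat_lit 9044) (nat_lit 6) (nat_lit 137007505951439163688) (ZL.cons (nat_lit 9120) (nat_lit 6) (nat_lit 136899341672169646456)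 (ZL.cons (nat_lit 9196) (nat_lit 6) (nat_lit 136316760053461304044) (ZL.cons (nat_lit 9272) (nat_lit 6) (nat_lit 135943127685124728506) (ZL.cons (nat_lit 9348) (nat_lit 6) (nat_lit 135676480374131397456) (ZL.cons (nat_lit 9424) (nat_lit 6) (nat_lit 135516585127685297304) (ZL.cons (nat_lit 9500) (nat_lit 3) (nat_lit 67731651115746708447) (ZL.cons (nat_lit 9576) (nat_lit 6) (nat_lit 134722887945687756764) (ZL.cons (nat_lit 9652) (nat_lit 6) (nat_lit 134407479236658246130) (ZL.cons (nat_lit 9728) (nat_lit 6) (nat_lit 134197359750234881006) (ZL.cons (nat_lit 9804) (nat_lit 6) (nat_lit 134092345886866417676) (ZL.cons (nat_lit 9880) (nat_lit 6) (nat_lit 133562143575245777382) (ZL.cons (nat_lit 9956) (nat_lit 6) (nat_lit 133199393703074344820) (ZL.cons (nat_lit 10032) (nat_lit 6) (nat_lit 132940512818614800112) (ZL.cons (nat_lit 10108) (nat_lit 6) (nat_lit 132785274715269071810) (ZL.cons (nat_lit 10184)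 (nat_lit 3) (nat_lit 66366771874046244445) (ZL.cons (nat_lit 10260) (nat_lit 6) (nat_lit 132459880331145006108) (ZL.cons (nat_lit 10336) (nat_lit 6) (nat_lit 132051168164661027984) (ZL.cons (nat_lit 10412) (nat_lit 6) (nat_lit 131744946117059561348) (ZL.cons (nat_lit 10488) (nat_lit 6) (nat_lit 131540946615677653462) (ZL.cons (nat_lit 10564) (nat_lit 6) (nat_lit 131438991408523805570) (ZL.cons (nat_lit 10640) (nat_lit 6) (nat_lit 130961799317549779132) (ZL.cons (nat_lit 10716) (nat_lit 6) (nat_lit 130609614975635766934) (ZL.cons (nat_lit 10792) (nat_lit 6) (nat_lit 130358274311111937120) (ZL.cons (nat_lit 10868) (nat_lit 6) (nat_lit 130207557705921909644) (ZL.cons (nat_lit 10944) (nat_lit 3) (nat_lit 65078666732972322336) (ZL.cons (nat_lit 11020) (nat_lit 6) (nat_lit 129930335286048947652) (ZL.cons (nat_lit 11096) (nat_lit 6) (nat_lit 129533527357423726176) (ZL.cons (nat_lit 11172) (nat_lit 6) (nat_lit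 129236224398587350800) (ZL.cons (nat_lit 11248) (nat_lit 6) (nat_lit 129038166630255401396) (ZL.cons (nat_lit 11324) (nat_lit 6) (nat_lit 128939180992241956840) (ZL.cons (nat_lit 11400) (nat_lit 6) (nat_lit 128955874790907707582) (ZL.cons (nat_lit 11476) (nat_lit 6) (nat_lit 128515742991689079034) (ZL.cons (nat_lit 11552) (nat_lit 6) (nat_lit 128173816446141494380) (ZL.cons (nat_lit 11628) (nat_lit 6) (nat_lit 127929796383496999414) (ZL.cons (nat_lit 11704) (nat_lit 6) (nat_lit 127783469582341632930) (ZL.cons (nat_lit 11780) (nat_lit 3) (nat_lit 63867354092152726673) (ZL.cons (nat_lit 11856) (nat_lit 6) (nat_lit 128037566361790498612) (ZL.cons (nat_lit 11932) (nat_lit 6) (nat_lit 127555372552287008832) (ZL.cons (nat_lit 12008) (nat_lit 6) (nat_lit 127170122136146017106) (ZL.cons (nat_lit 12084) (nat_lit 6) (nat_lit 126881478486790312862) (ZL.cons (nat_lit 12160) (nat_lit 6) (nat_lit 126689189391322400816)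 (ZL.cons (nat_lit 12236) (nat_lit 6) (nat_lit 126593086830144299304) (ZL.cons (nat_lit 12312) (nat_lit 6) (nat_lit 126651576880581144824) (ZL.cons (nat_lit 12388) (nat_lit 6) (nat_lit 126224264454155291866) (ZL.cons (nat_lit 12464) (nat_lit 6) (nat_lit 125892296934206180550) (ZL.cons (nat_lit 12540) (nat_lit 6) (nat_lit 125655384252027059226) (ZL.cons (nat_lit 12616) (nat_lit 6) (nat_lit 125513319396536412152) (ZL.cons (nat_lit 12692) (nat_lit 3) (nat_lit 62732989116697245112) (ZL.cons (nat_lit 12768) (nat_lit 6) (nat_lit 125803566252198151792) (ZL.cons (nat_lit 12844) (nat_lit 6) (nat_lit 125335416922583113172) (ZL.cons (nat_lit 12920) (nat_lit 6) (nat_lit 124961387392349140624) (ZL.cons (nat_lit 12996) (nat_lit 6) (nat_lit 124681150839576612228) (ZL.cons (nat_lit 13072) (nat_lit 6) (nat_lit 124494462397374755876) (ZL.cons (nat_lit 13148) (nat_lit 6) (nat_lit 124401158939920288386) (ZL.cons (nat_lit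 13224) (nat_lit 6) (nat_lit 125010599686977306732) (ZL.cons (nat_lit 13300) (nat_lit 6) (nat_lit 124502802878537816010) (ZL.cons (nat_lit 13376) (nat_lit 6) (nat_lit 124087936445114657800) (ZL.cons (nat_lit 13452) (nat_lit 6) (nat_lit 123765637882057268172) (ZL.cons (nat_lit 13528) (nat_lit 6) (nat_lit 123535625569262004748) (ZL.cons (nat_lit 13604) (nat_lit 6) (nat_lit 123397698525096327980) (ZL.cons (nat_lit 13680) (nat_lit 3) (nat_lit 61675868115391891209) (ZL.cons (nat_lit 13832) (nat_lit 6) (nat_lit 123725694795184797698) (ZL.cons (nat_lit 13908) (nat_lit 6) (nat_lit 123271180882937187386) (ZL.cons (nat_lit 13984) (nat_lit 6) (nat_lit 122908045416690612096) (ZL.cons (nat_lit 14060) (nat_lit 6) (nat_lit 122635971093610487440) (ZL.cons (nat_lit 14136) (nat_lit 6) (nat_lit 122454720178851403600) (ZL.cons (nat_lit 14212) (nat_lit 6) (nat_lit 122364134297827648760) (ZL.cons (nat_lit 14288) (nat_lit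 6) (nat_lit 123003413646043458508) (ZL.cons (nat_lit 14364) (nat_lit 6) (nat_lit 122510407035908030626) (ZL.cons (nat_lit 14440) (nat_lit 6) (nat_lit 122107624090837003234) (ZL.cons (nat_lit 14516) (nat_lit 6) (nat_lit 121794712864567692916) (ZL.cons (nat_lit 14592) (nat_lit 6) (nat_lit 121571399939523747844) (ZL.cons (nat_lit 14668) (nat_lit 6) (nat_lit 121437490187906585932) (ZL.cons (nat_lit 14744) (nat_lit 3) (nat_lit 60696433300597688327) (ZL.cons (nat_lit 14820) (nat_lit 6) (nat_lit 122335328311663092414) (ZL.cons (nat_lit 14896) (nat_lit 6) (nat_lit 121804950150180268830) (ZL.cons (nat_lit 14972) (nat_lit 6) (nat_lit 121363674507221423868) (ZL.cons (nat_lit 15048) (nat_lit 6) (nat_lit 121011115802127661448) (ZL.cons (nat_lit 15124) (nat_lit 6) (nat_lit 120746965973894530714) (ZL.cons (nat_lit 15200) (nat_lit 6) (nat_lit 120570994211992507570) (ZL.cons (nat_lit 15276) (nat_lit 6) (nat_lit 120483046754687891220)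 (ZL.cons (nat_lit 15352) (nat_lit 6) (nat_lit 121720855028159289394) (ZL.cons (nat_lit 15428) (nat_lit 6) (nat_lit 121154193807115887458) (ZL.cons (nat_lit 15504) (nat_lit 6) (nat_lit 120675546612809646794) (ZL.cons (nat_lit 15580) (nat_lit 6) (nat_lit 120284495209828066804) (ZL.cons (nat_lit 15656) (nat_lit 6) (nat_lit 119980697902770483968) (ZL.cons (nat_lit 15732) (nat_lit 6) (nat_lit 119763889237679275162) (ZL.cons (nat_lit 15808) (nat_lit 6) (nat_lit 119633879770089797580) (ZL.cons (nat_lit 15884) (nat_lit 3) (nat_lit 59795277949748195254) (ZL.cons (nat_lit 15960) (nat_lit 6) (nat_lit 121159456877128987866) (ZL.cons (nat_lit 16036) (nat_lit 6) (nat_lit 120557569384667548696) (ZL.cons (nat_lit 16112) (nat_lit 6) (nat_lit 120042639130800729680) (ZL.cons (nat_lit 16188) (nat_lit 6) (nat_lit 119614216176471753988) (ZL.cons (nat_lit 16264) (nat_lit 6) (nat_lit 119271926171526353582) (ZL.cons (nat_lit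 16340) (nat_lit 6) (nat_lit 119015470027610692674) (ZL.cons (nat_lit 16416) (nat_lit 6) (nat_lit 118844623656832029430) (ZL.cons (nat_lit 16492) (nat_lit 6) (nat_lit 118759237775953761126) (ZL.cons (nat_lit 16568) (nat_lit 6) (nat_lit 120650643316498472036) (ZL.cons (nat_lit 16644) (nat_lit 6) (nat_lit 120014555560524375358) (ZL.cons (nat_lit 16720) (nat_lit 6) (nat_lit 119464399035239519108) (ZL.cons (nat_lit 16796) (nat_lit 6) (nat_lit 118999693021349965064) (ZL.cons (nat_lit 16872) (nat_lit 6) (nat_lit 118620031465057168956) (ZL.cons (nat_lit 16948) (nat_lit 6) (nat_lit 118325082623253690478) (ZL.cons (nat_lit 17024) (nat_lit 6) (nat_lit 118114588773650575132) (ZL.cons (nat_lit 17100) (nat_lit 6) (nat_lit 117988365989583121166) (ZL.cons (nat_lit 17176) (nat_lit 3) (nat_lit 58973151989649129967) (ZL.cons (nat_lit 17252) (nat_lit 6) (nat_lit 119524677856587601560) (ZL.cons (nat_lit 17328) (nat_lit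 6) (nat_lit 118940321067790087802) (ZL.cons (nat_lit 17404) (nat_lit 6) (nat_lit 118440388782482496524) (ZL.cons (nat_lit 17480) (nat_lit 6) (nat_lit 118024444166629122064) (ZL.cons (nat_lit 17556) (nat_lit 6) (nat_lit 117692123773478247884) (ZL.cons (nat_lit 17632) (nat_lit 6) (nat_lit 117443137225987314968) (ZL.cons (nat_lit 17708) (nat_lit 6) (nat_lit 117277266963095408900) (ZL.cons (nat_lit 17784) (nat_lit 6) (nat_lit 117194368049621362006) (ZL.cons (nat_lit 17860) (nat_lit 3) (nat_lit 58725669225113491530) (ZL.cons (nat_lit 17936) (nat_lit 6) (nat_lit 117476786658194616008) (ZL.cons (nat_lit 18012) (nat_lit 6) (nat_lit 117553153518395739002) (ZL.cons (nat_lit 18088) (nat_lit 6) (nat_lit 117680505759154799622) (ZL.cons (nat_lit 18164) (nat_lit 6) (nat_lit 117858954659128771804) (ZL.cons (nat_lit 18240) (nat_lit 6) (nat_lit 118088656144540933782) (ZL.cons (nat_lit 18316) (nat_lit 6) (nat_lit 118369810925427082586)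 (ZL.cons (nat_lit 18392) (nat_lit 6) (nat_lit 118702664671013235236) (ZL.cons (nat_lit 18468) (nat_lit 6) (nat_lit 119087508224378059252) (ZL.cons (nat_lit 18544) (nat_lit 6) (nat_lit 118469947296247868300) (ZL.cons (nat_lit 18620) (nat_lit 6) (nat_lit 117935814747427619514) (ZL.cons (nat_lit 18696) (nat_lit 6) (nat_lit 117484643860156207820) (ZL.cons (nat_lit 18772) (nat_lit 6) (nat_lit 117116040407444755288) (ZL.cons (nat_lit 18848) (nat_lit 6) (nat_lit 116829682308606426670) (ZL.cons (nat_lit 18924) (nat_lit 6) (nat_lit 116625319347826703032) (ZL.cons (nat_lit 19000) (nat_lit 6) (nat_lit 116502772955528204036) (ZL.cons (nat_lit 19076) (nat_lit 3) (nat_lit 58230968026169509187) (ZL.cons (nat_lit 19152) (nat_lit 6) (nat_lit 116600694684562950272) (ZL.cons (nat_lit 19228) (nat_lit 6) (nat_lit 116652354546737245160) (ZL.cons (nat_lit 19304) (nat_lit 6) (nat_lit 116755719410771229948) (ZL.cons (nat_lit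 19380) (nat_lit 6) (nat_lit 116910879595478138218) (ZL.cons (nat_lit 19456) (nat_lit 6) (nat_lit 117117970677718393482) (ZL.cons (nat_lit 19532) (nat_lit 6) (nat_lit 117377173610864827030) (ZL.cons (nat_lit 19608) (nat_lit 6) (nat_lit 117688714882917275552) (ZL.cons (nat_lit 19684) (nat_lit 6) (nat_lit 118052866714404716914) (ZL.cons (nat_lit 19760) (nat_lit 6) (nat_lit 117485530026251790934) (ZL.cons (nat_lit 19836) (nat_lit 6) (nat_lit 117000158875467721732) (ZL.cons (nat_lit 19912) (nat_lit 6) (nat_lit 116596329151338231966) (ZL.cons (nat_lit 19988) (nat_lit 6) (nat_lit 116273687992939324996) (ZL.cons (nat_lit 20064) (nat_lit 6) (nat_lit 116031953480812205656) (ZL.cons (nat_lit 20140) (nat_lit 6) (nat_lit 115870914390625889090) (ZL.cons (nat_lit 20216) (nat_lit 6) (nat_lit 115790430008612251326) (ZL.cons (nat_lit 20292) (nat_lit 3) (nat_lit 57900137579438091228) (ZL.cons (nat_lit 20368) (nat_lit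 6) (nat_lit 115826486813082844396) (ZL.cons (nat_lit 20444) (nat_lit 6) (nat_lit 115905144679090001078) (ZL.cons (nat_lit 20520) (nat_lit 6) (nat_lit 116036317487071833516) (ZL.cons (nat_lit 20596) (nat_lit 6) (nat_lit 116220119854045024868) (ZL.cons (nat_lit 20672) (nat_lit 6) (nat_lit 116456712384019551702) (ZL.cons (nat_lit 20748) (nat_lit 6) (nat_lit 116746301808332284968) (ZL.cons (nat_lit 20824) (nat_lit 6) (nat_lit 117089141166286022202) (ZL.cons (nat_lit 20900) (nat_lit 6) (nat_lit 116570565876169275806) (ZL.cons (nat_lit 20976) (nat_lit 6) (nat_lit 116132535888527128532) (ZL.cons (nat_lit 21052) (nat_lit 6) (nat_lit 115774668458710184328) (ZL.cons (nat_lit 21128) (nat_lit 6) (nat_lit 115496650887022486636) (ZL.cons (nat_lit 21204) (nat_lit 6) (nat_lit 115298240245488774368) (ZL.cons (nat_lit 21280) (nat_lit 6) (nat_lit 115179263165587319034) (ZL.cons (nat_lit 21356) (nat_lit 3) (nat_lit 57569807843381433466)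 (ZL.cons (nat_lit 21432) (nat_lit 6) (nat_lit 115074828685432256164) (ZL.cons (nat_lit 21508) (nat_lit 6) (nat_lit 115128038343471779898) (ZL.cons (nat_lit 21584) (nat_lit 6) (nat_lit 115234504153426784230) (ZL.cons (nat_lit 21660) (nat_lit 6) (nat_lit 115394319143674899750) (ZL.cons (nat_lit 21736) (nat_lit 6) (nat_lit 115607622958382362672) (ZL.cons (nat_lit 21812) (nat_lit 6) (nat_lit 115874601979523189224) (ZL.cons (nat_lit 21888) (nat_lit 6) (nat_lit 116195489489737211202) (ZL.cons (nat_lit 21964) (nat_lit 6) (nat_lit 115724255362762386734) (ZL.cons (nat_lit 22040) (nat_lit 6) (nat_lit 115332187669432785022) (ZL.cons (nat_lit 22116) (nat_lit 6) (nat_lit 115018943826327050096) (ZL.cons (nat_lit 22192) (nat_lit 6) (nat_lit 114784250125232759476) (ZL.cons (nat_lit 22268) (nat_lit 6) (nat_lit 114627901493983908440) (ZL.cons (nat_lit 22344) (nat_lit 6) (nat_lit 114549761317271638768) (ZL.cons (nat_lit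 22420) (nat_lit 3) (nat_lit 57198361687565125900) (ZL.cons (nat_lit 22496) (nat_lit 6) (nat_lit 114423721378963113594) (ZL.cons (nat_lit 22572) (nat_lit 6) (nat_lit 114504738980950484978) (ZL.cons (nat_lit 22648) (nat_lit 6) (nat_lit 114639846973171772392) (ZL.cons (nat_lit 22724) (nat_lit 6) (nat_lit 114829163411154159482) (ZL.cons (nat_lit 22800) (nat_lit 6) (nat_lit 115072853717027922122) (ZL.cons (nat_lit 22876) (nat_lit 6) (nat_lit 115371130824070037386) (ZL.cons (nat_lit 22952) (nat_lit 6) (nat_lit 114945858991407758480) (ZL.cons (nat_lit 23028) (nat_lit 6) (nat_lit 114598414884789366046) (ZL.cons (nat_lit 23104) (nat_lit 6) (nat_lit 114328494912277038192) (ZL.cons (nat_lit 23180) (nat_lit 6) (nat_lit 114135863221467608804) (ZL.cons (nat_lit 23256) (nat_lit 6) (nat_lit 114020351493407943430) (ZL.cons (nat_lit 23332) (nat_lit 3) (nat_lit 56990929397760062930) (ZL.cons (nat_lit 23408) (nat_lit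 6) (nat_lit 113791578362973654792) (ZL.cons (nat_lit 23484) (nat_lit 6) (nat_lit 113846384310754364236) (ZL.cons (nat_lit 23560) (nat_lit 6) (nat_lit 113956044095008018702) (ZL.cons (nat_lit 23636) (nat_lit 6) (nat_lit 114120653534963577686) (ZL.cons (nat_lit 23712) (nat_lit 6) (nat_lit 114340356464112264494) (ZL.cons (nat_lit 23788) (nat_lit 6) (nat_lit 114615344855887315846) (ZL.cons (nat_lit 23864) (nat_lit 6) (nat_lit 114234696609936246218) (ZL.cons (nat_lit 23940) (nat_lit 6) (nat_lit 113930576373911260856) (ZL.cons (nat_lit 24016) (nat_lit 6) (nat_lit 113702718411683794234) (ZL.cons (nat_lit 24092) (nat_lit 6) (nat_lit 113550923624063550508) (ZL.cons (nat_lit 24168) (nat_lit 6) (nat_lit 113475059374828337236) (ZL.cons (nat_lit 24244) (nat_lit 3) (nat_lit 56615528468764133531) (ZL.cons (nat_lit 24320) (nat_lit 6) (nat_lit 113258864881476114712) (ZL.cons (nat_lit 24396) (nat_lit 6) (nat_lit 113342313011523107238)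 (ZL.cons (nat_lit 24472) (nat_lit 6) (nat_lit 113481474243511033274) (ZL.cons (nat_lit 24548) (nat_lit 6) (nat_lit 113676470174632891976) (ZL.cons (nat_lit 24624) (nat_lit 6) (nat_lit 113927471189682867496) (ZL.cons (nat_lit 24700) (nat_lit 6) (nat_lit 113590146814325204940) (ZL.cons (nat_lit 24776) (nat_lit 6) (nat_lit 113328088588585080810) (ZL.cons (nat_lit 24852) (nat_lit 6) (nat_lit 113141067529546799850) (ZL.cons (nat_lit 24928) (nat_lit 6) (nat_lit 113028920220751008226) (ZL.cons (nat_lit 25004) (nat_lit 3) (nat_lit 56495774334701806262) (ZL.cons (nat_lit 25080) (nat_lit 6) (nat_lit 112741667326624134054) (ZL.cons (nat_lit 25156) (nat_lit 6) (nat_lit 112798117452838264786) (ZL.cons (nat_lit 25232) (nat_lit 6) (nat_lit 112911067030619528882) (ZL.cons (nat_lit 25308) (nat_lit 6) (nat_lit 113080614753773754636) (ZL.cons (nat_lit 25384) (nat_lit 6) (nat_lit 113306908770796902050) (ZL.cons (nat_lit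 25460) (nat_lit 6) (nat_lit 113011646405724100726) (ZL.cons (nat_lit 25536) (nat_lit 6) (nat_lit 112790425083173162258) (ZL.cons (nat_lit 25612) (nat_lit 6) (nat_lit 112643051502959333400) (ZL.cons (nat_lit 25688) (nat_lit 6) (nat_lit 112569396892051359346) (ZL.cons (nat_lit 25764) (nat_lit 3) (nat_lit 56147169863002431139) (ZL.cons (nat_lit 25840) (nat_lit 6) (nat_lit 112322981908271145360) (ZL.cons (nat_lit 25916) (nat_lit 6) (nat_lit 112408933482219547662) (ZL.cons (nat_lit 25992) (nat_lit 6) (nat_lit 112552269551167111476) (ZL.cons (nat_lit 26068) (nat_lit 6) (nat_lit 112753115360222625942) (ZL.cons (nat_lit 26144) (nat_lit 6) (nat_lit 112498689898339010280) (ZL.cons (nat_lit 26220) (nat_lit 6) (nat_lit 112317116054612523914) (ZL.cons (nat_lit 26296) (nat_lit 6) (nat_lit 112208235172286512626) (ZL.cons (nat_lit 26372) (nat_lit 3) (nat_lit 56085976056362967137) (ZL.cons (nat_lit 26448) (nat_lit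 6) (nat_lit 111916491210841059246) (ZL.cons (nat_lit 26524) (nat_lit 6) (nat_lit 111974634840841613898) (ZL.cons (nat_lit 26600) (nat_lit 6) (nat_lit 112090972905956315918) (ZL.cons (nat_lit 26676) (nat_lit 6) (nat_lit 112265607060805168444) (ZL.cons (nat_lit 26752) (nat_lit 6) (nat_lit 112050829077746004884) (ZL.cons (nat_lit 26828) (nat_lit 6) (nat_lit 111907747931907336088) (ZL.cons (nat_lit 26904) (nat_lit 6) (nat_lit 111836238600928720502) (ZL.cons (nat_lit 26980) (nat_lit 3) (nat_lit 55789145087250854158) (ZL.cons (nat_lit 27056) (nat_lit 6) (nat_lit 111607791622235979886) (ZL.cons (nat_lit 27132) (nat_lit 6) (nat_lit 111696321743402834256) (ZL.cons (nat_lit 27208) (nat_lit 6) (nat_lit 111843957894418824988) (ZL.cons (nat_lit 27284) (nat_lit 6) (nat_lit 111667672609247478998) (ZL.cons (nat_lit 27360) (nat_lit 6) (nat_lit 111561963014756205904) (ZL.cons (nat_lit 27436) (nat_lit 3) (nat_lit 55763368371669084335)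 (ZL.cons (nat_lit 27512) (nat_lit 6) (nat_lit 111308083283784446526) (ZL.cons (nat_lit 27588) (nat_lit 6) (nat_lit 111367971222685017814) (ZL.cons (nat_lit 27664) (nat_lit 6) (nat_lit 111487799429753160896) (ZL.cons (nat_lit 27740) (nat_lit 6) (nat_lit 111348885695929210608) (ZL.cons (nat_lit 27816) (nat_lit 6) (nat_lit 111279459160998515866) (ZL.cons (nat_lit 27892) (nat_lit 3) (nat_lit 55537623972207290219) (ZL.cons (nat_lit 27968) (nat_lit 6) (nat_lit 111105634435580880156) (ZL.cons (nat_lit 28044) (nat_lit 6) (nat_lit 111196820460382740156) (ZL.cons (nat_lit 28120) (nat_lit 6) (nat_lit 111094189786119368220) (ZL.cons (nat_lit 28196) (nat_lit 3) (nat_lit 55529994761303355356) (ZL.cons (nat_lit 28272) (nat_lit 6) (nat_lit 110909082155771592420) (ZL.cons (nat_lit 28348) (nat_lit 6) (nat_lit 110970766732839180850) (ZL.cons (nat_lit 28424) (nat_lit 6) (nat_lit 110903362329993846148) (ZL.cons (nat_lit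 28500) (nat_lit 3) (nat_lit 55389071319273320818) (ZL.cons (nat_lit 28576) (nat_lit 6) (nat_lit 110809440724447930348) (ZL.cons (nat_lit 28652) (nat_lit 3) (nat_lit 55388118292557626577) (ZL.cons (nat_lit 28728) (nat_lit 6) (nat_lit 110712701470735637072) (ZL.cons (nat_lit 28804) (nat_lit 1) (nat_lit 18446744073709551617) ZL.nil)))))))))))))))))))))))))))))))))))))))))))))))))))))))))))))))))))))))))))))))))))))))))))))))))))))))))))))))))))))))))))))))))))))))))))))))))))))))))))))))))))))))))))))))))))))))))))))))))))))))))))))))))))))))))))))))))))))))))))))))))))))))))))))))))))))))))))))))))))))))))))))))))))))))))))))))))))))))))))))))))))))))))))))))))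

noncomputable def vl : XL := ⟨(nat_lit 0), (nat_lit 76), (nat_lit 26821577), (nat_lit 152), (nat_lit 394334851), (nat_lit 76), (nat_lit 26821577), (nat_lit 1), (nat_lit 5), (nat_lit 2), (nat_lit 4), (nat_lit 1), (nat_lit 4), (nat_lit 0), (nat_lit 0), (nat_lit 0)⟩

noncomputable def cp0 : Nat := (nat_lit 470628745093977733127014752280128708066082527003099348481757874240014132893173148257960456440540801111306582412563629485430138912314246780902313856870638737043122069410372379411210325864668380906186254967085258780418006601505057994383429905701986336342198687590621233296986771332859708517996170496523070744588799842011542783152898966816065829682826670219585987913875912123210126542236293346759702966159253451681554546451524982213105973265547298522790370618036671893334959746391090511286929722845584683260649581452760458288552195266257801423562462434838083839718118978963984435647376455801864819935409687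4082138291652947780930357807172151570011347638579405800874850970693555662982536710385540985354281765254929140557814191261205770306604449459014226234240102032061061291952141523859973639651971406599471525280696255412370515908466598935725974832750052768592360223200710735861146016713466440041984853039760566083696390271482648982256160947088495712211952855815492807016967663048040857728006235448920444500126984555546262116348185518675328107991897499423838522049090689686729943054295366319247330453789219355134604260035703691318748801506231853541694575652486885623166878796919282091576917999919562658160268327401907465580769260960401011413950981055782891877653874512796083326949350981120242693526306438011084759399532430716765981933000533114974856263660717826319097692192742417320086825003285998705845341093169954263377623257738917975823317006874926621351508301621901700766665726503332219465961846913625890524136245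6900477174209649695243430722076119940616898729139093985435646347016037766643890186867793803789906239142894785126453985902225247708460000025699128370481715745848663477906570223838424165792450386851504676108168849573934490254403139955426507674591272526246517732707807997287128720465384240408018551035063751493350293905990609306627033002455974438706601481431534081332098978484352603270482393061004304236180948648638481816809157363682952852815574379028333185550171381343292205616729676392941167247424020198710396363996507606726468281594551638750697432044789389194937369394005008372581947398115793336790907661795228705271021171164181230732183314511549141091324482548863582479227220429049865312645546228179089569636591522233904425624533816743063569928845713074875786304913844893749437733981906426780855165328766872080590185739195047361158809626749744646832870751328885653611107097894027266395665029599216683678968126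1989844743475736219583786792012131040124245630026639293310234913701302793372184524211879004869939077655779597113108912955215745585835590671116362118439111923676133445369509697170460919545455005124622287262915050293369990444960723498237306902601563207084457059048181128102500949347944523904271130051669321464336052201559084894110699077498671286089805980697727646605059765782546495400756617354241553398367734783757669108367448483423144334986267408709488092133809740196440892887313208582243618058079281510378667018018149896274436876351230975088369892179107550266437375563228402534729500506802694070867081974271816507319200216449543913821092860793308088287423340467316590618242678235564064627996950747176816996122693719332095333109424073268172332758568991019665592593866218025355632809620243819544721149399362944828321115086541025885415084137010359295797295354642972475101604431237628381348922550023308808119023033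5762672600186191525035177234485607744672865565947993526549142031811651883531323069661483958909375621128940961983446235978511639420649460668043589044628998670936295110482880894440910932640567192227473598377357764001757647245829852270942221442662781987453622261866332999262681596509555702789465528150256941092727119166643315262152994951170677208031515827894227070733626820489635867115848713390938483173472659384070601932835856259081302553948789655697241734507285979724682622964271638691022045082940538448932954842838073102680516786817557950934882753002739568057127573053631688634517879742768752738258272170043169955306667961238052716312713858668791555337233845111161467215368926883711061958158184701116028353923573632445441622707641208247285461766708834663490450089671486030229677435077889739986399167223630982237895863028308301500525674830856702221866402366975456517579608770803935806531886176971889580889802408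8554265563753571705354424031610492797581643843853503415424131720320249078011041884828883964864050246821820496680652412933401617992991999834312636873929536806204623781763221476749368781194010890439822414145676755779257481130613246671586706663607324025977931326484853759697384771971788165705947222430421152681900037840289858600191397552590029811712552534583782159935333707461824246954071608006079996222145290617983610091375675419600718594031226297913698838398341870632886178604809194192534611245030025943341076625533047106497378099520963407938189193928796048149012580862481062251368065258495242922975408832894930199994617643560947795555230195975569652700321843648766620380441415913859288988197431604695532522003896325368344234932359720933767890928094314715316371003636949173275188330856422854703324295132124779606543750872479724454350823300744618973915114228426854568664827501211226355789139856683921945570297938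7270974198807573711646040446750376635154219723091702158006786800735988610279655768889943421487689196237318786972292991731513551131148066154074739406661567827531904808999522448245321016692363591224803161086842181707386583036647073330803197832029830337733294623233898108439832299056674527794715075078803079918633763572271285528877828908245394858150235530162873396930063283996959816107872158234788631718663101201848832556472553620770357949219775930568247454593913580466848142580212246610153556195391511821020983855755770105709801052920195418463691943961096892733280848240541786301832269952968840612433361716587578058466800780730466760702751874244939503816532960243395455141272826606825156651813453071810805751834869811173058653035341729389673415352542778606157531810219054935252680189521648318189538519683535736741038753527215721859213714684221481880042993448198189697096550116873474868945629599181814010652330571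0342998632990063335412979519213265249211479212917678048544284484024381687414667354143729816795464494037383381612769492702756128879923908640443413258132024748921871636575223943125768695603007830729798737063169605223717900688841895444147572623393604709089990439355225933458807457988272480379375669119666904402103265336564822246372466798115623206764976930305292135787571015439752322542932148224888709425430088292673937598141115126982045717647702924205104363895404161127969414032513100088412586281805527783458090393429794577876601091886571429883204765083680427329882618052965114587600720624153703631567804726548302336743339914935935214160817718978499301572756040368249040858809198565113850044786996627555641778971292706691375925154158355132798387674713735247109512929371504889751646212429788638852230880515212807526450388105486786033284304876176149509135901220614830061495253576851710838249318463266025160582876796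6604549396161922480682613041723565122190049297959518009276037938669909125635301634889383617058954767198774611349380521518043547111091345124463991248794275777015829702808377786020911361871481987557482851791507610097376586857567680078539035683678606294058773574728998433821211850285121113582758986933615263968556898738235506519121882414127018965797870298075273035846004598893245859880701276748073535176018881573695834177645303229473094919538097790051370229377202632989725561188867828942433797265053296767614874352078873356879735804822177261839040773983516339695859195118743365771536998667705102222870475313904867031293038456003861672158278459283926516731578170973723336765727215194335788676547705837148204716711358565347259833046539399853453940066608396196042319218162434601030118609363200281812388829721929184157680369468713579011850756876073945792514573007919610767626235112460507647878071171494034943059620113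561678685703611424127126241197038868981466535117769772320088932073240131094977576457867462894433034324993754627854646727445658800889948949785065044628470251978846503144557531476503685573325265258162483183785449718198127867164451563151681557859559512635914980244853560412458349933106130482083292088245001853149211589958358512158747711242188700339308180216191633464538539888422628496364525209064605646303244550609776208744962389234018524898806728976714778881831753461953620156272662326522123053293968477124254819855879694146178440640074320974752425853811036589535419456365008306668549688161660842506906701936558352894321294227245223491104107162579798360190111306052570926661986647233312558950965834676666774619975090777932673384612052486777934402610981047576385775799063611214399922513945851540390924672565248)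

noncomputable def cp1 : Nat := (nat_lit 4583913684342024078586964244487458127580021780578662451384969630786366294708489000359657870193020546309984183388398514909857721281257267002711950033843447953369198766411605886692517571400080649907817195825183668291348806364603254326221745470290449917118937228594222487957617079183607661603008968357632993025947300903758593149128419900412401037313788731641799592463667114609862646297762382464179562183195903523159773279956136164723206520851564243611023975891390226507281088524342891540576930468177295810354298294874009701241725221783091523726115090767501135617886965819459198690167069087791581119437780652779814529079171551373736723076193555281127094093760576605442154794851991869530568190674608826764898494069686922499809817587854342718827805062486213299944380729859141256612634844117448691233144848272239269265213401383674948709675418011700460214230143701387236591928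1858742338550855953898669348471409781779138501717905651768485947752605900300005566590362841731056401792181644493318775367772042344766188055362436034641276003826409099811157712844836469309256078051170658874363103456657455905387625049012388143382121801525225251385114253836596755890034246467462009994369621179729912796431042852912292297212898075174861207834665485246541409654114543207288651294503505593465794677398519494087216581450761194612476801259414542255252443600216568770246248263890910433582451010287192210665188917637454598312016330364906621181745214441362592116494794108391952411737170444692785730455051186429706324610210986459471188872180057038756509744931240643661124967014547667209501897692664311510000975687315638094603704366233125811785619652897479924447546592086486534403644434698093234274720238624970750932706854343382174559607138911919607098406704531605805820896575384409025672656972708698071011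0056603503876687044278148026523593180639899140523215295568092776492559118622661731498732361799832521687449380727319590790292174637740600761695111271811865950984969896800337603701825215407401822251972234060803205681488165778383455001850853864565542142742100134668798536958747781238020975065844425853126247210333840237979189332327266096873241911645280134602001487301760245502304813066195236787186145596151992678918384803638507783086137545814386350642794380556819489397280825884148924673795074766899143544904903378725349117856948496882850427140724728684179086098435921673121152089025472237418477624903857371090311857682170404405535874696709840803902854808912231769535811429036760744830953309819949393350673472062905037917683714837553106226798513861685259007789640321251398001124304209174861952054190189981063163894617726820770323762024055077341401401660600651674978735104373876019649349595064865191560652445856367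1136986040247252191297036870069402610917016043695805680299769536864713184718907338256032360755493016580828469547368554959200747834664098449475170899720701239659224712878292700348701341940645049753576235564059731563762773551380575279030911749541774241529349175423362391374883871700107184565631498377905095007715174826002428168537438787903675906980084100213399663694628261609386286449530736872120037843240352656268313842732810976281876058030710741613994411930831274272552330024744448528992259301397223844063819526054913704347666597396038735577771519944596238621094535492454405615836152582985695212898676221943295118186625316577445072872579037690549526711172787823387607162946149027419286082380746544173665382882042631328053236233644864134666297859268764915119852144209054377235295844336035621817462204840810567026005107178328542265413934004973687220613419668418178996119522676321703560632397274882033289904406643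0005207990615466908903663979342178679575522151738701488689484043960060597571632463910250031973896223415407597728436851811290442297414072648754743918861654730241447609198478611198175482969362452360131651628995959212423140852461364059780005461761257599577746658927504075411363258771913805101037600376542138024362861742556772641212256969540194168456034947359508844989580489596199478769055599629865972775615310813408785692634399054997201907652675071900369491826070119523188152725109398537955470657240864178044503762019637405475331650373978004432967898346089755549972445652352227468686918785018062311463846578236102074161588226144304698968648495792532026004707808253382102216942011923582004819698801018142491200550399969566930261902204330967057377555314766331198471981288295356204915301129465094206430452676124518057864669525008881970359595974530352784240524467960259528071596665865753428190761378647339463321256111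9190998646415266282993163830250496001811322799351684711985055017817428645520157360363510639731604251446108353282677938996901508167663857086918809612970335098817556325507475711052173375622531174333804902462303192601890721562621163978250885289058533891732962376957005936808137279944830580113191154869035813532949117149097118541488504615224282752333966003723592054201289372628018560472621874468342704671949835000284719023070745046705473943508749281256912601289402963719274223782218774877764330122223253641390229598800986817071793024919588533783511312040819827032226132103534936339565792946483452366817773601176599600465237273928333977146670007306668468232254224534294576970405195513709781688089593660302245669736054087498617290890798899499221413289210740994320956585968748795697254398808237414048998298683079864310017097773497317063941773384259641902077285541020548736899848797362884208992454044016463883632207595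3862112491742860187030109962272906710554805026575912040829692181633769650875722649072099289220891789147825314972137802924246213517980127728576941368580926221145918923755430616532955087376701907062860371745579618395203423177364307465094353770503924458259272185685125209722279066447503140033147084661585337518740721488601962652881399661705604933667093614456798723879932237780183656280267381371516003855931294338324080275296395749697278844201331277846521029158458420143356316284968707852637172001015098552758742611512599754830234558331539905613909191639687488753370828735863075597859493381176080484960148846139197663913497758874676782527800144329838720486449594288940735081309808717013652401646437887375667331754025724258960322970342637742585282665767364110297224225897969340502308895515106498536282512475391928009710912691404131713557942125808198730915805618863666698026881368449486896851747748569686746336813101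7549586259919715362168435998093119616621896060803437715054223079747039698005987948154897511848494230050033050157225996215053989082363975261707064854406655998488872064823230102376438111664149050482759349221313747614409852605164602695148389508084447795934550580496910486958003355363380528746779225442741652589279010830901411277096820618672496270425110081391137796104202457550048533047565420104947714442670058213333781182073578487341011202801633495682520613394716304693837904160964005954891590065199355968242587557859735317239303755518193730823554933192083156454964276729404226902506944514829757695986403375631480589465426127550578226479586329448801509587909733672633276005079777711733676422457340398229126652819413371890282443558316254464638378410437713152836478484141459677675727803067029734193618313755142992461364887676195089215106825473728735604590058150740776951759693326440892697692702491218073973407608693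5137239932955024574896427515442373774887746627467469128439767799717730800798494372731415831058672309429632916207088655810731357107401655712520747842258865707240586057009780279427802353162793861423809445813553100413376205399261118296305542218311500684052258909186631757267240623379052980936832764750957323819629253370010595992612430754762230303084985453287998014697804307340477840296835382525762870984656856299387826808351167541988535560451086047240600367943631533762391603024803677396276586774798019933420993439694423414858342353558800155798381900012048469053894665736498321120114583485798994900930269620551265828562188835512448637168698146862922467112499822660306593875703467076684495397351175822501850879200694658368115935140708434193076165818879377710874526167930499734433493988662045765567415226301806264511109696294150464234061554057294130398054052178514286189060970774095615580865825661737571393604879189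4638369838751965607036378952636834292245219577710862958496449059061702698938624927826296889169888728035109821954457274269580545578105227560832175036864341921627756855550993648979361378712016903882346492808436397709097613781254381831259375009670264550111925106367588657089856016448390347351993863894037462030519960201270870797242610713586283974133423170094425551238802540573486299332216612040692940573110368882716450468963121686821342231173028845827159267145726778331132487442534350889046601274476043513152139942638064608959970257865864756786763902348190537422731216456369858292991728495590915852994653425265871613516164835529687512661453461068946401983803917196740981032608300590787689013324207707155759809110437336715460382764337722120847312774966693296135561876465510662232996523351578325499523772243901744750482542399919020773138686986328386805362424167444332156217545202914853917121028290044415887577363211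6263289723758269235957914949006596013825297782588182811152279697040283864856319362280011137584468107510649132013681749769738364934726158554825519828843472321384716754754959725583014028671956839646408003164583230112057918215564869535671446944547499437536906093500918830810053857273996774115603381347791542897120188848709315531686830162483754457796721264416453500447979880633957250608006847225435411004720949158641243689146790287994101804170418392816942052550433659613365404007032792718326237295808776839463895139407576375100829706381259012646446944544053939648434024196856725005732194257149707848667747946352737423026496258284525439202595223257128335266732807375674677926149561431089901243259744997033798677712886540099923799332779772205029774973289500920604506959170921542032673893845031336428916372161204064467669687591275261552722287235660244254942482515499427726339516774255729212763510785689160603211361153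4050759778019748311328204580509294725955677582175545519515430490413064522586678654634717641809945892939483107968840366004454618151691743764701322074596888371058104779006720743616378403238717440286025979524479789086366514228517647080520059494586332316967678741262058129145231237668564003916127042826880724000363253145351964604178200621954420497356299520495539416586833080288369698501652891098764870153274116458568323729762163384353291071454951622015981109643850513936628160222204982217435527351398214638621354128263594414831770225212748394384226311409757212375047328873634763854970247256652502452676671682075626252702645805028170864718072403071744834695618056645846532307354417152597794237897070741612865623097443176036452827751351383137545425274479996464403635057027529004385169346395048932946997371780759504921895701462359127428720109762231335070143380229766927609289424675379047381109759827027739368893991530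1591100383792568552510304496985655439485505571354242930936891557717835794158072138540107640558246347570984540185807746570234344675052631407356432448230528969116775130324265670444320604202266656187504314957968889995483975593177883432849833810759750115658464300869251147533091821545374637552102167246831628736501080241248279150947526514879868636832988845530995530612648175263293099436584548278787057492091843294360165294675525325851372495811902128005302008480831567615462610085128454056257854263359929084264359964803616850715468894103394018104351501468925287009635222824885815321916666263579639582176886139682552796745742515884669555545787561742591261481558482808371108300792353616368687768951631561670489073804321125728795162561757982488967412808050319179909506657373179262362428760881332730490347193358925202546534682606025454536457784559584629806165963542340934372634560094965789106895503515285563761675977086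2574194574476160501649655471726999854426389167630463219216270320311967898102552279004265587518557585762833399913624136383468253086638773598293082795330906311018945296548671665022686065296259068495428890907146695560796250588132875048563238341817538006843834330226009924509415289676127868461540637972115844198308084604504319263029839080976899024441599157443514284353229795497003760287368450012924171266855999330249309885949372063961868321451333191274966032308090755607804369443722294783878619989265825353202058409782915787913046142056066767941828943069020974655513262459412644313985478030227520537097843196811186677276800985810964403086361752146183262074802619851365056517226786440041450086318547432648416325500942348656191662656600604581453384906033121309196592715824009116481399042055745525854945945277695630608532505774245447635162233632703579129542798861424100902456530145441027314746658503076126862538292393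6629788397587976085698080325813441781664587941705562057704596279381873596219697865057978679931352315172424339181514870560096837019976349715968294323081993887043753851410035600160906306231445656615134579069538586158605603957728702227791555799718244464775494712969297286729506142043427070160891721936629671302591792327266663553720059310939912141845525161655177329164391781382877186641220721334935745527202022182167161474387944672860354515128433487162844628655357059192030931039889413963978426677220134779149612747279615978598856512849030060448418221725295371743550275593142547672518663330400992527127871975312546078715612910335983809037034177368393974644087413687233291002644128815151115239600670009219826073378728177406106176932348287508816946674194277732533378192656416494707056779542963177828168098899282980667141393117975711127321696178129335078999126718553236960246084442465834916981124964276749134315266034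9848855973456765449619041788964797407127782810679243155225911218097321423741677940301365210947263814992409639337836943375763656348573351509936976105735369608771672018034909011702443257645669088473559530489415374127764520100387744985646636873419909282252408737626593664380232814281414743026843228462252132645381791755146460710334852736406606359003530717646679508015657458893526886137499844080076392752060473097896720463646311661566063809107432179207520685358266592551781551486091733962834288583487302356650101947811676145683109584876278821263792616847752891519364187397617707243989973055647198942596764756969062574881577230119594781143270449311483856960943846465947448066704371396619632225113227827556395346709267430965181011285715040323890964459080555293659268552594464222841543759026554045451431565459066734714183678153578529570643930034087543030793563676707684167042435943185774748077509188880287117802993329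5997023959856614836554905748720831450208678312587789518407286226745354635421232849696268018373014567828647935379261465828371485408868877594501854738264666158314961953180316179710512563501804516104633819772845770051830171971219462704183764127607882876814711518981775131533705340261811515541405499725191635451431388991656430402497001699854328067528478222589604872411156684488331207591058709175109605379359760963429021251165571553143420527207977893153340737071789003109524307958276729802912330025798860321117972946502906975220646584855015628634283056713557560693061173021809946351774660698767569178520110097487250786180097260481174226097010082265516903780502397896721873468259726360813825759958242059073152358258234624712045349149594833534852896407285896705016760059628389900924909265702654790369243292508074029534811342659519035975931807876340835478558891222046173003735504238089612530665023817866358608759032092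5179092723511397634822314115450854813929895638610189147480094936194089972803203274819631373438440980556567779588158265121011795195059906984465156136795528543192630336840690366263722067218092460074211011751218325010894162425531235338523865712011779495648830695353370785436575460340205187644960433290655977866034629670195730046181806857712755702462102640842417632056780675140407591565616170883664279449058174244077576063878422224860701685507330165981262666313263494685716925048225293154722885559245655334890532964005507269124126588729016453130021089028586599316941305127705450211442688)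

noncomputable def rc0 : Nat := (nat_lit 4583913684342024078586964244487458127580021780578662451384969630786366294708489000359657870193020546309984183388398514909857721281257267002711950033843447953369198766411605886692517571400080649907817195825183668291348806364603254326221745470290449917118937228594222487957617079183607661603008968357632993025947300903758593149128419900412401037313788731641799592463667114609862646297762382464179562183195903523159773279956136164723206520851564243611023975891390226507281088524342891540576930468177295810354298294874009701241725221783091523726115090767501135617886965819459198690167069087791581119437780652779814529079171551373736723076193555281127094093760576605442154794851991869530568190674608826764898494069686922499809817587854342718827805062486213299944380729859141256612634844117448691233144848272239269265213401383674948709675418011700460214230143701387236591928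1858742338550855953898669348471409781779138501717905651768485947752605900300005566590362841731056401792181644493318775367772042344766188055362436034641276003826409099811157712844836469309256078051170658874363103456657455905387625049012388143382121801525225251385114253836596755890034246467462009994369621179729912796431042852912292297212898075174861207834665485246541409654114543207288651294503505593465794677398519494087216581450761194612476801259414542255252443600216568770246248263890910433582451010287192210665188917637454598312016330364906621181745214441362592116494794108391952411737170444692785730455051186429706324610210986459471188872180057038756509744931240643661124967014547667209501897692664311510000975687315638094603704366233125811785619652897479924447546592086486534403644434698093234274720238624970750932706854343382174559607138911919607098406704531605805820896575384409025672656972708698071011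0056603503876687044278148026523593180639899140523215295568092776492559118622661731498732361799832521687449380727319590790292174637740600761695111271811865950984969896800337603701825215407401822251972234060803205681488165778383455001850853864565542142742100134668798536958747781238020975065844425853126247210333840237979189332327266096873241911645280134602001487301760245502304813066195236787186145596151992678918384803638507783086137545814386350642794380556819489397280825884148924673795074766899143544904903378725349117856948496882850427140724728684179086098435921673121152089025472237418477624903857371090311857682170404405535874696709840803902854808912231769535811429036760744830953309819949393350673472062905037917683714837553106226798513861685259007789640321251398001124304209174861952054190189981063163894617726820770323762024055077341401401660600651674978735104373876019649349595064865191560652445856367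1136986040247252191297036870069402610917016043695805680299769536864713184718907338256032360755493016580828469547368554959200747834664098449475170899720701239659224712878292700348701341940645049753576235564059731563762773551380575279030911749541774241529349175423362391374883871700107184565631498377905095007715174826002428168537438787903675906980084100213399663694628261609386286449530736872120037843240352656268313842732810976281876058030710741613994411930831274272552330024744448528992259301397223844063819526054913704347666597396038735577771519944596238621094535492454405615836152582985695212898676221943295118186625316577445072872579037690549526711172787823387607162946149027419286082380746544173665382882042631328053236233644864134666297859268764915119852144209054377235295844336035621817462204840810567026005107178328542265413934004973687220613419668418178996119522676321703560632397274882033289904406643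0005207990615466908903663979342178679575522151738701488689484043960060597571632463910250031973896223415407597728436851811290442297414072648754743918861654730241447609198478611198175482969362452360131651628995959212423140852461364059780005461761257599577746658927504075411363258771913805101037600376542138024362861742556772641212256969540194168456034947359508844989580489596199478769055599629865972775615310813408785692634399054997201907652675071900369491826070119523188152725109398537955470657240864178044503762019637405475331650373978004432967898346089755549972445652352227468686918785018062311463846578236102074161588226144304698968648495792532026004707808253382102216942011923582004819698801018142491200550399969566930261902204330967057377555314766331198471981288295356204915301129465094206430452676124518057864669525008881970359595974530352784240524467960259528071596665865753428190761378647339463321256111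9190998646415266282993163830250496001811322799351684711985055017817428645520157360363510639731604251446108353282677938996901508167663857086918809612970335098817556325507475711052173375622531174333804902462303192601890721562621163978250885289058533891732962376957005936808137279944830580113191154869035813532949117149097118541488504615224282752333966003723592054201289372628018560472621874468342704671949835000284719023070745046705473943508749281256912601289402963719274223782218774877764330122223253641390229598800986817071793024919588533783511312040819827032226132103534936339565792946483452366817773601176599600465237273928333977146670007306668468232254224534294576970405195513709781688089593660302245669736054087498617290890798899499221413289210740994320956585968748795697254398808237414048998298683079864310017097773497317063941773384259641902077285541020548736899848797362884208992454044016463883632207595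3862112491742860187030109962272906710554805026575912040829692181633769650875722649072099289220891789147825314972137802924246213517980127728576941368580926221145918923755430616532955087376701907062860371745579618395203423177364307465094353770503924458259272185685125209722279066447503140033147084661585337518740721488601962652881399661705604933667093614456798723879932237780183656280267381371516003855931294338324080275296395749697278844201331277846521029158458420143356316284968707852637172001015098552758742611512599754830234558331539905613909191639687488753370828735863075597859493381176080484960148846139197663913497758874676782527800144329838720486449594288940735081309808717013652401646437887375667331754025724258960322970342637742585282665767364110297224225897969340502308895515106498536282512475391928009710912691404131713557942125808198730915805618863666698026881368449486896851747748569686746336813101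7549586259919715362168435998093119616621896060803437715054223079747039698005987948154897511848494230050033050157225996215053989082363975261707064854406655998488872064823230102376438111664149050482759349221313747614409852605164602695148389508084447795934550580496910486958003355363380528746779225442741652589279010830901411277096820618672496270425110081391137796104202457550048533047565420104947714442670058213333781182073578487341011202801633495682520613394716304693837904160964005954891590065199355968242587557859735317239303755518193730823554933192083156454964276729404226902506944514829757695986403375631480589465426127550578226479586329448801509587909733672633276005079777711733676422457340398229126652819413371890282443558316254464638378410437713152836478484141459677675727803067029734193618313755142992461364887676195089215106825473728735604590058150740776951759693326440892697692702491218073973407608693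5137239932955024574896427515442373774887746627467469128439767799717730800798494372731415831058672309429632916207088655810731357107401655712520747842258865707240586057009780279427802353162793861423809445813553100413376205399261118296305542218311500684052258909186631757267240623379052980936832764750957323819629253370010595992612430754762230303084985453287998014697804307340477840296835382525762870984656856299387826808351167541988535560451086047240600367943631533762391603024803677396276586774798019933420993439694423414858342353558800155798381900012048469053894665736498321120114583485798994900930269620551265828562188835512448637168698146862922467112499822660306593875703467076684495397351175822501850879200694658368115935140708434193076165818879377710874526167930499734433493988662045765567415226301806264511109696294150464234061554057294130398054052178514286189060970774095615580865825661737571393604879189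4638369838751965607036378952636834292245219577710862958496449059061702698938624927826296889169888728035109821954457274269580545578105227560832175036864341921627756855550993648979361378712016903882346492808436397709097613781254381831259375009670264550111925106367588657089856016448390347351993863894037462030519960201270870797242610713586283974133423170094425551238802540573486299332216612040692940573110368882716450468963121686821342231173028845827159267145726778331132487442534350889046601274476043513152139942638064608959970257865864756786763902348190537422731216456369858292991728495590915852994653425265871613516164835529687512661453461068946401983803917196740981032608300590787689013324207707155759809110437336715460382764337722120847312774966693296135561876465510662232996523351578325499523772243901744750482542399919020773138686986328386805362424167444332156217545202914853917121028290044415887577363211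6263289723758269235957914949006596013825297782588182811152279697040283864856319362280011137584468107510649132013681749769738364934726158554825519828843472321384716754754959725583014028671956839646408003164583230112057918215564869535671446944547499437536906093500918830810053857273996774115603381347791542897120188848709315531686830162483754457796721264416453500447979880633957250608006847225435411004720949158641243689146790287994101804170418392816942052550433659613365404007032792718326237295808776839463895139407576375100829706381259012646446944544053939648434024196856725005732194257149707848667747946352737423026496258284525439202595223257128335266732807375674677926149561431089901243259744997033798677712886540099923799332779772205029774973289500920604506959170921542032673893845031336428916372161204064467669687591275261552722287235660244254942482515499427726339516774255729212763510785689160603211361153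4050759778019748311328204580509294725955677582175545519515430490413064522586678654634717641809945892939483107968840366004454618151691743764701322074596888371058104779006720743616378403238717440286025979524479789086366514228517647080520059494586332316967678741262058129145231237668564003916127042826880724000363253145351964604178200621954420497356299520495539416586833080288369698501652891098764870153274116458568323729762163384353291071454951622015981109643850513936628160222204982217435527351398214638621354128263594414831770225212748394384226311409757212375047328873634763854970247256652502452676671682075626252702645805028170864718072403071744834695618056645846532307354417152597794237897070741612865623097443176036452827751351383137545425274479996464403635057027529004385169346395048932946997371780759504921895701462359127428720109762231335070143380229766927609289424675379047381109759827027739368893991530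1591100383792568552510304496985655439485505571354242930936891557717835794158072138540107640558246347570984540185807746570234344675052631407356432448230528969116775130324265670444320604202266656187504314957968889995483975593177883432849833810759750115658464300869251147533091821545374637552102167246831628736501080241248279150947526514879868636832988845530995530612648175263293099436584548278787057492091843294360165294675525325851372495811902128005302008480831567615462610085128454056257854263359929084264359964803616850715468894103394018104351501468925287009635222824885815321916666263579639582176886139682552796745742515884669555545787561742591261481558482808371108300792353616368687768951631561670489073804321125728795162561757982488967412808050319179909506657373179262362428760881332730490347193358925202546534682606025454536457784559584629806165963542340934372634560094965789106895503515285563761675977086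2574194574476160501649655471726999854426389167630463219216270320311967898102552279004265587518557585762833399913624136383468253086638773598293082795330906311018945296548671665022686065296259068495428890907146695560796250588132875048563238341817538006843834330226009924509415289676127868461540637972115844198308084604504319263029839080976899024441599157443514284353229795497003760287368450012924171266855999330249309885949372063961868321451333191274966032308090755607804369443722294783878619989265825353202058409782915787913046142056066767941828943069020974655513262459412644313985478030227520537097843196811186677276800985810964403086361752146183262074802619851365056517226786440041450086318547432648416325500942348656191662656600604581453384906033121309196592715824009116481399042055745525854945945277695630608532505774245447635162233632703579129542798861424100902456530145441027314746658503076126862538292393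6629788397587976085698080325813441781664587941705562057704596279381873596219697865057978679931352315172424339181514870560096837019976349715968294323081993887043753851410035600160906306231445656615134579069538586158605603957728702227791555799718244464775494712969297286729506142043427070160891721936629671302591792327266663553720059310939912141845525161655177329164391781382877186641220721334935745527202022182167161474387944672860354515128433487162844628655357059192030931039889413963978426677220134779149612747279615978598856512849030060448418221725295371743550275593142547672518663330400992527127871975312546078715612910335983809037034177368393974644087413687233291002644128815151115239600670009219826073378728177406106176932348287508816946674194277732533378192656416494707056779542963177828168098899282980667141393117975711127321696178129335078999126718553236960246084442465834916981124964276749134315266034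9848855973456765449619041788964797407127782810679243155225911218097321423741677940301365210947263814992409639337836943375763656348573351509936976105735369608771672018034909011702443257645669088473559530489415374127764520100387744985646636873419909282252408737626593664380232814281414743026843228462252132645381791755146460710334852736406606359003530717646679508015657458893526886137499844080076392752060473097896720463646311661566063809107432179207520685358266592551781551486091733962834288583487302356650101947811676145683109584876278821263792616847752891519364187397617707243989973055647198942596764756969062574881577230119594781143270449311483856960943846465947448066704371396619632225113227827556395346709267430965181011285715040323890964459080555293659268552594464222841543759026554045451431565459066734714183678153578529570643930034087543030793563676707684167042435943185774748077509188880287117802993329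5997023959856614836554905748720831450208678312587789518407286226745354635421232849696268018373014567828647935379261465828371485408868877594501854738264666158314961953180316179710512563501804516104633819772845770051830171971219462704183764127607882876814711518981775131533705340261811515541405499725191635451431388991656430402497001699854328067528478222589604872411156684488331207591058709175109605379359760963429021251165571553143420527207977893153340737071789003109524307958276729802912330025798860321117972946502906975220646584855015628634283056713557560693061173021809946351774660698767569178520110097487250786180097260481174226097010082265516903780502397896721873468259726360813825759958242059073152358258234624712045349149594833534852896407285896705016760059628389900924909265702654790369243292508074029534811342659519035975931807876340835478558891222046173003735504238089612530665023817866358608759032092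5179092723511397634822314115450854813929895638610189147480094936194089972803203274819631373438440980556567779588158265121011795195059906984465156136795528543192630336840690366263722067218092460074211011751218325010894162425531235338523865712011779495648830695353370785436575460340205187644960433290655977866034629670195730046181806857712755702462102640842417632056780675140407591565616170883664279449058174244077576063878422224860701685507330165981262666313263494685716925048225293154722885559245655334890532964005507269124126588729016453130021089028586599316941305127705450211442688)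

end Vale.Agent.Lib.P154.PChain.BH.S7
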